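import Crest.Agent.T145.CorA_59
import Crest.Agent.T145.Pd_77
import Crest.Agent.T145.Rsd_63

-- ▼ part T145/Cor_59
section

/-!
# Row 145 (helper59): Gaussian comparison corollaries of the RSD inequalities
-/

set_option autoImplicit false

namespace Crest.Agent.T145

open Filter Topology Finset

namespace C59

section
variable {L L' : Type*} [AddCommGroup L] [AddCommGroup L'] {W ρ : L → ℝ}

theorem rsd_comp {ρ : L' → ℝ} (h : RSD ρ) (φ : L →+ L') : RSD fun s => ρ (φ s) :=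
  ⟨fun _ => h.nonneg _, fun s => by rw [map_neg, h.even], fun c => by
    have := (h.psd (φ c)).submatrix φ
    simp only [map_add, map_sub]
    exact this⟩

theorem pd_comp {G : L' → ℝ} (h : PD G) (φ : L →+ L') : PD fun s => G (φ s) := by
  have := Matrix.PosSemidef.submatrix h φ
  unfold PD
  simp only [map_sub]
  exact this

theorem se_summ (h : SE W) : Summable W := by simpa using h 0

theorem cen_wt (h : Cen ρ) : Wt ρ := Wt.of_pos h.nonneg (se_summ h.se) h.pos0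

theorem se_tilt (h : SE W) (f : L →+ ℝ) : SE (tilt W f) := fun g =>
  (h (f + g)).congr fun s => by rw [tilt, AddMonoidHom.add_apply, Real.exp_add, mul_assoc]

theorem wt_tilt (hW : Wt W) (h : SE W) (f : L →+ ℝ) : Wt (tilt W f) :=
  hW.mul_of_pos (h f) fun _ => Real.exp_pos _

theorem tilt_zero (W : L → ℝ) : tilt W 0 = W := funext fun s => by simp [tilt]

theorem tilt_tilt (W : L → ℝ) (f g : L →+ ℝ) : tilt (tilt W f) g = tilt W (f + g) :=
  funext fun s => by simp only [tilt, AddMonoidHom.add_apply, Real.exp_add, mul_assoc]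

theorem ex_exp_pos (hW : Wt W) (h : SE W) (f : L →+ ℝ) : 0 < Ex W fun s => Real.exp (f s) :=
  hW.ex_pos' (h f) fun _ => Real.exp_pos _

theorem exp_M (hW : Wt W) (h : SE W) (f : L →+ ℝ) :
    Real.exp (M W f) = Ex W fun s => Real.exp (f s) := Real.exp_log (ex_exp_pos hW h f)

theorem exp_M' (hW : Wt W) (h : SE W) (f : L →+ ℝ) :
    Real.exp (M W f) = Zs (tilt W f) / Zs W := exp_M hW h f

theorem M_eq (hW : Wt W) (h : SE W) (f : L →+ ℝ) :
    M W f = Real.log (Zs (tilt W f)) - Real.log (Zs W) :=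
  Real.log_div (wt_tilt hW h f).ne hW.ne

theorem M_tilt (hW : Wt W) (h : SE W) (f g : L →+ ℝ) :
    M (tilt W f) g = M W (f + g) - M W f := by
  rw [M_eq (wt_tilt hW h f) (se_tilt h f), M_eq hW h, M_eq hW h, tilt_tilt]
  ring

theorem M_zero (hW : Wt W) : M W 0 = 0 := by simp [M, hW.ex_const]

theorem ex_tilt (hW : Wt W) (f : L →+ ℝ) (F : L → ℝ) :
    Ex (tilt W f) F = Ex W (fun s => F s * Real.exp (f s)) / Ex W fun s => Real.exp (f s) := by
  simp only [mul_comm (F _)]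
  exact hW.ex_mul _ F

theorem ex_neg_arg (he : ∀ s, W (-s) = W s) (F : L → ℝ) : Ex W (fun s => F (-s)) = Ex W F := by
  unfold Ex
  congr 1
  rw [← (Equiv.neg L).tsum_eq]
  simp [he]

theorem ex_odd (he : ∀ s, W (-s) = W s) {F : L → ℝ} (hF : ∀ s, F (-s) = -F s) : Ex W F = 0 := by
  have h := ex_neg_arg he F
  simp only [hF, Ex_neg] at h
  linarith

theorem M_neg (he : ∀ s, W (-s) = W s) (f : L →+ ℝ) : M W (-f) = M W f := by
  rw [M, M, ← ex_neg_arg he]
  simp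

theorem vr_even (he : ∀ s, W (-s) = W s) (f g : L →+ ℝ) :
    Vr W f g = Ex W fun s => f s * g s := by
  rw [Vr, Cv, ex_odd he (F := fun s => f s) fun s => map_neg f s, zero_mul, sub_zero]

theorem vr_comm (W : L → ℝ) (f g : L →+ ℝ) : Vr W f g = Vr W g f := Cv_comm _ _ _

theorem vr_add_left (h0 : ∀ s, 0 ≤ W s) (h : SE W) (f f' g : L →+ ℝ) :
    Vr W (f + f') g = Vr W f g + Vr W f' g :=
  Cv_add_left (tm_lin h0 h f).ig (tm_lin h0 h f').ig (tm_mul h0 h f g).ig (tm_mul h0 h f' g).ig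

theorem vr_add_right (h0 : ∀ s, 0 ≤ W s) (h : SE W) (f g g' : L →+ ℝ) :
    Vr W f (g + g') = Vr W f g + Vr W f g' := by
  rw [vr_comm, vr_add_left h0 h, vr_comm W g, vr_comm W g']

theorem vr_smul_left (W : L → ℝ) (c : ℝ) (f g : L →+ ℝ) : Vr W (c • f) g = c * Vr W f g :=
  Cv_const_mul_left W _ _ c

theorem vr_smul_right (W : L → ℝ) (c : ℝ) (f g : L →+ ℝ) : Vr W f (c • g) = c * Vr W f g :=
  Cv_const_mul_right W _ _ c

theorem vr_neg_left (W : L → ℝ) (f g : L →+ ℝ) : Vr W (-f) g = -Vr W f g := Cv_neg_left W _ _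

theorem vr_neg_right (W : L → ℝ) (f g : L →+ ℝ) : Vr W f (-g) = -Vr W f g := Cv_neg_right W _ _

theorem vr_nonneg (hW : Wt W) (h : SE W) (f : L →+ ℝ) : 0 ≤ Vr W f f :=
  hW.cv_self_nonneg ((tm_mul hW.nonneg h f f).ig.congr fun _ _ => (sq _).symm)

theorem vr_line (h0 : ∀ s, 0 ≤ W s) (h : SE W) (f g : L →+ ℝ) (t : ℝ) :
    Vr W (f + t • g) (f + t • g) = Vr W f f + 2 * t * Vr W f g + t ^ 2 * Vr W g g := by
  rw [vr_add_left h0 h, vr_add_right h0 h, vr_add_right h0 h, vr_smul_left, vr_smul_left,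
    vr_smul_right, vr_smul_right, vr_comm W g f]
  ring

theorem exp_line (f g : L →+ ℝ) (t : ℝ) (s : L) :
    Real.exp ((f + t • g) s) = Real.exp (f s) * Real.exp (t * g s) := by
  rw [AddMonoidHom.add_apply, Real.exp_add, AddMonoidHom.smul_apply, smul_eq_mul]

/-- derivative of a tilted moment along a line of forces -/
theorem hasDerivAt_mom (h0 : ∀ s, 0 ≤ W s) {H : L → ℝ} (hH : Tm W H) (f g : L →+ ℝ) (t : ℝ) :
    HasDerivAt (fun t : ℝ => Ex W fun s => H s * Real.exp ((f + t • g) s))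
      (Ex W fun s => H s * g s * Real.exp ((f + t • g) s)) t := by
  have h1 := (hH.exp f).hasDerivAt h0 g t
  simp only [exp_line, ← mul_assoc]
  simpa only [mul_right_comm _ (Real.exp (f _)) (g _)] using h1

theorem hasDerivAt_M (hW : Wt W) (h : SE W) (f g : L →+ ℝ) (t : ℝ) :
    HasDerivAt (fun t : ℝ => M W (f + t • g)) (Ex (tilt W (f + t • g)) fun s => g s) t := by
  have h1 := hasDerivAt_mom hW.nonneg (tm_one h) f g t
  simp only [one_mul] at h1
  rw [ex_tilt hW]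
  exact h1.log (ex_exp_pos hW h _).ne'

theorem hasDerivAt_ex_tilt (hW : Wt W) (h : SE W) {H : L → ℝ} (hH : Tm W H) (f g : L →+ ℝ)
    (t : ℝ) : HasDerivAt (fun t : ℝ => Ex (tilt W (f + t • g)) H)
      (Cv (tilt W (f + t • g)) H fun s => g s) t := by
  have h1 := hasDerivAt_mom hW.nonneg (tm_one h) f g t
  simp only [one_mul] at h1
  have h2 := (hasDerivAt_mom hW.nonneg hH f g t).div h1 (ex_exp_pos hW h _).ne'
  simp only [Cv, ex_tilt hW]
  refine h2.congr_deriv ?_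
  have := (ex_exp_pos hW h (f + t • g)).ne'
  field_simp

theorem convex_of_vr (hW : Wt W) (h : SE W) (f g : L →+ ℝ)
    (hV : ∀ t : ℝ, Vr W g g ≤ Vr (tilt W (f + t • g)) g g) :
    ConvexOn ℝ Set.univ fun t : ℝ => M W (f + t • g) - Vr W (f + t • g) (f + t • g) / 2 := by
  simp only [vr_line hW.nonneg h]
  have h1 : ∀ t : ℝ, HasDerivAt (fun t : ℝ => M W (f + t • g) -
      (Vr W f f + 2 * t * Vr W f g + t ^ 2 * Vr W g g) / 2)
      ((Ex (tilt W (f + t • g)) fun s => g s) - (Vr W f g + t * Vr W g g)) t := fun t => by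
    have h2 := (((((hasDerivAt_id' t).const_mul 2).mul_const (Vr W f g)).const_add (Vr W f f)).add
      ((hasDerivAt_pow 2 t).mul_const (Vr W g g))).div_const 2
    refine ((hasDerivAt_M hW h f g t).sub h2).congr_deriv ?_
    simp
    ring
  have h2 : ∀ t : ℝ, HasDerivAt (fun t : ℝ => (Ex (tilt W (f + t • g)) fun s => g s) -
      (Vr W f g + t * Vr W g g)) (Vr (tilt W (f + t • g)) g g - Vr W g g) t := fun t => by
    have h2 := ((hasDerivAt_id' t).mul_const (Vr W g g)).const_add (Vr W f g)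
    rw [one_mul] at h2
    exact (hasDerivAt_ex_tilt hW h (tm_lin hW.nonneg h g) f g t).sub h2
  refine Monotone.convexOn_univ_of_deriv (fun t => (h1 t).differentiableAt) ?_
  rw [funext fun t => (h1 t).deriv]
  refine monotone_of_deriv_nonneg (fun t => (h2 t).differentiableAt) fun t => ?_
  rw [(h2 t).deriv]
  exact sub_nonneg.2 (hV t)

theorem summable_th (h0 : ∀ s, 0 ≤ W s) {f : L →+ ℝ} (h : Summable (tilt W f)) (ξ : L →+ ℝ) :
    Summable fun s => (W s : ℂ) * Complex.exp ((f s : ℂ) + (ξ s : ℂ) * Complex.I) :=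
  Summable.of_norm_bounded h fun s => by
    rw [norm_mul, Complex.norm_exp, Complex.norm_real, Real.norm_of_nonneg (h0 s)]
    simp [tilt]

theorem re_th (h0 : ∀ s, 0 ≤ W s) {f : L →+ ℝ} (h : Summable (tilt W f)) (ξ : L →+ ℝ) :
    (th W f ξ).re = ∑' s, tilt W f s * Real.cos (ξ s) := by
  rw [th, Complex.re_tsum (summable_th h0 h ξ)]
  refine tsum_congr fun s => ?_
  rw [Complex.re_ofReal_mul, Complex.exp_re]
  simp [tilt, mul_assoc]

theorem im_th (h0 : ∀ s, 0 ≤ W s) {f : L →+ ℝ} (h : Summable (tilt W f)) (ξ : L →+ ℝ) :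
    (th W f ξ).im = ∑' s, tilt W f s * Real.sin (ξ s) := by
  rw [th, Complex.im_tsum (summable_th h0 h ξ)]
  refine tsum_congr fun s => ?_
  rw [Complex.im_ofReal_mul, Complex.exp_im]
  simp [tilt, mul_assoc]

theorem th_zero (W : L → ℝ) (f : L →+ ℝ) : th W f 0 = Zs (tilt W f) := by
  rw [th, Zs, Complex.ofReal_tsum]
  simp [tilt]

theorem Ph_zero (hW : Wt W) : Ph W 0 = 1 := by simp [Ph, hW.ex_const]

theorem ph_ge (hW : Wt W) (h : SE W)
    (h4 : ∀ ξ η : L →+ ℝ, Ph W ξ ^ 2 * Ph W η ^ 2 ≤ Ph W (ξ + η) * Ph W (ξ - η)) (ξ : L →+ ℝ) :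
    Real.exp (-(Ex W fun s => ξ s * ξ s) / 2) ≤ Ph W ξ := by
  set v := Ex W fun s => ξ s * ξ s with hv
  have h1 : ∀ n : ℕ, Ph W (((1 : ℝ) / 2) ^ n • ξ) ^ 4 ^ n ≤ Ph W ξ := by
    intro n
    induction n with
    | zero => simp
    | succ n ih =>
      refine le_trans ?_ ih
      rw [pow_succ' 4, pow_mul]
      refine pow_le_pow_left₀ (by positivity) ?_ _
      have h2 := h4 (((1 : ℝ) / 2) ^ (n + 1) • ξ) (((1 : ℝ) / 2) ^ (n + 1) • ξ)
      rw [sub_self, Ph_zero hW, mul_one, ← add_smul, ← pow_add] at h2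
      rwa [show ((1 : ℝ) / 2) ^ n = (1 / 2) ^ (n + 1) + (1 / 2) ^ (n + 1) by ring]
  have hi := (tm_mul hW.nonneg h ξ ξ).ig
  have h2 : ∀ n : ℕ, 1 + (-v / 2) / ((4 ^ n : ℕ) : ℝ) ≤ Ph W (((1 : ℝ) / 2) ^ n • ξ) := fun n => by
    have e : 1 + (-v / 2) / ((4 ^ n : ℕ) : ℝ) =
        Ex W fun s => 1 - ξ s * ξ s / (2 * ((4 ^ n : ℕ) : ℝ)) := by
      rw [Ex_sub (hW.ig_const 1) (hi.div_const _), hW.ex_const, Ex_div_const]
      ring
    rw [e]
    refine Ex_mono hW.nonneg ((hW.ig_const 1).sub (hi.div_const _))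
      (hW.ig_bdd fun s => Real.abs_cos_le_one _) fun s => ?_
    refine le_trans (le_of_eq ?_) (Real.one_sub_sq_div_two_le_cos)
    rw [AddMonoidHom.smul_apply, smul_eq_mul, mul_pow, ← pow_mul, mul_comm n, pow_mul]
    push_cast
    rw [show ((1 : ℝ) / 2) ^ 2 = 4⁻¹ by norm_num, inv_pow]
    ring
  have h5 : Tendsto (fun n : ℕ => 4 ^ n) atTop atTop :=
    tendsto_pow_atTop_atTop_of_one_lt (by norm_num)
  refine le_of_tendsto ((Real.tendsto_one_add_div_pow_exp (-v / 2)).comp h5) ?_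
  have h6 : Tendsto (fun n : ℕ => 1 + (-v / 2) / ((4 ^ n : ℕ) : ℝ)) atTop (𝓝 (1 + 0)) :=
    ((tendsto_const_div_atTop_nhds_zero_nat (-v / 2)).comp h5).const_add 1
  filter_upwards [h6.eventually_const_lt (show (0 : ℝ) < 1 + 0 by norm_num)] with n hn
  exact (pow_le_pow_left₀ hn.le (h2 n) _).trans (h1 n)

theorem k4_of (hW : Wt W) (h : SE W) (he : ∀ s, W (-s) = W s) (f g : L →+ ℝ)
    (hV : ∀ t : ℝ, Vr W g g ≤ Vr (tilt W (t • f)) g g) :
    Vr W f f * Vr W g g + 2 * Vr W f g ^ 2 ≤ Ex W fun s => f s ^ 2 * g s ^ 2 := by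
  have hZ := (tm_one h).ty hW.nonneg f
  have hB := (tm_lin hW.nonneg h g).ty hW.nonneg f
  have hA := (tm_mul hW.nonneg h g g).ty hW.nonneg f
  simp only [one_mul, hW.ex_const] at hZ
  rw [ex_odd he (F := fun s => f s) fun s => map_neg f s, ← vr_even he] at hZ
  rw [ex_odd he (F := fun s => g s) fun s => map_neg g s, ← vr_even he] at hB
  rw [ex_odd he (F := fun s => g s * g s * f s) fun s => by simp, ← vr_even he] at hA
  have h1 := ((Ty.const (Vr W g g)).mul (hZ.mul hZ)).congr (fun _ => rfl) (a' := Vr W g g) (b' := 0)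
    (by ring) (by ring) rfl
  have h2 := ((hA.mul hZ).sub (hB.mul hB)).congr (fun _ => rfl) (a' := Vr W g g) (b' := 0)
    (by ring) (by ring) rfl
  have h3 := h1.le h2 fun t => by
    have h4 := hV t
    have h5 := ex_exp_pos hW h (t • f)
    simp only [Vr, Cv, ex_tilt hW] at h4
    rw [div_mul_div_comm, div_sub_div _ _ h5.ne' (by positivity), le_div_iff₀ (by positivity)] at h4
    refine le_of_mul_le_mul_left (le_trans (le_of_eq ?_) (h4.trans_eq ?_)) h5
    · simp only [Vr, Cv, AddMonoidHom.smul_apply, smul_eq_mul]; ring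
    · simp only [AddMonoidHom.smul_apply, smul_eq_mul]; ring
  have e : (fun s => f s ^ 2 * g s ^ 2) = fun s => g s * g s * f s * f s := funext fun s => by ring
  rw [e, vr_comm W f g]
  linarith

end

end C59

open C59

theorem corQ_of (hA : RsdAStmt) : CorQStmt := by
  intro L Q _ _ _ ρ hρ hs h0 q f g hq
  have hW0 : Wt (sl ρ 0) := Wt.of_pos (fun _ => hρ.nonneg _) (se_summ (hs 0)) (a := 0) h0
  have hWq : Wt (sl ρ q) := ⟨fun _ => hρ.nonneg _, se_summ (hs q), hq⟩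
  have he : ∀ s, sl ρ 0 (-s) = sl ρ 0 s := fun s => by
    rw [sl, sl, ← hρ.even, Prod.neg_mk, neg_neg, neg_zero]
  have key : ∀ g : L →+ ℝ,
      2 * M (sl ρ 0) g ≤ M (tilt (sl ρ q) f) g + M (tilt (sl ρ q) f) (-g) := fun g => by
    have h1 := hA L Q ρ hρ hs q 0 f g
    have p1 := (wt_tilt hWq (hs q) f).pos
    have p2 := (wt_tilt hW0 (hs 0) g).pos
    have p3 := (wt_tilt hWq (hs q) (f + g)).pos
    have p4 := (wt_tilt hWq (hs q) (f - g)).pos
    have p5 := hW0.pos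
    rw [add_zero, sub_zero] at h1
    have h2 := Real.log_le_log (by positivity) h1
    rw [Real.log_mul (by positivity) (by positivity), Real.log_mul (by positivity) (by positivity),
      Real.log_mul (by positivity) (by positivity), Real.log_pow, Real.log_pow, Real.log_pow] at h2
    rw [M_eq hW0 (hs 0), M_eq (wt_tilt hWq (hs q) f) (se_tilt (hs q) f),
      M_eq (wt_tilt hWq (hs q) f) (se_tilt (hs q) f), tilt_tilt, tilt_tilt, ← sub_eq_add_neg]
    push_cast at h2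
    linarith
  refine ⟨vr_le_of_sd hW0 (hs 0) (wt_tilt hWq (hs q) f) (se_tilt (hs q) f) g fun t => ?_, key g⟩
  rw [M_neg he, ← two_mul]
  exact key _

theorem cor_of (hA : RsdAStmt) (hC : RsdCStmt) : CorStmt := by
  intro L _ _ ρ hρ
  have hW := cen_wt hρ
  have hr : RSD fun p : L × Unit => ρ p.1 := rsd_comp hρ.toRSD (AddMonoidHom.fst L Unit)
  have hQ : ∀ f g : L →+ ℝ, Vr ρ g g ≤ Vr (tilt ρ f) g g ∧
      2 * M ρ g ≤ M (tilt ρ f) g + M (tilt ρ f) (-g) := fun f g =>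
    corQ_of hA L Unit _ hr (fun _ => hρ.se) hρ.pos0 () f g hW.pos
  have h7 := fun f g => convex_of_vr hW hρ.se f g fun t => (hQ _ g).1
  have h3 : ∀ ξ η : L →+ ℝ, Ph ρ ξ ^ 2 * Ph ρ η ^ 2 ≤ Ph ρ (ξ + η) * Ph ρ (ξ - η) := fun ξ η => by
    have h1 : ‖th ρ 0 ξ‖ ^ 2 * ‖th ρ 0 η‖ ^ 2 ≤
        (Zs (tilt ρ (0 + 0)) * ∑' s, ρ s * Real.cos ((ξ + η) s)) *
          (Zs (tilt ρ (0 - 0)) * ∑' s, ρ s * Real.cos ((ξ - η) s)) :=
      hC L Unit _ hr (fun _ => hρ.se) 0 0 0 0 ξ η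
    have h2 : ∀ ξ : L →+ ℝ, (Zs ρ * Ph ρ ξ) ^ 2 ≤ ‖th ρ 0 ξ‖ ^ 2 := fun ξ => by
      rw [Ph, ← hW.tsum_eq, sq_le_sq, abs_norm]
      have := re_th hρ.nonneg (hρ.se 0) ξ
      rw [tilt_zero] at this
      rw [← this]
      exact Complex.abs_re_le_norm _
    rw [add_zero, sub_zero, tilt_zero, hW.tsum_eq, hW.tsum_eq] at h1
    have h4 := (mul_le_mul (h2 ξ) (h2 η) (sq_nonneg _) (sq_nonneg _)).trans h1
    refine le_of_mul_le_mul_left (a := Zs ρ ^ 4) (le_trans (le_of_eq ?_) (h4.trans_eq ?_))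
      (pow_pos hW.pos 4)
    · ring
    · unfold Ph; ring
  refine ⟨fun f g => ?_, fun f => ?_, h3, fun ξ => ?_, fun f g => (hQ f g).1,
    fun f g => k4_of hW hρ.se hρ.even f g fun t => (hQ _ g).1, h7⟩
  · have := (hQ f g).2
    rw [M_tilt hW hρ.se, M_tilt hW hρ.se, ← sub_eq_add_neg] at this
    linarith
  · have := (h7 0 f).2 (Set.mem_univ 1) (Set.mem_univ (-1)) (show (0 : ℝ) ≤ 1 / 2 by norm_num)
      (show (0 : ℝ) ≤ 1 / 2 by norm_num) (by norm_num)
    simp only [zero_add, smul_eq_mul, one_smul, neg_smul, M_neg hρ.even, vr_neg_left,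
      vr_neg_right, neg_neg] at this
    rw [show (1 / 2 * 1 + 1 / 2 * -1 : ℝ) = 0 by norm_num, vr_smul_left, zero_smul,
      M_zero hW] at this
    linarith
  · rw [vr_even hρ.even]
    exact ph_ge hW hρ.se h3 ξ

theorem mono_of (hB : RsdBStmt) (hP : RsdPStmt) (hD : PDStmt) : MonoStmt := by
  intro L _ _ ρ hρ
  have hW := cen_wt hρ
  have hb : ∀ G : L → ℝ, PD G → ∀ s, |G s| ≤ G 0 := fun G hG s =>
    ((hD L L).2.2.2.2.2.1 G hG s).2
  refine ⟨fun G hG hG0 hG1 => ⟨fun f => ?_, fun G' hG' => ?_⟩, fun ρ' h1 h2 _ h4 f =>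
    vr_le_of_sd h1 h2 hW hρ.se f fun t => add_le_add (h4.1 _) (h4.1 _), fun ι T ℓ t f => ?_⟩
  · have h1 : |∑' s, tilt ρ f s * G s| * Zs ρ ≤ Zs (tilt ρ f) * ∑' s, ρ s * G s :=
      hB L Unit _ _ (rsd_comp hρ.toRSD (AddMonoidHom.fst L Unit))
        (pd_comp hG (AddMonoidHom.fst L Unit)) () f hW.summ (hρ.se f)
    have hG2 := hW.ex_pos (hW.ig_bdd (hb G hG)) hG0 hρ.pos0 hG1
    have hW' := hW.mul (hW.ig_bdd (hb G hG)) hG0 hG2
    have hi : Ig (fun s => ρ s * G s) fun s => Real.exp (f s) :=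
      ig_mul_iff.2 (Ig.bdd_mul hρ.nonneg (hρ.se f) (hb G hG))
    refine Real.log_le_log (hW'.ex_pos' hi fun _ => Real.exp_pos _) ?_
    rw [Ex_def, Ex_def, div_le_div_iff₀ hW'.pos hW.pos]
    refine le_trans (mul_le_mul_of_nonneg_right (le_trans (le_of_eq ?_) (le_abs_self _))
      hW.pos.le) h1
    exact tsum_congr fun s => mul_right_comm _ _ _
  · have hG2 := hW.ex_pos (hW.ig_bdd (hb G hG)) hG0 hρ.pos0 hG1
    have h1 := hP L ρ G G' hρ.toRSD hW.summ hG hG'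
    rw [hW.tsum_eq, hW.tsum_eq, hW.tsum_eq] at h1
    rw [hW.ex_mul, le_div_iff₀ hG2]
    refine le_of_mul_le_mul_left (a := Zs ρ * Zs ρ) (le_trans (le_of_eq ?_) (h1.trans_eq ?_))
      (mul_pos hW.pos hW.pos) <;> ring
  · let k : ι → L × ℤ →+ ℝ := fun j => (ℓ j).comp (AddMonoidHom.fst L ℤ) -
      t j • (Int.castAddHom ℝ).comp (AddMonoidHom.snd L ℤ)
    have h1 : |∑' s, tilt ρ f s * gq T k (s, 1)| * Zs ρ ≤
        Zs (tilt ρ f) * ∑' s, ρ s * gq T k (s, 0) :=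
      hB L ℤ _ _ (rsd_comp hρ.toRSD (AddMonoidHom.fst L ℤ)) ((hD (L × ℤ) L).2.2.2.2.1 ι T k) 1 f
        hW.summ (hρ.se f)
    have e0 : ∀ s, gq T k (s, 0) = gq T ℓ s := fun s => by simp [gq, k]
    have e1 : ∀ s, tilt ρ f s * gq T k (s, 1) = Real.exp (-((∑ j ∈ T, t j ^ 2) / 2)) *
        (ρ s * gq T ℓ s * Real.exp ((f + ∑ j ∈ T, t j • ℓ j) s)) := fun s => by
      have : ∑ j ∈ T, k j (s, 1) ^ 2 =
          ∑ j ∈ T, ℓ j s ^ 2 - 2 * ∑ j ∈ T, t j * ℓ j s + ∑ j ∈ T, t j ^ 2 := by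
        rw [mul_sum, ← sum_sub_distrib, ← sum_add_distrib]
        exact sum_congr rfl fun j _ => by simp [k]; ring
      rw [tilt, gq, gq, this, mul_left_comm, mul_assoc, mul_assoc, ← Real.exp_add, ← Real.exp_add,
        ← Real.exp_add]
      simp only [AddMonoidHom.add_apply, AddMonoidHom.finsetSum_apply, AddMonoidHom.smul_apply,
        smul_eq_mul]
      congr 2
      ring
    have hg := (hD L L).2.2.2.2.1 ι T ℓ
    have hg0 : ∀ s, 0 < gq T ℓ s := fun s => Real.exp_pos _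
    have hW' := hW.mul_of_pos (hW.ig_bdd (hb _ hg)) hg0
    have hs' : SE fun s => ρ s * gq T ℓ s := fun f =>
      ig_mul_iff.2 (Ig.bdd_mul hρ.nonneg (hρ.se f) (hb _ hg))
    simp only [e0, e1, tsum_mul_left] at h1
    rw [← Real.exp_le_exp, Real.exp_add, exp_M' hW' hs', exp_M' hW hρ.se, div_mul_eq_mul_div,
      div_le_div_iff₀ hW'.pos hW.pos]
    have h2 := (mul_le_mul_of_nonneg_right (le_abs_self _) hW.pos.le).trans h1
    rw [Real.exp_neg, mul_assoc, inv_mul_le_iff₀ (Real.exp_pos _)] at h2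
    exact h2.trans_eq (by unfold Zs; ring)

end Crest.Agent.T145
end

-- ▼ part T145/CorU_59

/-!
# Row 145 (helper59): `corStmt`, `corQStmt`, `monoStmt`, unconditional
-/

namespace Crest.Agent.T145

theorem corQStmt : CorQStmt := corQ_of rsdAStmt

theorem corStmt : CorStmt := cor_of rsdAStmt rsdCStmt

theorem monoStmt : MonoStmt := mono_of rsdBStmt rsdPStmt pdStmt

end Crest.Agent.T145
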