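import Crest.Agent.T145.Api_98

/-!
# Row 145: `Tame`, `SE`, `tilt`, derivatives of `M`, even weights (helper98)
-/

set_option autoImplicit false
set_option linter.unusedVariables false

namespace Crest.Agent.T145

open Finset

section gen
variable {α β : Type*} {W F G : α → ℝ}

theorem Zs_equiv (e : β ≃ α) (W : α → ℝ) : Zs (fun b => W (e b)) = Zs W := e.tsum_eq W
theorem Ex_equiv (e : β ≃ α) (W F : α → ℝ) :
    Ex (fun b => W (e b)) (fun b => F (e b)) = Ex W F := by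
  rw [Ex_def, Ex_def, Zs_equiv, e.tsum_eq fun a => W a * F a]
theorem ig_equiv (e : β ≃ α) : Ig (fun b => W (e b)) (fun b => F (e b)) ↔ Ig W F :=
  e.summable_iff (f := fun a => W a * F a)
/-- invariance under a symmetry of the weight -/
theorem Ex_symm (e : α ≃ α) (h : ∀ a, W (e a) = W a) (F : α → ℝ) :
    Ex W (fun a => F (e a)) = Ex W F := by
  rw [← Ex_equiv e W F]; simp only [h]
theorem ig_symm (e : α ≃ α) (h : ∀ a, W (e a) = W a) : Ig W (fun a => F (e a)) ↔ Ig W F := by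
  rw [← ig_equiv e (W := W) (F := F)]; simp only [h]

/-- Jensen for `exp` -/
theorem Wt.exp_ex_le (hW : Wt W) (hF : Ig W F) (hE : Ig W fun a => Real.exp (F a)) :
    Real.exp (Ex W F) ≤ Ex W fun a => Real.exp (F a) := by
  have h1 : Ex W (fun a => Real.exp (Ex W F) * (F a - Ex W F + 1)) = Real.exp (Ex W F) := by
    rw [Ex_const_mul, hW.ex_add_const (hF.sub (hW.ig_const _)), hW.ex_sub_const hF]; simp
  rw [← h1]
  refine Ex_mono hW.nonneg (((hF.sub (hW.ig_const _)).add (hW.ig_const _)).const_mul _) hE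
    fun a => ?_
  have := Real.add_one_le_exp (F a - Ex W F)
  calc _ ≤ Real.exp (Ex W F) * Real.exp (F a - Ex W F) := by gcongr
    _ = _ := by rw [← Real.exp_add]; congr 1; ring
theorem Wt.ex_le_log (hW : Wt W) (hF : Ig W F) (hE : Ig W fun a => Real.exp (F a)) :
    Ex W F ≤ Real.log (Ex W fun a => Real.exp (F a)) :=
  (Real.le_log_iff_exp_le (hW.ex_pos' hE fun a => Real.exp_pos _)).2 (hW.exp_ex_le hF hE)

/-- differentiation under the sum -/
theorem hasDerivAt_tsum_mul {Φ Φ' : ℝ → α → ℝ} {B : α → ℝ} {t ε : ℝ} (hε : 0 < ε)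
    (hB : Summable fun a => |W a| * B a) (h0 : Ig W (Φ t))
    (hd : ∀ a, ∀ y ∈ Set.Ioo (t - ε) (t + ε), HasDerivAt (fun y => Φ y a) (Φ' y a) y)
    (hb : ∀ a, ∀ y ∈ Set.Ioo (t - ε) (t + ε), |Φ' y a| ≤ B a) :
    HasDerivAt (fun y => ∑' a, W a * Φ y a) (∑' a, W a * Φ' t a) t := by
  have ht : t ∈ Set.Ioo (t - ε) (t + ε) := ⟨by linarith, by linarith⟩
  refine hasDerivAt_tsum_of_isPreconnected (g := fun a y => W a * Φ y a)
    (g' := fun a y => W a * Φ' y a) hB isOpen_Ioo isPreconnected_Ioo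
    (fun a y hy => (hd a y hy).const_mul _) (fun a y hy => ?_) ht h0 ht
  rw [Real.norm_eq_abs, abs_mul]
  exact mul_le_mul_of_nonneg_left (hb a y hy) (abs_nonneg _)
/-- differentiation under `Ex` -/
theorem hasDerivAt_Ex {Φ Φ' : ℝ → α → ℝ} {B : α → ℝ} {t ε : ℝ} (hW : ∀ a, 0 ≤ W a) (hε : 0 < ε)
    (hB : Ig W B) (h0 : Ig W (Φ t))
    (hd : ∀ a, ∀ y ∈ Set.Ioo (t - ε) (t + ε), HasDerivAt (fun y => Φ y a) (Φ' y a) y)
    (hb : ∀ a, ∀ y ∈ Set.Ioo (t - ε) (t + ε), |Φ' y a| ≤ B a) :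
    HasDerivAt (fun y => Ex W (Φ y)) (Ex W (Φ' t)) t :=
  (hasDerivAt_tsum_mul hε (Summable.congr hB fun a => by rw [abs_of_nonneg (hW a)])
    h0 hd hb).div_const _

end gen

/-- second order Taylor bound on `[0,1]` -/
theorem taylor2_le {φ φ' φ'' : ℝ → ℝ} {V : ℝ} (h1 : ∀ t, HasDerivAt φ (φ' t) t)
    (h2 : ∀ t, HasDerivAt φ' (φ'' t) t) (hV : ∀ t ∈ Set.Icc (0 : ℝ) 1, φ'' t ≤ V) :
    φ 1 ≤ φ 0 + φ' 0 + V / 2 := by
  have d2 : ∀ t, HasDerivAt (fun t => φ' 0 + V * t - φ' t) (V - φ'' t) t := fun t =>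
    ((((hasDerivAt_id' t).const_mul V).const_add (φ' 0)).fun_sub (h2 t)).congr_deriv (by ring)
  have m2 : MonotoneOn (fun t => φ' 0 + V * t - φ' t) (Set.Icc 0 1) :=
    monotoneOn_of_deriv_nonneg (convex_Icc 0 1) (fun t _ => (d2 t).continuousAt.continuousWithinAt)
      (fun t _ => (d2 t).differentiableAt.differentiableWithinAt) fun t ht => by
        rw [(d2 t).deriv]; exact sub_nonneg.2 (hV t (interior_subset ht))
  have d1 : ∀ t, HasDerivAt (fun t => φ' 0 * t + V * t ^ 2 / 2 - φ t) (φ' 0 + V * t - φ' t) t :=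
    fun t => ((((hasDerivAt_id' t).const_mul (φ' 0)).fun_add
        ((((hasDerivAt_id' t).fun_pow 2).const_mul V).div_const 2)).fun_sub (h1 t)).congr_deriv
          (by simp; ring)
  have m1 : MonotoneOn (fun t => φ' 0 * t + V * t ^ 2 / 2 - φ t) (Set.Icc 0 1) :=
    monotoneOn_of_deriv_nonneg (convex_Icc 0 1) (fun t _ => (d1 t).continuousAt.continuousWithinAt)
      (fun t _ => (d1 t).differentiableAt.differentiableWithinAt) fun t ht => by
        rw [(d1 t).deriv]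
        have ht' := interior_subset ht
        simpa using m2 ⟨le_rfl, zero_le_one⟩ ht' ht'.1
  have := m1 ⟨le_rfl, zero_le_one⟩ ⟨zero_le_one, le_rfl⟩ zero_le_one
  simp at this; linarith
theorem taylor2_ge {φ φ' φ'' : ℝ → ℝ} {V : ℝ} (h1 : ∀ t, HasDerivAt φ (φ' t) t)
    (h2 : ∀ t, HasDerivAt φ' (φ'' t) t) (hV : ∀ t ∈ Set.Icc (0 : ℝ) 1, V ≤ φ'' t) :
    φ 0 + φ' 0 + V / 2 ≤ φ 1 := by
  have := taylor2_le (V := -V) (fun t => (h1 t).neg) (fun t => (h2 t).neg)
    fun t ht => neg_le_neg (hV t ht)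
  simp only [Pi.neg_apply] at this; linarith

section grp
variable {L : Type*} [AddCommGroup L] {W F G : L → ℝ}

/-! ### `Tame` -/

theorem Tame.of_index {ι : Type*} (T : Finset ι) (ℓ : ι → L →+ ℝ) (C : ℝ)
    (h : ∀ s, |F s| ≤ C * ∑ i ∈ T, Real.exp (ℓ i s)) : Tame F := by
  classical
  refine ⟨|C| * T.card, T.image ℓ, fun s => (h s).trans ?_⟩
  have h1 : ∑ i ∈ T, Real.exp (ℓ i s) ≤ T.card * ∑ f ∈ T.image ℓ, Real.exp (f s) := by
    rw [← nsmul_eq_mul]
    exact sum_le_card_nsmul _ _ _ fun i hi =>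
      single_le_sum (f := fun f : L →+ ℝ => Real.exp (f s)) (fun _ _ => (Real.exp_pos _).le)
        (mem_image_of_mem ℓ hi)
  calc _ ≤ |C| * ∑ i ∈ T, Real.exp (ℓ i s) := by gcongr; exact le_abs_self C
    _ ≤ _ := by rw [mul_assoc]; gcongr
theorem Tame.exists_nonneg (h : Tame F) : ∃ (C : ℝ) (T : Finset (L →+ ℝ)), 0 ≤ C ∧
    ∀ s, |F s| ≤ C * ∑ f ∈ T, Real.exp (f s) := by
  obtain ⟨C, T, h⟩ := h
  exact ⟨|C|, T, abs_nonneg C, fun s => (h s).trans (by gcongr; exact le_abs_self C)⟩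
theorem Tame.of_abs_le (hG : Tame G) (h : ∀ s, |F s| ≤ |G s|) : Tame F := by
  obtain ⟨C, T, hG⟩ := hG
  exact ⟨C, T, fun s => (h s).trans (hG s)⟩
theorem Tame.of_le (hG : Tame G) (h : ∀ s, |F s| ≤ G s) : Tame F :=
  hG.of_abs_le fun s => (h s).trans (le_abs_self _)
theorem Tame.congr (hF : Tame F) (h : ∀ s, F s = G s) : Tame G :=
  hF.of_abs_le fun s => by rw [h s]
theorem Tame.bdd {C : ℝ} (h : ∀ s, |F s| ≤ C) : Tame F := ⟨C, {0}, fun s => by simpa using h s⟩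
theorem Tame.const (c : ℝ) : Tame fun _ : L => c := Tame.bdd fun _ => le_rfl
theorem Tame.ind (p : L → Prop) : Tame fun s => ind (p s) := Tame.bdd fun s => abs_ind_le _
theorem Tame.exp (f : L →+ ℝ) : Tame fun s => Real.exp (f s) :=
  ⟨1, {f}, fun s => by simp [abs_of_pos (Real.exp_pos _)]⟩
theorem Tame.cos (Φ : L → ℝ) : Tame fun s => Real.cos (Φ s) :=
  Tame.bdd fun s => Real.abs_cos_le_one _
theorem Tame.sin (Φ : L → ℝ) : Tame fun s => Real.sin (Φ s) :=
  Tame.bdd fun s => Real.abs_sin_le_one _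
theorem Tame.abs (hF : Tame F) : Tame fun s => |F s| := hF.of_abs_le fun s => by rw [abs_abs]
theorem Tame.neg (hF : Tame F) : Tame fun s => -F s := hF.of_abs_le fun s => by rw [abs_neg]
theorem Tame.add (hF : Tame F) (hG : Tame G) : Tame fun s => F s + G s := by
  obtain ⟨C, T, hC, hF⟩ := hF.exists_nonneg
  obtain ⟨D, U, hD, hG⟩ := hG.exists_nonneg
  refine Tame.of_index (T.disjSum U) (Sum.elim id id) (C + D) fun s => ?_
  rw [sum_disjSum]
  simp only [Sum.elim_inl, Sum.elim_inr, id]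
  have h1 : 0 ≤ ∑ f ∈ T, Real.exp (f s) := sum_nonneg fun _ _ => (Real.exp_pos _).le
  have h2 : 0 ≤ ∑ f ∈ U, Real.exp (f s) := sum_nonneg fun _ _ => (Real.exp_pos _).le
  nlinarith [abs_add_le (F s) (G s), hF s, hG s, mul_nonneg hC h2, mul_nonneg hD h1]
theorem Tame.sub (hF : Tame F) (hG : Tame G) : Tame fun s => F s - G s :=
  (hF.add hG.neg).congr fun s => by ring
theorem Tame.mul (hF : Tame F) (hG : Tame G) : Tame fun s => F s * G s := by
  obtain ⟨C, T, hC, hF⟩ := hF.exists_nonneg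
  obtain ⟨D, U, hD, hG⟩ := hG.exists_nonneg
  refine Tame.of_index (T ×ˢ U) (fun p => p.1 + p.2) (C * D) fun s => ?_
  rw [sum_product]
  simp only [AddMonoidHom.add_apply, Real.exp_add]
  rw [← sum_mul_sum, abs_mul, mul_mul_mul_comm]
  exact mul_le_mul (hF s) (hG s) (abs_nonneg _) ((abs_nonneg _).trans (hF s))
theorem Tame.const_mul (hF : Tame F) (c : ℝ) : Tame fun s => c * F s := (Tame.const c).mul hF
theorem Tame.mul_const (hF : Tame F) (c : ℝ) : Tame fun s => F s * c := hF.mul (Tame.const c)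
theorem Tame.div_const (hF : Tame F) (c : ℝ) : Tame fun s => F s / c :=
  (hF.mul_const c⁻¹).congr fun s => (div_eq_mul_inv _ _).symm
theorem Tame.sum {ι : Type*} (T : Finset ι) {F : ι → L → ℝ} (h : ∀ i ∈ T, Tame (F i)) :
    Tame fun s => ∑ i ∈ T, F i s := by
  classical
  induction T using Finset.induction_on with
  | empty => simpa using Tame.const 0
  | insert i T hi ih =>
    simp only [sum_insert hi]
    exact (h i (mem_insert_self _ _)).add (ih fun j hj => h j (mem_insert_of_mem hj))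
theorem Tame.prod {ι : Type*} (T : Finset ι) {F : ι → L → ℝ} (h : ∀ i ∈ T, Tame (F i)) :
    Tame fun s => ∏ i ∈ T, F i s := by
  classical
  induction T using Finset.induction_on with
  | empty => simpa using Tame.const 1
  | insert i T hi ih =>
    simp only [prod_insert hi]
    exact (h i (mem_insert_self _ _)).mul (ih fun j hj => h j (mem_insert_of_mem hj))
theorem Tame.pow (hF : Tame F) (n : ℕ) : Tame fun s => F s ^ n :=
  (Tame.prod (range n) fun _ _ => hF).congr fun s => by simp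
theorem exp_abs_le (x : ℝ) : Real.exp |x| ≤ Real.exp x + Real.exp (-x) := by
  rcases abs_choice x with h | h <;> rw [h] <;> linarith [Real.exp_pos x, Real.exp_pos (-x)]
theorem Tame.exp_abs (f : L →+ ℝ) : Tame fun s => Real.exp |f s| :=
  ((Tame.exp f).add (Tame.exp (-f))).of_le fun s => by
    rw [abs_of_pos (Real.exp_pos _)]; simpa using exp_abs_le (f s)
theorem Tame.hom (f : L →+ ℝ) : Tame fun s => f s :=
  (Tame.exp_abs f).of_le fun s => by linarith [Real.add_one_le_exp |f s|]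
theorem Tame.cosh (f : L →+ ℝ) : Tame fun s => Real.cosh (f s) :=
  (((Tame.exp f).add (Tame.exp (-f))).div_const 2).congr fun s => by simp [Real.cosh_eq]
theorem Tame.comp {L' : Type*} [AddCommGroup L'] (hF : Tame F) (φ : L' →+ L) :
    Tame fun s => F (φ s) := by
  obtain ⟨C, T, hF⟩ := hF
  exact Tame.of_index T (fun f => f.comp φ) C fun s => hF (φ s)
theorem Tame.shift (hF : Tame F) (c : L) : Tame fun s => F (s + c) := by
  obtain ⟨C, T, hC, hF⟩ := hF.exists_nonneg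
  refine ((Tame.sum T fun f _ => (Tame.exp f).mul_const (Real.exp (f c))).const_mul C).of_le
    fun s => (hF _).trans_eq ?_
  simp only [map_add, Real.exp_add]
theorem gq_pos {ι : Type*} (T : Finset ι) (ℓ : ι → L →+ ℝ) (s : L) : 0 < gq T ℓ s := Real.exp_pos _
theorem gq_le_one {ι : Type*} (T : Finset ι) (ℓ : ι → L →+ ℝ) (s : L) : gq T ℓ s ≤ 1 := by
  unfold gq
  rw [Real.exp_le_one_iff]
  have : 0 ≤ ∑ j ∈ T, ℓ j s ^ 2 := sum_nonneg fun _ _ => sq_nonneg _
  linarith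
theorem Tame.gq {ι : Type*} (T : Finset ι) (ℓ : ι → L →+ ℝ) : Tame (gq T ℓ) :=
  Tame.bdd (C := 1) fun s => by rw [abs_of_pos (gq_pos T ℓ s)]; exact gq_le_one T ℓ s

/-! ### `SE`, `tilt` -/

theorem SE.summable (h : SE W) : Summable W := by simpa using h 0
theorem SE.abs (h : SE W) : SE fun s => |W s| := fun f =>
  (h f).abs.congr fun s => by rw [abs_mul, abs_of_pos (Real.exp_pos _)]
theorem SE.ig (h : SE W) (hF : Tame F) : Ig W F := by
  obtain ⟨C, T, hF⟩ := hF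
  refine Summable.of_norm_bounded
    ((summable_sum (s := T) fun f _ => h.abs f).mul_left C) fun s => ?_
  rw [Real.norm_eq_abs, abs_mul, ← mul_sum, mul_left_comm]
  exact mul_le_mul_of_nonneg_left (hF s) (abs_nonneg _)
theorem SE.mul (h : SE W) (hF : Tame F) : SE fun s => W s * F s := fun f =>
  Summable.congr (h.ig (hF.mul (Tame.exp f))) fun s => by ring
theorem SE.of_le (h : SE W) {W' : L → ℝ} {C : ℝ} (hle : ∀ s, |W' s| ≤ C * |W s|) : SE W' :=
  fun f => Summable.of_norm_bounded ((h.abs f).mul_left C) fun s => by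
    rw [Real.norm_eq_abs, abs_mul, abs_of_pos (Real.exp_pos _), ← mul_assoc]
    exact mul_le_mul_of_nonneg_right (hle s) (Real.exp_pos _).le
theorem SE.shift (h : SE W) (c : L) : SE fun s => W (s + c) := fun f => by
  have := ((Equiv.addRight c).summable_iff.2 (h f)).mul_right (Real.exp (-f c))
  refine this.congr fun s => ?_
  simp only [Function.comp, Equiv.coe_addRight, map_add, mul_assoc, ← Real.exp_add]
  congr 2; ring
theorem SE.tilt (h : SE W) (f : L →+ ℝ) : SE (tilt W f) := h.mul (Tame.exp f)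
theorem tilt_nonneg (h : ∀ s, 0 ≤ W s) (f : L →+ ℝ) (s : L) : 0 ≤ tilt W f s :=
  mul_nonneg (h s) (Real.exp_pos _).le
theorem Wt.tilt (hW : Wt W) (h : SE W) (f : L →+ ℝ) : Wt (tilt W f) :=
  hW.mul_of_pos (h f) fun s => Real.exp_pos _
@[simp] theorem tilt_zero (W : L → ℝ) : tilt W 0 = W := funext fun s => by simp [tilt]
theorem Wt.ex_exp_pos (hW : Wt W) (h : SE W) (f : L →+ ℝ) : 0 < Ex W fun s => Real.exp (f s) :=
  hW.ex_pos' (h f) fun s => Real.exp_pos _
theorem Wt.exp_M (hW : Wt W) (h : SE W) (f : L →+ ℝ) :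
    Real.exp (M W f) = Ex W fun s => Real.exp (f s) := Real.exp_log (hW.ex_exp_pos h f)
theorem Ex_exp_eq (W : L → ℝ) (f : L →+ ℝ) :
    Ex W (fun s => Real.exp (f s)) = Zs (tilt W f) / Zs W := rfl
theorem Wt.Zs_tilt (hW : Wt W) (h : SE W) (f : L →+ ℝ) :
    Zs (T145.tilt W f) = Zs W * Real.exp (M W f) := by
  rw [hW.exp_M h]; exact hW.Zs_mul _
theorem Wt.M_eq (hW : Wt W) (h : SE W) (f : L →+ ℝ) :
    M W f = Real.log (Zs (T145.tilt W f)) - Real.log (Zs W) := by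
  rw [M, Ex_exp_eq, Real.log_div (hW.tilt h f).ne hW.ne]
theorem Wt.M_zero (hW : Wt W) : M W 0 = 0 := by simp [M, hW.ex_const]
theorem Wt.ex_tilt (hW : Wt W) (h : SE W) (f : L →+ ℝ) (F : L → ℝ) :
    Ex (T145.tilt W f) F = Real.exp (-M W f) * Ex W fun s => Real.exp (f s) * F s := by
  rw [Real.exp_neg, hW.exp_M h, ← div_eq_inv_mul]; exact hW.ex_mul _ F
theorem M_smul (W : L → ℝ) {c : ℝ} (hc : c ≠ 0) (f : L →+ ℝ) : M (fun s => c * W s) f = M W f := by
  rw [M, Ex_smul _ _ hc, M]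
theorem Wt.ex_le_M (hW : Wt W) (h : SE W) (f : L →+ ℝ) : Ex W (fun s => f s) ≤ M W f :=
  hW.ex_le_log (h.ig (Tame.hom f)) (h f)

/-! ### `Vr` -/

theorem Vr_comm (W : L → ℝ) (f g : L →+ ℝ) : Vr W f g = Vr W g f := Cv_comm _ _ _
theorem SE.Vr_add_left (h : SE W) (f g k : L →+ ℝ) : Vr W (f + g) k = Vr W f k + Vr W g k :=
  Cv_add_left (h.ig (Tame.hom f)) (h.ig (Tame.hom g)) (h.ig ((Tame.hom f).mul (Tame.hom k)))
    (h.ig ((Tame.hom g).mul (Tame.hom k)))
theorem SE.Vr_add_right (h : SE W) (f g k : L →+ ℝ) : Vr W k (f + g) = Vr W k f + Vr W k g := by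
  rw [Vr_comm, h.Vr_add_left, Vr_comm W f, Vr_comm W g]
theorem Vr_smul_left (W : L → ℝ) (c : ℝ) (f g : L →+ ℝ) : Vr W (c • f) g = c * Vr W f g :=
  Cv_const_mul_left W (fun s => f s) (fun s => g s) c
theorem Vr_smul_right (W : L → ℝ) (c : ℝ) (f g : L →+ ℝ) : Vr W f (c • g) = c * Vr W f g :=
  Cv_const_mul_right W (fun s => f s) (fun s => g s) c
theorem Vr_neg_left (W : L → ℝ) (f g : L →+ ℝ) : Vr W (-f) g = -Vr W f g :=
  Cv_neg_left W (fun s => f s) (fun s => g s)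
theorem Vr_neg_right (W : L → ℝ) (f g : L →+ ℝ) : Vr W f (-g) = -Vr W f g :=
  Cv_neg_right W (fun s => f s) (fun s => g s)
theorem SE.Vr_sub_left (h : SE W) (f g k : L →+ ℝ) : Vr W (f - g) k = Vr W f k - Vr W g k := by
  rw [sub_eq_add_neg, h.Vr_add_left, Vr_neg_left, sub_eq_add_neg]
theorem SE.Vr_sub_right (h : SE W) (f g k : L →+ ℝ) : Vr W k (f - g) = Vr W k f - Vr W k g := by
  rw [sub_eq_add_neg, h.Vr_add_right, Vr_neg_right, sub_eq_add_neg]
theorem SE.Vr_sum_left (h : SE W) {ι : Type*} (T : Finset ι) (f : ι → L →+ ℝ) (g : L →+ ℝ) :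
    Vr W (∑ i ∈ T, f i) g = ∑ i ∈ T, Vr W (f i) g := by
  unfold Vr
  simp only [AddMonoidHom.finsetSum_apply]
  exact Cv_sum_left T (fun i _ => h.ig (Tame.hom _)) fun i _ => h.ig ((Tame.hom _).mul (Tame.hom _))
theorem SE.Vr_sum_right (h : SE W) {ι : Type*} (T : Finset ι) (f : ι → L →+ ℝ) (g : L →+ ℝ) :
    Vr W g (∑ i ∈ T, f i) = ∑ i ∈ T, Vr W g (f i) := by
  rw [Vr_comm, h.Vr_sum_left]; exact sum_congr rfl fun i _ => Vr_comm _ _ _
theorem Wt.Vr_nonneg (hW : Wt W) (h : SE W) (f : L →+ ℝ) : 0 ≤ Vr W f f :=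
  hW.cv_self_nonneg (h.ig ((Tame.hom f).pow 2))
theorem Wt.Vr_sq_le (hW : Wt W) (h : SE W) (f g : L →+ ℝ) : Vr W f g ^ 2 ≤ Vr W f f * Vr W g g :=
  hW.cv_sq_le (h.ig ((Tame.hom f).pow 2)) (h.ig ((Tame.hom g).pow 2))

/-! ### derivatives along a force -/

theorem SE.hasDerivAt_tsum (h : SE W) (hF : Tame F) (f g : L →+ ℝ) (t : ℝ) :
    HasDerivAt (fun y : ℝ => ∑' s, T145.tilt W (f + y • g) s * F s)
      (∑' s, T145.tilt W (f + t • g) s * (g s * F s)) t := by
  have hB : Tame fun s => (Real.exp ((f + t • g) s) * Real.exp |g s|) * |g s * F s| :=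
    ((Tame.exp _).mul (Tame.exp_abs g)).mul ((Tame.hom g).mul hF).abs
  have := hasDerivAt_tsum_mul (W := W) (t := t) (Φ := fun y s => Real.exp (f s + y * g s) * F s)
    (Φ' := fun y s => Real.exp (f s + y * g s) * (g s * F s)) one_pos (h.abs.ig hB)
    (h.ig ((Tame.exp (f + t • g)).mul hF)) (fun s y _ => ?_) fun s y hy => ?_
  · simpa only [T145.tilt, AddMonoidHom.add_apply, AddMonoidHom.smul_apply, smul_eq_mul, mul_assoc]
      using this
  · have := ((((hasDerivAt_id y).mul_const (g s)).const_add (f s)).exp).mul_const (F s)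
    simpa only [id, one_mul, mul_assoc] using this
  · rw [abs_mul, abs_of_pos (Real.exp_pos _), ← Real.exp_add]
    refine mul_le_mul_of_nonneg_right (Real.exp_le_exp.2 ?_) (abs_nonneg _)
    simp only [AddMonoidHom.add_apply, AddMonoidHom.smul_apply, smul_eq_mul]
    have : (y - t) * g s ≤ |g s| := by
      refine (le_abs_self _).trans ?_
      rw [abs_mul]
      exact mul_le_of_le_one_left (abs_nonneg _) (abs_le.2 ⟨by linarith [hy.1], by linarith [hy.2]⟩)
    linarith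
theorem SE.hasDerivAt_Zs (h : SE W) (f g : L →+ ℝ) (t : ℝ) :
    HasDerivAt (fun y : ℝ => Zs (T145.tilt W (f + y • g)))
      (∑' s, T145.tilt W (f + t • g) s * g s) t := by
  simpa only [mul_one, Zs] using h.hasDerivAt_tsum (Tame.const 1) f g t
theorem Wt.hasDerivAt_ex_tilt (hW : Wt W) (h : SE W) (hF : Tame F) (f g : L →+ ℝ) (t : ℝ) :
    HasDerivAt (fun y : ℝ => Ex (T145.tilt W (f + y • g)) F)
      (Cv (T145.tilt W (f + t • g)) (fun s => g s) F) t := by
  have hw := hW.tilt h (f + t • g)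
  refine ((h.hasDerivAt_tsum hF f g t).fun_div (h.hasDerivAt_Zs f g t) hw.ne).congr_deriv ?_
  rw [hw.tsum_eq, hw.tsum_eq, hw.tsum_eq, Cv]
  field_simp [hw.ne]
theorem Wt.hasDerivAt_M (hW : Wt W) (h : SE W) (f g : L →+ ℝ) (t : ℝ) :
    HasDerivAt (fun y : ℝ => M W (f + y • g)) (Ex (T145.tilt W (f + t • g)) fun s => g s) t := by
  simp only [hW.M_eq h]
  exact ((h.hasDerivAt_Zs f g t).log (hW.tilt h (f + t • g)).ne).sub_const _
theorem Wt.hasDerivAt_M' (hW : Wt W) (h : SE W) (f g k : L →+ ℝ) (t : ℝ) :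
    HasDerivAt (fun y : ℝ => Ex (T145.tilt W (f + y • g)) fun s => k s)
      (Vr (T145.tilt W (f + t • g)) g k) t := hW.hasDerivAt_ex_tilt h (Tame.hom k) f g t
theorem Wt.le_M_add (hW : Wt W) (h : SE W) (f g : L →+ ℝ) {V : ℝ}
    (hV : ∀ t ∈ Set.Icc (0 : ℝ) 1, V ≤ Vr (T145.tilt W (f + t • g)) g g) :
    M W f + Ex (T145.tilt W f) (fun s => g s) + V / 2 ≤ M W (f + g) := by
  simpa using taylor2_ge (hW.hasDerivAt_M h f g) (hW.hasDerivAt_M' h f g g) hV
theorem Wt.monotone_ex_tilt (hW : Wt W) (h : SE W) (f g : L →+ ℝ) :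
    Monotone fun y : ℝ => Ex (T145.tilt W (f + y • g)) fun s => g s :=
  monotone_of_deriv_nonneg (fun t => (hW.hasDerivAt_M' h f g g t).differentiableAt) fun t => by
    rw [(hW.hasDerivAt_M' h f g g t).deriv]; exact (hW.tilt h _).Vr_nonneg (h.tilt _) g
theorem Wt.convexOn_M_line (hW : Wt W) (h : SE W) (f g : L →+ ℝ) :
    ConvexOn ℝ Set.univ fun y : ℝ => M W (f + y • g) := by
  refine Monotone.convexOn_univ_of_deriv (fun t => (hW.hasDerivAt_M h f g t).differentiableAt) ?_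
  rw [show deriv (fun y : ℝ => M W (f + y • g)) = _ from
    funext fun t => (hW.hasDerivAt_M h f g t).deriv]
  exact hW.monotone_ex_tilt h f g
theorem Wt.convexOn_M (hW : Wt W) (h : SE W) : ConvexOn ℝ Set.univ (M W) := by
  refine ⟨convex_univ, fun f _ g _ a b ha hb hab => ?_⟩
  have := (hW.convexOn_M_line h f (g - f)).2 (Set.mem_univ 0) (Set.mem_univ 1) ha hb hab
  simp only [smul_eq_mul, mul_zero, mul_one, zero_add, zero_smul, add_zero, one_smul,
    add_sub_cancel] at this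
  have e : a • f + b • g = f + b • (g - f) := by
    rw [show a = 1 - b by linarith]; module
  rw [e]; exact this

/-! ### even weights -/

theorem Ex_even (he : ∀ s, W (-s) = W s) (F : L → ℝ) : Ex W (fun s => F (-s)) = Ex W F :=
  Ex_symm (Equiv.neg L) he F
theorem Ex_odd (he : ∀ s, W (-s) = W s) (hF : ∀ s, F (-s) = -F s) : Ex W F = 0 := by
  have := Ex_even he F
  simp only [hF, Ex_neg] at this
  linarith
theorem Ex_hom_even (he : ∀ s, W (-s) = W s) (f : L →+ ℝ) : Ex W (fun s => f s) = 0 :=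
  Ex_odd he fun s => map_neg f s
theorem M_neg (he : ∀ s, W (-s) = W s) (f : L →+ ℝ) : M W (-f) = M W f := by
  rw [M, M, ← Ex_even he fun s => Real.exp (f s)]; simp
theorem Vr_even (he : ∀ s, W (-s) = W s) (f g : L →+ ℝ) : Vr W f g = Ex W fun s => f s * g s := by
  rw [Vr, Cv, Ex_hom_even he f, zero_mul, sub_zero]
theorem Wt.M_nonneg (hW : Wt W) (h : SE W) (he : ∀ s, W (-s) = W s) (f : L →+ ℝ) : 0 ≤ M W f :=
  (Ex_hom_even he f).symm.trans_le (hW.ex_le_M h f)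
theorem Wt.abs_Ph_le (hW : Wt W) (ξ : L →+ ℝ) : |Ph W ξ| ≤ 1 :=
  hW.abs_ex_le fun s _ => Real.abs_cos_le_one _
theorem Wt.Ph_zero (hW : Wt W) : Ph W 0 = 1 := by simp [Ph, hW.ex_const]
theorem Ph_neg (W : L → ℝ) (ξ : L →+ ℝ) : Ph W (-ξ) = Ph W ξ := by simp [Ph]
theorem Cen.wt (h : Cen W) : Wt W := Wt.of_pos h.nonneg h.se.summable h.pos0
theorem Cen.ig (h : Cen W) (hF : Tame F) : Ig W F := h.se.ig hF
theorem Cen.ex_odd (h : Cen W) (hF : ∀ s, F (-s) = -F s) : Ex W F = 0 := Ex_odd h.even hF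
theorem Cen.ex_hom (h : Cen W) (f : L →+ ℝ) : Ex W (fun s => f s) = 0 := Ex_hom_even h.even f
theorem Cen.M_nonneg (h : Cen W) (f : L →+ ℝ) : 0 ≤ M W f := h.wt.M_nonneg h.se h.even f
theorem Cen.M_neg (h : Cen W) (f : L →+ ℝ) : M W (-f) = M W f := T145.M_neg h.even f
theorem Cen.Vr_eq (h : Cen W) (f g : L →+ ℝ) : Vr W f g = Ex W fun s => f s * g s :=
  Vr_even h.even f g
theorem Cen.wt_tilt (h : Cen W) (f : L →+ ℝ) : Wt (tilt W f) := h.wt.tilt h.se f
theorem Loc.refl (W : L → ℝ) : Loc W W := ⟨fun _ => le_rfl, fun _ _ => le_rfl⟩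
theorem Loc.trans {W₁ W₂ W₃ : L → ℝ} (h : Loc W₁ W₂) (h' : Loc W₂ W₃) : Loc W₁ W₃ :=
  ⟨fun f => (h.1 f).trans (h'.1 f), fun G hG => (h'.2 G hG).trans (h.2 G hG)⟩

end grp

end Crest.Agent.T145
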