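import Crest.Agent.T145.MdlA_73
import Crest.Agent.T145.ApiT_98
import Crest.Agent.T145.Pd_77
import Crest.Agent.T145.Bes_66

-- ▼ part T145/MdlB_73
section

/-!
# Row 145, T0: exploration (strong Markov property), gauge, iso, root (helper73)
-/

set_option autoImplicit false

namespace Crest.Agent.T145

open Finset

namespace Md

section expl
variable {V : Type*} [DecidableEq V]

/-- the data revealed by the exploration of the cluster of `S` -/
noncomputable def dat (S : Finset V) (p : Cfg V × Finset (V × V)) :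
    Finset V × Cfg V × Finset (V × V) :=
  (cl S p.2, p.1.filter (· ∈ cl S p.2), inn (cl S p.2) p.2)

theorem dat_eq_iff {S : Finset V} {p q : Cfg V × Finset (V × V)} : dat S p = dat S q ↔
    cl S p.2 = cl S q.2 ∧ (∀ x ∈ cl S q.2, p.1 x = q.1 x) ∧
      inn (cl S q.2) p.2 = inn (cl S q.2) q.2 := by
  unfold dat
  rw [Prod.mk.injEq, Prod.mk.injEq]
  refine and_congr_right fun h => ?_
  rw [h, filter_mem_eq_iff]

/-- the factor of the explored part -/
noncomputable def eC (m : Mdl V) (h : ℤ) (C : Finset V) (s : Cfg V) (I : Finset (V × V)) : ℝ :=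
  (∏ e ∈ m.ed with (e.1 ∈ C ∧ e.2 ∈ C), m.bw h s e (e ∈ I)) *
    (∏ e ∈ (m.ed.filter fun e => e.1 ∈ C ∧ e.2 ∉ C) with e.2 ∉ m.A \ C,
      m.w e (|s e.1 - h| + |s e.2 - h|)) *
    (∏ e ∈ (m.ed.filter fun e => e.1 ∉ C ∧ e.2 ∈ C) with e.1 ∉ m.A \ C,
      m.w e (|s e.1 - h| + |s e.2 - h|)) * ∏ x ∈ m.A with x ∈ C, m.site x (s x)

theorem prod_split4 (E : Finset (V × V)) (C : Finset V) (g : V × V → ℝ) :
    ∏ e ∈ E, g e = (∏ e ∈ E with (e.1 ∈ C ∧ e.2 ∈ C), g e) *
      (∏ e ∈ E with (e.1 ∈ C ∧ e.2 ∉ C), g e) * (∏ e ∈ E with (e.1 ∉ C ∧ e.2 ∈ C), g e) *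
        ∏ e ∈ E with (e.1 ∉ C ∧ e.2 ∉ C), g e := by
  simp only [Finset.prod_filter, ← Finset.prod_mul_distrib]
  refine Finset.prod_congr rfl fun e _ => ?_
  by_cases h1 : e.1 ∈ C <;> by_cases h2 : e.2 ∈ C <;> simp [h1, h2]

omit [DecidableEq V] in
theorem bw_congr (m : Mdl V) (h : ℤ) {s t : Cfg V} {e : V × V} {o o' : Prop} [Decidable o]
    [Decidable o'] (h1 : s e.1 = t e.1) (h2 : s e.2 = t e.2) (ho : o ↔ o') :
    m.bw h s e o = m.bw h t e o' := by
  unfold Mdl.bw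
  rw [dE_congr h1 h2, h1, h2]
  by_cases h : o
  · rw [if_pos h, if_pos (ho.1 h)]
  · rw [if_neg h, if_neg fun h' => h (ho.2 h')]

omit [DecidableEq V] in
theorem bw_not (m : Mdl V) (h : ℤ) (s : Cfg V) (e : V × V) {o : Prop} [Decidable o] (ho : ¬ o) :
    m.bw h s e o = m.w e (|s e.1 - h| + |s e.2 - h|) := by
  unfold Mdl.bw; rw [if_neg ho]

/-- factorisation of the joint weight into the explored part and the rest -/
theorem J_rest (m : Mdl V) (h : ℤ) {η s s' : Cfg V} {C : Finset V} {I ω' : Finset (V × V)}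
    (hs : ∀ x, x ∉ m.A → s x = η x) (hI : I ⊆ m.ed) (hIC : ∀ e ∈ I, e.1 ∈ C ∧ e.2 ∈ C)
    (hs' : ∀ x, x ∉ m.A \ C → s' x = s x)
    (hω : ω' ⊆ m.ed.filter fun e => e.1 ∉ C ∧ e.2 ∉ C) :
    m.J h η (s', ω' ∪ I) = eC m h C s I * (m.rest h C s).J h s (s', ω') := by
  have hC : ∀ x ∈ C, s' x = s x := fun x hx => hs' x fun h => (Finset.mem_sdiff.1 h).2 hx
  have h1 : ∀ x, x ∉ m.A → s' x = η x := fun x hx => by
    rw [hs' x fun h => hx (Finset.mem_sdiff.1 h).1, hs x hx]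
  have h2 : ω' ∪ I ⊆ m.ed := Finset.union_subset (hω.trans (Finset.filter_subset _ _)) hI
  have hω' : ∀ e ∈ ω', e.1 ∉ C ∧ e.2 ∉ C := fun e he => (Finset.mem_filter.1 (hω he)).2
  have e1 : ∏ e ∈ m.ed with (e.1 ∈ C ∧ e.2 ∈ C), m.bw h s' e (e ∈ ω' ∪ I) =
      ∏ e ∈ m.ed with (e.1 ∈ C ∧ e.2 ∈ C), m.bw h s e (e ∈ I) := by
    refine Finset.prod_congr rfl fun e he => ?_
    obtain ⟨-, ha, hb⟩ := Finset.mem_filter.1 he
    refine bw_congr m h (hC _ ha) (hC _ hb) ⟨fun h => ?_, fun h => Finset.mem_union_right _ h⟩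
    exact (Finset.mem_union.1 h).resolve_left fun h => (hω' e h).1 ha
  have e4 : ∏ e ∈ m.ed with (e.1 ∉ C ∧ e.2 ∉ C), m.bw h s' e (e ∈ ω' ∪ I) =
      ∏ e ∈ m.ed with (e.1 ∉ C ∧ e.2 ∉ C), m.bw h s' e (e ∈ ω') := by
    refine Finset.prod_congr rfl fun e he => ?_
    obtain ⟨-, ha, -⟩ := Finset.mem_filter.1 he
    refine bw_congr m h rfl rfl ⟨fun h => ?_, fun h => Finset.mem_union_left _ h⟩
    exact (Finset.mem_union.1 h).resolve_right fun h => ha (hIC e h).1
  have e2 : ∏ e ∈ m.ed with (e.1 ∈ C ∧ e.2 ∉ C), m.bw h s' e (e ∈ ω' ∪ I) =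
      (∏ y ∈ m.A \ C, ∏ e ∈ m.ed.filter (fun e => e.1 ∈ C ∧ e.2 = y),
        m.w e (|s e.1 - h| + |s' y - h|)) *
      ∏ e ∈ (m.ed.filter fun e => e.1 ∈ C ∧ e.2 ∉ C) with e.2 ∉ m.A \ C,
        m.w e (|s e.1 - h| + |s e.2 - h|) := by
    have : ∏ e ∈ m.ed with (e.1 ∈ C ∧ e.2 ∉ C), m.bw h s' e (e ∈ ω' ∪ I) =
        ∏ e ∈ m.ed with (e.1 ∈ C ∧ e.2 ∉ C), m.w e (|s e.1 - h| + |s' e.2 - h|) := by
      refine Finset.prod_congr rfl fun e he => ?_
      obtain ⟨-, ha, hb⟩ := Finset.mem_filter.1 he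
      rw [bw_not, hC _ ha]
      intro h
      rcases Finset.mem_union.1 h with h | h
      · exact (hω' e h).1 ha
      · exact hb (hIC e h).2
    rw [this, ← Finset.prod_filter_mul_prod_filter_not _ (fun e : V × V => e.2 ∈ m.A \ C)]
    congr 1
    · rw [← Finset.prod_fiberwise_of_maps_to (t := m.A \ C) (g := fun e : V × V => e.2)
        (fun e he => (Finset.mem_filter.1 he).2)]
      refine Finset.prod_congr rfl fun y hy => Finset.prod_congr ?_ fun e he => ?_
      · ext e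
        simp only [Finset.mem_filter]
        constructor
        · rintro ⟨⟨⟨h1, h2, -⟩, -⟩, h3⟩; exact ⟨h1, h2, h3⟩
        · rintro ⟨h1, h2, h3⟩
          exact ⟨⟨⟨h1, h2, h3 ▸ (Finset.mem_sdiff.1 hy).2⟩, h3 ▸ hy⟩, h3⟩
      · rw [(Finset.mem_filter.1 he).2.2]
    · exact Finset.prod_congr rfl fun e he => by rw [hs' _ (Finset.mem_filter.1 he).2]
  have e3 : ∏ e ∈ m.ed with (e.1 ∉ C ∧ e.2 ∈ C), m.bw h s' e (e ∈ ω' ∪ I) =
      (∏ y ∈ m.A \ C, ∏ e ∈ m.ed.filter (fun e => e.2 ∈ C ∧ e.1 = y),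
        m.w e (|s e.2 - h| + |s' y - h|)) *
      ∏ e ∈ (m.ed.filter fun e => e.1 ∉ C ∧ e.2 ∈ C) with e.1 ∉ m.A \ C,
        m.w e (|s e.1 - h| + |s e.2 - h|) := by
    have : ∏ e ∈ m.ed with (e.1 ∉ C ∧ e.2 ∈ C), m.bw h s' e (e ∈ ω' ∪ I) =
        ∏ e ∈ m.ed with (e.1 ∉ C ∧ e.2 ∈ C), m.w e (|s e.2 - h| + |s' e.1 - h|) := by
      refine Finset.prod_congr rfl fun e he => ?_
      obtain ⟨-, ha, hb⟩ := Finset.mem_filter.1 he
      rw [bw_not, hC _ hb, add_comm]
      intro h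
      rcases Finset.mem_union.1 h with h | h
      · exact (hω' e h).2 hb
      · exact ha (hIC e h).1
    rw [this, ← Finset.prod_filter_mul_prod_filter_not _ (fun e : V × V => e.1 ∈ m.A \ C)]
    congr 1
    · rw [← Finset.prod_fiberwise_of_maps_to (t := m.A \ C) (g := fun e : V × V => e.1)
        (fun e he => (Finset.mem_filter.1 he).2)]
      refine Finset.prod_congr rfl fun y hy => Finset.prod_congr ?_ fun e he => ?_
      · ext e
        simp only [Finset.mem_filter]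
        constructor
        · rintro ⟨⟨⟨h1, -, h2⟩, -⟩, h3⟩; exact ⟨h1, h2, h3⟩
        · rintro ⟨h1, h2, h3⟩
          exact ⟨⟨⟨h1, h3 ▸ (Finset.mem_sdiff.1 hy).2, h2⟩, h3 ▸ hy⟩, h3⟩
      · rw [(Finset.mem_filter.1 he).2.2]
    · exact Finset.prod_congr rfl fun e he => by
        rw [hs' _ (Finset.mem_filter.1 he).2, add_comm]
  have e5 : ∏ x ∈ m.A, m.site x (s' x) =
      (∏ x ∈ m.A with x ∈ C, m.site x (s x)) * ∏ x ∈ m.A \ C, m.site x (s' x) := by
    rw [← Finset.prod_filter_mul_prod_filter_not m.A (· ∈ C)]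
    congr 1
    · exact Finset.prod_congr rfl fun x hx => by rw [hC x (Finset.mem_filter.1 hx).2]
    · rw [Finset.sdiff_eq_filter]
  have hb : ∀ e (o : Prop) [Decidable o], (m.rest h C s).bw h s' e o = m.bw h s' e o :=
    fun _ _ _ => rfl
  simp only [Mdl.J, hb]
  simp only [Mdl.rest]
  rw [ind_pos h1, ind_pos h2, ind_pos hs', ind_pos hω, prod_split4 m.ed C, e1, e2, e3, e4, e5,
    Finset.prod_mul_distrib, Finset.prod_mul_distrib]
  unfold eC
  ring

/-- symmetric difference with a fixed set of bonds -/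
def sdE (I : Finset (V × V)) : (Cfg V × Finset (V × V)) ≃ (Cfg V × Finset (V × V)) where
  toFun p := (p.1, symmDiff p.2 I)
  invFun p := (p.1, symmDiff p.2 I)
  left_inv p := by simp [symmDiff_symmDiff_cancel_right]
  right_inv p := by simp [symmDiff_symmDiff_cancel_right]

theorem sd_eq_union {C : Finset V} {I ω' : Finset (V × V)} (hIC : ∀ e ∈ I, e.1 ∈ C ∧ e.2 ∈ C)
    (hω : ∀ e ∈ ω', e.1 ∉ C ∧ e.2 ∉ C) : symmDiff ω' I = ω' ∪ I :=
  Disjoint.symmDiff_eq_sup (Finset.disjoint_left.2 fun e he he' => (hω e he).1 (hIC e he').1)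

/-- conditioning on the explored data -/
theorem J_dat (m : Mdl V) (h : ℤ) {η : Cfg V} (S : Finset V) {p : Cfg V × Finset (V × V)}
    (hp : m.J h η p ≠ 0) (p' : Cfg V × Finset (V × V)) :
    ind (dat S (sdE (inn (cl S p.2) p.2) p') = dat S p) * m.J h η (sdE (inn (cl S p.2) p.2) p') =
      eC m h (cl S p.2) p.1 (inn (cl S p.2) p.2) * (m.rest h (cl S p.2) p.1).J h p.1 p' := by
  obtain ⟨s, ω⟩ := p
  obtain ⟨s', ω'⟩ := p'
  have hs : ∀ x, x ∉ m.A → s x = η x := J_off hp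
  have hω : ω ⊆ m.ed := J_sub hp
  have hIC : ∀ e ∈ inn (cl S ω) ω, e.1 ∈ cl S ω ∧ e.2 ∈ cl S ω := fun e he => (mem_inn.1 he).2
  simp only [sdE, Equiv.coe_fn_mk]
  by_cases hc : (∀ x, x ∉ m.A \ cl S ω → s' x = s x) ∧
      ω' ⊆ m.ed.filter fun e => e.1 ∉ cl S ω ∧ e.2 ∉ cl S ω
  · have hω' : ∀ e ∈ ω', e.1 ∉ cl S ω ∧ e.2 ∉ cl S ω :=
      fun e he => (Finset.mem_filter.1 (hc.2 he)).2
    rw [sd_eq_union hIC hω', J_rest m h hs ((inn_subset _ _).trans hω) hIC hc.1 hc.2, ind_pos,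
      one_mul]
    refine dat_eq_iff.2 ⟨cl_union_inn hω', fun x hx => hc.1 x fun h => (Finset.mem_sdiff.1 h).2 hx,
      ?_⟩
    ext e
    simp only [mem_inn, Finset.mem_union]
    constructor
    · rintro ⟨h | h, h1, h2⟩
      · exact absurd h1 (hω' e h).1
      · exact h
    · intro h; exact ⟨Or.inr h, h.2⟩
  · have hR : (m.rest h (cl S ω) s).J h s (s', ω') = 0 := by
      by_contra hR
      exact hc ⟨J_off hR, J_sub hR⟩
    rw [hR, mul_zero]
    by_contra hL
    obtain ⟨h1, h2, h3⟩ := dat_eq_iff.1 (of_ind_ne (left_ne_zero_of_mul hL))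
    have hJ := right_ne_zero_of_mul hL
    have h4 : ∀ x, x ∉ m.A → s' x = η x := J_off hJ
    have h5 : symmDiff ω' (inn (cl S ω) ω) ⊆ m.ed := J_sub hJ
    simp only at h1 h2 h3
    refine hc ⟨fun x hx => ?_, fun e he => ?_⟩
    · by_cases hxC : x ∈ cl S ω
      · exact h2 x hxC
      · have : x ∉ m.A := fun h => hx (Finset.mem_sdiff.2 ⟨h, hxC⟩)
        rw [h4 x this, hs x this]
    · have heI : e ∉ inn (cl S ω) ω := by
        intro heI
        have : e ∈ inn (cl S ω) (symmDiff ω' (inn (cl S ω) ω)) := by rw [h3]; exact heI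
        rcases Finset.mem_symmDiff.1 (mem_inn.1 this).1 with h | h
        · exact h.2 heI
        · exact h.2 he
      have hes : e ∈ symmDiff ω' (inn (cl S ω) ω) := Finset.mem_symmDiff.2 (Or.inl ⟨he, heI⟩)
      have hcl := cl_closed (S := S) hes
      rw [h1] at hcl
      have hn : e.1 ∉ cl S ω := fun h1' => heI (h3 ▸ mem_inn.2 ⟨hes, h1', hcl.1 h1'⟩)
      exact Finset.mem_filter.2 ⟨h5 hes, hn, fun h2' => hn (hcl.2 h2')⟩

theorem eC_ne (m : Mdl V) (h : ℤ) {η : Cfg V} (S : Finset V) {p : Cfg V × Finset (V × V)}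
    (hp : m.J h η p ≠ 0) : eC m h (cl S p.2) p.1 (inn (cl S p.2) p.2) ≠ 0 := by
  have := J_dat m h S hp ((sdE (inn (cl S p.2) p.2)).symm p)
  rw [Equiv.apply_symm_apply, ind_pos rfl, one_mul] at this
  rw [this] at hp
  exact left_ne_zero_of_mul hp

/-- the conditional expectation given the explored data -/
theorem cond_rest (m : Mdl V) (h : ℤ) {η : Cfg V} (S : Finset V) {p : Cfg V × Finset (V × V)}
    (hp : m.J h η p ≠ 0) (F : Cfg V × Finset (V × V) → ℝ) :
    (Ex ((m.rest h (cl S p.2) p.1).J h p.1) fun p' => F (p'.1, p'.2 ∪ inn (cl S p.2) p.2)) =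
      Ex (fun q => ind (dat S q = dat S p) * m.J h η q) F := by
  rw [← ex_equiv (sdE (inn (cl S p.2) p.2)) (fun q => ind (dat S q = dat S p) * m.J h η q) F]
  rw [funext (J_dat m h S hp), ex_cmul (eC_ne m h S hp)]
  refine ex_congr fun p' hp' => ?_
  simp only [sdE, Equiv.coe_fn_mk]
  rw [sd_eq_union (fun e he => (mem_inn.1 he).2) fun e he => (Finset.mem_filter.1 (J_sub hp' he)).2]

/-- the rest model seen from a configuration of positive weight is a weight -/
theorem wt_rest (m : Mdl V) (h : ℤ) {η : Cfg V} (S : Finset V) (hW : Wt (m.J h η))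
    (h0 : ∀ C ζ p, 0 ≤ (m.rest h C ζ).J h ζ p) {p : Cfg V × Finset (V × V)}
    (hp : m.J h η p ≠ 0) : Wt ((m.rest h (cl S p.2) p.1).J h p.1) := by
  have hc := eC_ne m h S hp
  have hs : Summable ((m.rest h (cl S p.2) p.1).J h p.1) := by
    have h1 := (sdE (inn (cl S p.2) p.2)).summable_iff.2
      (summable_ind_mul (fun q => dat S q = dat S p) hW.summ)
    have h2 : Summable fun p' => eC m h (cl S p.2) p.1 (inn (cl S p.2) p.2) *
        (m.rest h (cl S p.2) p.1).J h p.1 p' := h1.congr fun p' => J_dat m h S hp p'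
    exact (summable_mul_left_iff hc).1 h2
  refine ⟨h0 _ _, hs, hs.tsum_pos (h0 _ _) ((sdE (inn (cl S p.2) p.2)).symm p) ?_⟩
  have := J_dat m h S hp ((sdE (inn (cl S p.2) p.2)).symm p)
  rw [Equiv.apply_symm_apply, ind_pos rfl, one_mul] at this
  rw [this] at hp
  exact lt_of_le_of_ne (h0 _ _ _) (right_ne_zero_of_mul hp).symm

/-- strong Markov property -/
theorem expl (m : Mdl V) (h : ℤ) (η : Cfg V) (S : Finset V) {F : Cfg V × Finset (V × V) → ℝ}
    (hW : Wt (m.J h η)) (hF : Ig (m.J h η) F) :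
    Ig (m.J h η) (fun p => Ex ((m.rest h (cl S p.2) p.1).J h p.1)
        fun p' => F (p'.1, p'.2 ∪ inn (cl S p.2) p.2)) ∧
      Ex (m.J h η) F = Ex (m.J h η) fun p => Ex ((m.rest h (cl S p.2) p.1).J h p.1)
        fun p' => F (p'.1, p'.2 ∪ inn (cl S p.2) p.2) :=
  tower (dat S) hW.nonneg hW.summ hF fun _ hp => cond_rest m h S hp F

/-- a configuration of the rest model, completed by the explored bonds, has the same data -/
theorem dat_rest (m : Mdl V) (h : ℤ) (S : Finset V) {p p' : Cfg V × Finset (V × V)}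
    (hp' : (m.rest h (cl S p.2) p.1).J h p.1 p' ≠ 0) :
    dat S (p'.1, p'.2 ∪ inn (cl S p.2) p.2) = dat S p := by
  have hω' : ∀ e ∈ p'.2, e.1 ∉ cl S p.2 ∧ e.2 ∉ cl S p.2 :=
    fun e he => (Finset.mem_filter.1 (J_sub hp' he)).2
  refine dat_eq_iff.2 ⟨cl_union_inn hω',
    fun x hx => J_off hp' x fun h => (Finset.mem_sdiff.1 h).2 hx, ?_⟩
  ext e
  simp only [mem_inn, Finset.mem_union]
  constructor
  · rintro ⟨h | h, h1, h2⟩
    · exact absurd h1 (hω' e h).1
    · exact h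
  · intro h; exact ⟨Or.inr h, h.2⟩

/-- strong Markov property with a factor `H` that depends only on the explored data -/
theorem expl_mul (m : Mdl V) (h : ℤ) (η : Cfg V) (S : Finset V)
    {F H : Cfg V × Finset (V × V) → ℝ} (hW : Wt (m.J h η))
    (hH : ∀ p q, dat S p = dat S q → H p = H q) (hF : Ig (m.J h η) fun p => H p * F p) :
    Ig (m.J h η) (fun p => H p * Ex ((m.rest h (cl S p.2) p.1).J h p.1)
        fun p' => F (p'.1, p'.2 ∪ inn (cl S p.2) p.2)) ∧
      Ex (m.J h η) (fun p => H p * F p) =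
        Ex (m.J h η) fun p => H p * Ex ((m.rest h (cl S p.2) p.1).J h p.1)
          fun p' => F (p'.1, p'.2 ∪ inn (cl S p.2) p.2) := by
  have h1 := expl m h η S hW hF
  have e : ∀ p : Cfg V × Finset (V × V), (Ex ((m.rest h (cl S p.2) p.1).J h p.1) fun p' =>
      H (p'.1, p'.2 ∪ inn (cl S p.2) p.2) * F (p'.1, p'.2 ∪ inn (cl S p.2) p.2)) =
      H p * Ex ((m.rest h (cl S p.2) p.1).J h p.1)
        fun p' => F (p'.1, p'.2 ∪ inn (cl S p.2) p.2) := by
    intro p
    rw [← ex_mul_const]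
    exact ex_congr fun p' hp' => by rw [hH _ p (dat_rest m h S hp')]
  simpa only [e] using h1

end expl

section gauge
variable {V : Type*} [DecidableEq V]

theorem dE_cst {U : Finset V} {e : V × V} (h1 : e.1 ∈ U) (h2 : e.2 ∈ U) (s : Cfg V) (h : ℤ) :
    dE e (s + cst U h) = dE e s := by
  simp only [dE, Finsupp.add_apply, cst_mem h1, cst_mem h2]; ring

omit [DecidableEq V] in
theorem off_add (A : Finset V) (η s u : Cfg V) :
    (∀ x, x ∉ A → (s + u) x = (η + u) x) ↔ ∀ x, x ∉ A → s x = η x := by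
  simp only [Finsupp.add_apply, add_left_inj]



omit [DecidableEq V] in
theorem Ws_gauge (m : Mdl V) (η u s : Cfg V) (σ : V × V → ℤ)
    (hu : ∀ x ∈ m.A, ∀ k, m.site x (k + u x) = m.site x k) :
    m.Ws (η + u) σ (s + u) = m.Ws η (fun e => σ e + dE e u) s := by
  simp only [Mdl.Ws]
  rw [ind_iff (off_add m.A η s _)]
  congr 1
  · congr 1
    exact Finset.prod_congr rfl fun e _ => by rw [dE_add]; congr 1; ring
  · exact Finset.prod_congr rfl fun x hx => by rw [Finsupp.add_apply, hu x hx]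

omit [DecidableEq V] in
theorem W_far (m : Mdl V) (η u s : Cfg V) (hA : ∀ x ∈ m.A, u x = 0)
    (hE : ∀ e ∈ m.ed, u e.1 = 0 ∧ u e.2 = 0) : m.W (η + u) (s + u) = m.W η s := by
  simp only [Mdl.W]
  rw [ind_iff (off_add m.A η s _)]
  congr 1
  · congr 1
    exact Finset.prod_congr rfl fun e he => by
      rw [dE_congr (t := s) (by simp [(hE e he).1]) (by simp [(hE e he).2])]
  · exact Finset.prod_congr rfl fun x hx => by rw [Finsupp.add_apply, hA x hx, add_zero]











omit [DecidableEq V] in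
theorem zs_gauge (m : Mdl V) (η u : Cfg V) (σ : V × V → ℤ)
    (hu : ∀ x ∈ m.A, ∀ k, m.site x (k + u x) = m.site x k) :
    Zs (m.Ws (η + u) σ) = Zs (m.Ws η fun e => σ e + dE e u) := by
  rw [← zs_equiv (Equiv.addRight u)]
  simp only [Equiv.coe_addRight, Ws_gauge m η u _ σ hu]

omit [DecidableEq V] in
theorem ex_gauge (m : Mdl V) (η u : Cfg V) (σ : V × V → ℤ)
    (hu : ∀ x ∈ m.A, ∀ k, m.site x (k + u x) = m.site x k) (F : Cfg V → ℝ) :
    Ex (m.Ws (η + u) σ) F = Ex (m.Ws η fun e => σ e + dE e u) fun s => F (s + u) := by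
  rw [← ex_equiv (Equiv.addRight u)]
  simp only [Equiv.coe_addRight, Ws_gauge m η u _ σ hu]

omit [DecidableEq V] in
theorem ex_far (m : Mdl V) (η u : Cfg V) (hA : ∀ x ∈ m.A, u x = 0)
    (hE : ∀ e ∈ m.ed, u e.1 = 0 ∧ u e.2 = 0) (F : Cfg V → ℝ) :
    Ex (m.W (η + u)) F = Ex (m.W η) fun s => F (s + u) := by
  rw [← ex_equiv (Equiv.addRight u)]
  simp only [Equiv.coe_addRight, W_far m η u _ hA hE]


theorem fam_even {w : ℤ → ℝ} (h : Fam w) (k : ℤ) : w (-k) = w k := by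
  obtain ⟨xy, τ, -, rfl⟩ := h
  cases xy <;> simp [kern, gau, bes]

end gauge

section iso
variable {V V' : Type*} [DecidableEq V] [DecidableEq V'] {m : Mdl V} {m' : Mdl V'} {φ : V ≃ V'}
  {ψ : V × V ≃ V' × V'}

omit [DecidableEq V] [DecidableEq V'] in
theorem iso_off (hI : m.Iso m' φ ψ) (η s : Cfg V) :
    (∀ x, x ∉ m'.A → Finsupp.equivMapDomain φ s x = Finsupp.equivMapDomain φ η x) ↔
      ∀ x, x ∉ m.A → s x = η x := by
  rw [hI.1]
  simp only [Finsupp.equivMapDomain_apply, Finset.mem_map_equiv]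
  exact ⟨fun h x hx => by simpa using h (φ x) (by simpa using hx), fun h x hx => h _ hx⟩

omit [DecidableEq V] [DecidableEq V'] in
theorem iso_w (hF : m.Fm) (hI : m.Iso m' φ ψ) (s : Cfg V) {e : V × V} (he : e ∈ m.ed) :
    m'.w (ψ e) (dE (ψ e) (Finsupp.equivMapDomain φ s)) = m.w e (dE e s) := by
  rw [hI.2.2.2.1 e he]
  rcases hI.2.2.1 e with h | h
  · rw [h]; simp [dE]
  · rw [h, ← fam_even (hF e he)]; simp [dE]

omit [DecidableEq V] [DecidableEq V'] in
theorem iso_site (hI : m.Iso m' φ ψ) (s : Cfg V) :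
    ∏ x ∈ m'.A, m'.site x (Finsupp.equivMapDomain φ s x) = ∏ x ∈ m.A, m.site x (s x) := by
  rw [hI.1, Finset.prod_map]
  exact Finset.prod_congr rfl fun x hx => by simp [hI.2.2.2.2 x hx]

omit [DecidableEq V] [DecidableEq V'] in
theorem W_iso (hF : m.Fm) (hI : m.Iso m' φ ψ) (η s : Cfg V) :
    m'.W (Finsupp.equivMapDomain φ η) (Finsupp.equivMapDomain φ s) = m.W η s := by
  simp only [Mdl.W]
  rw [ind_iff (iso_off hI η s), iso_site hI, hI.2.1, Finset.prod_map]
  congr 2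
  exact Finset.prod_congr rfl fun e he => iso_w hF hI s he

theorem J_iso (hF : m.Fm) (hI : m.Iso m' φ ψ) (η s : Cfg V) (h : ℤ) (ω : Finset (V × V)) :
    m'.J h (Finsupp.equivMapDomain φ η) (Finsupp.equivMapDomain φ s, ω.map ψ.toEmbedding) =
      m.J h η (s, ω) := by
  simp only [Mdl.J]
  rw [ind_iff (iso_off hI η s), iso_site hI, hI.2.1, Finset.prod_map,
    ind_iff Finset.map_subset_map]
  congr 2
  refine Finset.prod_congr rfl fun e he => ?_
  have h1 := iso_w hF hI s he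
  have h2 : m'.w (ψ e) (|Finsupp.equivMapDomain φ s (ψ e).1 - h| +
      |Finsupp.equivMapDomain φ s (ψ e).2 - h|) = m.w e (|s e.1 - h| + |s e.2 - h|) := by
    rw [hI.2.2.2.1 e he]
    rcases hI.2.2.1 e with h | h
    · rw [h]; simp
    · rw [h, add_comm]; simp
  simp only [Mdl.bw, Equiv.coe_toEmbedding, h1, h2, Finset.mem_map_equiv, Equiv.symm_apply_apply]

omit [DecidableEq V] [DecidableEq V'] in
theorem ex_iso (hF : m.Fm) (hI : m.Iso m' φ ψ) (η : Cfg V) (F : Cfg V' → ℝ) :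
    Ex (m'.W (Finsupp.equivMapDomain φ η)) F =
      Ex (m.W η) fun s => F (Finsupp.equivMapDomain φ s) := by
  rw [← ex_equiv (Finsupp.equivCongrLeft φ)]
  simp only [Finsupp.equivCongrLeft_apply, W_iso hF hI]

omit [DecidableEq V] [DecidableEq V'] in
theorem ig_iso (hF : m.Fm) (hI : m.Iso m' φ ψ) (η : Cfg V) (F : Cfg V' → ℝ) :
    Ig (m'.W (Finsupp.equivMapDomain φ η)) F ↔
      Ig (m.W η) fun s => F (Finsupp.equivMapDomain φ s) := by
  rw [← ig_equiv (Finsupp.equivCongrLeft φ)]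
  simp only [Finsupp.equivCongrLeft_apply, W_iso hF hI]

omit [DecidableEq V] [DecidableEq V'] in
theorem zs_iso (hF : m.Fm) (hI : m.Iso m' φ ψ) (η : Cfg V) :
    Zs (m'.W (Finsupp.equivMapDomain φ η)) = Zs (m.W η) := by
  rw [← zs_equiv (Finsupp.equivCongrLeft φ)]
  simp only [Finsupp.equivCongrLeft_apply, W_iso hF hI]


/-- transport of pairs -/
def isoE (φ : V ≃ V') (ψ : V × V ≃ V' × V') :
    (Cfg V × Finset (V × V)) ≃ (Cfg V' × Finset (V' × V')) :=
  (Finsupp.equivCongrLeft φ).prodCongr ψ.finsetCongr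

omit [DecidableEq V] [DecidableEq V'] in
theorem isoE_apply (φ : V ≃ V') (ψ : V × V ≃ V' × V') (p : Cfg V × Finset (V × V)) :
    isoE φ ψ p = (Finsupp.equivMapDomain φ p.1, p.2.map ψ.toEmbedding) := rfl

theorem exJ_iso (hF : m.Fm) (hI : m.Iso m' φ ψ) (η : Cfg V) (h : ℤ)
    (F : Cfg V' × Finset (V' × V') → ℝ) :
    Ex (m'.J h (Finsupp.equivMapDomain φ η)) F =
      Ex (m.J h η) fun p => F (Finsupp.equivMapDomain φ p.1, p.2.map ψ.toEmbedding) := by
  rw [← ex_equiv (isoE φ ψ)]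
  simp only [isoE_apply, J_iso hF hI]


omit [DecidableEq V] [DecidableEq V'] in
theorem conn_iso (hψ : ∀ e, ψ e = (φ e.1, φ e.2) ∨ ψ e = (φ e.2, φ e.1)) {ω : Finset (V × V)}
    {x y : V} (h : Conn ω x y) : Conn (ω.map ψ.toEmbedding) (φ x) (φ y) := by
  induction h with
  | refl => exact conn_refl _ _
  | tail _ h2 ih =>
    refine conn_trans ih ?_
    have key : ∀ e ∈ ω, Conn (ω.map ψ.toEmbedding) (φ e.1) (φ e.2) := by
      intro e he
      have h1 : ψ e ∈ ω.map ψ.toEmbedding := Finset.mem_map_of_mem ψ.toEmbedding he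
      rcases hψ e with h | h
      · rw [h] at h1; exact conn_edge h1
      · rw [h] at h1; exact conn_symm (conn_edge h1)
    rcases h2 with h2 | h2
    · exact key _ h2
    · exact conn_symm (key _ h2)

end iso

section root
variable {V : Type*} [DecidableEq V]

/-- change of the root -/
noncomputable def rtE {B : Finset V} {r r' : V} (hr : r ∈ B) (hr' : r' ∈ B) : Cfg V ≃ Cfg V where
  toFun s := s + cst B (s r - s r')
  invFun t := t + cst B (t r' - t r)
  left_inv s := by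
    ext x
    simp only [Finsupp.add_apply, cst_mem hr, cst_mem hr', cst_apply]
    split_ifs <;> ring
  right_inv s := by
    ext x
    simp only [Finsupp.add_apply, cst_mem hr, cst_mem hr', cst_apply]
    split_ifs <;> ring

theorem W_root (m : Mdl V) {B : Finset V} {r r' : V} (hr : r ∈ B) (hr' : r' ∈ B)
    (hE : ∀ e ∈ m.ed, e.1 ∈ B ∧ e.2 ∈ B) (h1 : ∀ x k, m.site x k = 1) (s : Cfg V) :
    (m.free (B.erase r')).W 0 (rtE hr hr' s) = (m.free (B.erase r)).W 0 s := by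
  simp only [Mdl.W, Mdl.free, h1, Finset.prod_const_one, rtE, Equiv.coe_fn_mk]
  congr 2
  · refine ind_iff ?_
    simp only [Finset.mem_erase, not_and_or, not_not, Finsupp.add_apply, Finsupp.coe_zero,
      Pi.zero_apply]
    constructor
    · intro h x hx
      rcases hx with rfl | hx
      · have := h r' (Or.inl rfl)
        rw [cst_mem hr'] at this
        linarith
      · have := h x (Or.inr hx)
        rwa [cst_not hx, add_zero] at this
    · intro h x hx
      rcases hx with rfl | hx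
      · rw [cst_mem hr', h r (Or.inl rfl)]; ring
      · rw [cst_not hx, h x (Or.inr hx), add_zero]
  · exact Finset.prod_congr rfl fun e he => by rw [dE_cst (hE e he).1 (hE e he).2]

theorem root (m : Mdl V) {B : Finset V} {r r' : V} (hr : r ∈ B) (hr' : r' ∈ B)
    (hE : ∀ e ∈ m.ed, e.1 ∈ B ∧ e.2 ∈ B) (h1 : ∀ x k, m.site x k = 1) {F : Cfg V → ℝ}
    (hF : ∀ s h, F (s + cst B h) = F s) :
    Zs ((m.free (B.erase r)).W 0) = Zs ((m.free (B.erase r')).W 0) ∧
      (Ig ((m.free (B.erase r)).W 0) F ↔ Ig ((m.free (B.erase r')).W 0) F) ∧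
      Ex ((m.free (B.erase r)).W 0) F = Ex ((m.free (B.erase r')).W 0) F := by
  have hF' : ∀ s, F (rtE hr hr' s) = F s := fun s => hF s _
  rw [← zs_equiv (rtE hr hr') ((m.free (B.erase r')).W 0),
    ← ig_equiv (rtE hr hr') ((m.free (B.erase r')).W 0),
    ← ex_equiv (rtE hr hr') ((m.free (B.erase r')).W 0)]
  simp only [W_root m hr hr' hE h1, hF', and_self]

end root

end Md



theorem isoStmt : IsoStmt := fun _ _ _ _ _ _ _ _ hF hI η s =>
  ⟨Md.W_iso hF hI η s, fun h ω => Md.J_iso hF hI η s h ω⟩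

theorem rootStmt : RootStmt := fun _ _ m _ _ _ hr hr' hE h1 _ hF => Md.root m hr hr' hE h1 hF

end Crest.Agent.T145
end

-- ▼ part T145/MdlC_73

/-!
# Row 145, T0: `mdlStmt` (RSD, exponential moments) and the API of the model operations (helper73)
-/

set_option autoImplicit false

namespace Crest.Agent.T145

open Finset

namespace Md

section rsd
variable {L L' : Type*} [AddCommGroup L] [AddCommGroup L']

theorem rsd_mul {ρ ρ' : L → ℝ} (h : RSD ρ) (h' : RSD ρ') : RSD fun s => ρ s * ρ' s :=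
  ⟨fun s => mul_nonneg (h.nonneg s) (h'.nonneg s), fun s => by rw [h.even, h'.even],
    fun c => ((h.psd c).mul (h'.psd c)).congr fun a b => by ring⟩

theorem rsd_comp {ρ : L' → ℝ} (h : RSD ρ) (φ : L →+ L') : RSD fun s => ρ (φ s) :=
  ⟨fun s => h.nonneg _, fun s => by rw [map_neg, h.even],
    fun c => ((h.psd (φ c)).comp φ).congr fun a b => by simp only [map_add, map_sub]⟩

theorem rsd_const {c : ℝ} (hc : 0 ≤ c) : RSD fun _ : L => c :=
  ⟨fun _ => hc, fun _ => rfl, fun _ => psd_const (mul_nonneg hc hc)⟩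

theorem rsd_one : RSD fun _ : L => (1 : ℝ) := rsd_const zero_le_one

theorem rsd_prod {ι : Type*} {T : Finset ι} {ρ : ι → L → ℝ} (h : ∀ i ∈ T, RSD (ρ i)) :
    RSD fun s => ∏ i ∈ T, ρ i s := by
  classical
  induction T using Finset.induction_on with
  | empty => simpa using rsd_one
  | insert i T hi ih =>
    simp only [Finset.prod_insert hi]
    exact rsd_mul (h i (Finset.mem_insert_self _ _))
      (ih fun j hj => h j (Finset.mem_insert_of_mem hj))

theorem rsd_ind (φ : L →+ L') : RSD fun s => ind (φ s = 0) := by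
  refine ⟨fun _ => ind_nn _, fun s => ind_iff (by rw [map_neg, neg_eq_zero]), fun c => ?_⟩
  refine ((psd_ind φ).conj fun a => ind (φ c + φ a + φ a = 0)).congr fun a b => ?_
  simp only [map_add, map_sub, sub_eq_zero]
  by_cases h : φ a = φ b
  · rw [h]; by_cases h2 : φ c + φ b + φ b = 0 <;> simp [ind, h2]
  · simp [ind, h]

end rsd

section band
variable {α : Type*}

/-- product formula on a rectangular band -/
theorem band_hasSum {p : α → α → α} (h1 : ∀ a b c, p (p a b) c = p a c)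
    (h2 : ∀ a b c, p a (p b c) = p a c) (h3 : ∀ a, p a a = a) (o : α) {u v : α → ℝ} {x y : ℝ}
    (hu : HasSum u x) (hv : HasSum v y) (hu' : ∀ a, u a ≠ 0 → p a o = a)
    (hv' : ∀ b, v b ≠ 0 → p o b = b) : HasSum (fun r => u (p r o) * v (p o r)) (x * y) := by
  have h := hu.mul hv (summable_mul_of_summable_norm hu.summable.norm hv.summable.norm)
  let e : α × α ≃ α × α :=
    ⟨fun q => (p q.1 q.2, p q.2 q.1), fun q => (p q.1 q.2, p q.2 q.1),
      fun q => by simp only [h1, h2, h3], fun q => by simp only [h1, h2, h3]⟩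
  have h' := e.hasSum_iff.2 h
  have hinj : Function.Injective fun r : α => (r, o) := fun a b hab => (Prod.mk.inj hab).1
  refine (hinj.hasSum_iff ?_).2 h'
  rintro ⟨r, r'⟩ hr
  by_contra hne
  have a1 : p (p r r') o = p r r' := hu' _ (left_ne_zero_of_mul hne)
  have a2 : p o (p r' r) = p r' r := hv' _ (right_ne_zero_of_mul hne)
  rw [h1] at a1
  rw [h2] at a2
  have b1 : p r' o = r' := by rw [← h2 r' r o, a1, h2, h3]
  have b2 : p r' o = o := by rw [← h1 r' r o, ← a2, h1, h3]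
  exact hr ⟨r, by rw [← b1, b2]⟩

end band

section cfg
variable {V : Type*} [DecidableEq V]

theorem pw_pw_left (U : Finset V) (a b c : Cfg V) : pw U (pw U a b) c = pw U a c := by
  ext x; simp only [pw_apply]; split_ifs <;> rfl

theorem pw_pw_right (U : Finset V) (a b c : Cfg V) : pw U a (pw U b c) = pw U a c := by
  ext x; simp only [pw_apply]; split_ifs <;> rfl

theorem pw_self (U : Finset V) (a : Cfg V) : pw U a a = a := by
  ext x; simp only [pw_apply]; split_ifs <;> rfl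

theorem pw_eq_left {U : Finset V} {s t : Cfg V} (h : ∀ x, x ∉ U → s x = t x) : pw U s t = s := by
  ext x; rw [pw_apply]; split_ifs with hx
  · rfl
  · exact (h x hx).symm

theorem pw_eq_right {U : Finset V} {s t : Cfg V} (h : ∀ x ∈ U, t x = s x) : pw U s t = t := by
  ext x; rw [pw_apply]; split_ifs with hx
  · exact (h x hx).symm
  · rfl

/-- independent sites -/
theorem hasSum_sites (η : Cfg V) {g : V → ℤ → ℝ} {z : V → ℝ} (A : Finset V)
    (hg : ∀ x ∈ A, HasSum (g x) (z x)) :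
    HasSum (fun s : Cfg V => ind (∀ x, x ∉ A → s x = η x) * ∏ x ∈ A, g x (s x)) (∏ x ∈ A, z x) := by
  induction A using Finset.induction_on with
  | empty =>
    simp only [Finset.prod_empty, mul_one]
    have := hasSum_single (f := fun s : Cfg V => ind (∀ x, x ∉ (∅ : Finset V) → s x = η x)) η
      fun s hs => ind_neg fun h => hs (Finsupp.ext fun x => h x (Finset.notMem_empty x))
    rwa [ind_pos fun _ _ => rfl] at this
  | insert a A ha ih =>
    have h1 : HasSum (fun s : Cfg V => ind (∀ x, x ∉ ({a} : Finset V) → s x = η x) * g a (s a))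
        (z a) := by
      have hinj : Function.Injective fun k : ℤ => η.update a k := fun k l h => by
        simpa using DFunLike.congr_fun h a
      refine (hinj.hasSum_iff ?_).1 ?_
      · intro s hs
        rw [ind_neg, zero_mul]
        intro h
        refine hs ⟨s a, Finsupp.ext fun x => ?_⟩
        by_cases hx : x = a
        · simp [hx]
        · simp [Function.update_of_ne hx, h x (by simpa using hx)]
      · have e : ((fun s : Cfg V => ind (∀ x, x ∉ ({a} : Finset V) → s x = η x) * g a (s a)) ∘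
            fun k : ℤ => η.update a k) = g a := by
          funext k
          simp only [Function.comp]
          rw [ind_pos, one_mul]
          · simp
          · intro x hx
            simp [Function.update_of_ne (show x ≠ a by simpa using hx)]
        rw [e]
        exact hg a (Finset.mem_insert_self _ _)
    have h := band_hasSum (pw_pw_left {a}) (pw_pw_right {a}) (pw_self {a}) η h1
      (ih fun x hx => hg x (Finset.mem_insert_of_mem hx))
      (fun s hs => pw_eq_left (of_ind_ne (left_ne_zero_of_mul hs)))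
      (fun s hs => pw_eq_right fun x hx => of_ind_ne (left_ne_zero_of_mul hs) x
        (by rw [Finset.mem_singleton.1 hx]; exact ha))
    rw [Finset.prod_insert ha]
    refine Bes66.hs_congr h (fun r => ?_) rfl
    rw [Finset.prod_insert ha, ind_pos fun x hx => pw_not hx r η, pw_mem (Finset.mem_singleton_self a),
      ind_iff (q := ∀ x, x ∉ A → pw {a} η r x = η x), Finset.prod_congr rfl fun x hx => by
        rw [← pw_not (U := {a}) (x := x) (by rintro h; rw [Finset.mem_singleton.1 h] at hx; exact ha hx)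
          η r]]
    · ring
    · simp only [Finset.mem_insert, not_or, pw_apply, Finset.mem_singleton]
      constructor
      · intro h x hx
        split_ifs with hxa
        · rfl
        · exact h x ⟨hxa, hx⟩
      · intro h x hx
        simpa [hx.1] using h x hx.2

/-- evaluation at a site -/
noncomputable def evH (x : V) : Cfg V →+ ℤ := Finsupp.applyAddHom x

/-- gradient along an edge -/
noncomputable def dH (e : V × V) : Cfg V →+ ℤ := evH e.2 - evH e.1

omit [DecidableEq V] in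
@[simp] theorem evH_apply (x : V) (s : Cfg V) : evH x s = s x := rfl

omit [DecidableEq V] in
@[simp] theorem dH_apply (e : V × V) (s : Cfg V) : dH e s = dE e s := rfl

omit [DecidableEq V] in
theorem pr_eq (f : V → ℝ) (s : Cfg V) {T : Finset V} (hT : ∀ x, x ∉ T → s x = 0 ∨ f x = 0) :
    pr f s = ∑ x ∈ T, f x * s x := by
  classical
  have : pr f s = ∑ x ∈ s.support, f x * s x := by
    simp [pr, Finsupp.liftAddHom_apply, Finsupp.sum]
  rw [this, Finset.sum_subset (Finset.subset_union_left (s₁ := s.support) (s₂ := T)),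
    ← Finset.sum_subset (Finset.subset_union_right (s₁ := s.support) (s₂ := T))]
  · intro x _ hx
    rcases hT x hx with h | h <;> simp [h]
  · intro x _ hx
    rw [Finsupp.notMem_support_iff.1 hx]; simp

/-- every additive functional is a pairing -/
theorem hom_eq (f : Cfg V →+ ℝ) : f = pr fun x => f (Finsupp.single x 1) := by
  refine Finsupp.addHom_ext fun x k => ?_
  rw [pr_eq _ _ (T := {x}) fun y hy => Or.inl (by
    rw [Finsupp.single_apply, if_neg fun h => hy (by rw [h]; exact Finset.mem_singleton_self _)]),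
    Finset.sum_singleton, Finsupp.single_eq_same, ← Finsupp.smul_single_one, map_zsmul]
  simp [mul_comm]

/-- site weights of at most exponential growth -/
def Tm (m : Mdl V) : Prop :=
  ∀ x ∈ m.A, ∃ C a : ℝ, ∀ k : ℤ, |m.site x k| ≤ C * Real.exp (a * |(k : ℝ)|)

/-- multiplication by a real number -/
noncomputable def zH (a : ℝ) : ℤ →+ ℝ := (AddMonoidHom.mulLeft a).comp (Int.castAddHom ℝ)

@[simp] theorem zH_apply (a : ℝ) (k : ℤ) : zH a k = a * k := rfl

theorem se_bound {w : ℤ → ℝ} (h : SE w) (a : ℝ) :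
    ∃ C : ℝ, 0 ≤ C ∧ ∀ k : ℤ, |w k| ≤ C * Real.exp (-(a * |(k : ℝ)|)) := by
  have hs : Summable fun k : ℤ => |w k| * Real.exp |zH a k| := h.abs.ig (Tame.exp_abs (zH a))
  have h0 : ∀ k : ℤ, 0 ≤ |w k| * Real.exp |zH a k| := fun k => by positivity
  refine ⟨∑' k : ℤ, |w k| * Real.exp |zH a k|, tsum_nonneg h0, fun k => ?_⟩
  have h1 := hs.le_tsum k fun j _ => h0 j
  rw [Real.exp_neg, ← div_eq_mul_inv, le_div_iff₀ (Real.exp_pos _)]
  refine le_trans (mul_le_mul_of_nonneg_left (Real.exp_le_exp.2 ?_) (abs_nonneg _)) h1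
  rw [zH_apply, abs_mul]
  exact mul_le_mul_of_nonneg_right (le_abs_self a) (abs_nonneg _)

theorem se_of_bound {w : ℤ → ℝ}
    (h : ∀ a : ℝ, ∃ C : ℝ, ∀ k : ℤ, |w k| ≤ C * Real.exp (-(a * |(k : ℝ)|))) : SE w := by
  intro f
  obtain ⟨C, hC⟩ := h (|f 1| + 1)
  refine Summable.of_norm_bounded (Bes66.summable_exp_neg_abs.mul_left C) fun k => ?_
  have hC0 : 0 ≤ C := by simpa using (abs_nonneg _).trans (hC 0)
  rw [Real.norm_eq_abs, abs_mul, abs_of_pos (Real.exp_pos _)]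
  refine (mul_le_mul_of_nonneg_right (hC k) (Real.exp_pos _).le).trans ?_
  rw [mul_assoc, ← Real.exp_add]
  refine mul_le_mul_of_nonneg_left (Real.exp_le_exp.2 ?_) hC0
  have : f k ≤ |f 1| * |(k : ℝ)| := by
    rw [Bes66.addHom_eq f k, ← abs_mul]; exact le_abs_self _
  linarith

omit [DecidableEq V] in
/-- heights are controlled by the gradients along a path -/
theorem abs_le_of_conn {E : Finset (V × V)} {x y : V} (h : Conn E x y) :
    ∃ n : ℕ, ∀ s : Cfg V, |(s x : ℝ)| ≤ |(s y : ℝ)| + n * ∑ e ∈ E, |(dE e s : ℝ)| := by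
  induction h with
  | refl => exact ⟨0, fun s => by simp⟩
  | @tail b c _ h2 ih =>
    obtain ⟨n, hn⟩ := ih
    refine ⟨n + 1, fun s => ?_⟩
    have h3 : |(s b : ℝ)| ≤ |(s c : ℝ)| + ∑ e ∈ E, |(dE e s : ℝ)| := by
      rcases h2 with h2 | h2
      · have := Finset.single_le_sum (f := fun e => |(dE e s : ℝ)|) (fun _ _ => abs_nonneg _) h2
        simp only [dE, Int.cast_sub] at this ⊢
        have h4 := abs_sub (s c : ℝ) ((s c : ℝ) - s b)
        rw [sub_sub_cancel] at h4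
        linarith
      · have := Finset.single_le_sum (f := fun e => |(dE e s : ℝ)|) (fun _ _ => abs_nonneg _) h2
        simp only [dE, Int.cast_sub] at this ⊢
        have h4 := abs_add_le (s c : ℝ) ((s b : ℝ) - s c)
        rw [add_sub_cancel] at h4
        linarith
    have := hn s
    push_cast
    linarith

/-- exponential moments -/
theorem se_Ws {m : Mdl V} (hw : ∀ e ∈ m.ed, SE (m.w e)) (hA : m.Anch) (hT : Tm m) (η : Cfg V)
    (σ : V × V → ℤ) : SE (m.Ws η σ) := by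
  classical
  intro f
  rw [hom_eq f]
  set g : V → ℝ := fun x => f (Finsupp.single x 1)
  choose! C a hC using hT
  -- path bounds
  have hp : ∀ x ∈ m.A, ∃ n : ℝ, 0 ≤ n ∧ ∃ c : ℝ, ∀ s : Cfg V, (∀ y, y ∉ m.A → s y = η y) →
      |(s x : ℝ)| ≤ c + n * ((∑ e ∈ m.ed, |((dE e s + σ e : ℤ) : ℝ)|) +
        ∑ y ∈ m.A with SE (m.site y), |(s y : ℝ)|) := by
    intro x hx
    obtain ⟨y, hy, hy'⟩ := hA x hx
    obtain ⟨n, hn⟩ := abs_le_of_conn (E := m.ed) hy
    refine ⟨n + 1, by positivity, |(η y : ℝ)| + n * ∑ e ∈ m.ed, |(σ e : ℝ)|, fun s hs => ?_⟩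
    have h1 : ∑ e ∈ m.ed, |(dE e s : ℝ)| ≤
        (∑ e ∈ m.ed, |((dE e s + σ e : ℤ) : ℝ)|) + ∑ e ∈ m.ed, |(σ e : ℝ)| := by
      rw [← Finset.sum_add_distrib]
      refine Finset.sum_le_sum fun e _ => ?_
      have := abs_sub (((dE e s + σ e : ℤ) : ℝ)) (σ e)
      rwa [show ((dE e s + σ e : ℤ) : ℝ) - σ e = dE e s by push_cast; ring] at this
    have h2 : |(s y : ℝ)| ≤ |(η y : ℝ)| + ∑ y ∈ m.A with SE (m.site y), |(s y : ℝ)| := by
      by_cases hyA : y ∈ m.A
      · have := Finset.single_le_sum (f := fun y => |(s y : ℝ)|) (fun _ _ => abs_nonneg _)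
          (Finset.mem_filter.2 ⟨hyA, hy'.resolve_left fun h => h hyA⟩ :
            y ∈ m.A.filter fun y => SE (m.site y))
        linarith [abs_nonneg (η y : ℝ)]
      · rw [hs y hyA]
        exact le_add_of_nonneg_right (Finset.sum_nonneg fun _ _ => abs_nonneg _)
    have h3 : 0 ≤ ∑ e ∈ m.ed, |((dE e s + σ e : ℤ) : ℝ)| := Finset.sum_nonneg fun _ _ => abs_nonneg _
    have h4 : 0 ≤ ∑ y ∈ m.A with SE (m.site y), |(s y : ℝ)| :=
      Finset.sum_nonneg fun _ _ => abs_nonneg _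
    have h5 := mul_le_mul_of_nonneg_left h1 (Nat.cast_nonneg (α := ℝ) n)
    have h6 := mul_nonneg (Nat.cast_nonneg (α := ℝ) n) h4
    nlinarith [hn s]
  choose! n hn0 c hn using hp
  set b : V → ℝ := fun x => |a x| + |g x| + 1 with hb
  have hb0 : ∀ x, 0 ≤ b x := fun x => by positivity
  set K : ℝ := ∑ x ∈ m.A, b x * n x with hK
  choose! D hD0 hD using fun e he => se_bound (hw e he) K
  have hS : ∀ y ∈ m.A, ∃ C' : ℝ, 0 ≤ C' ∧ ∀ k : ℤ, |m.site y k| ≤
      C' * Real.exp (|a y| * |(k : ℝ)| - if SE (m.site y) then K * |(k : ℝ)| else 0) := by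
    intro y hy
    by_cases h : SE (m.site y)
    · obtain ⟨C', h0, h1⟩ := se_bound h K
      refine ⟨C', h0, fun k => (h1 k).trans ?_⟩
      rw [if_pos h]
      refine mul_le_mul_of_nonneg_left (Real.exp_le_exp.2 ?_) h0
      linarith [mul_nonneg (abs_nonneg (a y)) (abs_nonneg (k : ℝ))]
    · have h0 : 0 ≤ C y := by simpa using (abs_nonneg _).trans (hC y hy 0)
      refine ⟨C y, h0, fun k => (hC y hy k).trans ?_⟩
      rw [if_neg h, sub_zero]
      exact mul_le_mul_of_nonneg_left (Real.exp_le_exp.2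
        (mul_le_mul_of_nonneg_right (le_abs_self _) (abs_nonneg _))) h0
  choose! C' hC0 hC' using hS
  have hsum := (hasSum_sites η (g := fun _ k => Real.exp (-|(k : ℝ)|)) m.A
    fun _ _ => Bes66.summable_exp_neg_abs.hasSum).summable
  refine Summable.of_norm_bounded (hsum.mul_left ((∏ e ∈ m.ed, D e) * (∏ y ∈ m.A, C' y) *
    Real.exp ((∑ x ∈ η.support \ m.A, g x * η x) + ∑ x ∈ m.A, b x * c x))) fun s => ?_
  by_cases hs : ∀ y, y ∉ m.A → s y = η y
  swap
  · simp [Mdl.Ws, ind_neg hs]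
  rw [Mdl.Ws, ind_pos hs, one_mul, one_mul, Real.norm_eq_abs, abs_mul, abs_mul, Finset.abs_prod,
    Finset.abs_prod, abs_of_pos (Real.exp_pos _)]
  have e1 : ∏ e ∈ m.ed, |m.w e (dE e s + σ e)| ≤
      (∏ e ∈ m.ed, D e) * Real.exp (-(K * ∑ e ∈ m.ed, |((dE e s + σ e : ℤ) : ℝ)|)) := by
    rw [Finset.mul_sum, ← Finset.sum_neg_distrib, Real.exp_sum, ← Finset.prod_mul_distrib]
    exact Finset.prod_le_prod (fun _ _ => abs_nonneg _) fun e he => hD e he _
  have e2 : ∏ y ∈ m.A, |m.site y (s y)| ≤ (∏ y ∈ m.A, C' y) * Real.exp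
      ((∑ y ∈ m.A, |a y| * |(s y : ℝ)|) - K * ∑ y ∈ m.A with SE (m.site y), |(s y : ℝ)|) := by
    rw [Finset.mul_sum, Finset.sum_filter, ← Finset.sum_sub_distrib, Real.exp_sum,
      ← Finset.prod_mul_distrib]
    exact Finset.prod_le_prod (fun _ _ => abs_nonneg _) fun y hy => hC' y hy _
  have e3 : pr g s ≤ (∑ x ∈ η.support \ m.A, g x * η x) + ∑ x ∈ m.A, |g x| * |(s x : ℝ)| := by
    rw [pr_eq g s (T := η.support \ m.A ∪ m.A) fun x hx => Or.inl (by
      simp only [Finset.mem_union, Finset.mem_sdiff, not_or, not_and, not_not] at hx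
      rw [hs x hx.2]
      by_contra h
      exact hx.2 (hx.1 (Finsupp.mem_support_iff.2 h))), Finset.sum_union Finset.sdiff_disjoint]
    refine add_le_add (le_of_eq (Finset.sum_congr rfl fun x hx => ?_))
      (Finset.sum_le_sum fun x _ => ?_)
    · rw [hs x (Finset.mem_sdiff.1 hx).2]
    · rw [← abs_mul]; exact le_abs_self _
  have e4 : ∑ x ∈ m.A, b x * |(s x : ℝ)| ≤ (∑ x ∈ m.A, b x * c x) +
      K * ((∑ e ∈ m.ed, |((dE e s + σ e : ℤ) : ℝ)|) + ∑ y ∈ m.A with SE (m.site y), |(s y : ℝ)|) := by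
    rw [hK, Finset.sum_mul, ← Finset.sum_add_distrib]
    refine Finset.sum_le_sum fun x hx => ?_
    have := mul_le_mul_of_nonneg_left (hn x hx s hs) (hb0 x)
    linarith
  have e5 : ∑ x ∈ m.A, b x * |(s x : ℝ)| = (∑ x ∈ m.A, |a x| * |(s x : ℝ)|) +
      (∑ x ∈ m.A, |g x| * |(s x : ℝ)|) + ∑ x ∈ m.A, |(s x : ℝ)| := by
    rw [← Finset.sum_add_distrib, ← Finset.sum_add_distrib]
    exact Finset.sum_congr rfl fun x _ => by rw [hb]; ring
  have hD' : 0 ≤ ∏ e ∈ m.ed, D e := Finset.prod_nonneg hD0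
  have hC'' : 0 ≤ ∏ y ∈ m.A, C' y := Finset.prod_nonneg hC0
  refine (mul_le_mul_of_nonneg_right (mul_le_mul e1 e2 (Finset.prod_nonneg fun _ _ => abs_nonneg _)
    (by positivity)) (Real.exp_pos _).le).trans ?_
  rw [← Real.exp_sum, Finset.sum_neg_distrib, mul_mul_mul_comm, mul_assoc, mul_assoc, ← Real.exp_add,
    ← Real.exp_add, mul_assoc (_ * _), ← Real.exp_add, ← mul_assoc]
  refine mul_le_mul_of_nonneg_left (Real.exp_le_exp.2 ?_) (mul_nonneg hD' hC'')
  linarith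

/-- RSD jointly in heights, boundary condition and seam -/
theorem rsd_Ws {m : Mdl V} (hw : ∀ e ∈ m.ed, RSD (m.w e)) (hs : ∀ x ∈ m.A, RSD (m.site x)) :
    RSD fun p : Cfg V × (Cfg V × (V × V → ℤ)) => m.Ws p.2.1 p.2.2 p.1 := by
  let π1 : Cfg V × (Cfg V × (V × V → ℤ)) →+ Cfg V := AddMonoidHom.fst _ _
  let π2 : Cfg V × (Cfg V × (V × V → ℤ)) →+ Cfg V :=
    (AddMonoidHom.fst _ _).comp (AddMonoidHom.snd _ _)
  let π3 : Cfg V × (Cfg V × (V × V → ℤ)) →+ (V × V → ℤ) :=
    (AddMonoidHom.snd _ _).comp (AddMonoidHom.snd _ _)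
  have h := rsd_mul (rsd_mul
    (rsd_ind ((Finsupp.filterAddHom (M := ℤ) (· ∉ m.A)).comp (π1 - π2)))
    (rsd_prod fun e he => rsd_comp (hw e he)
      ((dH e).comp π1 + (Pi.evalAddMonoidHom (fun _ : V × V => ℤ) e).comp π3)))
    (rsd_prod fun x hx => rsd_comp (hs x hx) ((evH x).comp π1))
  convert h using 2 with p
  unfold Mdl.Ws
  congr 2
  refine ind_iff ?_
  rw [← filter_not_eq_iff, ← sub_eq_zero, ← Finsupp.filter_sub]
  rfl

omit [DecidableEq V] in
theorem fm_ker {m : Mdl V} (h : m.Fm) {e : V × V} (he : e ∈ m.ed) : IsKer (m.w e) :=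
  kerStmt _ (h e he)

omit [DecidableEq V] in
theorem fm_pos {m : Mdl V} (h : m.Fm) {e : V × V} (he : e ∈ m.ed) (k : ℤ) : 0 < m.w e k :=
  (fm_ker h he).lc.1 k

omit [DecidableEq V] in
theorem ctr_tm {m : Mdl V} (h : m.Ctr) : Tm m := fun x hx =>
  ⟨m.site x 0, 0, fun k => by simpa using (h.2 x hx).2.1.abs_le k⟩

omit [DecidableEq V] in
theorem ctr_nn {m : Mdl V} (h : m.Ctr) : m.Nn := fun x hx k => (h.2 x hx).1.nonneg k


theorem ctr_rsd {m : Mdl V} (h : m.Ctr) :
    RSD fun p : Cfg V × (Cfg V × (V × V → ℤ)) => m.Ws p.2.1 p.2.2 p.1 :=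
  rsd_Ws (fun _ he => (fm_ker h.1 he).cen.toRSD) fun x hx => (h.2 x hx).1

/-- RSD jointly in heights and boundary condition -/
theorem ctr_rsd_W {m : Mdl V} (h : m.Ctr) : RSD fun p : Cfg V × Cfg V => m.W p.2 p.1 := by
  have := rsd_comp (ctr_rsd h) ((AddMonoidHom.fst (Cfg V) (Cfg V)).prod
    ((AddMonoidHom.snd (Cfg V) (Cfg V)).prod 0))
  simp only [W_eq_Ws]
  exact this

/-- RSD jointly in heights and seam -/
theorem ctr_rsd_seam {m : Mdl V} (h : m.Ctr) :
    RSD fun p : Cfg V × (V × V → ℤ) => m.Ws 0 p.2 p.1 :=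
  rsd_comp (ctr_rsd h) ((AddMonoidHom.fst (Cfg V) (V × V → ℤ)).prod
    ((0 : Cfg V × (V × V → ℤ) →+ Cfg V).prod (AddMonoidHom.snd (Cfg V) (V × V → ℤ))))

theorem ctr_rsd0 {m : Mdl V} (h : m.Ctr) : RSD (m.W 0) :=
  rsd_comp (ctr_rsd_W h) ((AddMonoidHom.id (Cfg V)).prod 0)

theorem se_Ws' {m : Mdl V} (hF : m.Fm) (hA : m.Anch) (hT : Tm m) (η : Cfg V) (σ : V × V → ℤ) :
    SE (m.Ws η σ) := se_Ws (fun _ he => (fm_ker hF he).cen.se) hA hT η σ

theorem se_W {m : Mdl V} (hF : m.Fm) (hA : m.Anch) (hT : Tm m) (η : Cfg V) : SE (m.W η) := by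
  rw [funext (W_eq_Ws m η)]; exact se_Ws' hF hA hT η 0

omit [DecidableEq V] in
theorem Ws_nonneg {m : Mdl V} (hF : m.Fm) (hN : m.Nn) (η : Cfg V) (σ : V × V → ℤ) (s : Cfg V) :
    0 ≤ m.Ws η σ s :=
  mul_nonneg (mul_nonneg (ind_nn _) (Finset.prod_nonneg fun _ he => (fm_pos hF he _).le))
    (Finset.prod_nonneg fun x hx => hN x hx _)

omit [DecidableEq V] in
theorem W_nonneg {m : Mdl V} (hF : m.Fm) (hN : m.Nn) (η s : Cfg V) : 0 ≤ m.W η s := by
  rw [W_eq_Ws]; exact Ws_nonneg hF hN η 0 s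

omit [DecidableEq V] in
theorem Ws_pos {m : Mdl V} (hF : m.Fm) {η s : Cfg V} (hs : ∀ x, x ∉ m.A → s x = η x)
    (hp : ∀ x ∈ m.A, 0 < m.site x (s x)) (σ : V × V → ℤ) : 0 < m.Ws η σ s := by
  rw [Mdl.Ws, ind_pos hs, one_mul]
  exact mul_pos (Finset.prod_pos fun _ he => fm_pos hF he _) (Finset.prod_pos hp)

omit [DecidableEq V] in
theorem W_pos {m : Mdl V} (hF : m.Fm) {η s : Cfg V} (hs : ∀ x, x ∉ m.A → s x = η x)
    (hp : ∀ x ∈ m.A, 0 < m.site x (s x)) : 0 < m.W η s := by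
  rw [W_eq_Ws]; exact Ws_pos hF hs hp 0

theorem wt_Ws {m : Mdl V} (hF : m.Fm) (hA : m.Anch) (hT : Tm m) (hN : m.Nn)
    (hp : ∀ x ∈ m.A, ∃ k, 0 < m.site x k) (η : Cfg V) (σ : V × V → ℤ) : Wt (m.Ws η σ) := by
  choose! k hk using hp
  refine Wt.of_pos (Ws_nonneg hF hN η σ) (se_Ws' hF hA hT η σ).summable
    (a := pw m.A (Finsupp.onFinset m.A (fun x => if x ∈ m.A then k x else 0)
      fun x hx => by by_contra h; simp [h] at hx) η)
    (Ws_pos hF (fun x hx => pw_not hx _ _) (fun x hx => ?_) σ)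
  rw [pw_mem hx, Finsupp.onFinset_apply, if_pos hx]
  exact hk x hx

theorem wt_W {m : Mdl V} (hF : m.Fm) (hA : m.Anch) (hT : Tm m) (hN : m.Nn)
    (hp : ∀ x ∈ m.A, ∃ k, 0 < m.site x k) (η : Cfg V) : Wt (m.W η) := by
  rw [funext (W_eq_Ws m η)]; exact wt_Ws hF hA hT hN hp η 0

theorem ctr_se {m : Mdl V} (h : m.Ctr) (hA : m.Anch) (η : Cfg V) : SE (m.W η) :=
  se_W h.1 hA (ctr_tm h) η

theorem ctr_wt {m : Mdl V} (h : m.Ctr) (hA : m.Anch) (η : Cfg V) : Wt (m.W η) :=
  wt_W h.1 hA (ctr_tm h) (ctr_nn h) (fun x hx => ⟨0, (h.2 x hx).2.2⟩) η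

theorem ctr_ses {m : Mdl V} (h : m.Ctr) (hA : m.Anch) (η : Cfg V) (σ : V × V → ℤ) :
    SE (m.Ws η σ) := se_Ws' h.1 hA (ctr_tm h) η σ

theorem ctr_wts {m : Mdl V} (h : m.Ctr) (hA : m.Anch) (η : Cfg V) (σ : V × V → ℤ) :
    Wt (m.Ws η σ) := wt_Ws h.1 hA (ctr_tm h) (ctr_nn h) (fun x hx => ⟨0, (h.2 x hx).2.2⟩) η σ

theorem ctr_cen {m : Mdl V} (h : m.Ctr) (hA : m.Anch) : Cen (m.W 0) :=
  ⟨ctr_rsd0 h, W_pos h.1 (fun _ _ => rfl) fun x hx => (h.2 x hx).2.2, ctr_se h hA 0⟩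

end cfg

end Md

theorem mdlStmt : MdlStmt := fun _ _ _ =>
  ⟨Md.ctr_rsd, fun hF hA hT η σ => Md.se_Ws' hF hA hT η σ, Md.ctr_cen⟩

end Crest.Agent.T145
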