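import Crest.Agent.T145.ApiC_98
import Crest.Agent.T145.MdlC_73
import Crest.Agent.T145.CorU_59

/-!
# Row 145: proportional weights, the `Loc` calculus for models, independent blocks (helper51)
-/

set_option autoImplicit false
set_option linter.unusedSectionVars false

namespace Crest.Agent.T145

open Finset

/-! ## Proportional weights -/
section pp
variable {α : Type*} {W W' W'' : α → ℝ}

/-- `W` is a positive multiple of `W'` -/
def Pp (W W' : α → ℝ) : Prop := ∃ c : ℝ, 0 < c ∧ ∀ a, W a = c * W' a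

theorem Pp.refl (W : α → ℝ) : Pp W W := ⟨1, one_pos, fun _ => (one_mul _).symm⟩

theorem Pp.of_eq (h : ∀ a, W a = W' a) : Pp W W' := ⟨1, one_pos, fun a => by rw [one_mul, h]⟩

theorem Pp.symm (h : Pp W W') : Pp W' W := by
  obtain ⟨c, hc, h⟩ := h
  exact ⟨c⁻¹, inv_pos.2 hc, fun a => by rw [h, inv_mul_cancel_left₀ hc.ne']⟩

theorem Pp.trans (h : Pp W W') (h' : Pp W' W'') : Pp W W'' := by
  obtain ⟨c, hc, h⟩ := h
  obtain ⟨c', hc', h'⟩ := h'
  exact ⟨c * c', mul_pos hc hc', fun a => by rw [h, h', mul_assoc]⟩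

theorem Pp.mul (h : Pp W W') (G : α → ℝ) : Pp (fun a => W a * G a) fun a => W' a * G a := by
  obtain ⟨c, hc, h⟩ := h
  exact ⟨c, hc, fun a => by simp only [h, mul_assoc]⟩

theorem Pp.mul_left (h : Pp W W') (G : α → ℝ) : Pp (fun a => G a * W a) fun a => G a * W' a := by
  obtain ⟨c, hc, h⟩ := h
  exact ⟨c, hc, fun a => by simp only [h, mul_left_comm]⟩

theorem Pp.comp {β : Type*} (h : Pp W W') (g : β → α) : Pp (fun b => W (g b)) fun b => W' (g b) := by
  obtain ⟨c, hc, h⟩ := h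
  exact ⟨c, hc, fun _ => h _⟩

theorem Pp.ex (h : Pp W W') (F : α → ℝ) : Ex W F = Ex W' F := by
  obtain ⟨c, hc, h⟩ := h
  rw [funext h]; exact Ex_smul W' F hc.ne'

theorem Pp.ig (h : Pp W W') (F : α → ℝ) : Ig W F ↔ Ig W' F := by
  obtain ⟨c, hc, h⟩ := h
  rw [funext h]; exact ig_smul_iff hc.ne'

theorem Pp.wt (h : Pp W W') (hW : Wt W') : Wt W := by
  obtain ⟨c, hc, h⟩ := h
  rw [funext h]; exact hW.smul hc


theorem Pp.pr (h : Pp W W') (p : α → Prop) : Pr W p = Pr W' p := h.ex _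

theorem Pp.cv (h : Pp W W') (F G : α → ℝ) : Cv W F G = Cv W' F G := by
  simp only [Cv, h.ex]


end pp

section ppgrp
variable {L : Type*} [AddCommGroup L] {W W' ρ ρ' : L → ℝ}

theorem Pp.M (h : Pp W W') (f : L →+ ℝ) : M W f = M W' f := by simp only [T145.M, h.ex]

theorem Pp.Vr (h : Pp W W') (f g : L →+ ℝ) : Vr W f g = Vr W' f g := h.cv _ _

theorem Pp.Ph (h : Pp W W') (ξ : L →+ ℝ) : Ph W ξ = Ph W' ξ := h.ex _

theorem Pp.tilt (h : Pp W W') (f : L →+ ℝ) : Pp (tilt W f) (tilt W' f) := h.mul _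

theorem Pp.se (h : Pp W W') (hW : SE W') : SE W := fun f => (h.ig _).2 (hW f)

theorem Pp.rsd (h : Pp W W') (hW : RSD W') : RSD W := by
  obtain ⟨c, hc, h⟩ := h
  refine ⟨fun s => by rw [h]; exact mul_nonneg hc.le (hW.nonneg s), fun s => by rw [h, h, hW.even],
    fun d => ((hW.psd d).const_mul (mul_pos hc hc).le).congr fun a b => ?_⟩
  rw [h, h]; ring

theorem Pp.cen (h : Pp W W') (hW : Cen W') : Cen W := by
  refine ⟨h.rsd hW.toRSD, ?_, h.se hW.se⟩
  obtain ⟨c, hc, h⟩ := h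
  rw [h]; exact mul_pos hc hW.pos0

theorem Pp.loc (h : Pp W W') : Loc W W' := ⟨fun f => (h.M f).le, fun G _ => (h.ex G).ge⟩

theorem Loc.pp_left (h : Loc W ρ) (h' : Pp W' W) : Loc W' ρ := h'.loc.trans h

theorem Loc.pp_right (h : Loc W ρ) (h' : Pp ρ ρ') : Loc W ρ' := h.trans h'.loc

theorem Loc.M_le (h : Loc ρ' ρ) (f : L →+ ℝ) : M ρ' f ≤ M ρ f := h.1 f

theorem Loc.ex_le (h : Loc ρ' ρ) {G : L → ℝ} (hG : PD G) : Ex ρ G ≤ Ex ρ' G := h.2 G hG

theorem Loc.Ph_le (h : Loc ρ' ρ) (ξ : L →+ ℝ) : Ph ρ ξ ≤ Ph ρ' ξ := h.2 _ (pd_cos ξ)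

theorem Loc.pr_le {L' : Type*} [AddCommGroup L'] (h : Loc ρ' ρ) (φ : L →+ L') :
    Pr ρ (fun s => φ s = 0) ≤ Pr ρ' fun s => φ s = 0 := h.2 _ (pd_ind φ)



/-- a bound on `M` in one direction bounds the variance (even weights) -/
theorem Vr_le_of_M_le {L' : Type*} [AddCommGroup L'] {ρ' : L' → ℝ} (hW : Wt ρ) (hS : SE ρ)
    (he : ∀ s, ρ (-s) = ρ s) (hW' : Wt ρ') (hS' : SE ρ') (he' : ∀ s, ρ' (-s) = ρ' s)
    {f : L →+ ℝ} {f' : L' →+ ℝ} (h : ∀ t : ℝ, M ρ' (t • f') ≤ M ρ (t • f)) :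
    Vr ρ' f' f' ≤ Vr ρ f f := by
  -- `φ t = M ρ (t f) - M ρ' (t f')` is nonnegative, vanishes to first order at `0`
  by_contra hlt
  push Not at hlt
  set φ : ℝ → ℝ := fun t => M ρ (0 + t • f) - M ρ' (0 + t • f') with hφ
  set φ' : ℝ → ℝ := fun t => Ex (tilt ρ (0 + t • f)) (fun s => f s) -
    Ex (tilt ρ' (0 + t • f')) fun s => f' s with hφ'
  have h1 : ∀ t, HasDerivAt φ (φ' t) t := fun t =>
    (hW.hasDerivAt_M hS 0 f t).sub (hW'.hasDerivAt_M hS' 0 f' t)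
  have h2 : HasDerivAt φ' (Vr ρ f f - Vr ρ' f' f') 0 := by
    have := (hW.hasDerivAt_M' hS 0 f f 0).fun_sub (hW'.hasDerivAt_M' hS' 0 f' f' 0)
    simp only [zero_smul, add_zero, tilt_zero] at this
    exact this
  have h0 : φ' 0 = 0 := by
    simp only [hφ', zero_smul, add_zero, tilt_zero, Ex_hom_even he, Ex_hom_even he', sub_self]
  have h00 : φ 0 = 0 := by simp only [hφ, zero_smul, add_zero, hW.M_zero, hW'.M_zero, sub_self]
  have hmin : IsLocalMin φ 0 := Filter.Eventually.of_forall fun t => by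
    rw [h00, hφ]; simpa only [zero_add, sub_nonneg] using h t
  have hd : deriv φ = φ' := funext fun t => (h1 t).deriv
  have hmax := isLocalMax_of_deriv_deriv_neg (f := φ) (x₀ := 0)
    (by rw [hd, h2.deriv]; linarith) (by rw [hd, h0]) (h1 0).continuousAt
  have hev : φ =ᶠ[nhds 0] fun _ => 0 := by
    filter_upwards [hmin, hmax] with t a b
    rw [h00] at a b; exact le_antisymm b a
  have : deriv (deriv φ) 0 = 0 := by
    rw [hev.deriv.deriv_eq]; simp
  rw [hd, h2.deriv] at this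
  linarith

theorem Loc.Vr_le (h : Loc ρ' ρ) (hc' : Cen ρ') (hc : Cen ρ) (f : L →+ ℝ) :
    Vr ρ' f f ≤ Vr ρ f f :=
  Vr_le_of_M_le hc.wt hc.se hc.even hc'.wt hc'.se hc'.even fun _ => h.1 _

end ppgrp

/-! ## Models -/
section mdl
variable {V : Type*} [DecidableEq V] {m m' : Mdl V}

theorem Fam.pos {w : ℤ → ℝ} (h : Fam w) (k : ℤ) : 0 < w k := (kerStmt w h).lc.1 k

theorem Fam.pd {w : ℤ → ℝ} (h : Fam w) : PD w := (kerStmt w h).pd

theorem Fam.cen {w : ℤ → ℝ} (h : Fam w) : Cen w := (kerStmt w h).cen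

theorem Fam.lc {w : ℤ → ℝ} (h : Fam w) : LC w := (kerStmt w h).lc

namespace Mdl

@[simp] theorem free_A (A' : Finset V) : (m.free A').A = A' := rfl
@[simp] theorem free_ed (A' : Finset V) : (m.free A').ed = m.ed := rfl
@[simp] theorem free_w (A' : Finset V) : (m.free A').w = m.w := rfl
@[simp] theorem free_site (A' : Finset V) : (m.free A').site = m.site := rfl
@[simp] theorem free_free (A' A'' : Finset V) : (m.free A').free A'' = m.free A'' := rfl
@[simp] theorem free_self : m.free m.A = m := rfl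
@[simp] theorem keep_A (E : Finset (V × V)) : (m.keep E).A = m.A := rfl
@[simp] theorem keep_ed (E : Finset (V × V)) : (m.keep E).ed = E := rfl
@[simp] theorem keep_w (E : Finset (V × V)) : (m.keep E).w = m.w := rfl
@[simp] theorem keep_site (E : Finset (V × V)) : (m.keep E).site = m.site := rfl
@[simp] theorem mulSite_A (u : V → ℤ → ℝ) : (m.mulSite u).A = m.A := rfl
@[simp] theorem mulSite_ed (u : V → ℤ → ℝ) : (m.mulSite u).ed = m.ed := rfl
@[simp] theorem mulSite_w (u : V → ℤ → ℝ) : (m.mulSite u).w = m.w := rfl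
@[simp] theorem mulSite_site (u : V → ℤ → ℝ) (x : V) (k : ℤ) :
    (m.mulSite u).site x k = m.site x k * u x k := rfl

theorem Fm.free (h : m.Fm) (A' : Finset V) : (m.free A').Fm := h

theorem Fm.keep (h : m.Fm) {E : Finset (V × V)} (hE : E ⊆ m.ed) : (m.keep E).Fm :=
  fun e he => h e (hE he)

theorem Fm.mulSite (h : m.Fm) (u : V → ℤ → ℝ) : (m.mulSite u).Fm := h

theorem Ctr.free (h : m.Ctr) {A' : Finset V} (hA : A' ⊆ m.A) : (m.free A').Ctr :=
  ⟨h.1, fun x hx => h.2 x (hA hx)⟩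

theorem Ctr.keep (h : m.Ctr) {E : Finset (V × V)} (hE : E ⊆ m.ed) : (m.keep E).Ctr :=
  ⟨h.1.keep hE, h.2⟩

theorem Ctr.mulSite (h : m.Ctr) {u : V → ℤ → ℝ}
    (hu : ∀ x ∈ m.A, RSD (u x) ∧ PD (u x) ∧ 0 < u x 0) : (m.mulSite u).Ctr :=
  ⟨h.1, fun x hx => ⟨Rsd63.rsd_mul (h.2 x hx).1 (hu x hx).1, (h.2 x hx).2.1.mul (hu x hx).2.1,
    mul_pos (h.2 x hx).2.2 (hu x hx).2.2⟩⟩

/-- more pins, more edges: still anchored -/
theorem Anch.of_le (h : m.Anch) (hA : m'.A ⊆ m.A) (hE : m.ed ⊆ m'.ed)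
    (hs : ∀ y ∈ m'.A, SE (m.site y) → SE (m'.site y)) : m'.Anch := by
  intro x hx
  obtain ⟨y, hxy, hy⟩ := h x (hA hx)
  refine ⟨y, Md.conn_mono hE hxy, ?_⟩
  by_cases hy' : y ∈ m'.A
  · exact Or.inr (hs y hy' (hy.resolve_left fun h => h (hA hy')))
  · exact Or.inl hy'

theorem Anch.free (h : m.Anch) {A' : Finset V} (hA : A' ⊆ m.A) : (m.free A').Anch :=
  h.of_le hA subset_rfl fun _ _ h => h

theorem Anch.of_keep {E : Finset (V × V)} (h : (m.keep E).Anch) (hE : E ⊆ m.ed) : m.Anch :=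
  h.of_le subset_rfl hE fun _ _ h => h

theorem Anch.mulSite (h : m.Anch) {u : V → ℤ → ℝ} (hu : ∀ x ∈ m.A, Tame (u x)) :
    (m.mulSite u).Anch := h.of_le subset_rfl subset_rfl fun y hy h => h.mul (hu y hy)

/-- edges with both ends pinned give a constant -/
theorem Ws_drop {E : Finset (V × V)} (hE : E ⊆ m.ed)
    (h : ∀ e ∈ m.ed, e ∉ E → e.1 ∉ m.A ∧ e.2 ∉ m.A) (η : Cfg V) (σ : V × V → ℤ) (s : Cfg V) :
    m.Ws η σ s = (∏ e ∈ m.ed \ E, m.w e (dE e η + σ e)) * (m.keep E).Ws η σ s := by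
  by_cases hs : ∀ x, x ∉ m.A → s x = η x
  · simp only [Ws, keep_A, keep_ed, keep_w, keep_site, ← prod_sdiff hE]
    rw [prod_congr rfl fun e he => show m.w e (dE e s + σ e) = m.w e (dE e η + σ e) by
      have := h e (mem_sdiff.1 he).1 (mem_sdiff.1 he).2
      rw [Md.dE_congr (hs _ this.1) (hs _ this.2)]]
    ring
  · simp only [Ws, keep_A, ind_neg hs, zero_mul, mul_zero]


theorem pps_keep (hF : m.Fm) {E : Finset (V × V)} (hE : E ⊆ m.ed)
    (h : ∀ e ∈ m.ed, e ∉ E → e.1 ∉ m.A ∧ e.2 ∉ m.A) (η : Cfg V) (σ : V × V → ℤ) :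
    Pp (m.Ws η σ) ((m.keep E).Ws η σ) :=
  ⟨_, prod_pos fun e he => (hF e (mem_sdiff.1 he).1).pos _, Ws_drop hE h η σ⟩

/-- two models that agree on the free sites and on the edges meeting them have the same law -/
theorem pps_of_touch (hF : m.Fm) (hF' : m'.Fm) (hA : m.A = m'.A)
    (hs : ∀ x ∈ m.A, ∀ k, m.site x k = m'.site x k)
    (he : ∀ e : V × V, e.1 ∈ m.A ∨ e.2 ∈ m.A → (e ∈ m.ed ↔ e ∈ m'.ed))
    (hw : ∀ e ∈ m.ed, e.1 ∈ m.A ∨ e.2 ∈ m.A → m.w e = m'.w e) (η : Cfg V) {σ σ' : V × V → ℤ}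
    (hσ : ∀ e ∈ m.ed, e.1 ∈ m.A ∨ e.2 ∈ m.A → σ e = σ' e) : Pp (m.Ws η σ) (m'.Ws η σ') := by
  set E := m.ed.filter fun e => e.1 ∈ m.A ∨ e.2 ∈ m.A with hEd
  have hE' : E ⊆ m'.ed := fun e h => (he e (mem_filter.1 h).2).1 (mem_filter.1 h).1
  have h1 := pps_keep hF (E := E) (filter_subset _ _)
    (fun e h1 h2 => not_or.1 fun h3 => h2 (mem_filter.2 ⟨h1, h3⟩)) η σ
  have h2 := pps_keep hF' hE'
    (fun e h1 h2 => hA ▸ not_or.1 fun h3 => h2 (mem_filter.2 ⟨(he e h3).2 h1, h3⟩)) η σ'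
  refine h1.trans ((Pp.of_eq fun s => ?_).trans h2.symm)
  simp only [Ws, keep_A, keep_ed, keep_w, keep_site, ← hA]
  rw [prod_congr rfl fun e h => show m.w e (dE e s + σ e) = m'.w e (dE e s + σ' e) by
      rw [hw e (mem_filter.1 h).1 (mem_filter.1 h).2, hσ e (mem_filter.1 h).1 (mem_filter.1 h).2],
    prod_congr rfl fun x hx => hs x hx (s x)]

theorem pp_of_touch (hF : m.Fm) (hF' : m'.Fm) (hA : m.A = m'.A)
    (hs : ∀ x ∈ m.A, ∀ k, m.site x k = m'.site x k)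
    (he : ∀ e : V × V, e.1 ∈ m.A ∨ e.2 ∈ m.A → (e ∈ m.ed ↔ e ∈ m'.ed))
    (hw : ∀ e ∈ m.ed, e.1 ∈ m.A ∨ e.2 ∈ m.A → m.w e = m'.w e) (η : Cfg V) :
    Pp (m.W η) (m'.W η) := by
  rw [W_eq_Ws, W_eq_Ws]; exact pps_of_touch hF hF' hA hs he hw η fun _ _ _ => rfl

theorem pp_keep (hF : m.Fm) {E : Finset (V × V)} (hE : E ⊆ m.ed)
    (h : ∀ e ∈ m.ed, e ∉ E → e.1 ∉ m.A ∧ e.2 ∉ m.A) (η : Cfg V) :
    Pp (m.W η) ((m.keep E).W η) := by
  rw [W_eq_Ws, W_eq_Ws]; exact pps_keep hF hE h η 0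

end Mdl

/-- restriction to `A` as an additive map -/
noncomputable def resH (A : Finset V) : Cfg V →+ Cfg V := Finsupp.filterAddHom (· ∈ A)

theorem resH_apply (A : Finset V) (s : Cfg V) (x : V) :
    resH A s x = if x ∈ A then s x else 0 := Finsupp.filter_apply _ _ _


theorem pd_off (A : Finset V) : PD fun s : Cfg V => ind (∀ x, x ∉ A → s x = 0) := by
  have := pd_ind (AddMonoidHom.id (Cfg V) - resH A)
  refine (funext fun s => ind_congr ?_ : _ = _) ▸ this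
  simp only [AddMonoidHom.sub_apply, AddMonoidHom.id_apply, Finsupp.ext_iff, Finsupp.sub_apply,
    resH_apply, Finsupp.zero_apply]
  refine forall_congr' fun x => ?_
  split_ifs with h <;> simp [h]

theorem pd_on (A : Finset V) : PD fun s : Cfg V => ind (∀ x ∈ A, s x = 0) := by
  have := pd_ind (resH A)
  refine (funext fun s => ind_congr ?_ : _ = _) ▸ this
  simp only [Finsupp.ext_iff, resH_apply, Finsupp.zero_apply]
  refine forall_congr' fun x => ?_
  split_ifs with h <;> simp [h]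

end mdl

/-! ## The `Loc` calculus -/
section loc
variable {V : Type} [DecidableEq V] {m m' : Mdl V}

theorem Mdl.Ctr.rsd (h : m.Ctr) : RSD (m.W 0) := Md.ctr_rsd0 h

theorem Mdl.Ctr.cen (h : m.Ctr) (ha : m.Anch) : Cen (m.W 0) := Md.ctr_cen h ha

theorem Mdl.Ctr.wt (h : m.Ctr) (ha : m.Anch) (η : Cfg V) : Wt (m.W η) := Md.ctr_wt h ha η

theorem Mdl.Ctr.se (h : m.Ctr) (ha : m.Anch) (η : Cfg V) : SE (m.W η) := Md.ctr_se h ha η

/-- **master lemma**: more pins, more edges, PD site factors: more localised -/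
theorem loc_mdl (hc : m.Ctr) (ha : m.Anch) (hF : m'.Fm)
    (hA : m'.A ⊆ m.A) (hE : m.ed ⊆ m'.ed) (hw : ∀ e ∈ m.ed, m'.w e = m.w e) (u : V → ℤ → ℝ)
    (hu : ∀ x ∈ m'.A, PD (u x) ∧ (∀ k, 0 ≤ u x k) ∧ 0 < u x 0)
    (hs : ∀ x ∈ m'.A, ∀ k, m'.site x k = m.site x k * u x k) : Loc (m'.W 0) (m.W 0) := by
  set G : Cfg V → ℝ := fun s => ind (∀ x, x ∉ m'.A → s x = 0) *
    ((∏ e ∈ m'.ed \ m.ed, m'.w e (dH e s)) * ∏ x ∈ m'.A, u x (evZ x s)) with hG
  have hpd : PD G := (pd_off _).mul ((PD.prod fun e he =>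
    (hF e (mem_sdiff.1 he).1).pd.comp (dH e)).mul (PD.prod fun x hx => (hu x hx).1.comp (evZ x)))
  have h0 : ∀ s, 0 ≤ G s := fun s => mul_nonneg (ind_nonneg _) (mul_nonneg
    (prod_nonneg fun e he => (hF e (mem_sdiff.1 he).1).nonneg _)
    (prod_nonneg fun x hx => (hu x hx).2.1 _))
  have h1 : 0 < G 0 := by
    simp only [hG, Finsupp.zero_apply, implies_true, ind_true, one_mul, map_zero]
    exact mul_pos (prod_pos fun e he => (hF e (mem_sdiff.1 he).1).pos _)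
      (prod_pos fun x hx => (hu x hx).2.2)
  refine ((monoStmt _ _ (hc.cen ha)).1 G hpd h0 h1).pp_left (Pp.symm ⟨∏ x ∈ m.A \ m'.A, m.site x 0,
    prod_pos fun x hx => (hc.2 x (mem_sdiff.1 hx).1).2.2, fun s => ?_⟩)
  have h2 := Md.W_free hA (η := 0) (t := 0) (fun _ _ => rfl) s
  simp only [Finsupp.zero_apply] at h2
  simp only [hG]
  rw [← mul_assoc, mul_comm (m.W 0 s), h2, mul_assoc]
  congr 1
  simp only [Mdl.W, Mdl.free_A, Mdl.free_ed, Mdl.free_w, Mdl.free_site, ← prod_sdiff hE,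
    dH_apply, evZ_apply]
  rw [prod_congr rfl fun x hx => hs x hx (s x), prod_mul_distrib,
    prod_congr (s₁ := m.ed) rfl fun e he => show m'.w e (dE e s) = m.w e (dE e s) by rw [hw e he]]
  ring

/-- more pins and more edges -/
theorem loc_le (hc : m.Ctr) (ha : m.Anch) (hF : m'.Fm)
    (hA : m'.A ⊆ m.A) (hE : m.ed ⊆ m'.ed) (hw : ∀ e ∈ m.ed, m'.w e = m.w e)
    (hs : ∀ x ∈ m'.A, ∀ k, m'.site x k = m.site x k) : Loc (m'.W 0) (m.W 0) :=
  loc_mdl hc ha hF hA hE hw (fun _ _ => 1) (fun _ _ => ⟨pd_one, fun _ => zero_le_one, one_pos⟩)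
    fun x hx k => by rw [hs x hx, mul_one]

/-- the same, comparing only the edges that meet the free sites of `m'` -/
theorem loc_touch (hc : m.Ctr) (ha : m.Anch) (hF : m'.Fm)
    (hA : m'.A ⊆ m.A)
    (hE : ∀ e ∈ m.ed, e.1 ∈ m'.A ∨ e.2 ∈ m'.A → e ∈ m'.ed ∧ m'.w e = m.w e)
    (hs : ∀ x ∈ m'.A, ∀ k, m'.site x k = m.site x k) : Loc (m'.W 0) (m.W 0) := by
  classical
  let m₂ : Mdl V := ⟨m'.A, m.ed ∪ m'.ed, fun e => if e ∈ m.ed ∧ (e ∉ m'.ed ∨ (e.1 ∉ m'.A ∧ e.2 ∉ m'.A))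
    then m.w e else m'.w e, m'.site⟩
  have hF₂ : m₂.Fm := fun e he => by
    simp only [m₂]
    split_ifs with h
    · exact hc.1 e h.1
    · refine hF e ((mem_union.1 he).elim (fun h1 => by_contra fun h2 => h ⟨h1, Or.inl h2⟩) id)
  refine (loc_le hc ha hF₂ hA subset_union_left (fun e he => ?_) hs).pp_left
    (Mdl.pp_of_touch hF hF₂ rfl (fun _ _ _ => rfl) (fun e h => ?_) (fun e he h => ?_) 0)
  · simp only [m₂]
    split_ifs with h
    · rfl
    · exact (hE e he (by by_contra h'; exact h ⟨he, Or.inr (not_or.1 h')⟩)).2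
  · exact ⟨fun h1 => mem_union_right _ h1,
      fun h1 => (mem_union.1 h1).elim (fun h2 => (hE e h2 h).1) id⟩
  · simp only [m₂]
    rw [if_neg]
    rintro ⟨-, h1 | h1⟩
    · exact h1 he
    · exact h.elim h1.1 h1.2

/-- pinning localises -/
theorem loc_free (hc : m.Ctr) (ha : m.Anch) {A' : Finset V}
    (hA : A' ⊆ m.A) : Loc ((m.free A').W 0) (m.W 0) :=
  loc_le hc ha hc.1 hA subset_rfl (fun _ _ => rfl) fun _ _ _ => rfl



/-- shortening edges localises -/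
theorem loc_short (hS : ShortStmt) (hc : m.Ctr) (ha : m.Anch) (hA : m'.A = m.A)
    (hE : m'.ed = m.ed) (hs : ∀ x ∈ m.A, ∀ k, m'.site x k = m.site x k)
    (hw : ∀ e ∈ m.ed, Short (m'.w e) (m.w e)) : Loc (m'.W 0) (m.W 0) := by
  let n : Finset (V × V) → Mdl V := fun S => { m with w := fun e => if e ∈ S then m'.w e else m.w e }
  have hn : ∀ S, (n S).Ctr := fun S => ⟨fun e he => by
    simp only [n]
    split_ifs
    · exact (hw e he).left
    · exact (hw e he).right, hc.2⟩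
  have key : ∀ S, S ⊆ m.ed → Loc ((n S).W 0) (m.W 0) := by
    intro S
    induction S using Finset.induction_on with
    | empty => intro _; simp only [n, notMem_empty, if_false]; exact Loc.refl _
    | insert e S he ih =>
      intro hS'
      have hem : e ∈ m.ed := hS' (mem_insert_self _ _)
      refine Loc.trans ?_ (ih fun x hx => hS' (mem_insert_of_mem hx))
      have e1 : ∀ s, (n S).W 0 s = ((n S).keep (m.ed.erase e)).W 0 s * m.w e (dH e s) := fun s => by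
        simp only [Mdl.W, Mdl.keep, n, dH_apply]
        rw [← mul_prod_erase _ _ hem, if_neg he]; ring
      have e2 : ∀ s, (n (insert e S)).W 0 s =
          ((n S).keep (m.ed.erase e)).W 0 s * m'.w e (dH e s) := fun s => by
        simp only [Mdl.W, Mdl.keep, n, dH_apply]
        rw [← mul_prod_erase _ _ hem, if_pos (mem_insert_self _ _),
          prod_congr rfl fun x hx => show (if x ∈ insert e S then m'.w x else m.w x) (dE x s) =
            (if x ∈ S then m'.w x else m.w x) (dE x s) by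
              simp only [mem_insert, (mem_erase.1 hx).1, false_or]]
        ring
      rw [funext e1, funext e2]
      refine hS _ _ _ _ _ (((hn S).keep (erase_subset _ _)).rsd) (hw e hem) ?_
      rw [← funext e1]; exact (hn S).cen ha
  refine (key _ subset_rfl).pp_left (Pp.of_eq fun s => ?_)
  simp only [Mdl.W, n, hA, hE]
  rw [prod_congr rfl fun x hx => hs x hx (s x),
    prod_congr rfl fun e he => show m'.w e (dE e s) = (if e ∈ m.ed then m'.w e else m.w e) (dE e s) by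
      rw [if_pos he]]

theorem Mdl.Shr.ctr {C : Finset V} (h : m.Shr C m') (hc : m.Ctr) : m'.Ctr :=
  ⟨fun e he => (h.2.2.2 e (h.2.1 ▸ he)).1.left, fun x hx => by
    rw [h.2.2.1]; exact hc.2 x (mem_sdiff.1 (h.1 ▸ hx)).1⟩

theorem Mdl.Shr.anch {C : Finset V} (h : m.Shr C m') (ha : m.Anch) : m'.Anch :=
  ha.of_le (h.1 ▸ sdiff_subset) h.2.1.ge fun y _ hy => by rw [h.2.2.1]; exact hy

/-- a shrunk model is more localised than the model with `C` pinned -/
theorem Mdl.Shr.loc_free (hS : ShortStmt) {C : Finset V} (h : m.Shr C m')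
    (hc : m.Ctr) (ha : (m.free (m.A \ C)).Anch) : Loc (m'.W 0) ((m.free (m.A \ C)).W 0) :=
  loc_short hS (hc.free sdiff_subset) ha h.1 h.2.1 (fun x _ k => by rw [h.2.2.1]; rfl)
    fun e he => (h.2.2.2 e he).1

theorem Mdl.Shr.loc (hS : ShortStmt) {C : Finset V}
    (h : m.Shr C m') (hc : m.Ctr) (ha : m.Anch) : Loc (m'.W 0) (m.W 0) :=
  (h.loc_free hS hc (ha.free sdiff_subset)).trans (T145.loc_free hc ha sdiff_subset)

end loc

end Crest.Agent.T145
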