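import Crest.Agent.T145.GffDef_8
import Crest.Agent.T145.GeoA_51

/-!
# Row 145, module (b): families, separation of scales, windows, `Soft` calculus (helper23)

Recommended use: `Soft.of_ev` turns a `Soft` goal into `∀ᶠ δ in 𝓝[>] 0, …`; feed it by `filter_upwards` with
`Soft.ev` / `Soft.ev'` (other soft statements at other `K`, `ε`), `ev_le`, `ev_large`.
-/

set_option autoImplicit false

namespace Crest.Agent.T145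

open Finset Filter Topology

/-! ## families -/

/-- the member of least length -/
def Fa.base (F : Fa) : Lat := ⟨F.J, F.xy, F.τ₁⟩

/-- the family `[a, b]` through a lattice -/
def Lat.faI (Λ : Lat) (h : Λ.Ok) (a b : ℝ) (ha : 0 < a) : Fa := ⟨Λ.J, Λ.xy, a, b, h.1, ha⟩

/-- the family reduced to one lattice -/
def Lat.fa (Λ : Lat) (h : Λ.Ok) : Fa := Λ.faI h Λ.τ Λ.τ h.2

/-- the family `[τ / 2, 2 τ]` -/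
noncomputable def Lat.fa2 (Λ : Lat) (h : Λ.Ok) : Fa := Λ.faI h (Λ.τ / 2) (2 * Λ.τ) (half_pos h.2)

namespace Lat
variable {Λ : Lat}

theorem mem_faI (h : Λ.Ok) {a b τ : ℝ} (ha : 0 < a) (h1 : a ≤ τ) (h2 : τ ≤ b) :
    (Λ.faI h a b ha).Mem (Λ.at' τ) := ⟨rfl, rfl, h1, h2⟩

theorem mem_fa (h : Λ.Ok) : (Λ.fa h).Mem Λ := ⟨rfl, rfl, le_rfl, le_rfl⟩

theorem mem_fa2 (h : Λ.Ok) : (Λ.fa2 h).Mem Λ :=
  ⟨rfl, rfl, half_le_self h.2.le, by have := h.2; change Λ.τ ≤ 2 * Λ.τ; linarith⟩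

theorem ev_mem_fa2 (h : Λ.Ok) : ∀ᶠ τ in 𝓝 Λ.τ, (Λ.fa2 h).Mem (Λ.at' τ) := by
  have := h.2
  filter_upwards [Icc_mem_nhds (half_lt_self h.2) (show Λ.τ < 2 * Λ.τ by linarith)] with τ hτ
  exact mem_faI h _ hτ.1 hτ.2

theorem Ok.a_pos (h : Λ.Ok) : 0 < Λ.a := one_pos.trans_le h.one_le_a

theorem Ok.e0_pos (h : Λ.Ok) : 0 < Λ.e0 := div_pos h.a_pos h.2

theorem Ok.e0_mul (h : Λ.Ok) : Λ.e0 * Λ.τ = Λ.a := div_mul_cancel₀ _ h.2.ne'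

theorem Ok.inv_e0 (_h : Λ.Ok) : 1 / Λ.e0 = Λ.τ / Λ.a := by rw [e0, one_div_div]

theorem Ok.gN_mul (h : Λ.Ok) (l : ℕ) : Λ.gN l * Λ.e0 = Λ.tN l := div_mul_cancel₀ _ h.e0_pos.ne'

theorem Ok.gI_mul (h : Λ.Ok) : Λ.gI * Λ.e0 = Λ.tI := div_mul_cancel₀ _ h.e0_pos.ne'

theorem Ok.gI_pos_iff (h : Λ.Ok) : 0 < Λ.gI ↔ 0 < Λ.tI := by
  rw [gI, div_pos_iff_of_pos_right h.e0_pos]


theorem Ok.vr_X (h : Λ.Ok) {l : ℕ} (hl : 1 ≤ l) :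
    Vr (Λ.WN l) (Λ.X l (co 0)) (Λ.X l (co 0)) = Λ.tN l * (Λ.e0 * (l : ℝ) ^ 2) := by
  have : (0 : ℝ) < l := by exact_mod_cast hl
  exact (div_mul_cancel₀ _ (mul_pos h.e0_pos (by positivity)).ne').symm

end Lat

namespace Fa
variable {F : Fa} {Λ : Lat}

theorem base_ok (F : Fa) : F.base.Ok := ⟨F.adm, F.pos⟩
theorem Mem.le_tau (h : F.Mem Λ) : F.τ₁ ≤ Λ.τ := h.2.2.1
theorem Mem.tau_le (h : F.Mem Λ) : Λ.τ ≤ F.τ₂ := h.2.2.2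
theorem Mem.tau_pos (h : F.Mem Λ) : 0 < Λ.τ := F.pos.trans_le h.le_tau
theorem Mem.tau2_pos (h : F.Mem Λ) : 0 < F.τ₂ := h.tau_pos.trans_le h.tau_le
theorem Mem.ok (h : F.Mem Λ) : Λ.Ok := ⟨h.1 ▸ F.adm, h.tau_pos⟩

theorem Mem.eq_at' (h : F.Mem Λ) : Λ = F.base.at' Λ.τ := by
  obtain ⟨J, xy, τ⟩ := Λ
  obtain ⟨h1, h2, -⟩ := h
  simp only at h1 h2
  subst h1 h2
  rfl

theorem Mem.J_eq (h : F.Mem Λ) : Λ.J = F.base.J := h.1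
theorem Mem.Jp_eq (h : F.Mem Λ) : Λ.Jp = F.base.Jp := by rw [h.eq_at']; rfl
theorem Mem.a_eq (h : F.Mem Λ) : Λ.a = F.base.a := by rw [h.eq_at']; rfl
theorem Mem.rg_eq (h : F.Mem Λ) : Λ.rg = F.base.rg := by rw [h.eq_at']; rfl
theorem Mem.edI_eq (h : F.Mem Λ) (D : Finset Pt) : Λ.edI D = F.base.edI D := by rw [h.eq_at']; rfl
theorem Mem.edT_eq (h : F.Mem Λ) (D : Finset Pt) : Λ.edT D = F.base.edT D := by rw [h.eq_at']; rfl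

theorem Mem.at' (h : F.Mem Λ) {τ : ℝ} (h1 : F.τ₁ ≤ τ) (h2 : τ ≤ F.τ₂) : F.Mem (Λ.at' τ) :=
  ⟨h.1, h.2.1, h1, h2⟩

theorem Mem.e0_pos (h : F.Mem Λ) : 0 < Λ.e0 := h.ok.e0_pos

theorem Mem.e0_ge (h : F.Mem Λ) : 1 / F.τ₂ ≤ Λ.e0 :=
  div_le_div₀ h.ok.a_pos.le h.ok.one_le_a h.tau_pos h.tau_le

theorem Mem.e0_le (h : F.Mem Λ) : Λ.e0 ≤ F.base.a / F.τ₁ := by
  rw [← h.a_eq]
  exact div_le_div_of_nonneg_left h.ok.a_pos.le F.pos h.le_tau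

theorem Mem.inv_e0_le (h : F.Mem Λ) : 1 / Λ.e0 ≤ F.τ₂ := by
  rw [h.ok.inv_e0]
  exact (div_le_self h.tau_pos.le h.ok.one_le_a).trans h.tau_le

theorem Mem.one_le_mul_e0 (h : F.Mem Λ) : 1 ≤ F.τ₂ * Λ.e0 :=
  (div_le_iff₀ h.e0_pos).1 h.inv_e0_le

/-- one constant that bounds all the parameters of a family -/
theorem exists_bound (F : Fa) : ∃ C : ℝ, 1 ≤ C ∧ ∀ Λ, F.Mem Λ →
    Λ.τ ≤ C ∧ 1 / Λ.τ ≤ C ∧ Λ.e0 ≤ C ∧ 1 / Λ.e0 ≤ C ∧ Λ.a ≤ C ∧ (Λ.rg : ℝ) ≤ C ∧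
      (Λ.J.card : ℝ) ≤ C ∧ (Λ.Jp.card : ℝ) ≤ C := by
  have ha := F.base_ok.a_pos
  have hp := F.pos
  have h1 : 0 < 1 / F.τ₁ := by positivity
  have h2 : 0 < F.base.a / F.τ₁ := by positivity
  have h3 : (0 : ℝ) ≤ F.base.rg := by positivity
  have h4 : (0 : ℝ) ≤ F.J.card := by positivity
  have h5 := abs_nonneg F.τ₂
  have h6 := le_abs_self F.τ₂
  refine ⟨1 + |F.τ₂| + 1 / F.τ₁ + F.base.a / F.τ₁ + F.base.a + F.base.rg + F.J.card, by linarith,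
    fun Λ h => ?_⟩
  have e1 := h.tau_le
  have e2 : 1 / Λ.τ ≤ 1 / F.τ₁ := one_div_le_one_div_of_le hp h.le_tau
  have e3 := h.e0_le
  have e4 := h.inv_e0_le
  have e5 : (Λ.Jp.card : ℝ) ≤ Λ.J.card := by exact_mod_cast card_filter_le _ _
  rw [h.a_eq, h.rg_eq]
  rw [h.1] at e5 ⊢
  refine ⟨?_, ?_, ?_, ?_, ?_, ?_, ?_, ?_⟩ <;> linarith

end Fa

/-! ## separation of scales -/

namespace Sep
variable {δ δ' : ℝ} {l L L' n : ℕ}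

theorem pos (h : Sep δ l L) : 0 < δ := by
  have h1 := h.1
  have h2 : (0 : ℝ) ≤ l := Nat.cast_nonneg l
  rcases lt_or_ge 0 δ with hc | hc
  · exact hc
  · nlinarith

theorem l_pos' (h : Sep δ l L) : (0 : ℝ) < l := by
  have := h.1
  rcases (Nat.cast_nonneg l : (0 : ℝ) ≤ l).eq_or_lt with e | e
  · rw [← e] at this; linarith
  · exact e

theorem one_le_l (h : Sep δ l L) : 1 ≤ l := by exact_mod_cast h.l_pos'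

theorem L_pos' (h : Sep δ l L) : (0 : ℝ) < L := by
  have h1 := h.l_pos'.trans_le h.2
  rcases (Nat.cast_nonneg L : (0 : ℝ) ≤ L).eq_or_lt with e | e
  · rw [← e] at h1; linarith
  · exact e

theorem one_le_L (h : Sep δ l L) : 1 ≤ L := by exact_mod_cast h.L_pos'

theorem mono (h : Sep δ l L) (hδ : δ ≤ δ') : Sep δ' l L :=
  ⟨h.1.trans (mul_le_mul_of_nonneg_right hδ (Nat.cast_nonneg _)),
    h.2.trans (mul_le_mul_of_nonneg_right hδ (Nat.cast_nonneg _))⟩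

theorem mono_right (h : Sep δ l L) (hL : L ≤ L') : Sep δ l L' :=
  ⟨h.1, h.2.trans (mul_le_mul_of_nonneg_left (by exact_mod_cast hL) h.pos.le)⟩

theorem le_l {c : ℝ} (h : Sep δ l L) (hc : c * δ ≤ 1) : c ≤ l := by
  have h0 := h.pos
  have h1 := h.1
  by_contra hh
  nlinarith [not_le.1 hh]

theorem mul_le_L {c : ℝ} (h : Sep δ l L) (hc : c * δ ≤ 1) : c * l ≤ L := by
  rcases le_total c 0 with h0 | h0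
  · nlinarith [h.l_pos', h.L_pos']
  · nlinarith [mul_le_mul_of_nonneg_left h.2 h0, h.L_pos']

theorem large (h : Sep δ l L) (hn : (n : ℝ) * δ ≤ 1) : n ≤ l ∧ n * l ≤ L :=
  ⟨by exact_mod_cast h.le_l hn, by exact_mod_cast h.mul_le_L hn⟩

theorem le (h : Sep δ l L) (hδ : δ ≤ 1) : l ≤ L := by
  simpa using (h.large (n := 1) (by simpa using hδ)).2


theorem div_le (h : Sep δ l L) : (l : ℝ) / L ≤ δ := (div_le_iff₀ h.L_pos').2 h.2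

theorem inv_L_le (h : Sep δ l L) : 1 / (L : ℝ) ≤ δ := by
  refine le_trans ?_ h.div_le
  exact div_le_div_of_nonneg_right (by exact_mod_cast h.one_le_l) h.L_pos'.le

/-- going down by a bounded factor -/
theorem down {c : ℝ} (h : Sep δ l L) (hL : (L : ℝ) ≤ c * L') (hc : 1 ≤ c) (hδ : c * δ ≤ δ') :
    Sep δ' l L' := by
  have h0 := h.pos
  refine ⟨(h.mono (by nlinarith)).1, h.2.trans ?_⟩
  calc δ * L ≤ δ * (c * L') := mul_le_mul_of_nonneg_left hL h0.le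
    _ = c * δ * L' := by ring
    _ ≤ δ' * L' := mul_le_mul_of_nonneg_right hδ (Nat.cast_nonneg _)

end Sep

theorem ev_pos : ∀ᶠ δ in 𝓝[>] (0 : ℝ), 0 < δ := self_mem_nhdsWithin

theorem ev_le {c : ℝ} (hc : 0 < c) : ∀ᶠ δ in 𝓝[>] (0 : ℝ), δ ≤ c :=
  mem_nhdsWithin_of_mem_nhds (Iic_mem_nhds hc)

theorem ev_mul_le (a : ℝ) {c : ℝ} (hc : 0 < c) : ∀ᶠ δ in 𝓝[>] (0 : ℝ), a * δ ≤ c := by
  have : Tendsto (fun δ : ℝ => a * δ) (𝓝 0) (𝓝 (a * 0)) := tendsto_id.const_mul a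
  rw [mul_zero] at this
  exact mem_nhdsWithin_of_mem_nhds (this (Iic_mem_nhds hc))

/-- any function that tends to `0` with `δ` is eventually small -/
theorem ev_small {g : ℝ → ℝ} (hg : ContinuousAt g 0) (h0 : g 0 = 0) {c : ℝ} (hc : 0 < c) :
    ∀ᶠ δ in 𝓝[>] (0 : ℝ), g δ ≤ c :=
  mem_nhdsWithin_of_mem_nhds (hg (Iic_mem_nhds (h0.symm ▸ hc)))

theorem ev_large (n : ℕ) :
    ∀ᶠ δ in 𝓝[>] (0 : ℝ), ∀ l L, Sep δ l L → n ≤ l ∧ n * l ≤ L ∧ n ≤ L := by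
  filter_upwards [ev_mul_le (n : ℝ) one_pos] with δ hδ l L h
  exact ⟨(h.large hδ).1, (h.large hδ).2, (Nat.le_mul_of_pos_right _ h.one_le_l).trans (h.large hδ).2⟩

theorem ev_large' (c : ℝ) :
    ∀ᶠ δ in 𝓝[>] (0 : ℝ), ∀ l L, Sep δ l L → c ≤ l ∧ c * l ≤ L ∧ c ≤ L := by
  filter_upwards [ev_mul_le c one_pos, ev_le one_pos] with δ hδ h1 l L h
  exact ⟨h.le_l hδ, h.mul_le_L hδ, (h.le_l hδ).trans (by exact_mod_cast h.le h1)⟩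


/-- the same with a family in front -/
theorem ev_sep_mem {F : Fa} {Q : Lat → ℕ → ℕ → Prop}
    (h : ∃ δ : ℝ, 0 < δ ∧ ∀ Λ, F.Mem Λ → ∀ l L, Sep δ l L → Q Λ l L) :
    ∀ᶠ δ in 𝓝[>] (0 : ℝ), ∀ Λ, F.Mem Λ → ∀ l L, Sep δ l L → Q Λ l L := by
  obtain ⟨δ₀, h0, h⟩ := h
  filter_upwards [ev_le h0] with δ hδ Λ hΛ l L hs using h Λ hΛ l L (hs.mono hδ)

theorem exists_of_ev {p : ℝ → Prop} (h : ∀ᶠ δ in 𝓝[>] (0 : ℝ), p δ) : ∃ δ, 0 < δ ∧ p δ :=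
  (ev_pos.and h).exists

theorem ev_sep_atTop {δ : ℝ} (hδ : 0 < δ) :
    ∀ᶠ l : ℕ in atTop, ∀ᶠ L : ℕ in atTop, Sep δ l L := by
  have h (c : ℝ) : ∀ᶠ l : ℕ in atTop, c ≤ δ * l :=
    (tendsto_natCast_atTop_atTop.const_mul_atTop hδ).eventually_ge_atTop c
  filter_upwards [h 1] with l hl
  filter_upwards [h l] with L hL using ⟨hl, hL⟩

theorem tendsto_two_pow : Tendsto (fun j : ℕ => 2 ^ j) atTop atTop :=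
  tendsto_pow_atTop_atTop_of_one_lt one_lt_two

/-! ## windows -/

namespace Lat.Win
variable {Λ : Lat} {θ₀ θ₀' δ δ' : ℝ} {l L : ℕ}

theorem dyadic (h : Λ.Win θ₀ δ l L) : ∃ j, L = 2 ^ j := h.1
theorem sep (h : Λ.Win θ₀ δ l L) : Sep δ l L := h.2.1
theorem low (h : Λ.Win θ₀ δ l L) : θ₀ ≤ Λ.tN (2 * L) := h.2.2.1
theorem drop (h : Λ.Win θ₀ δ l L) : Λ.tN l - Λ.tN (2 * L) ≤ δ := h.2.2.2
theorem pos (h : Λ.Win θ₀ δ l L) : 0 < δ := h.sep.pos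
theorem one_le_l (h : Λ.Win θ₀ δ l L) : 1 ≤ l := h.sep.one_le_l
theorem one_le_L (h : Λ.Win θ₀ δ l L) : 1 ≤ L := h.sep.one_le_L
theorem L_pos' (h : Λ.Win θ₀ δ l L) : (0 : ℝ) < L := h.sep.L_pos'

theorem mono (h : Λ.Win θ₀ δ l L) (hθ : θ₀' ≤ θ₀) (hδ : δ ≤ δ') : Λ.Win θ₀' δ' l L :=
  ⟨h.1, h.sep.mono hδ, hθ.trans h.low, h.drop.trans hδ⟩

theorem mono_d (h : Λ.Win θ₀ δ l L) (hδ : δ ≤ δ') : Λ.Win θ₀ δ' l L := h.mono le_rfl hδ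

end Lat.Win

/-! ## soft statements -/

/-- `P` survives when `δ` decreases (trivial when `P` ignores `δ`: `fun _ _ _ _ _ _ _ _ h => h`) -/
def AntiD (P : Lat → ℝ → ℝ → ℝ → ℕ → ℕ → Prop) : Prop :=
  ∀ Λ K ε δ δ' l L, δ' ≤ δ → P Λ K ε δ l L → P Λ K ε δ' l L

namespace Soft
variable {P Q : Lat → ℝ → ℝ → ℝ → ℕ → ℕ → Prop}

theorem of_ev (h : ∀ (F : Fa) (θ₀ K ε : ℝ), 0 < θ₀ → 1 ≤ K → 0 < ε → ∀ᶠ δ in 𝓝[>] (0 : ℝ),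
    ∀ Λ, F.Mem Λ → ∀ l L, Λ.Win θ₀ δ l L → P Λ K ε δ l L) : Soft P :=
  fun F θ₀ K ε h1 h2 h3 => exists_of_ev (h F θ₀ K ε h1 h2 h3)

/-- general form: the parameter `δ₀` inside `P` is frozen, the window parameter is any small `δ` -/
theorem ev0 (hP : Soft P) (F : Fa) {θ₀ K ε : ℝ} (h1 : 0 < θ₀) (h2 : 1 ≤ K) (h3 : 0 < ε) :
    ∃ δ₀ : ℝ, 0 < δ₀ ∧ ∀ᶠ δ in 𝓝[>] (0 : ℝ),
      ∀ Λ, F.Mem Λ → ∀ l L, Λ.Win θ₀ δ l L → P Λ K ε δ₀ l L := by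
  obtain ⟨δ₀, h0, h⟩ := hP F θ₀ K ε h1 h2 h3
  refine ⟨δ₀, h0, ?_⟩
  filter_upwards [ev_le h0] with δ hδ Λ hΛ l L hw using h Λ hΛ l L (hw.mono_d hδ)

/-- `P` antitone in `δ` -/
theorem ev' (hP : Soft P) (hA : AntiD P) (F : Fa) {θ₀ K ε : ℝ} (h1 : 0 < θ₀) (h2 : 1 ≤ K)
    (h3 : 0 < ε) : ∀ᶠ δ in 𝓝[>] (0 : ℝ),
      ∀ Λ, F.Mem Λ → ∀ l L, Λ.Win θ₀ δ l L → P Λ K ε δ l L := by
  obtain ⟨δ₀, h0, h⟩ := hP.ev0 F h1 h2 h3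
  filter_upwards [h, ev_le h0] with δ h hδ Λ hΛ l L hw using hA _ _ _ _ _ _ _ hδ (h Λ hΛ l L hw)

/-- `P` does not depend on `δ` -/
theorem ev {P : Lat → ℝ → ℝ → ℕ → ℕ → Prop} (hP : Soft fun Λ K ε _ l L => P Λ K ε l L) (F : Fa)
    {θ₀ K ε : ℝ} (h1 : 0 < θ₀) (h2 : 1 ≤ K) (h3 : 0 < ε) : ∀ᶠ δ in 𝓝[>] (0 : ℝ),
      ∀ Λ, F.Mem Λ → ∀ l L, Λ.Win θ₀ δ l L → P Λ K ε l L :=
  hP.ev' (fun _ _ _ _ _ _ _ _ h => h) F h1 h2 h3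

theorem mono (hP : Soft P) (h : ∀ Λ K ε δ l L, Λ.Ok → 1 ≤ K → 0 < ε → Sep δ l L →
    P Λ K ε δ l L → Q Λ K ε δ l L) : Soft Q := fun F θ₀ K ε h1 h2 h3 => by
  obtain ⟨δ, h0, hh⟩ := hP F θ₀ K ε h1 h2 h3
  exact ⟨δ, h0, fun Λ hΛ l L hw => h _ _ _ _ _ _ hΛ.ok h2 h3 hw.sep (hh Λ hΛ l L hw)⟩

theorem and (hP : Soft P) (hQ : Soft Q) (hA : AntiD P) (hB : AntiD Q) :
    Soft fun Λ K ε δ l L => P Λ K ε δ l L ∧ Q Λ K ε δ l L :=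
  of_ev fun F _ _ _ h1 h2 h3 => by
    filter_upwards [hP.ev' hA F h1 h2 h3, hQ.ev' hB F h1 h2 h3] with δ a b Λ hΛ l L hw
      using ⟨a Λ hΛ l L hw, b Λ hΛ l L hw⟩

/-- along `L = 2 ^ j` in the rough phase; `θ_l` is as close to `θ_∞` as wanted -/
theorem eventually (hm : T1mStmt) (hP : Soft P) {Λ : Lat} (hΛ : Λ.Ok) (h0 : 0 < Λ.tI) {K ε ε' : ℝ}
    (hK : 1 ≤ K) (hε : 0 < ε) (hε' : 0 < ε') : ∃ δ : ℝ, 0 < δ ∧ ∀ᶠ l in atTop,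
      |Λ.tN l - Λ.tI| ≤ ε' ∧ ∀ᶠ j in atTop,
        Λ.Win (Λ.tI / 2) δ l (2 ^ j) ∧ P Λ K ε δ l (2 ^ j) := by
  obtain ⟨δ, hδ, h⟩ := hP (Λ.fa hΛ) (Λ.tI / 2) K ε (half_pos h0) hK hε
  obtain ⟨h1, -, -, -, -, h2⟩ := hm.1 Λ hΛ
  refine ⟨δ, hδ, ?_⟩
  filter_upwards [h2 h0 δ hδ, h1 (Metric.closedBall_mem_nhds _ hε')] with l hl hl'
  refine ⟨hl', ?_⟩
  filter_upwards [hl] with j hj using ⟨hj, h Λ (Lat.mem_fa hΛ) _ _ hj⟩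

/-- the same with one scale `l` chosen -/
theorem exists_l (hm : T1mStmt) (hP : Soft P) {Λ : Lat} (hΛ : Λ.Ok) (h0 : 0 < Λ.tI) {K ε ε' : ℝ}
    (hK : 1 ≤ K) (hε : 0 < ε) (hε' : 0 < ε') : ∃ (δ : ℝ) (l : ℕ), 0 < δ ∧
      |Λ.tN l - Λ.tI| ≤ ε' ∧ ∀ᶠ j in atTop,
        Λ.Win (Λ.tI / 2) δ l (2 ^ j) ∧ P Λ K ε δ l (2 ^ j) := by
  obtain ⟨δ, hδ, h⟩ := hP.eventually hm hΛ h0 hK hε hε'
  obtain ⟨l, hl⟩ := h.exists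
  exact ⟨δ, l, hδ, hl⟩

/-- a soft statement at the dyadic sub-scales of a window -/
theorem sub0 (hm : T1mStmt) (hP : Soft P) (F : Fa) {θ₀ K ε : ℝ} (h1 : 0 < θ₀) (h2 : 1 ≤ K)
    (h3 : 0 < ε) (k : ℕ) : ∃ δ₀ : ℝ, 0 < δ₀ ∧ ∀ᶠ δ in 𝓝[>] (0 : ℝ),
      ∀ Λ, F.Mem Λ → ∀ l L, Λ.Win θ₀ δ l L → ∀ j : ℕ, 2 ^ j ≤ L →
        (L ≤ 2 ^ (j + k) ∨ Sep δ₀ l (2 ^ j)) → P Λ K ε δ₀ l (2 ^ j) := by
  obtain ⟨δ₀, h0, h⟩ := hP F (θ₀ / 2) K ε (half_pos h1) h2 h3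
  obtain ⟨δ₁, h4, h'⟩ := hm.2.2 F θ₀ δ₀ k h1 h0
  refine ⟨δ₀, h0, ?_⟩
  filter_upwards [ev_le h4] with δ hδ Λ hΛ l L hw j hj hj'
  exact h Λ hΛ _ _ ((h' Λ hΛ l L (hw.mono_d hδ)).2.2 j hj hj')

/-- the same for `P` independent of `δ`, sub-scales within a bounded factor -/
theorem sub (hm : T1mStmt) {P : Lat → ℝ → ℝ → ℕ → ℕ → Prop}
    (hP : Soft fun Λ K ε _ l L => P Λ K ε l L) (F : Fa) {θ₀ K ε : ℝ} (h1 : 0 < θ₀) (h2 : 1 ≤ K)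
    (h3 : 0 < ε) (k : ℕ) : ∀ᶠ δ in 𝓝[>] (0 : ℝ),
      ∀ Λ, F.Mem Λ → ∀ l L, Λ.Win θ₀ δ l L → ∀ j : ℕ, 2 ^ j ≤ L → L ≤ 2 ^ (j + k) →
        P Λ K ε l (2 ^ j) := by
  obtain ⟨δ₀, -, h⟩ := hP.sub0 hm F h1 h2 h3 k
  filter_upwards [h] with δ h Λ hΛ l L hw j hj hj' using h Λ hΛ l L hw j hj (Or.inl hj')

end Soft

/-- in a good window `θ_l` is bounded below and close to `θ_L` -/
theorem ev_win (hm : T1mStmt) (F : Fa) {θ₀ ε : ℝ} (h1 : 0 < θ₀) (h3 : 0 < ε) :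
    ∀ᶠ δ in 𝓝[>] (0 : ℝ), ∀ Λ, F.Mem Λ → ∀ l L, Λ.Win θ₀ δ l L →
      |Λ.tN l - Λ.tN L| ≤ ε ∧ θ₀ / 2 ≤ Λ.tN l := by
  obtain ⟨δ₁, h4, h'⟩ := hm.2.2 F θ₀ ε 0 h1 h3
  filter_upwards [ev_le h4] with δ hδ Λ hΛ l L hw
  exact ⟨(h' Λ hΛ l L (hw.mono_d hδ)).1, (h' Λ hΛ l L (hw.mono_d hδ)).2.1⟩

/-- sub-windows -/
theorem ev_subwin (hm : T1mStmt) (F : Fa) {θ₀ δ' : ℝ} (h1 : 0 < θ₀) (h3 : 0 < δ') (k : ℕ) :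
    ∀ᶠ δ in 𝓝[>] (0 : ℝ), ∀ Λ, F.Mem Λ → ∀ l L, Λ.Win θ₀ δ l L → ∀ j : ℕ, 2 ^ j ≤ L →
      (L ≤ 2 ^ (j + k) ∨ Sep δ' l (2 ^ j)) → Λ.Win (θ₀ / 2) δ' l (2 ^ j) := by
  obtain ⟨δ₁, h4, h'⟩ := hm.2.2 F θ₀ δ' k h1 h3
  filter_upwards [ev_le h4] with δ hδ Λ hΛ l L hw using (h' Λ hΛ l L (hw.mono_d hδ)).2.2

end Crest.Agent.T145
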