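import Crest.Agent.T145.Route_51
import Crest.Agent.T145.Soft_23
import Crest.Agent.T145.CutC_7

/-!
# Row 145, module (b): flow API, bare bounds, ambient models, Thomson's principle (`brStmt`)
-/

set_option autoImplicit false

namespace Crest.Agent.T145

open Finset

/-! ## Elementary inequalities -/

theorem cosh_sub_one_le (a : ℝ) : Real.cosh a - 1 ≤ a ^ 2 / 2 * Real.cosh a := by
  have h := Real.hasSum_cosh a
  have h1 := (hasSum_nat_add_iff' 1).2 h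
  simp only [range_one, sum_singleton, mul_zero, pow_zero, Nat.factorial_zero, Nat.cast_one,
    div_one] at h1
  refine hasSum_le (fun n => ?_) h1 (h.mul_left _)
  have h2 : (2 : ℝ) * (2 * n).factorial ≤ (2 * (n + 1)).factorial := by
    have : 2 * (n + 1) = 2 * n + 1 + 1 := by ring
    rw [this, Nat.factorial_succ, Nat.factorial_succ]
    push_cast
    have h3 : (0 : ℝ) < (2 * n).factorial := by positivity
    have h4 : (0 : ℝ) ≤ n := n.cast_nonneg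
    nlinarith [mul_nonneg h4 h3.le, mul_nonneg h4 (mul_nonneg h4 h3.le)]
  have h5 : a ^ (2 * (n + 1)) = a ^ 2 * a ^ (2 * n) := by ring
  have h6 : 0 ≤ a ^ 2 * a ^ (2 * n) := by rw [← h5, pow_mul]; positivity
  calc _ ≤ a ^ 2 * a ^ (2 * n) / (2 * (2 * n).factorial) := by
        rw [h5]; exact div_le_div_of_nonneg_left h6 (by positivity) h2
    _ = _ := by field_simp

theorem pow_four_le_cosh (a : ℝ) : a ^ 4 ≤ 24 * Real.cosh a := by
  have h := le_hasSum (Real.hasSum_cosh a) 2 fun j _ => by rw [pow_mul]; positivity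
  norm_num [Nat.factorial] at h
  linarith

theorem cosh_one_le_two : Real.cosh 1 ≤ 2 := by
  have h := Real.cosh_le_exp_half_sq 1
  have h2 : Real.exp (1 ^ 2 / 2) ≤ 2 := by
    have h3 : Real.exp (1 ^ 2 / 2) * Real.exp (1 ^ 2 / 2) = Real.exp 1 := by
      rw [← Real.exp_add]; norm_num
    nlinarith [Real.exp_one_lt_d9, Real.exp_pos (1 ^ 2 / 2)]
  linarith

/-- Minkowski -/
theorem sqrt_sum_add_sq_le {ι : Type*} (T : Finset ι) (a b : ι → ℝ) :
    Real.sqrt (∑ i ∈ T, (a i + b i) ^ 2) ≤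
      Real.sqrt (∑ i ∈ T, a i ^ 2) + Real.sqrt (∑ i ∈ T, b i ^ 2) := by
  have hA : 0 ≤ ∑ i ∈ T, a i ^ 2 := sum_nonneg fun _ _ => sq_nonneg _
  have hB : 0 ≤ ∑ i ∈ T, b i ^ 2 := sum_nonneg fun _ _ => sq_nonneg _
  refine Real.sqrt_le_iff.2 ⟨by positivity, ?_⟩
  have h := Real.sum_mul_le_sqrt_mul_sqrt T a b
  have e : ∑ i ∈ T, (a i + b i) ^ 2 =
      ∑ i ∈ T, a i ^ 2 + 2 * ∑ i ∈ T, a i * b i + ∑ i ∈ T, b i ^ 2 := by
    rw [mul_sum, ← sum_add_distrib, ← sum_add_distrib]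
    exact sum_congr rfl fun i _ => by ring
  rw [e, add_sq, Real.sq_sqrt hA, Real.sq_sqrt hB]
  linarith

/-! ## Flow API -/
section flows
set_option linter.unusedSectionVars false
variable {V : Type} [DecidableEq V] {ed ed' : Finset (V × V)} {A A' : Finset V} {φ ψ : V × V → ℝ}
  {f g : V → ℝ} {n n' c c' : ℝ}

theorem dv_ind (h : ed ⊆ ed') (φ : V × V → ℝ) :
    dv ed' (fun e => ind (e ∈ ed) * φ e) = dv ed φ := by
  rw [← dv_subset h fun e _ he => by rw [ind_neg he, zero_mul]]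
  exact dv_congr fun e he => by rw [ind_pos he, one_mul]


theorem sum_mul_ind (A : Finset V) (u : V → ℝ) {y : V} (h : y ∉ A → u y = 0) :
    ∑ x ∈ A, u x * ind (y = x) = u y := by
  classical
  simp only [ind_eq_ite, mul_ite, mul_one, mul_zero, sum_ite_eq]
  split_ifs with h'
  exacts [rfl, (h h').symm]

/-- summation by parts -/
theorem sum_mul_dv (u : V → ℝ) (h : ∀ e ∈ ed, (e.1 ∉ A → u e.1 = 0) ∧ (e.2 ∉ A → u e.2 = 0))
    (φ : V × V → ℝ) : ∑ x ∈ A, u x * dv ed φ x = ∑ e ∈ ed, φ e * (u e.2 - u e.1) := by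
  simp only [dv, mul_sum]
  rw [sum_comm]
  refine sum_congr rfl fun e he => ?_
  rw [← sum_mul_ind A u (h e he).1, ← sum_mul_ind A u (h e he).2, ← sum_sub_distrib, mul_sum]
  exact sum_congr rfl fun x _ => by ring

theorem F2A.nonneg (h : F2A ed A f n) : 0 ≤ n :=
  let ⟨_, _, h2⟩ := h; (sum_nonneg fun _ _ => sq_nonneg _).trans h2

theorem F2A.mono (h : F2A ed A f n) (hn : n ≤ n') : F2A ed A f n' :=
  let ⟨φ, h1, h2⟩ := h; ⟨φ, h1, h2.trans hn⟩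


theorem F2A.congr (h : F2A ed A f n) (hfg : ∀ x ∈ A, f x = g x) : F2A ed A g n :=
  let ⟨φ, h1, h2⟩ := h; ⟨φ, fun x hx => hfg x hx ▸ h1 x hx, h2⟩

theorem sum_ind_sq (h : ed ⊆ ed') (φ : V × V → ℝ) :
    ∑ e ∈ ed', (ind (e ∈ ed) * φ e) ^ 2 = ∑ e ∈ ed, φ e ^ 2 := by
  rw [← sum_subset h fun e _ he => by rw [ind_neg he]; simp]
  exact sum_congr rfl fun e he => by rw [ind_pos he, one_mul]

theorem F2A.ed_mono (h : F2A ed A f n) (hE : ed ⊆ ed') : F2A ed' A f n :=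
  let ⟨φ, h1, h2⟩ := h
  ⟨fun e => ind (e ∈ ed) * φ e, fun x hx => by rw [dv_ind hE, h1 x hx], by rwa [sum_ind_sq hE]⟩

theorem sum_smul_sq (ed : Finset (V × V)) (t : ℝ) (φ : V × V → ℝ) :
    ∑ e ∈ ed, (t * φ e) ^ 2 = t ^ 2 * ∑ e ∈ ed, φ e ^ 2 := by
  simp only [mul_pow, mul_sum]

theorem F2A.smul (h : F2A ed A f n) (t : ℝ) : F2A ed A (t • f) (t ^ 2 * n) :=
  let ⟨φ, h1, h2⟩ := h
  ⟨fun e => t * φ e, fun x hx => by rw [dv_smul, Pi.smul_apply, Pi.smul_apply, h1 x hx], by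
    rw [sum_smul_sq]; exact mul_le_mul_of_nonneg_left h2 (sq_nonneg t)⟩

theorem F2A.neg (h : F2A ed A f n) : F2A ed A (-f) n := by simpa using h.smul (-1)

theorem sum_add_sq_le {ι : Type*} {T : Finset ι} {a b : ι → ℝ} (ha : ∑ i ∈ T, a i ^ 2 ≤ n)
    (hb : ∑ i ∈ T, b i ^ 2 ≤ n') :
    ∑ i ∈ T, (a i + b i) ^ 2 ≤ (Real.sqrt n + Real.sqrt n') ^ 2 := by
  have h := (sqrt_sum_add_sq_le T a b).trans (add_le_add (Real.sqrt_le_sqrt ha) (Real.sqrt_le_sqrt hb))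
  exact (Real.sqrt_le_iff.1 h).2

theorem sqrt_add_sq_le (hn : 0 ≤ n) (hn' : 0 ≤ n') :
    (Real.sqrt n + Real.sqrt n') ^ 2 ≤ 2 * (n + n') := by
  nlinarith [Real.sq_sqrt hn, Real.sq_sqrt hn', sq_nonneg (Real.sqrt n - Real.sqrt n')]

theorem F2A.add' (h : F2A ed A f n) (h' : F2A ed A g n') :
    F2A ed A (f + g) ((Real.sqrt n + Real.sqrt n') ^ 2) :=
  let ⟨φ, h1, h2⟩ := h; let ⟨ψ, h3, h4⟩ := h'
  ⟨fun e => φ e + ψ e, fun x hx => by
    rw [dv_add, Pi.add_apply, Pi.add_apply, h1 x hx, h3 x hx], sum_add_sq_le h2 h4⟩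

theorem F2A.add (h : F2A ed A f n) (h' : F2A ed A g n') : F2A ed A (f + g) (2 * (n + n')) :=
  (h.add' h').mono (sqrt_add_sq_le h.nonneg h'.nonneg)

theorem F2A.sub (h : F2A ed A f n) (h' : F2A ed A g n') : F2A ed A (f - g) (2 * (n + n')) := by
  rw [sub_eq_add_neg]; exact h.add h'.neg

theorem F2.dv (ed : Finset (V × V)) (φ : V × V → ℝ) : F2 ed (dv ed φ) (∑ e ∈ ed, φ e ^ 2) :=
  ⟨φ, rfl, le_rfl⟩

/-- a finite sum of flows on the same edges -/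
theorem F2.sum_sqrt {ι : Type*} {T : Finset ι} {f : ι → V → ℝ} {n : ι → ℝ}
    (h : ∀ i ∈ T, F2 ed (f i) (n i)) : F2 ed (∑ i ∈ T, f i) ((∑ i ∈ T, Real.sqrt (n i)) ^ 2) := by
  classical
  induction T using Finset.induction_on with
  | empty => simpa using F2.zero ed
  | insert a T ha ih =>
    have h1 := (h a (mem_insert_self _ _)).add_sqrt (ih fun i hi => h i (mem_insert_of_mem hi))
    rwa [Real.sqrt_sq (sum_nonneg fun _ _ => Real.sqrt_nonneg _), ← sum_insert ha,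
      ← sum_insert (f := fun i => Real.sqrt (n i)) ha] at h1

/-! ## Thomson's principle -/

theorem Mdl.gr_nonneg (m : Mdl V) {τ : ℝ} (hτ : 0 ≤ τ) (f : V → ℝ) : 0 ≤ m.gr τ f :=
  mul_nonneg hτ (Real.sInf_nonneg fun _ h => F2A.nonneg h)

theorem Mdl.gr_le (m : Mdl V) {τ : ℝ} (hτ : 0 ≤ τ) (h : F2A m.ed m.A f n) : m.gr τ f ≤ τ * n :=
  mul_le_mul_of_nonneg_left (csInf_le ⟨0, fun _ h => F2A.nonneg h⟩ h) hτ

theorem Mdl.le_gr (m : Mdl V) {τ : ℝ} (hτ : 0 < τ) (h : F2A m.ed m.A f n) {v : ℝ}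
    (hv : ∀ n', F2A m.ed m.A f n' → v ≤ τ * n') : v ≤ m.gr τ f := by
  rw [Mdl.gr, ← div_le_iff₀' hτ]
  exact le_csInf ⟨n, h⟩ fun n' hn' => (div_le_iff₀' hτ).2 (hv n' hn')

theorem thomson (m : Mdl V) {τ : ℝ} {u : V → ℝ} (hτ : 0 < τ)
    (hu : ∀ e ∈ m.ed, (e.1 ∉ m.A → u e.1 = 0) ∧ (e.2 ∉ m.A → u e.2 = 0))
    (h : F2A m.ed m.A (f - dv m.ed fun e => (u e.2 - u e.1) / τ) n) :
    |Real.sqrt (m.gr τ f) - Real.sqrt (∑ e ∈ m.ed, (u e.2 - u e.1) ^ 2 / τ)| ≤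
      Real.sqrt (τ * n) := by
  set E := ∑ e ∈ m.ed, (u e.2 - u e.1) ^ 2 / τ with hE
  have hE0 : 0 ≤ E := sum_nonneg fun _ _ => by positivity
  have hs : 0 < Real.sqrt τ := Real.sqrt_pos.2 hτ
  have hss := Real.mul_self_sqrt hτ.le
  have hG : ∑ e ∈ m.ed, ((u e.2 - u e.1) / τ) ^ 2 = E / τ := by
    rw [hE, sum_div]; exact sum_congr rfl fun e _ => by field_simp
  have hG' : ∑ e ∈ m.ed, (u e.2 - u e.1) ^ 2 = τ * E := by
    rw [hE, mul_sum]; exact sum_congr rfl fun e _ => by field_simp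
  have h1 : F2A m.ed m.A f ((Real.sqrt n + Real.sqrt (E / τ)) ^ 2) := by
    simpa only [sub_add_cancel, hG] using
      h.add' ((F2.dv m.ed fun e => (u e.2 - u e.1) / τ).f2a m.A)
  have hτE : Real.sqrt τ * Real.sqrt (E / τ) = Real.sqrt E := by
    rw [← Real.sqrt_mul hτ.le, mul_div_cancel₀ _ hτ.ne']
  rw [abs_le, Real.sqrt_mul hτ.le]
  constructor
  · -- lower bound
    have key : ∀ n', F2A m.ed m.A f n' →
        Real.sqrt E - Real.sqrt τ * Real.sqrt n ≤ Real.sqrt τ * Real.sqrt n' := fun n' hn' => by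
      obtain ⟨φ, h2, h3⟩ := hn'.add' h.neg
      have h4 : ∑ e ∈ m.ed, φ e * (u e.2 - u e.1) = E := by
        rw [← sum_mul_dv u hu, sum_congr rfl fun x hx => by rw [← h2 x hx]]
        simp only [neg_sub, add_sub_cancel]
        rw [sum_mul_dv u hu]
        exact sum_congr rfl fun e _ => by ring
      have h5 := Real.sum_mul_le_sqrt_mul_sqrt m.ed φ fun e => u e.2 - u e.1
      have h6 : Real.sqrt (∑ e ∈ m.ed, φ e ^ 2) ≤ Real.sqrt n' + Real.sqrt n :=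
        Real.sqrt_le_iff.2 ⟨by positivity, h3⟩
      rw [h4, hG', Real.sqrt_mul hτ.le] at h5
      have h7 := h5.trans (mul_le_mul_of_nonneg_right h6 (by positivity))
      rcases (Real.sqrt_nonneg E).eq_or_lt with h8 | h8
      · rw [← h8]; have : 0 ≤ Real.sqrt τ * Real.sqrt n := by positivity
        have : 0 ≤ Real.sqrt τ * Real.sqrt n' := by positivity
        linarith
      · have h9 := Real.mul_self_sqrt hE0
        refine le_of_mul_le_mul_right ?_ h8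
        nlinarith
    rcases le_total (Real.sqrt E - Real.sqrt τ * Real.sqrt n) 0 with h2 | h2
    · linarith [Real.sqrt_nonneg (m.gr τ f)]
    · have h3 : (Real.sqrt E - Real.sqrt τ * Real.sqrt n) ^ 2 ≤ m.gr τ f :=
        m.le_gr hτ h1 fun n' hn' => by
          have h4 := pow_le_pow_left₀ h2 (key n' hn') 2
          rwa [mul_pow, Real.sq_sqrt hτ.le, Real.sq_sqrt hn'.nonneg] at h4
      linarith [Real.le_sqrt_of_sq_le h3]
  · have h2 := Real.sqrt_le_sqrt (m.gr_le hτ.le h1)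
    rw [Real.sqrt_mul hτ.le, Real.sqrt_sq (by positivity), mul_add, hτE] at h2
    linarith

end flows

theorem Cen.ex_cosh {L : Type*} [AddCommGroup L] {W : L → ℝ} (h : Cen W) (f : L →+ ℝ) :
    Ex W (fun s => Real.cosh (f s)) = Real.exp (M W f) := by
  have h1 := Ex_add (h.ig (Tame.exp f)) (h.ig (Tame.exp (-f)))
  rw [← h.wt.exp_M h.se, ← h.wt.exp_M h.se, h.M_neg] at h1
  simp only [Real.cosh_eq, Ex_div_const]
  simp only [AddMonoidHom.neg_apply] at h1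
  rw [h1]; ring

/-! ## Bare bounds -/
section bare
variable {V : Type} [DecidableEq V] {m : Mdl V} {ed : Finset (V × V)} {f : V → ℝ} {n τ : ℝ}
  {xy : Bool} (hτ : 0 < τ) (hc : m.Ctr) (ha : m.Anch) (hE : ed ⊆ m.ed)
  (hw : ∀ e ∈ ed, m.w e = kern xy τ)

omit [DecidableEq V] in
theorem exists_len (hτ : 0 < τ) (hF : m.Fm) (hw : ∀ e ∈ ed, m.w e = kern xy τ) :
    ∃ τ' : V × V → ℝ, (∀ e ∈ m.ed, 0 < τ' e ∧ ∃ xy, m.w e = kern xy (τ' e)) ∧
      ∀ e ∈ ed, τ' e = τ := by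
  classical
  choose! xy' t h1 h2 using hF
  refine ⟨fun e => if e ∈ ed then τ else t e, fun e he => ?_, fun e he => if_pos he⟩
  by_cases h : e ∈ ed
  · simp only [if_pos h]; exact ⟨hτ, xy, hw e h⟩
  · simp only [if_neg h]; exact ⟨h1 e he, xy' e, h2 e he⟩

theorem pr_of_flow {A : Finset V} {φ : V × V → ℝ} (h : ∀ x ∈ A, f x = dv ed φ x) {s : Cfg V}
    (hs : ∀ x, x ∉ A → s x = 0) : pr f s = ∑ e ∈ ed, φ e * (dE e s : ℝ) := by
  rw [← pr_dv]
  exact pr_congr fun x hx => h x (by_contra fun h' => hx (hs x h'))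

include hτ hc ha hE hw

theorem flow_M {φ : V × V → ℝ} (h : ∀ x ∈ m.A, f x = dv ed φ x) :
    M (m.W 0) (pr f) ≤ τ * ∑ e ∈ ed, (Real.cosh (φ e) - 1) := by
  obtain ⟨τ', h1, h2⟩ := exists_len hτ hc.1 hw
  refine (bare_cosh (φ := fun e => ind (e ∈ ed) * φ e) hc ha
    (fun s hs => pr_of_flow (fun x hx => by rw [dv_ind hE, h x hx]) hs) h1).trans_eq ?_
  rw [← sum_subset hE fun e _ he => by rw [ind_neg he]; simp, mul_sum]
  exact sum_congr rfl fun e he => by rw [ind_pos he, one_mul, h2 e he]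

theorem F2A.vr_le (h : F2A ed m.A f n) : Vr (m.W 0) (pr f) (pr f) ≤ τ * n := by
  obtain ⟨φ, h0, h3⟩ := h
  obtain ⟨τ', h1, h2⟩ := exists_len hτ hc.1 hw
  refine (bare_Vr (φ := fun e => ind (e ∈ ed) * φ e) hc ha
    (fun s hs => pr_of_flow (fun x hx => by rw [dv_ind hE, h0 x hx]) hs) h1).trans ?_
  rw [← sum_subset hE fun e _ he => by rw [ind_neg he]; simp]
  refine le_trans (le_of_eq ?_) (mul_le_mul_of_nonneg_left h3 hτ.le)
  rw [mul_sum]
  exact sum_congr rfl fun e he => by rw [ind_pos he, one_mul, h2 e he]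

/-- a flow with `∑ φ² ≤ n` and `|φ| ≤ c` -/
theorem flow_M_le {φ : V × V → ℝ} {c : ℝ} (h : ∀ x ∈ m.A, f x = dv ed φ x)
    (h2 : ∑ e ∈ ed, φ e ^ 2 ≤ n) (hφ : ∀ e ∈ ed, |φ e| ≤ c) :
    M (m.W 0) (pr f) ≤ τ * n * Real.cosh c / 2 := by
  refine (flow_M hτ hc ha hE hw h).trans ?_
  have h3 : ∑ e ∈ ed, (Real.cosh (φ e) - 1) ≤ (∑ e ∈ ed, φ e ^ 2) * (Real.cosh c / 2) := by
    rw [sum_mul]
    refine sum_le_sum fun e he => (cosh_sub_one_le _).trans ?_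
    have h4 : Real.cosh (φ e) ≤ Real.cosh c :=
      Real.cosh_le_cosh.2 ((hφ e he).trans (le_abs_self c))
    nlinarith [sq_nonneg (φ e)]
  have h4 := mul_le_mul_of_nonneg_right h2 (by positivity : 0 ≤ Real.cosh c / 2)
  calc _ ≤ τ * (n * (Real.cosh c / 2)) := mul_le_mul_of_nonneg_left (h3.trans h4) hτ.le
    _ = _ := by ring

theorem F2A.M_le (h : F2A ed m.A f n) :
    M (m.W 0) (pr f) ≤ τ * n * Real.cosh (Real.sqrt n) / 2 :=
  let ⟨φ, h0, h3⟩ := h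
  flow_M_le hτ hc ha hE hw h0 h3 fun _ he => Real.abs_le_sqrt
    ((single_le_sum (f := fun e => φ e ^ 2) (fun _ _ => sq_nonneg _) he).trans h3)

theorem F2A.M_smul_le (h : F2A ed m.A f n) (t : ℝ) :
    M (m.W 0) (t • pr f) ≤ τ * (t ^ 2 * n) * Real.cosh (|t| * Real.sqrt n) / 2 := by
  have h1 := (h.smul t).M_le hτ hc ha hE hw
  rwa [pr_smul, Real.sqrt_mul (sq_nonneg t), Real.sqrt_sq_eq_abs] at h1

theorem F2A.four_le (h : F2A ed m.A f n) :
    Ex (m.W 0) (fun s => pr f s ^ 4) ≤ 24 * Real.exp τ * n ^ 2 := by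
  have hC := hc.cen ha
  have key : ∀ t : ℝ, t ^ 2 * n ≤ 1 →
      t ^ 4 * Ex (m.W 0) (fun s => pr f s ^ 4) ≤ 24 * Real.exp τ := fun t ht => by
    have h1 := ((h.smul t).mono ht).M_le hτ hc ha hE hw
    rw [Real.sqrt_one, pr_smul] at h1
    have h2 : M (m.W 0) (t • pr f) ≤ τ := by nlinarith [cosh_one_le_two]
    have h3 : Ex (m.W 0) (fun s => Real.cosh ((t • pr f) s)) = Real.exp (M (m.W 0) (t • pr f)) := by
      exact hC.ex_cosh _
    rw [← Ex_const_mul]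
    calc _ ≤ Ex (m.W 0) (fun s => 24 * Real.cosh ((t • pr f) s)) :=
          Ex_mono hC.nonneg (hC.ig (((Tame.hom _).pow 4).const_mul _))
            (hC.ig ((Tame.cosh _).const_mul _)) fun s => by
              simpa only [AddMonoidHom.smul_apply, smul_eq_mul, mul_pow] using
                pow_four_le_cosh ((t • pr f) s)
      _ ≤ _ := by
          rw [Ex_const_mul, h3]
          exact mul_le_mul_of_nonneg_left (Real.exp_le_exp.2 h2) (by norm_num)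
  refine le_of_forall_gt_imp_ge_of_dense fun b hb => ?_
  have hc0 : ContinuousAt (fun x : ℝ => 24 * Real.exp τ * x ^ 2) n := by fun_prop
  obtain ⟨x, hx1, hx2⟩ := (((hc0.eventually (gt_mem_nhds hb)).filter_mono
    (nhdsWithin_le_nhds (s := Set.Ioi n))).and self_mem_nhdsWithin).exists
  have hx : 0 < x := h.nonneg.trans_lt hx2
  have h1 : (Real.sqrt x)⁻¹ ^ 2 = x⁻¹ := by rw [inv_pow, Real.sq_sqrt hx.le]
  have h2 := key (Real.sqrt x)⁻¹ (by rw [h1, inv_mul_le_iff₀ hx, mul_one]; exact le_of_lt hx2)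
  rw [show (Real.sqrt x)⁻¹ ^ 4 = ((Real.sqrt x)⁻¹ ^ 2) ^ 2 by ring, h1, inv_pow,
    inv_mul_le_iff₀ (by positivity)] at h2
  linarith

end bare

/-! ## Rectangles -/

theorem reg_rc (a : Pt) {n₁ n₂ : ℕ} (l L : ℕ) {K : ℝ} (hK : 1 ≤ K) (h1 : (n₁ : ℝ) ≤ K * L)
    (h2 : (n₂ : ℝ) ≤ K * L) : Reg (rc a n₁ n₂) (4 * K ^ 2) l L := by
  have hL : (0 : ℝ) ≤ L := L.cast_nonneg
  have hl : (0 : ℝ) ≤ l := l.cast_nonneg
  have hKL : K * L ≤ K ^ 2 * L := by nlinarith [mul_nonneg (sub_nonneg.2 hK) hL]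
  constructor
  · rw [card_rc]; push_cast
    have := mul_le_mul h1 h2 n₂.cast_nonneg (by positivity)
    nlinarith [sq_nonneg (K * L)]
  · have hs : ((rc a n₁ n₂).filter fun x => ¬ bl x l ⊆ rc a n₁ n₂) ⊆
        (rc a l n₂ ∪ rc (a.1 + n₁ - l, a.2) l n₂) ∪ (rc a n₁ l ∪ rc (a.1, a.2 + n₂ - l) n₁ l) := by
      intro x hx
      rw [mem_filter, mem_rc] at hx
      by_contra hn
      simp only [mem_union, mem_rc] at hn
      exact hx.2 fun y hy => by rw [mem_bl] at hy; rw [mem_rc]; omega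
    have h3 := (card_le_card hs).trans ((card_union_le _ _).trans
      (add_le_add (card_union_le _ _) (card_union_le _ _)))
    simp only [card_rc] at h3
    have h4 := (Nat.cast_le (α := ℝ)).2 h3
    push_cast at h4
    nlinarith [mul_le_mul_of_nonneg_left (h1.trans hKL) hl, mul_le_mul_of_nonneg_left (h2.trans hKL) hl]

namespace Lat
variable {Λ : Lat}

theorem Ok.amb_rc (h : Λ.Ok) {a r : Pt} {n₁ n₂ : ℕ} (hr : r ∈ rc a n₁ n₂) :
    Λ.Amb (Λ.Nr (rc a n₁ n₂) r) (rc a n₁ n₂) :=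
  ⟨h.ctr_Nr _ _, h.anch_Nr_rc hr, Subset.rfl, fun _ _ => rfl⟩

theorem Ok.amb_D (h : Λ.Ok) (D : Finset Pt) : Λ.Amb (Λ.D D) D :=
  ⟨h.ctr_D D, h.anch_D D, edI_subset_edT D, fun _ _ => rfl⟩

theorem Ok.amb_T (h : Λ.Ok) (n : ℕ) : Λ.Amb (Λ.T n) (sq 0 n) :=
  ⟨h.ctr_T n, h.anch_T n, edI_subset_T n, fun _ _ => rfl⟩

end Lat

theorem brStmt : BrStmt :=
  ⟨pr_dv, fun _ _ _ _ h hc ha _ hE hw hf =>
    ⟨hf.vr_le h.pos hc ha hE hw, hf.M_le h.pos hc ha hE hw, hf.four_le h.pos hc ha hE hw⟩,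
    fun _ _ _ _ _ h hr => h.amb_rc hr, fun _ D h => h.amb_D D, fun _ n h => h.amb_T n,
    fun a _ _ l L _ hK h1 h2 => reg_rc a l L hK h1 h2,
    fun m _ _ f _ hτ hu h => ⟨thomson m hτ hu h, m.gr_nonneg hτ.le f⟩⟩

end Crest.Agent.T145
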