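import Crest.Agent.T145.ApiT_98

/-!
# Row 145: configurations (`pr`, `dE`, `cst`, `pw`, `ab`, `prj`), basic facts on `Mdl` (helper98)
-/

set_option autoImplicit false
set_option linter.unusedVariables false
set_option linter.unusedSectionVars false

namespace Crest.Agent.T145

open Finset

section cfg
variable {V : Type*} [DecidableEq V]

theorem pr_eq_sum (f : V → ℝ) (s : Cfg V) : pr f s = ∑ x ∈ s.support, f x * s x := by
  simp [pr, Finsupp.liftAddHom_apply, Finsupp.sum]
theorem pr_apply (f : V → ℝ) (s : Cfg V) {U : Finset V} (h : ∀ x, x ∉ U → f x * s x = 0) :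
    pr f s = ∑ x ∈ U, f x * s x := by
  rw [pr_eq_sum]
  refine (sum_subset (subset_union_left (s₂ := U)) fun x _ hx => ?_).trans
    (sum_subset (subset_union_right (s₁ := s.support)) fun x _ hx => h x hx).symm
  rw [Finsupp.notMem_support_iff.1 hx]; simp
theorem pr_of_support (f : V → ℝ) (s : Cfg V) {U : Finset V} (h : s.support ⊆ U) :
    pr f s = ∑ x ∈ U, f x * s x :=
  pr_apply f s fun x hx => by rw [Finsupp.notMem_support_iff.1 fun h' => hx (h h')]; simp
theorem pr_of_zero (f : V → ℝ) (s : Cfg V) {U : Finset V} (h : ∀ x, x ∉ U → s x = 0) :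
    pr f s = ∑ x ∈ U, f x * s x := pr_apply f s fun x hx => by simp [h x hx]
theorem pr_of_fsupp (f : V → ℝ) (s : Cfg V) {U : Finset V} (h : ∀ x, x ∉ U → f x = 0) :
    pr f s = ∑ x ∈ U, f x * s x := pr_apply f s fun x hx => by simp [h x hx]
theorem pr_add (f g : V → ℝ) : pr (f + g) = pr f + pr g :=
  AddMonoidHom.ext fun s => by simp [pr_eq_sum, add_mul, sum_add_distrib]
theorem pr_smul (c : ℝ) (f : V → ℝ) : pr (c • f) = c • pr f :=
  AddMonoidHom.ext fun s => by simp [pr_eq_sum, mul_sum, mul_assoc]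
theorem pr_neg (f : V → ℝ) : pr (-f) = -pr f :=
  AddMonoidHom.ext fun s => by simp [pr_eq_sum]
theorem pr_sub (f g : V → ℝ) : pr (f - g) = pr f - pr g :=
  AddMonoidHom.ext fun s => by simp [pr_eq_sum, sub_mul, sum_sub_distrib]
@[simp] theorem pr_zero : pr (0 : V → ℝ) = 0 := AddMonoidHom.ext fun s => by simp [pr_eq_sum]
theorem pr_add' (f g : V → ℝ) : pr (fun x => f x + g x) = pr f + pr g := pr_add f g
theorem pr_sub' (f g : V → ℝ) : pr (fun x => f x - g x) = pr f - pr g := pr_sub f g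
theorem pr_mul' (c : ℝ) (f : V → ℝ) : pr (fun x => c * f x) = c • pr f := pr_smul c f
theorem pr_sum {ι : Type*} (T : Finset ι) (f : ι → V → ℝ) :
    pr (∑ i ∈ T, f i) = ∑ i ∈ T, pr (f i) := by
  classical
  induction T using Finset.induction_on with
  | empty => simp
  | insert i T hi ih => rw [sum_insert hi, sum_insert hi, pr_add, ih]
@[simp] theorem pr_single (f : V → ℝ) (x : V) (k : ℤ) : pr f (Finsupp.single x k) = f x * k := by
  rw [pr_of_support f _ Finsupp.support_single_subset]; simp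
theorem pr_pi_single (x : V) (c : ℝ) (s : Cfg V) : pr (Pi.single x c) s = c * s x := by
  rw [pr_of_fsupp _ s (U := {x}) fun y hy => Pi.single_eq_of_ne (by simpa using hy) _]; simp
theorem pr_congr {f g : V → ℝ} {s : Cfg V} (h : ∀ x, s x ≠ 0 → f x = g x) : pr f s = pr g s := by
  rw [pr_eq_sum, pr_eq_sum]
  exact sum_congr rfl fun x hx => by rw [h x (Finsupp.mem_support_iff.1 hx)]
/-- every additive functional is a pairing -/
theorem eq_pr (φ : Cfg V →+ ℝ) : φ = pr fun x => φ (Finsupp.single x 1) := by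
  refine Finsupp.addHom_ext fun x k => ?_
  rw [pr_single, show Finsupp.single x k = k • Finsupp.single x (1 : ℤ) by simp, map_zsmul]
  simp [mul_comm]
theorem pr_mono {f : V → ℝ} (hf : ∀ x, 0 ≤ f x) : Monotone (pr f) := fun s t h => by
  rw [pr_of_support f s (subset_union_left (s₂ := t.support)),
    pr_of_support f t (subset_union_right (s₁ := s.support))]
  exact sum_le_sum fun x _ => mul_le_mul_of_nonneg_left (by exact_mod_cast h x) (hf x)

/-- evaluation, integer valued -/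
noncomputable def evZ (x : V) : Cfg V →+ ℤ := Finsupp.applyAddHom x
/-- evaluation, real valued -/
noncomputable def evH (x : V) : Cfg V →+ ℝ := (Int.castAddHom ℝ).comp (evZ x)
/-- gradient along an edge, integer valued -/
noncomputable def dH (e : V × V) : Cfg V →+ ℤ := evZ e.2 - evZ e.1
/-- gradient along an edge, real valued -/
noncomputable def dR (e : V × V) : Cfg V →+ ℝ := (Int.castAddHom ℝ).comp (dH e)

@[simp] theorem evZ_apply (x : V) (s : Cfg V) : evZ x s = s x := rfl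
@[simp] theorem evH_apply (x : V) (s : Cfg V) : evH x s = s x := rfl
@[simp] theorem dH_apply (e : V × V) (s : Cfg V) : dH e s = dE e s := rfl
@[simp] theorem dR_apply (e : V × V) (s : Cfg V) : dR e s = dE e s := rfl
theorem dE_cast (e : V × V) (s : Cfg V) : (dE e s : ℝ) = s e.2 - s e.1 := by simp [dE]
theorem dR_eq (e : V × V) : dR e = evH e.2 - evH e.1 := AddMonoidHom.ext fun s => by simp [dE]
theorem dE_add (e : V × V) (s t : Cfg V) : dE e (s + t) = dE e s + dE e t := map_add (dH e) s t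
theorem dE_sub (e : V × V) (s t : Cfg V) : dE e (s - t) = dE e s - dE e t := map_sub (dH e) s t
theorem dE_neg (e : V × V) (s : Cfg V) : dE e (-s) = -dE e s := map_neg (dH e) s
@[simp] theorem dE_zero (e : V × V) : dE e (0 : Cfg V) = 0 := map_zero (dH e)
theorem evH_eq_pr (x : V) : evH x = pr (Pi.single x 1) :=
  AddMonoidHom.ext fun s => by simp [pr_pi_single]
theorem pr_eq_sum_evH (f : V → ℝ) {U : Finset V} (h : ∀ x, x ∉ U → f x = 0) :
    pr f = ∑ x ∈ U, f x • evH x := AddMonoidHom.ext fun s => by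
  rw [pr_of_fsupp f s h]; simp [AddMonoidHom.finsetSum_apply]
theorem Tame.ev (x : V) : Tame fun s : Cfg V => (s x : ℝ) := Tame.hom (evH x)
theorem Tame.dE (e : V × V) : Tame fun s : Cfg V => (dE e s : ℝ) := Tame.hom (dR e)

theorem cst_apply (U : Finset V) (h : ℤ) (x : V) : cst U h x = if x ∈ U then h else 0 := by
  simp [cst, Finsupp.finsetSum_apply, Finsupp.single_apply]
theorem cst_of_mem {U : Finset V} (h : ℤ) {x : V} (hx : x ∈ U) : cst U h x = h := by
  simp [cst_apply, hx]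
theorem cst_of_notMem {U : Finset V} (h : ℤ) {x : V} (hx : x ∉ U) : cst U h x = 0 := by
  simp [cst_apply, hx]
@[simp] theorem cst_zero (U : Finset V) : cst U 0 = 0 := by ext x; simp [cst_apply]
theorem cst_add (U : Finset V) (h k : ℤ) : cst U (h + k) = cst U h + cst U k := by
  ext x; simp only [cst_apply, Finsupp.add_apply]; split_ifs <;> simp
theorem cst_neg (U : Finset V) (h : ℤ) : cst U (-h) = -cst U h := by
  ext x; simp only [cst_apply, Finsupp.neg_apply]; split_ifs <;> simp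
/-- `cst U` as an additive map -/
noncomputable def cstH (U : Finset V) : ℤ →+ Cfg V :=
  ⟨⟨cst U, cst_zero U⟩, cst_add U⟩
@[simp] theorem cstH_apply (U : Finset V) (h : ℤ) : cstH U h = cst U h := rfl
theorem pr_cst (f : V → ℝ) (U : Finset V) (h : ℤ) : pr f (cst U h) = (∑ x ∈ U, f x) * h := by
  rw [pr_of_zero f _ fun x hx => cst_of_notMem h hx, sum_mul]
  exact sum_congr rfl fun x hx => by rw [cst_of_mem h hx]
theorem dE_cst {U : Finset V} (h : ℤ) {e : V × V} (he : e.1 ∈ U ↔ e.2 ∈ U) :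
    dE e (cst U h) = 0 := by
  by_cases h1 : e.1 ∈ U
  · simp [dE, cst_apply, h1, he.1 h1]
  · simp [dE, cst_apply, h1, mt he.2 h1]

theorem pw_apply (U : Finset V) (s t : Cfg V) (x : V) :
    pw U s t x = if x ∈ U then s x else t x := by
  by_cases hx : x ∈ U <;> simp [pw, hx]
theorem pw_of_mem {U : Finset V} (s t : Cfg V) {x : V} (hx : x ∈ U) : pw U s t x = s x := by
  simp [pw_apply, hx]
theorem pw_of_notMem {U : Finset V} (s t : Cfg V) {x : V} (hx : x ∉ U) : pw U s t x = t x := by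
  simp [pw_apply, hx]
@[simp] theorem pw_self (U : Finset V) (s : Cfg V) : pw U s s = s := by ext x; simp [pw_apply]
theorem pw_pw_left (U : Finset V) (s t u : Cfg V) : pw U (pw U s t) u = pw U s u := by
  ext x; simp only [pw_apply]; split_ifs <;> rfl
theorem pw_pw_right (U : Finset V) (s t u : Cfg V) : pw U s (pw U t u) = pw U s u := by
  ext x; simp only [pw_apply]; split_ifs <;> rfl
theorem pw_add (U : Finset V) (s t s' t' : Cfg V) :
    pw U (s + s') (t + t') = pw U s t + pw U s' t' := by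
  ext x; simp only [pw_apply, Finsupp.add_apply]; split_ifs <;> rfl

@[simp] theorem ab_apply (s : Cfg V) (x : V) : ab s x = |s x| := by simp [ab]
@[simp] theorem ab_neg (s : Cfg V) : ab (-s) = ab s := by ext x; simp
@[simp] theorem ab_ab (s : Cfg V) : ab (ab s) = ab s := by ext x; simp

theorem cfg_inf_apply (s t : Cfg V) (x : V) : (s ⊓ t) x = min (s x) (t x) := Finsupp.inf_apply _ _ _
theorem cfg_sup_apply (s t : Cfg V) (x : V) : (s ⊔ t) x = max (s x) (t x) := Finsupp.sup_apply _ _ _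

theorem prj_apply {ι : Type*} (I : Finset ι) (B : ι → Finset V) (r : ι → V) (s : Cfg V) (x : V) :
    prj I B r s x = ∑ i ∈ I, if x ∈ B i then s x - s (r i) else 0 := by
  simp only [prj, Finsupp.finsetSum_apply, Finsupp.sub_apply, Finsupp.filter_apply, cst_apply]
  exact sum_congr rfl fun i _ => by split_ifs <;> simp
/-- `prj` as an additive map -/
noncomputable def prjH {ι : Type*} (I : Finset ι) (B : ι → Finset V) (r : ι → V) :
    Cfg V →+ Cfg V :=
  AddMonoidHom.mk' (prj I B r) fun s t => by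
    ext x
    simp only [prj_apply, Finsupp.add_apply, ← sum_add_distrib]
    exact sum_congr rfl fun i _ => by split_ifs <;> ring
@[simp] theorem prjH_apply {ι : Type*} (I : Finset ι) (B : ι → Finset V) (r : ι → V) (s : Cfg V) :
    prjH I B r s = prj I B r s := rfl
theorem prj_of_mem {ι : Type*} {I : Finset ι} {B : ι → Finset V} (r : ι → V)
    (hd : ∀ i ∈ I, ∀ j ∈ I, i ≠ j → Disjoint (B i) (B j)) (s : Cfg V) {i : ι} (hi : i ∈ I)
    {x : V} (hx : x ∈ B i) : prj I B r s x = s x - s (r i) := by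
  rw [prj_apply, sum_eq_single_of_mem i hi fun j hj hji =>
    if_neg fun hxj => disjoint_left.1 (hd j hj i hi hji) hxj hx, if_pos hx]
theorem prj_of_notMem {ι : Type*} {I : Finset ι} {B : ι → Finset V} (r : ι → V) (s : Cfg V)
    {x : V} (hx : ∀ i ∈ I, x ∉ B i) : prj I B r s x = 0 := by
  rw [prj_apply]; exact sum_eq_zero fun i hi => if_neg (hx i hi)

instance instCountableCfg [Countable V] : Countable (Cfg V) := inferInstance

namespace Mdl
variable (m : Mdl V)

theorem W_eq_Ws (η : Cfg V) : m.W η = m.Ws η 0 := funext fun s => by simp [W, Ws]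
theorem W_ne_zero {m : Mdl V} {η s : Cfg V} (h : m.W η s ≠ 0) {x : V} (hx : x ∉ m.A) :
    s x = η x := ind_ne_zero.1 (left_ne_zero_of_mul (left_ne_zero_of_mul h)) x hx
theorem Ws_ne_zero {m : Mdl V} {η s : Cfg V} {σ : V × V → ℤ} (h : m.Ws η σ s ≠ 0) {x : V}
    (hx : x ∉ m.A) : s x = η x :=
  ind_ne_zero.1 (left_ne_zero_of_mul (left_ne_zero_of_mul h)) x hx
theorem W_congr {η η' : Cfg V} (h : ∀ x, x ∉ m.A → η x = η' x) : m.W η = m.W η' :=
  funext fun s => by
    rw [W, W, ind_congr (q := ∀ x, x ∉ m.A → s x = η' x)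
      ⟨fun H x hx => (H x hx).trans (h x hx), fun H x hx => (H x hx).trans (h x hx).symm⟩]
theorem W_of_eq {η s : Cfg V} (h : ∀ x, x ∉ m.A → s x = η x) :
    m.W η s = (∏ e ∈ m.ed, m.w e (dE e s)) * ∏ x ∈ m.A, m.site x (s x) := by
  rw [W, ind_pos h, one_mul]
theorem W_mulSite (u : V → ℤ → ℝ) (η s : Cfg V) :
    (m.mulSite u).W η s = m.W η s * ∏ x ∈ m.A, u x (s x) := by
  simp only [W, mulSite, prod_mul_distrib]; ring
theorem Ev.nn {m : Mdl V} (h : m.Ev) : m.Nn := fun x hx k => (h x hx k).1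
theorem Ctr.ev {m : Mdl V} (h : m.Ctr) : m.Ev := fun x hx k =>
  ⟨(h.2 x hx).1.nonneg k, (h.2 x hx).1.even k⟩
theorem Ctr.nn {m : Mdl V} (h : m.Ctr) : m.Nn := h.ev.nn
theorem Nn.force {m : Mdl V} (h : m.Nn) (f : V → ℝ) : (m.force f).Nn := fun x hx k =>
  mul_nonneg (h x hx k) (Real.exp_pos _).le
theorem W_nonneg {m : Mdl V} (hw : ∀ e ∈ m.ed, ∀ k, 0 ≤ m.w e k) (h : m.Nn) (η s : Cfg V) :
    0 ≤ m.W η s :=
  mul_nonneg (mul_nonneg (ind_nonneg _) (prod_nonneg fun e he => hw e he _))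
    (prod_nonneg fun x hx => h x hx _)
theorem Ws_nonneg {m : Mdl V} (hw : ∀ e ∈ m.ed, ∀ k, 0 ≤ m.w e k) (h : m.Nn) (η : Cfg V)
    (σ : V × V → ℤ) (s : Cfg V) : 0 ≤ m.Ws η σ s :=
  mul_nonneg (mul_nonneg (ind_nonneg _) (prod_nonneg fun e he => hw e he _))
    (prod_nonneg fun x hx => h x hx _)

end Mdl

end cfg

theorem gau_pos (τ : ℝ) (k : ℤ) : 0 < gau τ k := Real.exp_pos _
theorem gau_neg (τ : ℝ) (k : ℤ) : gau τ (-k) = gau τ k := by simp [gau]
theorem bes_neg (τ : ℝ) (k : ℤ) : bes τ (-k) = bes τ k := by simp [bes]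
theorem bes_nonneg {τ : ℝ} (h : 0 ≤ τ) (k : ℤ) : 0 ≤ bes τ k := tsum_nonneg fun n => by positivity
theorem kern_neg (xy : Bool) (τ : ℝ) (k : ℤ) : kern xy τ (-k) = kern xy τ k := by
  cases xy <;> simp [kern, gau_neg, bes_neg]
theorem kern_nonneg (xy : Bool) {τ : ℝ} (h : 0 ≤ τ) (k : ℤ) : 0 ≤ kern xy τ k := by
  cases xy
  · exact (gau_pos τ k).le
  · exact bes_nonneg h k
theorem Fam.nonneg {w : ℤ → ℝ} (h : Fam w) (k : ℤ) : 0 ≤ w k := by
  obtain ⟨xy, τ, hτ, rfl⟩ := h; exact kern_nonneg xy hτ.le k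
theorem Fam.even {w : ℤ → ℝ} (h : Fam w) (k : ℤ) : w (-k) = w k := by
  obtain ⟨xy, τ, hτ, rfl⟩ := h; exact kern_neg xy τ k
theorem Fam.abs {w : ℤ → ℝ} (h : Fam w) (k : ℤ) : w |k| = w k := by
  rcases abs_choice k with e | e <;> rw [e]; exact h.even k
theorem Short.left {u w : ℤ → ℝ} (h : Short u w) : Fam u := by
  obtain ⟨xy, τ', τ, h1, h2, rfl, rfl⟩ := h; exact ⟨xy, τ', h1, rfl⟩
theorem Short.right {u w : ℤ → ℝ} (h : Short u w) : Fam w := by
  obtain ⟨xy, τ', τ, h1, h2, rfl, rfl⟩ := h; exact ⟨xy, τ, h1.trans_le h2, rfl⟩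
theorem Fam.short {w : ℤ → ℝ} (h : Fam w) : Short w w := by
  obtain ⟨xy, τ, hτ, rfl⟩ := h; exact ⟨xy, τ, τ, hτ, le_rfl, rfl, rfl⟩
theorem Mdl.Fm.W_nonneg {V : Type*} [DecidableEq V] {m : Mdl V} (h : m.Fm) (hn : m.Nn)
    (η s : Cfg V) : 0 ≤ m.W η s := Mdl.W_nonneg (fun e he => (h e he).nonneg) hn η s
theorem Mdl.Fm.W_neg {V : Type*} [DecidableEq V] {m : Mdl V} (h : m.Fm) (hn : m.Ev)
    (η s : Cfg V) : m.W (-η) (-s) = m.W η s := by
  simp only [Mdl.W, Finsupp.neg_apply, neg_inj, dE_neg]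
  rw [prod_congr rfl fun e he => (h e he).even _, prod_congr rfl fun x hx => (hn x hx _).2]

end Crest.Agent.T145
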