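import Crest.Agent.T145.ApiP_98
import Crest.Agent.T145.ApiC_98

/-!
# Row 145: bridge to Mathlib integrals, finite products (helper98). Imports the whole API.
-/

set_option autoImplicit false
set_option linter.unusedVariables false
set_option linter.unusedSectionVars false

namespace Crest.Agent.T145

open Finset MeasureTheory

section law
variable {α : Type*} [MeasurableSpace α] [DiscreteMeasurableSpace α] [Countable α] {W F : α → ℝ}

theorem integrable_dens (hW : Wt W) : Integrable F
    (Measure.count.withDensity fun a => ENNReal.ofReal (W a)) ↔ Ig W F := by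
  rw [integrable_withDensity_iff Measurable.of_discrete (by simp), integrable_count_iff]
  simp only [ENNReal.toReal_ofReal (hW.nonneg _), Real.norm_eq_abs, mul_comm (F _)]
  exact ⟨Summable.of_abs, Summable.abs⟩

theorem law_integrable (hW : Wt W) : Integrable F (law W) ↔ Ig W F := by
  rw [law, integrable_smul_measure (by simp) (by simpa using hW.pos), integrable_dens hW]

theorem law_integral (hW : Wt W) (F : α → ℝ) : ∫ a, F a ∂law W = Ex W F := by
  by_cases h : Ig W F
  · rw [law, integral_smul_measure, integral_withDensity_eq_integral_toReal_smul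
      Measurable.of_discrete (by simp), integral_countable ?_]
    · simp only [ENNReal.toReal_ofReal (hW.nonneg _), ENNReal.toReal_inv,
        ENNReal.toReal_ofReal hW.pos.le, smul_eq_mul, Ex_def]
      simp [div_eq_inv_mul]
    · rw [integrable_count_iff]
      simp only [ENNReal.toReal_ofReal (hW.nonneg _), Real.norm_eq_abs, smul_eq_mul]
      exact Summable.abs h
  · rw [integral_undef (mt (law_integrable hW).1 h), Ex_def, tsum_eq_zero_of_not_summable h,
      zero_div]

theorem law_prob (hW : Wt W) : IsProbabilityMeasure (law W) := by
  constructor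
  rw [law, Measure.smul_apply, withDensity_apply _ MeasurableSet.univ, Measure.restrict_univ,
    lintegral_count, ← ENNReal.ofReal_tsum_of_nonneg hW.nonneg hW.summ, smul_eq_mul]
  exact ENNReal.inv_mul_cancel (by simpa using hW.pos) (by simp)

end law


section prod
variable {V : Type*} [DecidableEq V]

theorem hasSum_prod_mul {α β : Type*} {u : α → ℝ} {v : β → ℝ} {a b : ℝ} (hu : HasSum u a)
    (hv : HasSum v b) : HasSum (fun p : α × β => u p.1 * v p.2) (a * b) :=
  hu.mul hv (summable_prod_mul hu.summable hv.summable)


end prod

/-- sum of a product over a finite function space -/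
theorem hasSum_pi_prod {ι α : Type*} [Fintype ι] (u : ι → α → ℝ) (hu : ∀ i, Summable (u i)) :
    HasSum (fun x : ι → α => ∏ i, u i (x i)) (∏ i, ∑' a, u i a) := by
  have key : ∀ (n : ℕ) (u : Fin n → α → ℝ), (∀ i, Summable (u i)) →
      HasSum (fun x : Fin n → α => ∏ i, u i (x i)) (∏ i, ∑' a, u i a) := by
    intro n
    induction n with
    | zero => intro u _; simp
    | succ n ih =>
      intro u hu
      have ih' := ih (fun i => u i.succ) fun i => hu _
      have h := hasSum_prod_mul (hu 0).hasSum ih'
      rw [Fin.prod_univ_succ, ← (Fin.consEquiv fun _ => α).hasSum_iff]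
      convert h using 2 with p
      simp [Fin.prod_univ_succ, Fin.consEquiv]
  let e := Fintype.equivFin ι
  have := key _ (fun j => u (e.symm j)) fun j => hu _
  rw [e.symm.prod_comp fun i => ∑' a, u i a,
    ← (Equiv.arrowCongr e (Equiv.refl α)).hasSum_iff] at this
  convert this using 2 with x
  simp only [Function.comp, Equiv.arrowCongr_apply, Equiv.coe_refl, id]
  exact (e.symm.prod_comp fun i => u i (x i)).symm

end Crest.Agent.T145
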