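import Crest.Agent.T145.ApiT_98

/-!
# Row 145: Jensen, Hölder, `push`, tower property, `TV`, products, `InCone` (helper98)
-/

set_option autoImplicit false
set_option linter.unusedVariables false

namespace Crest.Agent.T145

open Finset

section
variable {α β : Type*} {W W' W'' F G : α → ℝ}

/-! ### Hölder, Jensen -/

/-- Hölder in exponential form -/
theorem Wt.holder_exp (hW : Wt W) {ι : Type*} (T : Finset ι) (θ : ι → ℝ) (Φ : ι → α → ℝ)
    (h0 : ∀ i ∈ T, 0 ≤ θ i) (h1 : ∑ i ∈ T, θ i = 1)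
    (hE : ∀ i ∈ T, Ig W fun a => Real.exp (Φ i a)) :
    Ig W (fun a => Real.exp (∑ i ∈ T, θ i * Φ i a)) ∧
      Real.log (Ex W fun a => Real.exp (∑ i ∈ T, θ i * Φ i a)) ≤
        ∑ i ∈ T, θ i * Real.log (Ex W fun a => Real.exp (Φ i a)) := by
  set m : ι → ℝ := fun i => Real.log (Ex W fun a => Real.exp (Φ i a)) with hm
  have hp : ∀ i ∈ T, 0 < Ex W fun a => Real.exp (Φ i a) := fun i hi =>
    hW.ex_pos' (hE i hi) fun a => Real.exp_pos _
  have key : ∀ a, Real.exp (∑ i ∈ T, θ i * Φ i a) ≤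
      Real.exp (∑ i ∈ T, θ i * m i) * ∑ i ∈ T, θ i * Real.exp (-m i) * Real.exp (Φ i a) := by
    intro a
    have := convexOn_exp.map_sum_le (t := T) (w := θ) (p := fun i => Φ i a - m i) h0 h1
      fun i _ => Set.mem_univ _
    simp only [smul_eq_mul] at this
    calc _ = Real.exp (∑ i ∈ T, θ i * m i) * Real.exp (∑ i ∈ T, θ i * (Φ i a - m i)) := by
          rw [← Real.exp_add, ← sum_add_distrib]; congr 1; exact sum_congr rfl fun i _ => by ring
      _ ≤ _ := by
          refine mul_le_mul_of_nonneg_left (this.trans_eq ?_) (Real.exp_pos _).le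
          exact sum_congr rfl fun i _ => by rw [mul_assoc, ← Real.exp_add]; congr 2; ring
  have hI : Ig W fun a => Real.exp (∑ i ∈ T, θ i * m i) *
      ∑ i ∈ T, θ i * Real.exp (-m i) * Real.exp (Φ i a) :=
    (Ig.sum T fun i hi => (hE i hi).const_mul _).const_mul _
  have hI' := Ig.of_le hW.nonneg hI (fun a => (Real.exp_pos _).le) key
  refine ⟨hI', ?_⟩
  rw [Real.log_le_iff_le_exp (hW.ex_pos' hI' fun a => Real.exp_pos _)]
  refine (Ex_mono hW.nonneg hI' hI key).trans_eq ?_
  have e : ∑ i ∈ T, Ex W (fun a => θ i * Real.exp (-m i) * Real.exp (Φ i a)) = 1 := by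
    rw [← h1]
    refine sum_congr rfl fun i hi => ?_
    rw [Ex_const_mul, Real.exp_neg, hm, Real.exp_log (hp i hi), mul_assoc,
      inv_mul_cancel₀ (hp i hi).ne', mul_one]
  rw [Ex_const_mul, Ex_sum T fun i hi => (hE i hi).const_mul _, e, mul_one]





/-! ### fibres, `push`, tower -/

theorem summable_ind_mul {u : α → ℝ} (hu : Summable u) (p : α → Prop) :
    Summable fun a => ind (p a) * u a :=
  Summable.of_norm_bounded hu.abs fun a => by
    rw [Real.norm_eq_abs, abs_mul]; exact mul_le_of_le_one_left (abs_nonneg _) (abs_ind_le _)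
theorem hasSum_graph (π : α → β) (u : α → ℝ) (x : ℝ) :
    HasSum (fun p : β × α => ind (π p.2 = p.1) * u p.2) x ↔ HasSum u x := by
  rw [← Function.Injective.hasSum_iff (g := fun a => (π a, a))
    (fun a b h => (Prod.ext_iff.1 h).2) fun p hp => ?_]
  · simp [Function.comp_def]
  · rw [ind_neg fun h => hp ⟨p.2, Prod.ext h rfl⟩, zero_mul]
theorem hasSum_push {u : α → ℝ} (hu : Summable u) (π : α → β) : HasSum (push u π) (∑' a, u a) :=
  ((hasSum_graph π u _).2 hu.hasSum).prod_fiberwise fun b => (summable_ind_mul hu _).hasSum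
theorem summable_of_push {u : α → ℝ} (h0 : ∀ a, 0 ≤ u a) (π : α → β)
    (h1 : ∀ b, Summable fun a => ind (π a = b) * u a) (h2 : Summable (push u π)) : Summable u := by
  obtain ⟨x, hx⟩ := (summable_prod_of_nonneg
    (f := fun p : β × α => ind (π p.2 = p.1) * u p.2)
    fun p => mul_nonneg (ind_nonneg _) (h0 _)).2 ⟨h1, h2⟩
  exact ((hasSum_graph π u x).1 hx).summable
theorem push_mul (W : α → ℝ) (π : α → β) (Φ : β → ℝ) (b : β) :
    push (fun a => W a * Φ (π a)) π b = push W π b * Φ b := by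
  unfold push
  rw [← tsum_mul_right]
  refine tsum_congr fun a => ?_
  by_cases h : π a = b
  · subst h; simp
  · simp [ind_neg h]
theorem push_nonneg (h0 : ∀ a, 0 ≤ W a) (π : α → β) (b : β) : 0 ≤ push W π b :=
  tsum_nonneg fun a => mul_nonneg (ind_nonneg _) (h0 a)
theorem summable_push (hW : Summable W) (π : α → β) : Summable (push W π) :=
  (hasSum_push hW π).summable
theorem Zs_push (hW : Summable W) (π : α → β) : Zs (push W π) = Zs W := (hasSum_push hW π).tsum_eq
theorem Wt.push (hW : Wt W) (π : α → β) : Wt (push W π) :=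
  ⟨push_nonneg hW.nonneg π, summable_push hW.summ π, by rw [Zs_push hW.summ]; exact hW.pos⟩
theorem Ig.push {π : α → β} {Φ : β → ℝ} (h : Ig W fun a => Φ (π a)) : Ig (push W π) Φ :=
  Summable.congr (summable_push h π) (push_mul W π Φ)
theorem tsum_push {π : α → β} {Φ : β → ℝ} (h : Ig W fun a => Φ (π a)) :
    ∑' b, push W π b * Φ b = ∑' a, W a * Φ (π a) := by
  rw [← (hasSum_push h π).tsum_eq]; exact tsum_congr fun b => (push_mul W π Φ b).symm
theorem Ig.of_push (h0 : ∀ a, 0 ≤ W a) (hs : Summable W) {π : α → β} {Φ : β → ℝ}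
    (h : Ig (T145.push W π) Φ) : Ig W fun a => Φ (π a) := by
  refine Ig.of_abs h0 (summable_of_push (fun a => mul_nonneg (h0 a) (abs_nonneg _)) π
    (fun b => ((summable_ind_mul hs fun a => π a = b).mul_right |Φ b|).congr fun a => ?_) ?_)
  · by_cases h : π a = b
    · subst h; simp
    · simp [ind_neg h]
  · exact Summable.congr (h.abs (push_nonneg h0 π)) fun b => (push_mul W π (fun b => |Φ b|) b).symm
theorem Wt.ig_push (hW : Wt W) {π : α → β} {Φ : β → ℝ} :
    Ig (T145.push W π) Φ ↔ Ig W fun a => Φ (π a) := ⟨Ig.of_push hW.nonneg hW.summ, Ig.push⟩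
theorem Wt.ex_push (hW : Wt W) (π : α → β) (Φ : β → ℝ) :
    Ex (T145.push W π) Φ = Ex W fun a => Φ (π a) := by
  by_cases h : Ig W fun a => Φ (π a)
  · rw [Ex_def, Ex_def, tsum_push h, Zs_push hW.summ]
  · rw [Ex_def, Ex_def, tsum_eq_zero_of_not_summable h,
      tsum_eq_zero_of_not_summable (mt hW.ig_push.1 h), zero_div, zero_div]
theorem Wt.pr_push (hW : Wt W) (π : α → β) (p : β → Prop) :
    Pr (T145.push W π) p = Pr W fun a => p (π a) := hW.ex_push π _
theorem Wt.push_eq (hW : Wt W) (π : α → β) (b : β) :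
    T145.push W π b = Zs W * Pr W fun a => π a = b := by
  rw [Pr, ← hW.tsum_eq]; simp only [T145.push, mul_comm]
theorem le_push (h0 : ∀ a, 0 ≤ W a) (hs : Summable W) (π : α → β) (a : α) :
    W a ≤ push W π (π a) := by
  have := (summable_ind_mul hs fun a' => π a' = π a).le_tsum a
    fun b _ => mul_nonneg (ind_nonneg _) (h0 b)
  rwa [ind_pos rfl, one_mul] at this

/-- the weight restricted to an event -/
theorem Wt.restrict (hW : Wt W) {p : α → Prop} (hp : 0 < Pr W p) : Wt fun a => ind (p a) * W a := by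
  simpa only [mul_comm] using hW.mul (hW.ig_ind p) (fun a => ind_nonneg _) hp
theorem Wt.fibre (hW : Wt W) (π : α → β) {a : α} (ha : W a ≠ 0) :
    Wt fun a' => ind (π a' = π a) * W a' :=
  Wt.of_pos (fun b => mul_nonneg (ind_nonneg _) (hW.nonneg b)) (summable_ind_mul hW.summ _)
    (a := a) (by simpa using (hW.nonneg a).lt_of_ne' ha)
theorem push_mul_ex (h0 : ∀ a, 0 ≤ W a) (hs : Summable W) (π : α → β) (F : α → ℝ) (b : β) :
    push W π b * Ex (fun a => ind (π a = b) * W a) F = push (fun a => W a * F a) π b := by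
  by_cases h : push W π b = 0
  · rw [h, zero_mul]
    symm
    refine (tsum_congr fun a => ?_).trans tsum_zero
    by_cases ha : π a = b
    · have := le_push h0 hs π a
      rw [ha, h] at this
      simp [le_antisymm this (h0 a)]
    · simp [ind_neg ha]
  · rw [Ex_def]
    simp only [mul_assoc]
    exact mul_div_cancel₀ _ h
/-- tower property, abstract form -/
theorem Wt.tower' (hW : Wt W) (π : α → β) (hF : Ig W F) (Φ : β → ℝ)
    (e : ∀ b, T145.push W π b * Φ b = T145.push (fun a => W a * F a) π b) :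
    Ig W (fun a => Φ (π a)) ∧ Ex W F = Ex W fun a => Φ (π a) := by
  have h : HasSum (fun b => T145.push W π b * Φ b) (∑' a, W a * F a) := by
    simp only [e]; exact hasSum_push hF π
  refine ⟨Ig.of_push hW.nonneg hW.summ h.summable, ?_⟩
  rw [← hW.ex_push π Φ, Ex_def W F, Ex_def (T145.push W π), Zs_push hW.summ, h.tsum_eq]
/-- tower property for the conditional expectation given `π` -/
theorem Wt.tower (hW : Wt W) (π : α → β) (hF : Ig W F) :
    Ig W (fun a => Ex (fun a' => ind (π a' = π a) * W a') F) ∧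
      Ex W F = Ex W fun a => Ex (fun a' => ind (π a' = π a) * W a') F :=
  hW.tower' π hF (fun b => Ex (fun a' => ind (π a' = b) * W a') F)
    (push_mul_ex hW.nonneg hW.summ π F)

/-! ### products -/

theorem Wt.prod {U : β → ℝ} (hW : Wt W) (hU : Wt U) : Wt fun p : α × β => W p.1 * U p.2 :=
  ⟨fun p => mul_nonneg (hW.nonneg _) (hU.nonneg _),
    hW.summ.mul_of_nonneg hU.summ hW.nonneg hU.nonneg, by
    unfold Zs
    rw [← hW.summ.tsum_mul_tsum hU.summ (hW.summ.mul_of_nonneg hU.summ hW.nonneg hU.nonneg)]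
    exact mul_pos hW.pos hU.pos⟩
theorem summable_prod_mul {u : α → ℝ} {v : β → ℝ} (hu : Summable u) (hv : Summable v) :
    Summable fun p : α × β => u p.1 * v p.2 :=
  summable_mul_of_summable_norm (by simpa using hu.abs) (by simpa using hv.abs)
theorem Zs_prod {U : β → ℝ} (hW : Summable W) (hU : Summable U) :
    Zs (fun p : α × β => W p.1 * U p.2) = Zs W * Zs U :=
  (hW.tsum_mul_tsum hU (summable_prod_mul hW hU)).symm
theorem Ig.prod {U Φ : β → ℝ} (hF : Ig W F) (hΦ : Ig U Φ) :
    Ig (fun p : α × β => W p.1 * U p.2) fun p => F p.1 * Φ p.2 :=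
  Summable.congr (summable_prod_mul hF hΦ) fun p => by ring
theorem Ex_prod_mul {U Φ : β → ℝ} (hW : Summable W) (hU : Summable U) (hF : Ig W F) (hΦ : Ig U Φ) :
    Ex (fun p : α × β => W p.1 * U p.2) (fun p => F p.1 * Φ p.2) = Ex W F * Ex U Φ := by
  rw [Ex_def, Zs_prod hW hU, Ex_def, Ex_def, div_mul_div_comm,
    Summable.tsum_mul_tsum hF hΦ (summable_prod_mul hF hΦ)]
  congr 1
  exact tsum_congr fun p => by ring
theorem Ex_prod_fst {U : β → ℝ} (hW : Wt W) (hU : Wt U) (hF : Ig W F) :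
    Ex (fun p : α × β => W p.1 * U p.2) (fun p => F p.1) = Ex W F := by
  simpa [hU.ex_const] using Ex_prod_mul hW.summ hU.summ hF (hU.ig_const 1)
theorem Ex_prod_snd {U Φ : β → ℝ} (hW : Wt W) (hU : Wt U) (hΦ : Ig U Φ) :
    Ex (fun p : α × β => W p.1 * U p.2) (fun p => Φ p.2) = Ex U Φ := by
  simpa [hW.ex_const] using Ex_prod_mul hW.summ hU.summ (hW.ig_const 1) hΦ
theorem Ig.prod_fst {U : β → ℝ} (hF : Ig W F) (hU : Summable U) :
    Ig (fun p : α × β => W p.1 * U p.2) fun p => F p.1 := by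
  simpa using hF.prod (Ig.const hU 1)
theorem Ig.prod_snd {U Φ : β → ℝ} (hΦ : Ig U Φ) (hW : Summable W) :
    Ig (fun p : α × β => W p.1 * U p.2) fun p => Φ p.2 := by
  simpa using (Ig.const hW 1).prod hΦ

/-! ### total variation -/

@[simp] theorem TV_self (W : α → ℝ) : TV W W = 0 := by simp [TV]

/-! ### cones -/

variable {P Q : (α → ℝ) → Prop}

theorem InCone.refl (h : P W) : InCone P W := fun F hF H => H W h hF
theorem InCone.mono (h : InCone P W) (hPQ : ∀ U, P U → Q U) : InCone Q W :=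
  fun F hF H => h F hF fun U hU => H U (hPQ U hU)
theorem InCone.trans (h : InCone P W) (hPQ : ∀ U, P U → InCone Q U) : InCone Q W :=
  fun F hF H => h F hF fun U hU hFU => hPQ U hU F hFU H
theorem InCone.mul (h : InCone P W) (G : α → ℝ) :
    InCone (fun U' => ∃ U, P U ∧ U' = fun a => U a * G a) fun a => W a * G a := fun F hF H => by
  have := h (fun a => G a * F a) (ig_mul_iff.1 hF) fun U hU hI => by
    simpa only [mul_assoc] using H _ ⟨U, hU, rfl⟩ (ig_mul_iff.2 hI)
  simpa only [mul_assoc] using this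
theorem InCone.smul (h : InCone P W) {c : ℝ} (hc : 0 ≤ c) : InCone P fun a => c * W a :=
  fun F hF H => by
    rcases hc.eq_or_lt with rfl | hc
    · simp
    · simp only [mul_assoc]
      rw [tsum_mul_left]
      exact mul_nonneg hc.le (h F ((ig_smul_iff hc.ne').1 hF) H)
theorem InCone.nonneg (h : InCone P W) (hP : ∀ U, P U → ∀ a, 0 ≤ U a) (a : α) : 0 ≤ W a := by
  have e : ∀ U : α → ℝ, HasSum (fun b => U b * ind (b = a)) (U a) := fun U => by
    simpa using hasSum_single (f := fun b => U b * ind (b = a)) a fun b hb => by simp [ind_neg hb]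
  rw [← (e W).tsum_eq]
  exact h _ (e W).summable fun U hU _ => by rw [(e U).tsum_eq]; exact hP U hU a
theorem InCone.ex_le (h : InCone P W) (hW : Wt W) (hF : Ig W F) {c : ℝ}
    (H : ∀ U, P U → Wt U ∧ (Ig U F → Ex U F ≤ c)) : Ex W F ≤ c := by
  have := h (fun a => c - F a) ((hW.ig_const c).sub hF) fun U hU hI => by
    obtain ⟨h1, h4⟩ := H U hU
    have h2 : Ig U F := ((h1.ig_const c).sub hI).congr fun a _ => by ring
    rw [h1.tsum_eq, Ex_sub (h1.ig_const c) h2, h1.ex_const]
    exact mul_nonneg h1.pos.le (sub_nonneg.2 (h4 h2))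
  rw [hW.tsum_eq, Ex_sub (hW.ig_const c) hF, hW.ex_const] at this
  exact sub_nonneg.1 (nonneg_of_mul_nonneg_right this hW.pos)
theorem InCone.le_ex (h : InCone P W) (hW : Wt W) (hF : Ig W F) {c : ℝ}
    (H : ∀ U, P U → Wt U ∧ (Ig U F → c ≤ Ex U F)) : c ≤ Ex W F := by
  have := h.ex_le hW hF.neg (c := -c) fun U hU => ⟨(H U hU).1, fun hI => by
    rw [Ex_neg]; exact neg_le_neg ((H U hU).2 (hI.neg.congr fun a _ => neg_neg _))⟩
  rw [Ex_neg] at this; linarith

end

end Crest.Agent.T145
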