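import Crest.Agent.T145.CorU_59
import Crest.Agent.T145.ApiP_98

/-!
# Row 145 (helper59): dot-notation forms of the Gaussian comparison toolbox, H1, H4, `d = M - V/2`
-/

set_option autoImplicit false

namespace Crest.Agent.T145

open Finset

section tv
variable {α : Type*} {W W' R : α → ℝ}



end tv


section cen
variable {L : Type} [AddCommGroup L] [IsAddTorsionFree L] {ρ ρ' G G' : L → ℝ}

theorem Cen.vr_le_M (h : Cen ρ) (f : L →+ ℝ) : Vr ρ f f / 2 ≤ M ρ f := (corStmt L ρ h).2.1 f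
theorem Cen.ph_par (h : Cen ρ) (ξ η : L →+ ℝ) :
    Ph ρ ξ ^ 2 * Ph ρ η ^ 2 ≤ Ph ρ (ξ + η) * Ph ρ (ξ - η) := (corStmt L ρ h).2.2.1 ξ η
theorem Cen.ph_ge (h : Cen ρ) (ξ : L →+ ℝ) : Real.exp (-Vr ρ ξ ξ / 2) ≤ Ph ρ ξ :=
  (corStmt L ρ h).2.2.2.1 ξ
theorem Cen.ph_pos (h : Cen ρ) (ξ : L →+ ℝ) : 0 < Ph ρ ξ := (Real.exp_pos _).trans_le (h.ph_ge ξ)
theorem Cen.vr_le_tilt (h : Cen ρ) (f g : L →+ ℝ) : Vr ρ g g ≤ Vr (tilt ρ f) g g :=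
  (corStmt L ρ h).2.2.2.2.1 f g
theorem Cen.k4 (h : Cen ρ) (f g : L →+ ℝ) :
    Vr ρ f f * Vr ρ g g + 2 * Vr ρ f g ^ 2 ≤ Ex ρ fun s => f s ^ 2 * g s ^ 2 :=
  (corStmt L ρ h).2.2.2.2.2.1 f g


/-! ### `d = M - V / 2` -/

/-- second order lower Taylor bound with the centred variance -/
theorem Cen.le_M_add (h : Cen ρ) (f g : L →+ ℝ) :
    M ρ f + Ex (tilt ρ f) (fun s => g s) + Vr ρ g g / 2 ≤ M ρ (f + g) :=
  h.wt.le_M_add h.se f g fun _ _ => h.vr_le_tilt _ g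

/-! ### localisation -/

omit [IsAddTorsionFree L] in
theorem Cen.mul_rsd (h : Cen ρ) (hG : RSD G) (h0 : 0 < G 0) (hT : Tame G) :
    Cen fun s => ρ s * G s :=
  { toRSD := Rsd63.rsd_mul h.toRSD hG, pos0 := mul_pos h.pos0 h0, se := h.se.mul hT }
omit [IsAddTorsionFree L] in
theorem Cen.pin (h : Cen ρ) {L' : Type*} [AddCommGroup L'] (φ : L →+ L') :
    Cen fun s => ρ s * ind (φ s = 0) :=
  h.mul_rsd (Rsd63.rsd_ind φ) (by simp) (Tame.ind _)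
omit [IsAddTorsionFree L] in
theorem Cen.mul_gq (h : Cen ρ) {ι : Type*} (T : Finset ι) (ℓ : ι → L →+ ℝ) :
    Cen fun s => ρ s * gq T ℓ s :=
  h.mul_rsd (Rsd63.rsd_gq T ℓ) (gq_pos T ℓ 0) (Tame.gq T ℓ)
theorem Cen.loc_mul (h : Cen ρ) (hG : PD G) (h0 : ∀ s, 0 ≤ G s) (h1 : 0 < G 0) :
    Loc (fun s => ρ s * G s) ρ := (monoStmt L ρ h).1 G hG h0 h1
theorem Cen.loc_pin (h : Cen ρ) {L' : Type*} [AddCommGroup L'] (φ : L →+ L') :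
    Loc (fun s => ρ s * ind (φ s = 0)) ρ :=
  h.loc_mul (pd_ind φ) (fun _ => ind_nonneg _) (by simp)
theorem Cen.M_gq_le (h : Cen ρ) {ι : Type} (T : Finset ι) (ℓ : ι → L →+ ℝ) (t : ι → ℝ)
    (f : L →+ ℝ) :
    M (fun s => ρ s * gq T ℓ s) (f + ∑ j ∈ T, t j • ℓ j) ≤ M ρ f + (∑ j ∈ T, t j ^ 2) / 2 :=
  (monoStmt L ρ h).2.2 ι T ℓ t f
/-- (P) in expectation form -/
theorem Cen.ex_mul_ge (h : Cen ρ) (hG : PD G) (hG' : PD G') :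
    Ex ρ G * Ex ρ G' ≤ Ex ρ fun s => G s * G' s := by
  have h1 := rsdPStmt L ρ G G' h.toRSD h.wt.summ hG hG'
  rw [h.wt.tsum_eq, h.wt.tsum_eq, h.wt.tsum_eq] at h1
  refine le_of_mul_le_mul_left (a := Zs ρ * Zs ρ) (le_trans (le_of_eq ?_) (h1.trans_eq ?_))
    (mul_pos h.wt.pos h.wt.pos) <;> ring
theorem Cen.ex_pd_nonneg (h : Cen ρ) (hG : PD G) : 0 ≤ Ex ρ G := by
  have := rsdBStmt L Unit _ _ (C59.rsd_comp h.toRSD (AddMonoidHom.fst L Unit))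
    (hG.comp (AddMonoidHom.fst L Unit)) () 0 h.wt.summ (h.se 0)
  exact div_nonneg (nonneg_of_mul_nonneg_right ((mul_nonneg (abs_nonneg _) h.wt.pos.le).trans this)
    (h.wt_tilt 0).pos) h.wt.pos.le

end cen

section loc
variable {L : Type*} [AddCommGroup L] {ρ ρ' : L → ℝ}

theorem vr_le_of_M_le (h' : Wt ρ') (hs' : SE ρ') (h : Wt ρ) (hs : SE ρ) {f : L →+ ℝ}
    (hM : ∀ t : ℝ, M ρ' (t • f) ≤ M ρ (t • f)) : Vr ρ' f f ≤ Vr ρ f f :=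
  C59.vr_le_of_sd h' hs' h hs f fun t => add_le_add (hM t) (by simpa only [neg_smul] using hM (-t))
theorem Loc.vr_le (hl : Loc ρ' ρ) (h' : Wt ρ') (hs' : SE ρ') (h : Wt ρ) (hs : SE ρ) (f : L →+ ℝ) :
    Vr ρ' f f ≤ Vr ρ f f := vr_le_of_M_le h' hs' h hs fun _ => hl.1 _
theorem Loc.vr_le' (hl : Loc ρ' ρ) (h' : Cen ρ') (h : Cen ρ) (f : L →+ ℝ) :
    Vr ρ' f f ≤ Vr ρ f f := hl.vr_le h'.wt h'.se h.wt h.se f
theorem Loc.pr_zero (hl : Loc ρ' ρ) {L' : Type*} [AddCommGroup L'] (φ : L →+ L') :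
    Pr ρ (fun s => φ s = 0) ≤ Pr ρ' fun s => φ s = 0 := hl.2 _ (pd_ind φ)
theorem Loc.ex_gq (hl : Loc ρ' ρ) {ι : Type*} (T : Finset ι) (ℓ : ι → L →+ ℝ) :
    Ex ρ (gq T ℓ) ≤ Ex ρ' (gq T ℓ) := hl.2 _ (pd_gq T ℓ)
theorem Loc.ph (hl : Loc ρ' ρ) (ξ : L →+ ℝ) : Ph ρ ξ ≤ Ph ρ' ξ := hl.2 _ (pd_cos ξ)
theorem Loc.congr {σ σ' : L → ℝ} (hl : Loc ρ' ρ) (h' : ∀ s, σ' s = ρ' s) (h : ∀ s, σ s = ρ s) :
    Loc σ' σ := by rw [funext h, funext h']; exact hl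
theorem M_congr {f g : L →+ ℝ} (h : ∀ s, ρ s ≠ 0 → f s = g s) : M ρ f = M ρ g :=
  congrArg Real.log (Ex_congr fun s hs => by rw [h s hs])
theorem Vr_congr {f g f' g' : L →+ ℝ} (h : ∀ s, ρ s ≠ 0 → f s = f' s)
    (h' : ∀ s, ρ s ≠ 0 → g s = g' s) : Vr ρ f g = Vr ρ f' g' := by
  unfold Vr Cv
  rw [Ex_congr h, Ex_congr h', Ex_congr fun s hs => show f s * g s = f' s * g' s by
    rw [h s hs, h' s hs]]

end loc

section pin
variable {L : Type} [AddCommGroup L] [IsAddTorsionFree L] {ρ : L → ℝ}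
  {L' : Type*} [AddCommGroup L']


end pin

section coset
variable {L Q : Type} [AddCommGroup L] [AddCommGroup Q] [IsAddTorsionFree L] {ρ : L × Q → ℝ}

omit [IsAddTorsionFree L] in
theorem RSD.sl_zero (h : RSD ρ) : RSD (sl ρ 0) := C59.rsd_comp h (AddMonoidHom.inl L Q)
omit [IsAddTorsionFree L] in
theorem RSD.cen_sl (h : RSD ρ) (hs : SE (sl ρ 0)) (h0 : 0 < ρ 0) : Cen (sl ρ 0) :=
  { toRSD := h.sl_zero, pos0 := h0, se := hs }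

/-- (B) in expectation form -/
theorem RSD.abs_ex_le (h : RSD ρ) {G : L × Q → ℝ} (hG : PD G) {q : Q} {f : L →+ ℝ}
    (h0 : Wt (sl ρ 0)) (hq : Wt (tilt (sl ρ q) f)) :
    |Ex (tilt (sl ρ q) f) fun s => G (s, q)| ≤ Ex (sl ρ 0) fun s => G (s, 0) := by
  rw [Ex_def, Ex_def, abs_div, abs_of_pos hq.pos, div_le_div_iff₀ hq.pos h0.pos, mul_comm _ (Zs _)]
  exact (mul_comm _ _).trans_le (rsdBStmt L Q ρ G h hG q f h0.summ hq.summ) |>.trans_eq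
    (mul_comm _ _)

/-- the characteristic function on a coset, with a force, is at most the centred one -/
theorem RSD.norm_th_le (h : RSD ρ) (hs : ∀ q, SE (sl ρ q)) (h0 : 0 < ρ 0) (q : Q) (f ξ : L →+ ℝ) :
    ‖th (sl ρ q) f ξ‖ ≤ Zs (tilt (sl ρ q) f) * Ph (sl ρ 0) ξ := by
  have hc := h.cen_sl (hs 0) h0
  have h1 := rsdCStmt L Q ρ h hs q 0 f 0 ξ 0
  have e : ∑' s, ρ (s, 0) * Real.cos (ξ s) = Zs (sl ρ 0) * Ph (sl ρ 0) ξ := hc.wt.tsum_eq _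
  rw [add_zero, sub_zero, add_zero, sub_zero, add_zero, sub_zero, C59.th_zero, tilt_zero,
    Complex.norm_real, Real.norm_of_nonneg hc.wt.pos.le, e] at h1
  have h2 : 0 ≤ Zs (tilt (sl ρ q) f) := Zs_nonneg (tilt_nonneg (fun _ => h.nonneg _) f)
  refine (abs_le_of_sq_le_sq' ?_ (mul_nonneg h2 (hc.ph_pos ξ).le)).2
  refine le_of_mul_le_mul_right (h1.trans_eq ?_) (pow_pos hc.wt.pos 2)
  ring

theorem RSD.abs_ex_cos_le (h : RSD ρ) (hs : ∀ q, SE (sl ρ q)) (h0 : 0 < ρ 0) {q : Q}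
    (hq : 0 < Zs (sl ρ q)) (f ξ : L →+ ℝ) (θ : ℝ) :
    |Ex (tilt (sl ρ q) f) fun s => Real.cos (ξ s + θ)| ≤ Ph (sl ρ 0) ξ := by
  have hW : Wt (tilt (sl ρ q) f) := Wt.tilt ⟨fun _ => h.nonneg _, (hs q).summable, hq⟩ (hs q) f
  have h1 := h.norm_th_le hs h0 q f ξ
  have hc := hW.ig_bdd fun s => Real.abs_cos_le_one (ξ s)
  have hn := hW.ig_bdd fun s => Real.abs_sin_le_one (ξ s)
  have e : (Ex (tilt (sl ρ q) f) fun s => Real.cos (ξ s + θ)) =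
      (th (sl ρ q) f ξ * Complex.exp (θ * Complex.I)).re / Zs (tilt (sl ρ q) f) := by
    simp only [Real.cos_add]
    rw [Ex_sub (hc.mul_const _) (hn.mul_const _), Ex_mul_const, Ex_mul_const, Complex.mul_re,
      C59.re_th (W := sl ρ q) (fun _ => h.nonneg _) hW.summ,
      C59.im_th (W := sl ρ q) (fun _ => h.nonneg _) hW.summ,
      Complex.exp_ofReal_mul_I_re, Complex.exp_ofReal_mul_I_im, Ex_def, Ex_def]
    ring
  rw [e, abs_div, abs_of_pos hW.pos, div_le_iff₀' hW.pos]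
  refine (Complex.abs_re_le_norm _).trans ?_
  rwa [norm_mul, Complex.norm_exp_ofReal_mul_I, mul_one]



end coset



end Crest.Agent.T145
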