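import Crest.Agent.T145.Cut_7
import Crest.Agent.T145.ApiC_98

/-!
# Row 145, T0 toolbox (helper7): product formula for independent blocks

`Ind I A E`: the free sets `A i` and edge sets `E i` do not interact.  Then the model
`(m.free (I.biUnion A)).keep (I.biUnion E)` is the product of the models
`(m.free (A i)).keep (E i)`, for every boundary condition: `prod_hasSum`, `prod_Zs`, `prod_Ex`,
and at `η = 0`: `prod_se`, `prod_M`, `prod_Vr`, `prod_Ph`, `prod_anch`.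
-/

set_option autoImplicit false

namespace Crest.Agent.T145

open Finset

namespace Cut7

variable {V : Type} [DecidableEq V] {ι : Type*}

/-- the model with free set `A` and edge set `E` -/
abbrev sb (m : Mdl V) (A : Finset V) (E : Finset (V × V)) : Mdl V := (m.free A).keep E

theorem two_W (m : Mdl V) (η : Cfg V) {A₁ A₂ : Finset V} {E₁ E₂ : Finset (V × V)}
    (hA : Disjoint A₁ A₂) (hE : Disjoint E₁ E₂) (h₁ : ∀ e ∈ E₁, e.1 ∉ A₂ ∧ e.2 ∉ A₂)
    (h₂ : ∀ e ∈ E₂, e.1 ∉ A₁ ∧ e.2 ∉ A₁) {s : Cfg V} (hs : ∀ x, x ∉ A₁ ∪ A₂ → s x = η x) :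
    (sb m (A₁ ∪ A₂) (E₁ ∪ E₂)).W η s =
      (sb m A₁ E₁).W η (pw A₁ s η) * (sb m A₂ E₂).W η (pw A₂ s η) := by
  have k₁ : ∀ x, x ∉ A₂ → pw A₁ s η x = s x := fun x hx => by
    rw [pw_apply]; split_ifs with h
    · rfl
    · exact (hs x fun h' => (mem_union.1 h').elim h hx).symm
  have k₂ : ∀ x, x ∉ A₁ → pw A₂ s η x = s x := fun x hx => by
    rw [pw_apply]; split_ifs with h
    · rfl
    · exact (hs x fun h' => (mem_union.1 h').elim hx h).symm
  rw [Mdl.W_of_eq _ hs,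
    Mdl.W_of_eq (sb m A₁ E₁) (s := pw A₁ s η) fun x hx => pw_of_notMem (U := A₁) _ _ hx,
    Mdl.W_of_eq (sb m A₂ E₂) (s := pw A₂ s η) fun x hx => pw_of_notMem (U := A₂) _ _ hx]
  change (∏ e ∈ E₁ ∪ E₂, m.w e (dE e s)) * ∏ x ∈ A₁ ∪ A₂, m.site x (s x) =
    ((∏ e ∈ E₁, m.w e _) * ∏ x ∈ A₁, m.site x _) * ((∏ e ∈ E₂, m.w e _) * ∏ x ∈ A₂, m.site x _)
  rw [prod_union hA, prod_union hE, mul_mul_mul_comm]
  congr 2
  · exact prod_congr rfl fun e he => by rw [Md.dE_congr (k₁ _ (h₁ e he).1) (k₁ _ (h₁ e he).2)]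
  · exact prod_congr rfl fun x hx => by rw [pw_of_mem _ _ hx]
  · exact prod_congr rfl fun e he => by rw [Md.dE_congr (k₂ _ (h₂ e he).1) (k₂ _ (h₂ e he).2)]
  · exact prod_congr rfl fun x hx => by rw [pw_of_mem _ _ hx]

/-- two independent blocks -/
theorem two_hasSum (m : Mdl V) (η : Cfg V) {A₁ A₂ : Finset V} {E₁ E₂ : Finset (V × V)}
    (hA : Disjoint A₁ A₂) (hE : Disjoint E₁ E₂) (h₁ : ∀ e ∈ E₁, e.1 ∉ A₂ ∧ e.2 ∉ A₂)
    (h₂ : ∀ e ∈ E₂, e.1 ∉ A₁ ∧ e.2 ∉ A₁) {F₁ F₂ : Cfg V → ℝ} (hF₁ : Ig ((sb m A₁ E₁).W η) F₁)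
    (hF₂ : Ig ((sb m A₂ E₂).W η) F₂) :
    HasSum (fun s => (sb m (A₁ ∪ A₂) (E₁ ∪ E₂)).W η s * (F₁ (pw A₁ s η) * F₂ (pw A₂ s η)))
      ((∑' s, (sb m A₁ E₁).W η s * F₁ s) * ∑' s, (sb m A₂ E₂).W η s * F₂ s) := by
  have h3 : Summable fun p : Cfg V × Cfg V =>
      ((sb m A₁ E₁).W η p.1 * F₁ p.1) * ((sb m A₂ E₂).W η p.2 * F₂ p.2) :=
    summable_mul_of_summable_norm (f := fun s => (sb m A₁ E₁).W η s * F₁ s)
      (g := fun s => (sb m A₂ E₂).W η s * F₂ s) (Summable.norm hF₁) (Summable.norm hF₂)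
  have h4 := (Summable.hasSum hF₁).mul (Summable.hasSum hF₂) h3
  have key : ∀ s : Cfg V, (∀ x, x ∉ A₁ ∪ A₂ → s x = η x) →
      ((sb m A₁ E₁).W η (pw A₁ s η) * F₁ (pw A₁ s η)) *
        ((sb m A₂ E₂).W η (pw A₂ s η) * F₂ (pw A₂ s η)) =
      (sb m (A₁ ∪ A₂) (E₁ ∪ E₂)).W η s * (F₁ (pw A₁ s η) * F₂ (pw A₂ s η)) := fun s hs => by
    rw [two_W m η hA hE h₁ h₂ hs]; ring
  refine (hasSum_iff_hasSum_of_ne_zero_bij (fun s => (pw A₁ s.1 η, pw A₂ s.1 η)) ?_ ?_ ?_).1 h4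
  · rintro ⟨s, hs⟩ ⟨t, ht⟩ h
    obtain ⟨e₁, e₂⟩ := Prod.mk.inj h
    ext x
    by_cases hx₁ : x ∈ A₁
    · simpa only [pw_of_mem _ _ hx₁] using DFunLike.congr_fun e₁ x
    by_cases hx₂ : x ∈ A₂
    · simpa only [pw_of_mem _ _ hx₂] using DFunLike.congr_fun e₂ x
    have hx : x ∉ A₁ ∪ A₂ := fun h' => (mem_union.1 h').elim hx₁ hx₂
    exact (Md.W_off (left_ne_zero_of_mul hs) x hx).trans
      (Md.W_off (left_ne_zero_of_mul ht) x hx).symm
  · rintro ⟨a, b⟩ hab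
    have ha := Md.W_off (left_ne_zero_of_mul (left_ne_zero_of_mul hab))
    have hb := Md.W_off (left_ne_zero_of_mul (right_ne_zero_of_mul hab))
    have e₁ : pw A₁ (pw A₁ a b) η = a := by
      ext x; rw [pw_pw_left, pw_apply]; split_ifs with h
      · rfl
      · exact (ha x h).symm
    have e₂ : pw A₂ (pw A₁ a b) η = b := by
      ext x; rw [pw_apply]; split_ifs with h
      · exact pw_of_notMem _ _ (disjoint_right.1 hA h)
      · exact (hb x h).symm
    have hs : ∀ x, x ∉ A₁ ∪ A₂ → pw A₁ a b x = η x := fun x hx => by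
      rw [pw_of_notMem _ _ fun h => hx (mem_union_left _ h)]
      exact hb x fun h => hx (mem_union_right _ h)
    refine ⟨⟨pw A₁ a b, ?_⟩, Prod.ext e₁ e₂⟩
    rw [Function.mem_support, ← key _ hs, e₁, e₂]
    exact hab
  · rintro ⟨s, hs⟩
    exact key s (Md.W_off (left_ne_zero_of_mul hs))

/-- blocks that do not interact -/
structure Ind (I : Finset ι) (A : ι → Finset V) (E : ι → Finset (V × V)) : Prop where
  dA : ∀ i ∈ I, ∀ j ∈ I, i ≠ j → Disjoint (A i) (A j)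
  dE : ∀ i ∈ I, ∀ j ∈ I, i ≠ j → Disjoint (E i) (E j)
  far : ∀ i ∈ I, ∀ j ∈ I, i ≠ j → ∀ e ∈ E i, e.1 ∉ A j ∧ e.2 ∉ A j

variable {I : Finset ι} {A B : ι → Finset V} {E : ι → Finset (V × V)}

omit [DecidableEq V] in
theorem Ind.mono {J : Finset ι} (h : Ind I A E) (hJ : J ⊆ I) : Ind J A E :=
  ⟨fun i hi j hj => h.dA i (hJ hi) j (hJ hj), fun i hi j hj => h.dE i (hJ hi) j (hJ hj),
    fun i hi j hj => h.far i (hJ hi) j (hJ hj)⟩

omit [DecidableEq V] in
/-- disjoint blocks with their inner edges -/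
theorem Ind.of_blocks (hB : ∀ i ∈ I, ∀ j ∈ I, i ≠ j → Disjoint (B i) (B j))
    (hA : ∀ i ∈ I, A i ⊆ B i) (hE : ∀ i ∈ I, ∀ e ∈ E i, e.1 ∈ B i ∧ e.2 ∈ B i) : Ind I A E :=
  ⟨fun i hi j hj h => (hB i hi j hj h).mono (hA i hi) (hA j hj),
    fun i hi j hj h => disjoint_left.2 fun e he he' =>
      disjoint_left.1 (hB i hi j hj h) (hE i hi e he).1 (hE j hj e he').1,
    fun i hi j hj h e he => ⟨fun h' => disjoint_left.1 (hB i hi j hj h) (hE i hi e he).1 (hA j hj h'),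
      fun h' => disjoint_left.1 (hB i hi j hj h) (hE i hi e he).2 (hA j hj h')⟩⟩

theorem Ind.two [DecidableEq ι] {j : ι} (h : Ind (insert j I) A E) (hj : j ∉ I) :
    Disjoint (A j) (I.biUnion A) ∧ Disjoint (E j) (I.biUnion E) ∧
      (∀ e ∈ E j, e.1 ∉ I.biUnion A ∧ e.2 ∉ I.biUnion A) ∧
      ∀ e ∈ I.biUnion E, e.1 ∉ A j ∧ e.2 ∉ A j := by
  have hn : ∀ i ∈ I, j ≠ i := fun i hi e => hj (e ▸ hi)
  have hm := mem_insert_self j I
  refine ⟨(disjoint_biUnion_right _ _ _).2 fun i hi => h.dA j hm i (mem_insert_of_mem hi) (hn i hi),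
    (disjoint_biUnion_right _ _ _).2 fun i hi => h.dE j hm i (mem_insert_of_mem hi) (hn i hi),
    fun e he => ⟨fun h' => ?_, fun h' => ?_⟩, fun e he => ?_⟩
  · obtain ⟨i, hi, h'⟩ := mem_biUnion.1 h'
    exact (h.far j hm i (mem_insert_of_mem hi) (hn i hi) e he).1 h'
  · obtain ⟨i, hi, h'⟩ := mem_biUnion.1 h'
    exact (h.far j hm i (mem_insert_of_mem hi) (hn i hi) e he).2 h'
  · obtain ⟨i, hi, he⟩ := mem_biUnion.1 he
    exact h.far i (mem_insert_of_mem hi) j hm (hn i hi).symm e he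

theorem pw_pw_sub {U U' : Finset V} (h : U ⊆ U') (s η : Cfg V) : pw U (pw U' s η) η = pw U s η := by
  ext x
  by_cases hx : x ∈ U
  · rw [pw_of_mem _ _ hx, pw_of_mem _ _ hx, pw_of_mem _ _ (h hx)]
  · rw [pw_of_notMem _ _ hx, pw_of_notMem _ _ hx]

/-- the product formula -/
theorem prod_hasSum (m : Mdl V) (η : Cfg V) (h : Ind I A E) {F : ι → Cfg V → ℝ}
    (hF : ∀ i ∈ I, Ig ((sb m (A i) (E i)).W η) (F i)) :
    HasSum (fun s => (sb m (I.biUnion A) (I.biUnion E)).W η s * ∏ i ∈ I, F i (pw (A i) s η))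
      (∏ i ∈ I, ∑' s, (sb m (A i) (E i)).W η s * F i s) := by
  classical
  induction I using Finset.induction_on with
  | empty =>
    simp only [biUnion_empty, prod_empty, mul_one]
    have h1 : (sb m ∅ ∅).W η η = 1 := by
      rw [Mdl.W_of_eq _ fun _ _ => rfl]
      exact (mul_one _).trans rfl
    rw [← h1]
    refine hasSum_single η fun s hs => ?_
    by_contra hne
    exact hs (Finsupp.ext fun x => Md.W_off hne x (notMem_empty x))
  | insert j I hj ih =>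
    obtain ⟨h1, h2, h3, h4⟩ := h.two hj
    have h5 := ih (h.mono (subset_insert _ _)) fun i hi => hF i (mem_insert_of_mem hi)
    have h6 := two_hasSum m η h1 h2 h3 h4 (hF j (mem_insert_self _ _))
      (F₂ := fun s => ∏ i ∈ I, F i (pw (A i) s η)) h5.summable
    rw [h5.tsum_eq] at h6
    simp only [biUnion_insert, prod_insert hj]
    convert h6 using 4 with s
    exact prod_congr rfl fun i hi => by rw [pw_pw_sub (subset_biUnion_of_mem A hi)]

theorem prod_Zs (m : Mdl V) (η : Cfg V) (h : Ind I A E)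
    (hs : ∀ i ∈ I, Summable ((sb m (A i) (E i)).W η)) :
    Summable ((sb m (I.biUnion A) (I.biUnion E)).W η) ∧
      Zs ((sb m (I.biUnion A) (I.biUnion E)).W η) = ∏ i ∈ I, Zs ((sb m (A i) (E i)).W η) := by
  have h1 := prod_hasSum m η h (F := fun _ _ => 1) fun i hi => Ig.const (hs i hi) 1
  simp only [prod_const_one, mul_one] at h1
  exact ⟨h1.summable, h1.tsum_eq⟩

theorem prod_Ex (m : Mdl V) (η : Cfg V) (h : Ind I A E)
    (hs : ∀ i ∈ I, Summable ((sb m (A i) (E i)).W η)) {F : ι → Cfg V → ℝ}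
    (hF : ∀ i ∈ I, Ig ((sb m (A i) (E i)).W η) (F i)) :
    Ex ((sb m (I.biUnion A) (I.biUnion E)).W η) (fun s => ∏ i ∈ I, F i (pw (A i) s η)) =
      ∏ i ∈ I, Ex ((sb m (A i) (E i)).W η) (F i) := by
  simp only [Ex_def]
  rw [(prod_hasSum m η h hF).tsum_eq, (prod_Zs m η h hs).2, prod_div_distrib]

/-- two different blocks are independent -/
theorem prod_Ex_two (m : Mdl V) (η : Cfg V) (h : Ind I A E)
    (hs : ∀ i ∈ I, Wt ((sb m (A i) (E i)).W η)) {i j : ι} (hi : i ∈ I) (hj : j ∈ I) (hij : i ≠ j)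
    {F G : Cfg V → ℝ} (hF : Ig ((sb m (A i) (E i)).W η) F) (hG : Ig ((sb m (A j) (E j)).W η) G) :
    Ex ((sb m (I.biUnion A) (I.biUnion E)).W η) (fun s => F (pw (A i) s η) * G (pw (A j) s η)) =
      Ex ((sb m (A i) (E i)).W η) F * Ex ((sb m (A j) (E j)).W η) G := by
  classical
  have h1 := prod_Ex m η h (fun k hk => (hs k hk).summ)
    (F := fun k s => (if k = i then F s else 1) * if k = j then G s else 1) fun k hk => by
      by_cases h1 : k = i
      · subst h1; simpa [hij] using hF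
      by_cases h2 : k = j
      · subst h2; simpa [h1] using hG
      · simpa [h1, h2] using (hs k hk).ig_const 1
  simp only [prod_mul_distrib, prod_ite_eq', hi, hj, if_true] at h1
  rw [h1, ← prod_subset (s₁ := {i, j}) (by simp [insert_subset_iff, hi, hj]), prod_pair hij]
  · simp [hij, hij.symm]
  · intro k hk hk'
    simp only [mem_insert, mem_singleton, not_or] at hk'
    simp only [hk'.1, hk'.2, if_false, mul_one]
    exact (hs k hk).ex_const 1

/-- the marginal of one block -/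
theorem prod_Ex_one (m : Mdl V) (η : Cfg V) (h : Ind I A E)
    (hs : ∀ i ∈ I, Wt ((sb m (A i) (E i)).W η)) {i : ι} (hi : i ∈ I)
    {F : Cfg V → ℝ} (hF : Ig ((sb m (A i) (E i)).W η) F) :
    Ex ((sb m (I.biUnion A) (I.biUnion E)).W η) (fun s => F (pw (A i) s η)) =
      Ex ((sb m (A i) (E i)).W η) F := by
  classical
  have h1 := prod_Ex m η h (fun k hk => (hs k hk).summ)
    (F := fun k s => if k = i then F s else 1) fun k hk => by
      by_cases h1 : k = i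
      · subst h1; simpa using hF
      · simpa [h1] using (hs k hk).ig_const 1
  simp only [prod_ite_eq', hi, if_true] at h1
  rw [h1, prod_eq_single_of_mem i hi]
  · simp
  · intro k hk hk'
    simp only [hk', if_false]
    exact (hs k hk).ex_const 1

/-- restriction to `U` as a homomorphism -/
noncomputable def resH (U : Finset V) : Cfg V →+ Cfg V :=
  AddMonoidHom.mk' (fun s => pw U s 0) fun s t => by rw [← pw_add, add_zero]

@[simp] theorem resH_apply (U : Finset V) (s : Cfg V) : resH U s = pw U s 0 := rfl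

theorem sum_pw (h : Ind I A E) {s : Cfg V} (hs : ∀ x, x ∉ I.biUnion A → s x = 0) :
    ∑ i ∈ I, pw (A i) s 0 = s := by
  ext x
  rw [Finsupp.finsetSum_apply]
  by_cases hx : x ∈ I.biUnion A
  · obtain ⟨i, hi, hx⟩ := mem_biUnion.1 hx
    rw [sum_eq_single_of_mem i hi, pw_of_mem _ _ hx]
    exact fun j hj hji => pw_of_notMem _ _ fun h' => disjoint_left.1 (h.dA j hj i hi hji) h' hx
  · rw [hs x hx]
    exact sum_eq_zero fun i hi => pw_of_notMem _ _ fun h' => hx (mem_biUnion.2 ⟨i, hi, h'⟩)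

theorem hom_split (m : Mdl V) (h : Ind I A E) (f : Cfg V →+ ℝ) {s : Cfg V}
    (hs : (sb m (I.biUnion A) (I.biUnion E)).W 0 s ≠ 0) : f s = ∑ i ∈ I, f (pw (A i) s 0) := by
  rw [← map_sum, sum_pw h (Md.W_off hs)]

theorem prod_se (m : Mdl V) (h : Ind I A E) (hs : ∀ i ∈ I, SE ((sb m (A i) (E i)).W 0)) :
    SE ((sb m (I.biUnion A) (I.biUnion E)).W 0) := fun f =>
  Ig.congr (prod_hasSum m 0 h (F := fun _ s => Real.exp (f s)) fun i hi => hs i hi f).summable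
    fun s hs => by rw [hom_split m h f hs, Real.exp_sum]

theorem prod_M (m : Mdl V) (h : Ind I A E) (hw : ∀ i ∈ I, Wt ((sb m (A i) (E i)).W 0))
    (hs : ∀ i ∈ I, SE ((sb m (A i) (E i)).W 0)) (f : Cfg V →+ ℝ) :
    M ((sb m (I.biUnion A) (I.biUnion E)).W 0) f = ∑ i ∈ I, M ((sb m (A i) (E i)).W 0) f := by
  unfold M
  rw [← Real.log_prod fun i hi => ((hw i hi).ex_exp_pos (hs i hi) f).ne',
    ← prod_Ex m 0 h (fun i hi => (hw i hi).summ) fun i hi => hs i hi f]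
  congr 1
  exact Ex_congr fun s hs => by rw [hom_split m h f hs, Real.exp_sum]

theorem prod_Vr (m : Mdl V) (h : Ind I A E) (hw : ∀ i ∈ I, Wt ((sb m (A i) (E i)).W 0))
    (hs : ∀ i ∈ I, SE ((sb m (A i) (E i)).W 0)) (f g : Cfg V →+ ℝ) :
    Vr ((sb m (I.biUnion A) (I.biUnion E)).W 0) f g = ∑ i ∈ I, Vr ((sb m (A i) (E i)).W 0) f g := by
  have hS := prod_se m h hs
  have e : ∀ (f : Cfg V →+ ℝ) s, (sb m (I.biUnion A) (I.biUnion E)).W 0 s ≠ 0 →
      f s = (∑ i ∈ I, f.comp (resH (A i))) s := fun f s hs => by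
    rw [hom_split m h f hs, AddMonoidHom.finsetSum_apply]; rfl
  have h1 : Vr ((sb m (I.biUnion A) (I.biUnion E)).W 0) f g =
      Vr ((sb m (I.biUnion A) (I.biUnion E)).W 0) (∑ i ∈ I, f.comp (resH (A i)))
        (∑ i ∈ I, g.comp (resH (A i))) := by
    unfold Vr Cv
    rw [Ex_congr (e f), Ex_congr (e g),
      Ex_congr fun s hs => congrArg₂ (· * ·) (e f s hs) (e g s hs)]
  rw [h1, hS.Vr_sum_left]
  refine sum_congr rfl fun i hi => ?_
  have hf := (hs i hi).ig (Tame.hom f)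
  rw [hS.Vr_sum_right, sum_eq_single_of_mem i hi]
  · unfold Vr Cv
    rw [← prod_Ex_one m 0 h hw hi hf, ← prod_Ex_one m 0 h hw hi ((hs i hi).ig (Tame.hom g)),
      ← prod_Ex_one m 0 h hw hi ((hs i hi).ig ((Tame.hom f).mul (Tame.hom g)))]
    rfl
  · intro j hj hji
    have hg := (hs j hj).ig (Tame.hom g)
    have h2 := prod_Ex_two m 0 h hw hi hj hji.symm hf hg
    rw [← prod_Ex_one m 0 h hw hi hf, ← prod_Ex_one m 0 h hw hj hg] at h2
    exact sub_eq_zero.2 h2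


theorem prod_anch (m : Mdl V) (h : Ind I A E) (ha : ∀ i ∈ I, (sb m (A i) (E i)).Anch) :
    (sb m (I.biUnion A) (I.biUnion E)).Anch := by
  intro x hx
  obtain ⟨i, hi, hx⟩ := mem_biUnion.1 hx
  obtain ⟨y, h1, h2⟩ := ha i hi x hx
  refine ⟨y, Md.conn_mono (ω := E i) (subset_biUnion_of_mem E hi) h1, h2.imp_left fun h2 h3 => ?_⟩
  obtain ⟨j, hj, h3⟩ := mem_biUnion.1 h3
  have hij : i ≠ j := fun e => h2 (e ▸ h3)
  have h4 := Md.conn_ind (ω := E i) (P := fun z => z ∈ A j)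
    (fun e he => iff_of_false (h.far i hi j hj hij e he).1 (h.far i hi j hj hij e he).2)
    (Md.conn_symm h1) h3
  exact disjoint_left.1 (h.dA i hi j hj hij) hx h4

end Cut7

end Crest.Agent.T145
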