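import Crest.Agent.T145.MdlC_73
import Crest.Agent.T145.ApiC_98
import Crest.Agent.T145.CorU_59

/-!
# Row 145, T0: model operations, `Loc` corollaries, Markov property, product formulas (helper73)
-/

set_option autoImplicit false

namespace Crest.Agent.T145

open Finset

namespace Md

section ops
variable {V : Type*} [DecidableEq V] {m : Mdl V}

omit [DecidableEq V] in
theorem fm_keep (h : m.Fm) {E : Finset (V × V)} (hE : E ⊆ m.ed) : (m.keep E).Fm :=
  fun e he => h e (hE he)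



omit [DecidableEq V] in
theorem ctr_free (h : m.Ctr) {A' : Finset V} (hA : A' ⊆ m.A) : (m.free A').Ctr :=
  ⟨h.1, fun x hx => h.2 x (hA hx)⟩
omit [DecidableEq V] in
theorem ctr_keep (h : m.Ctr) {E : Finset (V × V)} (hE : E ⊆ m.ed) : (m.keep E).Ctr :=
  ⟨fm_keep h.1 hE, h.2⟩
omit [DecidableEq V] in
theorem ctr_mulSite (h : m.Ctr) {u : V → ℤ → ℝ}
    (hu : ∀ x ∈ m.A, RSD (u x) ∧ PD (u x) ∧ 0 < u x 0) : (m.mulSite u).Ctr :=
  ⟨h.1, fun x hx => ⟨rsd_mul (h.2 x hx).1 (hu x hx).1, (h.2 x hx).2.1.mul (hu x hx).2.1,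
    mul_pos (h.2 x hx).2.2 (hu x hx).2.2⟩⟩




theorem tame_bd {u : ℤ → ℝ} (hu : Tame u) :
    ∃ C a : ℝ, ∀ k : ℤ, |u k| ≤ C * Real.exp (a * |(k : ℝ)|) := by
  obtain ⟨C, T, hC, hu⟩ := hu.exists_nonneg
  refine ⟨C * T.card, ∑ f ∈ T, |f 1|, fun k => (hu k).trans ?_⟩
  rw [mul_assoc]
  refine mul_le_mul_of_nonneg_left ?_ hC
  rw [← nsmul_eq_mul]
  refine Finset.sum_le_card_nsmul _ _ _ fun f hf => Real.exp_le_exp.2 ?_
  rw [Bes66.addHom_eq f k]
  refine (le_abs_self _).trans ?_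
  rw [abs_mul]
  exact mul_le_mul_of_nonneg_right
    (Finset.single_le_sum (f := fun f : ℤ →+ ℝ => |f 1|) (fun _ _ => abs_nonneg _) hf) (abs_nonneg _)





omit [DecidableEq V] in
theorem anch_free (h : m.Anch) {A' : Finset V} (hA : A' ⊆ m.A) : (m.free A').Anch :=
  fun x hx => let ⟨y, h1, h2⟩ := h x (hA hx); ⟨y, h1, h2.imp (fun h h' => h (hA h')) id⟩

omit [DecidableEq V] in
theorem anch_of_keep {E : Finset (V × V)} (hE : E ⊆ m.ed) (h : (m.keep E).Anch) : m.Anch :=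
  fun x hx => let ⟨y, h1, h2⟩ := h x hx; ⟨y, conn_mono hE h1, h2⟩




omit [DecidableEq V] in
/-- a mass at every site anchors -/
theorem anch_of_se (h : ∀ x ∈ m.A, SE (m.site x)) : m.Anch :=
  fun x hx => ⟨x, Relation.ReflTransGen.refl, Or.inr (h x hx)⟩






/-! ### weights of the modified models -/

theorem W_keep {E : Finset (V × V)} (hE : E ⊆ m.ed) (η s : Cfg V) :
    m.W η s = (m.keep E).W η s * ∏ e ∈ m.ed \ E, m.w e (dE e s) := by
  simp only [Mdl.W, Mdl.keep]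
  rw [← Finset.prod_sdiff hE]; ring

omit [DecidableEq V] in
theorem pd_edges (hF : m.Fm) {E : Finset (V × V)} (hE : E ⊆ m.ed) :
    PD fun s : Cfg V => ∏ e ∈ E, m.w e (dE e s) :=
  PD.prod fun e he => (fm_ker hF (hE he)).pd.comp (dH e)


theorem pd_off (A : Finset V) : PD fun s : Cfg V => ind (∀ x, x ∉ A → s x = 0) := by
  have := pd_ind (Finsupp.filterAddHom (M := ℤ) (· ∉ A))
  convert this using 2 with s
  refine ind_iff ?_
  have := filter_not_eq_iff A s 0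
  rw [Finsupp.filter_zero] at this
  exact this.symm

omit [DecidableEq V] in
theorem pd_sites {A : Finset V} {u : V → ℤ → ℝ} (hu : ∀ x ∈ A, PD (u x)) :
    PD fun s : Cfg V => ∏ x ∈ A, u x (s x) := PD.prod fun x hx => (hu x hx).comp (evH x)








omit [DecidableEq V] in
theorem force_zero : m.force 0 = m := by simp [Mdl.force]




end ops

section loc
variable {L : Type*} [AddCommGroup L]

theorem loc_congr {ρ ρ' W W' : L → ℝ} {c c' : ℝ} (h : Loc ρ' ρ) (hc : c ≠ 0) (hc' : c' ≠ 0)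
    (e : ∀ s, ρ s = c * W s) (e' : ∀ s, ρ' s = c' * W' s) : Loc W' W := by
  rw [funext e, funext e'] at h
  exact ⟨fun f => by simpa only [M_smul _ hc, M_smul _ hc'] using h.1 f,
    fun G hG => by simpa only [ex_cmul hc, ex_cmul hc'] using h.2 G hG⟩

variable {V : Type} [DecidableEq V] {m : Mdl V}

/-- pins localise -/
theorem loc_free (h : m.Ctr) (hA : m.Anch) {A' : Finset V} (hA' : A' ⊆ m.A) :
    Loc ((m.free A').W 0) (m.W 0) :=
  loc_congr ((monoStmt _ _ (ctr_cen h hA)).1 _ (pd_off A') (fun _ => ind_nn _)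
    (by simp [ind])) one_ne_zero
    (Finset.prod_pos fun x hx => (h.2 x (Finset.mem_sdiff.1 hx).1).2.2).ne'
    (fun _ => (one_mul _).symm) fun s => by
      rw [mul_comm]; exact W_free hA' (η := 0) (t := 0) (fun _ _ => rfl) s




end loc

section markov
variable {V : Type*} [DecidableEq V] {m : Mdl V}

/-- edges that do not touch the free sites are constant factors -/
theorem W_keep_far {E : Finset (V × V)} (hE : E ⊆ m.ed)
    (hf : ∀ e ∈ m.ed, e ∉ E → e.1 ∉ m.A ∧ e.2 ∉ m.A) (η s : Cfg V) :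
    m.W η s = (∏ e ∈ m.ed \ E, m.w e (dE e η)) * (m.keep E).W η s := by
  rw [W_keep hE, mul_comm]
  by_cases h : (m.keep E).W η s = 0
  · rw [h, mul_zero, mul_zero]
  · congr 1
    refine Finset.prod_congr rfl fun e he => ?_
    obtain ⟨h1, h2⟩ := hf e (Finset.mem_sdiff.1 he).1 (Finset.mem_sdiff.1 he).2
    rw [dE_congr (W_off h _ h1) (W_off h _ h2)]




/-- `η` and `η'` agree on the outer boundary of the free set -/
def BdEq (m : Mdl V) (η η' : Cfg V) : Prop :=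
  ∀ e ∈ m.ed, (e.1 ∈ m.A → e.2 ∉ m.A → η e.2 = η' e.2) ∧ (e.2 ∈ m.A → e.1 ∉ m.A → η e.1 = η' e.1)

theorem W_markov {η η' : Cfg V} (h : BdEq m η η') (s : Cfg V) :
    (∏ e ∈ m.ed with (e.1 ∉ m.A ∧ e.2 ∉ m.A), m.w e (dE e η')) *
        m.W η (s + (η - η').filter (· ∉ m.A)) =
      (∏ e ∈ m.ed with (e.1 ∉ m.A ∧ e.2 ∉ m.A), m.w e (dE e η)) * m.W η' s := by
  have hE : (m.ed.filter fun e => ¬ (e.1 ∉ m.A ∧ e.2 ∉ m.A)) ⊆ m.ed := Finset.filter_subset _ _
  have hf : ∀ e ∈ m.ed, e ∉ (m.ed.filter fun e => ¬ (e.1 ∉ m.A ∧ e.2 ∉ m.A)) →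
      e.1 ∉ m.A ∧ e.2 ∉ m.A := fun e he h => by
    by_contra h'; exact h (Finset.mem_filter.2 ⟨he, h'⟩)
  have hs : m.ed \ (m.ed.filter fun e => ¬ (e.1 ∉ m.A ∧ e.2 ∉ m.A)) =
      m.ed.filter fun e => e.1 ∉ m.A ∧ e.2 ∉ m.A := by
    rw [← Finset.filter_not]; simp only [not_not]
  have h1 : (m.keep (m.ed.filter fun e => ¬ (e.1 ∉ m.A ∧ e.2 ∉ m.A))).W η =
      (m.keep (m.ed.filter fun e => ¬ (e.1 ∉ m.A ∧ e.2 ∉ m.A))).W
        (η' + (η - η').filter (· ∉ m.A)) :=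
    Mdl.W_congr _ fun x hx => by
      have hx' : x ∉ m.A := hx
      simp [hx']
  rw [W_keep_far hE hf η, W_keep_far hE hf η', hs, h1, W_far]
  · ring
  · intro x hx
    have hx' : x ∈ m.A := hx
    simp [hx']
  · intro e he
    obtain ⟨he1, he2⟩ := Finset.mem_filter.1 he
    obtain ⟨h2, h3⟩ := h e he1
    by_cases a1 : e.1 ∈ m.A <;> by_cases a2 : e.2 ∈ m.A
    · simp [a1, a2]
    · simp [a1, a2, h2 a1 a2]
    · simp [a1, a2, h3 a2 a1]
    · exact absurd ⟨a1, a2⟩ he2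

theorem add_filter_eq {η η' s : Cfg V} (hs : ∀ x, x ∉ m.A → s x = η' x) :
    s + (η - η').filter (· ∉ m.A) = pw m.A s η := by
  ext x
  rw [pw_apply]
  split_ifs with hx
  · simp [hx]
  · simp [hx, hs x hx]

/-- Markov property -/
theorem markov (hF : m.Fm) {η η' : Cfg V} (h : BdEq m η η') (F : Cfg V → ℝ) :
    Ex (m.W η) F = Ex (m.W η') fun s => F (pw m.A s η) := by
  have c1 : (∏ e ∈ m.ed with (e.1 ∉ m.A ∧ e.2 ∉ m.A), m.w e (dE e η')) ≠ 0 :=
    (Finset.prod_pos fun _ he => fm_pos hF (Finset.mem_filter.1 he).1 _).ne'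
  have c2 : (∏ e ∈ m.ed with (e.1 ∉ m.A ∧ e.2 ∉ m.A), m.w e (dE e η)) ≠ 0 :=
    (Finset.prod_pos fun _ he => fm_pos hF (Finset.mem_filter.1 he).1 _).ne'
  rw [← ex_equiv (Equiv.addRight ((η - η').filter (· ∉ m.A))) (m.W η) F, ← ex_cmul c1]
  simp only [Equiv.coe_addRight, W_markov h]
  rw [ex_cmul c2]
  exact ex_congr fun s hs => by rw [add_filter_eq (W_off hs)]



/-- no edge joins `A₁` to `A₂` -/
def Sep (m : Mdl V) (A₁ A₂ : Finset V) : Prop :=
  Disjoint A₁ A₂ ∧ ∀ e ∈ m.ed, (e.1 ∈ A₁ → e.2 ∉ A₂) ∧ (e.2 ∈ A₁ → e.1 ∉ A₂)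

theorem W_split {A₁ A₂ : Finset V} (hA : m.A = A₁ ∪ A₂) (hS : Sep m A₁ A₂) (η r : Cfg V) :
    (m.free A₁).W η (pw A₁ r η) * (m.free A₂).W η (pw A₁ η r) =
      (∏ e ∈ m.ed, m.w e (dE e η)) * m.W η r := by
  have hd : ∀ x ∈ A₂, x ∉ A₁ := fun x hx h => Finset.disjoint_left.1 hS.1 h hx
  have hi : (∀ x, x ∉ A₂ → pw A₁ η r x = η x) ↔ ∀ x, x ∉ m.A → r x = η x := by
    simp only [hA, Finset.mem_union, not_or, pw_apply]
    constructor
    · intro h x hx
      simpa [hx.1] using h x hx.2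
    · intro h x hx
      split_ifs with h1
      · rfl
      · exact h x ⟨h1, hx⟩
  simp only [Mdl.W, Mdl.free]
  rw [ind_pos fun x hx => pw_not hx r η, ind_iff hi]
  by_cases hr : ∀ x, x ∉ m.A → r x = η x
  swap
  · rw [ind_neg hr]; ring
  have e1 : (∏ e ∈ m.ed, m.w e (dE e (pw A₁ r η))) * ∏ e ∈ m.ed, m.w e (dE e (pw A₁ η r)) =
      (∏ e ∈ m.ed, m.w e (dE e η)) * ∏ e ∈ m.ed, m.w e (dE e r) := by
    rw [← Finset.prod_mul_distrib, ← Finset.prod_mul_distrib]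
    refine Finset.prod_congr rfl fun e he => ?_
    have k : ∀ x, x ∉ A₁ → x ∉ A₂ → r x = η x := fun x h1 h2 =>
      hr x (by rw [hA, Finset.mem_union, not_or]; exact ⟨h1, h2⟩)
    obtain ⟨s1, s2⟩ := hS.2 e he
    by_cases a1 : e.1 ∈ A₁ <;> by_cases a2 : e.2 ∈ A₁
    · rw [dE_congr (pw_mem a1 r η) (pw_mem a2 r η), dE_congr (pw_mem a1 η r) (pw_mem a2 η r),
        mul_comm]
    · rw [dE_congr (pw_mem a1 r η) ((pw_not a2 r η).trans (k _ a2 (s1 a1)).symm),
        dE_congr (pw_mem a1 η r) ((pw_not a2 η r).trans (k _ a2 (s1 a1))), mul_comm]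
    · rw [dE_congr ((pw_not a1 r η).trans (k _ a1 (s2 a2)).symm) (pw_mem a2 r η),
        dE_congr ((pw_not a1 η r).trans (k _ a1 (s2 a2))) (pw_mem a2 η r), mul_comm]
    · rw [dE_congr (pw_not a1 r η) (pw_not a2 r η), dE_congr (pw_not a1 η r) (pw_not a2 η r)]
  have e2 : ∏ x ∈ A₁, m.site x (pw A₁ r η x) = ∏ x ∈ A₁, m.site x (r x) :=
    Finset.prod_congr rfl fun x hx => by rw [pw_mem hx]
  have e3 : ∏ x ∈ A₂, m.site x (pw A₁ η r x) = ∏ x ∈ A₂, m.site x (r x) :=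
    Finset.prod_congr rfl fun x hx => by rw [pw_not (hd x hx)]
  rw [ind_pos hr, e2, e3, hA, Finset.prod_union hS.1]
  linear_combination (∏ x ∈ A₁, m.site x (r x)) * (∏ x ∈ A₂, m.site x (r x)) * e1

/-- independence of two separated regions, `HasSum` form -/
theorem hasSum_split {A₁ A₂ : Finset V} (hA : m.A = A₁ ∪ A₂) (hS : Sep m A₁ A₂) (η : Cfg V)
    {F₁ F₂ : Cfg V → ℝ} (h₁ : ∀ s t : Cfg V, (∀ x, x ∉ A₂ → s x = t x) → F₁ s = F₁ t)
    (h₂ : ∀ s t : Cfg V, (∀ x, x ∉ A₁ → s x = t x) → F₂ s = F₂ t) {a b : ℝ}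
    (ha : HasSum (fun s => (m.free A₁).W η s * F₁ s) a)
    (hb : HasSum (fun s => (m.free A₂).W η s * F₂ s) b) :
    HasSum (fun r => (∏ e ∈ m.ed, m.w e (dE e η)) * (m.W η r * (F₁ r * F₂ r))) (a * b) := by
  have h := band_hasSum (pw_pw_left A₁) (pw_pw_right A₁) (pw_self A₁) η ha hb
    (fun s hs => pw_eq_left (W_off (left_ne_zero_of_mul hs)))
    (fun s hs => pw_eq_right fun x hx =>
      W_off (left_ne_zero_of_mul hs) x (Finset.disjoint_left.1 hS.1 hx))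
  refine Bes66.hs_congr h (fun r => ?_) rfl
  rw [mul_mul_mul_comm, W_split hA hS, mul_assoc]
  by_cases hr : m.W η r = 0
  · simp [hr]
  rw [h₁ (pw A₁ r η) r, h₂ (pw A₁ η r) r fun x hx => pw_not hx _ _]
  intro x hx
  rw [pw_apply]
  split_ifs with h1
  · rfl
  · exact (W_off hr x (by rw [hA, Finset.mem_union, not_or]; exact ⟨h1, hx⟩)).symm

theorem zs_split {A₁ A₂ : Finset V} (hA : m.A = A₁ ∪ A₂) (hS : Sep m A₁ A₂) {η : Cfg V}
    (h₁ : Summable ((m.free A₁).W η)) (h₂ : Summable ((m.free A₂).W η)) :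
    HasSum (fun r => (∏ e ∈ m.ed, m.w e (dE e η)) * m.W η r)
      (Zs ((m.free A₁).W η) * Zs ((m.free A₂).W η)) := by
  simpa only [mul_one] using hasSum_split hA hS η (F₁ := fun _ => 1) (F₂ := fun _ => 1)
    (fun _ _ _ => rfl) (fun _ _ _ => rfl) (by simp only [mul_one]; exact h₁.hasSum)
    (by simp only [mul_one]; exact h₂.hasSum)

/-- independence of two separated regions -/
theorem ex_split (hF : m.Fm) {A₁ A₂ : Finset V} (hA : m.A = A₁ ∪ A₂) (hS : Sep m A₁ A₂) {η : Cfg V}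
    {F₁ F₂ : Cfg V → ℝ} (h₁ : ∀ s t : Cfg V, (∀ x, x ∉ A₂ → s x = t x) → F₁ s = F₁ t)
    (h₂ : ∀ s t : Cfg V, (∀ x, x ∉ A₁ → s x = t x) → F₂ s = F₂ t)
    (w₁ : Summable ((m.free A₁).W η)) (w₂ : Summable ((m.free A₂).W η))
    (i₁ : Ig ((m.free A₁).W η) F₁) (i₂ : Ig ((m.free A₂).W η) F₂) :
    Ig (m.W η) (fun s => F₁ s * F₂ s) ∧
      Ex (m.W η) (fun s => F₁ s * F₂ s) = Ex ((m.free A₁).W η) F₁ * Ex ((m.free A₂).W η) F₂ := by
  have hc : (∏ e ∈ m.ed, m.w e (dE e η)) ≠ 0 := (Finset.prod_pos fun _ he => fm_pos hF he _).ne'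
  have h := hasSum_split hA hS η h₁ h₂ i₁.hasSum i₂.hasSum
  have h' := zs_split hA hS w₁ w₂
  refine ⟨(summable_mul_left_iff hc).1 h.summable, ?_⟩
  rw [← ex_cmul hc, Ex, Ex, Ex, div_mul_div_comm]
  simp only [mul_assoc]
  rw [h.tsum_eq, h'.tsum_eq]
  rfl

theorem summable_split (hF : m.Fm) {A₁ A₂ : Finset V} (hA : m.A = A₁ ∪ A₂) (hS : Sep m A₁ A₂)
    {η : Cfg V} (w₁ : Summable ((m.free A₁).W η)) (w₂ : Summable ((m.free A₂).W η)) :
    Summable (m.W η) :=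
  (summable_mul_left_iff (Finset.prod_pos fun _ he => fm_pos hF he _).ne').1
    (zs_split hA hS w₁ w₂).summable

/-- independence of finitely many pairwise separated regions -/
theorem ex_prod (hF : m.Fm) {ι : Type*} (I : Finset ι) (B : ι → Finset V) (η : Cfg V)
    {F : ι → Cfg V → ℝ} (hS : ∀ i ∈ I, ∀ j ∈ I, i ≠ j → Sep m (B i) (B j))
    (hD : ∀ i ∈ I, ∀ s t : Cfg V, (∀ x, (∀ j ∈ I, j ≠ i → x ∉ B j) → s x = t x) → F i s = F i t)
    (hW : ∀ i ∈ I, Summable ((m.free (B i)).W η)) (hI : ∀ i ∈ I, Ig ((m.free (B i)).W η) (F i)) :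
    Summable ((m.free (I.biUnion B)).W η) ∧
      Ig ((m.free (I.biUnion B)).W η) (fun s => ∏ i ∈ I, F i s) ∧
      Ex ((m.free (I.biUnion B)).W η) (fun s => ∏ i ∈ I, F i s) =
        ∏ i ∈ I, Ex ((m.free (B i)).W η) (F i) := by
  classical
  induction I using Finset.induction_on with
  | empty =>
    have h0 : ∀ s, s ≠ η → (m.free ∅).W η s = 0 := fun s hs => by
      by_contra h
      exact hs (Finsupp.ext fun x => W_off h x (Finset.notMem_empty x))
    have hs : Summable ((m.free ∅).W η) := (hasSum_single η h0).summable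
    simp only [Finset.biUnion_empty, Finset.prod_empty]
    refine ⟨hs, Ig.const hs 1, ?_⟩
    rw [Ex]
    simp only [mul_one]
    refine div_self ?_
    rw [tsum_eq_single η h0]
    exact (W_pos (m := m.free ∅) hF (fun _ _ => rfl) fun _ hx => absurd hx (Finset.notMem_empty _)).ne'
  | insert i I hi ih =>
    have mi := Finset.mem_insert_self i I
    have mj : ∀ j ∈ I, j ∈ insert i I := fun j hj => Finset.mem_insert_of_mem hj
    have nj : ∀ j ∈ I, j ≠ i := fun j hj h => hi (h ▸ hj)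
    obtain ⟨a1, a2, a3⟩ := ih (fun j hj k hk => hS j (mj j hj) k (mj k hk))
      (fun j hj s t h => hD j (mj j hj) s t fun x hx => h x fun k hk => hx k (mj k hk))
      (fun j hj => hW j (mj j hj)) fun j hj => hI j (mj j hj)
    have hsep : Sep (m.free ((insert i I).biUnion B)) (B i) (I.biUnion B) := by
      refine ⟨(Finset.disjoint_biUnion_right _ _ _).2 fun j hj =>
        (hS i mi j (mj j hj) (nj j hj).symm).1, fun e he => ⟨fun h h' => ?_, fun h h' => ?_⟩⟩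
      · obtain ⟨j, hj, h'⟩ := Finset.mem_biUnion.1 h'
        exact ((hS i mi j (mj j hj) (nj j hj).symm).2 e he).1 h h'
      · obtain ⟨j, hj, h'⟩ := Finset.mem_biUnion.1 h'
        exact ((hS i mi j (mj j hj) (nj j hj).symm).2 e he).2 h h'
    have hA : (m.free ((insert i I).biUnion B)).A = B i ∪ I.biUnion B := Finset.biUnion_insert
    have h := ex_split (m := m.free ((insert i I).biUnion B)) hF hA hsep (F₁ := F i)
      (F₂ := fun s => ∏ j ∈ I, F j s)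
      (fun s t h => hD i mi s t fun x hx => h x fun h' => by
        obtain ⟨j, hj, h'⟩ := Finset.mem_biUnion.1 h'
        exact hx j (mj j hj) (nj j hj) h')
      (fun s t h => Finset.prod_congr rfl fun j hj => hD j (mj j hj) s t fun x hx =>
        h x (hx i mi (nj j hj).symm))
      (hW i mi) a1 (hI i mi) a2
    simp only [Finset.prod_insert hi]
    exact ⟨summable_split (m := m.free ((insert i I).biUnion B)) hF hA hsep (hW i mi) a1, h.1,
      h.2.trans (by rw [← a3]; rfl)⟩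

end markov

section bonds
variable {V : Type*} [DecidableEq V] {m : Mdl V}







end bonds

end Md

end Crest.Agent.T145
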