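import Crest.Agent.T145.FlDef_82
import Crest.Agent.T145.Br_73
import Crest.Agent.T145.NcGeo_51
import Crest.Agent.T145.NcBas_78
import Crest.Agent.T145.RJa_57

/-!
# Row 145, flow, BARE: moments of `(A₀ v, s)` (helper80)
-/

set_option autoImplicit false

namespace Crest.Agent.T145.Fl

open Finset Pot

namespace B80

variable {Λ : Lat} {B D T U : Finset Pt} {v f : Pt → ℝ} {m : Mdl Pt} {z : Pt} {n c c' : ℕ} {a k : ℝ}

/-- the nearest neighbour edges along which `v` varies lie in `B` -/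
def Gb (B : Finset Pt) (v : Pt → ℝ) : Prop := ∀ i x, df i v x ≠ 0 → x ∈ B ∧ x + ev i ∈ B

theorem Gb.mono (h : Gb B v) (hB : B ⊆ U) : Gb U v := fun i x hx => ⟨hB (h i x hx).1, hB (h i x hx).2⟩

theorem Gb.gt (h : Gb B v) (i : Fin 2) (x : Pt) : RJ57.gt B (ev i) x * df i v x = df i v x := by
  by_cases h0 : df i v x = 0
  · rw [h0, mul_zero]
  · rw [RJ57.gt_one (h i x h0).1 (h i x h0).2, one_mul]

theorem ne_or {i : Fin 2} {x : Pt} (hD : Pot.Sup D v) (h : df i v x ≠ 0) : x ∈ D ∨ x + ev i ∈ D := by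
  by_contra hc
  rw [not_or] at hc
  exact h (by rw [df, hD _ hc.1, hD _ hc.2, sub_self])

theorem gb_bl (h : Pot.Sup (bl z n) v) : Gb (bl z (n + 1)) v := fun i x hx => by
  have := ne_or h hx
  fin_cases i <;> simp only [mem_bl, ev, Prod.fst_add, Prod.snd_add] at this ⊢ <;> simp at this ⊢ <;> omega

theorem gb_an (h : Pot.Sup (bl z n) v) (hn : n + 1 ≤ c') (h0 : ∀ y ∈ bl z (c + 1), v y = 0) :
    Gb (Nc.an z c c') v := fun i x hx => by
  have h1 := (gb_bl h).mono (bl_mono z hn) i x hx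
  have h2 : ¬ (x ∈ bl z (c + 1) ∧ x + ev i ∈ bl z (c + 1)) := fun hc =>
    hx (by rw [df, h0 _ hc.1, h0 _ hc.2, sub_self])
  refine ⟨mem_sdiff.2 ⟨h1.1, fun hc => h2 ?_⟩, mem_sdiff.2 ⟨h1.2, fun hc => h2 ?_⟩⟩ <;>
    fin_cases i <;> simp only [mem_bl, ev, Prod.fst_add, Prod.snd_add] at hc ⊢ <;> simp at hc ⊢ <;> omega

theorem A0_Au (h : Gb B v) : A0 v = nnL.Au B v := funext fun ⟨a, b⟩ => by
  rw [RJ57.Au_nn]
  simp only [h.gt]
  simp only [Fin.sum_univ_two, df, ev, A0, Matrix.cons_val_zero, Matrix.cons_val_one, sub_add_cancel,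
    Prod.mk_add_mk, Prod.mk_sub_mk, add_zero, sub_zero, ← sub_eq_add_neg]
  ring

theorem A0_dv (h : Gb B v) : A0 v = dv (nnL.edI B) fun e => v e.2 - v e.1 := by
  rw [A0_Au h, Lat.Au]; simp [nnL]

theorem E0_ed (hD : Pot.Sup D v) (h : Gb B v) : E0 D v = ∑ e ∈ nnL.edI B, (v e.2 - v e.1) ^ 2 := by
  rw [E0, A0_dv h, sum_mul_dv v fun e _ => ⟨hD _, hD _⟩]
  simp only [pow_two]

/-- the gradient is a flow of `A₀ v` with energy `E0` -/
theorem f2_gb (hD : Pot.Sup D v) (h : Gb B v) : F2 (nnL.edI B) (A0 v) (E0 D v) :=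
  ⟨_, A0_dv h, (E0_ed hD h).ge⟩

theorem f2_A0 (h : Pot.Sup (bl z n) v) : F2 (nnL.edI (bl z (n + 1))) (A0 v) (E0 (bl z n) v) :=
  f2_gb h (gb_bl h)

/-- `E0` is the sum of the squared gradients, over any set `T` containing their support -/
theorem E0_eq (hD : Pot.Sup D v) (hT : ∀ i x, df i v x ≠ 0 → x ∈ T) :
    E0 D v = ∑ i, ∑ x ∈ T, df i v x ^ 2 := by
  obtain ⟨R, hR⟩ := exists_subset_bl (T ∪ D) 0
  have h : Gb (bl 0 (R + 1)) v := gb_bl fun x hx => hD x fun h => hx (hR (mem_union_right _ h))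
  rw [E0_ed hD h, RJ57.sum_edI', sum_comm, RJ57.sum_nn]
  refine sum_congr rfl fun i _ => ?_
  have e : ∀ x, RJ57.gt (bl 0 (R + 1)) (ev i) x * (v (x + ev i) - v x) ^ 2 = df i v x ^ 2 := fun x => by
    rw [pow_two, ← mul_assoc, pow_two]; exact congrArg (· * _) (h.gt i x)
  simp only [e]
  refine (sum_subset (subset_union_left.trans (hR.trans (bl_mono 0 (by omega)))) fun x _ hx => ?_).symm
  rw [by_contra fun h0 : ¬ df i v x = 0 => hx (hT i x h0)]; simp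


theorem E0_nonneg (hD : Pot.Sup D v) : 0 ≤ E0 D v := by
  obtain ⟨R, hR⟩ := exists_subset_bl D 0
  rw [E0_ed hD (gb_bl (z := 0) (n := R) fun x hx => hD x fun h => hx (hR h))]
  exact sum_nonneg fun _ _ => sq_nonneg _

theorem E0_congr (hD : Pot.Sup D v) (hB : Pot.Sup B v) : E0 D v = E0 B v := by
  obtain ⟨R, hR⟩ := exists_subset_bl D 0
  have h : Gb (bl 0 (R + 1)) v := gb_bl fun x hx => hD x fun h => hx (hR h)
  rw [E0_ed hD h, E0_ed hB h]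

/-- gradients bounded by `k`, supported in `T` -/
theorem E0_le' (hD : Pot.Sup D v) (hT : ∀ i x, df i v x ≠ 0 → x ∈ T)
    (hk : ∀ i, ∀ x ∈ T, |df i v x| ≤ k) : E0 D v ≤ 2 * k ^ 2 * T.card := by
  have : ∀ i, ∑ x ∈ T, df i v x ^ 2 ≤ T.card * k ^ 2 := fun i => by
    rw [← nsmul_eq_mul]
    exact sum_le_card_nsmul _ _ _ fun x hx => by
      rw [← sq_abs]; exact pow_le_pow_left₀ (abs_nonneg _) (hk i x hx) 2
  rw [E0_eq hD hT, Fin.sum_univ_two]; linarith [this 0, this 1]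

/-- gradients bounded by `k` on the support -/
theorem E0_le (hD : Pot.Sup D v) (hk : ∀ e ∈ nn, ∀ x ∈ D, |dif e v x| ≤ k) :
    E0 D v ≤ 6 * k ^ 2 * D.card := by
  have hc : (((D ∪ D.image (· - ev 0)) ∪ D.image (· - ev 1)).card : ℝ) ≤ 3 * D.card := by
    have h1 := card_union_le (D ∪ D.image (· - ev 0)) (D.image (· - ev 1))
    have h2 := card_union_le D (D.image (· - ev 0))
    have h3 := card_image_le (s := D) (f := (· - ev 0))
    have h4 := card_image_le (s := D) (f := (· - ev 1))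
    exact_mod_cast (by omega : _ ≤ 3 * D.card)
  have e1 : ∀ i, ev i ∈ nn := fun i => by fin_cases i <;> decide
  have e2 : ∀ i, -ev i ∈ nn := fun i => by fin_cases i <;> decide
  refine (E0_le' (k := |k|) (T := (D ∪ D.image (· - ev 0)) ∪ D.image (· - ev 1)) hD (fun i x hx => ?_)
    fun i x _ => ?_).trans ?_
  · rcases ne_or hD hx with h | h
    · exact mem_union_left _ (mem_union_left _ h)
    · fin_cases i
      · exact mem_union_left _ (mem_union_right _ (mem_image.2 ⟨_, h, add_sub_cancel_right _ _⟩))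
      · exact mem_union_right _ (mem_image.2 ⟨_, h, add_sub_cancel_right _ _⟩)
  · by_cases h0 : df i v x = 0
    · rw [h0, abs_zero]; exact abs_nonneg _
    · rcases ne_or hD h0 with h | h
      · exact (hk _ (e1 i) x h).trans (le_abs_self _)
      · have := hk _ (e2 i) _ h
        rw [Pot.dif_neg, add_sub_cancel_right, abs_neg] at this
        exact this.trans (le_abs_self _)
  · rw [sq_abs]; nlinarith [sq_nonneg k]

theorem nn_sub (hΛ : Λ.Ok) (h : B ⊆ U) : nnL.edI B ⊆ Λ.edI U := fun e he => by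
  rw [Lat.mem_edI] at he ⊢
  refine ⟨?_, h he.2.1, h he.2.2⟩
  have := he.1
  rw [RJ57.nn_Jp, mem_insert, mem_singleton] at this
  rcases this with h | h <;> rw [h]
  exacts [hΛ.e1, hΛ.e2]

/-- the three bare bounds -/
structure Mo (W : Cfg Pt → ℝ) (τ : ℝ) (f : Pt → ℝ) (a : ℝ) : Prop where
  cen : Cen W
  vr : Vr W (pr f) (pr f) ≤ τ * a
  two : Ex W (fun s => pr f s ^ 2) ≤ τ * a
  four : Ex W (fun s => pr f s ^ 4) ≤ 24 * Real.exp τ * a ^ 2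
  mgf : ∀ t : ℝ, M W (t • pr f) ≤ τ * (t ^ 2 * a) * Real.cosh (|t| * Real.sqrt a) / 2

theorem mo_of (hΛ : Λ.Ok) (hc : m.Ctr) (ha : m.Anch) (hE : Λ.edI U ⊆ m.ed)
    (hw : ∀ e ∈ Λ.edI U, m.w e = Λ.w) (hf : F2A (Λ.edI U) m.A f a) : Mo (m.W 0) Λ.τ f a := by
  have h1 := hf.vr_le hΛ.pos hc ha hE hw
  refine ⟨hc.cen ha, h1, ?_, hf.four_le hΛ.pos hc ha hE hw, hf.M_smul_le hΛ.pos hc ha hE hw⟩
  rw [(hc.cen ha).Vr_eq] at h1
  simpa only [pow_two] using h1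

theorem up (hΛ : Λ.Ok) (h : B ⊆ U) (hf : F2 (nnL.edI B) f a) (A : Finset Pt) :
    F2A (Λ.edI U) A f a := (hf.f2a A).ed_mono (nn_sub hΛ h)

/-- in an ambient model -/
theorem mo_amb' (hΛ : Λ.Ok) (hm : Nc.Amb Λ m U) (hf : F2A (Λ.edI U) m.A f a) : Mo (m.W 0) Λ.τ f a :=
  have hE : Λ.edI U ⊆ m.ed := fun e he =>
    (hm.near.1 e (Or.inl (Lat.mem_edI.1 he).2.1)).2 (Lat.mem_edI.1 he).1
  mo_of hΛ hm.ctr hm.anch hE (fun e he => hm.near.2.1 e (hE he) (Or.inl (Lat.mem_edI.1 he).2.1)) hf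

theorem mo_amb (hΛ : Λ.Ok) (hm : Nc.Amb Λ m U) (hB : B ⊆ U) (hf : F2 (nnL.edI B) f a) :
    Mo (m.W 0) Λ.τ f a := mo_amb' hΛ hm (up hΛ hB hf _)

theorem vr_le_of_f2 (hΛ : Λ.Ok) (hm : Nc.Amb Λ m U) (hf : F2 (nnL.edI U) f a) :
    Vr (m.W 0) (pr f) (pr f) ≤ Λ.τ * a ∧ Pot.Sup U f ∧ ∑ x ∈ U, f x = 0 := by
  have hE : ∀ e ∈ nnL.edI U, e.1 ∈ U ∧ e.2 ∈ U := fun e he => (Lat.mem_edI.1 he).2
  refine ⟨(mo_amb hΛ hm subset_rfl hf).vr, hf.sup hE, ?_⟩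
  obtain ⟨φ, rfl, -⟩ := hf
  have := sum_mul_dv (A := U) (ed := nnL.edI U) (fun _ => (1 : ℝ))
    (fun e he => ⟨fun h => absurd (hE e he).1 h, fun h => absurd (hE e he).2 h⟩) φ
  simpa using this

/-- in the free box -/
theorem mo_box (hΛ : Λ.Ok) (hB : B ⊆ bl z c') (hf : F2 (nnL.edI B) f a) :
    Mo ((Λ.Nr (bl z c') z).W 0) Λ.τ f a :=
  mo_of hΛ (hΛ.ctr_Nr _ _) (hΛ.anch_Nr_bl (self_mem_bl _ _)) subset_rfl (fun _ _ => rfl) (up hΛ hB hf _)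

/-- in the free model on a connected set -/
theorem mo_rW (hΛ : Λ.Ok) (hU : Nc.Geo.CnL Λ U) (hn : U.Nonempty) (hB : B ⊆ U)
    (hf : F2 (nnL.edI B) f a) : Mo (Nc.rW (Λ.N U) U) Λ.τ f a := by
  obtain ⟨r, hr, e⟩ := Nc.rs_spec hn
  rw [Nc.rW, e]
  exact mo_of hΛ (Nc.pn_ctr (hΛ.ctr_N U).1 U _)
    (Nc.pn_anch ((Nc.Geo.inL_N subset_rfl).cn hU) hr (mem_singleton_self r))
    (by rw [Nc.pn_ed]; exact (Lat.inn_edI subset_rfl).ge) (fun _ _ => rfl) (up hΛ hB hf _)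

/-- in the free annulus -/
theorem mo_an (hΛ : Λ.Ok) (hc : c < c') (hB : B ⊆ Nc.an z c c') (hf : F2 (nnL.edI B) f a) :
    Mo (Nc.rW (Λ.N (Nc.an z c c')) (Nc.an z c c')) Λ.τ f a :=
  mo_rW hΛ (Nc.Geo.cnL_an hΛ z hc) (Nc.Geo.an_nonempty z hc) hB hf

theorem Mo.fin {W : Cfg Pt → ℝ} {τ τ₂ : ℝ} (h : Mo W τ f a) (ha : 0 ≤ a) (hτ : τ ≤ τ₂) :
    Ex W (fun s => pr f s ^ 2) ≤ 24 * Real.exp τ₂ * a ∧
      Ex W (fun s => pr f s ^ 4) ≤ 24 * Real.exp τ₂ * a ^ 2 := by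
  have h1 := Real.exp_le_exp.2 hτ
  have h2 := Real.add_one_le_exp τ₂
  have h3 := Real.exp_pos τ₂
  exact ⟨h.two.trans (mul_le_mul_of_nonneg_right (by linarith) ha),
    h.four.trans (mul_le_mul_of_nonneg_right (by linarith) (sq_nonneg a))⟩

end B80

open B80 in
theorem bareStmt : BareStmt := fun F => ⟨24 * Real.exp F.τ₂, by positivity, fun Λ hΛ z n v hv => by
  have hO : Λ.Ok := ⟨hΛ.1 ▸ F.adm, F.pos.trans_le hΛ.2.2.1⟩
  have h0 := E0_nonneg hv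
  refine ⟨h0, fun m hm => (mo_amb hO hm subset_rfl (B80.f2_A0 hv)).fin h0 hΛ.2.2.2, fun c' hc' => ?_⟩
  have h1 := (mo_box hO (bl_mono z hc') (B80.f2_A0 hv)).fin h0 hΛ.2.2.2
  exact ⟨h1.1, h1.2, fun c hc hcc =>
    (mo_an hO hcc subset_rfl (f2_gb hv (gb_an hv hc' hc))).fin h0 hΛ.2.2.2⟩⟩

end Crest.Agent.T145.Fl
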