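import Crest.Agent.T145.Def_97

/-!
# Row 145: second layer (design independent): densities, exploration with a floating level, two-replica
swap, Harnack lemma (helper97)
-/

set_option autoImplicit false

namespace Crest.Agent.T145

open Finset

section
variable {V : Type*} [DecidableEq V]

/-- `F` depends only on the heights on `S` -/
def Dep {β : Type*} (S : Finset V) (F : Cfg V → β) : Prop :=
  ∀ s s', (∀ x ∈ S, s x = s' x) → F s = F s'

/-- `F` depends only on the gradients inside `S` -/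
def DepG {β : Type*} (S : Finset V) (F : Cfg V → β) : Prop :=
  ∀ s s' (h : ℤ), (∀ x ∈ S, s' x = s x + h) → F s = F s'

/-- conditional expectation given the heights off `B` -/
noncomputable def Mdl.cE (m : Mdl V) (B : Finset V) (F : Cfg V → ℝ) : Cfg V → ℝ :=
  fun s => Ex ((m.free B).W s) F

/-- closed weight of a bond for two replicas (invariant under swapping the replicas at either end) -/
noncomputable def Mdl.c2 (m : Mdl V) (s s' : Cfg V) (e : V × V) : ℝ :=
  min (m.w e (s e.2 - s e.1) * m.w e (s' e.2 - s' e.1))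
    (m.w e (s e.2 - s' e.1) * m.w e (s' e.2 - s e.1))

/-- weight of the bond `e` (open iff `o`) for two replicas -/
noncomputable def Mdl.bw2 (m : Mdl V) (s s' : Cfg V) (e : V × V) (o : Prop) [Decidable o] : ℝ :=
  if o then m.w e (s e.2 - s e.1) * m.w e (s' e.2 - s' e.1) - m.c2 s s' e else m.c2 s s' e

/-- joint weight of two replicas and the swap bonds, no boundary condition -/
noncomputable def Mdl.J2c (m : Mdl V) (p : (Cfg V × Cfg V) × Finset (V × V)) : ℝ :=
  ind (p.2 ⊆ m.ed) * (∏ e ∈ m.ed, m.bw2 p.1.1 p.1.2 e (e ∈ p.2)) *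
    ∏ x ∈ m.A, m.site x (p.1.1 x) * m.site x (p.1.2 x)

/-- joint weight of two independent replicas (boundary conditions `η`, `η'`) and the swap bonds -/
noncomputable def Mdl.J2 (m : Mdl V) (η η' : Cfg V) (p : (Cfg V × Cfg V) × Finset (V × V)) : ℝ :=
  ind (∀ x, x ∉ m.A → p.1.1 x = η x) * ind (∀ x, x ∉ m.A → p.1.2 x = η' x) * m.J2c p

/-- `S` is joined to `I` by the bonds `ω` -/
def Cross (S I : Finset V) (ω : Finset (V × V)) : Prop := ∃ x ∈ S, ∃ y ∈ I, Conn ω x y

end

/-- (D1), group form: a PD density is largest on the flat datum -/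
def DensStmt : Prop := ∀ (L Q : Type) [AddCommGroup L] [AddCommGroup Q] [IsAddTorsionFree L]
  (ρ G : L → ℝ) (π : L →+ Q), Cen ρ → PD G → (∀ s, 0 ≤ G s) → 0 < G 0 →
    (∀ q, Pr (fun s => ρ s * G s) (fun s => π s = q) * Pr ρ (fun s => π s = 0) ≤
      Pr (fun s => ρ s * G s) (fun s => π s = 0) * Pr ρ (fun s => π s = q)) ∧
    ∀ F : Q → ℝ, (∀ q, 0 ≤ F q) → Ig ρ (fun s => F (π s)) →
      Ex (fun s => ρ s * G s) (fun s => F (π s)) * Pr ρ (fun s => π s = 0) ≤
        Pr (fun s => ρ s * G s) (fun s => π s = 0) * Ex ρ fun s => F (π s)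



/-- a free box against the Dirichlet box inside its collar `S`: for PD `G ≥ 0` read on `B`,
`E^N G ≥ P^N (S not joined to B) * E^D G` -/
def NDStmt : Prop := ∀ (V : Type) [DecidableEq V] [Countable V] (m : Mdl V) (S B : Finset V)
  (U G : Cfg V → ℝ), m.Ctr → (m.free (m.A \ S)).Anch → Dep S U → (∀ s, 0 ≤ U s) →
    Wt (fun s => U s * m.W 0 s) → PD G → (∀ s, 0 ≤ G s) → Dep B G →
    Pr (fun p => U p.1 * m.J 0 0 p) (fun p => ¬ Cross S B p.2) * Ex ((m.free (m.A \ S)).W 0) G ≤
      Ex (fun s => U s * m.W 0 s) G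



end Crest.Agent.T145
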