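import Crest.Agent.T145.Geo_97
import Crest.Agent.T145.Def2_97
import Crest.Agent.T145.FsDef_70

/-!
# Row 145, module (b): soft Gaussian free field windows T1–T5 (helper8)

Text with proofs: `docs/T145_b8.md`.  Every `…Stmt : Prop` below is a task.
`X_u = pr (Λ.Au D u)`, `e₀ = Λ.a / Λ.τ`, `θ_l = Λ.tN l`, `g_l = Λ.gN l` (critical value `2 / π`).
-/

set_option autoImplicit false

namespace Crest.Agent.T145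

open Finset MeasureTheory Crest.ProbabilityR.HeightModel

/-! ## Flows -/
section flows
variable {V : Type*}

/-- divergence: `pr (dv ed φ) s = ∑ e ∈ ed, φ e * dE e s` -/
noncomputable def dv (ed : Finset (V × V)) (φ : V × V → ℝ) (x : V) : ℝ :=
  ∑ e ∈ ed, φ e * (ind (e.2 = x) - ind (e.1 = x))

/-- `f` has a flow on `ed` with `∑ φ² ≤ n` -/
def F2 (ed : Finset (V × V)) (f : V → ℝ) (n : ℝ) : Prop :=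
  ∃ φ, f = dv ed φ ∧ ∑ e ∈ ed, φ e ^ 2 ≤ n

/-- `f` has a flow on `ed` with `|φ| ≤ c` -/
def Fs (ed : Finset (V × V)) (f : V → ℝ) (c : ℝ) : Prop :=
  ∃ φ, f = dv ed φ ∧ ∀ e ∈ ed, |φ e| ≤ c

/-- as `F2`, the equation being asked only on the free sites `A` -/
def F2A (ed : Finset (V × V)) (A : Finset V) (f : V → ℝ) (n : ℝ) : Prop :=
  ∃ φ, (∀ x ∈ A, f x = dv ed φ x) ∧ ∑ e ∈ ed, φ e ^ 2 ≤ n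

/-- variance of `(f, s)` for the real Gaussian field on the graph of `m`, edge length `τ` (Thomson) -/
noncomputable def Mdl.gr (m : Mdl V) (τ : ℝ) (f : V → ℝ) : ℝ := τ * sInf {n | F2A m.ed m.A f n}

/-- scalar product on `B` -/
noncomputable def ip (B : Finset V) (f g : V → ℝ) : ℝ := ∑ x ∈ B, f x * g x

/-- `f` vanishes off `B` -/
def Sup (B : Finset V) (f : V → ℝ) : Prop := ∀ x, x ∉ B → f x = 0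

end flows

/-! ## Geometry, smooth test functions -/

/-- the rectangle `a + [0, n₁) × [0, n₂)`; `sq a n = rc a n n` by `rfl` -/
noncomputable def rc (a : Pt) (n₁ n₂ : ℕ) : Finset Pt :=
  Finset.Ico a.1 (a.1 + n₁) ×ˢ Finset.Ico a.2 (a.2 + n₂)

/-- uniform density on the column `{c} × [0, n)` -/
noncomputable def col (n : ℕ) (c : ℤ) (x : Pt) : ℝ := ind (x.1 = c ∧ 0 ≤ x.2 ∧ x.2 < n) / n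

/-- uniform density on the row `[0, n) × {c}` -/
noncomputable def row (n : ℕ) (c : ℤ) (x : Pt) : ℝ := ind (x.2 = c ∧ 0 ≤ x.1 ∧ x.1 < n) / n

/-- the sides E, W, N, S of `sq 0 L` -/
noncomputable def sd (L : ℕ) : Fin 4 → Pt → ℝ := ![col L (L - 1), col L 0, row L (L - 1), row L 0]

/-- the charges `f d` spread on the four sides -/
noncomputable def side (L : ℕ) (f : Fin 4 → ℝ) (x : Pt) : ℝ := ∑ d, f d * sd L d x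

/-- unit vectors -/
def ev : Fin 2 → Pt := ![(1, 0), (0, 1)]

/-- coordinates -/
def co (i : Fin 2) (x : Pt) : ℝ := ![(x.1 : ℝ), (x.2 : ℝ)] i

/-- finite difference -/
def df (i : Fin 2) (u : Pt → ℝ) (x : Pt) : ℝ := u (x + ev i) - u x

/-- discrete `C²` bound at scale `L`, on all of `ℤ²` -/
def Sm2 (u : Pt → ℝ) (K L : ℝ) : Prop :=
  (∀ i x, |df i u x| ≤ K / L) ∧ ∀ i j x, |df j (df i u) x| ≤ K / L ^ 2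

/-- the domain `D` has size `L` and a thin `l`-boundary -/
def Reg (D : Finset Pt) (K : ℝ) (l L : ℕ) : Prop :=
  (D.card : ℝ) ≤ K * L ^ 2 ∧ ((D.filter fun x => ¬ bl x l ⊆ D).card : ℝ) ≤ K * l * L

/-- average over the block of side `r` -/
noncomputable def Plo (r : ℕ) (f : Pt → ℝ) (x : Pt) : ℝ :=
  (∑ y ∈ sq (r * (x.1 / r), r * (x.2 / r)) r, f y) / (r : ℝ) ^ 2

/-- nearest neighbours, unit length -/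
def nnL : Lat := ⟨nn, false, 1⟩

/-- separation of scales -/
def Sep (δ : ℝ) (l L : ℕ) : Prop := 1 ≤ δ * l ∧ (l : ℝ) ≤ δ * L

namespace Lat
variable (Λ : Lat)

/-- `A u` on the edges inside `D` -/
noncomputable def Au (D : Finset Pt) (u : Pt → ℝ) : Pt → ℝ :=
  dv (Λ.edI D) fun e => (u e.2 - u e.1) / Λ.τ

/-- Dirichlet form on the edges inside `D` -/
noncomputable def En (D : Finset Pt) (u v : Pt → ℝ) : ℝ :=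
  ∑ e ∈ Λ.edI D, (u e.2 - u e.1) * (v e.2 - v e.1) / Λ.τ

/-- `e₀` -/
noncomputable def e0 : ℝ := Λ.a / Λ.τ

/-- free rectangle, rooted at the corner -/
noncomputable def WR (n₁ n₂ : ℕ) : Cfg Pt → ℝ := (Λ.Nr (rc 0 n₁ n₂) 0).W 0

/-- free square, rooted at the corner -/
noncomputable def WN (L : ℕ) : Cfg Pt → ℝ := (Λ.Nr (sq 0 L) 0).W 0

/-- `X_u` in the square `sq 0 L` -/
noncomputable def X (L : ℕ) (u : Pt → ℝ) : Cfg Pt →+ ℝ := pr (Λ.Au (sq 0 L) u)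

/-- `θ_l` -/
noncomputable def tN (l : ℕ) : ℝ :=
  Vr (Λ.WN l) (Λ.X l (co 0)) (Λ.X l (co 0)) / (Λ.e0 * (l : ℝ) ^ 2)

/-- variance of the tilt of a free rectangle; `VR l l = tN l * (e0 * l ^ 2)` -/
noncomputable def VR (n₁ n₂ : ℕ) : ℝ :=
  Vr (Λ.WR n₁ n₂) (pr (Λ.Au (rc 0 n₁ n₂) (co 0))) (pr (Λ.Au (rc 0 n₁ n₂) (co 0)))

/-- `g_l` -/
noncomputable def gN (l : ℕ) : ℝ := Λ.tN l / Λ.e0

/-- `θ_∞` -/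
noncomputable def tI : ℝ := Filter.liminf Λ.tN Filter.atTop

/-- `g_∞` -/
noncomputable def gI : ℝ := Λ.tI / Λ.e0

/-- `a_q (L)` -/
noncomputable def aq (L : ℕ) (q : ℤ) : ℝ := Ph (Λ.WN L) ((2 * Real.pi * q) • pr (sd L 0))

/-- `Y_l` -/
noncomputable def Y (l : ℕ) : ℝ := Ph (Λ.WN l) (pr (side l fun _ => Real.pi / 2))

/-- `m` is a centred model that contains the edges inside `D` -/
def Amb (m : Mdl Pt) (D : Finset Pt) : Prop :=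
  m.Ctr ∧ m.Anch ∧ Λ.edI D ⊆ m.ed ∧ ∀ e ∈ Λ.edI D, m.w e = Λ.w

/-- a window: the stiffness is at least `θ₀` and hardly drops between `l` and `2 L`; `L` dyadic -/
def Win (θ₀ δ : ℝ) (l L : ℕ) : Prop :=
  (∃ j, L = 2 ^ j) ∧ Sep δ l L ∧ θ₀ ≤ Λ.tN (2 * L) ∧ Λ.tN l - Λ.tN (2 * L) ≤ δ

/-- `η` has charge `2 π q` and is spread at scale `L` -/
def Chg (L : ℕ) (K : ℝ) (q : ℤ) (η : Pt → ℝ) : Prop :=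
  Fs (Λ.edI (sq 0 L)) (fun x => η x - 2 * Real.pi * q * sd L 0 x) (K / L)

/-- the Stein identity of the free field, for `X_u` in the free square -/
def Stein (L : ℕ) (θ : ℝ) (u : Pt → ℝ) (K ε : ℝ) : Prop :=
  ∀ (q : ℤ) (η : Pt → ℝ), |(q : ℝ)| ≤ K → Λ.Chg L K q η →
    |Ex (Λ.WN L) (fun s => Λ.X L u s * Real.sin (pr η s)) -
      θ * ip (sq 0 L) η u * Ph (Λ.WN L) (pr η)| ≤ ε

/-- the finite-size criterion for localisation -/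
def Lok (L : ℕ) (q : ℤ) (δ : ℝ) : Prop :=
  1 - δ ≤ Λ.aq L q ∧ ∀ d, Vr (Λ.WN L) (pr (sd L 0 - sd L d)) (pr (sd L 0 - sd L d)) ≤ δ

end Lat

/-- `f` is Gaussian of variance `v` under `W`, up to `ε` -/
def Gs3 {L : Type*} [AddCommGroup L] (W : L → ℝ) (f : L →+ ℝ) (v ε : ℝ) : Prop :=
  |Vr W f f - v| ≤ ε ∧ |M W f - v / 2| ≤ ε ∧ |Ph W f - Real.exp (-v / 2)| ≤ ε

/-- a family: fixed steps and kernel type, `τ ∈ [τ₁, τ₂]` -/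
structure Fa where
  J : Finset Pt
  xy : Bool
  τ₁ : ℝ
  τ₂ : ℝ
  adm : IsAdmissible J
  pos : 0 < τ₁

def Fa.Mem (F : Fa) (Λ : Lat) : Prop := Λ.J = F.J ∧ Λ.xy = F.xy ∧ F.τ₁ ≤ Λ.τ ∧ Λ.τ ≤ F.τ₂

/-- `P Λ K ε δ l L` holds in every good enough window, uniformly in the family -/
def Soft (P : Lat → ℝ → ℝ → ℝ → ℕ → ℕ → Prop) : Prop :=
  ∀ (F : Fa) (θ₀ K ε : ℝ), 0 < θ₀ → 1 ≤ K → 0 < ε → ∃ δ : ℝ, 0 < δ ∧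
    ∀ Λ, F.Mem Λ → ∀ l L, Λ.Win θ₀ δ l L → P Λ K ε δ l L

/-! ## Routing, bare bounds, analysis -/

/-- R1 -/
def R1Stmt : Prop := ∀ (Λ : Lat) (a : Pt) (n₁ n₂ : ℕ) (f : Pt → ℝ), Λ.Ok → Sup (rc a n₁ n₂) f →
  ∑ x ∈ rc a n₁ n₂, f x = 0 →
    F2 (Λ.edI (rc a n₁ n₂)) f (((n₁ : ℝ) ^ 2 + (n₂ : ℝ) ^ 2) * ∑ x ∈ rc a n₁ n₂, f x ^ 2) ∧
    (∀ c : ℝ, (∀ t : ℤ, ∑ x ∈ (rc a n₁ n₂).filter (fun x => x.2 = t), |f x| ≤ c) →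
      Fs (Λ.edI (rc a n₁ n₂)) f (c * (2 + (n₂ : ℝ) / n₁))) ∧
    ∀ c : ℝ, (∀ t : ℤ, ∑ x ∈ (rc a n₁ n₂).filter (fun x => x.1 = t), |f x| ≤ c) →
      Fs (Λ.edI (rc a n₁ n₂)) f (c * (2 + (n₁ : ℝ) / n₂))

/-- R1c: bounded densities and side charges of total charge `2 π q` are in the class `Chg` -/
def R1cStmt : Prop := ∀ (Λ : Lat) (L : ℕ) (K : ℝ) (q : ℤ) (g : Pt → ℝ) (f : Fin 4 → ℝ), Λ.Ok → 1 ≤ L →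
  Sup (sq 0 L) g → (∀ x, |g x| ≤ K / (L : ℝ) ^ 2) → (∀ d, |f d| ≤ K) →
    ∑ x ∈ sq 0 L, g x + ∑ d, f d = 2 * Real.pi * q → Λ.Chg L (100 * K) q (g + side L f)

/-- RJ: a slowly varying flow on the `J`-edges of a rectangle is rerouted along nearest-neighbour edges;
RNN: `A u = e₀ A^{nn} u` and `E = e₀ E^{nn}` up to small errors for smooth functions -/
def RJStmt : Prop := ∀ F : Fa, ∃ C : ℝ, ∀ Λ, F.Mem Λ → ∀ (a : Pt) (n₁ n₂ : ℕ),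
  (∀ (Φ : Pt → Pt → ℝ) (c c' : ℝ), (∀ y x, |Φ y x| ≤ c) → (∀ y i x, |df i (Φ y) x| ≤ c') →
    F2 (Λ.edI (rc a n₁ n₂))
      (dv (Λ.edI (rc a n₁ n₂)) (fun e => Φ (e.2 - e.1) e.1) -
        dv (nnL.edI (rc a n₁ n₂)) fun e =>
          ∑ y ∈ Λ.Jp, (∑ i, co i y * co i (e.2 - e.1)) * Φ y e.1)
      (C * ((n₁ : ℝ) * n₂ * c' ^ 2 + ((n₁ : ℝ) + n₂) * c ^ 2))) ∧
  ∀ (u v : Pt → ℝ) (K L : ℝ), 1 ≤ L → Sm2 u K L → Sm2 v K L →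
    F2 (Λ.edI (rc a n₁ n₂)) (Λ.Au (rc a n₁ n₂) u - Λ.e0 • nnL.Au (rc a n₁ n₂) u)
      (C * K ^ 2 * ((n₁ : ℝ) * n₂ / L ^ 4 + ((n₁ : ℝ) + n₂) / L ^ 2)) ∧
    |Λ.En (rc a n₁ n₂) u v - Λ.e0 * nnL.En (rc a n₁ n₂) u v| ≤
      C * K ^ 2 * ((n₁ : ℝ) * n₂ / L ^ 3 + ((n₁ : ℝ) + n₂) / L ^ 2) ∧
    |Λ.En (rc a n₁ n₂) u v| ≤ C * K ^ 2 * ((n₁ : ℝ) * n₂ / L ^ 2) ∧
    ∀ x, bl x Λ.rg ⊆ rc a n₁ n₂ → |Λ.Au (rc a n₁ n₂) u x| ≤ C * K / L ^ 2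

/-- R2: the tilt is the difference of two opposite sides -/
def R2Stmt : Prop := ∀ F : Fa, ∃ C : ℝ, ∀ Λ, F.Mem Λ → ∀ l : ℕ, 1 ≤ l →
  F2 (Λ.edI (sq 0 l)) (Λ.Au (sq 0 l) (co 0) - (Λ.e0 * l) • (sd l 0 - sd l 1)) (C * l) ∧
  F2 (Λ.edI (sq 0 l)) (Λ.Au (sq 0 l) (co 1) - (Λ.e0 * l) • (sd l 2 - sd l 3)) (C * l) ∧
  ∀ y ∈ Λ.Jp, F2 (Λ.edI (sq 0 l))
    (dv (Λ.edI (sq 0 l)) (fun e => ind (e.2 - e.1 = y)) -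
      ∑ i, (co i y / Λ.e0) • Λ.Au (sq 0 l) (co i)) (C * l)

/-- R3: smearing the boundary layer of `A u` -/
def R3Stmt : Prop := ∀ (F : Fa) (K ε : ℝ), 0 < ε → ∃ (K' : ℝ) (L₀ : ℕ), ∀ Λ, F.Mem Λ → ∀ L, L₀ ≤ L →
  ∀ u, Sm2 u K L → ∃ f : Pt → ℝ, (∀ x, |f x| ≤ K' / (L : ℝ) ^ 2) ∧
    F2 (Λ.edI (sq 0 L)) (Λ.Au (sq 0 L) u - f) ε

/-- APX: bounded densities are almost `A u` with `u` smooth (cosine / sine series) -/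
def ApxStmt : Prop := ∀ (F : Fa) (K ε : ℝ), 0 < ε → ∃ (K' L₀ : ℕ), 1 ≤ K' ∧ ∀ Λ, F.Mem Λ →
  ∀ L, L₀ ≤ L → ∀ f : Pt → ℝ, Sup (sq 0 L) f → (∀ x, |f x| ≤ K / (L : ℝ) ^ 2) →
    (∑ x ∈ sq 0 L, f x = 0 → ∃ u, Sm2 u K' L ∧ (∀ x, |u x| ≤ K') ∧
      F2 (Λ.edI (sq 0 L)) (f - Λ.Au (sq 0 L) u) ε) ∧
    ∃ u, Sm2 u K' L ∧ (∀ x, |u x| ≤ K') ∧ (∀ x, u x ≠ 0 → bl x (L / K') ⊆ sq 0 L) ∧
      F2A (Λ.edT (sq 0 L)) (sq 0 L) (f - Λ.Au (sq 0 L) u) ε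

/-- BR: flow API, bare bounds in an ambient model, the standard ambient models, Thomson's principle -/
def BrStmt : Prop :=
  (∀ (ed : Finset (Pt × Pt)) (φ : Pt × Pt → ℝ) (s : Cfg Pt),
    pr (dv ed φ) s = ∑ e ∈ ed, φ e * (dE e s : ℝ)) ∧
  (∀ (Λ : Lat) (m : Mdl Pt) (f : Pt → ℝ) (n : ℝ), Λ.Ok → m.Ctr → m.Anch → ∀ ed ⊆ m.ed,
    (∀ e ∈ ed, m.w e = Λ.w) → F2A ed m.A f n →
      Vr (m.W 0) (pr f) (pr f) ≤ Λ.τ * n ∧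
      M (m.W 0) (pr f) ≤ Λ.τ * n * Real.cosh (Real.sqrt n) / 2 ∧
      Ex (m.W 0) (fun s => pr f s ^ 4) ≤ 24 * Real.exp Λ.τ * n ^ 2) ∧
  (∀ (Λ : Lat) (a r : Pt) (n₁ n₂ : ℕ), Λ.Ok → r ∈ rc a n₁ n₂ →
    Λ.Amb (Λ.Nr (rc a n₁ n₂) r) (rc a n₁ n₂)) ∧
  (∀ (Λ : Lat) (D : Finset Pt), Λ.Ok → Λ.Amb (Λ.D D) D) ∧
  (∀ (Λ : Lat) (n : ℕ), Λ.Ok → Λ.Amb (Λ.T n) (sq 0 n)) ∧
  (∀ (a : Pt) (n₁ n₂ l L : ℕ) (K : ℝ), 1 ≤ K → (n₁ : ℝ) ≤ K * L → (n₂ : ℝ) ≤ K * L →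
    Reg (rc a n₁ n₂) (4 * K ^ 2) l L) ∧
  ∀ (m : Mdl Pt) (τ : ℝ) (u f : Pt → ℝ) (n : ℝ), 0 < τ →
    (∀ e ∈ m.ed, (e.1 ∉ m.A → u e.1 = 0) ∧ (e.2 ∉ m.A → u e.2 = 0)) →
    F2A m.ed m.A (f - dv m.ed fun e => (u e.2 - u e.1) / τ) n →
      |Real.sqrt (m.gr τ f) - Real.sqrt (∑ e ∈ m.ed, (u e.2 - u e.1) ^ 2 / τ)| ≤ Real.sqrt (τ * n) ∧
        0 ≤ m.gr τ f

/-- SM: smooth functions from calculus; products; bumps and partitions of unity -/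
def SmStmt : Prop :=
  (∀ (g : ℝ → ℝ) (K L c : ℝ) (k : Fin 2 → ℝ), 0 < L → Differentiable ℝ g → (∀ t, |deriv g t| ≤ K) →
    (∀ t t', |deriv g t - deriv g t'| ≤ K * |t - t'|) → (∀ i, |k i| ≤ 1) →
      Sm2 (fun x => g ((∑ i, k i * co i x) / L + c)) K L) ∧
  (∀ (u v : Pt → ℝ) (K K' L : ℝ), 0 < L → Sm2 u K L → Sm2 v K' L → (∀ x, |v x| ≤ K') →
    (∀ x y, v x ≠ 0 → y ∈ bl x 2 → |u y| ≤ K) → Sm2 (u * v) (4 * K * K') L) ∧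
  (∀ (u : Pt → ℝ) (K L : ℝ) (x y : Pt), Sm2 u K L →
    |u y - u x| ≤ K / L * ∑ i, |co i (y - x)| ∧
      |u y - u x - ∑ i, df i u x * co i (y - x)| ≤ K / L ^ 2 * (∑ i, |co i (y - x)|) ^ 2) ∧
  (∃ χ : ℝ → ℝ, Differentiable ℝ χ ∧ (∀ t, |deriv χ t| ≤ 10) ∧
    (∀ t t', |deriv χ t - deriv χ t'| ≤ 10 * |t - t'|) ∧ (∀ t, 0 ≤ χ t ∧ χ t ≤ 1) ∧
    (∀ t, t ≤ 0 → χ t = 0) ∧ (∀ t, 1 ≤ t → χ t = 1) ∧ Monotone χ) ∧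
  ∃ C : ℝ, ∀ r : ℕ, 1 ≤ r → ∃ χ : Pt → ℝ, Sm2 χ C r ∧ (∀ x, 0 ≤ χ x ∧ χ x ≤ 1) ∧
    (∀ x, χ x ≠ 0 → x ∈ bl 0 r) ∧
    ∀ (x : Pt) (I : Finset Pt), (∀ i : Pt, x - (r : ℤ) • i ∈ bl 0 r → i ∈ I) →
      ∑ i ∈ I, χ (x - (r : ℤ) • i) = 1


/-- abstract FAC: a small Gaussian defect gives Gaussianity and the Stein identity; charged functionals -/
def AFacStmt : Prop :=
  (∀ K ε : ℝ, 0 < ε → ∃ R ε₁ : ℝ, 0 < R ∧ 0 < ε₁ ∧ ∀ (L : Type) [AddCommGroup L] [IsAddTorsionFree L]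
    (ρ : L → ℝ) (X η : L →+ ℝ) (v c n : ℝ), Cen ρ → |v| ≤ K → |c| ≤ K → |n| ≤ K →
    (∀ t z : ℝ, |t| ≤ R → |z| ≤ R →
      M ρ (t • X + z • η) ≤ (v * t ^ 2 + 2 * c * t * z + n * z ^ 2) / 2 + ε₁) →
    v - ε₁ ≤ Vr ρ X X →
      Gs3 ρ X v ε ∧ |Vr ρ X η - c| ≤ ε ∧
        |Ex ρ (fun s => X s * Real.sin (η s)) - c * Ph ρ η| ≤ ε) ∧
  (∀ (L : Type) [AddCommGroup L] [IsAddTorsionFree L] (ρ : L → ℝ) (X η ν : L →+ ℝ), Cen ρ →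
    Ph ρ (η + ν) ^ 2 ≤ Real.exp (Vr ρ ν ν) * Ph ρ η ∧
    Ex ρ (fun s => X s * Real.sin (η s)) ^ 2 ≤ 2 * Vr ρ X X * Ph ρ η ∧
    |Ph ρ (η + ν) - Ph ρ η| ≤ Real.sqrt (Vr ρ ν ν)) ∧
  ∀ K ε : ℝ, 0 < ε → ∃ R ε₁ : ℝ, 0 < R ∧ 0 < ε₁ ∧ ∀ (L : Type) [AddCommGroup L] [IsAddTorsionFree L]
    (ρ : L → ℝ) (X ν : L →+ ℝ) (v : ℝ), Cen ρ → |v| ≤ K →
    (∀ t : ℝ, |t| ≤ R → M ρ (t • X) ≤ v * t ^ 2 / 2 + ε₁) → v - ε₁ ≤ Vr ρ X X →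
    (∀ t : ℝ, |t| ≤ R → M ρ (t • ν) ≤ ε₁) → Gs3 ρ (X + ν) v ε

/-! ## T1 -/

/-- T1a: one box -/
def T1aStmt : Prop := ∀ F : Fa, ∃ C : ℝ, ∀ Λ, F.Mem Λ → ∀ l : ℕ, 1 ≤ l →
  0 ≤ Λ.tN l ∧ Λ.tN l ≤ 1 ∧ Vr (Λ.WN l) (Λ.X l (co 0)) (Λ.X l (co 1)) = 0 ∧
  Vr (Λ.WN l) (Λ.X l (co 1)) (Λ.X l (co 1)) = Vr (Λ.WN l) (Λ.X l (co 0)) (Λ.X l (co 0)) ∧
  ∀ y ∈ Λ.Jp, ∀ i, |Vr (Λ.WN l) (Λ.X l (co i))
      (pr (dv (Λ.edI (sq 0 l)) fun e => ind (e.2 - e.1 = y))) - co i y * Λ.tN l * (l : ℝ) ^ 2| ≤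
    C * (l * Real.sqrt l)

/-- T1x: the upper bound with the cross term, in every centred ambient model -/
def T1xStmt : Prop := ∀ (F : Fa) (K ε : ℝ), 0 < ε → ∃ δ : ℝ, 0 < δ ∧ ∀ Λ, F.Mem Λ →
  ∀ l L, Sep δ l L → ∀ (m : Mdl Pt) (D : Finset Pt) (u : Pt → ℝ) (φ : Pt × Pt → ℝ),
    Λ.Amb m D → Reg D K l L → Sm2 u K L → (∀ e ∈ Λ.edI D, |φ e| ≤ K / L) →
      M (m.W 0) (pr (Λ.Au D u) + pr (dv (Λ.edI D) φ)) ≤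
        (Λ.tN l * Λ.En D u u + 2 * Λ.tN l * ∑ e ∈ Λ.edI D, φ e * (u e.2 - u e.1) +
          Λ.τ * ∑ e ∈ Λ.edI D, φ e ^ 2) / 2 + ε

/-- T1d: exact tilings; continuity and monotonicity in `τ` at a fixed scale -/
def T1dStmt : Prop :=
  (∀ F : Fa, ∃ C : ℝ, ∀ Λ, F.Mem Λ → ∀ l₁ l₂ n₁ n₂ : ℕ, 1 ≤ l₁ → 1 ≤ l₂ → 1 ≤ n₁ → 1 ≤ n₂ →
    Real.sqrt (Λ.VR (n₁ * l₁) (n₂ * l₂)) ≤
      Real.sqrt (n₁ * n₂ * Λ.VR l₁ l₂) + C * Real.sqrt (n₁ * n₂ * (l₁ + l₂))) ∧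
  (∀ (F : Fa) (ε : ℝ), 0 < ε → ∃ l₀ : ℕ, ∀ Λ, F.Mem Λ → ∀ l n : ℕ, l₀ ≤ l → 1 ≤ n →
    Λ.tN (n * l) ≤ Λ.tN l + ε) ∧
  ∀ (Λ : Lat) (l : ℕ), Λ.Ok → ContinuousOn (fun τ => (Λ.at' τ).gN l) (Set.Ioi 0) ∧
    ContinuousOn (fun τ => (Λ.at' τ).tN l) (Set.Ioi 0) ∧
    MonotoneOn (fun τ => (Λ.at' τ).gN l) (Set.Ioi 0)

/-- T1m: the limit stiffness; windows -/
def T1mStmt : Prop :=
  (∀ Λ : Lat, Λ.Ok → Filter.Tendsto Λ.tN Filter.atTop (nhds Λ.tI) ∧ 0 ≤ Λ.gI ∧ Λ.gI ≤ Λ.τ / Λ.a ∧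
    MonotoneOn (fun τ => (Λ.at' τ).gI) (Set.Ioi 0) ∧
    UpperSemicontinuousOn (fun τ => (Λ.at' τ).gI) (Set.Ioi 0) ∧
    (0 < Λ.tI → ∀ δ : ℝ, 0 < δ → ∀ᶠ l in Filter.atTop, ∀ᶠ j in Filter.atTop,
      Λ.Win (Λ.tI / 2) δ l (2 ^ j))) ∧
  (∀ (F : Fa) (ε : ℝ), 0 < ε → ∃ δ : ℝ, 0 < δ ∧ ∀ Λ, F.Mem Λ →
    (∀ l L, Sep δ l L → Λ.tN L ≤ Λ.tN l + ε) ∧ ∀ l : ℕ, 1 ≤ δ * l → Λ.tI ≤ Λ.tN l + ε) ∧
  ∀ (F : Fa) (θ₀ δ' : ℝ) (k : ℕ), 0 < θ₀ → 0 < δ' → ∃ δ : ℝ, 0 < δ ∧ ∀ Λ, F.Mem Λ → ∀ l L,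
    Λ.Win θ₀ δ l L → |Λ.tN l - Λ.tN L| ≤ δ' ∧ θ₀ / 2 ≤ Λ.tN l ∧
      ∀ j : ℕ, 2 ^ j ≤ L → (L ≤ 2 ^ (j + k) ∨ Sep δ' l (2 ^ j)) → Λ.Win (θ₀ / 2) δ' l (2 ^ j)

/-! ## Springs -/

/-- Gaussian spring seen through the mean of `n` independent edges -/
noncomputable def spr (w : ℤ → ℝ) (n : ℕ) (κ t : ℝ) : ℝ :=
  Ex (fun k : Fin n → ℤ => ∏ j, w (k j)) fun k =>
    Real.exp (-κ * (t - (∑ j, (k j : ℝ)) / n) ^ 2 / 2)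

/-- characteristic function of that mean -/
noncomputable def chi (w : ℤ → ℝ) (n : ℕ) (ζ : ℝ) : ℝ := (Ex w fun k => Real.cos (ζ / n * k)) ^ n

/-- SPR: Fourier and Poisson formulas -/
def SprStmt : Prop := ∀ (xy : Bool) (τ κ : ℝ) (n : ℕ), 0 < τ → 0 < κ → 1 ≤ n →
  (∀ ζ, Real.exp (-τ * ζ ^ 2 / (2 * n)) ≤ chi (kern xy τ) n ζ ∧ chi (kern xy τ) n ζ ≤ 1 ∧
    chi (kern xy τ) n (-ζ) = chi (kern xy τ) n ζ) ∧ Continuous (chi (kern xy τ) n) ∧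
  (∀ t, spr (kern xy τ) n κ t = ∫ ζ, chi (kern xy τ) n ζ * Real.cos (ζ * t)
    ∂ProbabilityTheory.gaussianReal 0 κ.toNNReal) ∧
  (∀ t α β : ℝ, ∑' k : ℤ, spr (kern xy τ) n κ (t + k) * Real.cos (α * k + β) =
    Real.sqrt (2 * Real.pi / κ) * ∑' p : ℤ, Real.exp (-(2 * Real.pi * p - α) ^ 2 / (2 * κ)) *
      chi (kern xy τ) n (2 * Real.pi * p - α) * Real.cos ((2 * Real.pi * p - α) * t + β)) ∧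
  (∀ t, Real.exp (-κ * (t ^ 2 + τ / n) / 2) ≤ spr (kern xy τ) n κ t ∧ spr (kern xy τ) n κ t ≤ 1) ∧
  ∀ a : ℝ, ∃ C : ℝ, ∀ t, spr (kern xy τ) n κ t ≤ C * Real.exp (-a * |t|)

/-- the unglued weight: edges `E₀` kept, one spring for each bundle `S b` -/
noncomputable def Mdl.ung {V ι : Type*} [DecidableEq V] (m : Mdl V) (E₀ : Finset (V × V)) (I : Finset ι)
    (S : ι → Finset (V × V)) (w : ℤ → ℝ) (κ : ℝ) (σ : V × V → ℤ) (s : Cfg V) : ℝ :=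
  (m.keep E₀).Ws 0 σ s *
    ∏ b ∈ I, spr w (S b).card κ ((∑ e ∈ S b, ((dE e s + σ e : ℤ) : ℝ)) / (S b).card)

/-- UNG: the model is more localised than the unglued one -/
def UngStmt : Prop := ∀ (V ι : Type) [DecidableEq V] (m : Mdl V) (E₀ : Finset (V × V)) (I : Finset ι)
  (S : ι → Finset (V × V)) (w : ℤ → ℝ) (κ : ℝ), m.Ctr → m.Anch → Fam w → 0 < κ → E₀ ⊆ m.ed →
    (∀ b ∈ I, (S b).Nonempty ∧ S b ⊆ m.ed ∧ Disjoint (S b) E₀ ∧ ∀ e ∈ S b, m.w e = w) →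
    (∀ b ∈ I, ∀ b' ∈ I, b ≠ b' → Disjoint (S b) (S b')) →
    (∃ C : ℝ, ∀ s : Cfg V, (∀ x, x ∉ m.A → s x = 0) → ∀ x, |(s x : ℝ)| ≤
      C * (∑ e ∈ E₀, |(dE e s : ℝ)| + ∑ b ∈ I, |∑ e ∈ S b, (dE e s : ℝ)|)) →
    Cen (m.ung E₀ I S w κ 0) ∧ (∀ σ, SE (m.ung E₀ I S w κ σ)) ∧ Loc (m.W 0) (m.ung E₀ I S w κ 0) ∧
      ∀ σ, Zs (m.Ws 0 σ) * Zs (m.ung E₀ I S w κ 0) ≤ Zs (m.ung E₀ I S w κ σ) * Zs (m.W 0)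

/-- TB: two rectangles side by side, one spring -/
def TbStmt : Prop := ∀ (Λ : Lat) (n₁ n₂ : ℕ) (κ : ℝ), Λ.Ok → 1 ≤ n₁ → 1 ≤ n₂ → 0 < κ →
  let W := Λ.WR n₁ n₂
  let sE := pr (col n₂ (n₁ - 1))
  let sW := pr (col n₂ 0)
  let c : ℝ → ℝ := fun ζ => Real.exp (-ζ ^ 2 / (2 * κ)) * chi Λ.w n₂ ζ
  let Dn : ℝ := ∑' p : ℤ, c (2 * Real.pi * p) * Ph W ((2 * Real.pi * p) • sE) ^ 2
  (∀ ζ : ℝ, (∃ p : ℤ, ζ = 2 * Real.pi * p) → Ph W (ζ • sW) = Ph W (ζ • sE)) ∧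
  ∀ f₁ f₂ : Pt → ℝ, Sup (rc 0 n₁ n₂) f₁ → Sup (rc 0 n₁ n₂) f₂ →
    let f : Pt → ℝ := fun x => f₁ x + f₂ (x - ((n₁ : ℤ), 0))
    let α : ℝ := ∑ x ∈ rc 0 n₁ n₂, f₂ x
    (α = 0 → Real.exp (M (Λ.WR (2 * n₁) n₂) (pr f)) * Dn ≤ ∑' p : ℤ, c (2 * Real.pi * p) *
      (Ex W (fun s => Real.exp (pr f₁ s) * Real.cos (2 * Real.pi * p * sE s)) *
        Ex W (fun s => Real.exp (pr f₂ s) * Real.cos (2 * Real.pi * p * sW s)) +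
      Ex W (fun s => Real.exp (pr f₁ s) * Real.sin (2 * Real.pi * p * sE s)) *
        Ex W (fun s => Real.exp (pr f₂ s) * Real.sin (2 * Real.pi * p * sW s)))) ∧
    ∑' p : ℤ, c (2 * Real.pi * p - α) * (Ph W (pr f₁ - (2 * Real.pi * p - α) • sE) *
      Ph W (pr f₂ + (2 * Real.pi * p - α) • sW)) ≤ Ph (Λ.WR (2 * n₁) n₂) (pr f) * Dn

/-! ## T2, FAC -/

/-- T2: charges vanish in a window -/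
def T2Stmt : Prop := Soft fun Λ K ε _ _ L => ∀ q : ℤ, q ≠ 0 → |(q : ℝ)| ≤ K → Λ.aq L q ≤ ε

/-- T2' -/
def T2pStmt : Prop := Soft fun Λ K ε _ _ L => ∀ (q : ℤ) (η : Pt → ℝ), q ≠ 0 → |(q : ℝ)| ≤ K →
  F2 (Λ.edI (sq 0 L)) (fun x => η x - 2 * Real.pi * q * sd L 0 x) K → Ph (Λ.WN L) (pr η) ≤ ε

/-- FAC: a small defect for `u` gives the Stein identity for `u` -/
def FacStmt : Prop := Soft fun Λ K ε δ l L => ∀ u : Pt → ℝ, Sm2 u K L → (∀ x ∈ sq 0 L, |u x| ≤ K) →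
  Λ.tN l * Λ.En (sq 0 L) u u - δ ≤ Vr (Λ.WN L) (Λ.X L u) (Λ.X L u) →
    Λ.Stein L (Λ.tN l) u K ε ∧ Gs3 (Λ.WN L) (Λ.X L u) (Λ.tN l * Λ.En (sq 0 L) u u) ε

/-! ## T3 -/

/-- standard Gaussian vector -/
noncomputable def gs (B : Finset Pt) : Measure (B → ℝ) :=
  Measure.pi fun _ => ProbabilityTheory.gaussianReal 0 1

/-- expectation over heights and noise -/
noncomputable def E2 (W : Cfg Pt → ℝ) (B : Finset Pt) (G : Cfg Pt → (B → ℝ) → ℝ) : ℝ :=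
  Ex W fun s => ∫ ξ, G s ξ ∂gs B

/-- the observation `v + ξ / √μ` -/
noncomputable def obs {B : Finset Pt} (μ : ℝ) (v : Pt → ℝ) (ξ : B → ℝ) : B → ℝ :=
  fun x => v x + ξ x / Real.sqrt μ

/-- the posterior weight (no root) -/
noncomputable def Lat.post (Λ : Lat) (B : Finset Pt) (μ : ℝ) (ψ : B → ℝ) (s : Cfg Pt) : ℝ :=
  (Λ.N B).W 0 s * Real.exp (-μ * (∑ x : B, ((s x : ℝ) - ψ x) ^ 2) / 2)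

/-- the score -/
noncomputable def Lat.sc (Λ : Lat) (B : Finset Pt) (μ : ℝ) (ψ : B → ℝ) (x : B) : ℝ :=
  μ * (ψ x - Ex (Λ.post B μ ψ) fun s => (s x : ℝ))

/-- the Fisher kernel `𝐉` -/
noncomputable def Lat.Jm (Λ : Lat) (L : ℕ) (μ : ℝ) (x y : sq 0 L) : ℝ :=
  E2 (Λ.WN L) (sq 0 L) fun s ξ =>
    Λ.sc _ μ (obs μ (fun z => (s z : ℝ)) ξ) x * Λ.sc _ μ (obs μ (fun z => (s z : ℝ)) ξ) y

/-- quadratic form of a kernel on `B` -/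
noncomputable def qf {B : Finset Pt} (J : B → B → ℝ) (m : Pt → ℝ) : ℝ :=
  ∑ x : B, ∑ y : B, m x * J x y * m y

/-- test functions of the observation modulo the zero mode -/
def Per {B : Finset Pt} (G : (B → ℝ) → ℝ) : Prop :=
  Measurable G ∧ (∀ ψ, |G ψ| ≤ 1) ∧ ∀ ψ, G (fun x => ψ x + 1) = G ψ

/-- `√μ (m, ξ) - (T, s)` -/
noncomputable def res {B : Finset Pt} (μ : ℝ) (m : Pt → ℝ) (T : Cfg Pt →+ ℝ) (s : Cfg Pt)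
    (ξ : B → ℝ) : ℝ := Real.sqrt μ * ∑ x : B, m x * ξ x - T s

/-- sign structure of `𝐉` -/
def Ker {B : Finset Pt} (J : B → B → ℝ) (μ : ℝ) : Prop :=
  (∀ x y, J x y = J y x) ∧ (∀ x y, x ≠ y → J x y ≤ 0) ∧
    ∀ m : Pt → ℝ, 0 ≤ qf J m ∧ qf J m ≤ μ * ip B m m

/-- J(a), (b), (c): signs, Cramér–Rao, and the dual criterion -/
def JStmt : Prop := ∀ (Λ : Lat) (L : ℕ) (μ : ℝ), Λ.Ok → 1 ≤ L → 0 < μ →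
  Ker (Λ.Jm L μ) μ ∧
  (∀ f m : Pt → ℝ, ∑ x ∈ sq 0 L, f x = 0 →
    ip (sq 0 L) f m ^ 2 ≤
      (Vr (Λ.WN L) (pr f) (pr f) + ip (sq 0 L) f f / μ) * qf (Λ.Jm L μ) m) ∧
  ∀ (m T : Pt → ℝ) (ε A N : ℝ), 0 < N → 0 ≤ A → ∑ x ∈ sq 0 L, T x = 0 →
    (∀ G : (sq 0 L → ℝ) → ℝ, Per G → |E2 (Λ.WN L) (sq 0 L) fun s ξ =>
      res μ m (pr T) s ξ * G (obs μ (fun z => (s z : ℝ)) ξ)| ≤ ε) →
    μ * ip (sq 0 L) m m ≤ A → Ex (Λ.WN L) (fun s => pr T s ^ 4) ≤ A ^ 2 →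
    qf (Λ.Jm L μ) m ≤ N * ε + 4 * (A + 1) ^ 2 / Real.sqrt N +
      Real.sqrt (qf (Λ.Jm L μ) m) * Real.sqrt (Vr (Λ.WN L) (pr T) (pr T))

/-- T3a, high modes: the part of the heights finer than the blocks is invisible -/
def HiStmt : Prop := ∀ (F : Fa) (K ε : ℝ) (a : ℕ), 0 < ε → ∃ b₀ : ℕ, ∀ Λ, F.Mem Λ → ∀ b c : ℕ, b₀ ≤ b →
  let L : ℕ := 2 ^ (a + b + c)
  let μ : ℝ := (2 ^ a / (L : ℝ)) ^ 2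
  ∀ (u T : Pt → ℝ) (G : (sq 0 L → ℝ) → ℝ), (∀ x ∈ sq 0 L, |u x| ≤ K) → F2 (Λ.edI (sq 0 L)) T K → Per G →
    |(E2 (Λ.WN L) (sq 0 L) fun s ξ =>
        res μ (Plo (2 ^ c) u) (pr T) s ξ * G (obs μ (fun z => (s z : ℝ)) ξ)) -
      E2 (Λ.WN L) (sq 0 L) fun s ξ =>
        res μ (Plo (2 ^ c) u) (pr T) s ξ * G (obs μ (Plo (2 ^ c) fun z => (s z : ℝ)) ξ)| ≤ ε

/-- T3a, low modes: finitely many block averages, Fourier analysis and the Stein identity -/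
def LoStmt : Prop := ∀ (F : Fa) (θ₀ K ε : ℝ) (a b : ℕ), 0 < θ₀ → 0 < ε → ∃ K' ε₁ : ℝ, 1 ≤ K' ∧ 0 < ε₁ ∧
  ∀ Λ, F.Mem Λ → ∀ (c : ℕ) (θ : ℝ), θ₀ ≤ θ →
  let L : ℕ := 2 ^ (a + b + c)
  let μ : ℝ := (2 ^ a / (L : ℝ)) ^ 2
  ∀ (u : Pt → ℝ) (G : (sq 0 L → ℝ) → ℝ), (∀ x ∈ sq 0 L, |u x| ≤ K) → Sm2 u K L →
    Λ.Stein L θ u K' ε₁ → Per G →
    |E2 (Λ.WN L) (sq 0 L) fun s ξ =>
      res μ (Plo (2 ^ c) u) (θ⁻¹ • Λ.X L u) s ξ * G (obs μ (Plo (2 ^ c) fun z => (s z : ℝ)) ξ)| ≤ ε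

/-- T3a -/
def T3aStmt : Prop := Soft fun Λ K ε δ l L => ∀ (a : ℕ) (u : Pt → ℝ), (2 : ℝ) ^ a ≤ K → Sm2 u K L →
  (∀ x ∈ sq 0 L, |u x| ≤ K) → Λ.tN l * Λ.En (sq 0 L) u u - δ ≤ Vr (Λ.WN L) (Λ.X L u) (Λ.X L u) →
    qf (Λ.Jm L ((2 ^ a / (L : ℝ)) ^ 2)) u ≤ Λ.En (sq 0 L) u u / Λ.tN l + ε

/-- T3b: kernel algebra (`γ = e₀ / θ`, nearest-neighbour energy) -/
def T3bStmt : Prop := ∀ K ε : ℝ, 0 < ε → ∃ K' ε₂ : ℝ, 1 ≤ K' ∧ 0 < ε₂ ∧ ∀ W : ℝ, 0 < W →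
  ∃ (ε₁ : ℝ) (L₀ : ℕ), 0 < ε₁ ∧ ∀ L : ℕ, L₀ ≤ L → ∀ (γ : ℝ) (J : sq 0 L → sq 0 L → ℝ),
    0 ≤ γ → γ ≤ K → Ker J ((W / L) ^ 2) → qf J (fun _ => 1) ≤ ε₁ →
    (∀ i, qf J (fun x => co i x / L) ≤ γ + ε₁) →
    (∀ m : Pt → ℝ, Sm2 m K' L → (∀ x, |m x| ≤ K') →
      (∀ x, m x ≠ 0 → bl x ⌊(L : ℝ) / K'⌋₊ ⊆ sq 0 L) → γ * nnL.En (sq 0 L) m m - ε₂ ≤ qf J m) →
    ∀ u : Pt → ℝ, Sm2 u K L → (∀ x ∈ sq 0 L, |u x| ≤ K) → qf J u ≤ γ * nnL.En (sq 0 L) u u + ε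

/-- T3: lower bound in the free box -/
def T3Stmt : Prop := Soft fun Λ K ε _ l L => ∀ u : Pt → ℝ, Sm2 u K L →
  Λ.tN l * Λ.En (sq 0 L) u u - ε ≤ Vr (Λ.WN L) (Λ.X L u) (Λ.X L u)

/-- SD: Schwinger–Dyson (Stein) equations of the free field -/
def SdStmt : Prop := Soft fun Λ K ε _ l L => ∀ u : Pt → ℝ, Sm2 u K L → (∀ x ∈ sq 0 L, |u x| ≤ K) →
  Λ.Stein L (Λ.tN l) u K ε ∧ Gs3 (Λ.WN L) (Λ.X L u) (Λ.tN l * Λ.En (sq 0 L) u u) ε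


/-! ## The Dirichlet limit and its consequences -/

/-- DL: lower bound in the Dirichlet box (needs T4, MIX0, UV, SDm) -/
def DlStmt : Prop := Soft fun Λ K ε _ l L => ∀ u : Pt → ℝ, Sm2 u K L →
  (∀ x, u x ≠ 0 → x ∈ sq ((L / 2 - L / 16 : ℕ), (L / 2 - L / 16 : ℕ)) (L / 8)) →
    Λ.tN l * Λ.En (sq 0 L) u u - ε ≤ Vr ((Λ.D (sq 0 L)).W 0) (Λ.X L u) (Λ.X L u)

/-- DL in general domains and in every centred model between the Dirichlet model and the free one -/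
def DlgStmt : Prop := Soft fun Λ K ε _ l L => ∀ (m : Mdl Pt) (D : Finset Pt) (z : Pt) (u : Pt → ℝ),
  Λ.Amb m D → Loc ((Λ.D D).W 0) (m.W 0) → Sm2 u K L →
    (∀ x, u x ≠ 0 → x ∈ bl z ⌊K * L⌋₊ ∧ bl x ⌊(L : ℝ) / K⌋₊ ⊆ D) →
    Gs3 (m.W 0) (pr (Λ.Au D u)) (Λ.tN l * Λ.En D u u) ε

/-- the Dirichlet box is a Dirichlet free field on bounded densities -/
def GffDStmt : Prop := Soft fun Λ K ε _ l L => ∀ f : Pt → ℝ, Sup (sq 0 L) f →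
  (∀ x, |f x| ≤ K / (L : ℝ) ^ 2) →
    Gs3 ((Λ.D (sq 0 L)).W 0) (pr f) (Λ.tN l * (Λ.D (sq 0 L)).gr Λ.τ f) ε

/-- positive stiffness is rough -/
def RghStmt : Prop := ∀ Λ : Lat, Λ.Ok → 0 < Λ.gI → Λ.Rough

/-- the torus limit of S0201 -/
def TLimStmt : Prop := ∀ (J : Finset Pt) (β : ℝ), IsAdmissible J → 0 < β → 0 < (dg J β).gI →
  FS.Lim J β 2 (4 * Real.pi ^ 2 * varianceConst J * (dg J β).gI)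

/-! ## T5a: the gap -/

/-- side charges on the `W × W` boxes: opposite across inner seams, `π / (2 W)` on the outer sides, neutral
boxes except `i₀`, which carries `π / 2` on each side -/
def Flux (W : ℕ) (i₀ : Pt) (f : Pt → Fin 4 → ℝ) : Prop :=
  i₀ ∈ sq 0 W ∧ (∀ d, f i₀ d = Real.pi / 2) ∧ ∀ i ∈ sq 0 W,
    (i ≠ i₀ → ∑ d, f i d = 0) ∧
    (if i + (1, 0) ∈ sq 0 W then f i 0 + f (i + (1, 0)) 1 = 0 else f i 0 = Real.pi / (2 * W)) ∧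
    (if i + (0, 1) ∈ sq 0 W then f i 2 + f (i + (0, 1)) 3 = 0 else f i 2 = Real.pi / (2 * W)) ∧
    (i.1 = 0 → f i 1 = Real.pi / (2 * W)) ∧ (i.2 = 0 → f i 3 = Real.pi / (2 * W))

/-- squared tilt and squared saddle of four side charges -/
noncomputable def tl (f : Fin 4 → ℝ) : ℝ := ((f 0 - f 1) / 2) ^ 2 + ((f 2 - f 3) / 2) ^ 2
noncomputable def sa (f : Fin 4 → ℝ) : ℝ := ((f 0 + f 1 - f 2 - f 3) / 4) ^ 2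

/-- FLUX: the discretised field `x / |x|²` -/
def FluxStmt : Prop := ∃ C c : ℝ, 0 < c ∧ ∀ᶠ W : ℕ in Filter.atTop, ∃ I₀ : Finset Pt,
  c * (W : ℝ) ^ 2 ≤ I₀.card ∧ ∀ i₀ ∈ I₀, ∃ f, Flux W i₀ f ∧
    ∑ i ∈ (sq 0 W).erase i₀, tl (f i) ≤ 2 * Real.pi * Real.log W + C ∧
    ∑ i ∈ (sq 0 W).erase i₀, sa (f i) ≤ C ∧
    ∑ i ∈ sq 0 W, ∑ d, f i d ^ 2 ≤ C * Real.log W

/-- VB: variance of neutral side charges -/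
def VbStmt : Prop := ∀ (F : Fa) (ε : ℝ), 0 < ε → ∃ (C : ℝ) (l₀ : ℕ), ∀ Λ, F.Mem Λ → ∀ l, l₀ ≤ l →
  ∀ f : Fin 4 → ℝ, ∑ d, f d = 0 →
    Vr (Λ.WN l) (pr (side l f)) (pr (side l f)) ≤ (Λ.gN l + ε) * tl f + C * sa f

/-- SEC: the sector inequality -/
def SecStmt : Prop := ∀ (F : Fa) (W : ℕ) (κ : ℝ), 1 ≤ W → 0 < κ → ∃ (c K : ℝ), 0 < c ∧
  ∀ Λ, F.Mem Λ → ∀ l : ℕ, 1 ≤ l → ∃ r : ℝ, c ≤ r ∧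
    (1 / 2 ≤ r ∨ ∃ (q : ℤ) (g : Fin 4 → ℝ), q ≠ 0 ∧ (∀ d, |g d| ≤ K) ∧ ∑ d, g d = 2 * Real.pi * q ∧
      c ≤ Ph (Λ.WN l) (pr (side l g))) ∧
    ∀ (I₀ : Finset Pt) (E : ℝ), (∀ i₀ ∈ I₀, ∃ f, Flux W i₀ f ∧
      (1 / κ + Λ.τ / l) * (∑ i ∈ sq 0 W, ∑ d, f i d ^ 2) / 4 +
        (∑ i ∈ (sq 0 W).erase i₀, Vr (Λ.WN l) (pr (side l (f i))) (pr (side l (f i)))) / 2 ≤ E) →
      r * I₀.card * Real.exp (-E) * Λ.Y l ≤ Λ.Y (W * l)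

/-- one step of the dichotomy -/
def StepStmt : Prop := ∀ (F : Fa) (ε₀ : ℝ), 0 < ε₀ → ∃ (k q₀ l₀ : ℕ) (c : ℝ), 1 ≤ k ∧ 0 < c ∧
  ∀ Λ, F.Mem Λ → ∀ l, l₀ ≤ l → 0 < Λ.Y l ∧ Λ.Y l ≤ 1 ∧ c * Λ.Y l ≤ Λ.Y (2 ^ k * l) ∧
    (Λ.gN l ≤ 2 / Real.pi - ε₀ →
      2 * Λ.Y l ≤ Λ.Y (2 ^ k * l) ∨ ∃ q : ℤ, 1 ≤ q ∧ q ≤ q₀ ∧ c ≤ Λ.aq l q)

/-- T5a -/
def GapStmt : Prop := ∀ Λ : Lat, Λ.Ok → Λ.gI = 0 ∨ 2 / Real.pi ≤ Λ.gI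

/-! ## T5b: localisation -/

/-- G1: growth of the charge under doubling -/
def G1Stmt : Prop := ∀ (F : Fa) (q₀ : ℕ) (ε : ℝ), 0 < ε → ∃ n₀ : ℕ, ∀ Λ, F.Mem Λ →
  ∀ (n₁ n₂ : ℕ) (q : ℤ), 1 ≤ n₁ → n₀ ≤ n₂ → 1 ≤ q → q ≤ q₀ →
    let a := Ph (Λ.WR n₁ n₂) ((2 * Real.pi * q) • pr (col n₂ (n₁ - 1)))
    2 * a * (1 + a ^ 2) / (1 + a) ^ 2 - ε ≤
      Ph (Λ.WR (2 * n₁) n₂) ((Real.pi * q) • pr (col n₂ (n₁ - 1) + col n₂ n₁))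

/-- `f` is the uniform density on a full row or column of `rc 0 n₁ n₂` -/
def Line (n₁ n₂ : ℕ) (f : Pt → ℝ) : Prop :=
  (∃ c : ℤ, 0 ≤ c ∧ c < n₁ ∧ f = col n₂ c) ∨ ∃ c : ℤ, 0 ≤ c ∧ c < n₂ ∧ f = row n₁ c

/-- LINE: small stiffness makes all line averages of a rectangle close -/
def LineStmt : Prop := ∀ (F : Fa) (ε : ℝ), 0 < ε → ∃ δ : ℝ, 0 < δ ∧ ∀ Λ, F.Mem Λ → ∀ l L n₁ n₂ : ℕ,
  Sep δ l L → Λ.tN l ≤ δ → L ≤ n₁ → n₁ ≤ 2 * L → L ≤ n₂ → n₂ ≤ 2 * L →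
    ∀ f g, Line n₁ n₂ f → Line n₁ n₂ g → Vr (Λ.WR n₁ n₂) (pr (f - g)) (pr (f - g)) ≤ ε

/-- G2: from a non-small charge to the finite-size criterion -/
def G2Stmt : Prop := ∀ (F : Fa) (q₀ : ℕ) (c δ' : ℝ), 0 < c → 0 < δ' → ∃ (ε : ℝ) (k : ℕ), 0 < ε ∧
  ∀ Λ, F.Mem Λ → ∀ (l L : ℕ) (q : ℤ), 1 ≤ q → q ≤ q₀ → Sep ε l L → Λ.tN l ≤ ε → c ≤ Λ.aq L q →
    Λ.Lok (2 ^ k * L) q δ'

/-- P: Peierls; bounded variance, and exponential decay of the seam ratio (nearest neighbours) -/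
def PeiStmt : Prop := ∀ (F : Fa) (q₀ : ℕ), ∃ (δ C c : ℝ) (L₀ : ℕ), 0 < δ ∧ 0 < c ∧
  ∀ Λ, F.Mem Λ → ∀ (L : ℕ) (q : ℤ), L₀ ≤ L → 1 ≤ q → q ≤ q₀ → Λ.Lok L q δ →
    ¬ Λ.Rough ∧ (Λ.J = nn → ∀ n R : ℕ, n * L ≤ R →
      Zs ((Λ.D (faces R)).Ws 0 (seam (n * L))) ≤ C * Real.exp (-c * n) * Zs ((Λ.D (faces R)).W 0))


/-- T5 -/
def T5Stmt : Prop := ∀ Λ : Lat, Λ.Ok → (Λ.Rough ↔ 2 / Real.pi ≤ Λ.gI) ∧ (¬ Λ.Rough ↔ Λ.gI = 0) ∧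
  (Λ.gI = 0 → Λ.J = nn → ∃ (C c : ℝ) (L : ℕ), 0 < c ∧ 1 ≤ L ∧ ∀ n R : ℕ, n * L ≤ R →
    Zs ((Λ.D (faces R)).Ws 0 (seam (n * L))) ≤ C * Real.exp (-c * n) * Zs ((Λ.D (faces R)).W 0))

end Crest.Agent.T145
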