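import Crest.Agent.T145.FlDef_82
import Crest.Agent.T145.OmB_11
import Crest.Agent.T145.Route_51

/-!
# Row 145, module Fl: closure lemmas for insertions, charges, `J`, `Sn` (helper4)
-/

set_option autoImplicit false

namespace Crest.Agent.T145

open Finset Real Xi

section ins
variable {z : Pt} {r : ℕ} {F G : Cfg Pt → ℝ}

theorem Ins.const (z : Pt) (r : ℕ) (c : ℝ) : Ins z r fun _ => c := ⟨DepG.const _ _, Tame.const _⟩
theorem Ins.add (hF : Ins z r F) (hG : Ins z r G) : Ins z r fun s => F s + G s :=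
  ⟨hF.1.add hG.1, hF.2.add hG.2⟩
theorem Ins.sub (hF : Ins z r F) (hG : Ins z r G) : Ins z r fun s => F s - G s :=
  ⟨hF.1.sub hG.1, hF.2.sub hG.2⟩
theorem Ins.mul (hF : Ins z r F) (hG : Ins z r G) : Ins z r fun s => F s * G s :=
  ⟨hF.1.mul hG.1, hF.2.mul hG.2⟩
theorem Ins.neg (hF : Ins z r F) : Ins z r fun s => -F s := ⟨hF.1.comp fun t => -t, hF.2.neg⟩
theorem Ins.abs (hF : Ins z r F) : Ins z r fun s => |F s| := ⟨hF.1.comp fun t => |t|, hF.2.abs⟩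
theorem Ins.pow (hF : Ins z r F) (k : ℕ) : Ins z r fun s => F s ^ k :=
  ⟨hF.1.comp fun t => t ^ k, hF.2.pow k⟩
theorem Ins.smul (hF : Ins z r F) (c : ℝ) : Ins z r fun s => c * F s := (Ins.const z r c).mul hF
theorem Ins.mul_const (hF : Ins z r F) (c : ℝ) : Ins z r fun s => F s * c := hF.mul (Ins.const z r c)
theorem Ins.sub_const (hF : Ins z r F) (c : ℝ) : Ins z r fun s => F s - c := hF.sub (Ins.const z r c)
theorem Ins.of_subset {z' : Pt} {r' : ℕ} (hF : Ins z r F) (h : bl z r ⊆ bl z' r') : Ins z' r' F :=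
  ⟨hF.1.mono h, hF.2⟩
theorem Ins.mono {r' : ℕ} (hF : Ins z r F) (h : r ≤ r') : Ins z r' F := hF.of_subset (bl_mono z h)
theorem Ins.move {z' : Pt} {r' d : ℕ} (hF : Ins z r F) (hz : z ∈ bl z' d) (h : r + d ≤ r') :
    Ins z' r' F := hF.of_subset (bl_subset_bl hz h)
theorem Ins.sum {ι : Type*} (T : Finset ι) {F : ι → Cfg Pt → ℝ} (h : ∀ i ∈ T, Ins z r (F i)) :
    Ins z r fun s => ∑ i ∈ T, F i s :=
  ⟨DepG.sum fun i hi => (h i hi).1, Tame.sum T fun i hi => (h i hi).2⟩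
theorem Ins.prod {ι : Type*} (T : Finset ι) {F : ι → Cfg Pt → ℝ} (h : ∀ i ∈ T, Ins z r (F i)) :
    Ins z r fun s => ∏ i ∈ T, F i s :=
  ⟨DepG.prod fun i hi => (h i hi).1, Tame.prod T fun i hi => (h i hi).2⟩
theorem Ins.congr (hF : Ins z r F) (h : ∀ s, F s = G s) : Ins z r G := by rwa [← funext h]
theorem Ins.out (hF : Ins z r F) {B : Finset Pt} (h : Disjoint (bl z r) B) : Out B F :=
  hF.1.dep.out h
theorem Ins.trl (hF : Ins 0 r F) (z : Pt) : Ins z r (trl z F) := by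
  simpa using Om.ins_trl hF z

theorem OddF.add (hF : OddF F) (hG : OddF G) : OddF fun s => F s + G s := fun s => by
  simp only [hF s, hG s]; ring
theorem OddF.sub (hF : OddF F) (hG : OddF G) : OddF fun s => F s - G s := fun s => by
  simp only [hF s, hG s]; ring
theorem OddF.smul (hF : OddF F) (c : ℝ) : OddF fun s => c * F s := fun s => by
  simp only [hF s]; ring
theorem OddF.mul_even (hF : OddF F) (hG : EvenF G) : OddF fun s => F s * G s := fun s => by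
  simp only [hF s, hG s]; ring
theorem OddF.sum {ι : Type*} (T : Finset ι) {F : ι → Cfg Pt → ℝ} (h : ∀ i ∈ T, OddF (F i)) :
    OddF fun s => ∑ i ∈ T, F i s := fun s => by
  rw [← sum_neg_distrib]; exact sum_congr rfl fun i hi => h i hi s
theorem OddF.trl (hF : OddF F) (z : Pt) : OddF (trl z F) := fun s => by
  simp only [T145.trl, map_neg, hF _]
theorem EvenF.const (c : ℝ) : EvenF fun _ => c := fun _ => rfl
theorem EvenF.add (hF : EvenF F) (hG : EvenF G) : EvenF fun s => F s + G s := fun s => by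
  simp only [hF s, hG s]
theorem EvenF.sub (hF : EvenF F) (hG : EvenF G) : EvenF fun s => F s - G s := fun s => by
  simp only [hF s, hG s]
theorem EvenF.mul (hF : EvenF F) (hG : EvenF G) : EvenF fun s => F s * G s := fun s => by
  simp only [hF s, hG s]
theorem EvenF.smul (hF : EvenF F) (c : ℝ) : EvenF fun s => c * F s := (EvenF.const c).mul hF
theorem EvenF.sum {ι : Type*} (T : Finset ι) {F : ι → Cfg Pt → ℝ} (h : ∀ i ∈ T, EvenF (F i)) :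
    EvenF fun s => ∑ i ∈ T, F i s := fun s => sum_congr rfl fun i hi => h i hi s
theorem EvenF.trl (hF : EvenF F) (z : Pt) : EvenF (trl z F) := fun s => by
  simp only [T145.trl, map_neg, hF _]
theorem D4.const (z : Pt) (c : ℝ) : D4 z fun _ => c := fun _ => ⟨rfl, rfl⟩
theorem D4.comp₂ (hF : D4 z F) (hG : D4 z G) (g : ℝ → ℝ → ℝ) : D4 z fun s => g (F s) (G s) :=
  fun s => by simp only [(hF s).1, (hF s).2, (hG s).1, (hG s).2, and_self]
theorem D4.comp (hF : D4 z F) (g : ℝ → ℝ) : D4 z fun s => g (F s) := hF.comp₂ hF fun a _ => g a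
theorem D4.add (hF : D4 z F) (hG : D4 z G) : D4 z fun s => F s + G s := hF.comp₂ hG (· + ·)
theorem D4.sub (hF : D4 z F) (hG : D4 z G) : D4 z fun s => F s - G s := hF.comp₂ hG (· - ·)
theorem D4.mul (hF : D4 z F) (hG : D4 z G) : D4 z fun s => F s * G s := hF.comp₂ hG (· * ·)
theorem D4.smul (hF : D4 z F) (c : ℝ) : D4 z fun s => c * F s := hF.comp (c * ·)
theorem D4.sum {ι : Type*} (T : Finset ι) {F : ι → Cfg Pt → ℝ} (h : ∀ i ∈ T, D4 z (F i)) :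
    D4 z fun s => ∑ i ∈ T, F i s := fun s =>
  ⟨sum_congr rfl fun i hi => (h i hi s).1, sum_congr rfl fun i hi => (h i hi s).2⟩

end ins

namespace Fl

variable {z : Pt} {r : ℕ} {F G : Cfg Pt → ℝ} {U B : Finset Pt} {ξ ζ : Pt → ℝ} {q q' : ℤ}

/-! ## `J` -/

theorem ins_Jz (z : Pt) (hr : 1 ≤ r) : Ins z r (Jz z) := Om.ins_Jz z hr
theorem tame_Jz (z : Pt) : Tame (Jz z) := Om.tame_Jz z
theorem odd_Jz (z : Pt) : OddF (Jz z) := Om.odd_Jz z
theorem d4_Jz (z : Pt) : D4 z (Jz z) := Om.d4_Jz z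
theorem trl_Jz (z : Pt) : trl z (Jz 0) = Jz z := by rw [Om.trl_Jz, zero_add]

/-! ## translations -/

theorem trl_zero (F : Cfg Pt → ℝ) : trl 0 F = F := by
  funext s; simp only [trl]; congr 1; ext x; simp
theorem trl_trl (z x : Pt) (F : Cfg Pt → ℝ) : trl z (trl x F) = trl (x + z) F := by
  funext s; simp only [trl]; congr 1; ext y; simp [add_assoc]
theorem trl_mul (z : Pt) (F G : Cfg Pt → ℝ) :
    trl z (fun s => F s * G s) = fun s => trl z F s * trl z G s := rfl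
theorem trl_sub (z : Pt) (F G : Cfg Pt → ℝ) :
    trl z (fun s => F s - G s) = fun s => trl z F s - trl z G s := rfl
theorem trl_smul (z : Pt) (c : ℝ) (F : Cfg Pt → ℝ) :
    trl z (fun s => c * F s) = fun s => c * trl z F s := rfl
theorem trl_cp (z : Pt) (ξ : Pt → ℝ) (φ : ℝ) : trl z (cp ξ φ) = cp (fun y => ξ (y - z)) φ :=
  funext fun s => by simp only [trl, cp, pr_mapH]; rfl
theorem tame_trl (h : Tame F) (z : Pt) : Tame (trl z F) := h.comp _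

/-! ## linear observables and charges -/

theorem tame_pr (ξ : Pt → ℝ) : Tame fun s : Cfg Pt => pr ξ s := Tame.hom _

theorem out_pr (h : ∀ y ∈ B, ξ y = 0) : Out B fun s => pr ξ s := fun s t e => by
  rw [← sub_eq_zero, ← map_sub, pr_eq_sum]
  refine sum_eq_zero fun x _ => ?_
  by_cases hx : x ∈ B
  · rw [h x hx, zero_mul]
  · simp [e x hx]

theorem ins_pr (h : Chq (bl z r) ξ 0) : Ins z r fun s => pr ξ s :=
  ⟨DepG.pr h.1 (by simpa using h.2), tame_pr ξ⟩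

theorem Chq.mono {U' : Finset Pt} (h : Chq U ξ q) (hU : U ⊆ U') : Chq U' ξ q :=
  ⟨fun x hx => h.1 x fun hx' => hx (hU hx'),
    (sum_subset hU fun x _ hx => h.1 x hx).symm.trans h.2⟩
theorem Chq.add (h : Chq U ξ q) (h' : Chq U ζ q') : Chq U (ξ + ζ) (q + q') :=
  ⟨fun x hx => by simp [h.1 x hx, h'.1 x hx], by simp [sum_add_distrib, h.2, h'.2]⟩
theorem Chq.sub (h : Chq U ξ q) (h' : Chq U ζ q') : Chq U (ξ - ζ) (q - q') :=
  ⟨fun x hx => by simp [h.1 x hx, h'.1 x hx], by simp [sum_sub_distrib, h.2, h'.2]⟩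
theorem Chq.neg (h : Chq U ξ q) : Chq U (-ξ) (-q) :=
  ⟨fun x hx => by simp [h.1 x hx], by simp [sum_neg_distrib, h.2]⟩
theorem Chq.zsmul (h : Chq U ξ q) (k : ℤ) : Chq U ((k : ℝ) • ξ) (k * q) :=
  ⟨fun x hx => by simp [h.1 x hx], by simp [← mul_sum, h.2]⟩
theorem Chq.smul (h : Chq U ξ 0) (t : ℝ) : Chq U (t • ξ) 0 :=
  ⟨fun x hx => by simp [h.1 x hx], by simp [← mul_sum, h.2]⟩
theorem Chq.shift {c : Pt} (h : Chq (bl c r) ξ q) (z : Pt) :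
    Chq (bl (c + z) r) (fun y => ξ (y - z)) q := by
  have e : ∀ y : Pt, y ∈ bl (c + z) r ↔ y - z ∈ bl c r := fun y => by
    simp only [mem_bl, Prod.fst_add, Prod.snd_add, Prod.fst_sub, Prod.snd_sub]; omega
  refine ⟨fun x hx => h.1 _ fun hx' => hx ((e x).2 hx'), ?_⟩
  rw [← h.2]
  exact sum_equiv (Equiv.subRight z) (fun y => e y) fun _ _ => rfl
theorem chq_A0 {v : Pt → ℝ} {n : ℕ} (hv : Pot.Sup (bl z n) v) (h : n + 1 ≤ r) : Chq (bl z r) (A0 v) 0 :=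
  ⟨fun x hx => sup_A0 hv x fun hx' => hx (bl_mono z h hx'), by simpa using sum_A0 h hv⟩
theorem chq_xi {ρ : ℝ} (hρ : 0 < ρ) (h : 2 * ρ ≤ r) : Chq (bl 0 r) (xi ρ) 1 :=
  ⟨sup_xi hρ h, by simpa using sum_xi hρ h⟩
theorem chq_xi' {ρ : ℝ} (hρ : 0 < ρ) (h : 2 * ρ ≤ r) (z : Pt) :
    Chq (bl z r) (fun y => xi ρ (y - z)) 1 := by simpa using (chq_xi hρ h).shift z
theorem chq_flow {Λ : Lat} {f : Pt → ℝ} {n : ℝ} (h : F2 (Λ.edI U) f n) : Chq U f 0 := by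
  obtain ⟨φ, rfl, -⟩ := h
  exact ⟨sup_dv φ fun _ he => (Lat.mem_edI.1 he).2,
    by simpa using sum_dv φ fun _ he => (Lat.mem_edI.1 he).2⟩

theorem ins_A0 {v : Pt → ℝ} {n : ℕ} (hv : Pot.Sup (bl z n) v) (h : n + 1 ≤ r) :
    Ins z r fun s => pr (A0 v) s := ins_pr (chq_A0 hv h)

theorem pr_shift (h : Chq U ξ q) {s s' : Cfg Pt} {k : ℤ} (e : ∀ x ∈ U, s' x = s x + k) :
    pr ξ s' = pr ξ s + ((q * k : ℤ) : ℝ) := by
  simp only [pr_of_fsupp ξ _ h.1]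
  push_cast
  rw [← h.2, sum_mul, ← sum_add_distrib]
  exact sum_congr rfl fun x hx => by rw [e x hx]; push_cast; ring

theorem abs_cp_le (ξ : Pt → ℝ) (φ : ℝ) (s : Cfg Pt) : |cp ξ φ s| ≤ 1 := abs_cos_le_one _
theorem tame_cp (ξ : Pt → ℝ) (φ : ℝ) : Tame (cp ξ φ) := Tame.bdd (abs_cp_le ξ φ)
theorem out_cp (h : ∀ y ∈ B, ξ y = 0) (φ : ℝ) : Out B (cp ξ φ) :=
  (out_pr h).comp fun t => cos (2 * π * t + φ)
theorem depG_cp (h : Chq U ξ q) (φ : ℝ) : DepG U (cp ξ φ) := fun s s' k e => by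
  simp only [cp, pr_shift h e]
  rw [show 2 * π * (pr ξ s + ((q * k : ℤ) : ℝ)) + φ = 2 * π * pr ξ s + φ + ((q * k : ℤ) : ℝ) * (2 * π) by
    ring, cos_add_int_mul_two_pi]
theorem ins_cp (h : Chq (bl z r) ξ q) (φ : ℝ) : Ins z r (cp ξ φ) := ⟨depG_cp h φ, tame_cp ξ φ⟩

theorem cp_neg_cfg (ξ : Pt → ℝ) (φ : ℝ) (s : Cfg Pt) : cp ξ φ (-s) = cp ξ (-φ) s := by
  simp only [cp, map_neg]; rw [← cos_neg]; congr 1; ring
theorem cp_neg (ξ : Pt → ℝ) (φ : ℝ) : cp (-ξ) φ = cp ξ (-φ) := by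
  funext s; simp only [cp, pr_neg, AddMonoidHom.neg_apply]; rw [← cos_neg]; congr 1; ring
theorem even_cp (ξ : Pt → ℝ) : EvenF (cp ξ 0) := fun s => by rw [cp_neg_cfg, neg_zero]
theorem cp_add_pi (ξ : Pt → ℝ) (φ : ℝ) (s : Cfg Pt) : cp ξ (φ + π) s = -cp ξ φ s := by
  simp only [cp, ← add_assoc, cos_add_pi]
theorem cp_half (ξ : Pt → ℝ) (φ : ℝ) (s : Cfg Pt) :
    cp ξ (φ + π / 2) s = -sin (2 * π * pr ξ s + φ) := by
  simp only [cp, ← add_assoc, cos_add_pi_div_two]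
theorem cp_neg_half (ξ : Pt → ℝ) (s : Cfg Pt) : cp ξ (-(π / 2)) s = sin (2 * π * pr ξ s) := by
  simp only [cp, ← sub_eq_add_neg, cos_sub_pi_div_two]
theorem odd_cp (ξ : Pt → ℝ) : OddF (cp ξ (-(π / 2))) := fun s => by
  simp only [cp_neg_half, map_neg, mul_neg, sin_neg]
theorem cp_mul (ξ ζ : Pt → ℝ) (φ ψ : ℝ) (s : Cfg Pt) :
    cp ξ φ s * cp ζ ψ s = (cp (ξ + ζ) (φ + ψ) s + cp (ξ - ζ) (φ - ψ) s) / 2 := by
  simp only [cp, pr_add, pr_sub, AddMonoidHom.add_apply, AddMonoidHom.sub_apply]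
  rw [show 2 * π * (pr ξ s + pr ζ s) + (φ + ψ) = (2 * π * pr ξ s + φ) + (2 * π * pr ζ s + ψ) by ring,
    show 2 * π * (pr ξ s - pr ζ s) + (φ - ψ) = (2 * π * pr ξ s + φ) - (2 * π * pr ζ s + ψ) by ring,
    cos_add (2 * π * pr ξ s + φ), cos_sub (2 * π * pr ξ s + φ)]
  ring
theorem abs_cp_sub_le (ξ ζ : Pt → ℝ) (φ : ℝ) (s : Cfg Pt) :
    |cp ξ φ s - cp ζ φ s| ≤ 2 * π * |pr (ξ - ζ) s| := by
  refine (abs_cos_sub_cos_le _ _).trans (le_of_eq ?_)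
  rw [pr_sub, AddMonoidHom.sub_apply, ← abs_of_pos (by positivity : 0 < 2 * π), ← abs_mul,
    abs_of_pos (by positivity : 0 < 2 * π)]
  congr 1; ring

theorem d4_pr (h1 : ∀ x, ξ (rotZ z x) = ξ x) (h2 : ∀ x, ξ (swpZ z x) = ξ x) : D4 z fun s => pr ξ s :=
  fun s => by simp only [pr_mapH, h1, h2, and_self]
theorem d4_cp (h1 : ∀ x, ξ (rotZ z x) = ξ x) (h2 : ∀ x, ξ (swpZ z x) = ξ x) (φ : ℝ) : D4 z (cp ξ φ) :=
  (d4_pr h1 h2).comp fun t => cos (2 * π * t + φ)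
theorem xi_rot (ρ : ℝ) (x : Pt) : xi ρ (rotZ 0 x) = xi ρ x := by
  rw [← xi_swap ρ x, ← xi_neg_fst ρ x.swap]; congr 1; ext <;> simp [rotZ]
theorem xi_swp (ρ : ℝ) (x : Pt) : xi ρ (swpZ 0 x) = xi ρ x := by
  rw [← xi_swap ρ x]; congr 1; ext <;> simp [swpZ]

/-! ## the reference insertion -/

theorem Sn_eq (ρ : ℝ) : Sn ρ = cp (xi ρ) (-(π / 2)) := funext fun s => (cp_neg_half _ s).symm
theorem abs_Sn_le (ρ : ℝ) (s : Cfg Pt) : |Sn ρ s| ≤ 1 := abs_sin_le_one _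
theorem tame_Sn (ρ : ℝ) : Tame (Sn ρ) := Tame.bdd (abs_Sn_le ρ)
theorem odd_Sn (ρ : ℝ) : OddF (Sn ρ) := Sn_eq ρ ▸ odd_cp _
theorem d4_Sn (ρ : ℝ) : D4 0 (Sn ρ) := Sn_eq ρ ▸ d4_cp (xi_rot ρ) (xi_swp ρ) _
theorem ins_Sn {ρ : ℝ} (hρ : 0 < ρ) (h : 2 * ρ ≤ r) : Ins 0 r (Sn ρ) :=
  Sn_eq ρ ▸ ins_cp (chq_xi hρ h) _
theorem ins_Sn4 (hr : 1 ≤ r) : Ins 0 r (Sn (r / 4)) := by
  have : (1 : ℝ) ≤ r := by exact_mod_cast hr
  exact ins_Sn (by linarith) (by linarith)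
theorem out_Sn {ρ : ℝ} (hρ : 0 < ρ) {n : ℕ} (h : (n : ℝ) + 1 ≤ ρ) : Out (bl 0 n) (Sn ρ) :=
  Sn_eq ρ ▸ out_cp (fun _ hy => xi_in hρ h hy) _
theorem trl_Sn (z : Pt) (ρ : ℝ) : trl z (Sn ρ) = cp (fun y => xi ρ (y - z)) (-(π / 2)) := by
  rw [Sn_eq, trl_cp]

end Fl

end Crest.Agent.T145
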