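import Crest.Agent.T145.EvDef_2
import Crest.Agent.T145.FlA_51
import Crest.Agent.T145.FlBare_80
import Crest.Agent.T145.FlBas_4
import Crest.Agent.T145.EvNum_3
import Crest.Agent.T145.EvLe_60

-- ▼ part T145/EvPu_51
section

/-!
# Row 145, the even sector: PU (helper51)
-/

set_option autoImplicit false

namespace Crest.Agent.T145.Ev

open Finset Real Fl

namespace Pu51

theorem depG_f2 {U : Finset Pt} {f : Pt → ℝ} {e : ℝ} (h : F2 (nnL.edI U) f e) : DepG U fun s => pr f s :=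
  DepG.pr (chq_flow h).1 (by simpa using (chq_flow h).2)

/-- first absolute moments -/
theorem mom {W : Cfg Pt → ℝ} {τ t e e' : ℝ} {f f' : Pt → ℝ} (h : B80.Mo W τ f e) (h' : B80.Mo W τ f' e')
    (e0 : 0 ≤ e) (e0' : 0 ≤ e') (hτ : τ ≤ t) (t1 : 1 ≤ t) :
    Ex W (fun s => |pr f s|) ≤ t * √e ∧ Ex W (fun s => |pr f s * pr f' s|) ≤ t * (√e * √e') := by
  have t0 : 0 ≤ t := by linarith
  have i : ∀ g : Pt → ℝ, Ig W fun s => |pr g s| ^ 2 := fun g => h.cen.ig ((tame_pr g).abs.pow 2)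
  have b : ∀ {g : Pt → ℝ} {a : ℝ}, B80.Mo W τ g a → 0 ≤ a → √(Ex W fun s => |pr g s| ^ 2) ≤ √t * √a :=
    fun k a0 => by
      rw [← sqrt_mul t0]; simp only [sq_abs]
      exact sqrt_le_sqrt (k.two.trans (mul_le_mul_of_nonneg_right hτ a0))
  constructor
  · refine (le_abs_self _).trans ((abs_le_sqrt (h.cen.wt.ex_sq_le (i f))).trans ((b h e0).trans ?_))
    exact mul_le_mul_of_nonneg_right (sqrt_le_iff.2 ⟨t0, by nlinarith⟩) (sqrt_nonneg _)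
  · simp only [abs_mul]
    refine (le_abs_self _).trans ((abs_Ex_mul_le h.cen.nonneg (i f) (i f')).trans
      ((mul_le_mul (b h e0) (b h' e0') (sqrt_nonneg _) (by positivity)).trans_eq ?_))
    rw [mul_mul_mul_comm, mul_self_sqrt t0]

end Pu51

open Pu51 in
theorem puStmt : PuStmt := fun p => by
  refine ⟨128 * max p.F.τ₂ 1, by positivity, fun Λ ω L N E z a n F B f f' e e' h0 hn hL hF hB hO B1 hf hf' => ?_⟩
  have ok := E.mem.ok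
  obtain ⟨m, hm, hr⟩ := E.amb z
  have w4 := E.w4
  have a1 : 1 ≤ a := by have := E.gd.2.1; have := ok.one_le_rg; omega
  have h1 := Nat.mul_le_mul_right a w4
  have h2 := Nat.mul_le_mul_right (p.w * a) w4
  have h3 := Nat.mul_le_mul_right n w4
  have h4 := E.le
  have key : ∀ G : Cfg Pt → ℝ, Tame G → DepG (Nc.an z (p.w * (p.w * a)) n) G → ∀ b : ℝ,
      (Nc.EA Λ z (p.w * a) (p.w * n) fun s => |G s|) ≤ max p.F.τ₂ 1 * b →
      |ω fun s => F s * G s * B s| ≤ 128 * max p.F.τ₂ 1 * nu Λ p.w z a F * b := fun G tG dG b hb => by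
    have := ((prodStmt p Λ L E.toGs m (bl z N) Unit ∅ (fun _ => z) (fun _ => 0) (fun _ _ => 1) B hm
      ⟨by simp, by simp, by simp, by simp, by simp⟩ (by simp) B1).2 z n (by omega) hL (bl_mono z (by omega))
      (by simp)).2.2 a F G h0 hn hF tG dG hO
    simp only [prod_empty, one_mul, mul_one] at this
    rw [hr _ (((hF.1.mono (bl_mono z (by omega))).mul
      (dG.mono (sdiff_subset.trans (bl_mono z (by omega))))).mul hB)]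
    refine this.trans ((mul_le_mul_of_nonneg_left hb
      (mul_nonneg (by norm_num) (A51.nu_nonneg ok _ _ _ _))).trans_eq (by ring))
  have sub : Nc.an z (p.w * (p.w * a)) n ⊆ Nc.an z (p.w * a) (p.w * n) :=
    sdiff_subset_sdiff (bl_mono z (by omega)) (bl_mono z (by omega))
  have e0 : ∀ {g : Pt → ℝ} {b : ℝ}, F2 (nnL.edI (Nc.an z (p.w * (p.w * a)) n)) g b → 0 ≤ b :=
    fun ⟨_, _, h⟩ => (sum_nonneg fun _ _ => sq_nonneg _).trans h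
  obtain ⟨m1, m2⟩ := mom (B80.mo_an ok (by omega) sub hf) (B80.mo_an ok (by omega) sub hf') (e0 hf) (e0 hf')
    (E.mem.tau_le.trans (le_max_left _ 1)) (le_max_right _ _)
  exact ⟨key _ (tame_pr f) (depG_f2 hf) _ m1,
    key _ ((tame_pr f).mul (tame_pr f')) ((depG_f2 hf).mul (depG_f2 hf')) _ m2⟩

end Crest.Agent.T145.Ev
end

-- ▼ part T145/EvS1A_55

/-!
# Row 145, even sector: tools for S1 (helper55)
-/

set_option autoImplicit false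

namespace Crest.Agent.T145.Ev

open Finset Pot Xi Real Fl

namespace S55

theorem X_sub (u v : Pt → ℝ) (s : Cfg Pt) : X (u - v) s = X u s - X v s := by
  simp only [X, A0_sub, pr_sub, AddMonoidHom.sub_apply]

theorem ins_X {v : Pt → ℝ} {z : Pt} {n r : ℕ} (hv : Pot.Sup (bl z n) v) (h : n + 1 ≤ r) : Ins z r (X v) :=
  ins_A0 hv h

theorem gr_comm (u v : Pt → ℝ) (z : Pt) : gr u v z = gr v u z := sum_congr rfl fun _ _ => mul_comm _ _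


/-- the product of two linear functionals -/
theorem nu_XX (F : Fa) : ∃ C : ℝ, 0 ≤ C ∧ ∀ (p : Par) (Λ : Lat) (L : ℕ), p.F = F → Gs p Λ L →
    ∀ (n : ℕ) (u u' : Pt → ℝ) (e : ℝ), p.r₀ ≤ n + 1 → Pot.Sup (bl 0 n) u → Pot.Sup (bl 0 n) u' →
      E0 (bl 0 n) u ≤ e → E0 (bl 0 n) u' ≤ e → nu Λ p.w 0 (n + 1) (fun s => X u s * X u' s) ≤ C * e := by
  obtain ⟨C, hC, h⟩ := Fl.bareStmt F
  refine ⟨C, hC, fun p Λ L hF hG n u u' e h0 hu hu' e1 e2 => ?_⟩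
  have hΛ : F.Mem Λ := hF ▸ hG.mem
  refine ((semiStmt Λ p.w (n + 1) 0 hΛ.ok (Lj36.gs_le hG h0)).1 _
    ((ins_X hu le_rfl).mul (ins_X hu' le_rfl))).2.1.trans ?_
  have hc := Lj36.le_wmul hG (n + 1)
  have hW := hΛ.ok.cen_Nr_bl (self_mem_bl (0 : Pt) (p.w * (n + 1)))
  have k1 := ((h Λ hΛ 0 n u hu).2.2 _ hc).1
  have k2 := ((h Λ hΛ 0 n u' hu').2.2 _ hc).1
  have i1 := hW.ig ((tame_pr (A0 u)).pow 2)
  have i2 := hW.ig ((tame_pr (A0 u')).pow 2)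
  have k := Ex_mono hW.nonneg (hW.ig (((tame_pr (A0 u)).mul (tame_pr (A0 u'))).abs.const_mul 2))
    (i1.add i2) fun s => by
      rw [abs_mul, ← sq_abs (pr (A0 u) s), ← sq_abs (pr (A0 u') s)]
      nlinarith [sq_nonneg (|pr (A0 u) s| - |pr (A0 u') s|)]
  rw [Ex_const_mul, Ex_add i1 i2] at k
  have k3 := mul_le_mul_of_nonneg_left e1 hC
  have k4 := mul_le_mul_of_nonneg_left e2 hC
  rw [Nc.EN] at k1 k2
  rw [Nc.Nm, Nc.EN]
  simp only [X]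
  linarith

/-- a flow round a hole -/
theorem flow (hH : HfStmt) : ∃ C : ℝ, 0 ≤ C ∧ ∀ (v : Pt → ℝ) (z : Pt) (c n : ℕ) (k e : ℝ), 1 ≤ c →
    4 * c ≤ n → Pot.Sup (bl z n) v → (∀ y ∈ bl z (4 * c), A0 v y = 0) →
    (∀ y ∈ bl z (4 * c), ∀ d ∈ nn, |dif d v y| ≤ k) → 0 ≤ e → E0 (bl z n) v ≤ e ^ 2 → c * k ≤ e →
    ∃ b, F2 (nnL.edI (Nc.an z c (n + 1))) (A0 v) b ∧ √b ≤ C * e := by
  obtain ⟨C, hC, h⟩ := hH
  refine ⟨2 + C, by positivity, fun v z c n k e c1 cn hv h0 hk e0 hE hc => ⟨_, h v z c n k c1 cn hv h0 hk, ?_⟩⟩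
  have k0 : 0 ≤ k := (abs_nonneg _).trans (hk z (self_mem_bl _ _) (1, 0) (by decide))
  have h1 : (c * k) ^ 2 ≤ e ^ 2 := pow_le_pow_left₀ (by positivity) hc 2
  refine sqrt_le_iff.2 ⟨by positivity, ?_⟩
  nlinarith [mul_le_mul_of_nonneg_left h1 hC, mul_nonneg (mul_nonneg hC hC) (sq_nonneg e),
    mul_nonneg hC (sq_nonneg e), sq_nonneg e]

/-- the swept part -/
theorem termA (hN : LocNStmt) (hH : HfStmt) (hW : SwStmt) (p : Par) : ∃ C : ℝ, 0 ≤ C ∧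
    ∀ Λ ω L N, Env p Λ ω L N → ∀ (z : Pt) (r n : ℕ) (ρ σ P P₀ k e : ℝ) (F : Cfg Pt → ℝ) (u u' : Pt → ℝ),
    Ins z p.r₀ F → EvenF F → 0 ≤ P → Prof Λ p.w p.r₀ L z F r P → 0 ≤ P₀ →
    (∀ c, p.r₀ ≤ c → Nc.Nm Λ z c (fun s => F s ^ 2) ≤ P₀ ^ 2) → Lr (A0 u) u z r σ →
    8 * (p.w : ℝ) ^ 2 * p.r₀ ≤ ρ → 600 * ρ ≤ r → 4 * (p.w * (p.w * r)) ≤ n → p.w * (n + 1) ≤ L →
    Pot.Sup (bl z n) u' → (∀ y ∈ bl z (4 * (p.w * (p.w * r))), A0 u' y = 0) →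
    (∀ y, ∀ d ∈ nn, |dif d u' y| ≤ k) → 0 ≤ e → E0 (bl z n) u' ≤ e ^ 2 → (p.w * (p.w * r) : ℕ) * k ≤ e →
    |ω fun s => F s * X (sw u z ρ) s * X u' s| ≤
      C * σ * ((P + P₀) * (ρ / r) ^ (cw p.w / 4) / (r : ℝ) ^ 2) * e := by
  obtain ⟨CN, hCN, hN⟩ := hN p
  obtain ⟨CP, hCP, hP⟩ := puStmt p
  obtain ⟨CH, hCH, hH⟩ := flow hH
  obtain ⟨CS, hCS, hW⟩ := hW
  refine ⟨CP * (CN * CS * (1 + (p.r₀ : ℝ) ^ 2)) * CH, by positivity, ?_⟩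
  intro Λ ω L N hE z r n ρ σ P P₀ k e F u u' hF hev hP0 hPr hP₀ hNm hL hρ hρr hn hnL hu' h0 hk e0 hE0 hke
  have hG : Gs p Λ L := hE.toGs
  have hw := hG.w4
  have h2 := Lj36.gs_two hG
  have hc := N3.cw_pos hw
  have hw' : (4 : ℝ) ≤ p.w := by exact_mod_cast hw
  have h2' : (2 : ℝ) ≤ p.r₀ := by exact_mod_cast h2
  have h16 : 16 * (p.r₀ : ℝ) ≤ (p.w : ℝ) ^ 2 * p.r₀ := by gcongr; nlinarith
  have hσ : 0 ≤ σ := hL.1
  have hr0 : (0 : ℝ) < r := by linarith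
  have hr1 : p.r₀ ≤ r := by exact_mod_cast (show (p.r₀ : ℝ) ≤ r by linarith)
  have h1 := Nat.mul_le_mul_right r hw
  have h3 := Nat.mul_le_mul_right (p.w * r) hw
  have h4 := Nat.mul_le_mul_right (n + 1) hw
  have h5 : p.w * r ≤ L := le_trans (Nat.mul_le_mul_left _ (by omega)) hnL
  obtain ⟨hQ, -, hsw⟩ := hW (A0 u) u z r σ hL (by omega)
  have hn2 : ⌈2 * ρ⌉₊ + 1 ≤ r := by
    have := Nat.ceil_lt_add_one (show 0 ≤ 2 * ρ by linarith)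
    exact_mod_cast (show ((⌈2 * ρ⌉₊ : ℝ) + 1) ≤ r by linarith)
  obtain ⟨hsup, -, -⟩ := hsw ρ _ (by linarith) (Nat.le_ceil _) hn2
  have k1 := hN Λ L hG z r p.r₀ ρ (CS * σ) P P₀ F _ h5 le_rfl hF hev hP0 hPr hP₀ hNm (by positivity) hQ
    hρ hρr
  change nu Λ p.w z r (fun s => F s * X (sw u z ρ) s) ≤ _ at k1
  obtain ⟨b, hb, hb'⟩ := hH u' z _ n k e (by omega) hn hu' h0 (fun y _ => hk y) e0 hE0 hke
  have k2 := (hP Λ ω L N hE z r (n + 1) _ (fun _ => 1) _ _ b b hr1 (by omega) hnL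
    ((hF.mono hr1).mul (ins_X hsup hn2)) (DepG.const _ _) (fun _ _ _ => rfl) (by simp) hb hb).1
  simp only [mul_one] at k2
  refine le_trans k2 ?_
  set τ := (ρ / r) ^ (cw p.w / 4) with hτ
  have ρ0 : 0 ≤ ρ := by linarith
  have τ0 : 0 ≤ τ := rpow_nonneg (by positivity) _
  have k3 : ((p.r₀ : ℝ) / r) ^ (2 + cw p.w / 2) ≤ (p.r₀ : ℝ) ^ 2 * τ / (r : ℝ) ^ 2 := by
    have a0 : 0 < (p.r₀ : ℝ) / r := by positivity
    rw [rpow_add a0, rpow_two, div_pow, mul_div_right_comm]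
    gcongr
    calc _ ≤ ((p.r₀ : ℝ) / r) ^ (cw p.w / 4) :=
          rpow_le_rpow_of_exponent_ge a0 ((div_le_one hr0).2 (by linarith)) (by linarith)
      _ ≤ _ := by rw [hτ]; gcongr; linarith
  have k4 : P * τ / (r : ℝ) ^ 2 + P₀ * ((p.r₀ : ℝ) / r) ^ (2 + cw p.w / 2) ≤
      (1 + (p.r₀ : ℝ) ^ 2) * ((P + P₀) * τ / (r : ℝ) ^ 2) := by
    have a1 := mul_le_mul_of_nonneg_left k3 hP₀
    have a2 : 0 ≤ (P₀ + (p.r₀ : ℝ) ^ 2 * P) * τ / (r : ℝ) ^ 2 := by positivity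
    have a3 : (1 + (p.r₀ : ℝ) ^ 2) * ((P + P₀) * τ / (r : ℝ) ^ 2) = P * τ / (r : ℝ) ^ 2 +
      P₀ * ((p.r₀ : ℝ) ^ 2 * τ / (r : ℝ) ^ 2) + (P₀ + (p.r₀ : ℝ) ^ 2 * P) * τ / (r : ℝ) ^ 2 := by ring
    linarith
  calc _ ≤ CP * (CN * (CS * σ) * ((1 + (p.r₀ : ℝ) ^ 2) * ((P + P₀) * τ / (r : ℝ) ^ 2))) * (CH * e) := by
        gcongr
        exact k1.trans (by gcongr)
    _ = _ := by ring

/-- the remainder of the decomposition -/
theorem termB (hH : HfStmt) (p : Par) : ∃ C : ℝ, 0 ≤ C ∧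
    ∀ Λ ω L N, Env p Λ ω L N → ∀ (z : Pt) (a n : ℕ) (k e : ℝ) (F : Cfg Pt → ℝ) (v u' : Pt → ℝ),
    p.r₀ ≤ a → Ins z a F → 4 * (p.w * (p.w * a)) ≤ n → p.w * (n + 1) ≤ L →
    Pot.Sup (bl z n) v → Pot.Sup (bl z n) u' →
    (∀ y ∈ bl z (4 * (p.w * (p.w * a))), A0 v y = 0 ∧ A0 u' y = 0) →
    (∀ y ∈ bl z (4 * (p.w * (p.w * a))), ∀ d ∈ nn, |dif d v y| ≤ k ∧ |dif d u' y| ≤ k) → 0 ≤ e →
    E0 (bl z n) v ≤ e ^ 2 → E0 (bl z n) u' ≤ e ^ 2 → (p.w * (p.w * a) : ℕ) * k ≤ e →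
    |ω fun s => F s * (X v s * X u' s)| ≤ C * nu Λ p.w z a F * e ^ 2 := by
  obtain ⟨CP, hCP, hP⟩ := puStmt p
  obtain ⟨CH, hCH, hH⟩ := flow hH
  refine ⟨CP * CH ^ 2, by positivity, ?_⟩
  intro Λ ω L N hE z a n k e F v u' ha hF hn hnL hv hu' h0 hk e0 e1 e2 hke
  have hG : Gs p Λ L := hE.toGs
  have hw := hG.w4
  have h2 := Lj36.gs_two hG
  have h1 := Nat.mul_le_mul_right a hw
  have h3 := Nat.mul_le_mul_right (p.w * a) hw
  obtain ⟨b, hb, hb'⟩ := hH v z _ n k e (by omega) hn hv (fun y hy => (h0 y hy).1)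
    (fun y hy d hd => (hk y hy d hd).1) e0 e1 hke
  obtain ⟨b', hc, hc'⟩ := hH u' z _ n k e (by omega) hn hu' (fun y hy => (h0 y hy).2)
    (fun y hy d hd => (hk y hy d hd).2) e0 e2 hke
  have k2 := (hP Λ ω L N hE z a (n + 1) F (fun _ => 1) _ _ b b' ha (by omega) hnL hF (DepG.const _ _)
    (fun _ _ _ => rfl) (by simp) hb hc).2
  simp only [mul_one] at k2
  have n0 := A51.nu_nonneg hE.ok p.w z a F
  calc _ ≤ _ := k2
    _ ≤ CP * nu Λ p.w z a F * (CH * e * (CH * e)) := by gcongr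
    _ = _ := by ring

/-- the reference insertions -/
theorem termC {p : Par} {Λ : Lat} {ω : Sta} {L N a : ℕ} (hE : Env p Λ ω L N) (z : Pt) (α₁ α₂ : ℝ)
    (h1 : Ins 0 N (T1 a)) (h2 : Ins 0 N (T2 a)) {G : Cfg Pt → ℝ} (hG : Ins z N G) :
    ω (fun s => trl z (Tc ω a α₁ α₂) s * G s) =
      α₁ * cv ω (trl z (T1 a)) G + α₂ * cv ω (trl z (T2 a)) G := by
  have i1 := (h1.trl z).mul hG
  have i2 := (h2.trl z).mul hG
  have e : (fun s => trl z (Tc ω a α₁ α₂) s * G s) = fun s =>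
      α₁ * (trl z (T1 a) s * G s - ω (T1 a) * G s) + α₂ * (trl z (T2 a) s * G s - ω (T2 a) * G s) := by
    funext s; simp only [trl, Tc]; ring
  rw [e, hE.ex_add ((i1.sub (hG.smul _)).smul _) ((i2.sub (hG.smul _)).smul _),
    hE.ex_smul (i1.sub (hG.smul _)).1, hE.ex_smul (i2.sub (hG.smul _)).1, hE.ex_sub i1 (hG.smul _),
    hE.ex_sub i2 (hG.smul _), hE.ex_smul hG.1, hE.ex_smul hG.1, cv, cv, hE.trl 0 z _ h1.1,
    hE.trl 0 z _ h2.1]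

end S55

end Crest.Agent.T145.Ev
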