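import Crest.Agent.T145.FlDef_82
import Crest.Agent.T145.XiD_22

/-!
# Row 145, module Fl: the deterministic leaves `SwStmt`, `AkStmt`, and ways to get `Lr` (helper22)
-/

set_option autoImplicit false

namespace Crest.Agent.T145.Fl

open Finset Pot Pot.Ha91 Xi Real

namespace Sw22

section flat
variable {v : Pt → ℝ} {z : Pt} {n : ℕ} {K : ℝ}

theorem flat_dif (h1 : ∀ e ∈ nn, |dif e v z| ≤ K)
    (h : ∀ x ∈ bl z n, ∀ e ∈ nn, ∀ e' ∈ nn, |difs [e, e'] v x| ≤ K) {y x : Pt} (hy : y ∈ nn)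
    (hx : x ∈ bl z n) : |dif y v x| ≤ (2 * n + 1) * K := by
  obtain ⟨w, rfl⟩ : ∃ w, x = z + w := ⟨x - z, by simp⟩
  have h2 := tay1 (u := dif y v) (add_mem_bl.1 hx) (K := K) fun w hw =>
    ⟨h _ (add_mem_bl.2 hw) _ e1_nn _ hy, h _ (add_mem_bl.2 hw) _ e2_nn _ hy⟩
  have h3 := h1 y hy
  rw [abs_le] at *
  constructor <;> linarith [h2.1, h2.2, h3.1, h3.2]

theorem flat_abs (h0 : v z = 0) (h1 : ∀ e ∈ nn, |dif e v z| ≤ K)
    (h : ∀ x ∈ bl z n, ∀ e ∈ nn, ∀ e' ∈ nn, |difs [e, e'] v x| ≤ K) {x : Pt} (hx : x ∈ bl z n) :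
    |v x| ≤ 6 * (n : ℝ) ^ 2 * K := by
  obtain ⟨w, rfl⟩ : ∃ w, x = z + w := ⟨x - z, by simp⟩
  have hK : 0 ≤ K := (abs_nonneg _).trans (h1 _ e1_nn)
  have h2 := tay1 (u := v) (add_mem_bl.1 hx) (K := (2 * n + 1) * K) fun w hw =>
    ⟨flat_dif h1 h e1_nn (add_mem_bl.2 hw), flat_dif h1 h e2_nn (add_mem_bl.2 hw)⟩
  rw [h0, sub_zero] at h2
  rcases Nat.eq_zero_or_pos n with rfl | hr
  · simpa using h2
  · have : (1 : ℝ) ≤ n := by exact_mod_cast hr
    nlinarith [mul_nonneg hK (mul_nonneg (sub_nonneg.2 this) (Nat.cast_nonneg (α := ℝ) n))]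

end flat

theorem dif_aff (y : Pt) (u : Pt → ℝ) (z : Pt) :
    dif y (Fl.aff u z) = fun _ => (y.1 : ℝ) * dif (1, 0) u z + y.2 * dif (0, 1) u z := by
  funext x
  simp only [dif, Fl.aff, Prod.fst_sub, Prod.snd_sub, Prod.fst_add, Prod.snd_add]
  push_cast; ring

theorem difs_til {ys : List Pt} (h : 2 ≤ ys.length) (u : Pt → ℝ) (z : Pt) :
    difs ys (fun y => u y - Fl.aff u z y) = difs ys u := by
  obtain ⟨y, y', ys, rfl⟩ : ∃ y y' ys', ys = y :: y' :: ys' := by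
    match ys, h with
    | y :: y' :: ys', _ => exact ⟨y, y', ys', rfl⟩
  funext x
  rw [show (fun y => u y - Fl.aff u z y) = u - Fl.aff u z from rfl, difs_sub, Pi.sub_apply,
    difs_cons' y _ (Fl.aff u z), dif_aff, difs_const, sub_zero]

theorem A0_til (u : Pt → ℝ) (z : Pt) : A0 (fun y => u y - Fl.aff u z y) = A0 u := by
  funext x; simp [A0, Fl.aff]; ring

theorem til_self (u : Pt → ℝ) (z : Pt) : u z - Fl.aff u z z = 0 := by simp [Fl.aff]

theorem dif_til {u : Pt → ℝ} {z : Pt} {K : ℝ} (h : ∀ e ∈ nn, ∀ e' ∈ nn, |difs [e, e'] u z| ≤ K) :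
    ∀ e ∈ nn, |dif e (fun y => u y - Fl.aff u z y) z| ≤ K := fun e he => by
  have hK : 0 ≤ K := (abs_nonneg _).trans (h _ e1_nn _ e1_nn)
  have h1 := h _ he _ (neg_nn he)
  rcases mem_nn.1 he with rfl | rfl | rfl | rfl
  · convert hK; simp [dif, Fl.aff]
  · rw [← abs_neg]; convert h1 using 2; simp [difs, dif, Fl.aff, add_assoc, Prod.mk_zero_zero]; ring
  · convert hK; simp [dif, Fl.aff]
  · rw [← abs_neg]; convert h1 using 2; simp [difs, dif, Fl.aff, add_assoc, Prod.mk_zero_zero]; ring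


theorem mem_bl_rad' (z y : Pt) : y ∈ bl z (rad (y - z)) := by
  simpa using (add_mem_bl (z := z)).2 (mem_bl_rad (y - z))

theorem rad_le' {z y : Pt} {n : ℕ} (h : y ∈ bl z n) : rad (y - z) ≤ n :=
  rad_le.2 (add_mem_bl.1 (by rwa [add_sub_cancel]))

theorem abs_A0_two {u : Pt → ℝ} {z : Pt} {K : ℝ} (h : ∀ e ∈ nn, ∀ e' ∈ nn, |difs [e, e'] u z| ≤ K) :
    |A0 u z| ≤ 2 * K := by
  have h1 : A0 u z = difs [(1, 0), (-1, 0)] u z + difs [(0, 1), (0, -1)] u z := by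
    simp [A0, difs, dif, add_assoc, Prod.mk_zero_zero]; ring
  rw [h1, two_mul]
  exact (abs_add_le _ _).trans (add_le_add (h _ (by decide) _ (by decide)) (h _ (by decide) _ (by decide)))

theorem sup_lc (u : Pt → ℝ) (z : Pt) {ρ : ℝ} (hρ : 0 < ρ) {n : ℕ} (hn : 2 * ρ ≤ n + 1) :
    Pot.Sup (bl z n) (lc u z ρ) := fun x hx => by
  rw [lc, sup_chi hρ hn _ fun h => hx (by simpa using (add_mem_bl (z := z)).2 h), mul_zero]

theorem lc_in {u : Pt → ℝ} {z : Pt} {ρ : ℝ} (hρ : 0 < ρ) {n : ℕ} (hn : (n : ℝ) ≤ ρ) {x : Pt}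
    (hx : x ∈ bl z n) : lc u z ρ x = u x := by
  rw [lc, chi_one hρ hn (add_mem_bl.1 (by rwa [add_sub_cancel])), mul_one]

theorem A0_lc {u : Pt → ℝ} {z : Pt} {ρ : ℝ} (hρ : 0 < ρ) {n : ℕ} (hn : (n : ℝ) + 1 ≤ ρ) {x : Pt}
    (hx : x ∈ bl z n) : A0 (lc u z ρ) x = A0 u x :=
  A0_congr fun w hw => lc_in hρ (n := n + 1) (by exact_mod_cast hn) (bl_subset_bl hx (by omega) hw)

end Sw22

open Sw22


theorem swStmt : SwStmt := by
  obtain ⟨C1, h1, hC1⟩ := sm_chi 2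
  refine ⟨6 + 25 * (96 * (2 * (2 ^ 2 * 96 * C1))), by positivity, fun ξ u z r σ ⟨hσ, hL⟩ hr => ?_⟩
  have hr0 : (0 : ℝ) < r := by exact_mod_cast hr
  set v := fun y => u y - Fl.aff u z y with hv
  set K := σ / (r : ℝ) ^ 2 with hK
  have hK0 : 0 ≤ K := by positivity
  have h2 : ∀ n ≤ r + 2, ∀ x ∈ bl z n, ∀ e ∈ nn, ∀ e' ∈ nn, |difs [e, e'] v x| ≤ K :=
    fun n hn x hx e he e' he' => by
      rw [difs_til (by simp)]; exact ((hL x (bl_mono z hn hx)).2 e he e' he').1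
  have h3 : ∀ e ∈ nn, |dif e v z| ≤ K :=
    dif_til fun e he e' he' => ((hL z (self_mem_bl _ _)).2 e he e' he').1
  have h4 : v z = 0 := til_self u z
  have hC : 0 ≤ 25 * (96 * (2 * (2 ^ 2 * 96 * C1))) := by positivity
  refine ⟨fun y hy => ?_, fun y hy => ?_, fun ρ n hρ hn hnr => ?_⟩
  · have h5 := h2 _ ((rad_le' hy).trans (Nat.le_add_right _ _))
    have h6 := rad_le_eu (y - z)
    have h7 := eu_nonneg (y - z)
    refine ⟨(flat_abs h4 h3 h5 (mem_bl_rad' z y)).trans ?_,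
      fun e he => (flat_dif h3 h5 he (mem_bl_rad' z y)).trans ?_⟩
    · calc _ ≤ (6 + 25 * (96 * (2 * (2 ^ 2 * 96 * C1)))) * eu (y - z) ^ 2 * K := by gcongr; linarith
        _ = _ := by rw [hK]; ring
    · calc _ ≤ (6 + 25 * (96 * (2 * (2 ^ 2 * 96 * C1)))) * (eu (y - z) + 1) * K := by
            gcongr; nlinarith
        _ = _ := by rw [hK]; ring
  · have h5 := hL y (bl_mono z (by omega) hy)
    refine ⟨by rw [A0_til, h5.1], ?_⟩
    rw [h5.1, mul_div_assoc]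
    linarith [abs_A0_two fun e he e' he' => (h5.2 e he e' he').1]
  · have hρ0 : 0 < ρ := by linarith
    refine ⟨sup_lc _ z hρ0 (by linarith), ?_, fun k hk y hy => ?_⟩
    · set m := ⌊2 * ρ⌋₊ with hm
      have hm1 : (m : ℝ) ≤ 2 * ρ := Nat.floor_le (by positivity)
      have hm2 : 2 * ρ ≤ m + 1 := (Nat.lt_floor_add_one _).le
      have hmn : m ≤ n := Nat.floor_le_of_le hn
      have h5 := h2 (m + 2) (by omega)
      have hm3 : ((m + 2 : ℕ) : ℝ) ≤ 4 * ρ := by push_cast; linarith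
      have h6 : Sm 2 (bl z (m + 2)) (96 * K * ρ ^ 2) ρ v := fun ys h7 h8 x hx => by
        match ys, h7, h8 with
        | [], _, _ =>
          simp only [difs, List.length_nil, pow_zero, div_one]
          calc _ ≤ _ := flat_abs h4 h3 h5 hx
            _ ≤ 6 * (4 * ρ) ^ 2 * K := by gcongr
            _ = _ := by ring
        | [y], _, h8 =>
          simp only [List.length_singleton, pow_one]
          calc _ ≤ _ := flat_dif h3 h5 (h8 y (by simp)) hx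
            _ ≤ 96 * ρ * K := by gcongr; linarith
            _ = _ := by field_simp
        | [y, y'], _, h8 =>
          calc _ ≤ K := h5 x hx y (h8 y (by simp)) y' (h8 y' (by simp))
            _ ≤ 96 * K := by linarith
            _ = _ := by simp only [List.length_cons, List.length_nil]; field_simp
      have h7 : Sm 2 (bl z (m + 2)) C1 ρ fun x => Xi.chi ρ (x - z) := by
        simpa only [sub_eq_add_neg] using (hC1 ρ hρ0).shift (-z) fun _ _ => trivial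
      have h8 := Sm.smH (h6.mul hρ0 h7 (S := bl z m) fun x hx w hw => bl_subset_bl hx (by omega) hw)
      have h9 : ∀ x ∈ bl z m, sw u z ρ x * A0 (sw u z ρ) x ≤
          96 * K * ρ ^ 2 * (2 * (2 ^ 2 * (96 * K * ρ ^ 2) * C1 / ρ ^ 2)) := fun x hx => by
        refine (le_abs_self _).trans ?_
        rw [abs_mul]
        refine mul_le_mul ?_ (h8.abs_A0 le_rfl hx) (abs_nonneg _) (by positivity)
        rw [sw, lc, abs_mul]
        exact (mul_le_of_le_one_right (abs_nonneg _) (abs_chi_le _ _)).trans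
          (h6.zero (bl_mono z (by omega) hx))
      rw [E0, ← sum_subset (bl_mono z hmn) fun x _ hx => by rw [sw, sup_lc _ z hρ0 hm2 x hx, zero_mul]]
      refine (sum_le_card_nsmul _ _ _ h9).trans ?_
      rw [card_bl, nsmul_eq_mul]
      push_cast
      calc _ ≤ (5 * ρ) ^ 2 * (96 * K * ρ ^ 2 * (2 * (2 ^ 2 * (96 * K * ρ ^ 2) * C1 / ρ ^ 2))) := by
            gcongr; linarith
        _ = 25 * (96 * (2 * (2 ^ 2 * 96 * C1))) * σ ^ 2 * (ρ / r) ^ 4 := by rw [hK]; field_simp; ring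
        _ ≤ _ := by gcongr; linarith
    · have hk' : k ≤ r + 2 := by
        have : (k : ℝ) ≤ n := by linarith
        have : k ≤ n := by exact_mod_cast this
        omega
      rw [sw, A0_lc hρ0 hk hy, A0_til, (hL y (bl_mono z hk' hy)).1, sub_self]

theorem akStmt : AkStmt := by
  intro W hW
  have hW2 : (2 : ℝ) ≤ W := by exact_mod_cast hW
  obtain ⟨C, h0, hC⟩ := shell (W := W) (by linarith)
  have h1 : ∀ R : ℝ, 1 ≤ R → |Ak W R - shI W| ≤ C / R := fun R hR =>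
    hC R hR _ (by rw [mul_assoc]; exact Nat.le_ceil _)
  set s := smoothTransition (1 / 2) with hs
  have hs0 : 0 < s := smoothTransition.pos_of_pos (by norm_num)
  have h2 : ∀ t : ℝ, |t| ≤ 3 / 2 → s ^ 2 ≤ cut1 1 2 t := fun t ht => by
    have := abs_le.1 ht
    rw [cut1, pow_two]
    exact mul_le_mul (smoothTransition.monotone (by linarith)) (smoothTransition.monotone (by linarith))
      hs0.le (smoothTransition.nonneg _)
  refine ⟨s ^ 4 / 72, |shI W| + 2 * C, by positivity, fun R hR => ?_⟩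
  have hR0 : 0 < R := by linarith
  have h3 : ∀ x, Xi.chi R x ≤ Xi.chi (W * R) x := chi_le_chi hR0 (by nlinarith)
  have h4 := abs_le.1 (h1 R hR)
  have h5 : C / R ≤ C := div_le_self h0 hR
  refine ⟨?_, by linarith [le_abs_self (shI W)], ?_, h3⟩
  · set a := ⌈2 * R⌉₊
    set b := ⌊R⌋₊
    have ha1 : 2 * R ≤ a := Nat.le_ceil _
    have ha2 : (a : ℝ) < 2 * R + 1 := Nat.ceil_lt_add_one (by positivity)
    have hb1 : (b : ℝ) ≤ R := Nat.floor_le hR0.le
    have hb2 : R / 2 ≤ b := by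
      have h6 : (1 : ℝ) ≤ b := by exact_mod_cast Nat.le_floor (by simpa using hR)
      linarith [Nat.lt_floor_add_one R]
    have h6 : ∀ x ∈ sq ((a : ℤ), (a : ℤ)) b, (2 * R ≤ x.1 ∧ (x.1 : ℝ) ≤ 3 * R) ∧
        2 * R ≤ x.2 ∧ (x.2 : ℝ) ≤ 3 * R := fun x hx => by
      rw [mem_sq] at hx
      simp only at hx
      have a1 : (a : ℝ) ≤ x.1 := by exact_mod_cast hx.1.1
      have a2 : (x.1 : ℝ) + 1 ≤ a + b := by exact_mod_cast hx.1.2
      have a3 : (a : ℝ) ≤ x.2 := by exact_mod_cast hx.2.1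
      have a4 : (x.2 : ℝ) + 1 ≤ a + b := by exact_mod_cast hx.2.2
      exact ⟨⟨by linarith, by linarith⟩, by linarith, by linarith⟩
    have h7 : sq ((a : ℤ), (a : ℤ)) b ⊆ bl 0 ⌈2 * (W * R)⌉₊ := fun x hx => by
      have h8 := h6 x hx
      have h9 : 3 * R ≤ ⌈2 * (W * R)⌉₊ := le_trans (by nlinarith) (Nat.le_ceil _)
      rw [mem_bl_abs]
      simp only [Prod.fst_zero, Prod.snd_zero, sub_zero]
      constructor
      · exact_mod_cast (abs_le.2 ⟨by linarith [h8.1.1], h8.1.2⟩).trans h9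
      · exact_mod_cast (abs_le.2 ⟨by linarith [h8.2.1], h8.2.2⟩).trans h9
    have h8 := sum_le_sum_of_subset_of_nonneg h7
      (f := fun x => (Xi.chi (W * R) x - Xi.chi R x) / eu x ^ 2)
      fun x _ _ => div_nonneg (sub_nonneg.2 (h3 x)) (sq_nonneg _)
    have h9 := card_nsmul_le_sum (sq ((a : ℤ), (a : ℤ)) b)
      (fun x => (Xi.chi (W * R) x - Xi.chi R x) / eu x ^ 2) (s ^ 4 / (18 * R ^ 2)) fun x hx => by
        obtain ⟨⟨a1, a2⟩, a3, a4⟩ := h6 x hx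
        have hWR : 0 < W * R := by positivity
        have k : ∀ t : ℝ, 2 * R ≤ t → t ≤ 3 * R → s ^ 2 ≤ cut1 1 2 (t / (W * R)) := fun t b1 b2 =>
          h2 _ (by rw [abs_of_nonneg (div_nonneg (by linarith) hWR.le), div_le_iff₀ hWR]; nlinarith)
        rw [chi_eq hR0, cut1_zero one_lt_two (t := x.1 / R) (by
          rw [abs_of_nonneg (div_nonneg (by linarith) hR0.le), le_div_iff₀ hR0]; exact a1), zero_mul, sub_zero, chi_eq hWR, eu_sq]
        refine div_le_div₀ (mul_nonneg (cut1_nonneg _ _ _) (cut1_nonneg _ _ _)) ?_ (by nlinarith) (by nlinarith)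
        rw [show s ^ 4 = s ^ 2 * s ^ 2 by ring]
        exact mul_le_mul (k _ a1 a2) (k _ a3 a4) (by positivity) (cut1_nonneg _ _ _)
    rw [card_sq, nsmul_eq_mul] at h9
    push_cast at h9
    calc s ^ 4 / 72 = (R / 2) ^ 2 * (s ^ 4 / (18 * R ^ 2)) := by field_simp; ring
      _ ≤ (b : ℝ) ^ 2 * (s ^ 4 / (18 * R ^ 2)) := by gcongr
      _ ≤ _ := h9.trans h8
  · have h6 := abs_le.1 (h1 (W * R) (by nlinarith))
    have h7 : C / (W * R) ≤ C / R := by gcongr; nlinarith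
    have h8 : 0 ≤ |shI W| / R := by positivity
    rw [add_div, mul_div_assoc, abs_le]
    constructor <;> linarith [h4.1, h4.2, h6.1, h6.2]

/-! ## ways to get `Lr` -/

section lr
variable {ξ ξ' u u' : Pt → ℝ} {z : Pt} {r : ℕ} {σ σ' : ℝ}

theorem Lr.of_smH {S : Set Pt} (hσ : 0 ≤ σ) (h : SmH 3 S (σ / (r : ℝ) ^ 2) r u)
    (hS : ∀ y ∈ bl z (r + 2), y ∈ S) (hξ : ∀ y ∈ bl z (r + 2), ξ y = A0 u y) : Lr ξ u z r σ :=
  ⟨hσ, fun y hy => ⟨hξ y hy, fun e he e' he' => ⟨h.two (by norm_num) (hS y hy) e he e' he',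
    fun e'' he'' => by
      rw [pow_succ, ← div_div]; exact h.three le_rfl (hS y hy) e he e' he' e'' he''⟩⟩⟩

theorem Lr.smH (h : Lr ξ u z r σ) : SmH 3 (bl z (r + 2)) (σ / (r : ℝ) ^ 2) r u := fun ys h0 h1 h2 y hy => by
  match ys, h0, h1, h2 with
  | [e, e'], _, _, h2 => simpa using ((h.2 y hy).2 e (h2 e (by simp)) e' (h2 e' (by simp))).1
  | [e, e', e''], _, _, h2 =>
    simpa [div_div, ← pow_succ] using
      ((h.2 y hy).2 e (h2 e (by simp)) e' (h2 e' (by simp))).2 e'' (h2 e'' (by simp))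

theorem Lr.of_sm {S : Set Pt} (h : Sm 3 S σ r u) (hS : ∀ y ∈ bl z (r + 2), y ∈ S)
    (hξ : ∀ y ∈ bl z (r + 2), ξ y = A0 u y) : Lr ξ u z r σ :=
  Lr.of_smH ((abs_nonneg _).trans (h.zero (hS z (self_mem_bl _ _)))) (Sm.smH h) hS hξ

theorem Lr.of_univ (h : Sm 3 Set.univ σ r u) (z : Pt) : Lr (A0 u) u z r σ :=
  Lr.of_sm h (fun _ _ => trivial) fun _ _ => rfl

theorem Lr.zero (h : ∀ y ∈ bl z (r + 2), ξ y = 0) : Lr ξ (fun _ => 0) z r 0 :=
  ⟨le_rfl, fun y hy => ⟨by rw [h y hy, A0_const]; rfl, fun e _ e' _ =>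
    ⟨by simp [difs, dif], fun e'' _ => by simp [difs, dif]⟩⟩⟩

theorem Lr.mono (h : Lr ξ u z r σ) (hσ : σ ≤ σ') : Lr ξ u z r σ' :=
  ⟨h.1.trans hσ, fun y hy => ⟨(h.2 y hy).1, fun e he e' he' =>
    ⟨((h.2 y hy).2 e he e' he').1.trans (by gcongr), fun e'' he'' =>
      (((h.2 y hy).2 e he e' he').2 e'' he'').trans (by gcongr)⟩⟩⟩


theorem Lr.congr (h : Lr ξ u z r σ) (hξ : ∀ y ∈ bl z (r + 2), ξ' y = ξ y) : Lr ξ' u z r σ :=
  ⟨h.1, fun y hy => ⟨(hξ y hy).trans (h.2 y hy).1, (h.2 y hy).2⟩⟩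

theorem Lr.add (h : Lr ξ u z r σ) (h' : Lr ξ' u' z r σ') : Lr (ξ + ξ') (u + u') z r (σ + σ') :=
  Lr.of_smH (add_nonneg h.1 h'.1) (by rw [add_div]; exact h.smH.add h'.smH) (fun _ hy => hy)
    fun y hy => by rw [A0_add, Pi.add_apply, Pi.add_apply, (h.2 y hy).1, (h'.2 y hy).1]

theorem Lr.sub (h : Lr ξ u z r σ) (h' : Lr ξ' u' z r σ') : Lr (ξ - ξ') (u - u') z r (σ + σ') :=
  Lr.of_smH (add_nonneg h.1 h'.1) (by rw [add_div]; exact h.smH.sub h'.smH) (fun _ hy => hy)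
    fun y hy => by rw [A0_sub, Pi.sub_apply, Pi.sub_apply, (h.2 y hy).1, (h'.2 y hy).1]

theorem Lr.smul (h : Lr ξ u z r σ) (c : ℝ) : Lr (c • ξ) (c • u) z r (|c| * σ) :=
  Lr.of_smH (mul_nonneg (abs_nonneg _) h.1) (by rw [mul_div_assoc]; exact h.smH.smul c) (fun _ hy => hy)
    fun y hy => by rw [A0_smul, Pi.smul_apply, Pi.smul_apply, (h.2 y hy).1]

end lr

/-- the smeared charge centred at `c` is smooth everywhere, at every scale `r ≤ R` -/
theorem lr_xi : ∃ C : ℝ, 0 ≤ C ∧ ∀ (R : ℝ) (c z : Pt) (r : ℕ), 1 ≤ r → (r : ℝ) ≤ R →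
    Lr (fun y => xi R (y - c)) (-fun y => psi R (y - c)) z r (C * (r / R) ^ 2) := by
  obtain ⟨C, h0, hC⟩ := smH_psi 3
  refine ⟨C, h0, fun R c z r hr hR => ?_⟩
  have hr1 : (1 : ℝ) ≤ r := by exact_mod_cast hr
  have h1 := ((hC R R c (hr1.trans hR) (by linarith)).scale (by positivity) (by linarith) hR).smul (-1)
  rw [neg_one_smul] at h1
  refine Lr.of_smH (by positivity) (h1.mono le_rfl Set.Subset.rfl (le_of_eq ?_) (by linarith))
    (fun y _ => le_add_of_nonneg_right (eu_nonneg _)) fun y _ => ?_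
  · simp only [abs_neg, abs_one, one_mul]; field_simp
  · rw [A0_neg, Pi.neg_apply, A0_psi_sub, neg_neg]


/-- the charges along the transport from `R` to `R'` -/
theorem lr_wt : ∃ C : ℝ, 0 ≤ C ∧ ∀ (R R' q t : ℝ) (z : Pt) (r : ℕ), 1 ≤ r → (r : ℝ) ≤ R → R ≤ R' →
    Lr (q • xi R + t • A0 (wt R R')) ((q - t) • (-psi R) + t • (-psi R')) z r
      ((|q - t| + |t|) * (C * (r / R) ^ 2)) := by
  obtain ⟨C, h0, hC⟩ := lr_xi
  refine ⟨C, h0, fun R R' q t z r hr hR hR' => ?_⟩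
  have hr1 : (1 : ℝ) ≤ r := by exact_mod_cast hr
  have h1 := (hC R 0 z r hr hR).smul (q - t)
  have h2 := ((hC R' 0 z r hr (hR.trans hR')).mono (σ' := C * (r / R) ^ 2) (by
    have : 0 < R := by linarith
    have : 0 < R' := by linarith
    gcongr)).smul t
  simp only [sub_zero] at h1 h2
  rw [add_mul]
  refine (h1.add h2).congr fun y _ => ?_
  simp only [A0_wt, Pi.add_apply, Pi.smul_apply, Pi.sub_apply, smul_eq_mul]
  ring

end Crest.Agent.T145.Fl
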