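import Crest.Agent.T145.EvLe_60
import Crest.Agent.T145.EvNum_3
import Crest.Agent.T145.EvXp_81
import Crest.Agent.T145.FlSw_22
import Crest.Agent.T145.EvCr3_60

-- ▼ part T145/EvS2a_48
section

/-!
# Row 145, even sector: tools for the sums of energy stars against a charge (helper48)
-/

set_option autoImplicit false

namespace Crest.Agent.T145.Ev.S48

open Finset Pot Xi Real Fl Lj36

/-- the energy star against a charge with a hole is the reference combination -/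
theorem tc (hS : SemiStmt) (hP : ProdStmt) (hB : BasStmt) (hT : TgStmt) {p : Par} {Λ : Lat} {ω : Sta}
    {L N : ℕ} (hE : Env p Λ ω L N) {z : Pt} {a₁ a₂ : ℕ} (α₁ α₂ φ : ℝ) {ξ : Pt → ℝ} {q : ℤ} (h1 : 1 ≤ a₁)
    (h8 : 8 * a₁ ≤ a₂) (h0 : p.r₀ ≤ a₂) (hL : p.w * a₂ ≤ L) (hz : bl z (p.w * a₂) ⊆ bl 0 N)
    (hq : Chq (bl 0 N) ξ q) (hξ : ∀ y ∈ bl z a₂, ξ y = 0) :
    |ω (fun s => cp ξ φ s * et Λ ω z s) -
      (α₁ * cv ω (trl z (T1 a₁)) (cp ξ φ) + α₂ * cv ω (trl z (T2 a₁)) (cp ξ φ))| ≤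
      16 * nu Λ p.w 0 a₂ fun s => et Λ ω 0 s - Tc ω a₁ α₁ α₂ s := by
  obtain ⟨_, _, -, -, hT⟩ := hT
  obtain ⟨_, -, hB⟩ := hB p
  obtain ⟨⟨t1, -⟩, ⟨t2, -⟩, -⟩ := hT a₁ h1
  obtain ⟨-, b1, -⟩ := hB Λ ω L N hE z
  obtain ⟨-, -, b2, -⟩ := hB Λ ω L N hE 0
  have hG := hE.toGs
  have hw := le_wmul hG a₂
  have hN := hE.le
  have hrg := gs_rg hG
  replace t1 := t1.mono (r' := a₂) (by omega)
  replace t2 := t2.mono (r' := a₂) (by omega)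
  replace b2 := b2.mono (r' := a₂) (by omega)
  have hI : Ins 0 a₂ fun s => et Λ ω 0 s - Tc ω a₁ α₁ α₂ s :=
    b2.sub (((t1.sub_const _).smul _).add ((t2.sub_const _).smul _))
  have up : ∀ {F}, Ins 0 a₂ F → Ins 0 N (trl z F) := fun h =>
    (h.trl z).of_subset ((bl_mono z hw).trans hz)
  have hc := ins_cp hq φ
  obtain ⟨m, hm⟩ := hE.amb 0
  have h := (hP p Λ L hG m (bl 0 N) Unit univ (fun _ => z) (fun _ => a₂)
    (fun _ => trl z fun s => et Λ ω 0 s - Tc ω a₁ α₁ α₂ s) (cp ξ φ) hm.1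
    ⟨by simp, fun _ _ => hI.trl z, fun _ _ => ⟨h0, hL⟩, fun _ _ => hz, fun _ _ _ _ h => (h rfl).elim⟩
    (fun _ _ => Fl.out_cp hξ φ) (Fl.abs_cp_le ξ φ)).1
  simp only [univ_unique, prod_singleton] at h
  rw [← hm.ex_eq ((up hI).mul hc), Le60.nu_trl hS hG h0 hI le_rfl] at h
  refine le_of_eq_of_le (congrArg _ ?_) h
  have e : (fun s => trl z (fun s => et Λ ω 0 s - Tc ω a₁ α₁ α₂ s) s * cp ξ φ s) = fun s =>
      cp ξ φ s * trl z (et Λ ω 0) s - (α₁ * (trl z (T1 a₁) s * cp ξ φ s - ω (T1 a₁) * cp ξ φ s) +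
        α₂ * (trl z (T2 a₁) s * cp ξ φ s - ω (T2 a₁) * cp ξ φ s)) := by
    funext s; simp only [trl, Tc]; ring
  have i1 := ((up t1).mul hc).sub (hc.smul (ω (T1 a₁)))
  have i2 := ((up t2).mul hc).sub (hc.smul (ω (T2 a₁)))
  rw [e, hm.ex_sub (hc.mul (up b2)) ((i1.smul _).add (i2.smul _)), hm.ex_add (i1.smul _) (i2.smul _),
    hm.ex_smul i1.1, hm.ex_smul i2.1, hm.ex_sub ((up t1).mul hc) (hc.smul _),
    hm.ex_sub ((up t2).mul hc) (hc.smul _), hm.ex_smul hc.1, hm.ex_smul hc.1, b1, cv, cv,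
    hE.trl 0 z _ (t1.mono (by omega)).1, hE.trl 0 z _ (t2.mono (by omega)).1]

theorem gr_comm (u v : Pt → ℝ) (z : Pt) : gr u v z = gr v u z := sum_congr rfl fun _ _ => mul_comm _ _

theorem ev_nn (i : Fin 2) : ev i ∈ nn := by fin_cases i <;> decide

/-- the swept potential -/
theorem swp (hD : DetStmt) (hW : SwStmt) : ∃ K : ℝ, 1 ≤ K ∧ ∀ (v : Pt → ℝ) (z : Pt) (σ ℓ ρ : ℝ) (r a n : ℕ),
    Sm 3 Set.univ σ ℓ v → Pot.Sup (bl 0 a) v → 1 ≤ ρ → 4 * ρ ≤ r → r ≤ ℓ → a ≤ n → bl z r ⊆ bl 0 n →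
    Pot.Sup (bl 0 n) (v - sw v z ρ) ∧ Sm 3 Set.univ (K * σ) ρ (v - sw v z ρ) ∧
      gr (v - sw v z ρ) (v - sw v z ρ) z = gr v v z ∧
      (∀ k : ℕ, (k : ℝ) + 2 ≤ ρ → Lk (v - sw v z ρ) z k (K * σ / ℓ) 0 ∧
        ∀ y ∈ bl z k, A0 (v - sw v z ρ) y = 0) ∧
      |E0 (bl 0 n) (v - sw v z ρ) - E0 (bl 0 a) v| ≤ K * σ ^ 2 * (ρ / r) ^ 2 := by
  obtain ⟨C, hC, d1, -, d3⟩ := hD
  obtain ⟨C', hC', hW⟩ := hW
  refine ⟨1 + 392 * C + C', by linarith, fun v z σ ℓ ρ r a n hv hs h1 h2 h3 h4 h5 => ?_⟩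
  have hσ : 0 ≤ σ := (abs_nonneg _).trans (hv.zero (z := 0) trivial)
  have r0 : (0 : ℝ) < r := by linarith
  have hm := Nat.ceil_lt_add_one (show 0 ≤ 2 * ρ by linarith)
  have hm2 : ⌈2 * ρ⌉₊ + 1 ≤ r := by exact_mod_cast (show ((⌈2 * ρ⌉₊ : ℝ) + 1) ≤ r by linarith)
  obtain ⟨-, w1, w2⟩ := hW _ v z r σ (Lr.of_univ (hv.scale r0 h3) z) (by omega)
  obtain ⟨w2, w3, w4⟩ := w2 ρ _ h1 (Nat.le_ceil _) hm2
  obtain ⟨e1, e2, -, e3⟩ := d1 v z σ ℓ ρ hv h1 (h2.trans h3)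
  generalize ⌈2 * ρ⌉₊ = m at *
  generalize sw v z ρ = s at *
  have hsub : bl z m ⊆ bl 0 n := (bl_mono z (by omega)).trans h5
  have hv' := hs.mono (bl_mono 0 h4)
  have hs' := w2.mono hsub
  refine ⟨hv'.sub hs', ((hv.scale (by linarith) (by linarith)).sub e1).mono le_rfl Set.Subset.rfl
    (by nlinarith [mul_nonneg hC hσ, mul_nonneg hC' hσ]) (by linarith), by rw [(e2 _).1, (e2 _).2],
    fun k hk => ⟨fun y hy e he => ⟨((e3 k hk) y hy e he).1.trans ?_, ((e3 k hk) y hy e he).2⟩,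
      fun y hy => by rw [A0_sub]; exact w4 k (by linarith) y hy⟩, ?_⟩
  · have : 0 < ℓ := by linarith
    gcongr; linarith
  have f1 : E1 (bl 0 n) v s = E1 (bl 0 n) s v := by
    rw [← d3 v s 0 n _ hv' Subset.rfl, ← d3 s v 0 n _ hs' Subset.rfl]
    exact sum_congr rfl fun _ _ => gr_comm _ _ _
  have f2 : E0 (bl 0 n) (v - s) = E0 (bl 0 n) v - E1 (bl 0 n) v s - E1 (bl 0 n) s v + E0 (bl 0 n) s := by
    simp only [E0, E1, A0_sub, Pi.sub_apply, ← sum_sub_distrib, ← sum_add_distrib]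
    exact sum_congr rfl fun _ _ => by ring
  have f3 : |E1 (bl 0 n) s v| ≤ 196 * C * σ ^ 2 * (ρ / r) ^ 2 := by
    rw [E1, ← sum_subset hsub fun x _ hx => by rw [w2 x hx, zero_mul]]
    refine (abs_sum_le_sum_abs _ _).trans ((sum_le_card_nsmul _ _ (C * σ * (4 * σ / (r : ℝ) ^ 2))
      fun x hx => ?_).trans ?_)
    · rw [abs_mul]
      exact mul_le_mul (e1.zero trivial) (w1 x (bl_mono z (by omega) hx)).2 (abs_nonneg _) (by positivity)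
    · rw [card_bl, nsmul_eq_mul]
      push_cast
      calc _ ≤ (7 * ρ) ^ 2 * (C * σ * (4 * σ / (r : ℝ) ^ 2)) := by gcongr; linarith
        _ = _ := by ring
  have f4 : (ρ / r) ^ 4 ≤ (ρ / r) ^ 2 :=
    pow_le_pow_of_le_one (by positivity) (by rw [div_le_one r0]; linarith) (by norm_num)
  have f5 := B80.E0_nonneg w2
  have f6 : 0 ≤ σ ^ 2 * (ρ / r) ^ 2 := by positivity
  have f7 := mul_le_mul_of_nonneg_left f4 (show 0 ≤ C' * σ ^ 2 by positivity)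
  rw [f2, f1, B80.E0_congr hv' hs, B80.E0_congr hs' w2, abs_le]
  rw [abs_le] at f3
  constructor <;> nlinarith [mul_nonneg hC' f6]

theorem lk_zero {v : Pt → ℝ} {z : Pt} {n : ℕ} {k : ℝ} (h : ∀ y ∈ bl z (n + 2), v y = 0) (hk : 0 ≤ k) :
    Lk v z n k 0 := fun y hy e he => by
  have h1 : ∀ {m : ℕ} {y e : Pt}, y ∈ bl z m → e ∈ nn → y + e ∈ bl z (m + 1) := fun hy he =>
    bl_subset_bl hy (by omega) (add_nn_mem_bl he _)
  have h2 := h y (bl_mono z (by omega) hy)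
  have h3 := fun e he => h (y + e) (bl_mono z (by omega) (h1 hy he))
  refine ⟨by simp [dif, h2, h3 e he, hk], fun e' he' => ?_⟩
  simp [difs, dif, h2, h3 e he, h3 e' he', h _ (h1 (h1 hy he) he')]

theorem abs_exp_sub {x y : ℝ} (hx : x ≤ 0) (hy : y ≤ 0) : |exp x - exp y| ≤ |x - y| := by
  wlog h : x ≤ y generalizing x y
  · rw [abs_sub_comm, abs_sub_comm x]; exact this hy hx (le_of_not_ge h)
  rw [abs_sub_comm, abs_sub_comm x, abs_of_nonneg (sub_nonneg.2 (exp_le_exp.2 h)),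
    abs_of_nonneg (sub_nonneg.2 h), show exp x = exp y * exp (x - y) by rw [← exp_add]; simp]
  nlinarith [add_one_le_exp (x - y), exp_le_one_iff.2 hy, exp_pos y]

variable {w : ℕ} {t : ℝ}

/-- the gain of the local expansion -/
theorem rp (hw : 4 ≤ w) (ht : 0 < t) (h1 : t ≤ 1) {x e : ℝ} (h0 : 0 ≤ x) (hx : x ≤ t ^ (nr w - 2))
    (he : cw w / 4 ≤ e) : x ^ e ≤ t ^ 26 := by
  have hc := N3.cw_pos hw
  refine (rpow_le_rpow h0 hx (by linarith)).trans ?_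
  rw [← rpow_natCast, ← rpow_mul ht.le, ← rpow_natCast, Nat.cast_sub (by linarith [N3.nr_ge hw])]
  refine rpow_le_rpow_of_exponent_ge ht h1 ?_
  have := N3.nr_cw hw
  have := N3.nr_ge' hw
  push_cast
  nlinarith

theorem g_bd {g : ℝ} (hw : 4 ≤ w) (h : |π * g - 2| ≤ ew w / 100) : 1 / 4 ≤ g ∧ g ≤ 1 := by
  rw [abs_le] at h
  have := N3.ew_le hw
  constructor <;> nlinarith [pi_gt_three, pi_lt_four, h.1, h.2]

/-- the pattern `Xp` at `M = t⁻¹ ^ k` -/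
theorem xp_t {f : Sta → ℝ → ℝ → ℝ → ℝ → Prop} (h : Xp f) (p : Par) {k : ℕ} (hk : k ≠ 0) :
    ∃ (C : ℝ) (n : ℕ), 2 ≤ C ∧ ∀ Λ ω L N, Env p Λ ω L N → ∀ R Y t : ℝ, Maj p Λ L R Y →
      |π * gk ω R - 2| ≤ ew p.w / 100 → 0 < t → C * t ≤ 1 → Y ≤ t ^ n → R ≤ t ^ n * L →
      ∃ C' ε, C' ≤ C ∧ ε ≤ C * t ^ k ∧ f ω R (t⁻¹ ^ k) C' ε := by
  obtain ⟨C, n, c1, h⟩ := h p
  refine ⟨2 * C, (k * n + k) * 4, by linarith, fun Λ ω L N hE R Y t hM hg ht hC hY hR => ?_⟩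
  have t1 : t ≤ 1 := by nlinarith
  have Y0 := (X81.Y_pos hM).le
  obtain ⟨g1, g2⟩ := g_bd hE.w4 hg
  have h2 : 2 ≤ t⁻¹ := by rw [le_inv_comm₀ two_pos ht]; nlinarith
  have h3 : C * (t⁻¹ ^ k) ^ n * t ^ ((k * n + k) * 4) ≤ 1 := by
    calc _ ≤ C * ((t⁻¹ ^ k) ^ n * t ^ (k * n + 1)) := by
          rw [mul_assoc]; gcongr C * (_ * ?_); exact N3.pow_anti ht t1 (by omega)
      _ ≤ 1 := by rw [N3.inv_pow_mul ht]; nlinarith
  refine ⟨C, _, by linarith, ?_, h Λ ω L N hE R Y _ hM g1 g2 (h2.trans (le_self_pow₀ (by linarith) hk))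
    (le_trans (by gcongr) h3) ?_⟩
  · have h4 : Y ^ (1 / 4 : ℝ) ≤ t ^ (k * n + k) := by
      refine (rpow_le_rpow Y0 hY (by norm_num)).trans_eq ?_
      rw [pow_mul, one_div]
      exact pow_rpow_inv_natCast (by positivity) (n := 4) (by norm_num)
    calc _ ≤ C * ((t⁻¹ ^ k) ^ n * t ^ (k * n + k) + 1 / t⁻¹ ^ k) := by gcongr
      _ = _ := by rw [N3.inv_pow_mul ht, inv_pow, one_div, inv_inv]; ring
  · calc _ ≤ C * (t⁻¹ ^ k) ^ n * (t ^ ((k * n + k) * 4) * L) := by gcongr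
      _ ≤ 1 * L := by rw [← mul_assoc]; gcongr
      _ = _ := one_mul _

/-- the size of the coefficients -/
theorem alpha {p : Par} {E : Dt} {R P : ℝ} {a₁ a₂ : ℕ} {α₁ α₂ : ℝ} (hw : 4 ≤ p.w) (ht : 0 < t)
    (h1 : t ≤ 1) (hR : 0 < R) (hP : 0 ≤ P) (h : E.Dc p R P t a₁ a₂ α₁ α₂) :
    max |α₁| |α₂| * (a₁ : ℝ) ^ 2 ≤ P * t⁻¹ ^ 76 := by
  have a0 : (0 : ℝ) < a₁ := lt_of_lt_of_le (by positivity) h.lo
  have h2 : R / a₁ ≤ t⁻¹ ^ (24 * nr p.w) := by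
    rw [div_le_iff₀ a0, inv_pow, ← div_eq_inv_mul, le_div_iff₀ (by positivity)]; exact h.lo
  have he := N3.ew_pos hw
  refine h.b.trans (mul_le_mul_of_nonneg_left ((rpow_le_rpow (by positivity) h2 (by positivity)).trans ?_) hP)
  rw [← rpow_natCast, ← rpow_mul (by positivity), ← rpow_natCast]
  refine rpow_le_rpow_of_exponent_le ((one_le_inv₀ ht).2 h1) ?_
  push_cast
  linarith [N3.nr_ew_le hw]

end Crest.Agent.T145.Ev.S48
end

-- ▼ part T145/EvS2_48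

/-!
# Row 145, even sector: `Ev.S2Stmt` (helper48)
-/

set_option autoImplicit false

namespace Crest.Agent.T145.Ev

open Finset Pot Xi Real Fl Lj36

namespace S48

theorem imp {t : ℝ} (ht : 0 < t) (j k : ℕ) : t⁻¹ ^ j * t ^ (j + k) = t ^ k := by
  rw [pow_add, ← mul_assoc, ← mul_pow, inv_mul_cancel₀ ht.ne', one_pow, one_mul]

/-- one site, no charge near the site -/
theorem core (hS : SemiStmt) (hP : ProdStmt) (hB : BasStmt) (hT : TgStmt) (h1 : X1Stmt) (h2 : X2Stmt)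
    (p : Par) : ∃ (C : ℝ) (n : ℕ), 2 ≤ C ∧ ∀ (E : Dt) (W : ℕ) (D₀ R Y P t : ℝ), E.Bs p W D₀ R Y P → 0 < t →
    C * t ≤ 1 → Y ≤ t ^ n → R ≤ t ^ n * E.L → ∀ a₁ a₂ α₁ α₂, E.Dc p R P t a₁ a₂ α₁ α₂ →
    ∀ (z : Pt) (u : Pt → ℝ) (M : ℝ), M = t⁻¹ ^ (50 * nr p.w + 90) → eu z ≤ M * R → p.w * a₂ ≤ E.L →
      bl z (p.w * a₂) ⊆ bl 0 E.N → ⌊M * R⌋₊ + 1 ≤ E.N → Sv R M u → E0 (bl 0 ⌊M * R⌋₊) u ≤ log M →
      (∀ y ∈ bl z a₂, A0 u y = 0) → Lk u z (6 * a₁) (t⁻¹ ^ 3 / R) 0 →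
      |E.ω (fun s => cp (A0 u) 0 s * E.e z s) - α₁ * kp (gk E.ω R) a₁ * gr u u z *
        exp (-2 * π ^ 2 * gk E.ω R * E0 (bl 0 ⌊M * R⌋₊) u)| ≤ P * t ^ (2 * nr p.w + 13) / R ^ 2 := by
  obtain ⟨C₁, n₁, c1, h1⟩ := xp_t h1 p (k := 50 * nr p.w + 90) (by omega)
  obtain ⟨C₂, n₂, c2, h2⟩ := xp_t h2 p (k := 50 * nr p.w + 90) (by omega)
  refine ⟨16 + 2 * C₁ + C₂, n₁ + n₂, by linarith, ?_⟩
  intro E W D₀ R Y P t hb ht hC hY hR a₁ a₂ α₁ α₂ hd z u M hM hz hL hzN hN hu hE0 hA hk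
  have hE := hb.ed.toEnv
  have hw := hE.w4
  have t1 : t ≤ 1 := by nlinarith
  have R1 := hb.maj.1
  have P1 := hb.P1
  have L0 : (0 : ℝ) ≤ E.L := Nat.cast_nonneg _
  have hν := N3.nr_ge hw
  have ct : ∀ c, c ≤ 16 + 2 * C₁ + C₂ → c * t ≤ 1 := fun c h => (mul_le_mul_of_nonneg_right h ht.le).trans hC
  obtain ⟨C₁', ε₁, a1, a2, x1⟩ := h1 _ _ _ _ hE R Y t hb.maj hb.crit ht (ct _ (by linarith))
    (hY.trans (N3.pow_anti ht t1 (by omega)))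
    (hR.trans (mul_le_mul_of_nonneg_right (N3.pow_anti ht t1 (by omega)) L0))
  obtain ⟨_, ε₂, -, b2, x2⟩ := h2 _ _ _ _ hE R Y t hb.maj hb.crit ht (ct _ (by linarith))
    (hY.trans (N3.pow_anti ht t1 (by omega)))
    (hR.trans (mul_le_mul_of_nonneg_right (N3.pow_anti ht t1 (by omega)) L0))
  clear h1 h2
  rw [← hM] at x1 x2
  have hα := alpha hw ht t1 (by linarith) (by linarith) hd
  have hr := hb.r0.trans hd.r1
  have h8 := hd.le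
  have key := (tc hS hP hB hT hE α₁ α₂ 0 (by linarith [hb.r8, hd.r1]) h8 (by omega) hL hzN
    (chq_A0 hu.1 hN) hA).trans (mul_le_mul_of_nonneg_left hd.nu (by norm_num))
  have lo := hd.lo
  have hi := hd.hi
  generalize nr p.w = ν at *
  have s1 : R / M ≤ a₁ := by
    rw [hM, inv_pow, div_inv_eq_mul]
    exact (mul_le_mul_of_nonneg_left (N3.pow_anti ht t1 (by omega)) (by linarith)).trans lo
  have s2 : (a₁ : ℝ) ≤ M * R := calc
    _ ≤ R * 1 := hi.trans (by gcongr; exact pow_le_one₀ ht.le t1)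
    _ ≤ M * R := by rw [mul_comm, hM]; gcongr; exact one_le_pow₀ ((one_le_inv₀ ht).2 t1)
  have s3 : a₁ * (t⁻¹ ^ 3 / R) ≤ 1 := calc
    _ ≤ R * t ^ (3 + 0) * (t⁻¹ ^ 3 / R) := by
        gcongr; exact hi.trans (by gcongr ?_ * ?_; exact N3.pow_anti ht t1 (by omega))
    _ = 1 := by field_simp
  have h1 := (x1 a₁ z u u _ 0 s1 s2 hz hu hu hk hk).1 s3
  have h2 := (x2 a₁ z u u s1 s2 hz hu hu).1 hE0
  clear x1 x2
  simp only [mul_zero, zero_mul, add_zero] at h1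
  have A1 := le_max_left |α₁| |α₂|
  have A2 := le_max_right |α₁| |α₂|
  have A3 : 0 ≤ max |α₁| |α₂| := (abs_nonneg _).trans A1
  generalize max |α₁| |α₂| = A at *
  have n1 : A * t ^ (50 * ν + 90) ≤ P * t ^ (2 * ν + 14) / R ^ 2 := by
    rw [le_div_iff₀ (by positivity), ← imp ht 76 (2 * ν + 14), ← mul_assoc]
    calc _ = A * (R * t ^ (24 * ν)) ^ 2 * t ^ (76 + (2 * ν + 14)) := by ring
      _ ≤ A * (a₁ : ℝ) ^ 2 * t ^ (76 + (2 * ν + 14)) := by gcongr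
      _ ≤ _ := by gcongr
  have n2 : A * (a₁ * (t⁻¹ ^ 3 / R)) ^ 4 ≤ P * t ^ (2 * ν + 14) / R ^ 2 := calc
    _ = A * (a₁ : ℝ) ^ 2 * ((a₁ : ℝ) ^ 2 * (t⁻¹ ^ 3 / R) ^ 4) := by ring
    _ ≤ P * t⁻¹ ^ 76 * ((R * t ^ (10 * ν)) ^ 2 * (t⁻¹ ^ 3 / R) ^ 4) := by gcongr
    _ = P * (t⁻¹ ^ 88 * t ^ (20 * ν)) / R ^ 2 := by field_simp; ring
    _ ≤ P * (t⁻¹ ^ 88 * t ^ (88 + (2 * ν + 14))) / R ^ 2 := by
        gcongr P * (_ * ?_) / _; exact N3.pow_anti ht t1 (by omega)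
    _ = _ := by rw [imp ht]
  have n3 : P * t ^ (16 + 2 * ν) / R ^ 2 ≤ P * t ^ (2 * ν + 14) / R ^ 2 := by
    gcongr P * ?_ / _; exact N3.pow_anti ht t1 (by omega)
  have n4 : (16 + 2 * C₁ + C₂) * (P * t ^ (2 * ν + 14) / R ^ 2) ≤ P * t ^ (2 * ν + 13) / R ^ 2 := calc
    _ = (16 + 2 * C₁ + C₂) * t * (P * t ^ (2 * ν + 13) / R ^ 2) := by ring
    _ ≤ 1 * _ := by gcongr
    _ = _ := one_mul _
  have m1 := mul_le_mul A1 (h1.trans (add_le_add a2 (mul_le_mul_of_nonneg_right a1 (by positivity))))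
    (abs_nonneg _) A3
  have m2 := mul_le_mul A2 (h2.trans b2) (abs_nonneg _) A3
  rw [← abs_mul] at m1 m2
  have m3 := mul_le_mul_of_nonneg_left n1 (show 0 ≤ C₁ by linarith)
  have m4 := mul_le_mul_of_nonneg_left n2 (show 0 ≤ C₁ by linarith)
  have m5 := mul_le_mul_of_nonneg_left n1 (show 0 ≤ C₂ by linarith)
  rw [abs_le] at key m1 m2 ⊢
  constructor <;> linarith [key.1, key.2, m1.1, m1.2, m2.1, m2.2]

/-- three zones -/
theorem zones {T A B : Finset Pt} {f : Pt → ℝ} {x y : ℝ} (hA : ∀ z ∈ A, |f z| ≤ x) (hy : 0 ≤ y)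
    (hB : ∀ z ∈ B, z ∉ A → |f z| ≤ y) {Z : Finset Pt} (hZ : Z ⊆ T) :
    |∑ z ∈ Z, f z| ≤ A.card * x + B.card * y + ∑ z ∈ T \ B, |f z| := by
  have h1 : ∑ z ∈ B ∩ A, |f z| ≤ A.card * x := (sum_le_sum_of_subset_of_nonneg inter_subset_right
    fun _ _ _ => abs_nonneg _).trans ((sum_le_card_nsmul _ _ x hA).trans_eq (nsmul_eq_mul _ _))
  have h2 : ∑ z ∈ B \ A, |f z| ≤ B.card * y := (sum_le_card_nsmul _ _ y fun z hz =>
    hB z (mem_sdiff.1 hz).1 (mem_sdiff.1 hz).2).trans (by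
      rw [nsmul_eq_mul]; gcongr; exact sdiff_subset)
  have h3 : ∑ z ∈ T ∩ B, |f z| ≤ ∑ z ∈ B, |f z| :=
    sum_le_sum_of_subset_of_nonneg inter_subset_right fun _ _ _ => abs_nonneg _
  have h4 : ∑ z ∈ Z, |f z| ≤ ∑ z ∈ T, |f z| := sum_le_sum_of_subset_of_nonneg hZ fun _ _ _ => abs_nonneg _
  linarith [abs_sum_le_sum_abs f Z, sum_inter_add_sum_sdiff T B fun z => |f z|,
    sum_inter_add_sum_sdiff B A fun z => |f z|]

theorem num_le {t R P P₀ r r₀ q Me B : ℝ} (ht : 0 < t) (t1 : t ≤ 1) (hR : 0 < R) (hP : 1 ≤ P) (h0 : 0 ≤ P₀)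
    (hr : R * t ≤ 2 * r) (q0 : 0 ≤ q) (hq : q ≤ t ^ 26) (hM : Me ≤ t⁻¹ ^ 2) (_ : 0 ≤ B)
    (hB : B ≤ (r₀ / r) ^ 2 * t ^ 26) :
    t⁻¹ * (1 + t⁻¹) * (P * Me * q / r ^ 2 + P₀ * B) ≤ 8 * (1 + P₀ * r₀ ^ 2) * (P * t ^ 13 / R ^ 2) := by
  have r0 : 0 < r := by nlinarith [mul_pos hR ht]
  have x1 : 1 ≤ t⁻¹ := (one_le_inv₀ ht).2 t1
  have h1 : 1 / r ^ 2 ≤ (2 / (R * t)) ^ 2 := by
    rw [← one_div_pow]
    exact pow_le_pow_left₀ (by positivity) (by rw [div_le_div_iff₀ r0 (by positivity)]; linarith) 2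
  have h2 : B ≤ r₀ ^ 2 * (P * t⁻¹ ^ 2 * t ^ 26 * (1 / r ^ 2)) := calc
    _ ≤ _ := hB
    _ = r₀ ^ 2 * (1 * 1 * t ^ 26 * (1 / r ^ 2)) := by ring
    _ ≤ _ := by gcongr; exact one_le_pow₀ x1
  calc _ ≤ t⁻¹ * (t⁻¹ + t⁻¹) * (P * t⁻¹ ^ 2 * t ^ 26 * (1 / r ^ 2) +
        P₀ * (r₀ ^ 2 * (P * t⁻¹ ^ 2 * t ^ 26 * (1 / r ^ 2)))) := by
        rw [div_eq_mul_one_div]
        have : 0 ≤ P * Me * q * (1 / r ^ 2) + P₀ * B ∨ P * Me * q * (1 / r ^ 2) + P₀ * B ≤ 0 := le_total _ _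
        rcases this with h | h
        · gcongr
        · exact (mul_nonpos_of_nonneg_of_nonpos (by positivity) h).trans (by positivity)
    _ ≤ t⁻¹ * (t⁻¹ + t⁻¹) * (P * t⁻¹ ^ 2 * t ^ 26 * (2 / (R * t)) ^ 2 +
        P₀ * (r₀ ^ 2 * (P * t⁻¹ ^ 2 * t ^ 26 * (2 / (R * t)) ^ 2))) := by gcongr
    _ = 8 * (1 + P₀ * r₀ ^ 2) * (P * t ^ 20 / R ^ 2) := by field_simp; ring
    _ ≤ _ := by gcongr _ * (_ * ?_ / _); exact N3.pow_anti ht t1 (by norm_num)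

theorem pg {g : ℝ} (h0 : 1 / 4 ≤ g) (h1 : g ≤ 1) : -2 * π ^ 2 * g ≤ 0 ∧ |-2 * π ^ 2 * g| ≤ 32 := by
  have : π ^ 2 ≤ 16 := by nlinarith [pi_pos, pi_lt_four]
  rw [abs_le]
  refine ⟨?_, ?_, ?_⟩ <;> nlinarith [sq_nonneg π]

end S48
open S48

set_option maxHeartbeats 1600000 in
theorem s2Stmt (hS : SemiStmt) (hP : ProdStmt) (hL : LocStmt) (hW : SwStmt) (h1 : X1Stmt) (h2 : X2Stmt)
    (hF : FarEStmt) (hD : DetStmt) (hB : BasStmt) (hT : TgStmt) : S2Stmt := fun _ => ⟨0, fun p W D₀ _ _ => by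
  obtain ⟨C₀, n₀, c0, core⟩ := core hS hP hB hT h1 h2 p
  obtain ⟨C₁, c1, le⟩ := leStmt hS hP hL hW p
  obtain ⟨K, k1, swp⟩ := swp hD hW
  obtain ⟨P₀, p0, hB⟩ := hB p
  obtain ⟨C₂, c2, hF⟩ := hF p
  obtain ⟨_, C₃, -, c3, hT⟩ := hT
  obtain ⟨G, G0, hG⟩ : ∃ G : ℝ, 0 ≤ G ∧ G = 1 + C₁ * (8 * (1 + P₀ * (p.r₀ : ℝ) ^ 2)) + 64 * C₃ * K :=
    ⟨_, by positivity, rfl⟩
  have w0 : (0 : ℝ) ≤ p.w := Nat.cast_nonneg _
  have w1 : (0 : ℝ) ≤ 8 * (p.w : ℝ) ^ 2 * p.r₀ := by positivity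
  obtain ⟨C, hC1, hC2, hC3, hC4, hC5, hC6⟩ : ∃ C : ℝ, C₀ ≤ C ∧ K ≤ C ∧ 100 * (p.w : ℝ) ≤ C ∧
      8 * (p.w : ℝ) ^ 2 * p.r₀ ≤ C ∧ 600 ≤ C ∧ 25 * G + 9 + 4 * C₂ ≤ C :=
    ⟨C₀ + K + 100 * p.w + 8 * (p.w : ℝ) ^ 2 * p.r₀ + 600 + (25 * G + 9 + 4 * C₂), by linarith, by linarith,
      by linarith, by linarith, by linarith, by linarith⟩
  refine ⟨C, n₀ + (50 * nr p.w + 90 + 1), by linarith, ?_⟩
  intro E R Y P t hb ht hC hY hR a₁ a₂ α₁ α₂ hd v hv hE0 Z hZ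
  have hE := hb.ed.toEnv
  have hGs := hE.toGs
  have hw := hE.w4
  have t1 : t ≤ 1 := by nlinarith
  have R1 := hb.maj.1
  have R0 : 0 < R := by linarith
  have P1 := hb.P1
  have L0 : (0 : ℝ) ≤ E.L := Nat.cast_nonneg _
  have ct : ∀ c, c ≤ C → c * t ≤ 1 := fun c h => (mul_le_mul_of_nonneg_right h ht.le).trans hC
  have x1 : 1 ≤ t⁻¹ := (one_le_inv₀ ht).2 t1
  have xC : C ≤ t⁻¹ := by rwa [← one_div, le_div_iff₀ ht]
  replace core := fun z u => core E W D₀ R Y P t hb ht (ct _ hC1) (hY.trans (N3.pow_anti ht t1 (by omega)))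
    (hR.trans (mul_le_mul_of_nonneg_right (N3.pow_anti ht t1 (by omega)) L0)) a₁ a₂ α₁ α₂ hd z u _ rfl
  have hα := (mul_le_mul_of_nonneg_right (le_max_left _ _) (by positivity)).trans
    (alpha hw ht t1 R0 (by linarith) hd)
  obtain ⟨g1, g2⟩ := g_bd hw hb.crit
  have ha₁ : 1 ≤ a₁ := by linarith [hb.r8, hd.r1]
  have hkp := ((hT a₁ ha₁).2.2.2 _ g1 g2).2
  have hkp0 : 0 ≤ kp (gk E.ω R) a₁ := by unfold kp; positivity
  have hρ := N3.one_le_R hw hb.maj ht t1 hY (k := nr p.w + 1) (by omega)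
  have rp := fun x e => rp hw ht t1 (x := x) (e := e)
  have up := hd.up
  have h8 := hd.le
  have hr0 := hb.r0.trans hd.r1
  have hν := N3.nr_ge hw
  obtain ⟨μ, hμ⟩ : ∃ μ, nr p.w = μ + 2 := ⟨nr p.w - 2, by omega⟩
  rw [hμ] at core hρ up hR hν
  simp only [hμ, Nat.add_sub_cancel] at rp
  obtain ⟨M, hM⟩ : ∃ M, M = t⁻¹ ^ (50 * (μ + 2) + 90) := ⟨_, rfl⟩
  obtain ⟨ρ, hρe⟩ : ∃ ρ, ρ = R * t ^ (μ + 2) := ⟨_, rfl⟩
  rw [← hM] at core
  rw [pow_succ, ← mul_assoc, ← hρe] at hρ up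
  have pm : ∀ j, j ≤ 50 * (μ + 2) + 90 → t⁻¹ ^ j ≤ M := fun j hj => hM ▸ pow_le_pow_right₀ x1 hj
  have ρC : C ≤ ρ := xC.trans (by rwa [← one_div, div_le_iff₀ ht])
  have t2 := ct 2 (by linarith)
  have t4 := ct 4 (by linarith)
  have ρR : ρ ≤ R * t := by rw [hρe]; gcongr; exact pow_le_of_le_one ht.le t1 (by omega)
  have r1 : (⌊R * t⌋₊ : ℝ) ≤ R * t := Nat.floor_le (by positivity)
  have r2 : R * t ≤ 2 * ⌊R * t⌋₊ := by linarith [Nat.lt_floor_add_one (R * t)]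
  have a1 : (⌊t⁻¹ * R⌋₊ : ℝ) ≤ t⁻¹ * R := Nat.floor_le (by positivity)
  have a2 := (Nat.lt_floor_add_one (t⁻¹ * R)).le
  have b1 : (⌊t⁻¹ ^ (μ + 2) * R⌋₊ : ℝ) ≤ t⁻¹ ^ (μ + 2) * R := Nat.floor_le (by positivity)
  have b2 := (Nat.lt_floor_add_one (t⁻¹ ^ (μ + 2) * R)).le
  have M0 : 0 < M := by rw [hM]; positivity
  have ρ0 : 0 < ρ := by linarith
  have T1 : (⌊M * R⌋₊ : ℝ) ≤ M * R := Nat.floor_le (by positivity)
  have xR : R ≤ t⁻¹ * R := le_mul_of_one_le_left R0.le x1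
  have tR : R * t ≤ R := mul_le_of_le_one_right R0.le t1
  have yR : t⁻¹ ^ 2 * R ≤ t⁻¹ ^ (μ + 2) * R := by gcongr; omega
  have F5 : ⌊R * t⌋₊ ≤ ⌊t⁻¹ * R⌋₊ := Nat.floor_le_floor (by linarith)
  have hbM : 2 * (⌊t⁻¹ ^ (μ + 2) * R⌋₊ : ℝ) ≤ M * R := calc
    _ ≤ t⁻¹ * (t⁻¹ ^ (μ + 2) * R) := by gcongr; linarith
    _ ≤ M * R := by rw [← mul_assoc, ← pow_succ']; gcongr; exact pm _ (by omega)
  have F2 : 2 * ⌊t⁻¹ ^ (μ + 2) * R⌋₊ ≤ ⌊M * R⌋₊ := Nat.le_floor (by exact_mod_cast hbM)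
  have F3 : 16 * p.w * (⌊t⁻¹ * R⌋₊ + 1) ≤ ⌊t⁻¹ ^ (μ + 2) * R⌋₊ := Nat.le_floor (by
    push_cast
    calc _ ≤ 16 * p.w * (2 * (t⁻¹ * R)) := by gcongr; linarith
      _ = 32 * p.w * (t⁻¹ * R) := by ring
      _ ≤ t⁻¹ * (t⁻¹ * R) := by gcongr; linarith
      _ ≤ _ := by rw [← mul_assoc, ← pow_two]; exact yR)
  have hsv : Sv R M v := X81.sv_mono hv R0 (by positivity) (by simpa using pm 1 (by omega))
  have hs := hv.1
  have hm := hv.2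
  replace core := fun z u h1 h2 h3 h4 (h5 : Pot.Sup (bl 0 ⌊M * R⌋₊) u) h6 => core z u h1 h2 h3 h4 ⟨h5, h6⟩
  replace hsv := hsv.2
  clear hv
  generalize ⌊R * t⌋₊ = r at *
  generalize ⌊t⁻¹ * R⌋₊ = a at *
  generalize ⌊t⁻¹ ^ (μ + 2) * R⌋₊ = b at *
  generalize ⌊M * R⌋₊ = T at *
  have F1 : 100 * (p.w * T) ≤ E.L := by
    have : 100 * ((p.w : ℝ) * T) ≤ E.L := calc
      _ ≤ C * (M * (t ^ (50 * (μ + 2) + 90 + 1) * E.L)) := by
          rw [← mul_assoc]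
          refine mul_le_mul hC3 (T1.trans (mul_le_mul_of_nonneg_left (hR.trans
            (mul_le_mul_of_nonneg_right (N3.pow_anti ht t1 (by omega)) L0)) (by rw [hM]; positivity)))
            (Nat.cast_nonneg _) (by linarith)
      _ = C * t * E.L := by rw [← mul_assoc M, hM, imp ht, pow_one, mul_assoc]
      _ ≤ 1 * E.L := by gcongr
      _ = _ := one_mul _
    exact_mod_cast this
  have hN := hE.le
  have a3 : (a₂ : ℝ) + 2 ≤ ρ := by linarith [mul_le_mul_of_nonneg_left t2 ρ0.le]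
  have r0 : (0 : ℝ) < r := by linarith
  have q1 : ρ / r ≤ t ^ μ := by
    rw [div_le_iff₀ r0]
    calc ρ = t ^ μ * t * (R * t) := by rw [hρe]; ring
      _ ≤ t ^ μ * t * (2 * r) := by gcongr
      _ = t ^ μ * (2 * t * r) := by ring
      _ ≤ t ^ μ * (1 * r) := by gcongr
      _ = _ := by ring
  have q2 : 600 * ρ ≤ r := by
    have := (div_le_iff₀ r0).1 (q1.trans (pow_le_of_le_one ht.le t1 (by omega)))
    linarith [mul_le_mul_of_nonneg_right (ct 600 hC5) r0.le]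
  have F4 : a₂ + 2 ≤ r := by exact_mod_cast (show (a₂ : ℝ) + 2 ≤ r by linarith)
  have F6 := le_wmul hGs (a + 1)
  have F7 := le_wmul hGs T
  rw [mul_assoc] at F3
  have F8 : p.w * r ≤ p.w * T := Nat.mul_le_mul_left _ (by omega)
  have F9 : p.w * a₂ ≤ p.w * T := Nat.mul_le_mul_left _ (by omega)
  have hs' := hs.mono (bl_mono 0 (show a ≤ T by omega))
  have lM : log t⁻¹ + 1 ≤ log M := by
    have h := log_le_log (by positivity) (pm 3 (by omega))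
    have h' := log_le_log two_pos (show 2 ≤ t⁻¹ by linarith)
    rw [log_pow] at h
    push_cast at h
    linarith [log_two_gt_d9]
  replace core := fun z u (hz : z ∈ bl 0 b) => core z u
    ((by simpa using eu_le_of_bl hz : eu z ≤ 2 * b).trans hbM) (by omega) (bl_subset_bl hz (by omega)) (by omega)
  obtain ⟨f, hf⟩ : ∃ f : Pt → ℝ, ∀ z, f z = E.ω (fun s => cp (A0 v) 0 s * E.e z s) -
    α₁ * kp (gk E.ω R) a₁ * gr v v z * exp (-2 * π ^ 2 * gk E.ω R * E0 (bl 0 a) v) := ⟨_, fun _ => rfl⟩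
  have z2 : ∀ z ∈ bl 0 b, z ∉ bl 0 (a + (a₂ + 2)) → |f z| ≤ P * t ^ (2 * (μ + 2) + 13) / R ^ 2 :=
    fun z hz hz' => by
    have h0 : ∀ y ∈ bl z (a₂ + 2), v y = 0 := fun y hy => hs y fun h =>
      hz' (bl_subset_bl h (by omega) (mem_bl_comm.1 hy))
    rw [hf, ← B80.E0_congr hs' hs]
    exact core z v hz hs' hsv (by rw [B80.E0_congr hs' hs]; linarith) (fun y hy => sup_A0 hs y fun h =>
      hz' (bl_subset_bl h (by omega) (mem_bl_comm.1 hy)))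
      (lk_zero (fun y hy => h0 y (bl_mono z (by omega) hy)) (by positivity))
  have hrg := gs_rg hGs
  obtain ⟨-, -, i1, i2, -, -, i3⟩ := hB _ _ _ _ hE 0
  have hq : Chq (bl 0 E.N) (A0 v) 0 := chq_A0 hs (by omega)
  have eℓ : R / t⁻¹ = R * t := div_inv_eq_mul R t
  have z1 : ∀ z ∈ bl 0 (a + (a₂ + 2)), |f z| ≤ G * (P * t ^ 13 / R ^ 2) := fun z hz => by
    obtain ⟨s1, s2, s3, s4, s5⟩ := swp v z _ _ ρ r a T hm hs (by linarith) (by linarith) (by linarith)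
      (by omega) (bl_subset_bl hz (by omega))
    have s6 : K * t⁻¹ ^ 2 * (ρ / r) ^ 2 ≤ K * t ^ 94 := by
      rw [mul_assoc, ← imp ht 2 94]
      gcongr K * (_ * ?_)
      exact (pow_le_pow_left₀ (by positivity) q1 2).trans (by
        rw [← pow_mul]; exact N3.pow_anti ht t1 (by omega))
    replace s5 := s5.trans s6
    have s7 : K * t ^ 94 ≤ 1 := N3.mul_pow_le (by linarith) ht hC hC2 (by norm_num)
    have e1 := core z _ (bl_mono 0 (by omega) hz) s1 ((s2.mono le_rfl Set.Subset.rfl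
      (le_trans (by rw [pow_two]; gcongr; linarith) (pm 2 (by omega))) (by linarith)).scale
        (by rw [hM]; positivity) (by
          rw [hM, inv_pow, div_inv_eq_mul, hρe]; gcongr _ * ?_; exact N3.pow_anti ht t1 (by omega)))
      (by linarith [(abs_le.1 s5).2]) (s4 a₂ a3).2 fun y hy e he => ⟨((s4 (6 * a₁) (by
        have : (8 : ℝ) * a₁ ≤ a₂ := by exact_mod_cast h8
        push_cast; linarith [a₁.cast_nonneg (α := ℝ)])).1 y hy e he).1.trans (by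
          rw [div_div_eq_mul_div, pow_succ, pow_two]; gcongr; linarith), ((s4 (6 * a₁) (by
        have : (8 : ℝ) * a₁ ≤ a₂ := by exact_mod_cast h8
        push_cast; linarith [a₁.cast_nonneg (α := ℝ)])).1 y hy e he).2⟩
    have e2 := (le _ _ _ _ hE (E.e 0) p.r₀ R P P₀ (t⁻¹ ^ 2) le_rfl (i1.mono (by omega)) i2 R0 (by linarith)
      hb.prof (by linarith) (fun c hc => (i3 0 c (bl_mono 0 (by omega))).1) (one_le_pow₀ x1) 0 Unit ∅
      (fun _ => 0) (fun _ => 0) (fun _ _ => 0) z r t⁻¹ 0 (A0 v) v 0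
      ⟨by simp, by simp, by simp, by simp, by simp⟩ (by simp) hq (by omega) (bl_subset_bl hz (by omega))
      (by simp) (Lr.of_univ (hm.scale r0 (by linarith)) z)
      (by
        rw [inv_pow, div_inv_eq_mul]
        linarith [mul_le_mul_of_nonneg_right r2 ht.le, mul_le_mul_of_nonneg_right t2 r0.le])
      ((r1.trans tR).trans (le_mul_of_one_le_left R0.le (one_le_pow₀ x1)))).1 ρ (by linarith) q2
    simp only [prod_empty, one_mul, mul_one, (hB _ _ _ _ hE z).2.1, mul_comm (et _ _ z _), ← A0_sub,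
      mul_assoc C₁] at e2
    have c4 := N3.cw_pos hw
    have rρ : (p.r₀ : ℝ) ≤ ρ := by
      have : (p.r₀ : ℝ) ≤ a₂ := by exact_mod_cast (show p.r₀ ≤ a₂ by omega)
      linarith
    replace e2 := e2.trans (mul_le_mul_of_nonneg_left (num_le (r₀ := p.r₀) ht t1 R0 P1 (by linarith) r2
      (by positivity) (rp _ _ (by positivity) q1 le_rfl)
      (by simpa using rpow_le_rpow_of_exponent_le (one_le_pow₀ (n := 2) x1) (Le60.ew_le_one (by omega)))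
      (by positivity) (by
        rw [rpow_add' (by positivity) (by positivity), rpow_two]
        exact mul_le_mul_of_nonneg_left (rp _ _ (by positivity) (le_trans (by gcongr) q1) (by linarith))
          (by positivity))) c1)
    have e3 := (abs_exp_sub (x := -2 * π ^ 2 * gk E.ω R * E0 (bl 0 T) (v - sw v z ρ))
      (y := -2 * π ^ 2 * gk E.ω R * E0 (bl 0 a) v)
      (mul_nonpos_of_nonpos_of_nonneg (pg g1 g2).1 (B80.E0_nonneg s1))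
      (mul_nonpos_of_nonpos_of_nonneg (pg g1 g2).1 (B80.E0_nonneg hs))).trans
      (show _ ≤ 32 * (K * t ^ 94) by
        rw [← mul_sub, abs_mul]
        exact mul_le_mul (pg g1 g2).2 s5 (abs_nonneg _) (by norm_num))
    have e4 : |gr v v z| ≤ 2 * (t⁻¹ / (R * t)) ^ 2 := by
      have := fun i => pow_le_pow_left₀ (abs_nonneg _) (hm.one (by norm_num) (Xi.ev_nn i) (z := z) trivial) 2
      simp only [sq_abs, eℓ] at this
      rw [gr, Fin.sum_univ_two, ← pow_two, ← pow_two, abs_of_nonneg (by positivity)]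
      linarith [this 0, this 1]
    have e5 : |α₁ * kp (gk E.ω R) a₁| ≤ C₃ * (P * t⁻¹ ^ 76) := by
      rw [abs_mul, abs_of_nonneg hkp0]
      calc _ ≤ |α₁| * (C₃ * (a₁ : ℝ) ^ 2) := by gcongr
        _ = C₃ * (|α₁| * (a₁ : ℝ) ^ 2) := by ring
        _ ≤ _ := by gcongr
    have e6 := mul_le_mul (mul_le_mul e5 e4 (abs_nonneg _) (by positivity)) e3 (abs_nonneg _) (by positivity)
    rw [← abs_mul, ← abs_mul] at e6
    replace e6 := e6.trans (show _ ≤ 64 * C₃ * K * (P * t ^ 13 / R ^ 2) from calc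
      _ = 64 * C₃ * K * (P * t ^ 14 / R ^ 2) := by field_simp; ring
      _ ≤ _ := by gcongr _ * (_ * ?_ / _); exact N3.pow_anti ht t1 (by norm_num))
    replace e1 := e1.trans (show _ ≤ P * t ^ 13 / R ^ 2 by
      gcongr _ * ?_ / _; exact N3.pow_anti ht t1 (by omega))
    rw [s3] at e1
    rw [hf, hG, abs_le]
    rw [abs_le] at e1 e2 e6
    constructor <;> linarith [e1.1, e1.2, e2.1, e2.2, e6.1, e6.2]
  have z3 : ∑ z ∈ bl 0 (E.N + E.N / 4) \ bl 0 b, |f z| ≤ 4 * C₂ * (P * t ^ 11) := by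
    have hI : Ins 0 (a + 1) (cp (A0 v) 0) := ins_cp (chq_A0 hs le_rfl) 0
    have h := hF _ _ _ _ hE R P R0 (by linarith) hb.prof (a + 1) b _ (by omega) (by rw [mul_assoc]; omega)
      (by rw [mul_assoc]; omega) hI
    have n1 := (hS E.Λ p.w (a + 1) 0 hE.ok (gs_le hGs (by omega))).1 _ hI
    have n2 := n1.2.2.2.1 1 (Fl.abs_cp_le _ _)
    have a0 : (0 : ℝ) < a + 1 := by positivity
    have c4 := N3.cw_pos hw
    have u1 : max (((a + 1 : ℕ) : ℝ) / R) (R / (a + 1 : ℕ)) ^ ew p.w ≤ 2 * t⁻¹ := by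
      push_cast
      refine le_trans (rpow_le_rpow (le_max_of_le_left (by positivity)) (max_le ?_ ?_) (ew_pos hw).le) (by
        simpa using rpow_le_rpow_of_exponent_le (show 1 ≤ 2 * t⁻¹ by linarith) (Le60.ew_le_one (by omega)))
      · rw [div_le_iff₀ R0]; linarith
      · rw [div_le_iff₀ a0]; exact (xR.trans a2).trans (le_mul_of_one_le_left a0.le (by linarith))
    have u2 : ∀ c : ℕ, b ≤ c → (((a + 1 : ℕ) : ℝ) / c) ^ (cw p.w / 2) ≤ t ^ 26 := fun c hc => by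
      have hc' : (b : ℝ) ≤ c := by exact_mod_cast hc
      have b0 : (1 : ℝ) ≤ b := by exact_mod_cast (show 1 ≤ b by omega)
      refine rp _ _ (by positivity) ?_ (by linarith)
      rw [div_le_iff₀ (by linarith)]
      push_cast
      calc (a : ℝ) + 1 ≤ 2 * (t⁻¹ * R) := by linarith
        _ = 2 * t * (t⁻¹ ^ (μ + 2) * R * t ^ μ) := by rw [pow_add, inv_pow t μ]; field_simp
        _ ≤ 2 * t * (2 * c * t ^ μ) := by gcongr 2 * t * (?_ * _); linarith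
        _ = t ^ μ * (4 * t * c) := by ring
        _ ≤ t ^ μ * (1 * c) := by gcongr
        _ = _ := by ring
    refine le_trans (le_of_eq (sum_congr rfl fun z hz => ?_)) (h.trans ?_)
    · have h0 : ∀ y ∈ bl z 1, v y = 0 := fun y hy => hs y fun h =>
        (mem_sdiff.1 hz).2 (bl_subset_bl h (by omega) (mem_bl_comm.1 hy))
      rw [hf, show gr v v z = 0 from sum_eq_zero fun i _ => by
        rw [dif, h0 z (self_mem_bl _ _), h0 _ (add_nn_mem_bl (Xi.ev_nn i) z), sub_zero, mul_zero],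
        mul_zero, zero_mul, sub_zero]
    · calc _ ≤ C₂ * 1 * P * (2 * t⁻¹) * (t ^ 26 + t ^ 26) := by
            have := n1.1
            gcongr
            · exact u2 b le_rfl
            · exact u2 _ (by omega)
        _ = 4 * C₂ * (P * t ^ 25) := by field_simp; ring
        _ ≤ _ := by gcongr _ * (_ * ?_); exact N3.pow_anti ht t1 (by norm_num)
  have fin := zones z1 (by positivity) z2 (hZ.trans hb.ed.hi)
  have k1 : ((bl (0 : Pt) (a + (a₂ + 2))).card : ℝ) * (G * (P * t ^ 13 / R ^ 2)) ≤ 25 * G * (P * t ^ 11) := by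
    have : ((a₂ : ℝ) + 2) ≤ a := by exact_mod_cast (show a₂ + 2 ≤ a by omega)
    rw [card_bl]
    push_cast
    calc _ ≤ (5 * (t⁻¹ * R)) ^ 2 * (G * (P * t ^ 13 / R ^ 2)) := by gcongr; linarith
      _ = _ := by field_simp; ring
  have k2 : ((bl (0 : Pt) b).card : ℝ) * (P * t ^ (2 * (μ + 2) + 13) / R ^ 2) ≤ 9 * (P * t ^ 11) := by
    have : R ≤ t⁻¹ ^ 2 * R := le_mul_of_one_le_left R0.le (one_le_pow₀ x1)
    rw [card_bl]
    push_cast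
    calc _ ≤ (3 * (t⁻¹ ^ (μ + 2) * R)) ^ 2 * (P * t ^ (2 * (μ + 2) + 13) / R ^ 2) := by gcongr; linarith
      _ = 9 * (P * (t⁻¹ ^ (2 * (μ + 2)) * t ^ (2 * (μ + 2) + 13))) := by
          rw [mul_comm 2 (μ + 2), pow_mul t⁻¹]; field_simp; ring
      _ ≤ _ := by rw [imp ht]; gcongr _ * (_ * ?_); exact N3.pow_anti ht t1 (by norm_num)
  have k3 : (25 * G + 9 + 4 * C₂) * (P * t ^ 11) ≤ P * t ^ 6 := calc
    _ = (25 * G + 9 + 4 * C₂) * t ^ 5 * (P * t ^ 6) := by ring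
    _ ≤ 1 * _ := by gcongr; exact N3.mul_pow_le (by linarith) ht hC hC6 (by norm_num)
    _ = _ := one_mul _
  refine le_of_eq_of_le (congrArg _ ?_) (fin.trans (by linarith))
  simp only [hf, sum_sub_distrib, Dt.bb, ← sum_mul, ← mul_sum]
  field_simp⟩

end Crest.Agent.T145.Ev
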