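import Crest.Agent.T145.EvOut_9
import Crest.Agent.T145.EvXp_81
import Crest.Agent.T145.EvDet_91
import Crest.Agent.T145.EvBas_9
import Crest.Agent.T145.EvS4D_36
import Crest.Agent.T145.EvLe_60
import Crest.Agent.T145.EvNum_3
import Crest.Agent.T145.FlA_51
import Crest.Agent.T145.FlBas_4
import Crest.Agent.T145.FlSw_22
import Crest.Agent.T145.EvS2_48
import Crest.Agent.T145.EvS1A_55

-- ▼ part T145/EvS4m_60
section

/-!
# Row 145, even sector: the middle sites of S4 (helper60)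
-/

set_option autoImplicit false

namespace Crest.Agent.T145.Ev.M60

open Finset Pot Xi Real Fl Le60 Lj36 Si60

variable {p : Par} {W : ℕ} {E : Dt} {D₀ R Y P t α₁ α₂ : ℝ} {a₁ a₂ : ℕ}





/-- the norm of `X χ` -/
theorem nu_chi (hS : SemiStmt) (p : Par) : ∃ C : ℝ, 0 ≤ C ∧ ∀ Λ L, Gs p Λ L → ∀ (ρ : ℝ) (h : ℕ), 1 ≤ ρ →
    2 * ρ ≤ h → (h : ℝ) ≤ 3 * ρ → p.r₀ ≤ h → Pot.Sup (bl 0 (h - 1)) (Xi.chi ρ) ∧ Ins 0 h (X (Xi.chi ρ)) ∧
      nu Λ p.w 0 h (X (Xi.chi ρ)) ≤ C := by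
  obtain ⟨C₁, h1, hC⟩ := sm_chi 1
  obtain ⟨C₂, h2, hB⟩ := Fl.bareStmt p.F
  refine ⟨C₂ * (6 * C₁ ^ 2 * 6 ^ 2) + 1, by positivity, fun Λ L hG ρ h ρ1 a1 a2 a3 => ?_⟩
  have h1' : 1 ≤ h := by exact_mod_cast (show (1 : ℝ) ≤ h by linarith)
  have s : Pot.Sup (bl 0 (h - 1)) (Xi.chi ρ) :=
    sup_chi (by linarith) (by rw [Nat.cast_sub h1']; push_cast; linarith)
  have i : Ins 0 h (X (Xi.chi ρ)) := E30.ins_prA0 s (by omega)
  refine ⟨s, i, ((hS Λ p.w h 0 hG.mem.ok (gs_le hG a3)).1 _ i).2.1.trans ?_⟩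
  have e : E0 (bl 0 (h - 1)) (Xi.chi ρ) ≤ 6 * C₁ ^ 2 * 6 ^ 2 := by
    refine (B80.E0_le s fun e he x _ => (hC ρ (by linarith)).one le_rfl he trivial).trans ?_
    rw [card_bl]
    push_cast [Nat.cast_sub h1']
    calc _ ≤ 6 * (C₁ / ρ) ^ 2 * (6 * ρ) ^ 2 := by
          gcongr
          · have : (1 : ℝ) ≤ h := by exact_mod_cast h1'
            linarith
          · linarith
      _ = _ := by field_simp
  have k := ((hB Λ hG.mem 0 (h - 1) _ s).2.2 (p.w * h) (by have := le_wmul hG h; omega)).1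
  refine (B9.nm_le hG.mem.ok i.2 (P := √(C₂ * (6 * C₁ ^ 2 * 6 ^ 2))) ?_).trans_eq
    (by rw [sq_sqrt (by positivity)])
  rw [sq_sqrt (by positivity), Nc.Nm]
  simp only [abs_pow, sq_abs]
  exact k.trans (by gcongr)


end Crest.Agent.T145.Ev.M60
end

-- ▼ part T145/EvS4B_60
section

/-!
# Row 145, even sector: S4, sweeping the charge at the middle sites (helper60)
-/

set_option autoImplicit false

namespace Crest.Agent.T145.Ev.S4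

open Finset Pot Xi Real Fl Le60 Lj36 Si60 M60

namespace B60

set_option maxHeartbeats 400000 in
/-- sweeping the charge at the scale `R t ^ nr` -/
theorem swp (hS : SemiStmt) (hP : ProdStmt) (hL : LocStmt) (hW : SwStmt) (hB : BasStmt)
    (p : Par) : ∃ C : ℝ, 1 ≤ C ∧ ∀ (W : ℕ) (E : Dt) (D₀ R Y P t : ℝ),
    E.Bs p W D₀ R Y P → 0 < t → C * t ≤ 1 → Y ≤ t ^ nr p.w →
    ∀ (c : Pt) (ι : Type) (I : Finset ι) (x : ι → Pt) (rr : ι → ℕ) (H : ι → Cfg Pt → ℝ) (z : Pt) (r : ℕ)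
      (σ φ : ℝ) (ξ u : Pt → ℝ) (q : ℤ), Far p E.L (bl c E.N) I x rr H →
      (∀ i ∈ I, ∀ y ∈ bl (x i) (rr i), ξ y = 0) → Chq (bl c E.N) ξ q → p.w * r ≤ E.L →
      bl z (p.w * r) ⊆ bl c E.N → (∀ i ∈ I, Disjoint (bl (x i) (p.w * rr i)) (bl z (p.w * r))) →
      Lr ξ u z r σ → R * t ^ 2 ≤ r → r * t ^ 2 ≤ R →
      |E.ω (fun s => (∏ i ∈ I, H i s) * cp ξ φ s * E.e z s) - E.ω fun s =>
        (∏ i ∈ I, H i s) * cp (ξ - A0 (sw u z (R * t ^ nr p.w))) φ s * E.e z s| ≤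
        (∏ i ∈ I, nu E.Λ p.w (x i) (rr i) (H i)) * (σ * (1 + σ)) * (P * t ^ 20 / R ^ 2) := by
  obtain ⟨C₁, hC₁, h1⟩ := leStmt hS hP hL hW p
  obtain ⟨P₀, hP₀, hB'⟩ := hB p
  have hK : (0 : ℝ) ≤ (p.w : ℝ) ^ 2 * p.r₀ := by positivity
  have hK' : 0 ≤ C₁ * (1 + P₀ * (p.r₀ : ℝ) ^ 2) := by positivity
  refine ⟨600 + 8 * ((p.w : ℝ) ^ 2 * p.r₀) + C₁ * (1 + P₀ * (p.r₀ : ℝ) ^ 2), by linarith, ?_⟩
  intro W E D₀ R Y P t h t0 hC hY c ι I x rr H z r σ φ ξ u q hF hξ hq hrL hz hd hLr r1 r2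
  have hE := h.ed.toEnv
  have hG := hE.toGs
  have hw := hG.w4
  have hn : 4 ≤ nr p.w := le_trans (by norm_num) (N3.nr_ge hw)
  have hσ := hLr.1
  have P1 := h.P1
  have R1 := h.maj.1
  have t1 : 600 * t ≤ 1 := le_trans (by gcongr; linarith) hC
  have t2 : 8 * ((p.w : ℝ) ^ 2 * p.r₀) * t ≤ 1 := le_trans (by gcongr; linarith) hC
  have t3 : C₁ * (1 + P₀ * (p.r₀ : ℝ) ^ 2) * t ≤ 1 := le_trans (by gcongr; linarith) hC
  have t4 : t ≤ 1 := by linarith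
  have hw' : (4 : ℝ) ≤ p.w := by exact_mod_cast hw
  have h2' : (2 : ℝ) ≤ p.r₀ := by exact_mod_cast gs_two hG
  have h16 : 16 * (p.r₀ : ℝ) ≤ (p.w : ℝ) ^ 2 * p.r₀ := by gcongr; nlinarith
  have ρ1 : 1 ≤ R * t ^ nr p.w * t := by
    rw [mul_assoc, ← pow_succ]; exact N3.one_le_R hw h.maj t0 t4 hY (by linarith)
  have ρ2 : R * t ^ nr p.w ≤ r * t ^ (nr p.w - 2) := by
    rw [show nr p.w = 2 + (nr p.w - 2) by omega, pow_add, ← mul_assoc, Nat.add_sub_cancel_left]; gcongr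
  have ρ0 : 0 < R * t ^ nr p.w := by positivity
  generalize R * t ^ nr p.w = ρ at *
  have r0 : (0 : ℝ) < r := lt_of_lt_of_le (by positivity) r1
  have ρ4 : 8 * (p.w : ℝ) ^ 2 * p.r₀ ≤ ρ := by nlinarith [mul_le_mul_of_nonneg_left ρ1 hK]
  have ρ5 : 600 * ρ ≤ r := by
    have := ρ2.trans (mul_le_mul_of_nonneg_left (pow_le_of_le_one t0.le t4 (by omega)) r0.le)
    nlinarith
  have hrg : E.Λ.rg ≤ p.r₀ := by have := gs_rg hG; omega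
  obtain ⟨-, -, b1, b2, -, -, b3⟩ := hB' _ _ _ _ hE 0
  have M1 : 1 ≤ t⁻¹ ^ 2 := one_le_pow₀ (one_le_inv₀ t0 |>.2 t4)
  have k1 := (h1 _ _ _ _ hE (E.e 0) p.r₀ R P P₀ (t⁻¹ ^ 2) le_rfl (E30.ins_le b1 hrg) b2 (by linarith)
    (by linarith) h.prof (by linarith) (fun c hc => (b3 0 c (bl_mono 0 (hrg.trans hc))).1) M1 c ι I x rr H
    z r σ φ ξ u q hF hξ hq hrL hz hd hLr (by rwa [inv_pow, div_inv_eq_mul])
    (by rwa [inv_pow, le_inv_mul_iff₀' (by positivity)])).1 ρ ρ4 ρ5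
  rw [Dt.e, (hB' _ _ _ _ hE z).2.1] at k1
  simp only [mul_right_comm _ (et E.Λ E.ω z _)] at k1
  have hPi := prod_nonneg hS hG hF
  generalize ∏ i ∈ I, nu E.Λ p.w (x i) (rr i) (H i) = PP at *
  have c0 := cw_pos hw
  have e1 : (ρ / r) ^ (cw p.w / 4) ≤ t ^ 26 := calc
    _ ≤ (t ^ (nr p.w - 2)) ^ (cw p.w / 4) := by gcongr; rwa [div_le_iff₀' r0]
    _ = t ^ (((nr p.w : ℝ) - 2) * (cw p.w / 4)) := by
      rw [← rpow_natCast, ← rpow_mul t0.le, Nat.cast_sub (by omega), Nat.cast_two]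
    _ ≤ t ^ ((26 : ℕ) : ℝ) := rpow_le_rpow_of_exponent_ge t0 t4 (by push_cast; linarith [N3.nr_cw hw])
    _ = _ := rpow_natCast _ _
  have e2 : (t⁻¹ ^ 2) ^ ew p.w ≤ t⁻¹ := calc
    _ ≤ (t⁻¹ ^ 2) ^ (1 / 2 : ℝ) := rpow_le_rpow_of_exponent_le M1 (by linarith [N3.ew_le hw])
    _ = _ := by rw [← sqrt_eq_rpow, sqrt_sq (by positivity)]
  have e3 : 1 / (r : ℝ) ^ 2 ≤ 1 / (R * t ^ 2) ^ 2 := by gcongr
  have e4 : ((p.r₀ : ℝ) / r) ^ (2 + cw p.w / 2) ≤ (p.r₀ : ℝ) ^ 2 * (P * t⁻¹ * t ^ 26 * (1 / (r : ℝ) ^ 2)) := by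
    rw [rpow_add (by positivity), rpow_two]
    have : ((p.r₀ : ℝ) / r) ^ (cw p.w / 2) ≤ t ^ 26 :=
      (rpow_le_rpow_of_exponent_ge (by positivity) (by rw [div_le_one r0]; linarith)
        (by linarith : cw p.w / 4 ≤ _)).trans (le_trans (by gcongr; linarith) e1)
    calc _ ≤ ((p.r₀ : ℝ) / r) ^ 2 * (1 * 1 * t ^ 26) := by gcongr; linarith
      _ ≤ ((p.r₀ : ℝ) / r) ^ 2 * (P * t⁻¹ * t ^ 26) := by gcongr; exact (one_le_inv₀ t0).2 t4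
      _ = _ := by ring
  have e5 : P * (t⁻¹ ^ 2) ^ ew p.w * (ρ / r) ^ (cw p.w / 4) / (r : ℝ) ^ 2 +
      P₀ * ((p.r₀ : ℝ) / r) ^ (2 + cw p.w / 2) ≤ (1 + P₀ * (p.r₀ : ℝ) ^ 2) * t * (P * t ^ 20 / R ^ 2) := calc
    _ ≤ P * t⁻¹ * t ^ 26 * (1 / (r : ℝ) ^ 2) +
        P₀ * ((p.r₀ : ℝ) ^ 2 * (P * t⁻¹ * t ^ 26 * (1 / (r : ℝ) ^ 2))) := by
      rw [div_eq_mul_one_div]; gcongr
    _ = (1 + P₀ * (p.r₀ : ℝ) ^ 2) * (P * t⁻¹ * t ^ 26 * (1 / (r : ℝ) ^ 2)) := by ring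
    _ ≤ (1 + P₀ * (p.r₀ : ℝ) ^ 2) * (P * t⁻¹ * t ^ 26 * (1 / (R * t ^ 2) ^ 2)) := by gcongr
    _ = _ := by field_simp
  refine k1.trans ?_
  calc _ ≤ C₁ * PP * (σ * (1 + σ)) * ((1 + P₀ * (p.r₀ : ℝ) ^ 2) * t * (P * t ^ 20 / R ^ 2)) := by gcongr
    _ = C₁ * (1 + P₀ * (p.r₀ : ℝ) ^ 2) * t * (PP * (σ * (1 + σ)) * (P * t ^ 20 / R ^ 2)) := by ring
    _ ≤ 1 * (PP * (σ * (1 + σ)) * (P * t ^ 20 / R ^ 2)) := by gcongr
    _ = _ := one_mul _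

end B60

set_option maxHeartbeats 400000 in
/-- B: middle sites, sweeping the charge -/
theorem bS60 (hS : SemiStmt) (hP : ProdStmt) (hL : LocStmt) (hW : SwStmt) (hX : XfStmt) (hB : BasStmt) :
    BS := by
  refine fun w => ⟨0, fun p W D₀ _ _ => ?_⟩
  obtain ⟨C₁, c1, k1⟩ := B60.swp hS hP hL hW hB p
  obtain ⟨C₂, c2, -, k2, -⟩ := hX
  obtain ⟨C₅, c5, k5⟩ := nu_chi hS p
  have l8 : 0 ≤ log 8 := log_nonneg (by norm_num)
  obtain ⟨σ, σ0, hσ⟩ : ∃ σ : ℝ, 0 ≤ σ ∧ σ = C₂ * (1 + log 8) := ⟨_, by positivity, rfl⟩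
  have w0 : (0 : ℝ) ≤ p.w := p.w.cast_nonneg
  have r0 : (0 : ℝ) ≤ p.r₀ := p.r₀.cast_nonneg
  have wr : (0 : ℝ) ≤ p.w * p.r₀ := by positivity
  have q1 : 0 ≤ C₅ * (σ * (1 + σ)) := by positivity
  obtain ⟨C, d1, d2, d4, d5, d7⟩ : ∃ C : ℝ, C₁ ≤ C ∧ C₂ ≤ C ∧ 200 * (p.w + 1) ≤ C ∧
      8 * (p.w * p.r₀) ≤ C ∧ C₅ * (σ * (1 + σ)) ≤ C :=
    ⟨C₁ + C₂ + 200 * (p.w + 1) + 8 * (p.w * p.r₀) + C₅ * (σ * (1 + σ)), by linarith, by linarith,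
      by linarith, by linarith, by linarith⟩
  refine ⟨C, nr p.w + 1, c1.trans d1, fun E R Y P t h t0 hC hY hRL z z2 z1 => ?_⟩
  have hE := h.ed.toEnv
  have hG := hE.toGs
  have hw := hG.w4
  have C1 := c1.trans d1
  have t1 := N3.t_le_one C1 t0 hC
  have ct : ∀ A : ℝ, A ≤ C → A * t ≤ 1 := fun A hA => le_trans (by gcongr) hC
  have tt : t ^ (nr p.w + 1) ≤ t := pow_le_of_le_one t0.le t1 (by omega)
  have P1 := h.P1
  have RC : C ≤ R := X81.big hw h.maj (le_trans (by gcongr; exact hY.trans tt) hC) (by linarith)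
  have R0 : 0 < R := by linarith
  have hw' : (4 : ℝ) ≤ p.w := by exact_mod_cast hw
  have L0 : (0 : ℝ) ≤ E.L := E.L.cast_nonneg
  have L3 : 8 * R ≤ E.L := by
    have : R ≤ t * E.L := hRL.trans (by gcongr)
    nlinarith only [this, ct 8 (by linarith), L0]
  have k1 := k1 W E D₀ R Y P t h t0 (ct _ d1) (hY.trans (N3.pow_anti t0 t1 (by omega)))
  have wt := ct _ d4
  have Rt : 0 < R * t := by positivity
  have wRt : 200 * (p.w * (R * t)) + 200 * (R * t) ≤ R := by nlinarith only [wt, R0]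
  have wRt0 : 0 ≤ p.w * (R * t) := by positivity
  have hχ1 : 1 ≤ R / (16 * p.w) := by rw [le_div_iff₀ (by positivity)]; linarith
  have hχ2 : p.w * (R / (16 * p.w)) = R / 16 := by field_simp
  have hχ4 : (p.r₀ : ℝ) ≤ 2 * (R / (16 * p.w)) := by
    rw [← mul_div_assoc, le_div_iff₀ (by positivity)]; linarith
  rw [vv]
  generalize R / (16 * p.w) = κ at *
  obtain ⟨g, g1, g2⟩ : ∃ g : ℕ, 2 * κ ≤ g ∧ (g : ℝ) ≤ 2 * κ + 1 :=
    ⟨_, Nat.le_ceil _, (Nat.ceil_lt_add_one (by linarith)).le⟩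
  obtain ⟨r, r1, r2⟩ : ∃ r : ℕ, R * t ≤ r ∧ (r : ℝ) ≤ R * t + 1 :=
    ⟨_, Nat.le_ceil _, (Nat.ceil_lt_add_one Rt.le).le⟩
  have gr : p.r₀ ≤ g := by exact_mod_cast hχ4.trans g1
  obtain ⟨s1, s2, s3⟩ := k5 E.Λ E.L hG κ g hχ1 g1 (by linarith) gr
  have f4 := Nat.lt_floor_add_one (R / 5)
  have wg : (p.w : ℝ) * g ≤ R / 8 + p.w := by nlinarith only [g2, hχ2, w0]
  have wr' : (p.w : ℝ) * r ≤ p.w * (R * t) + p.w := by nlinarith only [r2, w0]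
  have n1 : p.w * g + p.w * r ≤ ⌊R / 5⌋₊ := by
    exact_mod_cast (show (p.w : ℝ) * g + p.w * r ≤ ⌊R / 5⌋₊ by linarith)
  have f5 : (⌊R / 5⌋₊ : ℝ) ≤ R / 5 := Nat.floor_le (by positivity)
  have f6 := Nat.ceil_lt_add_one (show 0 ≤ 3 * R by linarith)
  have n2 : ⌈3 * R⌉₊ + ⌊R / 5⌋₊ ≤ E.L := by
    exact_mod_cast (show (⌈3 * R⌉₊ : ℝ) + ⌊R / 5⌋₊ ≤ E.L by linarith)
  have hN := hE.le
  have n4 := le_wmul hG g
  have n6 : 2 * R ≤ E.N := le_trans (by linarith) (L3.trans (by exact_mod_cast hN))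
  have κ4 : 4 * κ ≤ R / 16 := by nlinarith only [hχ2, hw', hχ1]
  have rp : (0 : ℝ) < r := by linarith
  have ρ5 : R * t ^ 2 ≤ r := by nlinarith only [r1, t1, Rt]
  have ρ6 : r * t ^ 2 ≤ R := (mul_le_of_le_one_right rp.le (pow_le_one₀ t0.le t1)).trans (by linarith)
  have hF : Far p E.L (bl 0 E.N) ({()} : Finset Unit) (fun _ => 0) (fun _ => g) fun _ => X (Xi.chi κ) :=
    ⟨by simp, fun _ _ => s2, fun _ _ => ⟨gr, by omega⟩, fun _ _ => bl_mono 0 (by omega),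
      fun _ _ _ _ h => absurd rfl h⟩
  have u1 := (k2 8 R (8 * R) ⌈2 * (8 * R)⌉₊ r (by norm_num) (by linarith) le_rfl (by linarith) (Nat.le_ceil _)
    (by exact_mod_cast rp) (by linarith)).2
  rw [← hσ] at u1
  have lr : Lr (xi R) (uu R) z r σ := Lr.of_sm u1 (fun _ _ => trivial) fun y hy => by
    rw [uu, ← xi_sub, Pi.sub_apply, xi_in (r := 8 * R) (by linarith) (n := r + 2 + ⌈3 * R⌉₊)
      (by push_cast; linarith) (bl_subset_bl z2 le_rfl hy), sub_zero]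
  have k := k1 0 Unit _ _ _ _ z r σ (-(π / 2)) (xi R) (uu R) 1 hF
    (fun _ _ y hy => xi_in R0 (n := g) (by linarith) hy) (E30.chq_xi R0 n6) (by omega)
    (bl_subset_bl z2 (by omega)) (fun _ _ => disj z1 n1) lr ρ5 ρ6
  simp only [prod_singleton] at k
  refine k.trans ?_
  calc _ ≤ C₅ * (σ * (1 + σ)) * (P * t ^ 9 / R ^ 2) := by
        gcongr ?_ * _ * (P * ?_ / _); exact N3.pow_anti t0 t1 (by omega)
    _ = C₅ * (σ * (1 + σ)) * t * (P * t ^ 8 / R ^ 2) := by ring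
    _ ≤ 1 * (P * t ^ 8 / R ^ 2) := by gcongr; exact ct _ d7
    _ = _ := one_mul _

end Crest.Agent.T145.Ev.S4
end

-- ▼ part T145/EvS4a_94
section

/-!
# Row 145, even sector: S4, the swept part of the bump at the inner sites (helper94)
-/

set_option autoImplicit false

namespace Crest.Agent.T145.Ev.S4

open Finset Pot Xi Real Fl

set_option maxHeartbeats 400000 in
theorem aS (hN : LocNStmt) (hB : BasStmt) : AS := fun w => ⟨0, fun p W D₀ _ _ => by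
  obtain ⟨CN, hCN, hN⟩ := hN p
  obtain ⟨CS, hCS, hW⟩ := swStmt
  obtain ⟨σ, hσ, hχ⟩ := sm_chi 3
  obtain ⟨P₀, hP₀, hB⟩ := hB p
  have hK : (0 : ℝ) ≤ (p.w : ℝ) ^ 2 * p.r₀ := by positivity
  obtain ⟨K, hK', eK⟩ : ∃ K : ℝ, 0 ≤ K ∧ K = 16 * (CN * (CS * σ) * (1 + P₀ * (p.r₀ : ℝ) ^ 2)) :=
    ⟨_, by positivity, rfl⟩
  have hw0 : (0 : ℝ) ≤ p.w := Nat.cast_nonneg _
  refine ⟨600 + 8 * ((p.w : ℝ) ^ 2 * p.r₀) + 32 * p.w + K, nr p.w, by linarith, ?_⟩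
  intro E R Y P t h t0 hC hY hRL z hz
  have hE := h.ed.toEnv
  have hG := hE.toGs
  have hw := hG.w4
  have hn : 4 ≤ nr p.w := le_trans (by norm_num) (N3.nr_ge hw)
  have P1 := h.P1
  have R1 := h.maj.1
  have t1 : 600 * t ≤ 1 := le_trans (by gcongr; linarith) hC
  have t2 : 8 * ((p.w : ℝ) ^ 2 * p.r₀) * t ≤ 1 := le_trans (by gcongr; linarith) hC
  have t3 : K * t ≤ 1 := le_trans (by gcongr; linarith) hC
  have t5 : 32 * p.w * t ≤ 1 := le_trans (by gcongr; linarith) hC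
  have t4 : t ≤ 1 := by linarith
  have hw' : (4 : ℝ) ≤ p.w := by exact_mod_cast hw
  have h2' : (2 : ℝ) ≤ p.r₀ := by exact_mod_cast Lj36.gs_two hG
  have h16 : 16 * (p.r₀ : ℝ) ≤ (p.w : ℝ) ^ 2 * p.r₀ := by gcongr; nlinarith only [hw']
  have ρ1 : 1 ≤ R * t ^ nr p.w * t := by
    rw [mul_assoc, ← pow_succ]; exact N3.one_le_R hw h.maj t0 t4 hY (by omega)
  have Rt : 1 ≤ R * t * t := by
    rw [mul_assoc, ← pow_two]; exact N3.one_le_R hw h.maj t0 t4 hY (by omega)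
  have RL : R ≤ t * E.L := hRL.trans (mul_le_mul_of_nonneg_right
    (pow_le_of_le_one t0.le t4 (by omega)) (Nat.cast_nonneg _))
  have r1 : R * t ≤ ⌈R * t⌉₊ := Nat.le_ceil _
  have Rt0 : 0 < R * t := by positivity
  have Rt1 : 600 ≤ R * t := by nlinarith only [Rt, mul_le_mul_of_nonneg_left t1 Rt0.le]
  have r2 : (⌈R * t⌉₊ : ℝ) ≤ 2 * (R * t) := by linarith [Nat.ceil_lt_add_one Rt0.le]
  generalize ⌈R * t⌉₊ = r at r1 r2
  have ρ2 : R * t ^ nr p.w ≤ r * t ^ (nr p.w - 1) := by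
    rw [show nr p.w = 1 + (nr p.w - 1) by omega, pow_add, ← mul_assoc, Nat.add_sub_cancel_left, pow_one]
    gcongr
  have ρ0 : 0 < R * t ^ nr p.w := by positivity
  generalize R * t ^ nr p.w = ρ at *
  have r0 : (0 : ℝ) < r := by linarith
  have ρ4 : 8 * (p.w : ℝ) ^ 2 * p.r₀ ≤ ρ := by
    nlinarith only [mul_le_mul_of_nonneg_left ρ1 hK, mul_le_mul_of_nonneg_left t2 ρ0.le]
  have ρ5 : 600 * ρ ≤ r := by
    have := ρ2.trans (mul_le_mul_of_nonneg_left (pow_le_of_le_one t0.le t4 (by omega)) r0.le)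
    nlinarith only [this, mul_le_mul_of_nonneg_left t1 r0.le]
  have r3 : 16 * p.w * (r : ℝ) ≤ R := by
    nlinarith only [mul_le_mul_of_nonneg_left r2 hw0, mul_le_mul_of_nonneg_left t5 (zero_le_one.trans R1)]
  have L0 : (0 : ℝ) ≤ E.L := Nat.cast_nonneg _
  have RL' : 600 * R ≤ E.L := by nlinarith only [RL, mul_le_mul_of_nonneg_left t1 L0]
  have hwr : 4 * (r : ℝ) ≤ p.w * r := by gcongr
  have hL : p.w * r ≤ E.L := by exact_mod_cast (show (p.w : ℝ) * r ≤ E.L by linarith)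
  have hr1 : p.r₀ ≤ r := by exact_mod_cast (show (p.r₀ : ℝ) ≤ r by linarith)
  have hrg : E.Λ.rg ≤ p.r₀ := by have := Lj36.gs_rg hG; omega
  obtain ⟨-, -, b1, -⟩ := hB _ _ _ _ hE 0
  obtain ⟨-, c0, c1, c2, -, -, c3⟩ := hB _ _ _ _ hE z
  have M1 : 1 ≤ t⁻¹ := (one_le_inv₀ t0).2 t4
  have hPr := Le60.prof_trl semiStmt hG le_rfl (E30.ins_le b1 hrg) (Le60.prof_rescale hw h.prof
    (by linarith) (by linarith) M1 (r := r) (by rwa [div_inv_eq_mul])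
    (by linarith [mul_le_mul_of_nonneg_right M1 (zero_le_one.trans R1)])) z
  rw [show trl z (E.e 0) = _ from c0] at hPr
  obtain ⟨hQ, -, hsw⟩ := hW _ _ z r σ (Lr.of_univ ((hχ (R / (16 * p.w)) (by positivity)).scale r0
    (by rw [le_div_iff₀' (by positivity)]; exact r3)) z) (by have := Lj36.gs_two hG; omega)
  have hn2 : ⌈2 * ρ⌉₊ + 1 ≤ r := by
    have := Nat.ceil_lt_add_one (show 0 ≤ 2 * ρ by linarith)
    exact_mod_cast (show ((⌈2 * ρ⌉₊ : ℝ) + 1) ≤ r by linarith)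
  obtain ⟨hsup, -, -⟩ := hsw ρ _ (by linarith) (Nat.le_ceil _) hn2
  have k1 := hN _ _ hG z r p.r₀ ρ (CS * σ) _ P₀ _ _ hL le_rfl (E30.ins_le c1 hrg) c2 (by positivity) hPr
    (by linarith) (fun c hc => (c3 z c (bl_mono z (hrg.trans hc))).1) (by positivity) hQ ρ4 ρ5
  change nu E.Λ p.w z r (fun s => et E.Λ E.ω z s * X (sw (vv p.w R) z ρ) s) ≤ _ at k1
  have iG : Ins z r fun s => et E.Λ E.ω z s * X (sw (vv p.w R) z ρ) s :=
    E30.ins_mul (E30.ins_le c1 (hrg.trans hr1)) (ins_A0 hsup hn2)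
  have f5 : (⌊R / 5⌋₊ : ℝ) ≤ R / 5 := Nat.floor_le (by positivity)
  have hN' := hE.le
  have h4 := A51.four_le hG r
  obtain ⟨m, hm, hω⟩ := hE.amb z
  have k2 := (prodStmt p _ _ hG m _ Unit univ (fun _ => z) (fun _ => r) _ (cp (xi R) (-(π / 2))) hm
    ⟨by simp, fun _ _ => iG, fun _ _ => ⟨hr1, hL⟩, fun _ _ => bl_mono z (by omega),
      fun _ _ _ _ hne => (hne rfl).elim⟩ (fun _ _ => E30.out_cp (fun y hy => xi_in (n := r + ⌊R / 5⌋₊)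
        (by linarith) (by push_cast; linarith) (bl_subset_bl hz le_rfl hy)) _) (E30.abs_cp_le _ _)).1
  simp only [univ_unique, prod_singleton] at k2
  rw [← hω _ ((iG.1.mono (bl_mono z (by omega))).mul ((E30.depG_cp (E30.chq_xi (by linarith)
    (Nat.le_ceil (2 * R))) _).mono (bl_subset_bl (mem_bl_comm.1 hz) (le_trans (by
      have := Nat.ceil_lt_add_one (show 0 ≤ 2 * R by linarith)
      exact_mod_cast (show ((⌈2 * R⌉₊ : ℝ) + ⌊R / 5⌋₊) ≤ E.L by linarith)) hN'))))] at k2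
  refine le_trans (le_of_eq ?_) (k2.trans ?_)
  · exact congrArg _ (congrArg E.ω (funext fun s => by simp only [Dt.e]; ring))
  have c0 := N3.cw_pos hw
  have e1 : (ρ / r) ^ (cw p.w / 4) ≤ t ^ 26 := calc
    _ ≤ (t ^ (nr p.w - 1)) ^ (cw p.w / 4) := by gcongr; rwa [div_le_iff₀' r0]
    _ = t ^ (((nr p.w : ℝ) - 1) * (cw p.w / 4)) := by
      rw [← rpow_natCast, ← rpow_mul t0.le, Nat.cast_sub (by omega), Nat.cast_one]
    _ ≤ t ^ ((26 : ℕ) : ℝ) := rpow_le_rpow_of_exponent_ge t0 t4 (by push_cast; linarith [N3.nr_cw' hw])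
    _ = _ := rpow_natCast _ _
  have e2 : t⁻¹ ^ ew p.w ≤ t⁻¹ := by
    simpa using rpow_le_rpow_of_exponent_le M1 (show ew p.w ≤ 1 by linarith [N3.ew_le hw])
  have e3 : 1 / (r : ℝ) ^ 2 ≤ 1 / (R * t) ^ 2 := by gcongr
  have e4 : ((p.r₀ : ℝ) / r) ^ (2 + cw p.w / 2) ≤
      (p.r₀ : ℝ) ^ 2 * (P * t⁻¹ * t ^ 26 * (1 / (r : ℝ) ^ 2)) := by
    rw [rpow_add (by positivity), rpow_two]
    have : ((p.r₀ : ℝ) / r) ^ (cw p.w / 2) ≤ t ^ 26 :=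
      (rpow_le_rpow_of_exponent_ge (by positivity) (by rw [div_le_one r0]; linarith)
        (by linarith : cw p.w / 4 ≤ _)).trans (le_trans (by gcongr; linarith) e1)
    calc _ ≤ ((p.r₀ : ℝ) / r) ^ 2 * (1 * 1 * t ^ 26) := by gcongr; linarith
      _ ≤ ((p.r₀ : ℝ) / r) ^ 2 * (P * t⁻¹ * t ^ 26) := by gcongr
      _ = _ := by ring
  have e5 : P * t⁻¹ ^ ew p.w * (ρ / r) ^ (cw p.w / 4) / (r : ℝ) ^ 2 +
      P₀ * ((p.r₀ : ℝ) / r) ^ (2 + cw p.w / 2) ≤ (1 + P₀ * (p.r₀ : ℝ) ^ 2) * t * (P * t ^ 22 / R ^ 2) := calc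
    _ ≤ P * t⁻¹ * t ^ 26 * (1 / (r : ℝ) ^ 2) +
        P₀ * ((p.r₀ : ℝ) ^ 2 * (P * t⁻¹ * t ^ 26 * (1 / (r : ℝ) ^ 2))) := by
      rw [div_eq_mul_one_div]; gcongr
    _ = (1 + P₀ * (p.r₀ : ℝ) ^ 2) * (P * t⁻¹ * t ^ 26 * (1 / (r : ℝ) ^ 2)) := by ring
    _ ≤ (1 + P₀ * (p.r₀ : ℝ) ^ 2) * (P * t⁻¹ * t ^ 26 * (1 / (R * t) ^ 2)) := by gcongr
    _ = _ := by field_simp
  have e6 : P * t ^ 22 / R ^ 2 ≤ P * t ^ 8 / R ^ 2 := div_le_div_of_nonneg_right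
    (mul_le_mul_of_nonneg_left (N3.pow_anti t0 t4 (by norm_num)) (by linarith)) (sq_nonneg _)
  calc _ ≤ 16 * (CN * (CS * σ) * ((1 + P₀ * (p.r₀ : ℝ) ^ 2) * t * (P * t ^ 22 / R ^ 2))) :=
        mul_le_mul_of_nonneg_left (k1.trans (mul_le_mul_of_nonneg_left e5 (by positivity))) (by norm_num)
    _ = K * t * (P * t ^ 22 / R ^ 2) := by rw [eK]; ring
    _ ≤ 1 * (P * t ^ 8 / R ^ 2) := mul_le_mul t3 e6 (by positivity) zero_le_one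
    _ = _ := one_mul _⟩

end Crest.Agent.T145.Ev.S4
end

-- ▼ part T145/EvS1_48

/-!
# Row 145, even sector: `Ev.S1Stmt` (helper48, on the terms of helper55 and the outer sum of helper9)
-/

set_option autoImplicit false

namespace Crest.Agent.T145.Ev

open Finset Pot Xi Real Fl Lj36 S48

namespace S48

set_option maxHeartbeats 1600000 in
/-- one active site -/
theorem site (hS : SemiStmt) (hN : LocNStmt) (hH : HfStmt) (hW : SwStmt) (h1 : X1Stmt) (h2 : X2Stmt)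
    (hD : DetStmt) (hB : BasStmt) (hT : TgStmt) (p : Par) : ∃ (C : ℝ) (n : ℕ), 2 ≤ C ∧
    ∀ (E : Dt) (W : ℕ) (D₀ R Y P t : ℝ), E.Bs p W D₀ R Y P → 0 < t → C * t ≤ 1 → Y ≤ t ^ n →
    R ≤ t ^ n * E.L → ∀ a₁ a₂ α₁ α₂, E.Dc p R P t a₁ a₂ α₁ α₂ → ∀ u u', Sv R t⁻¹ u → Sv R t⁻¹ u' →
    ∀ z ∈ bl 0 (3 * p.w * (⌊t⁻¹ * R⌋₊ + 1)), (∀ y ∈ bl z ⌈R * t⌉₊, A0 u' y = 0) →
      |E.ω (fun s => X u s * X u' s * E.e z s) + E.bb R a₁ α₁ * gr u u' z| ≤ P * t ^ 14 / R ^ 2 := by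
  obtain ⟨C₁, n₁, c1, h1⟩ := xp_t h1 p (k := 50 * nr p.w) (by simp [nr])
  obtain ⟨C₂, n₂, c2, h2⟩ := xp_t h2 p (k := 50 * nr p.w) (by simp [nr])
  obtain ⟨CA, cA, tA⟩ := S55.termA hN hH hW p
  obtain ⟨CB, cB, tB⟩ := S55.termB hH p
  obtain ⟨K, k1, swp⟩ := swp hD hW
  obtain ⟨P₀, p0, hB⟩ := hB p
  obtain ⟨_, -, d1, -⟩ := hD
  obtain ⟨_, _, -, -, hT⟩ := hT
  have w0 : (0 : ℝ) ≤ p.w := Nat.cast_nonneg _
  have w1 : (0 : ℝ) ≤ 8 * (p.w : ℝ) ^ 2 * p.r₀ := by positivity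
  have w2 : (0 : ℝ) ≤ CA * (1 + P₀) := by positivity
  obtain ⟨C, hC1, hC2, hC3, hC4, hC5, hC6⟩ : ∃ C : ℝ, 16 * (p.w : ℝ) ^ 2 ≤ C ∧ K ≤ C ∧ 100 * (p.w : ℝ) ≤ C ∧
      8 * (p.w : ℝ) ^ 2 * p.r₀ ≤ C ∧ 600 ≤ C ∧ CA * (1 + P₀) + CB + 3 * C₁ + C₂ ≤ C :=
    ⟨16 * (p.w : ℝ) ^ 2 + K + 100 * p.w + 8 * (p.w : ℝ) ^ 2 * p.r₀ + 600 +
      (CA * (1 + P₀) + CB + 3 * C₁ + C₂), by linarith, by linarith [sq_nonneg (p.w : ℝ)],
      by linarith [sq_nonneg (p.w : ℝ)], by linarith [sq_nonneg (p.w : ℝ)], by linarith [sq_nonneg (p.w : ℝ)],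
      by linarith [sq_nonneg (p.w : ℝ)]⟩
  refine ⟨C, n₁ + n₂ + (nr p.w + 3), by linarith, ?_⟩
  intro E W D₀ R Y P t hb ht hC hY hR a₁ a₂ α₁ α₂ hd u u' hu hu' z hz hA
  have hE := hb.ed.toEnv
  have hGs := hE.toGs
  have hw := hE.w4
  have w4 : (4 : ℝ) ≤ p.w := by exact_mod_cast hw
  have t1 : t ≤ 1 := by nlinarith
  have R1 := hb.maj.1
  have R0 : 0 < R := by linarith
  have P1 := hb.P1
  have L0 : (0 : ℝ) ≤ E.L := Nat.cast_nonneg _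
  have ct : ∀ c, c ≤ C → c * t ≤ 1 := fun c h => (mul_le_mul_of_nonneg_right h ht.le).trans hC
  have x1 : 1 ≤ t⁻¹ := (one_le_inv₀ ht).2 t1
  have xC : C ≤ t⁻¹ := by rwa [← one_div, le_div_iff₀ ht]
  obtain ⟨C₁', ε₁, b1, b2, y1⟩ := h1 _ _ _ _ hE R Y t hb.maj hb.crit ht (ct _ (by linarith))
    (hY.trans (N3.pow_anti ht t1 (by omega)))
    (hR.trans (mul_le_mul_of_nonneg_right (N3.pow_anti ht t1 (by omega)) L0))
  obtain ⟨_, ε₂, -, b3, y2⟩ := h2 _ _ _ _ hE R Y t hb.maj hb.crit ht (ct _ (by linarith))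
    (hY.trans (N3.pow_anti ht t1 (by omega)))
    (hR.trans (mul_le_mul_of_nonneg_right (N3.pow_anti ht t1 (by omega)) L0))
  clear h1 h2
  have hα := alpha hw ht t1 R0 (by linarith) hd
  have hα' := O9.al_le hw R0 (by linarith) ht t1 hd
  have ha₁ : 1 ≤ a₁ := by linarith [hb.r8, hd.r1]
  obtain ⟨⟨t1i, -⟩, ⟨t2i, -⟩, -⟩ := hT a₁ ha₁
  have hρ := N3.one_le_R hw hb.maj ht t1 hY (k := nr p.w + 1) (by omega)
  have rp := fun x e => rp hw ht t1 (x := x) (e := e)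
  have up := hd.up
  have lo := hd.lo
  have hi := hd.hi
  have hnu := hd.nu
  have h8 := hd.le
  have hr0 := hb.r0.trans hd.r1
  have hν := N3.nr_ge hw
  have E0u := X81.E0_le hu R1 x1
  have E0u' := X81.E0_le hu' R1 x1
  obtain ⟨μ, hμ⟩ : ∃ μ, nr p.w = μ + 2 := ⟨nr p.w - 2, by omega⟩
  rw [hμ] at y1 y2 b2 b3 hρ up hR hν lo hi hnu hα'
  simp only [hμ, Nat.add_sub_cancel] at rp
  obtain ⟨M, hM⟩ : ∃ M, M = t⁻¹ ^ (50 * (μ + 2)) := ⟨_, rfl⟩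
  obtain ⟨ρ, hρe⟩ : ∃ ρ, ρ = R * t ^ (μ + 2) := ⟨_, rfl⟩
  rw [← hM] at y1 y2
  rw [pow_succ, ← mul_assoc, ← hρe] at hρ up
  have pm : ∀ j, j ≤ 50 * (μ + 2) → t⁻¹ ^ j ≤ M := fun j hj => hM ▸ pow_le_pow_right₀ x1 hj
  have ρC : C ≤ ρ := xC.trans (by rwa [← one_div, div_le_iff₀ ht])
  have M0 : 0 < M := by rw [hM]; positivity
  have ρ0 : 0 < ρ := by linarith
  have ρR : ρ ≤ R * t ^ 2 := by rw [hρe]; gcongr _ * ?_; exact N3.pow_anti ht t1 (by omega)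
  have r1 : (⌊2 * (R * t ^ 2)⌋₊ : ℝ) ≤ 2 * (R * t ^ 2) := Nat.floor_le (by positivity)
  have r2 : R * t ^ 2 ≤ ⌊2 * (R * t ^ 2)⌋₊ := by linarith [Nat.lt_floor_add_one (2 * (R * t ^ 2))]
  have a1 : (⌊t⁻¹ * R⌋₊ : ℝ) ≤ t⁻¹ * R := Nat.floor_le (by positivity)
  have xR : R ≤ t⁻¹ * R := le_mul_of_one_le_left R0.le x1
  have tR : R * t ≤ R := mul_le_of_le_one_right R0.le t1
  have a2 : R * t ≤ ⌊t⁻¹ * R⌋₊ + 1 := by linarith [Nat.lt_floor_add_one (t⁻¹ * R)]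
  have c1' := Nat.le_ceil (R * t)
  have F3 : 16 * ((p.w : ℝ) * (⌊t⁻¹ * R⌋₊ + 1)) ≤ t⁻¹ ^ 2 * R := calc
    _ ≤ 16 * (p.w * (2 * (t⁻¹ * R))) := by gcongr; linarith
    _ = 32 * p.w * (t⁻¹ * R) := by ring
    _ ≤ t⁻¹ * (t⁻¹ * R) := by gcongr; linarith
    _ = _ := by ring
  have F4 : 16 * (p.w * (⌊t⁻¹ * R⌋₊ + 1)) ≤ ⌊M * R⌋₊ := Nat.le_floor (by
    push_cast; exact F3.trans (by gcongr; exact pm 2 (by omega)))
  have hsv' : Sv R M u' := X81.sv_mono hu' R0 (by positivity) (by simpa using pm 1 (by omega))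
  have hs := hu.1
  have hm := hu.2
  have hs' := hu'.1
  have hm' := hu'.2
  replace y1 := fun v k₁ k₂ h1 h2 h3 (h5 : Pot.Sup (bl 0 ⌊M * R⌋₊) v) h6 h7 h8 =>
    (y1 a₁ z v u' k₁ k₂ h1 h2 h3 ⟨h5, h6⟩ hsv' h7 h8).2
  replace y2 := fun v h1 h2 h3 (h5 : Pot.Sup (bl 0 ⌊M * R⌋₊) v) h6 =>
    (y2 a₁ z v u' h1 h2 h3 ⟨h5, h6⟩ hsv').2.1
  clear hu hu' hsv'
  rw [mul_assoc] at hz
  generalize ⌊2 * (R * t ^ 2)⌋₊ = r at *
  generalize ⌊t⁻¹ * R⌋₊ = a at *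
  generalize ⌊M * R⌋₊ = T at *
  generalize ⌈R * t⌉₊ = c at *
  have F6 := le_wmul hGs (a + 1)
  obtain ⟨m, hme⟩ : ∃ m, m = p.w * (a + 1) := ⟨_, rfl⟩
  have hmr : (m : ℝ) = p.w * (a + 1) := by rw [hme]; push_cast; rfl
  rw [← hme] at hz F4 F6
  rw [← hmr] at F3
  have F1 : p.w * (7 * m + 1) ≤ E.L := by
    have m1 : (1 : ℝ) ≤ m := by exact_mod_cast (show 1 ≤ m by omega)
    have : (p.w : ℝ) * (7 * m + 1) ≤ E.L := calc
      _ ≤ C * (t⁻¹ ^ 2 * (t ^ (2 + 1) * E.L)) :=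
          mul_le_mul (by linarith) (le_trans (by linarith) (F3.trans (mul_le_mul_of_nonneg_left (hR.trans
            (mul_le_mul_of_nonneg_right (N3.pow_anti ht t1 (by omega)) L0)) (by positivity))))
            (by positivity) (by linarith)
      _ = C * t * E.L := by rw [← mul_assoc (t⁻¹ ^ 2), imp ht, pow_one, mul_assoc]
      _ ≤ 1 * E.L := by gcongr
      _ = _ := one_mul _
    exact_mod_cast this
  have hN := hE.le
  have F7 := le_wmul hGs (7 * m + 1)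
  have r0 : (0 : ℝ) < r := lt_of_lt_of_le (by positivity) r2
  have g1 : 4 * ((p.w : ℝ) * (p.w * r)) ≤ R * t := calc
    _ ≤ 4 * ((p.w : ℝ) * (p.w * (2 * (R * t ^ 2)))) := by gcongr
    _ = 8 * (p.w : ℝ) ^ 2 * t * (R * t) := by ring
    _ ≤ 1 * (R * t) := by gcongr; exact ct _ (by linarith [sq_nonneg (p.w : ℝ)])
    _ = _ := one_mul _
  have g2 : (r : ℝ) ≤ p.w * (p.w * r) := by exact_mod_cast (le_wmul hGs r).trans (le_wmul hGs _)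
  have g3 : 4 * (p.w * (p.w * r)) ≤ c := by exact_mod_cast g1.trans c1'
  have g4 : 4 * (p.w * (p.w * r)) ≤ a + 1 := by exact_mod_cast g1.trans a2
  have g5 : r ≤ p.w * (p.w * r) := (le_wmul hGs r).trans (le_wmul hGs _)
  have q1 : ρ / r ≤ t ^ μ := by
    rw [div_le_iff₀ r0]
    calc ρ = t ^ μ * (R * t ^ 2) := by rw [hρe]; ring
      _ ≤ _ := by gcongr
  have q2 : 600 * ρ ≤ r := by
    have := (div_le_iff₀ r0).1 (q1.trans (pow_le_of_le_one ht.le t1 (by omega)))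
    linarith [mul_le_mul_of_nonneg_right (ct 600 hC5) r0.le]
  have a3 : 4 * ((p.w : ℝ) * (p.w * a₂)) + 2 ≤ ρ := by
    have : 4 * ((p.w : ℝ) * (p.w * a₂)) ≤ 4 * ((p.w : ℝ) * (p.w * (ρ * t))) := by gcongr
    linarith [mul_le_mul_of_nonneg_left (ct _ hC1) ρ0.le]
  have a4 : a₂ ≤ p.w * (p.w * a₂) := (le_wmul hGs a₂).trans (le_wmul hGs _)
  have a5 : 4 * (p.w * (p.w * a₂)) + 2 ≤ r := by
    exact_mod_cast (show 4 * ((p.w : ℝ) * (p.w * a₂)) + 2 ≤ r by linarith)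
  have eℓ : R / t⁻¹ = R * t := div_inv_eq_mul R t
  have hrg := gs_rg hGs
  obtain ⟨-, -, i1, i2, -, -, i3⟩ := hB _ _ _ _ hE 0
  obtain ⟨-, j0, j1, j2, -, -, j3⟩ := hB _ _ _ _ hE z
  obtain ⟨s1, s2, -, s4, s5⟩ := swp u z _ _ ρ r a (4 * m) hm hs (by linarith) (by linarith) (by linarith)
    (by omega) (bl_subset_bl hz (by omega))
  have s3 := ((d1 u z _ _ ρ hm (by linarith) (by linarith)).2.1 u').1
  have hz' := mem_bl_comm.1 hz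
  have su : Pot.Sup (bl z (7 * m)) u := hs.mono (bl_subset_bl hz' (by omega))
  have su' : Pot.Sup (bl z (7 * m)) u' := hs'.mono (bl_subset_bl hz' (by omega))
  have sv : Pot.Sup (bl z (7 * m)) (u - sw u z ρ) := s1.mono (bl_subset_bl hz' (by omega))
  have e55 : 55 * t⁻¹ ^ 6 ≤ (t⁻¹ ^ 4) ^ 2 := calc
    _ ≤ t⁻¹ * t⁻¹ ^ 6 := by gcongr; linarith
    _ ≤ t⁻¹ ^ 8 := by rw [← pow_succ']; exact pow_le_pow_right₀ x1 (by norm_num)
    _ = _ := by ring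
  have x6 := one_le_pow₀ (n := 6) x1
  have eu' : E0 (bl z (7 * m)) u' ≤ (t⁻¹ ^ 4) ^ 2 := by rw [B80.E0_congr su' hs']; linarith
  have ev : E0 (bl z (7 * m)) (u - sw u z ρ) ≤ (t⁻¹ ^ 4) ^ 2 := by
    have : K * t⁻¹ ^ 2 * (ρ / r) ^ 2 ≤ 1 := calc
      _ ≤ K * (t⁻¹ ^ 2 * t ^ (2 + 1)) := by
          rw [mul_assoc]
          gcongr K * (_ * ?_)
          exact (pow_le_pow_left₀ (by positivity) q1 2).trans (by
            rw [← pow_mul]; exact N3.pow_anti ht t1 (by omega))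
      _ ≤ 1 := by rw [imp ht, pow_one]; exact ct _ hC2
    rw [B80.E0_congr sv s1]; linarith [(abs_le.1 s5).2]
  have k0 : t⁻¹ / (R / t⁻¹) ≤ t⁻¹ ^ 3 / R := by
    rw [div_div_eq_mul_div, ← pow_two]; gcongr; norm_num
  have k1' : K * t⁻¹ / (R / t⁻¹) ≤ t⁻¹ ^ 3 / R := by
    rw [div_div_eq_mul_div, pow_succ, pow_two]; gcongr; linarith
  have du' : ∀ y, ∀ d ∈ nn, |dif d u' y| ≤ t⁻¹ ^ 3 / R := fun y d hd =>
    (hm'.one (by norm_num) hd trivial).trans k0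
  have ke : ∀ j : ℕ, (j : ℝ) ≤ R → j * (t⁻¹ ^ 3 / R) ≤ t⁻¹ ^ 4 := fun j hj => calc
    _ ≤ R * (t⁻¹ ^ 3 / R) := by gcongr
    _ = t⁻¹ ^ 3 := by field_simp
    _ ≤ _ := pow_le_pow_right₀ x1 (by norm_num)
  have hPr := Le60.prof_trl hS hGs le_rfl (i1.mono (by omega)) (Le60.prof_rescale (r := r) hw hb.prof R0
    (by linarith) (one_le_pow₀ (n := 2) x1) (by rwa [inv_pow, div_inv_eq_mul])
    (le_trans (by linarith) (le_mul_of_one_le_left R0.le (one_le_pow₀ x1)))) z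
  rw [j0] at hPr
  have eA := tA _ _ _ _ hE z r (7 * m) ρ t⁻¹ _ P₀ _ _ _ u u' (j1.mono (by omega)) j2 (by positivity) hPr
    (by linarith) (fun c hc => (j3 z c (bl_mono z (by omega))).1) (Lr.of_univ (hm.scale r0 (by linarith)) z)
    (by linarith) q2 (by omega) F1 su' (fun y hy => hA y (bl_mono z g3 hy)) du' (by positivity) eu'
    (ke _ (by push_cast; linarith))
  replace eA := eA.trans (show _ ≤ CA * (1 + P₀) * (P * t ^ 15 / R ^ 2) from calc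
    _ ≤ CA * t⁻¹ * ((P * t⁻¹ ^ 2 + P₀ * (P * t⁻¹ ^ 2)) * t ^ 26 / (R * t ^ 2) ^ 2) * t⁻¹ ^ 4 := by
        gcongr
        · simpa using rpow_le_rpow_of_exponent_le (one_le_pow₀ (n := 2) x1) (Le60.ew_le_one (by omega))
        · exact le_mul_of_one_le_right (by linarith) (one_le_mul_of_one_le_of_one_le P1 (one_le_pow₀ x1))
        · exact rp _ _ (by positivity) q1 le_rfl
    _ = _ := by field_simp)
  have hI : Ins 0 a₂ fun s => E.e 0 s - Tc E.ω a₁ α₁ α₂ s := (i1.mono (by omega)).sub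
    ((((t1i.mono (by omega)).sub_const _).smul _).add (((t2i.mono (by omega)).sub_const _).smul _))
  have s6 := s4 (4 * (p.w * (p.w * a₂))) (by push_cast; exact a3)
  have eB := tB _ _ _ _ hE z a₂ (7 * m) _ _ _ _ u' (by omega) (hI.trl z) (by omega) F1 sv su'
    (fun y hy => ⟨s6.2 y hy, hA y (bl_mono z (by omega) hy)⟩)
    (fun y hy d hd => ⟨(s6.1 y hy d hd).1.trans k1', du' y d hd⟩) (by positivity) ev eu'
    (ke _ (by push_cast; linarith))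
  rw [Le60.nu_trl hS hGs (by omega : p.r₀ ≤ a₂) hI le_rfl] at eB
  replace eB := eB.trans (show _ ≤ CB * (P * t ^ 15 / R ^ 2) from calc
    _ ≤ CB * (P * t ^ (8 + 15) / R ^ 2) * (t⁻¹ ^ 4) ^ 2 := by
        gcongr CB * ?_ * _
        exact hnu.trans (by gcongr _ * ?_ / _; exact N3.pow_anti ht t1 (by omega))
    _ = _ := by field_simp)
  have iu : Ins z E.N (X u) := S55.ins_X su (by omega)
  have iu' : Ins z E.N (X u') := S55.ins_X su' (by omega)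
  have iv : Ins z E.N (X (u - sw u z ρ)) := S55.ins_X sv (by omega)
  have ie : Ins z E.N (E.e z) := j1.mono (by omega)
  have iF : Ins z E.N (trl z fun s => E.e 0 s - Tc E.ω a₁ α₁ α₂ s) := (hI.trl z).mono (by omega)
  have iT : Ins z E.N (trl z (Tc E.ω a₁ α₁ α₂)) := (ie.sub iF).congr fun s => by
    rw [trl_sub, j0]; ring
  have iw : Ins z E.N (X (sw u z ρ)) := (iu.sub iv).congr fun s => by rw [S55.X_sub]; ring
  have eC := S55.termC hE z α₁ α₂ (t1i.mono (by omega)) (t2i.mono (by omega)) (iv.mul iu')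
  have dec : E.ω (fun s => X u s * X u' s * E.e z s) = E.ω (fun s => E.e z s * X (sw u z ρ) s * X u' s) +
      (E.ω (fun s => trl z (fun s => E.e 0 s - Tc E.ω a₁ α₁ α₂ s) s * (X (u - sw u z ρ) s * X u' s)) +
        E.ω fun s => trl z (Tc E.ω a₁ α₁ α₂) s * (X (u - sw u z ρ) s * X u' s)) := by
    rw [← hE.ex_add (iF.mul (iv.mul iu')) (iT.mul (iv.mul iu')), ← hE.ex_add ((ie.mul iw).mul iu')
      ((iF.mul (iv.mul iu')).add (iT.mul (iv.mul iu')))]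
    refine congrArg _ (funext fun s => ?_)
    rw [trl_sub, j0, S55.X_sub]; ring
  have v1 : R / M ≤ a₁ := by
    rw [hM, inv_pow, div_inv_eq_mul]
    exact (mul_le_mul_of_nonneg_left (N3.pow_anti ht t1 (by omega)) R0.le).trans lo
  have M1 := pm 0 (by omega)
  rw [pow_zero] at M1
  have v2 : (a₁ : ℝ) ≤ M * R := (hi.trans (mul_le_of_le_one_right R0.le (pow_le_one₀ ht.le t1))).trans
    (le_mul_of_one_le_left R0.le M1)
  have v3 : eu z ≤ M * R := by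
    have h := eu_le_of_bl hz
    rw [sub_zero] at h
    push_cast at h
    have : t⁻¹ ^ 2 * R ≤ M * R := by gcongr; exact pm 2 (by omega)
    linarith [m.cast_nonneg (α := ℝ)]
  have v4 := s1.mono (bl_mono 0 (show 4 * m ≤ T by omega))
  have v5 : Sm 3 Set.univ M (R / M) (u - sw u z ρ) := (s2.mono le_rfl Set.Subset.rfl
    (le_trans (by rw [pow_two]; gcongr; linarith) (pm 2 (by omega))) ρ0).scale (by positivity) (by
      rw [hM, inv_pow, div_inv_eq_mul, hρe]; gcongr _ * ?_; exact N3.pow_anti ht t1 (by omega))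
  replace y1 := y1 _ (t⁻¹ ^ 3 / R) (t⁻¹ ^ 3 / R ^ 2) v1 v2 v3 v4 v5
    (fun y hy e he => ⟨(s6.1 y (bl_mono z (by omega) hy) e he).1.trans k1', fun e' he' =>
      ((s6.1 y (bl_mono z (by omega) hy) e he).2 e' he').trans (by positivity)⟩)
    fun y _ e he => ⟨du' y e he, fun e' he' => (hm'.two (by norm_num) he he' trivial).trans_eq (by
      field_simp)⟩
  replace y2 := y2 _ v1 v2 v3 v4 v5
  rw [s3] at y1
  have A1 := le_max_left |α₁| |α₂|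
  have A2 := le_max_right |α₁| |α₂|
  have A3 : 0 ≤ max |α₁| |α₂| := (abs_nonneg _).trans A1
  generalize max |α₁| |α₂| = A at *
  have n1 : A * t ^ (50 * (μ + 2)) ≤ P * t ^ 15 / R ^ 2 := calc
    _ ≤ A * t ^ (48 * (μ + 2) + 76 + 15) := by gcongr _ * ?_; exact N3.pow_anti ht t1 (by omega)
    _ = A * t ^ (48 * (μ + 2) + 76) * t ^ 15 := by ring
    _ ≤ P / R ^ 2 * t ^ 15 := by gcongr
    _ = _ := by ring
  have n2 : A * ((a₁ : ℝ) ^ 2 * (t⁻¹ ^ 3 / R ^ 2) * (a₁ * (t⁻¹ ^ 3 / R) + (a₁ : ℝ) ^ 2 * (t⁻¹ ^ 3 / R ^ 2))) ≤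
      2 * (P * t ^ 15 / R ^ 2) := by
    have h : (a₁ : ℝ) ≤ R * t ^ 97 := hi.trans (by gcongr _ * ?_; exact N3.pow_anti ht t1 (by omega))
    have h' : (a₁ : ℝ) ^ 2 ≤ R * (R * t ^ 97) := by
      rw [pow_two]; gcongr; exact h.trans (mul_le_of_le_one_right R0.le (pow_le_one₀ ht.le t1))
    calc _ = A * (a₁ : ℝ) ^ 2 * (t⁻¹ ^ 3 / R ^ 2 * (a₁ * (t⁻¹ ^ 3 / R) + (a₁ : ℝ) ^ 2 * (t⁻¹ ^ 3 / R ^ 2))) := by
          ring
      _ ≤ P * t⁻¹ ^ 76 * (t⁻¹ ^ 3 / R ^ 2 *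
          (R * t ^ 97 * (t⁻¹ ^ 3 / R) + R * (R * t ^ 97) * (t⁻¹ ^ 3 / R ^ 2))) := by gcongr
      _ = _ := by field_simp; ring
  have n4 : (CA * (1 + P₀) + CB + 3 * C₁ + C₂) * (P * t ^ 15 / R ^ 2) ≤ P * t ^ 14 / R ^ 2 := calc
    _ = (CA * (1 + P₀) + CB + 3 * C₁ + C₂) * t * (P * t ^ 14 / R ^ 2) := by ring
    _ ≤ 1 * _ := by gcongr; exact ct _ hC6
    _ = _ := one_mul _
  have m1 := mul_le_mul A1 (y1.trans (add_le_add b2 (mul_le_mul_of_nonneg_right b1 (by positivity))))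
    (abs_nonneg _) A3
  have m2 := mul_le_mul A2 (y2.trans b3) (abs_nonneg _) A3
  rw [← abs_mul] at m1 m2
  have m3 := mul_le_mul_of_nonneg_left n1 (show 0 ≤ C₁ by linarith)
  have m4 := mul_le_mul_of_nonneg_left n2 (show 0 ≤ C₁ by linarith)
  have m5 := mul_le_mul_of_nonneg_left n1 (show 0 ≤ C₂ by linarith)
  rw [dec, eC, show E.bb R a₁ α₁ * gr u u' z = α₁ * (kp (gk E.ω R) a₁ * gr u u' z / (2 * π ^ 2)) by
    rw [Dt.bb]; ring, abs_le]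
  rw [abs_le] at eA eB m1 m2
  constructor <;> linarith [eA.1, eA.2, eB.1, eB.2, m1.1, m1.2, m2.1, m2.2]

end S48

set_option maxHeartbeats 800000 in
theorem s1Stmt48 (hS : SemiStmt) (hP : ProdStmt) (hN : LocNStmt) (hH : HfStmt) (hW : SwStmt) (h1 : X1Stmt)
    (h2 : X2Stmt) (hF : FarEStmt) (hD : DetStmt) (hB : BasStmt) (hT : TgStmt) : S1Stmt :=
  fun _ => ⟨0, fun p W D₀ _ _ => by
  obtain ⟨C₀, n₀, c0, site⟩ := site hS hN hH hW h1 h2 hD hB hT p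
  obtain ⟨C₁, n₁, c1, h1⟩ := xp_t h1 p (k := 51 * nr p.w + 1) (by omega)
  obtain ⟨C₂, n₂, c2, h2⟩ := xp_t h2 p (k := 51 * nr p.w + 1) (by omega)
  obtain ⟨C₃, c3, out⟩ := O9.outer hS hP hB hT hF p
  obtain ⟨C₄, c4, nx⟩ := S55.nu_XX p.F
  obtain ⟨_, -, -, -, d3⟩ := hD
  have w0 : (0 : ℝ) ≤ (p.w : ℝ) ^ 2 := by positivity
  obtain ⟨C, hC0, hC1, hC2, hC3, hC4, hC5⟩ : ∃ C : ℝ, C₀ ≤ C ∧ C₁ ≤ C ∧ C₂ ≤ C ∧ C₃ ≤ C ∧ C₄ * 54 ≤ C ∧
      169 * (p.w : ℝ) ^ 2 + 1 ≤ C := ⟨C₀ + C₁ + C₂ + C₃ + C₄ * 54 + (169 * (p.w : ℝ) ^ 2 + 1), by linarith,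
    by linarith, by linarith, by linarith, by linarith, by linarith⟩
  refine ⟨C, n₀ + n₁ + n₂ + (nr p.w + 3), by linarith, ?_⟩
  intro E R Y P t hb ht hC hY hR a₁ a₂ α₁ α₂ hd u u' hu hu' hsep
  have hE := hb.ed.toEnv
  have hGs := hE.toGs
  have hw := hE.w4
  have w4 : (4 : ℝ) ≤ p.w := by exact_mod_cast hw
  have t1 : t ≤ 1 := by nlinarith
  have R1 := hb.maj.1
  have R0 : 0 < R := by linarith
  have P1 := hb.P1
  have L0 : (0 : ℝ) ≤ E.L := Nat.cast_nonneg _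
  have ct : ∀ c, c ≤ C → c * t ≤ 1 := fun c h => (mul_le_mul_of_nonneg_right h ht.le).trans hC
  have x1 : 1 ≤ t⁻¹ := (one_le_inv₀ ht).2 t1
  have xC : C ≤ t⁻¹ := by rwa [← one_div, le_div_iff₀ ht]
  have hY' : ∀ k, k ≤ n₀ + n₁ + n₂ + (nr p.w + 3) → Y ≤ t ^ k := fun k h => hY.trans (N3.pow_anti ht t1 h)
  have hR' : ∀ k, k ≤ n₀ + n₁ + n₂ + (nr p.w + 3) → R ≤ t ^ k * E.L := fun k h =>
    hR.trans (mul_le_mul_of_nonneg_right (N3.pow_anti ht t1 h) L0)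
  replace site := site E W D₀ R Y P t hb ht (ct _ hC0) (hY' _ (by omega)) (hR' _ (by omega)) a₁ a₂ α₁ α₂ hd
  obtain ⟨_, ε₁, -, b2, y1⟩ := h1 _ _ _ _ hE R Y t hb.maj hb.crit ht (ct _ hC1) (hY' _ (by omega))
    (hR' _ (by omega))
  obtain ⟨_, ε₂, -, b3, y2⟩ := h2 _ _ _ _ hE R Y t hb.maj hb.crit ht (ct _ hC2) (hY' _ (by omega))
    (hR' _ (by omega))
  clear h1 h2
  have a1 : (⌊t⁻¹ * R⌋₊ : ℝ) ≤ t⁻¹ * R := Nat.floor_le (by positivity)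
  have a2 := (Nat.lt_floor_add_one (t⁻¹ * R)).le
  have xR : R ≤ t⁻¹ * R := le_mul_of_one_le_left R0.le x1
  have h8 := hd.le
  have hr0 := hb.r0.trans hd.r1
  have a3 : a₂ ≤ ⌊t⁻¹ * R⌋₊ := Nat.le_floor
    ((hd.up.trans (mul_le_of_le_one_right R0.le (pow_le_one₀ ht.le t1))).trans xR)
  have F6 := le_wmul hGs (⌊t⁻¹ * R⌋₊ + 1)
  have m1 : (p.w : ℝ) * (⌊t⁻¹ * R⌋₊ + 1) ≤ p.w * (2 * (t⁻¹ * R)) := by gcongr; linarith
  have F1 : 4 * (p.w * (⌊t⁻¹ * R⌋₊ + 1)) ≤ E.L := by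
    have : 4 * ((p.w : ℝ) * (⌊t⁻¹ * R⌋₊ + 1)) ≤ E.L := calc
      _ ≤ 8 * p.w * (t⁻¹ * R) := by linarith
      _ ≤ C * (t⁻¹ ^ 1 * (t ^ (1 + 1) * E.L)) := by
          rw [pow_one]
          exact mul_le_mul (by nlinarith) (mul_le_mul_of_nonneg_left (hR' _ (by omega)) (by positivity))
            (by positivity) (by linarith)
      _ = C * t * E.L := by rw [← mul_assoc (t⁻¹ ^ 1), imp ht, pow_one, mul_assoc]
      _ ≤ 1 * E.L := by gcongr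
      _ = _ := one_mul _
    exact_mod_cast this
  have hN := hE.le
  have hI : Ins 0 (⌊t⁻¹ * R⌋₊ + 1) fun s => X u s * X u' s :=
    (S55.ins_X hu.1 le_rfl).mul (S55.ins_X hu'.1 le_rfl)
  have ee : ∀ C' ε : ℝ, C' ≤ C → ε ≤ C' * t ^ (51 * nr p.w + 1) → ε ≤ t ^ (51 * nr p.w) := fun C' ε h h' =>
    h'.trans (by rw [pow_succ', ← mul_assoc]; exact mul_le_of_le_one_left (by positivity) (ct _ h))
  have pm : ∀ j, j ≤ 51 * nr p.w + 1 → t⁻¹ ^ j ≤ t⁻¹ ^ (51 * nr p.w + 1) := fun j => pow_le_pow_right₀ x1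
  have o := out W E D₀ R Y P t α₁ α₂ a₁ a₂ hb ht (ct _ hC3) (hR' _ (by omega)) hd _ _ _
    (by push_cast; linarith) (by push_cast; linarith) hI
    ((nx p _ _ rfl hGs _ u u' _ (by omega) hu.1 hu'.1 (X81.E0_le hu R1 x1) (X81.E0_le hu' R1 x1)).trans (calc
      _ ≤ t⁻¹ * t⁻¹ ^ 6 := by rw [← mul_assoc]; gcongr; linarith
      _ ≤ _ := by rw [← pow_succ']; exact pow_le_pow_right₀ x1 (by norm_num))) le_rfl fun z h h' => by
    have v1 : R / t⁻¹ ^ (51 * nr p.w + 1) ≤ a₁ := by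
      rw [inv_pow, div_inv_eq_mul]
      exact (mul_le_mul_of_nonneg_left (N3.pow_anti ht t1 (by omega)) R0.le).trans hd.lo
    have v2 : (a₁ : ℝ) ≤ t⁻¹ ^ (51 * nr p.w + 1) * R :=
      (hd.hi.trans (mul_le_of_le_one_right R0.le (pow_le_one₀ ht.le t1))).trans
        (le_mul_of_one_le_left R0.le (one_le_pow₀ x1))
    have v3 := h.trans (mul_le_mul_of_nonneg_right (pm _ (by omega)) R0.le)
    have v4 := fun v (hv : Sv R t⁻¹ v) => X81.sv_mono hv R0 (by positivity)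
      ((pow_one _).symm.trans_le (pm 1 (by omega)))
    have v5 : ∀ v, Sv R t⁻¹ v → ∀ y ∈ bl z (6 * a₁ + 2), v y = 0 := fun v hv y hy => hv.1 y fun h =>
      h' (bl_subset_bl h (by rw [mul_assoc]; omega) (mem_bl_comm.1 hy))
    have h3 := (y1 a₁ z u u' 0 0 v1 v2 v3 (v4 u hu) (v4 u' hu') (lk_zero (v5 u hu) le_rfl)
      (lk_zero (v5 u' hu') le_rfl)).2
    rw [show gr u u' z = 0 from sum_eq_zero fun i _ => by
      rw [dif, v5 u hu z (self_mem_bl _ _), v5 u hu _ (bl_mono z (by omega) (add_nn_mem_bl (Xi.ev_nn i) z)),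
        sub_zero, zero_mul]] at h3
    simp only [mul_zero, zero_div, add_zero] at h3
    exact ⟨h3.trans (ee _ _ hC1 b2), (y2 a₁ z u u' v1 v2 v3 (v4 u hu) (v4 u' hu')).2.1.trans (ee _ _ hC2 b3)⟩
  have hA : bl 0 (3 * p.w * (⌊t⁻¹ * R⌋₊ + 1)) ⊆ E.D := (bl_mono 0 (by rw [mul_assoc]; omega)).trans hb.ed.lo
  have act : ∑ z ∈ bl 0 (3 * p.w * (⌊t⁻¹ * R⌋₊ + 1)), |E.ω (fun s => X u s * X u' s * E.e z s) +
      E.bb R a₁ α₁ * gr u u' z| ≤ 169 * (p.w : ℝ) ^ 2 * (P * t ^ 7) := by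
    refine (sum_le_card_nsmul _ _ (P * t ^ 14 / R ^ 2) fun z hz => ?_).trans ?_
    · rcases hsep z with h | h
      · simpa only [mul_comm (X u' _), S48.gr_comm u'] using site u' u hu' hu z hz h
      · exact site u u' hu hu' z hz h
    · rw [card_bl, nsmul_eq_mul]
      push_cast
      calc _ ≤ (13 * (p.w * (t⁻¹ * R))) ^ 2 * (P * t ^ 14 / R ^ 2) := by
            gcongr; nlinarith
        _ = 169 * (p.w : ℝ) ^ 2 * (P * t ^ 12) := by field_simp; ring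
        _ ≤ _ := by gcongr _ * (_ * ?_); exact N3.pow_anti ht t1 (by norm_num)
  have k3 : (169 * (p.w : ℝ) ^ 2 + 1) * (P * t ^ 7) ≤ P * t ^ 6 := calc
    _ = (169 * (p.w : ℝ) ^ 2 + 1) * t * (P * t ^ 6) := by ring
    _ ≤ 1 * _ := by gcongr; exact ct _ hC5
    _ = _ := one_mul _
  rw [hb.ed.der _ (hI.mono (by omega)), ← d3 u u' 0 _ _ hu.1 (bl_mono 0 (show _ ≤ 3 * p.w * (⌊t⁻¹ * R⌋₊ + 1) by
    rw [mul_assoc]; omega)), ← sum_sdiff hA, add_assoc, mul_sum, ← sum_add_distrib]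
  refine (abs_add_le _ _).trans ?_
  linarith [(abs_sum_le_sum_abs _ _).trans o, (abs_sum_le_sum_abs _ _).trans act]⟩

end Crest.Agent.T145.Ev
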