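import Crest.Agent.T145.Br_73
import Crest.Agent.T145.CorB_59

/-!
# Row 145, module (b): corollaries of `brStmt` for ambient models, `WR`, `WN`; roots, symmetries and
translations of rooted rectangles; `Au`, `En`, `col`, `row`, `sd`
-/

set_option autoImplicit false

namespace Crest.Agent.T145

open Finset

/-! ## Triangle inequalities for `Vr` -/
section vr
variable {L : Type*} [AddCommGroup L] {W : L → ℝ}

theorem Cen.vr_nonneg (h : Cen W) (f : L →+ ℝ) : 0 ≤ Vr W f f := h.wt.Vr_nonneg h.se f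

theorem Cen.abs_vr_le (h : Cen W) (f g : L →+ ℝ) :
    |Vr W f g| ≤ Real.sqrt (Vr W f f) * Real.sqrt (Vr W g g) := by
  rw [← Real.sqrt_mul (h.vr_nonneg f)]
  exact Real.abs_le_sqrt (h.wt.Vr_sq_le h.se f g)

theorem Cen.vr_add (h : Cen W) (f g : L →+ ℝ) :
    Vr W (f + g) (f + g) = Vr W f f + 2 * Vr W f g + Vr W g g := by
  rw [h.se.Vr_add_left, h.se.Vr_add_right, h.se.Vr_add_right, Vr_comm W g f]; ring

theorem Cen.vr_sub (h : Cen W) (f g : L →+ ℝ) :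
    Vr W (f - g) (f - g) = Vr W f f - 2 * Vr W f g + Vr W g g := by
  rw [h.se.Vr_sub_left, h.se.Vr_sub_right, h.se.Vr_sub_right, Vr_comm W g f]; ring

theorem Vr_smul_smul (W : L → ℝ) (c : ℝ) (f : L →+ ℝ) :
    Vr W (c • f) (c • f) = c ^ 2 * Vr W f f := by rw [Vr_smul_left, Vr_smul_right]; ring

theorem Vr_neg_neg (W : L → ℝ) (f : L →+ ℝ) : Vr W (-f) (-f) = Vr W f f := by
  rw [Vr_neg_left, Vr_neg_right, neg_neg]




theorem Cen.vr_add_le (h : Cen W) (f g : L →+ ℝ) :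
    Vr W (f + g) (f + g) ≤ 2 * (Vr W f f + Vr W g g) := by
  have := h.vr_nonneg (f - g)
  rw [h.vr_sub] at this
  rw [h.vr_add]; linarith




end vr

/-! ## Rectangles -/

theorem self_mem_rc (a : Pt) {n₁ n₂ : ℕ} (h₁ : 1 ≤ n₁) (h₂ : 1 ≤ n₂) : a ∈ rc a n₁ n₂ := by
  rw [mem_rc]; omega








/-! ## Columns, rows, sides -/






theorem side_eq (L : ℕ) (f : Fin 4 → ℝ) : side L f = ∑ d, f d • sd L d := funext fun x => by
  simp only [side, Finset.sum_apply, Pi.smul_apply, smul_eq_mul]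

theorem pr_side (L : ℕ) (f : Fin 4 → ℝ) : pr (side L f) = ∑ d, f d • pr (sd L d) := by
  simp only [side_eq, pr_sum, pr_smul]

namespace Lat
variable {Λ : Lat} {m : Mdl Pt} {D D' : Finset Pt} {f g : Pt → ℝ} {n : ℝ} {n₁ n₂ L : ℕ}

/-! ## Ambient models -/

theorem Amb.cen (h : Λ.Amb m D) : Cen (m.W 0) := h.1.cen h.2.1

theorem Amb.mono (h : Λ.Amb m D) (hD : D' ⊆ D) : Λ.Amb m D' :=
  ⟨h.1, h.2.1, (edI_mono hD).trans h.2.2.1, fun e he => h.2.2.2 e (edI_mono hD he)⟩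

theorem Amb.vr_le (h : Λ.Amb m D) (hΛ : Λ.Ok) (hf : F2 (Λ.edI D) f n) :
    Vr (m.W 0) (pr f) (pr f) ≤ Λ.τ * n := (hf.f2a _).vr_le hΛ.pos h.1 h.2.1 h.2.2.1 h.2.2.2

theorem Amb.M_le (h : Λ.Amb m D) (hΛ : Λ.Ok) (hf : F2 (Λ.edI D) f n) :
    M (m.W 0) (pr f) ≤ Λ.τ * n * Real.cosh (Real.sqrt n) / 2 :=
  (hf.f2a _).M_le hΛ.pos h.1 h.2.1 h.2.2.1 h.2.2.2


theorem Amb.four_le (h : Λ.Amb m D) (hΛ : Λ.Ok) (hf : F2 (Λ.edI D) f n) :
    Ex (m.W 0) (fun s => pr f s ^ 4) ≤ 24 * Real.exp Λ.τ * n ^ 2 :=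
  (hf.f2a _).four_le hΛ.pos h.1 h.2.1 h.2.2.1 h.2.2.2

/-- small forces: `M (t f) ≤ τ t² n` once `t² n ≤ 1` -/
theorem Amb.M_smul_le' (h : Λ.Amb m D) (hΛ : Λ.Ok) (hf : F2 (Λ.edI D) f n) {t : ℝ}
    (ht : t ^ 2 * n ≤ 1) : M (m.W 0) (t • pr f) ≤ Λ.τ * (t ^ 2 * n) := by
  have h1 := h.M_le hΛ (hf.smul t)
  have h2 : Real.cosh (Real.sqrt (t ^ 2 * n)) ≤ Real.cosh 1 := Real.cosh_le_cosh.2 (by
    rw [abs_one, abs_of_nonneg (Real.sqrt_nonneg _)]; exact Real.sqrt_le_one.2 ht)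
  rw [pr_smul] at h1
  have h3 : 0 ≤ Λ.τ * (t ^ 2 * n) := mul_nonneg hΛ.pos.le (hf.smul t).nonneg
  nlinarith [mul_le_mul_of_nonneg_left (h2.trans cosh_one_le_two) h3]



theorem Ok.amb_WR (h : Λ.Ok) (h₁ : 1 ≤ n₁) (h₂ : 1 ≤ n₂) :
    Λ.Amb (Λ.Nr (rc 0 n₁ n₂) 0) (rc 0 n₁ n₂) := h.amb_rc (self_mem_rc 0 h₁ h₂)

theorem Ok.amb_WN (h : Λ.Ok) (hL : 1 ≤ L) : Λ.Amb (Λ.Nr (sq 0 L) 0) (sq 0 L) := h.amb_WR hL hL


theorem Ok.cen_WR (h : Λ.Ok) (h₁ : 1 ≤ n₁) (h₂ : 1 ≤ n₂) : Cen (Λ.WR n₁ n₂) := (h.amb_WR h₁ h₂).cen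

theorem Ok.cen_WN (h : Λ.Ok) (hL : 1 ≤ L) : Cen (Λ.WN L) := h.cen_WR hL hL


theorem Ok.vr_WN (h : Λ.Ok) (hL : 1 ≤ L) (hf : F2 (Λ.edI (sq 0 L)) f n) :
    Vr (Λ.WN L) (pr f) (pr f) ≤ Λ.τ * n := (h.amb_WN hL).vr_le h hf





/-! ## `Au`, `En` -/




theorem Au_smul (Λ : Lat) (D : Finset Pt) (c : ℝ) (u : Pt → ℝ) :
    Λ.Au D (c • u) = c • Λ.Au D u := by
  rw [Au, Au, ← dv_smul]
  exact dv_congr fun e _ => by simp only [Pi.smul_apply, smul_eq_mul]; ring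

theorem Au_sum (Λ : Lat) (D : Finset Pt) {ι : Type*} (T : Finset ι) (u : ι → Pt → ℝ) :
    Λ.Au D (∑ i ∈ T, u i) = ∑ i ∈ T, Λ.Au D (u i) := by
  simp only [Au, ← dv_sum]
  exact dv_congr fun e _ => by simp only [Finset.sum_apply, ← sum_div, sum_sub_distrib]


theorem sup_Au (Λ : Lat) (D : Finset Pt) (u : Pt → ℝ) : Sup D (Λ.Au D u) :=
  sup_dv _ (edI_ends D)

theorem sum_Au (Λ : Lat) (D : Finset Pt) (u : Pt → ℝ) : ∑ x ∈ D, Λ.Au D u x = 0 :=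
  sum_dv _ (edI_ends D)

theorem ip_Au (Λ : Lat) (D : Finset Pt) (u v : Pt → ℝ) : ip D (Λ.Au D u) v = Λ.En D u v :=
  (ip_dv _ (edI_ends D) _).trans (sum_congr rfl fun e _ => by ring)

/-- `u` is constant along the edges of `D'` that are not edges of `D` -/
theorem Au_subset {u : Pt → ℝ} (hD : D ⊆ D')
    (h : ∀ e ∈ Λ.edI D', e ∉ Λ.edI D → u e.2 = u e.1) : Λ.Au D' u = Λ.Au D u :=
  (dv_subset (edI_mono hD) fun e he he' => by rw [h e he he', sub_self, zero_div]).symm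

theorem En_subset {u : Pt → ℝ} (hD : D ⊆ D')
    (h : ∀ e ∈ Λ.edI D', e ∉ Λ.edI D → u e.2 = u e.1) (v : Pt → ℝ) : Λ.En D' u v = Λ.En D u v :=
  (sum_subset (edI_mono hD) fun e he he' => by rw [h e he he']; simp).symm

theorem En_comm (Λ : Lat) (D : Finset Pt) (u v : Pt → ℝ) : Λ.En D u v = Λ.En D v u :=
  sum_congr rfl fun e _ => by ring



theorem En_smul_left (Λ : Lat) (D : Finset Pt) (c : ℝ) (u w : Pt → ℝ) :
    Λ.En D (c • u) w = c * Λ.En D u w := by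
  simp only [En, mul_sum, Pi.smul_apply, smul_eq_mul]; exact sum_congr rfl fun e _ => by ring



theorem En_smul_right (Λ : Lat) (D : Finset Pt) (c : ℝ) (u w : Pt → ℝ) :
    Λ.En D w (c • u) = c * Λ.En D w u := by rw [En_comm, En_smul_left, En_comm]

theorem En_smul_smul (Λ : Lat) (D : Finset Pt) (c : ℝ) (u : Pt → ℝ) :
    Λ.En D (c • u) (c • u) = c ^ 2 * Λ.En D u u := by rw [En_smul_left, En_smul_right]; ring

theorem En_self (Λ : Lat) (D : Finset Pt) (u : Pt → ℝ) :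
    Λ.En D u u = ∑ e ∈ Λ.edI D, (u e.2 - u e.1) ^ 2 / Λ.τ := sum_congr rfl fun e _ => by ring

theorem Ok.En_nonneg (h : Λ.Ok) (D : Finset Pt) (u : Pt → ℝ) : 0 ≤ Λ.En D u u := by
  rw [En_self]; exact sum_nonneg fun e _ => div_nonneg (sq_nonneg _) h.pos.le


theorem Ok.f2_Au (h : Λ.Ok) (D : Finset Pt) (u : Pt → ℝ) :
    F2 (Λ.edI D) (Λ.Au D u) (Λ.En D u u / Λ.τ) :=
  (F2.dv _ _).mono (le_of_eq (by
    rw [En_self, sum_div]
    exact sum_congr rfl fun e _ => by have := h.pos.ne'; field_simp))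

theorem Ok.En_sq_le (h : Λ.Ok) (D : Finset Pt) (u v : Pt → ℝ) :
    Λ.En D u v ^ 2 ≤ Λ.En D u u * Λ.En D v v := by
  have h1 := (h.f2_Au D u).ip_sq_le (edI_ends D) v
  rwa [ip_Au, div_mul_eq_mul_div, mul_div_assoc, sum_div, ← En_self] at h1

/-- the bare bound `V (X_u) ≤ E (u)` -/
theorem Amb.vr_Au (h : Λ.Amb m D) (hΛ : Λ.Ok) (u : Pt → ℝ) :
    Vr (m.W 0) (pr (Λ.Au D u)) (pr (Λ.Au D u)) ≤ Λ.En D u u := by
  have h1 := h.vr_le hΛ (hΛ.f2_Au D u)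
  rwa [mul_div_cancel₀ _ hΛ.pos.ne'] at h1


/-! ## Roots, translations, symmetries of rectangles -/
section sym
variable (h : Λ.Ok) (h₁ : 1 ≤ n₁) (h₂ : 1 ≤ n₂)
include h h₁ h₂




theorem Ok.Ph_rc {a r : Pt} (hr : r ∈ rc a n₁ n₂) {q : ℤ}
    (hf : ∑ x ∈ rc a n₁ n₂, f x = 2 * Real.pi * q) :
    Ph ((Λ.Nr (rc a n₁ n₂) r).W 0) (pr f) = Ph (Λ.WR n₁ n₂) (pr fun x => f (x + a)) :=
  (Λ.sym_add a).Ph_Nr h (by rw [map_rc_add, zero_add]) (self_mem_rc 0 h₁ h₂) hr hf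









end sym







/-- transport of `Au` along a symmetry -/
theorem Sym.Au_map {φ : Pt ≃ Pt} (hΛ : Λ.Ok) (h : Λ.Sym φ) (D : Finset Pt) (u : Pt → ℝ) (x : Pt) :
    Λ.Au (D.map φ.toEmbedding) u (φ x) = Λ.Au D (fun y => u (φ y)) x := by
  rw [Au, Au, h.edI_map hΛ, dv, dv, sum_map]
  refine sum_congr rfl fun e _ => ?_
  rcases ori_cases φ e with h1 | h1 <;>
    simp only [Equiv.coe_toEmbedding, h1, φ.injective.eq_iff]
  ring

theorem Sym.En_map {φ : Pt ≃ Pt} (hΛ : Λ.Ok) (h : Λ.Sym φ) (D : Finset Pt) (u v : Pt → ℝ) :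
    Λ.En (D.map φ.toEmbedding) u v = Λ.En D (fun y => u (φ y)) fun y => v (φ y) := by
  rw [En, En, h.edI_map hΛ, sum_map]
  refine sum_congr rfl fun e _ => ?_
  rcases ori_cases φ e with h1 | h1 <;> simp only [Equiv.coe_toEmbedding, h1]
  ring

/-- transport of flows along a symmetry -/
theorem Sym.f2 {φ : Pt ≃ Pt} (hΛ : Λ.Ok) (h : Λ.Sym φ) (hf : F2 (Λ.edI (D.map φ.toEmbedding)) f n) :
    F2 (Λ.edI D) (fun x => f (φ x)) n := by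
  obtain ⟨ψ, rfl, h2⟩ := hf
  rw [h.edI_map hΛ, sum_map] at h2
  refine ⟨fun e => if ori φ e = (φ e.1, φ e.2) then ψ (ori φ e) else -ψ (ori φ e), ?_, ?_⟩
  · funext x
    rw [h.edI_map hΛ, dv, dv, sum_map]
    refine sum_congr rfl fun e _ => ?_
    by_cases h1 : ori φ e = (φ e.1, φ e.2)
    · simp only [Equiv.coe_toEmbedding, h1, φ.injective.eq_iff, if_true]
    · have h3 := (ori_cases φ e).resolve_left h1
      simp only [Equiv.coe_toEmbedding, if_neg h1]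
      rw [h3]; simp only [φ.injective.eq_iff]; ring
  · refine le_trans (le_of_eq (sum_congr rfl fun e _ => ?_)) h2
    simp only [Equiv.coe_toEmbedding]
    split_ifs <;> ring



end Lat

end Crest.Agent.T145
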