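import Crest.Agent.T145.NcDef_78
import Crest.Agent.T145.CutC_7
import Crest.Agent.T145.Dens_52
import Crest.Agent.T145.CorB_59
import Crest.Agent.T145.MdlD_73
import Crest.Agent.T145.ApiP_98
import Crest.Agent.T145.ApiL_98

-- ▼ part T145/NcMono_93
section

/-!
# Row 145: monotonicity and symmetry of the flat cross ratio (helper93)
-/

set_option autoImplicit false
set_option linter.unusedSectionVars false

namespace Crest.Agent.T145.Nc

open Finset

namespace M93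
variable {V : Type} [DecidableEq V] {m : Mdl V} {U U' K K' S : Finset V} {r : V}

/-- the gradients inside `K` -/
noncomputable def gH (K : Finset V) (r : V) : Cfg V →+ Cfg V :=
  T145.prjH ({()} : Finset Unit) (fun _ => K) fun _ => r

theorem gH_apply (K : Finset V) (r : V) (s : Cfg V) (x : V) :
    gH K r s x = if x ∈ K then s x - s r else 0 := by
  change prj ({()} : Finset Unit) (fun _ => K) (fun _ => r) s x = _
  rw [T145.prj_apply, sum_singleton]

theorem fl_iff (hr : r ∈ K) (s : Cfg V) : Fl K s ↔ gH K r s = 0 := by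
  simp only [Finsupp.ext_iff, gH_apply, Finsupp.zero_apply]
  refine ⟨fun h x => ?_, fun h x hx y hy => ?_⟩
  · split_ifs with hx
    · rw [h x hx r hr, sub_self]
    · rfl
  · have h1 := h x
    have h2 := h y
    rw [if_pos hx] at h1
    rw [if_pos hy] at h2
    omega

theorem fl_gH (hK : K' ⊆ K) (r : V) (s : Cfg V) : Fl K' (gH K r s) ↔ Fl K' s := by
  refine forall₂_congr fun x hx => forall₂_congr fun y hy => ?_
  rw [gH_apply, gH_apply, if_pos (hK hx), if_pos (hK hy), sub_left_inj]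

theorem fl_zero (K : Finset V) : Fl K (0 : Cfg V) := fun _ _ _ _ => rfl

theorem pd_fl (K : Finset V) : PD fun s : Cfg V => ind (Fl K s) := by
  rcases K.eq_empty_or_nonempty with rfl | ⟨r, hr⟩
  · have : (fun s : Cfg V => ind (Fl ∅ s)) = fun _ => 1 :=
      funext fun s => ind_pos fun x hx => absurd hx (notMem_empty x)
    rw [this]; exact pd_one
  · simp only [fl_iff hr]; exact pd_ind _

theorem fl_cst (hK : K ⊆ U) (s : Cfg V) (h : ℤ) : Fl K (s + cst U h) ↔ Fl K s := by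
  refine forall₂_congr fun x hx => forall₂_congr fun y hy => ?_
  rw [Finsupp.add_apply, Finsupp.add_apply, cst_of_mem h (hK hx), cst_of_mem h (hK hy),
    add_left_inj]

theorem cen_nb (hF : m.Fm) (hU : Cn m U) (hr : r ∈ U) : Cen ((m.nbox U r).W 0) :=
  cen_nbox hF (anch_nbox fun x hx => hU x hx r hr)

/-- change of the root -/
theorem ex_rW (hr : r ∈ U) {F : Cfg V → ℝ} (hF : ∀ s h, F (s + cst U h) = F s) :
    Ex (rW m U) F = Ex ((m.nbox U r).W 0) F := by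
  have hne : U.Nonempty := ⟨r, hr⟩
  have e : rW m U = ((pn m U ∅).free (U.erase hne.choose)).W 0 := by
    unfold rW rs
    rw [dif_pos hne]
    unfold pn
    rw [sdiff_singleton_eq_erase]
    rfl
  rw [e]
  exact ex_root (pn m U ∅) hne.choose_spec hr (fun e he => (T145.mem_inn.1 he).2)
    (fun _ _ => rfl) hF

theorem pr_rW (hr : r ∈ U) (hK : K ⊆ U) :
    Pr (rW m U) (Fl K) = Pr ((m.nbox U r).W 0) (Fl K) :=
  ex_rW hr fun s h => ind_congr (fl_cst hK s h)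

/-- pinning on `S` is conditioning on flatness on `S` -/
theorem W_pn (hr : r ∈ S) (s : Cfg V) :
    (pn m U S).W 0 s = (m.nbox U r).W 0 s * ind (Fl S s) := by
  simp only [Mdl.W, pn, Mdl.nbox, prod_const_one, mul_one, Finsupp.zero_apply]
  rw [mul_right_comm, ← ind_and]
  congr 1
  refine ind_congr ⟨fun h => ⟨fun x hx => h x fun hx' => ?_, fun x hx y hy => ?_⟩, fun h x hx => ?_⟩
  · exact hx (mem_erase.2 ⟨fun e => (mem_sdiff.1 hx').2 (e ▸ hr), (mem_sdiff.1 hx').1⟩)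
  · rw [h x fun h' => (mem_sdiff.1 h').2 hx, h y fun h' => (mem_sdiff.1 h').2 hy]
  · by_cases hx' : x ∈ S
    · rw [h.2 x hx' r hr]; exact h.1 r (notMem_erase r U)
    · exact h.1 x fun h' => hx (mem_sdiff.2 ⟨mem_of_mem_erase h', hx'⟩)

theorem pr_fl_pos {W : Cfg V → ℝ} (hW : Cen W) (K : Finset V) : 0 < Pr W (Fl K) :=
  hW.wt.ex_pos (hW.wt.ig_ind _) (fun _ => ind_nonneg _) hW.pos0
    (by rw [ind_pos (fl_zero K)]; exact one_pos)

theorem rW_pos (hF : m.Fm) (hU : Cn m U) (hr : r ∈ U) (hK : K ⊆ U) : 0 < Pr (rW m U) (Fl K) := by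
  rw [pr_rW hr hK]; exact pr_fl_pos (cen_nb hF hU hr) K

/-- the symmetric formula -/
theorem cr_eq (hF : m.Fm) (hU : Cn m U) (hK : K ⊆ U) (hS : S ⊆ U) (hne : S.Nonempty) :
    cr m U K S = Ex (rW m U) (fun s => ind (Fl S s) * ind (Fl K s)) /
      (Pr (rW m U) (Fl S) * Pr (rW m U) (Fl K)) := by
  obtain ⟨r, hr⟩ := hne
  have hc := cen_nb hF hU (hS hr)
  rw [cr, funext (W_pn (m := m) (U := U) hr), ← div_div, pr_rW (hS hr) hS,
    ex_rW (hS hr) (F := fun s => ind (Fl S s) * ind (Fl K s)) fun s h => by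
      rw [ind_congr (fl_cst hK s h), ind_congr (fl_cst hS s h)]]
  congr 1
  exact hc.wt.ex_mul _ _

theorem cr_symm (hF : m.Fm) (hU : Cn m U) (hK : K ⊆ U) (hS : S ⊆ U) (hK0 : K.Nonempty)
    (hS0 : S.Nonempty) : cr m U K S = cr m U S K := by
  rw [cr_eq hF hU hK hS hS0, cr_eq hF hU hS hK hK0, mul_comm (Pr _ _)]
  simp only [mul_comm (ind (Fl S _))]

theorem one_le_cr (hF : m.Fm) (hU : Cn m U) (hK : K ⊆ U) (hS : S ⊆ U) (hS0 : S.Nonempty) :
    1 ≤ cr m U K S := by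
  obtain ⟨r, hr⟩ := hS0
  have hc := cen_nb hF hU (hS hr)
  rw [cr, funext (W_pn (m := m) (U := U) hr), one_le_div (rW_pos hF hU (hS hr) hK), pr_rW (hS hr) hK]
  exact ((monoStmt _ _ hc).1 _ (pd_fl S) (fun _ => ind_nonneg _)
    (by rw [ind_pos (fl_zero S)]; exact one_pos)).2 _ (pd_fl K)

theorem cr_mono (hF : m.Fm) (hU : Cn m U) (hK : K ⊆ U) (hS : S ⊆ U) (hK0 : K.Nonempty)
    (hS0 : S.Nonempty) (hK' : K' ⊆ K) : cr m U K' S ≤ cr m U K S := by
  obtain ⟨r, hr⟩ := hS0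
  obtain ⟨k, hk⟩ := hK0
  have hc := cen_nb hF hU (hS hr)
  have h := (densStmt _ _ _ _ (gH K k) hc (pd_fl S) (fun _ => ind_nonneg _)
    (by rw [ind_pos (fl_zero S)]; exact one_pos)).2 (fun q => ind (Fl K' q))
    (fun _ => ind_nonneg _) (hc.wt.ig_ind _)
  simp only [← fl_iff hk, ind_congr (fl_gH hK' k _)] at h
  rw [cr, cr, funext (W_pn (m := m) (U := U) hr), pr_rW (hS hr) hK, pr_rW (hS hr) (hK'.trans hK),
    div_le_div_iff₀ (pr_fl_pos hc _) (pr_fl_pos hc _)]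
  exact h

/-- a larger free model is flatter on `K` -/
theorem pr_le_of_sub (hF : m.Fm) (hU : Cn m U) (hU' : Cn m U') (hUU : U ⊆ U') (hK : K ⊆ U)
    (hr : r ∈ U) : Pr (rW m U) (Fl K) ≤ Pr (rW m U') (Fl K) := by
  rw [pr_rW hr hK, pr_rW (hUU hr) (hK.trans hUU)]
  have hi : inn U (inn U' m.ed) = inn U m.ed := by
    ext e
    simp only [T145.mem_inn]
    exact ⟨fun h => ⟨h.1.1, h.2⟩, fun h => ⟨⟨h.1, hUU h.2.1, hUU h.2.2⟩, h.2⟩⟩
  have hb : (m.nbox U' r).nbox U r = m.nbox U r := by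
    simp only [Mdl.nbox, hi]
  have h := cut_pd (m := m.nbox U' r) (I := ({()} : Finset Unit)) (B := fun _ => U)
    (r := fun _ => r) (hF.ctr_nbox U' r) (anch_nbox fun x hx => hU' x hx r (hUU hr))
    (fun _ _ => hr) (fun _ _ _ _ h => absurd rfl h)
    (fun _ _ => by rw [hb]; exact anch_nbox fun x hx => hU x hx r hr) (pd_fl K)
  have hn : (m.nbox U' r).ncut ({()} : Finset Unit) (fun _ => U) (fun _ => r) = m.nbox U r := by
    simp only [Mdl.ncut, Mdl.nbox, singleton_biUnion, hi]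
  rw [hn] at h
  refine h.trans_eq (Ex_congr fun s _ => ind_congr ?_)
  exact fl_gH hK r s

theorem pp_ext (hF : m.Fm) (hS : S ⊆ U) (hUU : U ⊆ U')
    (hb : ∀ x ∈ U', x ∈ m.bd (U \ S) → x ∈ S) :
    Pp ((pn m U' (U' \ (U \ S))).W 0) ((pn m U S).W 0) := by
  have hA : U' \ (U' \ (U \ S)) = U \ S :=
    Finset.sdiff_sdiff_eq_self (sdiff_subset.trans hUU)
  refine Mdl.pp_of_touch (m := pn m U' (U' \ (U \ S))) (m' := pn m U S) (fun e he => hF e (T145.mem_inn.1 he).1)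
    (fun e he => hF e (T145.mem_inn.1 he).1) hA (fun _ _ _ => rfl) (fun e he => ?_)
    (fun _ _ _ => rfl) 0
  change e.1 ∈ U' \ (U' \ (U \ S)) ∨ e.2 ∈ U' \ (U' \ (U \ S)) at he
  rw [hA] at he
  change e ∈ inn U' m.ed ↔ e ∈ inn U m.ed
  simp only [T145.mem_inn]
  refine ⟨fun h => ⟨h.1, ?_⟩, fun h => ⟨h.1, hUU h.2.1, hUU h.2.2⟩⟩
  have key : ∀ x ∈ U', (x = e.1 ∧ e.2 ∈ U \ S) ∨ (x = e.2 ∧ e.1 ∈ U \ S) → x ∈ U := by
    intro x hx hx'
    by_cases h1 : x ∈ U \ S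
    · exact (mem_sdiff.1 h1).1
    · exact hS (hb x hx (Mdl.mem_bd.2 ⟨h1, e, h.1,
        hx'.imp (fun h => ⟨h.1.symm, h.2⟩) fun h => ⟨h.1.symm, h.2⟩⟩))
  rcases he with he | he
  · exact ⟨(mem_sdiff.1 he).1, key _ h.2.2 (Or.inr ⟨rfl, he⟩)⟩
  · exact ⟨key _ h.2.1 (Or.inl ⟨rfl, he⟩), (mem_sdiff.1 he).1⟩

theorem cr_ext (hF : m.Fm) (hU : Cn m U) (hK : K ⊆ U) (hS : S ⊆ U) (hK0 : K.Nonempty)
    {S' : Finset V} (hUU : U ⊆ U') (hU' : Cn m U') (hS' : S' ⊆ U') (hS0 : S'.Nonempty)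
    (hd : Disjoint S' (U \ S)) (hb : ∀ x ∈ U', x ∈ m.bd (U \ S) → x ∈ S) :
    cr m U' K S' ≤ cr m U K S := by
  have h1 : S' ⊆ U' \ (U \ S) := subset_sdiff.2 ⟨hS', hd⟩
  have h2 : (U' \ (U \ S)).Nonempty := hS0.mono h1
  have hK' := hK.trans hUU
  obtain ⟨k, hk⟩ := id hK0
  calc cr m U' K S' = cr m U' S' K := cr_symm hF hU' hK' hS' hK0 hS0
    _ ≤ cr m U' (U' \ (U \ S)) K := cr_mono hF hU' sdiff_subset hK' h2 hK0 h1
    _ = cr m U' K (U' \ (U \ S)) := cr_symm hF hU' sdiff_subset hK' h2 hK0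
    _ ≤ cr m U K S := by
      rw [cr, cr, (pp_ext hF hS hUU hb).pr]
      exact div_le_div_of_nonneg_left (Pr_nonneg (fun s => Md.W_nonneg (m := pn m U S)
        (fun e he => hF e (T145.mem_inn.1 he).1) (fun _ _ _ => zero_le_one) 0 s) _)
        (rW_pos hF hU (hK hk) hK) (pr_le_of_sub hF hU hU' hUU hK (hK hk))

end M93

theorem monoCrStmt : MonoCrStmt := fun _ _ _ _ _ _ hF hU hK hS hK0 hS0 =>
  ⟨M93.one_le_cr hF hU hK hS hS0, M93.cr_symm hF hU hK hS hK0 hS0,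
    fun _ hK' => M93.cr_mono hF hU hK hS hK0 hS0 hK',
    fun _ _ hUU hU' hS' hS0' hd hb => M93.cr_ext hF hU hK hS hK0 hUU hU' hS' hS0' hd hb⟩

end Crest.Agent.T145.Nc
end

-- ▼ part T145/NcHd_10
section

/-!
# Row 145, module (N): the hole density, `HdStmt` from `D1Stmt` (helper10)
-/

set_option autoImplicit false
set_option linter.unusedSectionVars false

namespace Crest.Agent.T145.Nc

open Finset

namespace Hd10

/-- two summands with the same sums on the fibres of `π` -/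
theorem transfer {α β : Type*} (π : α → β) {u v a b : α → ℝ} {f g : α → α → ℝ}
    (hu : ∀ s t, ind (π t = π s) * u t = a s * f s t)
    (hv : ∀ s t, ind (π t = π s) * v t = b s * g s t)
    (f0 : ∀ s t, 0 ≤ f s t) (hf : ∀ s, Summable (f s)) (g0 : ∀ s t, 0 ≤ g s t)
    (e : ∀ s, a s * Zs (f s) = b s * Zs (g s)) (hs : Summable v) : HasSum u (∑' t, v t) := by
  have off : ∀ (w : α → ℝ) (q : β), (¬ ∃ s, π s = q) → (fun t => ind (π t = q) * w t) = fun _ => 0 :=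
    fun w q hq => funext fun t => by rw [ind_neg fun h => hq ⟨t, h⟩, zero_mul]
  have ab : ∀ {w c : α → ℝ} {k : α → α → ℝ}, (∀ s t, ind (π t = π s) * w t = c s * k s t) →
      (∀ s t, 0 ≤ k s t) → ∀ s t, ind (π t = π s) * |w t| = |c s| * k s t := fun h k0 s t => by
    rw [← abs_of_nonneg (ind_nonneg (π t = π s)), ← abs_mul, h, abs_mul, abs_of_nonneg (k0 s t)]
  have e1 : push u π = push v π := funext fun q => by
    unfold push
    by_cases hq : ∃ s, π s = q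
    · obtain ⟨s, rfl⟩ := hq
      simp only [hu, hv, tsum_mul_left]
      exact e s
    · rw [off u q hq, off v q hq]
  have e2 : push (fun t => |u t|) π = push (fun t => |v t|) π := funext fun q => by
    unfold push
    by_cases hq : ∃ s, π s = q
    · obtain ⟨s, rfl⟩ := hq
      simp only [ab hu f0, ab hv g0, tsum_mul_left]
      have := congrArg abs (e s)
      rwa [abs_mul, abs_mul, abs_of_nonneg (Zs_nonneg (f0 s)), abs_of_nonneg (Zs_nonneg (g0 s))]
        at this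
    · rw [off _ q hq, off _ q hq]
  have su : Summable u := by
    refine Summable.of_abs (summable_of_push (fun t => abs_nonneg _) π (fun q => ?_) ?_)
    · by_cases hq : ∃ s, π s = q
      · obtain ⟨s, rfl⟩ := hq
        simp only [ab hu f0]
        exact (hf s).mul_left _
      · rw [off _ q hq]; exact summable_zero
    · rw [e2]; exact summable_push hs.abs π
  have h1 := hasSum_push su π
  rw [e1] at h1
  rw [← h1.unique (hasSum_push hs π)]
  exact su.hasSum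

variable {V : Type*} [DecidableEq V] {m : Mdl V} {B N X : Finset V}

theorem loc_fm (h : m.Fm) (B : Finset V) : (m.loc B).Fm := fun e he => h e (Mdl.mem_edM.1 he).1

theorem loc_ctr (h : m.Fm) (hc : Cl m B) : (m.loc B).Ctr :=
  ⟨loc_fm h B, fun x hx => by
    have : (m.loc B).site x = fun _ => 1 := funext (hc.2 x hx)
    rw [this]; exact ⟨rsd_one51, pd_one, one_pos⟩⟩

/-- a path that leaves `B` leaves it along edges meeting `B` -/
theorem exit {x y : V} (h : Conn m.ed x y) (hy : y ∉ B) : ∃ y', y' ∉ B ∧ Conn (m.edM B) x y' := by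
  induction h using Relation.ReflTransGen.head_induction_on with
  | refl => exact ⟨y, hy, Conn.refl _ _⟩
  | @head a c h _ ih =>
    by_cases ha : a ∈ B
    · obtain ⟨y', h1, h2⟩ := ih
      exact ⟨y', h1, Relation.ReflTransGen.head
        (h.imp (fun h => Mdl.mem_edM.2 ⟨h, Or.inl ha⟩) fun h => Mdl.mem_edM.2 ⟨h, Or.inr ha⟩) h2⟩
    · exact ⟨a, ha, Conn.refl _ _⟩

theorem loc_anch (h : ∀ x ∈ B, ∃ y, y ∉ B ∧ Conn m.ed x y) : (m.loc B).Anch := fun x hx => by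
  obtain ⟨y, h1, h2⟩ := h x hx
  obtain ⟨y', h3, h4⟩ := exit h2 h1
  exact ⟨y', h4, Or.inl h3⟩

theorem gl_out (m : Mdl V) (B : Finset V) : Out B (gl m B) := fun _ _ e => by
  rw [gl, gl, Mdl.W_congr (m := m.loc B) e]

theorem gl_of_bd {h : ℤ} (hs : ∀ x ∈ B, ∀ k, m.site x (k + h) = m.site x k) {s s' : Cfg V}
    (hb : ∀ x ∈ m.bd B, s' x = s x + h) : gl m B s = gl m B s' := by
  have hd : ∀ x, x ∈ B ∨ x ∈ m.bd B → pw B (cst B h) (s' - s) x = h := by
    rintro x (hx | hx)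
    · rw [pw_of_mem _ _ hx, cst_of_mem h hx]
    · rw [pw_of_notMem _ _ (Mdl.mem_bd.1 hx).1, Finsupp.sub_apply, hb x hx]; ring
  rw [gl_out m B s' (s + pw B (cst B h) (s' - s)) fun x hx => by
      rw [Finsupp.add_apply, pw_of_notMem _ _ hx, Finsupp.sub_apply]; ring, gl, gl,
    ← Zs_equiv (Equiv.addRight (pw B (cst B h) (s' - s))) ((m.loc B).W (s + _))]
  simp only [Equiv.coe_addRight]
  rw [funext (Mdl.W_loc_shift (fun x hx k => by rw [hd x (Or.inl hx), hs x hx])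
    (fun e he => by rw [hd _ (Mdl.ends_of_edM he).1, hd _ (Mdl.ends_of_edM he).2]) s)]

theorem gl_dep (m : Mdl V) (B : Finset V) : Dep (m.bd B) (gl m B) := fun _ _ e =>
  gl_of_bd (h := 0) (fun _ _ _ => by rw [add_zero]) fun x hx => by rw [e x hx, add_zero]

theorem gl_depG (hc : Cl m B) : DepG (m.bd B) (gl m B) := fun _ _ _ e =>
  gl_of_bd (fun x hx _ => by rw [hc.2 x hx, hc.2 x hx]) e

theorem pd_W (h : m.Ctr) : PD fun p : Cfg V × Cfg V => m.W p.2 p.1 := by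
  have h1 := (Md.pd_off m.A).comp (AddMonoidHom.fst (Cfg V) (Cfg V) - AddMonoidHom.snd _ _)
  have h2 := (Md.pd_edges h.1 le_rfl).comp (AddMonoidHom.fst (Cfg V) (Cfg V))
  have h3 := (Md.pd_sites fun x hx => (h.2 x hx).2.1).comp (AddMonoidHom.fst (Cfg V) (Cfg V))
  convert (h1.mul h2).mul h3 using 2 with p
  simp [Mdl.W, sub_eq_zero]

theorem gl_pd (hc : (m.loc B).Ctr) (ha : (m.loc B).Anch) : PD (gl m B) :=
  (pd_W hc).mg fun q => (Md.ctr_wt hc ha q).summ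

theorem gl_empty (m : Mdl V) (s : Cfg V) : gl m ∅ s = 1 := by
  have : (m.loc ∅).W s = fun t => ind (t = s) := funext fun t => by
    simp [Mdl.W, Mdl.loc, Mdl.free, Mdl.keep, Mdl.edM, Finsupp.ext_iff]
  rw [gl, this, Zs, tsum_eq_single s fun t ht => ind_neg ht, ind_pos rfl]

theorem mem_hole {e : V × V} : e ∈ (hole m N).ed ↔ e ∈ m.ed ∧ e.1 ∉ N ∧ e.2 ∉ N := mem_filter

theorem bd_hole {x : V} (hx : x ∈ (hole m N).bd X) : x ∉ N ∧ x ∈ m.bd (N ∪ X) := by
  obtain ⟨h1, e, he, h⟩ := Mdl.mem_bd.1 hx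
  obtain ⟨he, h2, h3⟩ := mem_hole.1 he
  have hN : x ∉ N := by rcases h with ⟨rfl, _⟩ | ⟨rfl, _⟩ <;> assumption
  exact ⟨hN, Mdl.mem_bd.2 ⟨fun h => (mem_union.1 h).elim hN h1, e, he,
    h.imp (And.imp_right (mem_union_right _)) (And.imp_right (mem_union_right _))⟩⟩

theorem gl_hole_out (m : Mdl V) (N X : Finset V) : Out (N ∪ X) (gl (hole m N) X) := fun s s' e =>
  gl_dep _ X s s' fun x hx => e x (Mdl.mem_bd.1 (bd_hole hx).2).1

/-- the weight of what does not meet `B` -/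
noncomputable def fr (m : Mdl V) (B : Finset V) (η : Cfg V) (σ : V × V → ℤ) (s : Cfg V) : ℝ :=
  ind (∀ x, x ∉ m.A → s x = η x) *
    (∏ e ∈ m.ed.filter (fun e => ¬ (e.1 ∈ B ∨ e.2 ∈ B)), m.w e (dE e s + σ e)) *
    ∏ x ∈ m.A \ B, m.site x (s x)

theorem fib (hB : B ⊆ m.A) (η : Cfg V) {σ : V × V → ℤ} (hσ : ∀ e ∈ m.edM B, σ e = 0) (s t : Cfg V) :
    ind (∀ x, x ∉ B → t x = s x) * m.Ws η σ t = fr m B η σ s * (m.loc B).W s t := by
  by_cases h : ∀ x, x ∉ B → t x = s x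
  · simp only [Mdl.W, Mdl.Ws, Mdl.free, Mdl.loc, Mdl.keep, fr]
    rw [← prod_filter_mul_prod_filter_not m.ed (fun e => e.1 ∈ B ∨ e.2 ∈ B), ← prod_sdiff hB,
      Md.ind_iff (p := ∀ x, x ∉ m.A → t x = η x) (q := ∀ x, x ∉ m.A → s x = η x)
        ⟨fun H x hx => (h x fun h' => hx (hB h')).symm.trans (H x hx),
          fun H x hx => (h x fun h' => hx (hB h')).trans (H x hx)⟩]
    have e1 : ∏ e ∈ m.ed.filter (fun e => ¬ (e.1 ∈ B ∨ e.2 ∈ B)), m.w e (dE e t + σ e) =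
        ∏ e ∈ m.ed.filter (fun e => ¬ (e.1 ∈ B ∨ e.2 ∈ B)), m.w e (dE e s + σ e) :=
      prod_congr rfl fun e he => by
        have := not_or.1 (mem_filter.1 he).2
        rw [Md.dE_congr (h _ this.1) (h _ this.2)]
    have e2 : ∏ e ∈ m.ed.filter (fun e => e.1 ∈ B ∨ e.2 ∈ B), m.w e (dE e t + σ e) =
        ∏ e ∈ m.edM B, m.w e (dE e t) := prod_congr rfl fun e he => by rw [hσ e he, add_zero]
    have e3 : ∏ x ∈ m.A \ B, m.site x (t x) = ∏ x ∈ m.A \ B, m.site x (s x) :=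
      prod_congr rfl fun x hx => by rw [h x (mem_sdiff.1 hx).2]
    rw [e1, e2, e3]; ring
  · simp only [Mdl.W, Mdl.free, Mdl.loc, Mdl.keep]
    rw [ind_neg h]; ring

theorem fr_hole (hN : N ⊆ m.A) (η : Cfg V) (σ : V × V → ℤ) (s : Cfg V) :
    fr (hole m N) X η σ (pw N η s) = fr m (N ∪ X) η σ s := by
  unfold fr
  congr 1
  · congr 1
    · refine Md.ind_iff ⟨fun H x hx => ?_, fun H x hx => ?_⟩
      · rw [← pw_of_notMem η s fun h => hx (hN h)]
        exact H x fun h => hx (mem_sdiff.1 h).1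
      · by_cases h : x ∈ N
        · exact pw_of_mem _ _ h
        · rw [pw_of_notMem _ _ h]; exact H x fun h' => hx (mem_sdiff.2 ⟨h', h⟩)
    · refine prod_congr ?_ fun e he => ?_
      · ext e; simp only [mem_filter, mem_hole, mem_union]; tauto
      · simp only [mem_filter, mem_union, not_or] at he
        rw [Md.dE_congr (pw_of_notMem η s he.2.1.1) (pw_of_notMem η s he.2.2.1)]; rfl
  · refine prod_congr ?_ fun x hx => ?_
    · ext x; simp only [hole, mem_sdiff, mem_union]; tauto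
    · simp only [mem_sdiff, mem_union, not_or] at hx
      rw [pw_of_notMem η s hx.2.1]; rfl

theorem fib_hole (hN : N ⊆ m.A) (hX : X ⊆ m.A) (hd : Disjoint N X) (η : Cfg V) {σ : V × V → ℤ}
    (hσ : ∀ e ∈ m.edM (N ∪ X), σ e = 0) (s t : Cfg V) :
    ind (∀ x, x ∉ N ∪ X → t x = s x) * (hole m N).Ws η σ t =
      fr m (N ∪ X) η σ s * ((hole m N).loc X).W (pw N η s) t := by
  rw [← fr_hole hN, ← fib (m := hole m N)
    (fun x hx => mem_sdiff.2 ⟨hX hx, disjoint_right.1 hd hx⟩) η fun e he =>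
      hσ e (Mdl.mem_edM.2 ⟨(mem_hole.1 (Mdl.mem_edM.1 he).1).1,
        (Mdl.mem_edM.1 he).2.imp (mem_union_right _) (mem_union_right _)⟩)]
  by_cases h : (hole m N).Ws η σ t = 0
  · rw [h, mul_zero, mul_zero]
  · congr 1
    refine Md.ind_iff ⟨fun H x hx => ?_, fun H x hx => ?_⟩
    · by_cases h' : x ∈ N
      · rw [pw_of_mem _ _ h']
        exact Mdl.Ws_ne_zero h fun h'' => (mem_sdiff.1 h'').2 h'
      · rw [pw_of_notMem _ _ h']
        exact H x fun h'' => (mem_union.1 h'').elim h' hx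
    · rw [H x fun h' => hx (mem_union_right _ h'),
        pw_of_notMem _ _ fun h' => hx (mem_union_left _ h')]

/-- transfer between the model and the model with the hole `N`, read off `N ∪ X` -/
theorem hole_transfer (hN : N ⊆ m.A) (hX : X ⊆ m.A) (hd : Disjoint N X)
    (w₁ : ∀ s, Wt ((m.loc (N ∪ X)).W s)) (w₂ : ∀ s t, 0 ≤ ((hole m N).loc X).W s t)
    (η : Cfg V) {σ : V × V → ℤ} (hσ : ∀ e ∈ m.edM (N ∪ X), σ e = 0) {Φ : Cfg V → ℝ}
    (hΦ : Out (N ∪ X) Φ) (hI : Ig ((hole m N).Ws η σ) Φ) :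
    HasSum (fun s => m.Ws η σ s * (Φ s * (gl (hole m N) X s / gl m (N ∪ X) s)))
      (∑' s, (hole m N).Ws η σ s * Φ s) := by
  refine transfer (fun s : Cfg V => s.filter (· ∉ N ∪ X))
    (a := fun s => fr m (N ∪ X) η σ s * (Φ s * (gl (hole m N) X s / gl m (N ∪ X) s)))
    (b := fun s => fr m (N ∪ X) η σ s * Φ s) (f := fun s => (m.loc (N ∪ X)).W s)
    (g := fun s => ((hole m N).loc X).W (pw N η s)) (fun s t => ?_) (fun s t => ?_)
    (fun s => (w₁ s).nonneg) (fun s => (w₁ s).summ) (fun s => w₂ _) (fun s => ?_) hI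
  · rw [Md.ind_iff (Md.filter_not_eq_iff _ t s), mul_right_comm,
      ← fib (union_subset hN hX) η hσ s t]
    by_cases h : ∀ x, x ∉ N ∪ X → t x = s x
    · rw [hΦ t s h, gl_hole_out m N X t s h, gl_out m _ t s h]; ring
    · rw [ind_neg h]; ring
  · rw [Md.ind_iff (Md.filter_not_eq_iff _ t s), mul_right_comm, ← fib_hole hN hX hd η hσ s t]
    by_cases h : ∀ x, x ∉ N ∪ X → t x = s x
    · rw [hΦ t s h]; ring
    · rw [ind_neg h]; ring
  · have e1 : Zs (((hole m N).loc X).W (pw N η s)) = gl (hole m N) X s :=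
      gl_hole_out m N X _ _ fun x hx => pw_of_notMem _ _ fun h => hx (mem_union_left _ h)
    have e2 : Zs ((m.loc (N ∪ X)).W s) = gl m (N ∪ X) s := rfl
    have e3 : gl m (N ∪ X) s ≠ 0 := (w₁ s).ne
    rw [e1, e2]; field_simp

variable {S U K T : Finset V}

theorem inn_hole (hd : Disjoint N U) : inn U (hole m N).ed = inn U m.ed := by
  ext e
  simp only [mem_inn, mem_hole]
  exact ⟨fun h => ⟨h.1.1, h.2⟩, fun h =>
    ⟨⟨h.1, disjoint_right.1 hd h.2.1, disjoint_right.1 hd h.2.2⟩, h.2⟩⟩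

theorem pn_hole (hd : Disjoint N U) (S : Finset V) : pn (hole m N) U S = pn m U S := by
  rw [pn, inn_hole hd]; rfl

theorem conn_hole (hd : Disjoint N U) (hU : Cn m U) {x y : V} (hx : x ∈ U) (hy : y ∈ U) :
    Conn (hole m N).ed x y := by
  have := hU x hx y hy
  rw [← inn_hole hd] at this
  exact this.mono (filter_subset _ _)

theorem hole_fm (h : m.Fm) (N : Finset V) : (hole m N).Fm := fun e he => h e (mem_hole.1 he).1

theorem hole_ctr (h : m.Ctr) (N : Finset V) : (hole m N).Ctr :=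
  ⟨hole_fm h.1 N, fun x hx => h.2 x (mem_sdiff.1 hx).1⟩

theorem not_se_one : ¬ SE fun _ : ℤ => (1 : ℝ) := fun h => by
  have := (summable_const_iff (1 : ℝ)).1 h.summable
  exact one_ne_zero this

theorem hole_anch (h : m.Anch) (hN : Cl m N) (hd : Disjoint N U) (hU : Cn m U) (hb : m.bd N ⊆ U) :
    (hole m N).Anch := fun x hx => by
  obtain ⟨hx, hxN⟩ := mem_sdiff.1 hx
  obtain ⟨y, h1, h2⟩ := h x hx
  have hy : y ∉ N := fun hy => h2.elim (fun h => h (hN.1 hy)) fun h => by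
    rw [funext (hN.2 y hy)] at h; exact not_se_one h
  have key : (y ∉ N → Conn (hole m N).ed x y) ∧ (y ∈ N → ∃ k ∈ U, Conn (hole m N).ed x k) := by
    clear h2 hy
    induction h1 with
    | refl => exact ⟨fun _ => Conn.refl _ _, fun h => absurd h hxN⟩
    | @tail a c _ h ih =>
      by_cases ha : a ∈ N
      · refine ⟨fun hc => ?_, fun _ => ih.2 ha⟩
        obtain ⟨k, hk, hk'⟩ := ih.2 ha
        refine hk'.trans (conn_hole hd hU hk (hb (Mdl.mem_bd.2 ⟨hc, ?_⟩)))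
        exact h.elim (fun h => ⟨_, h, Or.inr ⟨rfl, ha⟩⟩) fun h => ⟨_, h, Or.inl ⟨rfl, ha⟩⟩
      · refine ⟨fun hc => Relation.ReflTransGen.tail (ih.1 ha) (h.imp
          (fun h => mem_hole.2 ⟨h, ha, hc⟩) fun h => mem_hole.2 ⟨h, hc, ha⟩), fun hc => ?_⟩
        refine ⟨a, hb (Mdl.mem_bd.2 ⟨ha, ?_⟩), ih.1 ha⟩
        exact h.elim (fun h => ⟨_, h, Or.inl ⟨rfl, hc⟩⟩) fun h => ⟨_, h, Or.inr ⟨rfl, hc⟩⟩
  exact ⟨y, key.1 hy, h2.imp_left fun h h' => h (mem_sdiff.1 h').1⟩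

theorem rs_eq (hU : U.Nonempty) : ∃ r ∈ U, rs U = {r} :=
  ⟨hU.choose, hU.choose_spec, by rw [rs, dif_pos hU]⟩

theorem wt_rW (h : m.Fm) (hU : Cn m U) (hne : U.Nonempty) : Wt (rW m U) := by
  obtain ⟨r, hr, e⟩ := rs_eq hne
  refine Md.ctr_wt (m := pn m U (rs U))
    (ctr_of_site_one (fun e he => h e (mem_inn.1 he).1) rfl) (fun x hx => ?_) 0
  exact ⟨r, hU x (mem_sdiff.1 hx).1 r hr, Or.inl fun h => (mem_sdiff.1 h).2 (e ▸ mem_singleton_self r)⟩

end Hd10

open Hd10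

/-- a positive definite function of the gradients has a larger mean in the ambient model -/
theorem Hd10.le_ex {V : Type} [DecidableEq V] {m : Mdl V} {U : Finset V} (hc : m.Ctr) (ha : m.Anch)
    (hU : Cn m U) (hne : U.Nonempty) {G : Cfg V → ℝ} (hG : PD G) (hD : DepG U G) :
    nE m U G ≤ Ex (m.W 0) G := by
  obtain ⟨r, hr, e⟩ := rs_eq hne
  have h := cut_pd (I := ({()} : Finset Unit)) (B := fun _ => U) (r := fun _ => r) hc ha
    (fun _ _ => hr) (fun _ _ _ _ h => absurd rfl h) (fun _ _ => anch_nbox fun x hx => hU x hx r hr) hG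
  have e1 : m.ncut ({()} : Finset Unit) (fun _ => U) (fun _ => r) = pn m U (rs U) := by
    simp only [Mdl.ncut, pn, e, singleton_biUnion, sdiff_singleton_eq_erase]
  have e2 : (fun s => G (prj ({()} : Finset Unit) (fun _ => U) (fun _ => r) s)) = G :=
    funext fun s => hD _ _ (s r) fun x hx => by
      rw [Cut7.prj_mem (i := ()) (fun _ _ _ _ h => absurd rfl h) (mem_singleton_self _) hx]; ring
  rwa [e1, e2] at h

theorem hdStmt (hD : D1Stmt) : HdStmt := by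
  intro V _ m N S U K T hF hc
  obtain ⟨t, ht⟩ := hc.tne
  obtain ⟨b, hb⟩ := hc.bne
  have hbU : m.bd N ⊆ U := hc.kbd.trans hc.ksub
  have hdj : Disjoint N (U \ T) := hc.disj.mono_right sdiff_subset
  have cB : Cl m (N ∪ U \ T) := ⟨union_subset hc.clN.1 hc.clU.1, fun x hx =>
    (mem_union.1 hx).elim (hc.clN.2 x) (hc.clU.2 x)⟩
  have cH : Cl (hole m N) (U \ T) :=
    ⟨fun x hx => mem_sdiff.2 ⟨hc.clU.1 hx, disjoint_right.1 hdj hx⟩, hc.clU.2⟩
  have toU : ∀ x ∈ U, Conn m.ed x t := fun x hx =>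
    (hc.cnU x hx t (hc.tsub ht)).mono (filter_subset _ _)
  have toB : ∀ x ∈ N, Conn m.ed x b := fun x hx => by
    obtain ⟨_, e, he, ⟨h1, h2⟩ | ⟨h1, h2⟩⟩ := Mdl.mem_bd.1 hb
    · exact ((hc.cn x hx _ h2).mono (filter_subset _ _)).trans (h1 ▸ Conn.edge' he)
    · exact ((hc.cn x hx _ h2).mono (filter_subset _ _)).trans (h1 ▸ Conn.edge he)
  have tB : ∀ x ∈ T, x ∉ N ∪ U \ T := fun x hx h => (mem_union.1 h).elim
    (disjoint_right.1 hc.disj (hc.tsub hx)) fun h => (mem_sdiff.1 h).2 hx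
  have aN : (m.loc N).Anch := loc_anch fun x hx => ⟨b, (Mdl.mem_bd.1 hb).1, toB x hx⟩
  have aB : (m.loc (N ∪ U \ T)).Anch := loc_anch fun x hx => ⟨t, tB t ht, (mem_union.1 hx).elim
    (fun hx => (toB x hx).trans (toU b (hbU hb))) fun hx => toU x (mem_sdiff.1 hx).1⟩
  have aH : ((hole m N).loc (U \ T)).Anch := loc_anch fun x hx =>
    ⟨t, fun h => (mem_sdiff.1 h).2 ht, conn_hole hc.disj hc.cnU (mem_sdiff.1 hx).1 (hc.tsub ht)⟩
  have wN := Md.ctr_wt (loc_ctr hF hc.clN) aN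
  have wB := Md.ctr_wt (loc_ctr hF cB) aB
  have wH := Md.ctr_wt (loc_ctr (hole_fm hF N) cH) aH
  have pd : PD (gl m N) := gl_pd (loc_ctr hF hc.clN) aN
  have dK : DepG K (gl m N) := (gl_depG hc.clN).mono hc.kbd
  have wU : Wt (rW m U) := wt_rW hF hc.cnU ⟨t, hc.tsub ht⟩
  have iU : Ig (rW m U) (gl m N) := wU.ig_bdd pd.abs_le
  have k0 : 0 < nE m U (gl m N) := wU.ex_pos' iU fun s => (wN s).pos
  have bH : (hole m N).bd (U \ T) ⊆ T := fun x hx => hc.tbd (bd_hole hx).2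
  have tr : ∀ (η : Cfg V) (σ : V × V → ℤ) (Φ : Cfg V → ℝ), (∀ e ∈ m.edM (N ∪ U \ T), σ e = 0) →
      Out (N ∪ U \ T) Φ → Ig ((hole m N).Ws η σ) Φ →
      HasSum (fun s => m.Ws η σ s * (Φ s * hd m N U T s))
        (nE m U (gl m N) * ∑' s, (hole m N).Ws η σ s * Φ s) := fun η σ Φ hσ hΦ hI => by
    have h := (hole_transfer hc.clN.1 hc.clU.1 hdj wB (fun s => (wH s).nonneg) η hσ hΦ hI).mul_left
      (nE m U (gl m N))
    have e : (fun s => m.Ws η σ s * (Φ s * hd m N U T s)) = fun s => nE m U (gl m N) *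
        (m.Ws η σ s * (Φ s * (gl (hole m N) (U \ T) s / gl m (N ∪ U \ T) s))) :=
      funext fun s => by simp only [Nc.hd, gl]; ring
    rwa [e]
  refine ⟨fun s => div_pos (mul_pos k0 (wH s).pos) (wB s).pos, ?_, k0, tr, fun hC hA => ?_⟩
  · exact ((gl_depG cH).mono bH).comp₂ ((gl_depG cB).mono hc.tbd)
      fun a b => nE m U (gl m N) * a / b
  have cH' := hole_ctr hC N
  have aH' := hole_anch hA hc.clN hc.disj hc.cnU hbU
  have w0 := Md.ctr_wt cH' aH' 0
  have i0 : Ig ((hole m N).W 0) (gl m N) := w0.ig_bdd pd.abs_le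
  have E0 : 0 < Ex ((hole m N).W 0) (gl m N) := w0.ex_pos' i0 fun s => (wN s).pos
  have hZ : Zs (m.W 0) = Zs ((hole m N).W 0) * Ex ((hole m N).W 0) (gl m N) := by
    have h := hole_transfer (X := ∅) hc.clN.1 (empty_subset _) (disjoint_empty_right _)
      (by rw [union_empty]; exact wN)
      (fun s t => Md.W_nonneg (loc_fm (hole_fm hF N) _) (fun _ h => absurd h (notMem_empty _)) s t)
      0 (σ := 0) (fun _ _ => rfl) (Φ := gl m N) (by rw [union_empty]; exact gl_out m N)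
      (by rw [← Mdl.W_eq_Ws]; exact i0)
    simp only [← Mdl.W_eq_Ws, gl_empty, union_empty] at h
    rw [← w0.tsum_eq, ← h.tsum_eq]
    refine tsum_congr fun s => ?_
    have : gl m N s ≠ 0 := (wN s).ne
    field_simp
  have cnH : Cn (hole m N) U := fun x hx y hy => by rw [inn_hole hc.disj]; exact hc.cnU x hx y hy
  have eW : rW (hole m N) U = rW m U := by rw [rW, pn_hole hc.disj]; rfl
  have lo : nE m U (gl m N) ≤ Ex ((hole m N).W 0) (gl m N) := by
    have := le_ex cH' aH' cnH ⟨t, hc.tsub ht⟩ pd (dK.mono hc.ksub)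
    rwa [nE, eW] at this
  have hi : Ex ((hole m N).W 0) (gl m N) ≤ cr m U K T * nE m U (gl m N) := by
    have := (hD V Unit (hole m N) {()} (fun _ => U) (fun _ => K) (fun _ => T) (fun _ => gl m N)
      cH' aH' (fun _ _ _ _ h => absurd rfl h) fun _ _ =>
        ⟨⟨cnH, hc.tsub, ⟨t, ht⟩, cH, bH⟩, hc.ksub, dK, fun s => (wN s).pos.le, eW ▸ iU⟩).2
    simp only [prod_singleton] at this
    rwa [cr, nE, eW, pn_hole hc.disj] at this
  have c0 : 0 < cr m U K T := (mul_pos_iff_of_pos_right k0).1 (E0.trans_le hi)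
  refine ⟨nE m U (gl m N) / Ex ((hole m N).W 0) (gl m N), ?_, (div_le_one E0).2 lo,
    fun Φ hΦ hI => ?_⟩
  · rw [div_le_div_iff₀ c0 E0]; linarith
  · have h := tr 0 0 Φ (fun _ _ => rfl) hΦ (by rw [← Mdl.W_eq_Ws]; exact hI)
    simp only [← Mdl.W_eq_Ws] at h
    refine ⟨h.summable, ?_⟩
    rw [Ex_def, h.tsum_eq, hZ, w0.tsum_eq]
    have := w0.ne
    field_simp

end Crest.Agent.T145.Nc
end

-- ▼ part T145/NcIo_98

/-!
# Row 145 (helper98): `Nc.nbStmt : NbStmt` from (D1) and the symmetry of the cross ratio;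
`Nc.d1ioStmt : D1ioStmt` from `NbStmt` and `HdStmt`.
-/

set_option autoImplicit false

namespace Crest.Agent.T145.Nc

open Finset

namespace Io98

variable {V : Type} [DecidableEq V] {m : Mdl V}

theorem loc_shift {B : Finset V} (h1 : ∀ x ∈ B, ∀ k, m.site x k = 1) {s s' : Cfg V} {h : ℤ}
    (hb : ∀ x ∈ m.bd B, s' x = s x + h) :
    ∃ δ : Cfg V, (∀ x ∈ B, δ x = h) ∧ ∀ t, (m.loc B).W s' (t + δ) = (m.loc B).W s t := by
  have hB : ∀ x ∈ B, pw B (cst B h) (s' - s) x = h := fun x hx => by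
    rw [pw_of_mem _ _ hx, cst_of_mem h hx]
  have hδ : ∀ x, x ∈ B ∨ x ∈ m.bd B → pw B (cst B h) (s' - s) x = h := by
    rintro x (hx | hx)
    · exact hB x hx
    · rw [pw_of_notMem _ _ (Mdl.mem_bd.1 hx).1, Finsupp.sub_apply, hb x hx]; ring
  refine ⟨pw B (cst B h) (s' - s), hB, fun t => ?_⟩
  rw [← Mdl.W_loc_shift (δ := pw B (cst B h) (s' - s)) (fun x hx k => by rw [h1 x hx, h1 x hx])
    (fun e he => by rw [hδ _ (Mdl.ends_of_edM he).1, hδ _ (Mdl.ends_of_edM he).2]) s t,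
    (m.loc B).W_congr (η := s') (η' := s + pw B (cst B h) (s' - s)) fun x hx => by
      rw [Finsupp.add_apply, pw_of_notMem (U := B) _ _ hx, Finsupp.sub_apply]; ring]

theorem sum_shift {B C : Finset V} (h1 : ∀ x ∈ B, ∀ k, m.site x k = 1) {s s' : Cfg V} {h : ℤ}
    (hb : ∀ x ∈ m.bd B, s' x = s x + h) {F : Cfg V → ℝ} (hF : DepG C F) (hC : C ⊆ B) :
    (Ig ((m.loc B).W s') F ↔ Ig ((m.loc B).W s) F) ∧
      ∑' t, (m.loc B).W s' t * F t = ∑' t, (m.loc B).W s t * F t := by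
  obtain ⟨δ, hδ, hW⟩ := loc_shift h1 hb
  have e : ∀ t, (m.loc B).W s' (Equiv.addRight δ t) * F (Equiv.addRight δ t) =
      (m.loc B).W s t * F t := fun t => by
    rw [Equiv.coe_addRight, hW, ← hF t (t + δ) h fun x hx => by
      rw [Finsupp.add_apply, hδ x (hC hx)]]
  refine ⟨?_, ?_⟩
  · rw [Ig, Ig, ← (Equiv.addRight δ).summable_iff]
    exact Iff.of_eq (congrArg Summable (funext e))
  · rw [← (Equiv.addRight δ).tsum_eq]
    exact tsum_congr e

theorem zloc_depG {B : Finset V} (h1 : ∀ x ∈ B, ∀ k, m.site x k = 1) :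
    DepG (m.bd B) fun s => Zs ((m.loc B).W s) := fun s s' h hb => by
  have := (sum_shift h1 hb (DepG.const ∅ (1 : ℝ)) (empty_subset _)).2
  simp only [mul_one] at this
  exact this.symm

omit [DecidableEq V] in
theorem rs_eq {U : Finset V} (h : U.Nonempty) : ∃ r ∈ U, rs U = {r} :=
  ⟨h.choose, h.choose_spec, by rw [rs, dif_pos h]⟩

theorem pn_ctr (hF : m.Fm) (U S : Finset V) : (pn m U S).Ctr :=
  ⟨fun e he => hF e (Md.inn_subset _ _ he), fun _ _ => ⟨Md.rsd_one, pd_one, one_pos⟩⟩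

theorem pn_anch {U S : Finset V} (hc : Cn m U) (hS : S ⊆ U) (hne : S.Nonempty) :
    (pn m U S).Anch := fun x hx => by
  obtain ⟨y, hy⟩ := hne
  exact ⟨y, hc x (mem_sdiff.1 hx).1 y (hS hy), Or.inl fun h => (mem_sdiff.1 h).2 hy⟩

theorem pn_wt (hF : m.Fm) {U S : Finset V} (hc : Cn m U) (hS : S ⊆ U) (hne : S.Nonempty) :
    Wt ((pn m U S).W 0) := Md.ctr_wt (pn_ctr hF U S) (pn_anch hc hS hne) 0

theorem pn_root {U : Finset V} {r r' : V} (hr : r ∈ U) (hr' : r' ∈ U) {F : Cfg V → ℝ}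
    (hF : ∀ s h, F (s + cst U h) = F s) :
    (Ig ((pn m U {r}).W 0) F ↔ Ig ((pn m U {r'}).W 0) F) ∧
      Ex ((pn m U {r}).W 0) F = Ex ((pn m U {r'}).W 0) F := by
  have e : ∀ a, pn m U {a} = (pn m U ∅).free (U.erase a) := fun a => by
    simp only [pn, Mdl.free, sdiff_singleton_eq_erase]
  rw [e, e]
  exact (Md.root (pn m U ∅) hr hr' (fun e he => (Md.mem_inn.1 he).2) (fun _ _ => rfl) hF).2

theorem nE_root {U : Finset V} {r : V} (hr : r ∈ U) {F : Cfg V → ℝ} (hF : DepG U F) :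
    nE m U F = Ex ((pn m U {r}).W 0) F := by
  obtain ⟨a, ha, e⟩ := rs_eq ⟨r, hr⟩
  rw [nE, rW, e]
  exact (pn_root ha hr (hF.shift le_rfl)).2

theorem inn_inn {U X : Finset V} (h : U ⊆ X) (E : Finset (V × V)) : inn U (inn X E) = inn U E := by
  ext e
  simp only [Md.mem_inn]
  exact ⟨fun H => ⟨H.1.1, H.2⟩, fun H => ⟨⟨H.1, h H.2.1, h H.2.2⟩, H.2⟩⟩

theorem pn_pn {U X : Finset V} (h : U ⊆ X) (R S : Finset V) : pn (pn m X R) U S = pn m U S := by
  simp only [pn, inn_inn h]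

theorem bd_pn (X R B : Finset V) : (pn m X R).bd B ⊆ m.bd B := fun x hx => by
  obtain ⟨h1, e, he, h2⟩ := Mdl.mem_bd.1 hx
  exact Mdl.mem_bd.2 ⟨h1, e, Md.inn_subset _ _ he, h2⟩

/-- the local weight of `B` does not see the restriction to a set containing `B` and its boundary -/
theorem loc_pn {X B : Finset V} (R : Finset V) (h1 : ∀ x ∈ B, ∀ k, m.site x k = 1) (hB : B ⊆ X)
    (hb : m.bd B ⊆ X) (s : Cfg V) : ((pn m X R).loc B).W s = (m.loc B).W s := by
  refine Mdl.W_loc_congr (m := pn m X R) (m' := m) ?_ (fun _ _ => rfl)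
    (fun x hx => funext fun k => (h1 x hx k).symm) s
  ext e
  rw [Mdl.mem_edM, Mdl.mem_edM]
  refine ⟨fun H => ⟨Md.inn_subset _ _ H.1, H.2⟩, fun H => ⟨Md.mem_inn.2 ⟨H.1, ?_, ?_⟩, H.2⟩⟩
  · exact (Mdl.ends_of_edM (Mdl.mem_edM.2 H)).1.elim (@hB _) (@hb _)
  · exact (Mdl.ends_of_edM (Mdl.mem_edM.2 H)).2.elim (@hB _) (@hb _)

theorem glue_W {N : Finset V} (hN : N ⊆ m.A) (t : Cfg V) :
    m.W 0 t = (hole m N).W 0 (pw N 0 t) * (m.loc N).W (pw N 0 t) t := by
  have i1 : (∀ x, x ∉ m.A \ N → pw N 0 t x = (0 : Cfg V) x) ↔ ∀ x, x ∉ m.A → t x = (0 : Cfg V) x := by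
    refine ⟨fun H x hx => ?_, fun H x hx => ?_⟩
    · rw [← H x fun h => hx (mem_sdiff.1 h).1, pw_of_notMem _ _ fun h => hx (hN h)]
    · by_cases h : x ∈ N
      · exact pw_of_mem _ _ h
      · rw [pw_of_notMem _ _ h]; exact H x fun h' => hx (mem_sdiff.2 ⟨h', h⟩)
  have i2 : ∀ x, x ∉ N → t x = pw N 0 t x := fun x hx => (pw_of_notMem _ _ hx).symm
  have e1 : ∏ e ∈ m.ed.filter (fun e => e.1 ∉ N ∧ e.2 ∉ N), m.w e (dE e (pw N 0 t)) =
      ∏ e ∈ m.ed.filter (fun e => ¬ (e.1 ∈ N ∨ e.2 ∈ N)), m.w e (dE e t) := by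
    refine prod_congr (filter_congr fun e _ => not_or.symm) fun e he => ?_
    have := not_or.1 (mem_filter.1 he).2
    rw [Md.dE_congr (i2 _ this.1) (i2 _ this.2)]
  have e2 : ∏ x ∈ m.A \ N, m.site x (pw N 0 t x) = ∏ x ∈ m.A \ N, m.site x (t x) :=
    prod_congr rfl fun x hx => by rw [← i2 x (mem_sdiff.1 hx).2]
  simp only [Mdl.W, hole, Mdl.loc, Mdl.free, Mdl.keep, Mdl.edM]
  rw [ind_congr i1, ind_pos i2, e1, e2, ← prod_sdiff hN,
    ← prod_filter_mul_prod_filter_not m.ed (fun e => e.1 ∈ N ∨ e.2 ∈ N)]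
  ring

/-- gluing the box `N` into the hole -/
theorem glue {N : Finset V} (hN : N ⊆ m.A) (hs : Summable (m.W 0)) :
    Zs (m.W 0) = ∑' u, (hole m N).W 0 u * gl m N u := by
  rw [← Zs_push hs (pw N 0)]
  refine tsum_congr fun u => ?_
  rw [gl, Zs, ← tsum_mul_left]
  refine tsum_congr fun t => ?_
  by_cases h : pw N 0 t = u
  · rw [ind_pos h, one_mul, glue_W hN, h]
  · rw [ind_neg h, zero_mul]
    by_contra H
    obtain ⟨H1, H2⟩ := mul_ne_zero_iff.1 (Ne.symm H)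
    refine h (Finsupp.ext fun x => ?_)
    by_cases hx : x ∈ N
    · rw [pw_of_mem _ _ hx, Md.W_off H1 x fun h' => (mem_sdiff.1 h').2 hx]
    · rw [pw_of_notMem _ _ hx, Md.W_off H2 x hx]

/-- the weight of the free model on `X` restricted to a datum on `T` -/
theorem pn_datum {X T : Finset V} (hT : T ⊆ X) {r : V} (hr : r ∈ T) (s t : Cfg V) :
    (pn m X {r}).W 0 t * ind (∀ x ∈ T, t x - t r = s x - s r) =
      (∏ e ∈ inn T m.ed, m.w e (dE e s)) *
        ((pn m X {r}).loc (X \ T)).W (pw T (s - cst T (s r)) 0) t := by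
  have hζ : ∀ x ∈ T, pw T (s - cst T (s r)) 0 x = s x - s r := fun x hx => by
    rw [pw_of_mem _ _ hx, Finsupp.sub_apply, cst_of_mem _ hx]
  have hA : X \ T ⊆ (pn m X {r}).A := sdiff_subset_sdiff le_rfl (singleton_subset_iff.2 hr)
  have h0 : ∀ x, x ∉ (pn m X {r}).A → pw T (s - cst T (s r)) 0 x = (0 : Cfg V) x := fun x hx => by
    by_cases h : x ∈ T
    · have : x = r := by
        by_contra h'
        exact hx (mem_sdiff.2 ⟨hT h, fun h'' => h' (mem_singleton.1 h'')⟩)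
      rw [hζ x h, this, sub_self]; rfl
    · exact pw_of_notMem _ _ h
  have e1 := Md.W_free hA h0 t
  rw [Mdl.W_free_loc, show ∏ x ∈ (pn m X {r}).A \ (X \ T), (pn m X {r}).site x
    (pw T (s - cst T (s r)) 0 x) = 1 from prod_const_one, one_mul] at e1
  have e2 : (pn m X {r}).far (X \ T) (pw T (s - cst T (s r)) 0) =
      ∏ e ∈ inn T m.ed, m.w e (dE e s) := by
    refine prod_congr ?_ fun e he => ?_
    · ext e
      simp only [pn, mem_filter, Md.mem_inn, mem_sdiff]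
      constructor
      · rintro ⟨⟨a, b, c⟩, d⟩
        exact ⟨a, by_contra fun h => d (Or.inl ⟨b, h⟩), by_contra fun h => d (Or.inr ⟨c, h⟩)⟩
      · rintro ⟨a, b, c⟩
        exact ⟨⟨a, hT b, hT c⟩, fun d => d.elim (fun d => d.2 b) fun d => d.2 c⟩
    · obtain ⟨_, b, c⟩ := Md.mem_inn.1 he
      simp only [pn, dE, hζ _ b, hζ _ c, sub_sub_sub_cancel_right]
  rw [← e2, ← e1, mul_comm]
  by_cases hW : (pn m X {r}).W 0 t = 0
  · rw [hW, mul_zero, mul_zero]
  have hr0 : t r = 0 := Md.W_off hW r fun h => (mem_sdiff.1 h).2 (mem_singleton_self r)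
  congr 1
  refine ind_congr ⟨fun H x hx => ?_, fun H x hx => ?_⟩
  · by_cases h : x ∈ T
    · rw [hζ x h, ← H x h, hr0, sub_zero]
    · rw [pw_of_notMem _ _ h]
      exact Md.W_off hW x fun h' => hx (mem_sdiff.2 ⟨(mem_sdiff.1 h').1, h⟩)
  · rw [H x fun h => (mem_sdiff.1 h).2 hx, hζ x hx, hr0, sub_zero]

variable {N S U K T : Finset V}

theorem cn_union (h : Cut m N S U K T) : Cn m (N ∪ U) := by
  obtain ⟨y, hy⟩ := h.bne
  have hyU : y ∈ U := h.ksub (h.kbd hy)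
  have mN : inn N m.ed ⊆ inn (N ∪ U) m.ed := Md.inn_mono subset_union_left le_rfl
  have mU : inn U m.ed ⊆ inn (N ∪ U) m.ed := Md.inn_mono subset_union_right le_rfl
  have key : ∀ x ∈ N ∪ U, Conn (inn (N ∪ U) m.ed) x y := fun x hx => by
    rcases mem_union.1 hx with hx | hx
    · obtain ⟨_, e, he, ⟨rfl, h2⟩ | ⟨rfl, h2⟩⟩ := Mdl.mem_bd.1 hy
      · exact Md.conn_trans (Md.conn_mono mN (h.cn x hx _ h2)) (Md.conn_symm (Md.conn_edge
          (Md.mem_inn.2 ⟨he, mem_union_right _ hyU, mem_union_left _ h2⟩)))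
      · exact Md.conn_trans (Md.conn_mono mN (h.cn x hx _ h2)) (Md.conn_edge
          (Md.mem_inn.2 ⟨he, mem_union_left _ h2, mem_union_right _ hyU⟩))
    · exact Md.conn_mono mU (h.cnU x hx y hyU)
  exact fun x hx z hz => Md.conn_trans (key x hx) (Md.conn_symm (key z hz))

theorem site_B (h : Cut m N S U K T) : ∀ x ∈ N ∪ U \ T, ∀ k, m.site x k = 1 := fun x hx =>
  (mem_union.1 hx).elim (h.clN.2 x) (h.clU.2 x)

theorem sub_B (h : Cut m N S U K T) : N ∪ U \ T ⊆ m.A := union_subset h.clN.1 h.clU.1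

theorem loc_hole (h : Cut m N S U K T) (R : Finset V) (s : Cfg V) :
    ((pn m U R).loc (U \ T)).W s = ((hole m N).loc (U \ T)).W s := by
  refine Mdl.W_loc_congr (m := pn m U R) (m' := hole m N) ?_ (fun _ _ => rfl)
    (fun x hx => funext fun k => (h.clU.2 x hx k).symm) s
  have hd : ∀ x ∈ U, x ∉ N := fun x hx h' => disjoint_left.1 h.disj h' hx
  have hU : ∀ x, x ∉ N → (x ∈ N ∪ U \ T ∨ x ∈ m.bd (N ∪ U \ T)) → x ∈ U := fun x hx H =>
    H.elim (fun H => (mem_union.1 H).elim (fun H => absurd H hx) fun H => (mem_sdiff.1 H).1)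
      fun H => h.tsub (h.tbd H)
  ext e
  rw [Mdl.mem_edM, Mdl.mem_edM]
  refine ⟨fun H => ⟨?_, H.2⟩, fun H => ⟨?_, H.2⟩⟩
  · obtain ⟨a, b, c⟩ := Md.mem_inn.1 H.1
    exact mem_filter.2 ⟨a, hd _ b, hd _ c⟩
  · obtain ⟨a, b, c⟩ := mem_filter.1 H.1
    have := Mdl.ends_of_edM (m := m) (B := N ∪ U \ T)
      (Mdl.mem_edM.2 ⟨a, H.2.imp (mem_union_right _) (mem_union_right _)⟩)
    exact Md.mem_inn.2 ⟨a, hU _ b this.1, hU _ c this.2⟩

theorem bd_hole (h : Cut m N S U K T) : (hole m N).bd (U \ T) ⊆ T := fun x hx => by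
  obtain ⟨h1, e, he, h2⟩ := Mdl.mem_bd.1 hx
  obtain ⟨a, b, c⟩ := mem_filter.1 he
  refine h.tbd (Mdl.mem_bd.2 ⟨fun H => (mem_union.1 H).elim (fun H => ?_) h1, e, a,
    h2.imp (fun H => ⟨H.1, mem_union_right _ H.2⟩) fun H => ⟨H.1, mem_union_right _ H.2⟩⟩)
  rcases h2 with ⟨rfl, _⟩ | ⟨rfl, _⟩
  exacts [b H, c H]

theorem hole_pn (h : Cut m N S U K T) (R : Finset V) : hole (pn m (N ∪ U) R) N = pn m U R := by
  have hd : ∀ x ∈ U, x ∉ N := fun x hx h' => disjoint_left.1 h.disj h' hx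
  simp only [hole, pn]
  congr 1
  · ext x
    simp only [mem_sdiff, mem_union]
    exact ⟨fun H => ⟨H.1.1.resolve_left H.2, H.1.2⟩, fun H => ⟨⟨Or.inr H.1, H.2⟩, hd _ H.1⟩⟩
  · ext e
    simp only [mem_filter, Md.mem_inn, mem_union]
    exact ⟨fun H => ⟨H.1.1, H.1.2.1.resolve_left H.2.1, H.1.2.2.resolve_left H.2.2⟩,
      fun H => ⟨⟨H.1, Or.inr H.2.1, Or.inr H.2.2⟩, hd _ H.2.1, hd _ H.2.2⟩⟩

/-- partition function of the free model on `N ∪ U` -/
theorem zs_union (hF : m.Fm) (h : Cut m N S U K T) {r : V} (hr : r ∈ U) :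
    Zs ((pn m (N ∪ U) {r}).W 0) = Zs ((pn m U {r}).W 0) * nE m U (gl m N) := by
  have hb : m.bd N ⊆ U := h.kbd.trans h.ksub
  have w1 := pn_wt hF (cn_union h) (singleton_subset_iff.2 (mem_union_right N hr)) (singleton_nonempty r)
  have w2 := pn_wt hF h.cnU (singleton_subset_iff.2 hr) (singleton_nonempty r)
  have hN : N ⊆ (pn m (N ∪ U) {r}).A := fun x hx => mem_sdiff.2 ⟨mem_union_left _ hx, fun h' =>
    disjoint_left.1 h.disj hx (mem_singleton.1 h' ▸ hr)⟩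
  have hg : DepG U (gl m N) := (zloc_depG h.clN.2).mono hb
  rw [glue hN w1.summ, hole_pn h, nE_root hr hg, ← w2.tsum_eq]
  refine tsum_congr fun u => ?_
  rw [gl, gl, loc_pn _ h.clN.2 subset_union_left (hb.trans subset_union_right)]

/-- (D1) for the two boxes `N` and `U` of a cut, in the free model on `N ∪ U` -/
theorem d1_two (hM : MonoCrStmt) (hD : D1Stmt) (hF : m.Fm) (h : Cut m N S U K T) {C : Finset V}
    (hC : C ⊆ N) {F G : Cfg V → ℝ} (dF : DepG C F) (F0 : ∀ s, 0 ≤ F s) (iF : Ig (rW m N) F)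
    (dG : DepG T G) (G0 : ∀ s, 0 ≤ G s) (iG : Ig (rW m U) G) {r : V} (hr : r ∈ N ∪ U) :
    Ig ((pn m (N ∪ U) {r}).W 0) (fun s => F s * G s) ∧
      Ex ((pn m (N ∪ U) {r}).W 0) (fun s => F s * G s) ≤
        cr m N C S * cr m U K T * nE m N F * nE m U G := by
  obtain ⟨a, ha⟩ := h.ne
  have haN : a ∈ N := h.sub ha
  have hinv : DepG (N ∪ U) fun s => F s * G s :=
    (dF.mono (hC.trans subset_union_left)).mul (dG.mono (h.tsub.trans subset_union_right))
  have hroot := pn_root (m := m) (F := fun s => F s * G s) hr (mem_union_left U haN)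
    (hinv.shift le_rfl)
  rw [hroot.1, hroot.2]
  have cN : Cn (pn m (N ∪ U) {a}) N := fun x hx y hy => by
    simpa only [pn, inn_inn (subset_union_left (s₂ := U))] using h.cn x hx y hy
  have cU : Cn (pn m (N ∪ U) {a}) U := fun x hx y hy => by
    simpa only [pn, inn_inn (subset_union_right (s₁ := N))] using h.cnU x hx y hy
  have bN : Box (pn m (N ∪ U) {a}) N S :=
    ⟨cN, h.sub, h.ne, ⟨fun x hx => mem_sdiff.2 ⟨mem_union_left _ (mem_sdiff.1 hx).1, fun h' =>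
      (mem_sdiff.1 hx).2 (mem_singleton.1 h' ▸ ha)⟩, fun _ _ _ => rfl⟩, (bd_pn _ _ _).trans h.bd⟩
  have bU : Box (pn m (N ∪ U) {a}) U K := by
    refine ⟨cU, h.ksub, h.kne, ⟨fun x hx => mem_sdiff.2 ⟨mem_union_right _ (mem_sdiff.1 hx).1,
      fun h' => disjoint_left.1 h.disj haN (mem_singleton.1 h' ▸ (mem_sdiff.1 hx).1)⟩,
      fun _ _ _ => rfl⟩, fun x hx => ?_⟩
    obtain ⟨h1, e, he, h2⟩ := Mdl.mem_bd.1 hx
    obtain ⟨e0, e1, e2⟩ := Md.mem_inn.1 he
    by_contra hK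
    have hxU : x ∉ U := fun H => h1 (mem_sdiff.2 ⟨H, hK⟩)
    rcases h2 with ⟨rfl, H⟩ | ⟨rfl, H⟩
    · exact (mem_sdiff.1 H).2 (h.kbd (Mdl.mem_bd.2 ⟨fun H' => disjoint_left.1 h.disj H'
        (mem_sdiff.1 H).1, e, e0, Or.inr ⟨rfl, (mem_union.1 e1).resolve_right hxU⟩⟩))
    · exact (mem_sdiff.1 H).2 (h.kbd (Mdl.mem_bd.2 ⟨fun H' => disjoint_left.1 h.disj H'
        (mem_sdiff.1 H).1, e, e0, Or.inl ⟨rfl, (mem_union.1 e2).resolve_right hxU⟩⟩))
  have rN : rW (pn m (N ∪ U) {a}) N = rW m N := by rw [rW, rW, pn_pn subset_union_left]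
  have rU : rW (pn m (N ∪ U) {a}) U = rW m U := by rw [rW, rW, pn_pn subset_union_right]
  have H := hD V Bool (pn m (N ∪ U) {a}) univ (fun b => cond b N U) (fun b => cond b C T)
    (fun b => cond b S K) (fun b => cond b F G) (pn_ctr hF _ _)
    (pn_anch (cn_union h) (singleton_subset_iff.2 (mem_union_left U haN)) (singleton_nonempty a))
    (by
      rintro (_ | _) _ (_ | _) _ hij
      exacts [absurd rfl hij, h.disj.symm, h.disj, absurd rfl hij])
    (by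
      rintro (_ | _) _
      · exact ⟨bU, h.tsub, dG, G0, rU ▸ iG⟩
      · exact ⟨bN, hC, dF, F0, rN ▸ iF⟩)
  simp only [Fintype.prod_bool, cond_true, cond_false] at H
  refine ⟨H.1, H.2.trans (le_of_eq ?_)⟩
  rw [(hM V m U K T hF h.cnU h.ksub h.tsub h.kne h.tne).2.1]
  simp only [cr, nE, rN, rU, pn_pn (subset_union_left (s₂ := U)), pn_pn (subset_union_right (s₁ := N))]
  ring

/-- integrability from the integrability of the conditional expectation -/
theorem ig_of_cE {B : Finset V} (hB : B ⊆ m.A) {η : Cfg V} (hW : Wt (m.W η))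
    (h0 : ∀ s t, 0 ≤ (m.free B).W s t) {F H : Cfg V → ℝ} (F0 : ∀ s, 0 ≤ F s) (H0 : ∀ s, 0 ≤ H s)
    (hH : Out B H) (iF : ∀ s, Ig ((m.free B).W s) F) (i : Ig (m.W η) fun s => H s * m.cE B F s) :
    Ig (m.W η) fun s => H s * F s := by
  have fib : ∀ {s : Cfg V}, m.W η s ≠ 0 → ∀ (Φ : Cfg V → ℝ) (t : Cfg V),
      ind (t.filter (· ∉ B) = s.filter (· ∉ B)) * (m.W η t * (H t * Φ t)) =
        (H s * ∏ x ∈ m.A \ B, m.site x (s x)) * ((m.free B).W s t * Φ t) := fun hs Φ t => by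
    rw [ind_congr (Md.filter_not_eq_iff B _ _), ← mul_assoc _ ((m.free B).W _ t),
      ← Mdl.fib_eq hB hH hs t]
    ring
  have emp : ∀ {b : Cfg V}, (¬ ∃ s, m.W η s ≠ 0 ∧ s.filter (· ∉ B) = b) → ∀ (Φ : Cfg V → ℝ) (t : Cfg V),
      ind (t.filter (· ∉ B) = b) * (m.W η t * Φ t) = 0 := fun hb Φ t => by
    by_contra h
    obtain ⟨h1, h2⟩ := mul_ne_zero_iff.1 h
    exact hb ⟨t, left_ne_zero_of_mul h2, ind_ne_zero.1 h1⟩
  refine summable_of_push (fun s => mul_nonneg (hW.nonneg s) (mul_nonneg (H0 s) (F0 s)))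
    (fun s : Cfg V => s.filter (· ∉ B)) (fun b => ?_) ?_
  · by_cases hb : ∃ s, m.W η s ≠ 0 ∧ s.filter (· ∉ B) = b
    · obtain ⟨s, hs, rfl⟩ := hb
      simp only [fib hs]
      exact (iF s).mul_left _
    · exact summable_zero.congr fun t => (emp hb (fun t => H t * F t) t).symm
  · refine (summable_push i fun s : Cfg V => s.filter (· ∉ B)).congr fun b => ?_
    by_cases hb : ∃ s, m.W η s ≠ 0 ∧ s.filter (· ∉ B) = b
    · obtain ⟨s, hs, rfl⟩ := hb
      have w := Mdl.wt_fib' hB hs (h0 s) hW.summ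
      simp only [push, fib hs, tsum_mul_left, w.tsum_eq]
      rw [← Mdl.cE_def, ← Mdl.cE_def, Mdl.cE_of_out (m.cE_out B F) w]
    · exact tsum_congr fun t => (emp hb (fun t => H t * m.cE B F t) t).trans
        (emp hb (fun t => H t * F t) t).symm

end Io98

open Io98

theorem nbStmt (hM : MonoCrStmt) (hD : D1Stmt) : NbStmt := by
  intro V _ m N S U K T C F hF h hC dF iF s
  obtain ⟨r, hr⟩ := h.tne
  have hrU : r ∈ U := h.tsub hr
  have hne : ∀ e ∈ m.ed, ∀ k, m.w e k ≠ 0 := fun e he k => (Md.fm_pos hF he k).ne'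
  have wN : Wt (rW m N) := by
    obtain ⟨a, ha, e⟩ := rs_eq (h.ne.mono h.sub)
    rw [rW, e]; exact pn_wt hF h.cn (singleton_subset_iff.2 ha) (singleton_nonempty a)
  have wU : Wt (rW m U) := by
    obtain ⟨a, ha, e⟩ := rs_eq (h.tne.mono h.tsub)
    rw [rW, e]; exact pn_wt hF h.cnU (singleton_subset_iff.2 ha) (singleton_nonempty a)
  have w1 := pn_wt hF (cn_union h) (singleton_subset_iff.2 (mem_union_right N hrU)) (singleton_nonempty r)
  have w2 := pn_wt hF h.cnU (singleton_subset_iff.2 hrU) (singleton_nonempty r)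
  have dG : DepG T fun t : Cfg V => ind (∀ x ∈ T, t x - t r = s x - s r) := fun t t' k e =>
    ind_congr (forall₂_congr fun x hx => by rw [e x hx, e r hr, add_sub_add_right_eq_sub])
  have dA : DepG C fun t => |F t| := dF.comp _
  obtain ⟨i1, b1⟩ := d1_two hM hD hF h hC dA (fun _ => abs_nonneg _) (iF.abs wN.nonneg) dG
    (fun _ => ind_nonneg _) (wU.ig_ind _) (mem_union_right N hrU)
  have eB : (N ∪ U) \ T = N ∪ U \ T := by
    rw [union_sdiff_distrib, sdiff_eq_self_of_disjoint (h.disj.mono_right h.tsub)]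
  have hζ : ∀ x ∈ T, s x = pw T (s - cst T (s r)) 0 x + s r := fun x hx => by
    rw [pw_of_mem _ _ hx, Finsupp.sub_apply, cst_of_mem _ hx, sub_add_cancel]
  set ζ := pw T (s - cst T (s r)) 0 with hζd
  set a := ∏ e ∈ inn T m.ed, m.w e (dE e s) with had
  have ha : 0 < a := prod_pos fun e he => Md.fm_pos hF (Md.inn_subset _ _ he) _
  have e1 : ∀ t, (pn m (N ∪ U) {r}).W 0 t * (|F t| * ind (∀ x ∈ T, t x - t r = s x - s r)) =
      a * ((m.loc (N ∪ U \ T)).W ζ t * |F t|) := fun t => by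
    rw [mul_comm |F t|, ← mul_assoc, pn_datum (h.tsub.trans subset_union_right) hr, eB,
      loc_pn _ (site_B h) (union_subset_union le_rfl sdiff_subset)
        ((h.tbd.trans h.tsub).trans subset_union_right), mul_assoc]
  have e2 : ∀ t, (pn m U {r}).W 0 t * ind (∀ x ∈ T, t x - t r = s x - s r) =
      a * ((hole m N).loc (U \ T)).W ζ t := fun t => by
    rw [pn_datum h.tsub hr, loc_hole h]
  have sh := sum_shift (site_B h) (fun x hx => hζ x (h.tbd hx)) dA (hC.trans subset_union_left)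
  have z2 : Zs (((hole m N).loc (U \ T)).W ζ) = Zs (((hole m N).loc (U \ T)).W s) :=
    zloc_depG (m := hole m N) h.clU.2 ζ s (s r) fun x hx => hζ x (bd_hole h hx)
  have l0 : ∀ t, 0 ≤ (m.loc (N ∪ U \ T)).W s t := fun t =>
    Mdl.W_nonneg (m := m.loc (N ∪ U \ T)) (fun e he k => (Md.fm_pos hF (Mdl.mem_edM.1 he).1 k).le)
      (fun x hx k => by rw [show (m.loc (N ∪ U \ T)).site x k = 1 from site_B h x hx k]; exact one_pos.le) _ _
  have i2 : Ig ((m.loc (N ∪ U \ T)).W s) fun t => |F t| := by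
    rw [sh.1]
    rw [Ig, funext e1] at i1
    exact (summable_mul_left_iff ha.ne').1 i1
  refine ⟨(Mdl.ig_loc hne _ _ _).2 (Ig.of_abs l0 i2), ?_⟩
  have zu := zs_union hF h hrU
  have g0 : 0 < nE m U (gl m N) := by
    have := w1.pos
    rw [zu] at this
    exact (pos_iff_pos_of_mul_pos this).1 w2.pos
  rw [nE_root hrU (dG.mono h.tsub), Ex_def, Ex_def, funext e1, funext e2, tsum_mul_left,
    tsum_mul_left, zu, ← sh.2, show ∑' t, ((hole m N).loc (U \ T)).W ζ t = _ from z2,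
    div_le_iff₀ (mul_pos w2.pos g0)] at b1
  rw [Mdl.cE_loc hne, Ex_def, hd, ← mul_div_assoc]
  refine div_le_div_of_nonneg_right (le_of_mul_le_mul_left (b1.trans (le_of_eq ?_)) ha) (Zs_nonneg l0)
  have := w2.ne
  rw [nm]
  field_simp

theorem d1ioStmt (hN : NbStmt) (hH : HdStmt) : D1ioStmt := by
  intro V _ m N S U K T C F G hc ha h hC dF F0 iF oG G0 iG
  have hW := Md.ctr_wt hc ha 0
  have hB := sub_B h
  have nb := hN V m N S U K T C F hc.1 h hC dF iF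
  have eF : (fun t => |F t|) = F := funext fun t => abs_of_nonneg (F0 t)
  simp only [nm, eF] at nb
  obtain ⟨hp, -, -, -, H⟩ := hH V m N S U K T hc.1 h
  obtain ⟨κ, -, hκ, H⟩ := H hc ha
  obtain ⟨i1, e1⟩ := H G oG iG
  have f0 : ∀ s t, 0 ≤ (m.free (N ∪ U \ T)).W s t :=
    Mdl.free_nonneg (fun e he k => (Md.fm_pos hc.1 he k).le) hc.nn hB
  set c := cr m N C S * cr m U K T * nE m N F with hcd
  have c0 : 0 ≤ c := nonneg_of_mul_nonneg_left ((Mdl.cE_nonneg (f0 0) F0).trans (nb 0).2) (hp 0)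
  have le : ∀ s, G s * m.cE (N ∪ U \ T) F s ≤ c * (G s * hd m N U T s) := fun s => by
    have := mul_le_mul_of_nonneg_left (nb s).2 (G0 s)
    linarith
  have i2 : Ig (m.W 0) fun s => G s * m.cE (N ∪ U \ T) F s :=
    Ig.of_le hW.nonneg (i1.const_mul c) (fun s => mul_nonneg (G0 s) (Mdl.cE_nonneg (f0 s) F0)) le
  have i3 := ig_of_cE hB hW f0 F0 G0 oG (fun s => (nb s).1) i2
  simp only [mul_comm (F _)]
  refine ⟨i3, ?_⟩
  rw [(Mdl.tower_cE_mul hB oG hW i3).2]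
  refine (Ex_mono hW.nonneg i2 (i1.const_mul c) le).trans ?_
  rw [Ex_const_mul, e1]
  have hE : 0 ≤ Ex ((hole m N).W 0) G := Ex_nonneg (fun s => Mdl.W_nonneg (m := hole m N)
    (fun e he k => (Md.fm_pos hc.1 (mem_filter.1 he).1 k).le)
    (fun x hx k => hc.nn x (mem_sdiff.1 hx).1 k) _ _) fun s _ => G0 s
  exact mul_le_mul_of_nonneg_left (mul_le_of_le_one_left hE hκ) c0

end Crest.Agent.T145.Nc
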