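import Crest.Agent.T145.Bes_66

/-!
# Row 145, T0 (helper66): bounds, derivative, analyticity of `I_k(t)`; kernels decrease in `|k|`
-/

set_option autoImplicit false

open Finset
open scoped Nat ContDiff

namespace Crest.Agent.T145.Bes66

theorem bes_neg (t : ℝ) (k : ℤ) : bes t (-k) = bes t k := Xy48.besI_neg t k


theorem bes_pos {t : ℝ} (ht : 0 < t) (k : ℤ) : 0 < bes t k := Xy48.besI_pos ht k

theorem bes_zero (k : ℤ) : bes 0 k = if k = 0 then 1 else 0 := by
  have h := hasSum_single (f := fun N => nu 0 N * ph N k) 0 fun N hN => by simp [nu, hN]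
  rw [← (hasSum_bes 0 k).unique h |>.symm]
  simp [nu, ph]




theorem bes_mono (k : ℤ) {s t : ℝ} (hs : 0 ≤ s) (h : s ≤ t) : bes s k ≤ bes t k :=
  hasSum_le (fun N => mul_le_mul_of_nonneg_right (by unfold nu; gcongr) (ph_nonneg N k))
    (hasSum_bes s k) (hasSum_bes t k)

theorem abs_nu (t : ℝ) (N : ℕ) : |nu t N| = nu |t| N := by
  simp [nu, abs_div, abs_pow]

theorem hasDerivAt_nu (t : ℝ) (N : ℕ) : HasDerivAt (fun s => nu s (N + 1)) (nu t N / 2) t := by
  have h := (((hasDerivAt_id t).div_const 2).fun_pow (N + 1)).div_const ((N + 1)! : ℝ)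
  refine h.congr_deriv ?_
  simp only [nu, id, Nat.add_sub_cancel, Nat.factorial_succ]
  push_cast
  field_simp

theorem hasSum_succ (t : ℝ) (k : ℤ) :
    HasSum (fun N => nu t N / 2 * ph (N + 1) k) ((bes t (k - 1) + bes t (k + 1)) / 2) :=
  hs_congr (((hasSum_bes t (k - 1)).add (hasSum_bes t (k + 1))).div_const 2)
    (fun N => by rw [ph_succ]; ring) rfl

/-- `d/dt I_k = (I_{k-1} + I_{k+1}) / 2` -/
theorem hasDerivAt_bes (t : ℝ) (k : ℤ) :
    HasDerivAt (fun s => bes s k) ((bes t (k - 1) + bes t (k + 1)) / 2) t := by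
  have hs : ∀ s, HasSum (fun N => nu s (N + 1) * ph (N + 1) k) (bes s k - ph 0 k) := fun s => by
    have := (hasSum_nat_add_iff' 1).2 (hasSum_bes s k)
    simpa [nu] using this
  have h := hasDerivAt_tsum_of_isPreconnected (hasSum_succ (|t| + 1) k).summable
    (Metric.isOpen_ball (x := (0 : ℝ)) (ε := |t| + 1)) (convex_ball _ _).isPreconnected
    (g := fun N s => nu s (N + 1) * ph (N + 1) k) (g' := fun N s => nu s N / 2 * ph (N + 1) k)
    (fun N s _ => (hasDerivAt_nu s N).mul_const _) (fun N s hs => ?_) (y₀ := t) (by simp)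
    (hs t).summable (y := t) (by simp)
  · simp only [fun s => (hs s).tsum_eq, (hasSum_succ t k).tsum_eq] at h
    simpa using h.add_const (ph 0 k)
  · rw [Real.norm_eq_abs, abs_mul, abs_div, abs_nu, abs_two, abs_of_nonneg (ph_nonneg _ _)]
    have h1 : |s| ≤ |t| + 1 := (mem_ball_zero_iff.1 hs).le
    have h2 := ph_nonneg (N + 1) k
    unfold nu
    gcongr




/-- a kernel decreases in `|k|` -/
theorem lc_succ_le {w : ℤ → ℝ} (h : LC w) (he : ∀ k, w (-k) = w k) {k : ℤ} (hk : 0 ≤ k) :
    w (k + 1) ≤ w k := by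
  induction k, hk using Int.leInduction with
  | base =>
    have h1 := h.2 0
    rw [zero_sub, he, zero_add, ← sq] at h1
    exact (pow_le_pow_iff_left₀ (h.1 _).le (h.1 _).le two_ne_zero).1 h1
  | succ k hk ih =>
    have h1 := h.2 (k + 1)
    rw [add_sub_cancel_right, sq] at h1
    exact le_of_mul_le_mul_left (h1.trans (mul_le_mul_of_nonneg_right ih (h.1 _).le)) (h.1 k)

theorem lc_anti {w : ℤ → ℝ} (h : LC w) (he : ∀ k, w (-k) = w k) {k l : ℤ} (hkl : |k| ≤ |l|) :
    w l ≤ w k := by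
  have e : ∀ k, w |k| = w k := fun k => by rcases abs_choice k with h | h <;> rw [h]; exact he k
  rw [← e k, ← e l]
  generalize |l| = m at hkl
  induction m, hkl using Int.leInduction with
  | base => exact le_rfl
  | succ m hm ih => exact (lc_succ_le h he ((abs_nonneg k).trans hm)).trans ih

theorem _root_.Crest.Agent.T145.IsKer.anti {w : ℤ → ℝ} (h : IsKer w) {k l : ℤ} (hkl : |k| ≤ |l|) :
    w l ≤ w k := lc_anti h.lc h.cen.even hkl


end Crest.Agent.T145.Bes66
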