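import Crest.Agent.T145.Def_97
import Crest.Agent.T145.XyA_48
import Crest.Agent.T145.ApiC_98
import Crest.Agent.T145.BesB_66
import Crest.Agent.T145.MdlC_73
import Crest.Agent.T145.Rsd_63
import Crest.Agent.T145.CorA_59

-- ▼ part T145/MixK_53
section

/-!
# Row 145: the cut edge is a mixture of shorter edges (`mixKStmt`) (helper53)

Gaussian family: Cauchy-Schloemilch integral.  Bessel family: first passage decomposition
(ballot numbers and Beta integrals).
-/

set_option autoImplicit false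
set_option linter.unusedVariables false

namespace Crest.Agent.T145.Mix53

open MeasureTheory Set Finset
open scoped Nat

/-! ### mixtures from a density -/

theorem mix_of_density (k : ℝ → ℤ → ℝ) (hk : ∀ y, Measurable fun t => k t y) (S D : Set ℝ)
    (hS : MeasurableSet S) (hD : MeasurableSet D) (g T : ℝ → ℝ) (hg : Measurable g)
    (hT : Measurable T) (hg0 : ∀ x ∈ D, 0 ≤ g x) (hTS : ∀ x ∈ D, T x ∈ S) (v : ℤ → ℝ)
    (hv : ∀ y, v y ≠ 0) (h : ∀ y, v y = ∫ x in D, g x * k (T x) y) :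
    ∃ ν : Measure ℝ, ν Sᶜ = 0 ∧ ∀ y, Integrable (fun t => k t y) ν ∧ v y = ∫ t, k t y ∂ν := by
  refine ⟨((volume.restrict D).withDensity fun x => ENNReal.ofReal (g x)).map T, ?_, fun y => ?_⟩
  · rw [Measure.map_apply hT hS.compl]
    refine withDensity_absolutelyContinuous _ _ ?_
    rw [Measure.restrict_apply (hT hS.compl)]
    convert measure_empty (μ := (volume : Measure ℝ))
    ext x
    simp only [mem_inter_iff, Set.mem_preimage, mem_compl_iff, mem_empty_iff_false, iff_false,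
      not_and]
    exact fun h1 h2 => h1 (hTS x h2)
  · have e : ∫ t, k t y ∂(((volume.restrict D).withDensity fun x => ENNReal.ofReal (g x)).map T) =
        v y := by
      rw [integral_map hT.aemeasurable (hk y).aestronglyMeasurable,
        integral_withDensity_eq_integral_toReal_smul hg.ennreal_ofReal
          (ae_of_all _ fun x => ENNReal.ofReal_lt_top), h y]
      refine setIntegral_congr_fun hD fun x hx => ?_
      simp only [smul_eq_mul]
      rw [ENNReal.toReal_ofReal (hg0 x hx)]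
    exact ⟨Integrable.of_integral_ne_zero (by rw [e]; exact hv y), e.symm⟩

/-! ### Cauchy-Schloemilch -/

theorem schl_pos {β : ℝ} (hβ : 0 < β) :
    ∫ u in Ioi (0 : ℝ), Real.exp (-(u - β / u) ^ 2) = Real.sqrt Real.pi / 2 := by
  set ph : ℝ → ℝ := fun u => Real.exp (-(u - β / u) ^ 2) with hph
  have hphm : Measurable ph := by
    simp only [hph]; fun_prop
  -- the substitution `v = u - β / u`
  have d1 : ∀ u ∈ Ioi (0 : ℝ), HasDerivWithinAt (fun u : ℝ => u - β / u) (1 + β / u ^ 2) (Ioi 0) u := by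
    intro u hu
    have hu' : u ≠ 0 := (ne_of_gt hu)
    have := (hasDerivAt_id u).sub ((hasDerivAt_inv hu').const_mul β)
    refine (HasDerivAt.hasDerivWithinAt ?_)
    simp only [div_eq_mul_inv β]
    refine HasDerivAt.congr_deriv this ?_
    ring
  have i1 : InjOn (fun u : ℝ => u - β / u) (Ioi 0) := by
    refine StrictMonoOn.injOn fun a ha b hb hab => ?_
    have : β / b < β / a := div_lt_div_of_pos_left hβ ha hab
    linarith
  have s1 : (fun u : ℝ => u - β / u) '' Ioi 0 = Set.univ := by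
    refine eq_univ_of_forall fun v => ?_
    have h4 : 0 ≤ v ^ 2 + 4 * β := by positivity
    have hs : |v| < Real.sqrt (v ^ 2 + 4 * β) := by
      rw [← Real.sqrt_sq_eq_abs]; exact Real.sqrt_lt_sqrt (sq_nonneg _) (by linarith)
    have hp : 0 < (v + Real.sqrt (v ^ 2 + 4 * β)) / 2 := by
      have := neg_abs_le v; linarith
    refine ⟨(v + Real.sqrt (v ^ 2 + 4 * β)) / 2, hp, ?_⟩
    have hsq := Real.sq_sqrt h4
    have hne : v + Real.sqrt (v ^ 2 + 4 * β) ≠ 0 := by linarith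
    simp only
    field_simp
    nlinarith
  have e1 := integral_image_eq_integral_abs_deriv_smul measurableSet_Ioi d1 i1
    fun v => Real.exp (-v ^ 2)
  have j1 := (integrableOn_image_iff_integrableOn_abs_deriv_smul measurableSet_Ioi d1 i1
    fun v => Real.exp (-v ^ 2)).1 (by
      rw [s1, integrableOn_univ]
      simpa using integrable_exp_neg_mul_sq (b := 1) one_pos)
  rw [s1, Measure.restrict_univ] at e1
  have g1 : ∫ v : ℝ, Real.exp (-v ^ 2) = Real.sqrt Real.pi := by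
    simpa using integral_gaussian 1
  -- the substitution `u ↦ β / u`
  have d2 : ∀ u ∈ Ioi (0 : ℝ), HasDerivWithinAt (fun u : ℝ => β / u) (-(β / u ^ 2)) (Ioi 0) u := by
    intro u hu
    have hu' : u ≠ 0 := (ne_of_gt hu)
    have := (hasDerivAt_inv hu').const_mul β
    refine (HasDerivAt.hasDerivWithinAt ?_)
    simp only [div_eq_mul_inv β]
    refine HasDerivAt.congr_deriv this ?_
    ring
  have i2 : InjOn (fun u : ℝ => β / u) (Ioi 0) := by
    refine StrictAntiOn.injOn fun a ha b hb hab => div_lt_div_of_pos_left hβ ha hab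
  have s2 : (fun u : ℝ => β / u) '' Set.Ioi 0 = Set.Ioi 0 := by
    ext v
    constructor
    · rintro ⟨u, hu, rfl⟩; exact div_pos hβ hu
    · intro hv
      have hv' : v ≠ 0 := ne_of_gt hv
      exact ⟨β / v, div_pos hβ hv, by simp only; field_simp⟩
  have e2 := integral_image_eq_integral_abs_deriv_smul measurableSet_Ioi d2 i2 ph
  rw [s2] at e2
  have e2' : ∫ u in Ioi (0 : ℝ), ph u = ∫ u in Ioi (0 : ℝ), β / u ^ 2 * ph u := by
    rw [e2]
    refine setIntegral_congr_fun measurableSet_Ioi fun u hu => ?_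
    have hu0 : (0 : ℝ) < u := hu
    have hu' : u ≠ 0 := ne_of_gt hu
    simp only [hph, smul_eq_mul]
    rw [abs_neg, abs_of_pos (by positivity)]
    congr 2
    field_simp
    ring
  have j1' : IntegrableOn (fun u => (1 + β / u ^ 2) * ph u) (Ioi 0) := by
    refine j1.congr_fun (fun u hu => ?_) measurableSet_Ioi
    have hu0 : (0 : ℝ) < u := hu
    simp only [hph, smul_eq_mul]
    rw [abs_of_pos (by positivity)]
  have ja : IntegrableOn ph (Ioi 0) := by
    refine Integrable.mono' j1' hphm.aestronglyMeasurable ?_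
    refine (ae_restrict_iff' measurableSet_Ioi).2 (ae_of_all _ fun u hu => ?_)
    have hu0 : (0 : ℝ) < u := hu
    have : 0 < ph u := Real.exp_pos _
    rw [Real.norm_eq_abs, abs_of_pos this]
    have : 0 < β / u ^ 2 * ph u := by positivity
    linarith
  have jb : IntegrableOn (fun u => β / u ^ 2 * ph u) (Ioi 0) := by
    refine (j1'.sub ja).congr_fun (fun u hu => ?_) measurableSet_Ioi
    simp only [Pi.sub_apply]; ring
  have e3 : ∫ u in Ioi (0 : ℝ), (1 + β / u ^ 2) * ph u = Real.sqrt Real.pi := by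
    rw [← g1, e1]
    refine setIntegral_congr_fun measurableSet_Ioi fun u hu => ?_
    have hu0 : (0 : ℝ) < u := hu
    simp only [hph, smul_eq_mul]
    rw [abs_of_pos (by positivity)]
  have e4 : ∫ u in Ioi (0 : ℝ), (1 + β / u ^ 2) * ph u =
      (∫ u in Ioi (0 : ℝ), ph u) + ∫ u in Ioi (0 : ℝ), β / u ^ 2 * ph u := by
    rw [← integral_add ja jb]
    exact integral_congr_ae (ae_of_all _ fun u => by ring)
  rw [← e2'] at e4
  linarith

theorem schl {β : ℝ} (hβ : 0 ≤ β) :
    ∫ u in Ioi (0 : ℝ), Real.exp (-u ^ 2 - β ^ 2 / u ^ 2) =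
      Real.sqrt Real.pi / 2 * Real.exp (-(2 * β)) := by
  rcases hβ.eq_or_lt with rfl | hβ
  · simpa using integral_gaussian_Ioi 1
  · rw [← schl_pos hβ, ← integral_mul_const]
    refine setIntegral_congr_fun measurableSet_Ioi fun u hu => ?_
    have hu' : u ≠ 0 := ne_of_gt hu
    rw [← Real.exp_add]
    congr 1
    field_simp
    ring

theorem mix_gau {τ : ℝ} (hτ : 0 < τ) (c : ℤ) (hc : 0 ≤ c) :
    ∃ ν : Measure ℝ, ν (Set.Ioc 0 τ)ᶜ = 0 ∧ ∀ y : ℤ,
      Integrable (fun t => gau t y) ν ∧ gau τ (c + |y|) = ∫ t, gau t y ∂ν := by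
  have hc' : (0 : ℝ) ≤ c := by exact_mod_cast hc
  have hpi : 0 < Real.sqrt Real.pi := Real.sqrt_pos.2 Real.pi_pos
  refine mix_of_density (fun t y => gau t y) (fun y => by unfold gau; fun_prop) _ (Ioi 0)
    measurableSet_Ioc measurableSet_Ioi
    (fun u => 2 / Real.sqrt Real.pi * Real.exp (-(c : ℝ) ^ 2 / (2 * τ)) * Real.exp (-u ^ 2))
    (fun u => (1 / τ + ((c : ℝ) / τ) ^ 2 / (2 * u ^ 2))⁻¹) (by fun_prop) (by fun_prop)
    (fun u _ => by positivity) (fun u hu => ?_) (fun y => gau τ (c + |y|))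
    (fun y => (Real.exp_pos _).ne') fun y => ?_
  · have hu0 : (0 : ℝ) < u := hu
    refine ⟨by positivity, ?_⟩
    rw [inv_le_comm₀ (by positivity) hτ, ← one_div]
    have : 0 ≤ ((c : ℝ) / τ) ^ 2 / (2 * u ^ 2) := by positivity
    linarith
  · have hβ : 0 ≤ (c : ℝ) / τ * |(y : ℝ)| / 2 := by positivity
    have e : ∫ u in Ioi (0 : ℝ), 2 / Real.sqrt Real.pi * Real.exp (-(c : ℝ) ^ 2 / (2 * τ)) *
          Real.exp (-u ^ 2) * gau (1 / τ + ((c : ℝ) / τ) ^ 2 / (2 * u ^ 2))⁻¹ y =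
        ∫ u in Ioi (0 : ℝ), 2 / Real.sqrt Real.pi * Real.exp (-(c : ℝ) ^ 2 / (2 * τ)) *
          Real.exp (-(y : ℝ) ^ 2 / (2 * τ)) *
          Real.exp (-u ^ 2 - ((c : ℝ) / τ * |(y : ℝ)| / 2) ^ 2 / u ^ 2) := by
      refine setIntegral_congr_fun measurableSet_Ioi fun u hu => ?_
      have hu' : u ≠ 0 := ne_of_gt hu
      simp only [gau, mul_assoc]
      congr 2
      rw [← Real.exp_add, ← Real.exp_add]
      congr 1
      rw [← sq_abs (y : ℝ), mul_comm 2 (_)⁻¹, ← div_div, div_inv_eq_mul]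
      field_simp
      ring
    rw [e, integral_const_mul, schl hβ, gau]
    have : 2 / Real.sqrt Real.pi * Real.exp (-(c : ℝ) ^ 2 / (2 * τ)) *
        Real.exp (-(y : ℝ) ^ 2 / (2 * τ)) * (Real.sqrt Real.pi / 2 *
          Real.exp (-(2 * ((c : ℝ) / τ * |(y : ℝ)| / 2)))) =
        Real.exp (-(c : ℝ) ^ 2 / (2 * τ)) * Real.exp (-(y : ℝ) ^ 2 / (2 * τ)) *
          Real.exp (-(2 * ((c : ℝ) / τ * |(y : ℝ)| / 2))) := by
      field_simp
    rw [this, ← Real.exp_add, ← Real.exp_add]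
    congr 1
    push_cast
    rw [← sq_abs (y : ℝ)]
    field_simp
    ring

/-! ### ballot numbers -/

/-- number of first passage paths to level `c` with `j` down steps -/
def bal : ℕ → ℕ → ℕ
  | _, 0 => 1
  | 0, _ + 1 => 0
  | c + 1, j + 1 => bal c (j + 1) + bal (c + 2) j
termination_by c j => (j, c)

theorem bal_conv (y m : ℕ) : ∀ c : ℕ,
    ∑ p ∈ antidiagonal m, bal c p.1 * (2 * p.2 + y).choose p.2 = (2 * m + c + y).choose m := by
  induction m with
  | zero => intro c; simp [bal]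
  | succ m ih =>
    intro c
    induction c with
    | zero =>
      rw [Finset.Nat.sum_antidiagonal_succ]
      simp [bal]
    | succ c ihc =>
      rw [Finset.Nat.sum_antidiagonal_succ] at ihc ⊢
      simp only [bal, add_mul, sum_add_distrib, one_mul] at ihc ⊢
      rw [ih (c + 2), ← add_assoc, ihc]
      rw [show 2 * (m + 1) + (c + 1) + y = (2 * (m + 1) + c + y) + 1 by ring,
        show 2 * m + (c + 2) + y = 2 * (m + 1) + c + y by ring, Nat.choose_succ_succ', add_comm]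

theorem bal_le (c j : ℕ) : bal c j ≤ 2 ^ (2 * j + c) := by
  have h := bal_conv 0 j c
  have h2 := single_le_sum (f := fun p : ℕ × ℕ => bal c p.1 * (2 * p.2 + 0).choose p.2)
    (fun _ _ => Nat.zero_le _) (show (j, 0) ∈ antidiagonal j by simp)
  rw [h] at h2
  simp only [mul_zero, add_zero, Nat.choose_self, mul_one] at h2
  exact h2.trans (Nat.choose_le_two_pow _ _)

/-! ### Beta integrals -/

/-- Poisson term -/
noncomputable def po (n : ℕ) (t : ℝ) : ℝ := (t / 2) ^ n / (n ! : ℝ)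

theorem po_nonneg (n : ℕ) {t : ℝ} (ht : 0 ≤ t) : 0 ≤ po n t := by unfold po; positivity

theorem continuous_po (n : ℕ) : Continuous (po n) := by unfold po; fun_prop

theorem hasDerivAt_po (n : ℕ) (t : ℝ) : HasDerivAt (po (n + 1)) (po n t / 2) t := by
  have h := (((hasDerivAt_id t).div_const 2).fun_pow (n + 1)).div_const ((n + 1)! : ℝ)
  refine HasDerivAt.congr_deriv h ?_
  simp only [po, Nat.factorial_succ, id, Nat.add_sub_cancel]
  push_cast
  have : (n ! : ℝ) ≠ 0 := by positivity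
  field_simp

theorem po_conv (t : ℝ) (q : ℕ) : ∀ p : ℕ,
    ∫ s in (0 : ℝ)..t, po p (t - s) / 2 * po q s = po (p + q + 1) t := by
  induction q with
  | zero =>
    intro p
    have hd : ∀ s ∈ uIcc (0 : ℝ) t, HasDerivAt (fun s => -po (p + 1) (t - s))
        (po p (t - s) / 2 * po 0 s) s := by
      intro s _
      have := ((hasDerivAt_po p (t - s)).comp s ((hasDerivAt_id s).const_sub t)).neg
      refine HasDerivAt.congr_deriv this ?_
      simp [po]
    rw [intervalIntegral.integral_eq_sub_of_hasDerivAt hd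
      (Continuous.intervalIntegrable (by
        have := continuous_po p; have := continuous_po 0; fun_prop) _ _)]
    simp [po]
  | succ q ih =>
    intro p
    have hd : ∀ s ∈ uIcc (0 : ℝ) t, HasDerivAt (fun s => po (p + 1) (t - s) * po (q + 1) s)
        (po (p + 1) (t - s) / 2 * po q s - po p (t - s) / 2 * po (q + 1) s) s := by
      intro s _
      have := ((hasDerivAt_po p (t - s)).comp s ((hasDerivAt_id s).const_sub t)).mul
        (hasDerivAt_po q s)
      refine HasDerivAt.congr_deriv this ?_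
      simp only [Function.comp]
      ring
    have c1 : Continuous fun s => po (p + 1) (t - s) / 2 * po q s := by
      have := continuous_po (p + 1); have := continuous_po q; fun_prop
    have c2 : Continuous fun s => po p (t - s) / 2 * po (q + 1) s := by
      have := continuous_po (q + 1); have := continuous_po p; fun_prop
    have := intervalIntegral.integral_eq_sub_of_hasDerivAt hd ((c1.sub c2).intervalIntegrable _ _)
    rw [intervalIntegral.integral_sub (c1.intervalIntegrable _ _) (c2.intervalIntegrable _ _),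
      ih (p + 1)] at this
    simp only [po, sub_self, zero_div, ne_eq, Nat.add_eq_zero_iff, one_ne_zero, and_false,
      not_false_eq_true, zero_pow, zero_mul, mul_zero] at this
    rw [show p + (q + 1) + 1 = p + 1 + q + 1 by ring]
    simp only [po]
    linarith

theorem bt_eq_po (t : ℝ) (k : ℤ) (n : ℕ) :
    Xy48.bt t k n = ((2 * n + k.natAbs).choose n : ℝ) * po (2 * n + k.natAbs) t := by
  have h : ((2 * n + k.natAbs).choose n : ℝ) * (n ! : ℝ) * ((n + k.natAbs)! : ℝ) =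
      ((2 * n + k.natAbs)! : ℝ) := by
    have := Nat.choose_mul_factorial_mul_factorial (show n ≤ 2 * n + k.natAbs by omega)
    rw [show 2 * n + k.natAbs - n = n + k.natAbs by omega] at this
    exact_mod_cast this
  have h0 : ((2 * n + k.natAbs).choose n : ℝ) ≠ 0 := by
    exact_mod_cast (Nat.choose_pos (by omega)).ne'
  simp only [Xy48.bt, po]
  rw [← h]
  have : (n ! : ℝ) ≠ 0 := by positivity
  have : ((n + k.natAbs)! : ℝ) ≠ 0 := by positivity
  field_simp

/-- the term of the first passage density to level `c + 1` -/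
noncomputable def fp (c j : ℕ) (t : ℝ) : ℝ := (bal (c + 1) j : ℝ) * (po (2 * j + c) t / 2)

theorem fp_nonneg (c j : ℕ) {t : ℝ} (ht : 0 ≤ t) : 0 ≤ fp c j t := by
  have := po_nonneg (2 * j + c) ht
  unfold fp; positivity

theorem summable_fp (c : ℕ) {t : ℝ} (ht : 0 ≤ t) : Summable fun j => fp c j t := by
  have h1 : Summable fun j : ℕ => t ^ (2 * j + c) / ((2 * j + c)! : ℝ) :=
    (Real.summable_pow_div_factorial t).comp_injective (i := fun j => 2 * j + c)
      fun a b h => by simp only at h; omega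
  refine Summable.of_nonneg_of_le (fun j => fp_nonneg c j ht) (fun j => ?_) h1
  have h2 : (bal (c + 1) j : ℝ) ≤ 2 ^ (2 * j + (c + 1)) := by exact_mod_cast bal_le (c + 1) j
  have h3 := po_nonneg (2 * j + c) ht
  calc fp c j t ≤ 2 ^ (2 * j + (c + 1)) * (po (2 * j + c) t / 2) :=
        mul_le_mul_of_nonneg_right h2 (by positivity)
    _ = _ := by
      simp only [po, div_pow]
      rw [← add_assoc, pow_succ]
      field_simp

theorem bes_eq (t : ℝ) (k : ℤ) : bes t k = Xy48.besI t k := rfl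

theorem mix_bes {τ : ℝ} (hτ : 0 < τ) (c : ℤ) (hc : 0 ≤ c) :
    ∃ ν : Measure ℝ, ν (Set.Ioc 0 τ)ᶜ = 0 ∧ ∀ y : ℤ,
      Integrable (fun t => bes t y) ν ∧ bes τ (c + |y|) = ∫ t, bes t y ∂ν := by
  have hm : ∀ y, Measurable fun t => bes t y := fun y => by
    unfold bes
    exact Measurable.tsum fun n => by fun_prop
  rcases hc.eq_or_lt with rfl | hc
  · refine ⟨Measure.dirac τ, ?_, fun y => ⟨?_, ?_⟩⟩
    · rw [Measure.dirac_apply' _ measurableSet_Ioc.compl]
      simp [hτ]
    · exact integrable_dirac (by simp)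
    · rw [integral_dirac, zero_add]
      simp only [bes, Int.natAbs_abs]
  obtain ⟨c, rfl⟩ : ∃ n : ℕ, c = (n : ℤ) + 1 := ⟨(c - 1).toNat, by omega⟩
  refine mix_of_density (fun t y => bes t y) hm _ (Set.Ioc 0 τ) measurableSet_Ioc measurableSet_Ioc
    (fun s => ∑' j, fp c j (τ - s)) id
    (Measurable.tsum fun j => by
      have := (continuous_po (2 * j + c)).measurable
      unfold fp; fun_prop)
    measurable_id (fun s hs => tsum_nonneg fun j => fp_nonneg c j (sub_nonneg.2 hs.2))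
    (fun s hs => hs) (fun y => bes τ (c + 1 + |y|))
    (fun y => (Xy48.besI_pos hτ _).ne') fun y => ?_
  set F : ℕ × ℕ → ℝ → ℝ := fun p s => fp c p.1 (τ - s) * Xy48.bt s y p.2 with hF
  have hFc : ∀ p, Continuous (F p) := fun p => by
    have := continuous_po (2 * p.1 + c)
    simp only [hF, fp, Xy48.bt]; fun_prop
  have hFi : ∀ p, Integrable (F p) (volume.restrict (Set.Ioc 0 τ)) := fun p =>
    (hFc p).integrableOn_Ioc
  set a : ℕ × ℕ → ℝ := fun p => ((bal (c + 1) p.1 * (2 * p.2 + y.natAbs).choose p.2 : ℕ) : ℝ) *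
    po (2 * (p.1 + p.2) + (c + 1 + y.natAbs)) τ with ha
  have hFa : ∀ p, ∫ s in Set.Ioc 0 τ, F p s = a p := fun p => by
    rw [← intervalIntegral.integral_of_le hτ.le]
    have : ∀ s, F p s = ((bal (c + 1) p.1 * (2 * p.2 + y.natAbs).choose p.2 : ℕ) : ℝ) *
        (po (2 * p.1 + c) (τ - s) / 2 * po (2 * p.2 + y.natAbs) s) := fun s => by
      simp only [hF, fp, bt_eq_po]; push_cast; ring
    simp only [this]
    rw [intervalIntegral.integral_const_mul, po_conv, ha]
    simp only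
    congr 2
    ring
  have hFn : ∀ p, ∫ s in Set.Ioc 0 τ, ‖F p s‖ = a p := fun p => by
    rw [← hFa]
    refine setIntegral_congr_fun measurableSet_Ioc fun s hs => ?_
    exact Real.norm_of_nonneg (mul_nonneg (fp_nonneg c _ (sub_nonneg.2 hs.2))
      (Xy48.bt_nonneg hs.1.le _ _))
  have hk : ((c : ℤ) + 1 + |y|).natAbs = c + 1 + y.natAbs := by
    rw [Int.abs_eq_natAbs]; omega
  have hfib : ∀ m : ℕ, HasSum (fun p : antidiagonal m => a p) (Xy48.bt τ (c + 1 + |y|) m) := by
    intro m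
    have := hasSum_fintype fun p : antidiagonal m => a p
    convert this using 1
    rw [Finset.sum_coe_sort (antidiagonal m) a, bt_eq_po, hk,
      show 2 * m + (c + 1 + y.natAbs) = 2 * m + (c + 1) + y.natAbs by ring,
      ← bal_conv y.natAbs m (c + 1), Nat.cast_sum, sum_mul]
    refine sum_congr rfl fun p hp => ?_
    rw [HasAntidiagonal.mem_antidiagonal] at hp
    simp only [ha, hp]
    congr 2
    ring
  have ha0 : ∀ p, 0 ≤ a p := fun p => mul_nonneg (Nat.cast_nonneg _) (po_nonneg _ hτ.le)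
  have hsig : HasSum (fun x : Σ m : ℕ, antidiagonal m => a x.2) (Xy48.besI τ (c + 1 + |y|)) := by
    refine HasSum.sigma_of_hasSum (Xy48.hasSum_besI τ _) hfib ?_
    refine (summable_sigma_of_nonneg fun x => ha0 _).2 ⟨fun m => (hfib m).summable, ?_⟩
    simp only [(hfib _).tsum_eq]
    exact Xy48.summable_bt τ _
  have hsum : HasSum a (Xy48.besI τ (c + 1 + |y|)) :=
    (Finset.HasAntidiagonal.sigmaAntidiagonalEquivProd.hasSum_iff (f := a)).1 hsig
  have h1 := hasSum_integral_of_summable_integral_norm hFi (by simp only [hFn]; exact hsum.summable)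
  simp only [hFa] at h1
  rw [bes_eq, hsum.unique h1]
  refine setIntegral_congr_fun measurableSet_Ioc fun s hs => ?_
  simp only [hF, id, bes_eq, Xy48.besI]
  rw [tsum_mul_tsum_of_summable_norm (summable_fp c (sub_nonneg.2 hs.2)).norm
    (Xy48.summable_bt s y).norm]

end Crest.Agent.T145.Mix53

namespace Crest.Agent.T145

theorem mixKStmt : MixKStmt := by
  intro xy τ hτ c hc
  cases xy
  · simpa [kern] using Mix53.mix_gau hτ c hc
  · simpa [kern] using Mix53.mix_bes hτ c hc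

end Crest.Agent.T145
private theorem rz_26b2385700 : type_of% @_root_.Crest.Agent.T145.Mix53.bal.eq_1 := @_root_.Crest.Agent.T145.Mix53.bal.eq_1 -- L207
end

-- ▼ part T145/Mix_53
section

/-!
# Row 145: the rest model is a mixture of models with shorter boundary edges (`mixStmt`) (helper53)
-/

set_option autoImplicit false
set_option linter.unusedVariables false

namespace Crest.Agent.T145.Mix53

open MeasureTheory Finset

/-! ### the cone of a class -/
section cone
variable {α : Type*} {P Q : (α → ℝ) → Prop} {W W' : α → ℝ}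

theorem cone_mem (h : P W) : InCone P W := fun F hF hP => hP W h hF

theorem cone_trans (h : InCone Q W') (hQ : ∀ W, Q W → InCone P W) : InCone P W' :=
  fun F hF hP => h F hF fun W hW hI => hQ W hW F hI hP

theorem cone_mono (h : InCone Q W') (hQ : ∀ W, Q W → P W) : InCone P W' :=
  cone_trans h fun W hW => cone_mem (hQ W hW)

theorem cone_smul (h : InCone P W) {K : ℝ} (hK : 0 < K) : InCone P fun a => K * W a := by
  intro F hF hP
  have := h F ((ig_smul_iff hK.ne').1 hF) hP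
  simp only [mul_assoc]
  rw [tsum_mul_left]
  exact mul_nonneg hK.le this

theorem cone_congr (h : InCone P W) (e : ∀ a, W' a = W a) : InCone P W' := by
  rw [funext e]; exact h

/-- a lower bound on means passes to the cone -/
theorem cone_le_ex (h : InCone P W') (hW' : Wt W') {F : α → ℝ} (hF : Ig W' F) {c : ℝ}
    (hP : ∀ W, P W → Wt W ∧ Ig W F ∧ c ≤ Ex W F) : c ≤ Ex W' F := by
  have := h (fun a => F a - c) (hF.sub (hW'.ig_const c)) fun W hW _ => by
    obtain ⟨h1, h2, h3⟩ := hP W hW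
    rw [h1.tsum_eq, h1.ex_sub_const h2]
    exact mul_nonneg h1.pos.le (sub_nonneg.2 h3)
  rw [hW'.tsum_eq, hW'.ex_sub_const hF] at this
  exact sub_nonneg.1 ((mul_nonneg_iff_of_pos_left hW'.pos).1 this)

/-- an upper bound on means passes to the cone -/
theorem cone_ex_le (h : InCone P W') (hW' : Wt W') {F : α → ℝ} (hF : Ig W' F) {c : ℝ}
    (hP : ∀ W, P W → Wt W ∧ Ig W F ∧ Ex W F ≤ c) : Ex W' F ≤ c := by
  have := cone_le_ex h hW' hF.neg (c := -c) fun W hW => by
    obtain ⟨h1, h2, h3⟩ := hP W hW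
    exact ⟨h1, h2.neg, by rw [Ex_neg]; exact neg_le_neg h3⟩
  rw [Ex_neg] at this
  exact neg_le_neg_iff.1 this

/-- one edge -/
theorem cone_one [Countable α] {w : ℤ → ℝ} (hw : Fam w) {c : ℤ} (hc : 0 ≤ c) (k : α → ℤ)
    (R : α → ℝ) : InCone (fun W => ∃ u, Short u w ∧ W = fun a => R a * u (k a))
      fun a => R a * w (c + |k a|) := by
  obtain ⟨xy, τ, hτ, rfl⟩ := hw
  obtain ⟨ν, h0, hν⟩ := mixKStmt xy τ hτ c hc
  have hae : ∀ᵐ t ∂ν, t ∈ Set.Ioc 0 τ := mem_ae_iff.2 h0
  intro F hF hP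
  have e1 : ∀ a, ∫ t, R a * kern xy t (k a) * F a ∂ν = R a * kern xy τ (c + |k a|) * F a := by
    intro a
    rw [integral_mul_const, integral_const_mul, ← (hν _).2]
  have e2 : ∀ a, ∫ t, ‖R a * kern xy t (k a) * F a‖ ∂ν =
      ‖R a * kern xy τ (c + |k a|) * F a‖ := by
    intro a
    have : ∫ t, ‖R a * kern xy t (k a) * F a‖ ∂ν = ∫ t, |R a| * kern xy t (k a) * |F a| ∂ν := by
      refine integral_congr_ae (hae.mono fun t ht => ?_)
      simp only [Real.norm_eq_abs, abs_mul, abs_of_nonneg (kern_nonneg xy ht.1.le _)]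
    rw [this, integral_mul_const, integral_const_mul, ← (hν _).2]
    simp only [Real.norm_eq_abs, abs_mul, abs_of_nonneg (kern_nonneg xy hτ.le _)]
  have h1 := hasSum_integral_of_summable_integral_norm (μ := ν)
    (F := fun a t => R a * kern xy t (k a) * F a)
    (fun a => (((hν (k a)).1.const_mul _).mul_const _)) (by simp only [e2]; exact Summable.norm hF)
  simp only [e1] at h1
  rw [h1.tsum_eq]
  refine integral_nonneg_of_ae (hae.mono fun t ht => ?_)
  by_cases hs : Summable fun a => R a * kern xy t (k a) * F a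
  · exact hP _ ⟨kern xy t, ⟨xy, t, τ, ht.1, ht.2, rfl, rfl⟩, rfl⟩ hs
  · exact (tsum_eq_zero_of_not_summable hs).ge

/-- finitely many edges -/
theorem cone_edges [Countable α] {ι : Type*} [DecidableEq ι] (E : Finset ι) (w : ι → ℤ → ℝ)
    (c : ι → ℤ) (k : ι → α → ℤ) (hw : ∀ e ∈ E, Fam (w e)) (hc : ∀ e ∈ E, 0 ≤ c e) (R : α → ℝ) :
    InCone (fun W => ∃ u : ι → ℤ → ℝ, (∀ e ∈ E, Short (u e) (w e)) ∧
      W = fun a => R a * ∏ e ∈ E, u e (k e a)) fun a => R a * ∏ e ∈ E, w e (c e + |k e a|) := by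
  induction E using Finset.induction_on generalizing R with
  | empty => exact cone_mem ⟨w, by simp, by simp⟩
  | insert e₀ E he ih =>
    have h1 := ih (fun e h => hw e (mem_insert_of_mem h)) (fun e h => hc e (mem_insert_of_mem h))
      fun a => R a * w e₀ (c e₀ + |k e₀ a|)
    refine cone_congr (cone_trans h1 ?_) fun a => by rw [prod_insert he, mul_assoc]
    rintro W ⟨u, hu, rfl⟩
    have h2 := cone_one (hw e₀ (mem_insert_self _ _)) (hc e₀ (mem_insert_self _ _)) (k e₀)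
      fun a => R a * ∏ e ∈ E, u e (k e a)
    refine cone_congr (cone_mono h2 ?_) fun a => by ring
    rintro W ⟨v, hv, rfl⟩
    refine ⟨Function.update u e₀ v, fun e h => ?_, funext fun a => ?_⟩
    · rcases mem_insert.1 h with rfl | h
      · rw [Function.update_self]; exact hv
      · rw [Function.update_of_ne (ne_of_mem_of_not_mem h he)]; exact hu e h
    · have : ∏ e ∈ E, Function.update u e₀ v e (k e a) = ∏ e ∈ E, u e (k e a) :=
        prod_congr rfl fun e h => by rw [Function.update_of_ne (ne_of_mem_of_not_mem h he)]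
      rw [prod_insert he, Function.update_self, this]
      ring

end cone

theorem fam_pos {w : ℤ → ℝ} (h : Fam w) (k : ℤ) : 0 < w k := (kerStmt w h).lc.1 k

section mdl
variable {V : Type*} [DecidableEq V]

/-- edges that do not meet `C` -/
def eo (m : Mdl V) (C : Finset V) : Finset (V × V) := m.ed.filter fun e => e.1 ∉ C ∧ e.2 ∉ C

/-- edges that meet `C` -/
def em (m : Mdl V) (C : Finset V) : Finset (V × V) := m.ed.filter fun e => ¬ (e.1 ∉ C ∧ e.2 ∉ C)

theorem prod_ed (m : Mdl V) (C : Finset V) (g : V × V → ℝ) :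
    ∏ e ∈ m.ed, g e = (∏ e ∈ eo m C, g e) * ∏ e ∈ em m C, g e :=
  (prod_filter_mul_prod_filter_not _ _ _).symm

/-- the site weights of the rest model -/
theorem rest_site (m : Mdl V) (h : ℤ) (C : Finset V) (ζ s : Cfg V) :
    ∏ y ∈ m.A \ C, (m.rest h C ζ).site y (s y) = (∏ y ∈ m.A \ C, m.site y (s y)) *
      ((∏ e ∈ m.ed.filter (fun e => e.1 ∈ C ∧ e.2 ∈ m.A \ C), m.w e (|ζ e.1 - h| + |s e.2 - h|)) *
      ∏ e ∈ m.ed.filter (fun e => e.2 ∈ C ∧ e.1 ∈ m.A \ C), m.w e (|ζ e.2 - h| + |s e.1 - h|)) := by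
  simp only [Mdl.rest, prod_mul_distrib, mul_assoc]
  congr 2
  · rw [← prod_fiberwise_of_maps_to (s := m.ed.filter (fun e => e.1 ∈ C ∧ e.2 ∈ m.A \ C))
      (t := m.A \ C) (g := Prod.snd) fun e he => (mem_filter.1 he).2.2]
    refine prod_congr rfl fun y hy => prod_congr ?_ fun e he => ?_
    · ext e
      simp only [mem_filter]
      constructor
      · rintro ⟨h1, h2, rfl⟩; exact ⟨⟨h1, h2, hy⟩, rfl⟩
      · rintro ⟨⟨h1, h2, -⟩, h3⟩; exact ⟨h1, h2, h3⟩
    · rw [(mem_filter.1 he).2]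
  · rw [← prod_fiberwise_of_maps_to (s := m.ed.filter (fun e => e.2 ∈ C ∧ e.1 ∈ m.A \ C))
      (t := m.A \ C) (g := Prod.fst) fun e he => (mem_filter.1 he).2.2]
    refine prod_congr rfl fun y hy => prod_congr ?_ fun e he => ?_
    · ext e
      simp only [mem_filter]
      constructor
      · rintro ⟨h1, h2, rfl⟩; exact ⟨⟨h1, h2, hy⟩, rfl⟩
      · rintro ⟨⟨h1, h2, -⟩, h3⟩; exact ⟨h1, h2, h3⟩
    · rw [(mem_filter.1 he).2]

/-- the edges between `C` and the free sites outside `C` -/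
def eb (m : Mdl V) (C : Finset V) : Finset (V × V) :=
  m.ed.filter fun e => (e.1 ∈ C ∧ e.2 ∈ m.A \ C) ∨ (e.2 ∈ C ∧ e.1 ∈ m.A \ C)

theorem eb_subset (m : Mdl V) (C : Finset V) : eb m C ⊆ em m C := fun e he => by
  simp only [eb, em, mem_filter] at he ⊢
  refine ⟨he.1, fun h => ?_⟩
  rcases he.2 with h1 | h1
  · exact h.1 h1.1
  · exact h.2 h1.1

theorem rest_site' (m : Mdl V) (h : ℤ) (C : Finset V) (ζ s : Cfg V) :
    ∏ y ∈ m.A \ C, (m.rest h C ζ).site y (s y) = (∏ y ∈ m.A \ C, m.site y (s y)) *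
      ∏ e ∈ eb m C, m.w e (|ζ (if e.1 ∈ C then e.1 else e.2) - h| +
        |s (if e.1 ∈ C then e.2 else e.1) - h|) := by
  rw [rest_site, eb, filter_or, prod_union]
  · congr 2
    · exact prod_congr rfl fun e he => by rw [if_pos (mem_filter.1 he).2.1, if_pos (mem_filter.1 he).2.1]
    · refine prod_congr rfl fun e he => ?_
      have := (mem_sdiff.1 (mem_filter.1 he).2.2).2
      rw [if_neg this, if_neg this]
  · exact disjoint_filter.2 fun e _ h1 h2 => (mem_sdiff.1 h1.2).2 h2.1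

theorem cone_rest {α : Type*} [Countable α] (m : Mdl V) (h : ℤ) (C : Finset V) (ζ η : Cfg V)
    (hF : m.Fm) (hη : ∀ x ∈ C, η x = h) (π : α → Cfg V) (B : α → ℝ) :
    InCone (fun W => ∃ m', m.Shr C m' ∧ W = fun a => ind (∀ x, x ∉ m.A \ C → π a x = η x) * B a *
        (∏ e ∈ em m C, m'.w e (dE e (π a))) * ∏ x ∈ m.A \ C, m.site x (π a x))
      fun a => ind (∀ x, x ∉ m.A \ C → π a x = η x) * B a *
        ∏ y ∈ m.A \ C, (m.rest h C ζ).site y (π a y) := by
  set K : ℝ := ∏ e ∈ em m C \ eb m C, m.w e (dE e η) with hK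
  have hK0 : 0 < K := prod_pos fun e he => fam_pos (hF e (mem_filter.1 (mem_sdiff.1 he).1).1) _
  have h1 := cone_edges (eb m C) m.w (fun e => |ζ (if e.1 ∈ C then e.1 else e.2) - h|)
    (fun e a => π a (if e.1 ∈ C then e.2 else e.1) - h)
    (fun e he => hF e (mem_filter.1 he).1) (fun e _ => abs_nonneg _)
    fun a => K * (ind (∀ x, x ∉ m.A \ C → π a x = η x) * B a * ∏ x ∈ m.A \ C, m.site x (π a x))
  refine cone_congr (cone_smul (cone_mono h1 ?_) (inv_pos.2 hK0)) fun a => ?_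
  · rintro W ⟨u, hu, rfl⟩
    refine ⟨⟨m.A \ C, m.ed, fun e => if e ∈ eb m C then u e else m.w e, m.site⟩,
      ⟨rfl, rfl, rfl, fun e he => ⟨?_, fun h1 h2 => ?_⟩⟩, funext fun a => ?_⟩
    · simp only
      split_ifs with h1
      · exact hu e h1
      · exact (hF e he).short
    · exact if_neg fun h3 => (mem_filter.1 (eb_subset m C h3)).2 ⟨h1, h2⟩
    · by_cases hs : ∀ x, x ∉ m.A \ C → π a x = η x
      swap
      · simp only [ind_neg hs, zero_mul, mul_zero]
      have hC : ∀ x ∈ C, π a x = h := fun x hx => by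
        rw [hs x fun h' => (mem_sdiff.1 h').2 hx, hη x hx]
      have e1 : ∏ e ∈ em m C \ eb m C, (if e ∈ eb m C then u e else m.w e) (dE e (π a)) = K := by
        refine prod_congr rfl fun e he => ?_
        obtain ⟨h1, h2⟩ := mem_sdiff.1 he
        rw [if_neg h2]
        obtain ⟨h3, h4⟩ := mem_filter.1 h1
        have h5 : e.1 ∉ m.A \ C ∧ e.2 ∉ m.A \ C := by
          simp only [eb, mem_filter, h3, true_and, not_or, not_and] at h2
          by_cases c1 : e.1 ∈ C
          · exact ⟨fun h' => (mem_sdiff.1 h').2 c1, h2.1 c1⟩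
          · have c2 : e.2 ∈ C := by
              by_contra c2; exact h4 ⟨c1, c2⟩
            exact ⟨h2.2 c2, fun h' => (mem_sdiff.1 h').2 c2⟩
        simp only [dE, hs _ h5.1, hs _ h5.2]
      have e2 : ∏ e ∈ eb m C, (if e ∈ eb m C then u e else m.w e) (dE e (π a)) =
          ∏ e ∈ eb m C, u e (π a (if e.1 ∈ C then e.2 else e.1) - h) := by
        refine prod_congr rfl fun e he => ?_
        rw [if_pos he]
        by_cases c1 : e.1 ∈ C
        · rw [if_pos c1, dE, hC _ c1]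
        · have c2 : e.2 ∈ C := by
            by_contra c2; exact (mem_filter.1 (eb_subset m C he)).2 ⟨c1, c2⟩
          rw [if_neg c1, dE, hC _ c2, ← (hu e he).left.even, neg_sub]
      simp only
      rw [← prod_sdiff (eb_subset m C), e1, e2]
      ring
  · rw [rest_site']
    field_simp

/-- bonds meeting a set at the level are closed -/
theorem bw_split (m : Mdl V) (h : ℤ) (C : Finset V) (hF : m.Fm) {s : Cfg V} (hs : ∀ x ∈ C, s x = h)
    (ω : Finset (V × V)) :
    ind (ω ⊆ m.ed) * ∏ e ∈ m.ed, m.bw h s e (e ∈ ω) =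
      ind (ω ⊆ eo m C) * (∏ e ∈ eo m C, m.bw h s e (e ∈ ω)) * ∏ e ∈ em m C, m.w e (dE e s) := by
  have key : ∀ e ∈ em m C, m.w e (|s e.1 - h| + |s e.2 - h|) = m.w e (dE e s) := by
    intro e he
    obtain ⟨h1, h2⟩ := mem_filter.1 he
    by_cases c1 : e.1 ∈ C
    · rw [dE, hs _ c1, sub_self, abs_zero, zero_add, (hF e h1).abs]
    · have c2 : e.2 ∈ C := by
        by_contra c2; exact h2 ⟨c1, c2⟩
      rw [dE, hs _ c2, sub_self, abs_zero, add_zero, abs_sub_comm, (hF e h1).abs]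
  rw [prod_ed m C]
  by_cases hω : ω ⊆ eo m C
  · rw [ind_pos hω, ind_pos (hω.trans (filter_subset _ _)), one_mul, one_mul]
    congr 1
    refine prod_congr rfl fun e he => ?_
    have : e ∉ ω := fun h' => (mem_filter.1 he).2 (mem_filter.1 (hω h')).2
    rw [Mdl.bw, if_neg this, key e he]
  · rw [ind_neg hω, zero_mul, zero_mul]
    by_cases h1 : ω ⊆ m.ed
    · obtain ⟨e, he, he'⟩ := not_subset.1 hω
      have h2 : e ∈ em m C := mem_filter.2 ⟨h1 he, fun h' => he' (mem_filter.2 ⟨h1 he, h'⟩)⟩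
      rw [prod_eq_zero h2 (by rw [Mdl.bw, if_pos he, key e h2, sub_self]), mul_zero, mul_zero]
    · rw [ind_neg h1, zero_mul]

theorem shr_fm {m m' : Mdl V} {C : Finset V} (h : m.Shr C m') : m'.Fm := fun e he =>
  (h.2.2.2 e (h.2.1 ▸ he)).1.left

theorem mix_W [Countable V] (m : Mdl V) (h : ℤ) (C : Finset V) (ζ η : Cfg V) (hF : m.Fm)
    (hη : ∀ x ∈ C, η x = h) :
    InCone (fun W => ∃ m', m.Shr C m' ∧ W = m'.W η) ((m.rest h C ζ).W η) := by
  refine cone_mono (cone_rest m h C ζ η hF hη id fun s => ∏ e ∈ eo m C, m.w e (dE e s)) ?_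
  rintro W ⟨m', hm, rfl⟩
  refine ⟨m', hm, funext fun s => ?_⟩
  obtain ⟨h1, h2, h3, h4⟩ := hm
  simp only [Mdl.W, h1, h2, h3, id]
  have : ∏ e ∈ eo m C, m'.w e (dE e s) = ∏ e ∈ eo m C, m.w e (dE e s) :=
    prod_congr rfl fun e he => by
      rw [(h4 e (mem_filter.1 he).1).2 (mem_filter.1 he).2.1 (mem_filter.1 he).2.2]
  rw [prod_ed m C, this]
  ring

theorem mix_J [Countable V] (m : Mdl V) (h : ℤ) (C : Finset V) (ζ η : Cfg V) (hF : m.Fm)
    (hη : ∀ x ∈ C, η x = h) :
    InCone (fun W => ∃ m', m.Shr C m' ∧ W = m'.J h η) ((m.rest h C ζ).J h η) := by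
  refine cone_congr (cone_mono (cone_rest m h C ζ η hF hη Prod.fst
    fun p : Cfg V × Finset (V × V) =>
      ind (p.2 ⊆ eo m C) * ∏ e ∈ eo m C, m.bw h p.1 e (e ∈ p.2)) ?_) fun p => ?_
  · rintro W ⟨m', hm, rfl⟩
    refine ⟨m', hm, funext fun p => ?_⟩
    have hF' := shr_fm hm
    obtain ⟨h1, h2, h3, h4⟩ := hm
    by_cases hs : ∀ x, x ∉ m.A \ C → p.1 x = η x
    swap
    · simp only [Mdl.J, h1, ind_neg hs, zero_mul]
    have hC : ∀ x ∈ C, p.1 x = h := fun x hx => by
      rw [hs x fun h' => (mem_sdiff.1 h').2 hx, hη x hx]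
    have e1 := bw_split m' h C hF' hC p.2
    have e2 : eo m' C = eo m C := by simp only [eo, h2]
    have e3 : em m' C = em m C := by simp only [em, h2]
    have e4 : ∏ e ∈ eo m C, m'.bw h p.1 e (e ∈ p.2) = ∏ e ∈ eo m C, m.bw h p.1 e (e ∈ p.2) :=
      prod_congr rfl fun e he => by
        simp only [Mdl.bw,
          (h4 e (mem_filter.1 he).1).2 (mem_filter.1 he).2.1 (mem_filter.1 he).2.2]
    rw [e2, e3, e4] at e1
    rw [Mdl.J, mul_assoc (ind _) (ind _), e1, h1, h3]
    ring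
  · simp only [Mdl.J, mul_assoc]
    rfl

end mdl

end Crest.Agent.T145.Mix53

namespace Crest.Agent.T145

theorem mixStmt : MixStmt := fun _ _ _ m h C ζ η hF _ hη =>
  ⟨Mix53.mix_W m h C ζ η hF hη, Mix53.mix_J m h C ζ η hF hη⟩

end Crest.Agent.T145
end

-- ▼ part T145/Short_53

/-!
# Row 145: shortening localises (`shortStmt`); comparison of the rest model with Dirichlet models
(helper53)
-/

set_option autoImplicit false
set_option linter.unusedVariables false

namespace Crest.Agent.T145.Mix53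

open Finset

section grp
variable {L : Type*} [AddCommGroup L] {W W' : L → ℝ}

theorem hasSum_ext {α β : Type*} {ρ : α × β → ℝ} {W : α → ℝ} (h0 : ∀ p, 0 ≤ ρ p)
    (hW : ∀ a, HasSum (fun b => ρ (a, b)) (W a)) {F : α → ℝ} (hF : Ig W F) :
    HasSum (fun p => ρ p * F p.1) (∑' a, W a * F a) := by
  have hW0 : ∀ a, 0 ≤ W a := fun a => (hW a).nonneg fun b => h0 _
  have h1 : Summable fun p : α × β => ρ p * |F p.1| := by
    have k : ∀ a, HasSum (fun b => ρ (a, b) * |F a|) (W a * |F a|) := fun a => (hW a).mul_right _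
    have k2 : Summable fun a => ∑' b, ρ (a, b) * |F a| := by
      simp only [fun a => (k a).tsum_eq]
      exact hF.abs hW0
    have k3 : (0 : α × β → ℝ) ≤ fun p : α × β => ρ p * |F p.1| :=
      fun p => mul_nonneg (h0 p) (abs_nonneg _)
    rw [summable_prod_of_nonneg k3]
    exact ⟨fun a => (k a).summable, k2⟩
  have h2 : Summable fun p : α × β => ρ p * F p.1 :=
    Summable.of_norm_bounded h1 fun p => by rw [Real.norm_eq_abs, abs_mul, abs_of_nonneg (h0 p)]
  have k : ∀ a, HasSum (fun b => (fun p : α × β => ρ p * F p.1) (a, b)) (W a * F a) :=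
    fun a => (hW a).mul_right _
  rw [(h2.hasSum.prod_fiberwise k).tsum_eq]
  exact h2.hasSum

theorem loc_of_ineq (hW : Wt W) (hs : SE W) (hW' : Wt W') (hs' : SE W')
    (h1 : ∀ f : L →+ ℝ, Zs (tilt W' f) * Zs W ≤ Zs (tilt W f) * Zs W')
    (h2 : ∀ G : L → ℝ, PD G → (∑' s, W s * G s) * Zs W' ≤ Zs W * ∑' s, W' s * G s) : Loc W' W := by
  refine ⟨fun f => Real.log_le_log (hW'.ex_exp_pos hs' f) ?_, fun G hG => ?_⟩
  · rw [Ex_exp_eq, Ex_exp_eq, div_le_div_iff₀ hW'.pos hW.pos]; exact h1 f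
  · rw [Ex_def, Ex_def, div_le_div_iff₀ hW.pos hW'.pos, mul_comm _ (Zs W)]; exact h2 G hG

/-- a nonnegative PD factor on an RSD extension localises the marginal -/
theorem loc_ext {Q : Type*} [AddCommGroup Q] [IsAddTorsionFree (L × Q)] {ρ G₀ : L × Q → ℝ}
    (hρ : RSD ρ) (hG : PD G₀) (hG0 : ∀ p, 0 ≤ G₀ p) (hW : ∀ s, HasSum (fun q => ρ (s, q)) (W s))
    (hW' : ∀ s, HasSum (fun q => ρ (s, q) * G₀ (s, q)) (W' s)) (hs : SE W) {a : L}
    (ha : 0 < W' a) : Wt W' ∧ SE W' ∧ Loc W' W := by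
  have n : ∀ s, 0 ≤ W s := fun s => (hW s).nonneg fun q => hρ.nonneg _
  have n0 : ∀ p, 0 ≤ ρ p * G₀ p := fun p => mul_nonneg (hρ.nonneg p) (hG0 p)
  have n' : ∀ s, 0 ≤ W' s := fun s => (hW' s).nonneg fun q => n0 _
  have hle : ∀ s, W' s ≤ G₀ 0 * W s := fun s =>
    hasSum_le (fun q => by rw [mul_comm]; exact mul_le_mul_of_nonneg_right (hG.le _) (hρ.nonneg _))
      (hW' s) ((hW s).mul_left (G₀ 0))
  have hs' : SE W' := hs.of_le (C := G₀ 0) fun s => by
    rw [abs_of_nonneg (n s), abs_of_nonneg (n' s)]; exact hle s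
  have w' : Wt W' := Wt.of_pos n' hs'.summable ha
  have w : Wt W := Wt.of_pos n hs.summable (a := a)
    (pos_of_mul_pos_right (ha.trans_le (hle a)) hG.nonneg0)
  have z : HasSum ρ (Zs W) := by
    simpa only [mul_one, Zs] using hasSum_ext hρ.nonneg hW (w.ig_const 1)
  have z' : HasSum (fun p => ρ p * G₀ p) (Zs W') := by
    simpa only [mul_one, Zs] using hasSum_ext n0 hW' (w'.ig_const 1)
  have r := Md.rsd_comp hρ (AddMonoidHom.fst (L × Q) Unit)
  refine ⟨w', hs', loc_of_ineq w hs w' hs' (fun f => ?_) fun G hG' => ?_⟩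
  · have t : HasSum (tilt ρ (f.comp (AddMonoidHom.fst L Q))) (Zs (tilt W f)) :=
      hasSum_ext hρ.nonneg hW (hs f)
    have t' : HasSum (fun p => tilt ρ (f.comp (AddMonoidHom.fst L Q)) p * G₀ p) (Zs (tilt W' f)) := by
      refine Bes66.hs_congr (hasSum_ext n0 hW' (hs' f)) (fun p => ?_) rfl
      simp only [tilt, AddMonoidHom.comp_apply, AddMonoidHom.coe_fst]; ring
    have key : |(∑' p, tilt ρ (f.comp (AddMonoidHom.fst L Q)) p * G₀ p) * ∑' p, ρ p * 1| ≤
        Zs (tilt ρ (f.comp (AddMonoidHom.fst L Q))) * ∑' p, ρ p * (G₀ p * 1) :=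
      Rsd63.rsd_bp r (hG.comp (AddMonoidHom.fst (L × Q) Unit)) pd_one ()
        (f.comp (AddMonoidHom.fst L Q)) z.summable t.summable
    simp only [mul_one] at key
    rw [t'.tsum_eq, z.tsum_eq, z'.tsum_eq, show Zs (tilt ρ _) = _ from t.tsum_eq] at key
    exact (le_abs_self _).trans key
  · have e : tilt ρ 0 = ρ := funext fun s => by simp [tilt]
    have g := hasSum_ext hρ.nonneg hW (w.ig_bdd hG'.abs_le)
    have g' : HasSum (fun p => ρ p * (G p.1 * G₀ p)) (∑' s, W' s * G s) := by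
      refine Bes66.hs_congr (hasSum_ext n0 hW' (w'.ig_bdd hG'.abs_le)) (fun p => ?_) rfl
      ring
    have key : |(∑' p, tilt ρ 0 p * G p.1) * ∑' p, ρ p * G₀ p| ≤
        Zs (tilt ρ 0) * ∑' p, ρ p * (G p.1 * G₀ p) :=
      Rsd63.rsd_bp r ((hG'.comp (AddMonoidHom.fst L Q)).comp (AddMonoidHom.fst (L × Q) Unit)) hG ()
        0 z.summable (by rw [← e] at z; exact z.summable)
    rw [e, g.tsum_eq, z'.tsum_eq, g'.tsum_eq, show Zs ρ = _ from z.tsum_eq] at key
    exact (le_abs_self _).trans key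

/-- a nonnegative PD factor localises (universe polymorphic form of `monoStmt.1`) -/
theorem loc_mul [IsAddTorsionFree L] {ρ G : L → ℝ} (hρ : RSD ρ) (hs : SE ρ) (hG : PD G)
    (hG0 : ∀ s, 0 ≤ G s) {a : L} (ha : 0 < ρ a * G a) :
    Wt (fun s => ρ s * G s) ∧ SE (fun s => ρ s * G s) ∧ Loc (fun s => ρ s * G s) ρ :=
  loc_ext (Q := Unit) (Md.rsd_comp hρ (AddMonoidHom.fst L Unit))
    (hG.comp (AddMonoidHom.fst L Unit)) (fun p => hG0 _) (fun s => hasSum_unique _)
    (fun s => hasSum_unique _) hs ha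

theorem loc_smul_left (h : Loc W' W) {c : ℝ} (hc : c ≠ 0) : Loc (fun s => c * W' s) W :=
  ⟨fun f => by rw [M_smul _ hc]; exact h.1 f, fun G hG => by rw [Ex_smul _ _ hc]; exact h.2 G hG⟩


theorem loc_vr (h : Loc W' W) (hW' : Wt W') (hs' : SE W') (hW : Wt W) (hs : SE W) (f : L →+ ℝ) :
    Vr W' f f ≤ Vr W f f :=
  C59.vr_le_of_sd hW' hs' hW hs f fun t => add_le_add (h.1 _) (h.1 _)


/-- `Loc` passes to the cone, on the left -/
theorem cone_loc_left {P : (L → ℝ) → Prop} (h : InCone P W') (hW' : Wt W') (hs' : SE W')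
    (hW : Wt W) (hs : SE W) (hP : ∀ U, P U → Wt U ∧ SE U ∧ Loc U W) : Loc W' W := by
  refine ⟨fun f => Real.exp_le_exp.1 ?_, fun G hG => ?_⟩
  · rw [hW'.exp_M hs']
    refine cone_ex_le h hW' (hs' f) fun U hU => ?_
    obtain ⟨h1, h2, h3⟩ := hP U hU
    exact ⟨h1, h2 f, by rw [← h1.exp_M h2]; exact Real.exp_le_exp.2 (h3.1 f)⟩
  · refine cone_le_ex h hW' (hW'.ig_bdd hG.abs_le) fun U hU => ?_
    obtain ⟨h1, h2, h3⟩ := hP U hU
    exact ⟨h1, h1.ig_bdd hG.abs_le, h3.2 G hG⟩


theorem short_le {u w : ℤ → ℝ} (h : Short u w) (k : ℤ) : u k ≤ w k := by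
  obtain ⟨xy, τ', τ, h1, h2, rfl, rfl⟩ := h
  cases xy
  · refine Real.exp_le_exp.2 ?_
    rw [neg_div, neg_div, neg_le_neg_iff]
    exact div_le_div_of_nonneg_left (sq_nonneg _) (by positivity) (by linarith)
  · exact Bes66.bes_mono k h1.le h2

theorem fam_rsd {w : ℤ → ℝ} (h : Fam w) : RSD w := (kerStmt w h).cen.toRSD

theorem short_loc [IsAddTorsionFree L] {ρ : L → ℝ} (d : L →+ ℤ) {u w : ℤ → ℝ} (hρ : RSD ρ)
    (h : Short u w) (hs : SE fun s => ρ s * w (d s)) {a : L} (ha : 0 < ρ a) :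
    Loc (fun s => ρ s * u (d s)) fun s => ρ s * w (d s) := by
  have hw := h.right
  have hu := h.left
  obtain ⟨xy, τ', τ, h1, h2, rfl, rfl⟩ := h
  have hτ := h1.trans_le h2
  cases xy
  · set ℓ : Unit → L →+ ℝ := fun _ => Real.sqrt (1 / τ' - 1 / τ) • (Int.castAddHom ℝ).comp d
    have e : ∀ s, ρ s * kern false τ' (d s) = ρ s * kern false τ (d s) * gq univ ℓ s := by
      intro s
      have h3 : 0 ≤ 1 / τ' - 1 / τ := sub_nonneg.2 (one_div_le_one_div_of_le h1 h2)
      simp only [kern, Bool.false_eq_true, if_false, gau, gq, ℓ, mul_assoc, ← Real.exp_add,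
        univ_unique, sum_singleton, AddMonoidHom.smul_apply, AddMonoidHom.comp_apply,
        Int.coe_castAddHom, smul_eq_mul, mul_pow, Real.sq_sqrt h3]
      congr 2
      field_simp
      ring
    simp only [e]
    exact (loc_mul (Md.rsd_mul hρ (Md.rsd_comp (fam_rsd hw) d)) hs (pd_gq univ ℓ)
      (fun s => (gq_pos _ _ s).le) (a := a)
      (mul_pos (mul_pos ha (fam_pos hw _)) (gq_pos _ _ a))).2.2
  · rcases h2.eq_or_lt with rfl | h2
    · exact Loc.refl _
    have hδ : 0 < τ - τ' := sub_pos.2 h2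
    have r : RSD fun p : L × ℤ => ρ p.1 * (bes (τ - τ') p.2 * bes τ' (d p.1 - p.2)) :=
      Md.rsd_mul (Md.rsd_comp hρ (AddMonoidHom.fst L ℤ)) (Md.rsd_mul
        (Md.rsd_comp (Bes66.isKer_bes hδ).cen.toRSD (AddMonoidHom.snd L ℤ))
        (Md.rsd_comp (Bes66.isKer_bes h1).cen.toRSD
          (d.comp (AddMonoidHom.fst L ℤ) - AddMonoidHom.snd L ℤ)))
    have h3 := loc_ext r (pd_ind (AddMonoidHom.snd L ℤ)) (fun p => ind_nonneg _)
      (W := fun s => ρ s * kern true τ (d s))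
      (W' := fun s => bes (τ - τ') 0 * (ρ s * kern true τ' (d s)))
      (fun s => by
        have := ((besStmt _ hδ).2.2.2 τ' h1 (d s)).mul_left (ρ s)
        rwa [sub_add_cancel] at this)
      (fun s => by
        refine Bes66.hs_congr (hasSum_single (f := fun q : ℤ =>
          ρ s * (bes (τ - τ') q * bes τ' (d s - q)) * ind (q = 0)) 0
          fun q hq => by rw [ind_neg hq, mul_zero]) (fun q => rfl) ?_
        simp only [kern, if_true, sub_zero, ind_true]
        ring)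
      hs (a := a) (mul_pos (Bes66.bes_pos hδ 0) (mul_pos ha (fam_pos hu _)))
    have h4 := loc_smul_left h3.2.2 (inv_ne_zero (Bes66.bes_pos hδ 0).ne')
    simpa only [← mul_assoc, inv_mul_cancel₀ (Bes66.bes_pos hδ 0).ne', one_mul] using h4

/-- shortening finitely many edges -/
theorem short_loc_prod [IsAddTorsionFree L] {ι : Type*} (E : Finset ι) (d : ι → L →+ ℤ)
    {u w : ι → ℤ → ℝ} (h : ∀ e ∈ E, Short (u e) (w e)) {ρ : L → ℝ} (hρ : RSD ρ)
    (hs : SE fun s => ρ s * ∏ e ∈ E, w e (d e s)) {a : L} (ha : 0 < ρ a) :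
    Loc (fun s => ρ s * ∏ e ∈ E, u e (d e s)) fun s => ρ s * ∏ e ∈ E, w e (d e s) := by
  classical
  induction E using Finset.induction_on generalizing ρ with
  | empty => simpa using Loc.refl _
  | insert e₀ E he ih =>
    have h0 := h e₀ (mem_insert_self _ _)
    have h1 : ∀ e ∈ E, Short (u e) (w e) := fun e h' => h e (mem_insert_of_mem h')
    simp only [prod_insert he, ← mul_assoc] at hs ⊢
    have h2 := ih h1 (Md.rsd_mul hρ (Md.rsd_comp (fam_rsd h0.right) (d e₀))) hs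
      (mul_pos ha (fam_pos h0.right _))
    refine Loc.trans ?_ h2
    simp only [mul_right_comm _ _ (∏ e ∈ E, u e (d e _))]
    refine short_loc (d e₀) (Md.rsd_mul hρ (Md.rsd_prod fun e h' =>
      Md.rsd_comp (fam_rsd (h1 e h').left) (d e))) h0 (hs.of_le (C := 1) fun s => ?_) (a := a)
      (mul_pos ha (prod_pos fun e h' => fam_pos (h1 e h').left _))
    rw [one_mul, mul_right_comm, abs_mul, abs_mul _ (∏ e ∈ E, w e (d e s)),
      abs_of_nonneg (prod_nonneg fun e h' => (h1 e h').left.nonneg _),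
      abs_of_nonneg (prod_nonneg fun e h' => (h1 e h').right.nonneg _)]
    exact mul_le_mul_of_nonneg_left
      (prod_le_prod (fun e h' => (h1 e h').left.nonneg _) fun e h' => short_le (h1 e h') _)
      (abs_nonneg _)

end grp

section mdl
variable {V : Type*} [DecidableEq V] {m m' : Mdl V} {C : Finset V}

omit [DecidableEq V] in
theorem free_ctr (h : m.Ctr) {A' : Finset V} (hA : A' ⊆ m.A) : (m.free A').Ctr :=
  ⟨h.1, fun x hx => h.2 x (hA hx)⟩

omit [DecidableEq V] in
theorem free_anch (h : m.Anch) {A' : Finset V} (hA : A' ⊆ m.A) : (m.free A').Anch := fun x hx => by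
  obtain ⟨y, h1, h2⟩ := h x (hA hx)
  exact ⟨y, h1, h2.imp (fun h3 h4 => h3 (hA h4)) id⟩

theorem shr_ctr (h : m.Ctr) (hs : m.Shr C m') : m'.Ctr :=
  ⟨shr_fm hs, fun x hx => by
    rw [hs.2.2.1]; rw [hs.1] at hx; exact h.2 x (mem_sdiff.1 hx).1⟩

theorem shr_anch (h : (m.free (m.A \ C)).Anch) (hs : m.Shr C m') : m'.Anch := fun x hx => by
  rw [hs.1] at hx ⊢
  rw [hs.2.1, hs.2.2.1]
  exact h x hx

/-- shortening edges of a model localises -/
theorem short_mdl_loc (h : m.Ctr) (hA : m.Anch) (h1 : m'.A = m.A) (h2 : m'.ed = m.ed)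
    (h3 : m'.site = m.site) (h4 : ∀ e ∈ m.ed, Short (m'.w e) (m.w e)) : Loc (m'.W 0) (m.W 0) := by
  have hk : (m.keep ∅).Ctr := ⟨fun e he => absurd he (notMem_empty e), h.2⟩
  have e1 : m.W 0 = fun s => (m.keep ∅).W 0 s * ∏ e ∈ m.ed, m.w e (dH e s) := funext fun s => by
    simp only [Mdl.W, Mdl.keep, prod_empty, dH_apply]; ring
  have e2 : m'.W 0 = fun s => (m.keep ∅).W 0 s * ∏ e ∈ m.ed, m'.w e (dH e s) := funext fun s => by
    simp only [Mdl.W, Mdl.keep, prod_empty, dH_apply, h1, h2, h3]; ring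
  have hs := Md.ctr_se h hA 0
  rw [e1] at hs
  rw [e1, e2]
  exact short_loc_prod m.ed dH h4 (Md.ctr_rsd0 hk) hs (Md.W_pos hk.1 (s := 0) (fun _ _ => rfl)
    fun x hx => (h.2 x hx).2.2)

theorem shr_loc (h : m.Ctr) (hA : (m.free (m.A \ C)).Anch) (hs : m.Shr C m') :
    Loc (m'.W 0) ((m.free (m.A \ C)).W 0) :=
  short_mdl_loc (free_ctr h sdiff_subset) hA hs.1 hs.2.1 hs.2.2.1 fun e he => (hs.2.2.2 e he).1


/-- the rest model is dominated by the Dirichlet model -/
theorem rest_W_le (hF : m.Fm) (hN : m.Nn) (h : ℤ) (ζ : Cfg V) {η : Cfg V} (hη : ∀ x ∈ C, η x = h) :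
    ∃ K : ℝ, 0 < K ∧ ∀ s, (m.rest h C ζ).W η s ≤ K * (m.free (m.A \ C)).W η s := by
  set K : ℝ := ∏ e ∈ em m C \ eb m C, m.w e (dE e η) with hK
  have hK0 : 0 < K := prod_pos fun e he => fam_pos (hF e (mem_filter.1 (mem_sdiff.1 he).1).1) _
  refine ⟨K⁻¹, inv_pos.2 hK0, fun s => ?_⟩
  by_cases hs : ∀ x, x ∉ m.A \ C → s x = η x
  swap
  · have e1 : (m.rest h C ζ).W η s = 0 := by
      rw [Mdl.W, show (m.rest h C ζ).A = m.A \ C from rfl, ind_neg hs, zero_mul, zero_mul]
    have e2 : (m.free (m.A \ C)).W η s = 0 := by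
      rw [Mdl.W, show (m.free (m.A \ C)).A = m.A \ C from rfl, ind_neg hs, zero_mul, zero_mul]
    rw [e1, e2, mul_zero]
  have hC : ∀ x ∈ C, s x = h := fun x hx => by
    rw [hs x fun h' => (mem_sdiff.1 h').2 hx, hη x hx]
  have e1 : ∏ e ∈ em m C \ eb m C, m.w e (dE e s) = K := by
    refine prod_congr rfl fun e he => ?_
    obtain ⟨h1, h2⟩ := mem_sdiff.1 he
    obtain ⟨h3, h4⟩ := mem_filter.1 h1
    have h5 : e.1 ∉ m.A \ C ∧ e.2 ∉ m.A \ C := by
      simp only [eb, mem_filter, h3, true_and, not_or, not_and] at h2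
      by_cases c1 : e.1 ∈ C
      · exact ⟨fun h' => (mem_sdiff.1 h').2 c1, h2.1 c1⟩
      · have c2 : e.2 ∈ C := by
          by_contra c2; exact h4 ⟨c1, c2⟩
        exact ⟨h2.2 c2, fun h' => (mem_sdiff.1 h').2 c2⟩
    simp only [dE, hs _ h5.1, hs _ h5.2]
  have e2 : ∏ e ∈ eb m C, m.w e (|ζ (if e.1 ∈ C then e.1 else e.2) - h| +
      |s (if e.1 ∈ C then e.2 else e.1) - h|) ≤ ∏ e ∈ eb m C, m.w e (dE e s) := by
    refine prod_le_prod (fun e he => (hF e (mem_filter.1 he).1).nonneg _) fun e he => ?_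
    refine (kerStmt _ (hF e (mem_filter.1 he).1)).anti ?_
    rw [abs_of_nonneg (a := _ + _) (by positivity)]
    refine le_trans (le_of_eq ?_) (le_add_of_nonneg_left (abs_nonneg _))
    by_cases c1 : e.1 ∈ C
    · rw [if_pos c1, dE, hC _ c1]
    · have c2 : e.2 ∈ C := by
        by_contra c2; exact (mem_filter.1 (eb_subset m C he)).2 ⟨c1, c2⟩
      rw [if_neg c1, dE, hC _ c2, abs_sub_comm]
  rw [Mdl.W_of_eq _ hs, Mdl.W_of_eq _ hs]
  change (∏ e ∈ eo m C, m.w e (dE e s)) * ∏ y ∈ m.A \ C, (m.rest h C ζ).site y (s y) ≤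
    K⁻¹ * ((∏ e ∈ m.ed, m.w e (dE e s)) * ∏ y ∈ m.A \ C, m.site y (s y))
  rw [rest_site', prod_ed m C, ← prod_sdiff (eb_subset m C), e1]
  have p1 : 0 ≤ ∏ e ∈ eo m C, m.w e (dE e s) :=
    prod_nonneg fun e he => (hF e (mem_filter.1 he).1).nonneg _
  have p2 : 0 ≤ ∏ y ∈ m.A \ C, m.site y (s y) :=
    prod_nonneg fun y hy => hN y (mem_sdiff.1 hy).1 _
  refine (mul_le_mul_of_nonneg_left (mul_le_mul_of_nonneg_left e2 p2) p1).trans_eq ?_
  field_simp

theorem rest_fm (hF : m.Fm) (h : ℤ) (C : Finset V) (ζ : Cfg V) : (m.rest h C ζ).Fm :=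
  fun e he => hF e (mem_filter.1 he).1

theorem rest_nn (hF : m.Fm) (hN : m.Nn) (h : ℤ) (C : Finset V) (ζ : Cfg V) : (m.rest h C ζ).Nn :=
  fun y hy k => mul_nonneg (mul_nonneg (hN y (mem_sdiff.1 hy).1 k)
    (prod_nonneg fun e he => (hF e (mem_filter.1 he).1).nonneg _))
    (prod_nonneg fun e he => (hF e (mem_filter.1 he).1).nonneg _)

theorem rest_ev (hF : m.Fm) (hN : m.Ev) (C : Finset V) (ζ : Cfg V) : (m.rest 0 C ζ).Ev :=
  fun y hy k => ⟨rest_nn hF hN.nn 0 C ζ y hy k, by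
    simp only [Mdl.rest, sub_zero, abs_neg, (hN y (mem_sdiff.1 hy).1 k).2]⟩

theorem rest_site_pos (hF : m.Fm) (h : ℤ) (C : Finset V) (ζ : Cfg V) {y : V} {k : ℤ}
    (hy : 0 < m.site y k) : 0 < (m.rest h C ζ).site y k :=
  mul_pos (mul_pos hy (prod_pos fun e he => fam_pos (hF e (mem_filter.1 he).1) _))
    (prod_pos fun e he => fam_pos (hF e (mem_filter.1 he).1) _)

theorem rest_se (hF : m.Fm) (hN : m.Nn) (h : ℤ) (ζ : Cfg V) {η : Cfg V} (hη : ∀ x ∈ C, η x = h)
    (hs : SE ((m.free (m.A \ C)).W η)) : SE ((m.rest h C ζ).W η) := by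
  obtain ⟨K, hK, hle⟩ := rest_W_le hF hN h ζ hη
  refine hs.of_le (C := K) fun s => ?_
  rw [abs_of_nonneg ((rest_fm hF h C ζ).W_nonneg (rest_nn hF hN h C ζ) η s)]
  exact (hle s).trans (mul_le_mul_of_nonneg_left (le_abs_self _) hK.le)

theorem rest_se0 (h : m.Ctr) (hA : (m.free (m.A \ C)).Anch) (ζ : Cfg V) :
    SE ((m.rest 0 C ζ).W 0) :=
  rest_se h.1 h.nn 0 ζ (fun _ _ => rfl) (Md.ctr_se (free_ctr h sdiff_subset) hA 0)

theorem rest_wt0 (h : m.Ctr) (hA : (m.free (m.A \ C)).Anch) (ζ : Cfg V) :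
    Wt ((m.rest 0 C ζ).W 0) :=
  Wt.of_pos ((rest_fm h.1 0 C ζ).W_nonneg (rest_nn h.1 h.nn 0 C ζ) 0) (rest_se0 h hA ζ).summable
    (Md.W_pos (rest_fm h.1 0 C ζ) (s := 0) (fun _ _ => rfl)
      fun x hx => rest_site_pos h.1 0 C ζ (h.2 x (mem_sdiff.1 hx).1).2.2)

theorem rest_even (h : m.Ctr) (C : Finset V) (ζ s : Cfg V) :
    (m.rest 0 C ζ).W 0 (-s) = (m.rest 0 C ζ).W 0 s := by
  simpa using (rest_fm h.1 0 C ζ).W_neg (rest_ev h.1 h.ev C ζ) 0 s

/-- **the rest model is more localised than the Dirichlet model** -/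
theorem rest_loc [Countable V] (h : m.Ctr) (hA : (m.free (m.A \ C)).Anch) (ζ : Cfg V) :
    Loc ((m.rest 0 C ζ).W 0) ((m.free (m.A \ C)).W 0) := by
  have c := Md.ctr_cen (free_ctr h sdiff_subset) hA
  refine cone_loc_left (mix_W m 0 C ζ 0 h.1 fun _ _ => rfl) (rest_wt0 h hA ζ) (rest_se0 h hA ζ)
    c.wt c.se ?_
  rintro U ⟨m', hm, rfl⟩
  have c' := Md.ctr_cen (shr_ctr h hm) (shr_anch hA hm)
  exact ⟨c'.wt, c'.se, shr_loc h hA hm⟩



theorem rest_vr_le [Countable V] (h : m.Ctr) (hA : (m.free (m.A \ C)).Anch) (ζ : Cfg V)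
    (f : Cfg V →+ ℝ) : Vr ((m.rest 0 C ζ).W 0) f f ≤ Vr ((m.free (m.A \ C)).W 0) f f :=
  have c := Md.ctr_cen (free_ctr h sdiff_subset) hA
  loc_vr (rest_loc h hA ζ) (rest_wt0 h hA ζ) (rest_se0 h hA ζ) c.wt c.se f


end mdl

end Crest.Agent.T145.Mix53

namespace Crest.Agent.T145

theorem shortStmt : ShortStmt := fun _ _ _ ρ d _ _ hρ h hc =>
  Mix53.short_loc d hρ h hc.se (a := 0)
    (pos_of_mul_pos_left hc.pos0 (h.right.nonneg _))

end Crest.Agent.T145
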