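import Crest.Agent.T145.GeoA_51
import Crest.Agent.T145.Loc_51
import Crest.Agent.T145.Def2_97
import Crest.Agent.T145.Short_53

/-!
# Row 145: lattice models, comparison and symmetry (helper51)
-/

set_option autoImplicit false
set_option linter.unusedSectionVars false

namespace Crest.Agent.T145

open Finset

/-! ## Transport of functionals along isomorphisms, change of root -/
section iso
variable {V V' : Type*} [DecidableEq V] [DecidableEq V'] {m : Mdl V} {m' : Mdl V'}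
  {φ : V ≃ V'} {ψ : V × V ≃ V' × V'}

theorem Mdl.W_ext {m m' : Mdl V} (hA : m.A = m'.A) (hE : m.ed = m'.ed)
    (hw : ∀ e ∈ m.ed, m.w e = m'.w e) (hs : ∀ x ∈ m.A, ∀ k, m.site x k = m'.site x k) :
    m.W = m'.W := by
  funext η s
  simp only [Mdl.W, ← hA, ← hE]
  rw [prod_congr rfl fun x hx => hs x hx (s x),
    prod_congr (s₁ := m.ed) rfl fun e he => show m.w e (dE e s) = m'.w e (dE e s) by rw [hw e he]]

theorem Mdl.Ws_ext {m m' : Mdl V} (hA : m.A = m'.A) (hE : m.ed = m'.ed)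
    (hw : ∀ e ∈ m.ed, m.w e = m'.w e) (hs : ∀ x ∈ m.A, ∀ k, m.site x k = m'.site x k) :
    m.Ws = m'.Ws := by
  funext η σ s
  simp only [Mdl.Ws, ← hA, ← hE]
  rw [prod_congr rfl fun x hx => hs x hx (s x), prod_congr (s₁ := m.ed) rfl fun e he =>
    show m.w e (dE e s + σ e) = m'.w e (dE e s + σ e) by rw [hw e he]]


/-- transport of configurations -/
noncomputable def mapH (φ : V ≃ V') : Cfg V →+ Cfg V' := (Finsupp.domCongr φ).toAddMonoidHom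

theorem mapH_eq (φ : V ≃ V') (s : Cfg V) : mapH φ s = Finsupp.equivMapDomain φ s := rfl

@[simp] theorem mapH_apply (φ : V ≃ V') (s : Cfg V) (y : V') : mapH φ s y = s (φ.symm y) := rfl


theorem mapH_cst (φ : V ≃ V') (U : Finset V) (h : ℤ) :
    mapH φ (cst U h) = cst (U.map φ.toEmbedding) h := by
  ext y; simp only [mapH_apply, cst_apply, mem_map_equiv]

theorem pr_mapH (φ : V ≃ V') (f : V' → ℝ) (s : Cfg V) :
    pr f (mapH φ s) = pr (fun x => f (φ x)) s := by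
  rw [pr_of_zero f _ (U := s.support.map φ.toEmbedding) fun y hy => by
    simpa only [mem_map_equiv, Finsupp.mem_support_iff, not_not, mapH_apply] using hy, sum_map,
    pr_eq_sum]
  simp

theorem pr_comp_mapH (φ : V ≃ V') (f : V' → ℝ) : (pr f).comp (mapH φ) = pr fun x => f (φ x) :=
  AddMonoidHom.ext (pr_mapH φ f)

theorem evH_comp_mapH (φ : V ≃ V') (x : V) : (evH (φ x)).comp (mapH φ) = evH x :=
  AddMonoidHom.ext fun s => by simp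

namespace Mdl.Iso

theorem fm (hI : m.Iso m' φ ψ) (hF : m.Fm) : m'.Fm := fun e he => by
  rw [hI.2.1, mem_map] at he
  obtain ⟨e', he', rfl⟩ := he
  exact (hI.2.2.2.1 e' he').symm ▸ hF e' he'

theorem free (hI : m.Iso m' φ ψ) {A : Finset V} (hA : A ⊆ m.A) :
    (m.free A).Iso (m'.free (A.map φ.toEmbedding)) φ ψ :=
  ⟨rfl, hI.2.1, hI.2.2.1, hI.2.2.2.1, fun x hx => hI.2.2.2.2 x (hA hx)⟩

theorem mulSite (hI : m.Iso m' φ ψ) (u : V' → ℤ → ℝ) :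
    (m.mulSite fun x => u (φ x)).Iso (m'.mulSite u) φ ψ :=
  ⟨hI.1, hI.2.1, hI.2.2.1, hI.2.2.2.1, fun x hx => funext fun k => by
    simp only [Mdl.mulSite_site, hI.2.2.2.2 x hx]⟩

theorem ex (hI : m.Iso m' φ ψ) (hF : m.Fm) (η : Cfg V) (F : Cfg V' → ℝ) :
    Ex (m'.W (mapH φ η)) F = Ex (m.W η) fun s => F (mapH φ s) := Md.ex_iso hF hI η F

theorem ex0 (hI : m.Iso m' φ ψ) (hF : m.Fm) (F : Cfg V' → ℝ) :
    Ex (m'.W 0) F = Ex (m.W 0) fun s => F (mapH φ s) := by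
  rw [← hI.ex hF 0 F, map_zero]

theorem ig0 (hI : m.Iso m' φ ψ) (hF : m.Fm) (F : Cfg V' → ℝ) :
    Ig (m'.W 0) F ↔ Ig (m.W 0) fun s => F (mapH φ s) := by
  have := Md.ig_iso hF hI 0 F
  rwa [← mapH_eq, map_zero] at this



theorem Vr_eq (hI : m.Iso m' φ ψ) (hF : m.Fm) (f g : Cfg V' →+ ℝ) :
    Vr (m'.W 0) f g = Vr (m.W 0) (f.comp (mapH φ)) (g.comp (mapH φ)) := by
  simp only [Vr, Cv, hI.ex0 hF, AddMonoidHom.comp_apply]

theorem Ph_eq (hI : m.Iso m' φ ψ) (hF : m.Fm) (f : Cfg V' →+ ℝ) :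
    Ph (m'.W 0) f = Ph (m.W 0) (f.comp (mapH φ)) := by
  simp only [Ph, hI.ex0 hF, AddMonoidHom.comp_apply]


theorem Vr_pr (hI : m.Iso m' φ ψ) (hF : m.Fm) (f g : V' → ℝ) :
    Vr (m'.W 0) (pr f) (pr g) = Vr (m.W 0) (pr fun x => f (φ x)) (pr fun x => g (φ x)) := by
  rw [hI.Vr_eq hF, pr_comp_mapH, pr_comp_mapH]

theorem Ph_pr (hI : m.Iso m' φ ψ) (hF : m.Fm) (f : V' → ℝ) :
    Ph (m'.W 0) (pr f) = Ph (m.W 0) (pr fun x => f (φ x)) := by rw [hI.Ph_eq hF, pr_comp_mapH]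

end Mdl.Iso

/-- a functional that kills the constants on `B` -/
theorem hom_add_cst {B : Finset V} {f : Cfg V →+ ℝ} (hf : f (cst B 1) = 0) (s : Cfg V) (h : ℤ) :
    f (s + cst B h) = f s := by
  have : cst B h = h • cst B 1 := by ext x; simp [cst_apply]
  rw [map_add, this, map_zsmul, hf, smul_zero, add_zero]

theorem cos_add_cst {B : Finset V} {f : Cfg V →+ ℝ} {q : ℤ} (hf : f (cst B 1) = 2 * Real.pi * q)
    (s : Cfg V) (h : ℤ) : Real.cos (f (s + cst B h)) = Real.cos (f s) := by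
  have : cst B h = h • cst B 1 := by ext x; simp [cst_apply]
  rw [map_add, this, map_zsmul, hf, zsmul_eq_mul,
    show (h : ℝ) * (2 * Real.pi * q) = ((h * q : ℤ) : ℝ) * (2 * Real.pi) by push_cast; ring,
    Real.cos_add_int_mul_two_pi]

theorem pr_cst_one (f : V → ℝ) (B : Finset V) : pr f (cst B 1) = ∑ x ∈ B, f x := by
  rw [pr_cst]; simp

section root
variable (m : Mdl V) {B : Finset V} {r r' : V} (hr : r ∈ B) (hr' : r' ∈ B)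
  (hE : ∀ e ∈ m.ed, e.1 ∈ B ∧ e.2 ∈ B) (h1 : ∀ x k, m.site x k = 1)
include hr hr' hE h1

theorem ex_root {F : Cfg V → ℝ} (hF : ∀ s h, F (s + cst B h) = F s) :
    Ex ((m.free (B.erase r)).W 0) F = Ex ((m.free (B.erase r')).W 0) F :=
  (Md.root m hr hr' hE h1 hF).2.2


theorem Vr_root {f g : Cfg V →+ ℝ} (hf : f (cst B 1) = 0) (hg : g (cst B 1) = 0) :
    Vr ((m.free (B.erase r)).W 0) f g = Vr ((m.free (B.erase r')).W 0) f g := by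
  simp only [Vr, Cv]
  rw [ex_root m hr hr' hE h1 (F := fun s => f s * g s) fun s h => by
      rw [hom_add_cst hf, hom_add_cst hg],
    ex_root m hr hr' hE h1 (F := fun s => f s) (hom_add_cst hf),
    ex_root m hr hr' hE h1 (F := fun s => g s) (hom_add_cst hg)]

theorem Ph_root {f : Cfg V →+ ℝ} {q : ℤ} (hf : f (cst B 1) = 2 * Real.pi * q) :
    Ph ((m.free (B.erase r)).W 0) f = Ph ((m.free (B.erase r')).W 0) f :=
  ex_root m hr hr' hE h1 (cos_add_cst hf)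

end root

end iso

namespace Lat
variable {Λ : Lat} {m : Mdl Pt} {D D' B : Finset Pt}

/-! ## The standard models are centred weights -/

theorem Ok.cen_D (h : Λ.Ok) (D : Finset Pt) : Cen ((Λ.D D).W 0) := (h.ctr_D D).cen (h.anch_D D)
theorem Ok.wt_D (h : Λ.Ok) (D : Finset Pt) (η : Cfg Pt) : Wt ((Λ.D D).W η) :=
  (h.ctr_D D).wt (h.anch_D D) η
theorem Ok.se_D (h : Λ.Ok) (D : Finset Pt) (η : Cfg Pt) : SE ((Λ.D D).W η) :=
  (h.ctr_D D).se (h.anch_D D) η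
theorem Ok.cen_Nr (h : Λ.Ok) {a r : Pt} {n : ℕ} (hr : r ∈ sq a n) : Cen ((Λ.Nr (sq a n) r).W 0) :=
  (h.ctr_Nr _ r).cen (h.anch_Nr hr)
theorem Ok.cen_Nr_bl (h : Λ.Ok) {a r : Pt} {n : ℕ} (hr : r ∈ bl a n) :
    Cen ((Λ.Nr (bl a n) r).W 0) := (h.ctr_Nr _ r).cen (h.anch_Nr_bl hr)
theorem Ok.cen_T (h : Λ.Ok) (n : ℕ) : Cen ((Λ.T n).W 0) := (h.ctr_T n).cen (h.anch_T n)

/-- a finite set containing the rectangle spanned by each of its points and the root -/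
theorem Ok.anch_Nr_rect (h : Λ.Ok) {r : Pt} (hB : ∀ x ∈ B, Rect B x r) : (Λ.Nr B r).Anch :=
  Lat.anch_Nr fun x hx => h.conn_rect (hB x hx)

/-! ## Models that look like `Λ` near `D` -/

/-- the edges of `m` meeting `D` are those of the lattice, no site weights on `D` -/
def Near (Λ : Lat) (m : Mdl Pt) (D : Finset Pt) : Prop :=
  (∀ e : Pt × Pt, e.1 ∈ D ∨ e.2 ∈ D → (e ∈ m.ed ↔ e.2 - e.1 ∈ Λ.Jp)) ∧
    (∀ e ∈ m.ed, e.1 ∈ D ∨ e.2 ∈ D → m.w e = Λ.w) ∧ ∀ x ∈ D, ∀ k, m.site x k = 1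

theorem Near.mono (h : Λ.Near m D') (hD : D ⊆ D') : Λ.Near m D :=
  ⟨fun e he => h.1 e (he.imp (@hD _) (@hD _)), fun e he he' => h.2.1 e he (he'.imp (@hD _) (@hD _)),
    fun x hx => h.2.2 x (hD hx)⟩

theorem Near.free (h : Λ.Near m D) (A : Finset Pt) : Λ.Near (m.free A) D := h

theorem Near.mulSite (h : Λ.Near m D) {u : Pt → ℤ → ℝ} (hu : ∀ x ∈ D, ∀ k, u x k = 1) :
    Λ.Near (m.mulSite u) D :=
  ⟨h.1, h.2.1, fun x hx k => by rw [Mdl.mulSite_site, h.2.2 x hx, hu x hx, mul_one]⟩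

theorem near_D (hD : D ⊆ D') : Λ.Near (Λ.D D') D :=
  ⟨fun _ he => mem_edT.trans (and_iff_left (he.imp (@hD _) (@hD _))), fun _ _ _ => rfl,
    fun _ _ _ => rfl⟩

theorem near_N (hD : Λ.edT D ⊆ Λ.edI B) : Λ.Near (Λ.N B) D :=
  ⟨fun _ he => ⟨fun h => (mem_edI.1 h).1, fun h => hD (mem_edT.2 ⟨h, he⟩)⟩, fun _ _ _ => rfl,
    fun _ _ _ => rfl⟩

theorem near_Nr (hD : Λ.edT D ⊆ Λ.edI B) (r : Pt) : Λ.Near (Λ.Nr B r) D := near_N hD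

theorem near_T {n : ℕ} (hD : ∀ x ∈ D, bl x Λ.rg ⊆ sq 0 n) : Λ.Near (Λ.T n) D :=
  ⟨fun _ he => ⟨fun h => (mem_edT.1 (T_ed_touch hD h he)).1,
    fun h => edI_subset_T n (edT_subset_edI hD (mem_edT.2 ⟨h, he⟩))⟩, fun _ _ _ => rfl,
    fun _ _ _ => rfl⟩

theorem Ok.subset_T_A (h : Λ.Ok) {n : ℕ} (hD : ∀ x ∈ D, bl x Λ.rg ⊆ sq 0 n) : D ⊆ (Λ.T n).A := by
  intro x hx
  refine mem_erase.2 ⟨?_, hD x hx (self_mem_bl _ _)⟩
  rintro rfl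
  have h1 := h.one_le_rg
  have : ((-1, 0) : Pt) ∈ bl 0 Λ.rg := by
    rw [mem_bl]; simp only [Prod.fst_zero, Prod.snd_zero]; omega
  have := mem_sq.1 (hD 0 hx this)
  simp only [Prod.fst_zero] at this
  omega

/-- the Gibbs specification in `D` is the Dirichlet model -/
theorem Near.pp (h : Λ.Near m D) (hΛ : Λ.Ok) (hF : m.Fm) (η : Cfg Pt) :
    Pp ((m.free D).W η) ((Λ.D D).W η) :=
  Mdl.pp_of_touch (hF.free D) (hΛ.ctr_D D).1 rfl h.2.2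
    (fun e he => (h.1 e he).trans (mem_edT.trans (and_iff_left he)).symm) h.2.1 η

theorem Near.pps (h : Λ.Near m D) (hΛ : Λ.Ok) (hF : m.Fm) (η : Cfg Pt) (σ : Pt × Pt → ℤ) :
    Pp ((m.free D).Ws η σ) ((Λ.D D).Ws η σ) :=
  Mdl.pps_of_touch (hF.free D) (hΛ.ctr_D D).1 rfl h.2.2
    (fun e he => (h.1 e he).trans (mem_edT.trans (and_iff_left he)).symm) h.2.1 η fun _ _ _ => rfl


theorem Near.cE (h : Λ.Near m D) (hΛ : Λ.Ok) (hF : m.Fm) (F : Cfg Pt → ℝ) (s : Cfg Pt) :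
    m.cE D F s = Ex ((Λ.D D).W s) F := (h.pp hΛ hF s).ex F


/-- DLR in lattice form -/
theorem Near.dlr (h : Λ.Near m D) (hΛ : Λ.Ok) (hF : m.Fm) (hA : D ⊆ m.A) {η : Cfg Pt}
    (hW : Wt (m.W η)) {F : Cfg Pt → ℝ} (hi : Ig (m.W η) F) :
    Ig (m.W η) (fun s => Ex ((Λ.D D).W s) F) ∧
      Ex (m.W η) F = Ex (m.W η) fun s => Ex ((Λ.D D).W s) F := by
  simpa only [fun s => (h.pp hΛ hF s).ex F] using Md.dlr m η hA hW hi

theorem Near.dlr_mul (h : Λ.Near m D) (hΛ : Λ.Ok) (hF : m.Fm) (hA : D ⊆ m.A) {η : Cfg Pt}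
    (hW : Wt (m.W η)) {F H : Cfg Pt → ℝ} (hH : ∀ s t : Cfg Pt, (∀ x, x ∉ D → s x = t x) → H s = H t)
    (hi : Ig (m.W η) fun s => H s * F s) :
    Ig (m.W η) (fun s => H s * Ex ((Λ.D D).W s) F) ∧
      Ex (m.W η) (fun s => H s * F s) = Ex (m.W η) fun s => H s * Ex ((Λ.D D).W s) F := by
  simpa only [fun s => (h.pp hΛ hF s).ex F] using Md.dlr_mul m η hA hW hH hi

/-! ## Comparison -/

/-- the Dirichlet box is more localised than any centred model with fewer edges near `D` -/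
theorem Ok.loc_D (hΛ : Λ.Ok) (hc : m.Ctr) (ha : m.Anch) (hA : D ⊆ m.A)
    (hE : ∀ e ∈ m.ed, e.1 ∈ D ∨ e.2 ∈ D → e.2 - e.1 ∈ Λ.Jp ∧ m.w e = Λ.w)
    (hs : ∀ x ∈ D, ∀ k, m.site x k = 1) : Loc ((Λ.D D).W 0) (m.W 0) :=
  loc_touch hc ha (hΛ.ctr_D D).1 hA
    (fun e he h => ⟨mem_edT.2 ⟨(hE e he h).1, h⟩, (hE e he h).2.symm⟩) fun x hx k => (hs x hx k).symm

theorem Near.loc (h : Λ.Near m D) (hΛ : Λ.Ok) (hc : m.Ctr) (ha : m.Anch) (hA : D ⊆ m.A) :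
    Loc ((Λ.D D).W 0) (m.W 0) :=
  hΛ.loc_D hc ha hA (fun e he h' => ⟨(h.1 e h').1 he, h.2.1 e he h'⟩) h.2.2

theorem Ok.loc_D_D (h : Λ.Ok) (hD : D ⊆ D') : Loc ((Λ.D D).W 0) ((Λ.D D').W 0) :=
  (near_D hD).loc h (h.ctr_D _) (h.anch_D _) hD


theorem Ok.loc_D_T (h : Λ.Ok) {n : ℕ} (hD : ∀ x ∈ D, bl x Λ.rg ⊆ sq 0 n) :
    Loc ((Λ.D D).W 0) ((Λ.T n).W 0) :=
  (near_T hD).loc h (h.ctr_T n) (h.anch_T n) (h.subset_T_A hD)


theorem short_at {τ : ℝ} (h0 : 0 < τ) (hτ : τ ≤ Λ.τ) : Short (Λ.at' τ).w Λ.w :=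
  ⟨Λ.xy, τ, Λ.τ, h0, hτ, rfl, rfl⟩


theorem Ok.loc_at_Nr (h : Λ.Ok) {τ : ℝ} (h0 : 0 < τ) (hτ : τ ≤ Λ.τ) {r : Pt}
    (ha : (Λ.Nr B r).Anch) : Loc (((Λ.at' τ).Nr B r).W 0) ((Λ.Nr B r).W 0) :=
  loc_short shortStmt (h.ctr_Nr _ _) ha rfl rfl (fun _ _ _ => rfl) fun _ _ => short_at h0 hτ


/-! ## Symmetries -/
section sym
variable {φ : Pt ≃ Pt}

theorem Sym.ex_D (hΛ : Λ.Ok) (h : Λ.Sym φ) (D : Finset Pt) (η : Cfg Pt) (F : Cfg Pt → ℝ) :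
    Ex ((Λ.D (D.map φ.toEmbedding)).W (mapH φ η)) F = Ex ((Λ.D D).W η) fun s => F (mapH φ s) :=
  (h.iso_D hΛ D).ex (hΛ.ctr_D D).1 η F

theorem Sym.ex_D0 (hΛ : Λ.Ok) (h : Λ.Sym φ) (hD : D.map φ.toEmbedding = D') (F : Cfg Pt → ℝ) :
    Ex ((Λ.D D').W 0) F = Ex ((Λ.D D).W 0) fun s => F (mapH φ s) :=
  hD ▸ (h.iso_D hΛ D).ex0 (hΛ.ctr_D D).1 F


theorem Sym.Vr_D (hΛ : Λ.Ok) (h : Λ.Sym φ) (hD : D.map φ.toEmbedding = D') (f g : Pt → ℝ) :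
    Vr ((Λ.D D').W 0) (pr f) (pr g) =
      Vr ((Λ.D D).W 0) (pr fun x => f (φ x)) (pr fun x => g (φ x)) :=
  hD ▸ (h.iso_D hΛ D).Vr_pr (hΛ.ctr_D D).1 f g

theorem Sym.Ph_D (hΛ : Λ.Ok) (h : Λ.Sym φ) (hD : D.map φ.toEmbedding = D') (f : Pt → ℝ) :
    Ph ((Λ.D D').W 0) (pr f) = Ph ((Λ.D D).W 0) (pr fun x => f (φ x)) :=
  hD ▸ (h.iso_D hΛ D).Ph_pr (hΛ.ctr_D D).1 f

theorem ex_Nr_root {r r' : Pt} (hr : r ∈ B) (hr' : r' ∈ B) {F : Cfg Pt → ℝ}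
    (hF : ∀ s h, F (s + cst B h) = F s) : Ex ((Λ.Nr B r).W 0) F = Ex ((Λ.Nr B r').W 0) F :=
  ex_root (Λ.N B) hr hr' (fun _ he => (mem_edI.1 he).2) (fun _ _ => rfl) hF


theorem Vr_Nr_root {r r' : Pt} (hr : r ∈ B) (hr' : r' ∈ B) {f g : Cfg Pt →+ ℝ}
    (hf : f (cst B 1) = 0) (hg : g (cst B 1) = 0) :
    Vr ((Λ.Nr B r).W 0) f g = Vr ((Λ.Nr B r').W 0) f g :=
  Vr_root (Λ.N B) hr hr' (fun _ he => (mem_edI.1 he).2) (fun _ _ => rfl) hf hg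

theorem Ph_Nr_root {r r' : Pt} (hr : r ∈ B) (hr' : r' ∈ B) {f : Cfg Pt →+ ℝ} {q : ℤ}
    (hf : f (cst B 1) = 2 * Real.pi * q) : Ph ((Λ.Nr B r).W 0) f = Ph ((Λ.Nr B r').W 0) f :=
  Ph_root (Λ.N B) hr hr' (fun _ he => (mem_edI.1 he).2) (fun _ _ => rfl) hf

theorem Sym.ex_Nr0 (hΛ : Λ.Ok) (h : Λ.Sym φ) {B' : Finset Pt} (hB : B.map φ.toEmbedding = B')
    (r : Pt) (F : Cfg Pt → ℝ) :
    Ex ((Λ.Nr B' (φ r)).W 0) F = Ex ((Λ.Nr B r).W 0) fun s => F (mapH φ s) :=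
  hB ▸ (h.iso_Nr hΛ B r).ex0 (hΛ.ctr_Nr B r).1 F

/-- free boxes, any roots, observables invariant under the zero mode -/
theorem Sym.ex_Nr (hΛ : Λ.Ok) (h : Λ.Sym φ) {B' : Finset Pt} (hB : B.map φ.toEmbedding = B')
    {r r' : Pt} (hr : r ∈ B) (hr' : r' ∈ B') {F : Cfg Pt → ℝ} (hF : ∀ s h, F (s + cst B' h) = F s) :
    Ex ((Λ.Nr B' r').W 0) F = Ex ((Λ.Nr B r).W 0) fun s => F (mapH φ s) := by
  rw [← h.ex_Nr0 hΛ hB r F]
  exact ex_Nr_root hr' (hB ▸ mem_map_of_mem _ hr) hF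


theorem Sym.Vr_Nr (hΛ : Λ.Ok) (h : Λ.Sym φ) {B' : Finset Pt} (hB : B.map φ.toEmbedding = B')
    {r r' : Pt} (hr : r ∈ B) (hr' : r' ∈ B') {f g : Pt → ℝ} (hf : ∑ x ∈ B', f x = 0)
    (hg : ∑ x ∈ B', g x = 0) : Vr ((Λ.Nr B' r').W 0) (pr f) (pr g) =
      Vr ((Λ.Nr B r).W 0) (pr fun x => f (φ x)) (pr fun x => g (φ x)) := by
  rw [Vr_Nr_root hr' (hB ▸ mem_map_of_mem _ hr : φ r ∈ B') (by rw [pr_cst_one, hf])
    (by rw [pr_cst_one, hg])]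
  exact hB ▸ (h.iso_Nr hΛ B r).Vr_pr (hΛ.ctr_Nr B r).1 f g

theorem Sym.Ph_Nr (hΛ : Λ.Ok) (h : Λ.Sym φ) {B' : Finset Pt} (hB : B.map φ.toEmbedding = B')
    {r r' : Pt} (hr : r ∈ B) (hr' : r' ∈ B') {f : Pt → ℝ} {q : ℤ}
    (hf : ∑ x ∈ B', f x = 2 * Real.pi * q) :
    Ph ((Λ.Nr B' r').W 0) (pr f) = Ph ((Λ.Nr B r).W 0) (pr fun x => f (φ x)) := by
  rw [Ph_Nr_root hr' (hB ▸ mem_map_of_mem _ hr : φ r ∈ B') (by rw [pr_cst_one, hf])]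
  exact hB ▸ (h.iso_Nr hΛ B r).Ph_pr (hΛ.ctr_Nr B r).1 f

end sym

/-! ## The variance at the centre and roughness -/

theorem Ok.Vr_ev (h : Λ.Ok) (D : Finset Pt) (x : Pt) :
    Vr ((Λ.D D).W 0) (evH x) (evH x) = Ex ((Λ.D D).W 0) fun s => (s x : ℝ) ^ 2 := by
  rw [(h.cen_D D).Vr_eq]; simp only [evH_apply, pow_two]

theorem Ok.vD_eq (h : Λ.Ok) (R : ℕ) : Λ.vD R = Vr ((Λ.D (bl 0 R)).W 0) (evH 0) (evH 0) :=
  (h.Vr_ev _ 0).symm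

theorem Ok.vD_eq_at (h : Λ.Ok) (R : ℕ) (z : Pt) :
    Λ.vD R = Vr ((Λ.D (bl z R)).W 0) (evH z) (evH z) := by
  have := ((sym_add Λ z).iso_D h (bl 0 R)).Vr_eq (h.ctr_D _).1 (evH (Equiv.addRight z 0))
    (evH (Equiv.addRight z 0))
  rw [evH_comp_mapH, map_bl_add, Equiv.coe_addRight, zero_add] at this
  simp only [zero_add] at this
  rw [this, h.vD_eq]



theorem Ok.le_vD (h : Λ.Ok) {R : ℕ} {z : Pt} (hD : D ⊆ bl z R) :
    Vr ((Λ.D D).W 0) (evH z) (evH z) ≤ Λ.vD R :=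
  h.vD_eq_at R z ▸ (h.loc_D_D hD).Vr_le (h.cen_D _) (h.cen_D _) _

theorem Ok.vD_mono (h : Λ.Ok) : Monotone Λ.vD := fun _ _ hR =>
  h.vD_eq _ ▸ h.le_vD (bl_mono 0 hR)


theorem not_rough_iff : ¬ Λ.Rough ↔ ∃ C, ∀ R, Λ.vD R ≤ C := by
  simp only [Rough, not_not, BddAbove, upperBounds, Set.Nonempty, Set.mem_ofPred_eq,
    Set.forall_mem_range]




/-- in the localised phase every height variance in every Dirichlet domain is bounded -/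
theorem Ok.bdd_of_not_rough (h : Λ.Ok) (hn : ¬ Λ.Rough) :
    ∃ C, ∀ (D : Finset Pt) (x : Pt), Vr ((Λ.D D).W 0) (evH x) (evH x) ≤ C := by
  obtain ⟨C, hC⟩ := not_rough_iff.1 hn
  refine ⟨C, fun D x => ?_⟩
  obtain ⟨R, hR⟩ := exists_subset_bl D x
  exact (h.le_vD hR).trans (hC R)

end Lat

/-! ## Translations of the torus -/

/-- cyclic translation of `[0, n)²` -/
def tshF (n : ℕ) (v x : Pt) : Pt :=
  if 0 ≤ x.1 ∧ x.1 < n ∧ 0 ≤ x.2 ∧ x.2 < n then ((x.1 + v.1) % n, (x.2 + v.2) % n) else x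

theorem mem_sq0 {n : ℕ} {x : Pt} : x ∈ sq 0 n ↔ 0 ≤ x.1 ∧ x.1 < n ∧ 0 ≤ x.2 ∧ x.2 < n := by
  rw [mem_sq]; simp [and_assoc]

theorem tshF_mem {n : ℕ} (v : Pt) {x : Pt} (hx : x ∈ sq 0 n) :
    tshF n v x = ((x.1 + v.1) % n, (x.2 + v.2) % n) := if_pos (mem_sq0.1 hx)

theorem tshF_not {n : ℕ} (v : Pt) {x : Pt} (hx : x ∉ sq 0 n) : tshF n v x = x :=
  if_neg fun h => hx (mem_sq0.2 h)

theorem emod_mem_sq0 {n : ℕ} (hn : 0 < n) (a b : ℤ) : ((a % n, b % n) : Pt) ∈ sq 0 n := by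
  have h : (0 : ℤ) < n := by exact_mod_cast hn
  exact mem_sq0.2 ⟨Int.emod_nonneg _ h.ne', Int.emod_lt_of_pos _ h, Int.emod_nonneg _ h.ne',
    Int.emod_lt_of_pos _ h⟩

theorem pos_of_mem_sq {n : ℕ} {a x : Pt} (hx : x ∈ sq a n) : 0 < n := by
  have := mem_sq.1 hx; omega

theorem tshF_mem_sq {n : ℕ} (v : Pt) {x : Pt} (hx : x ∈ sq 0 n) : tshF n v x ∈ sq 0 n := by
  rw [tshF_mem v hx]; exact emod_mem_sq0 (pos_of_mem_sq hx) _ _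

theorem tshF_add (n : ℕ) (v v' x : Pt) : tshF n v' (tshF n v x) = tshF n (v + v') x := by
  by_cases hx : x ∈ sq 0 n
  · rw [tshF_mem v' (tshF_mem_sq v hx), tshF_mem v hx, tshF_mem _ hx]
    simp only [Int.emod_add_emod, Prod.fst_add, Prod.snd_add, add_assoc]
  · rw [tshF_not v hx, tshF_not _ hx, tshF_not _ hx]

theorem tshF_zero (n : ℕ) (x : Pt) : tshF n 0 x = x := by
  by_cases hx : x ∈ sq 0 n
  · have := mem_sq0.1 hx
    rw [tshF_mem _ hx]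
    simp only [Prod.fst_zero, Prod.snd_zero, add_zero]
    rw [Int.emod_eq_of_lt this.1 this.2.1, Int.emod_eq_of_lt this.2.2.1 this.2.2.2]
  · exact tshF_not _ hx

/-- cyclic translation as a bijection of `ℤ²` (identity off the square) -/
def tsh (n : ℕ) (v : Pt) : Pt ≃ Pt :=
  ⟨tshF n v, tshF n (-v), fun x => by rw [tshF_add, add_neg_cancel, tshF_zero],
    fun x => by rw [tshF_add, neg_add_cancel, tshF_zero]⟩

theorem tsh_apply (n : ℕ) (v x : Pt) : tsh n v x = tshF n v x := rfl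



theorem map_eq_self_of {α : Type*} {S : Finset α} {e : α ≃ α} (h : ∀ x ∈ S, e x ∈ S)
    (h' : ∀ x ∈ S, e.symm x ∈ S) : S.map e.toEmbedding = S := by
  ext x
  rw [mem_map_equiv]
  exact ⟨fun hx => by simpa using h _ hx, h' x⟩

theorem map_sq_tsh (n : ℕ) (v : Pt) : (sq 0 n).map (tsh n v).toEmbedding = sq 0 n :=
  map_eq_self_of (fun _ => tshF_mem_sq v) fun _ => tshF_mem_sq (-v)


namespace Lat
variable {Λ : Lat}

theorem mem_T_ed' {n : ℕ} {e : Pt × Pt} :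
    e ∈ (Λ.T n).ed ↔ e.1 ∈ sq 0 n ∧ ∃ y ∈ Λ.Jp, e.2 = tsh n y e.1 := by
  rw [mem_T_ed]
  exact and_congr_right fun h => by simp only [tsh_apply, tshF_mem _ h]

theorem T_ed_tsh {n : ℕ} (v : Pt) {e : Pt × Pt} (he : e ∈ (Λ.T n).ed) :
    (tsh n v).prodCongr (tsh n v) e ∈ (Λ.T n).ed := by
  obtain ⟨h1, y, hy, h2⟩ := mem_T_ed'.1 he
  refine mem_T_ed'.2 ⟨tshF_mem_sq v h1, y, hy, ?_⟩
  simp only [Equiv.prodCongr_apply, Prod.map_fst, Prod.map_snd, h2, tsh_apply, tshF_add, add_comm]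

theorem iso_T (n : ℕ) (v : Pt) (A : Finset Pt) : ((Λ.T n).free A).Iso
    ((Λ.T n).free (A.map (tsh n v).toEmbedding)) (tsh n v) ((tsh n v).prodCongr (tsh n v)) :=
  ⟨rfl, (map_eq_self_of (fun _ => T_ed_tsh v) fun _ => T_ed_tsh (-v)).symm, fun _ => Or.inl rfl,
    fun _ _ => rfl, fun _ _ => rfl⟩

theorem ex_T_root {n : ℕ} {r : Pt} (hr : r ∈ sq 0 n) {F : Cfg Pt → ℝ}
    (hF : ∀ s h, F (s + cst (sq 0 n) h) = F s) :
    Ex (((Λ.T n).free ((sq 0 n).erase r)).W 0) F = Ex ((Λ.T n).W 0) F :=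
  ex_root (Λ.T n) hr (self_mem_sq _ (pos_of_mem_sq hr)) (fun _ he => T_ed_mem he)
    (fun _ _ => rfl) hF

/-- translation invariance on the torus -/
theorem Ok.ex_T (h : Λ.Ok) {n : ℕ} (hn : 0 < n) (v : Pt) {F : Cfg Pt → ℝ}
    (hF : ∀ s h, F (s + cst (sq 0 n) h) = F s) :
    Ex ((Λ.T n).W 0) (fun s => F (mapH (tsh n v) s)) = Ex ((Λ.T n).W 0) F := by
  have h1 := (iso_T (Λ := Λ) n v ((sq 0 n).erase 0)).ex0 (h.ctr_T n).1 F
  rw [map_erase, map_sq_tsh] at h1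
  exact h1.symm.trans (ex_T_root (tshF_mem_sq v (self_mem_sq _ hn)) hF)


theorem Ok.Vr_T (h : Λ.Ok) {n : ℕ} (hn : 0 < n) (v : Pt) {f g : Pt → ℝ}
    (hf : ∑ x ∈ sq 0 n, f x = 0) (hg : ∑ x ∈ sq 0 n, g x = 0) :
    Vr ((Λ.T n).W 0) (pr fun x => f (tsh n v x)) (pr fun x => g (tsh n v x)) =
      Vr ((Λ.T n).W 0) (pr f) (pr g) := by
  rw [← pr_cst_one] at hf hg
  simp only [Vr, Cv, ← pr_mapH]
  rw [h.ex_T hn v (F := fun s => pr f s * pr g s) fun s k => by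
      rw [hom_add_cst hf, hom_add_cst hg],
    h.ex_T hn v (F := fun s => pr f s) (hom_add_cst hf),
    h.ex_T hn v (F := fun s => pr g s) (hom_add_cst hg)]


end Lat

end Crest.Agent.T145
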