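import Crest.Agent.T145.Sc_97
import Crest.Agent.T145.NcDef_78

/-!
# Row 145: the words of `Sc_97` at `σ = 0` are those of `NcDef_78` (helper97)
-/

set_option autoImplicit false

namespace Crest.Agent.T145

theorem ws_zero_97 {V : Type*} (m : Mdl V) (η : Cfg V) : m.Ws η 0 = m.W η := by
  funext s; simp [Mdl.Ws, Mdl.W]

theorem Lat.exN_zero (Λ : Lat) (z : Pt) (R : ℕ) (F : Cfg Pt → ℝ) : Λ.exN 0 z R F = Nc.EN Λ z R F := by
  rw [Lat.exN, ws_zero_97]; rfl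

theorem Lat.nrm_zero (Λ : Lat) (z : Pt) (R : ℕ) (F : Cfg Pt → ℝ) : Λ.nrm 0 z R F = Nc.Nm Λ z R F :=
  Λ.exN_zero z R _

theorem Lat.tr_zero (Λ : Lat) (z : Pt) (R : ℕ) (F : Cfg Pt → ℝ) : Λ.tr 0 z R F = Nc.St Λ z R F := by
  funext s; rw [Lat.tr, ws_zero_97]; rfl


end Crest.Agent.T145
namespace Crest.Agent.T145.Nc
end Crest.Agent.T145.Nc
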