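import Crest.Agent.T145.FlDef_82
import Crest.Agent.T145.FlFus_4

/-!
# Row 145, flow (helper98): RATE, the exponents `cw`, `ew`, rescaling of profiles
-/

set_option autoImplicit false

namespace Crest.Agent.T145.Fl

open Finset Pot Xi Real

/-! ## exponents -/

theorem cw_nonneg (w : ℕ) : 0 ≤ cw w := by
  refine div_nonneg (log_nonneg (by norm_num)) ?_
  have : (4 * (w : ℝ) ^ 4) = ((4 * w ^ 4 : ℕ) : ℝ) := by push_cast; ring
  rw [this]
  exact log_natCast_nonneg _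

theorem ew_nonneg (w : ℕ) : 0 ≤ ew w := div_nonneg (cw_nonneg w) (by norm_num)

theorem cw_eq_ew (w : ℕ) : cw w = 100 * ew w := by unfold ew; ring

theorem log_base_ge {w k a : ℕ} (hw : a ≤ w) (h : 2 ^ k ≤ 4 * a ^ 4) :
    k * log 2 ≤ log (4 * (w : ℝ) ^ 4) := by
  rw [← log_pow]
  refine log_le_log (by positivity) ?_
  have : 2 ^ k ≤ 4 * w ^ 4 := h.trans (by gcongr)
  exact_mod_cast this

theorem log_base_pos {w : ℕ} (hw : 1 ≤ w) : 0 < log (4 * (w : ℝ) ^ 4) := by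
  have h := log_base_ge (k := 2) hw (by norm_num)
  have := log_pos (show (1 : ℝ) < 2 by norm_num)
  push_cast at h
  linarith

theorem cw_pos {w : ℕ} (hw : 1 ≤ w) : 0 < cw w := div_pos (log_pos (by norm_num)) (log_base_pos hw)

theorem ew_pos {w : ℕ} (hw : 1 ≤ w) : 0 < ew w := div_pos (cw_pos hw) (by norm_num)

theorem cw_le {w : ℕ} (hw : 2 ≤ w) : cw w ≤ 1 / 6 := by
  have h := log_base_ge (k := 6) hw (by norm_num)
  rw [cw, div_le_iff₀ (log_base_pos (by omega))]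
  push_cast at h
  linarith

theorem cw_le' {w : ℕ} (hw : 4 ≤ w) : cw w ≤ 1 / 10 := by
  have h := log_base_ge (k := 10) hw (by norm_num)
  rw [cw, div_le_iff₀ (log_base_pos (by omega))]
  push_cast at h
  linarith

theorem ew_le {w : ℕ} (hw : 2 ≤ w) : ew w ≤ 1 / 600 := by
  have := cw_le hw
  unfold ew
  linarith

theorem ew_le' {w : ℕ} (hw : 4 ≤ w) : ew w ≤ 1 / 1000 := by
  have := cw_le' hw
  unfold ew
  linarith

theorem base_rpow_cw {w : ℕ} (hw : 1 ≤ w) : (4 * (w : ℝ) ^ 4) ^ cw w = 2 := by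
  have h0 : (0 : ℝ) < 4 * (w : ℝ) ^ 4 := by positivity
  rw [rpow_def_of_pos h0, cw, mul_div_cancel₀ _ (log_base_pos hw).ne', exp_log (by norm_num)]

/-- `R ≤ (4 w⁴)^k r` gives `2^(-k) ≤ (r / R)^cw` -/
theorem half_pow_le {w k : ℕ} (hw : 1 ≤ w) {r R : ℝ} (hR : 0 < R)
    (h : R ≤ (4 * (w : ℝ) ^ 4) ^ k * r) : (1 / 2 : ℝ) ^ k ≤ (r / R) ^ cw w := by
  have h0 : (0 : ℝ) < 4 * (w : ℝ) ^ 4 := by positivity
  have h1 : ((4 * (w : ℝ) ^ 4) ^ k)⁻¹ ≤ r / R := by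
    rw [le_div_iff₀ hR, inv_mul_le_iff₀ (by positivity)]
    exact h
  refine le_trans (le_of_eq ?_) (rpow_le_rpow (by positivity) h1 (cw_nonneg w))
  rw [inv_rpow (by positivity), ← rpow_natCast (4 * (w : ℝ) ^ 4), ← rpow_mul h0.le, mul_comm (k : ℝ),
    rpow_mul h0.le, base_rpow_cw hw, rpow_natCast, one_div, inv_pow]

/-! ## profiles -/

section prof
variable {Λ : Lat} {w a₀ L : ℕ} {z : Pt} {F : Cfg Pt → ℝ} {r R P P' M Y Y' : ℝ} {p : Par}

theorem max_ratio_nonneg {a r : ℝ} (ha : 0 ≤ a) (hr : 0 ≤ r) : 0 ≤ max (a / r) (r / a) :=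
  le_max_of_le_left (div_nonneg ha hr)


theorem max_ratio_le {a r M : ℝ} (ha : 0 < a) (hr : 0 < r) (hM : 0 < M) (h1 : r / M ≤ a)
    (h2 : a ≤ M * r) : max (a / r) (r / a) ≤ M := by
  rw [div_le_iff₀ hM] at h1
  exact max_le ((div_le_iff₀ hr).2 h2) ((div_le_iff₀ ha).2 (by linarith))

theorem max_ratio_rescale {a r R M : ℝ} (ha : 0 ≤ a) (hR : 0 < R) (hM : 0 < M) (h1 : R / M ≤ r)
    (h2 : r ≤ M * R) : max (a / R) (R / a) ≤ M * max (a / r) (r / a) := by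
  have hr : 0 < r := (div_pos hR hM).trans_le h1
  rw [div_le_iff₀ hM] at h1
  refine max_le (le_trans ?_ (mul_le_mul_of_nonneg_left (le_max_left _ _) hM.le))
    (le_trans ?_ (mul_le_mul_of_nonneg_left (le_max_right _ _) hM.le))
  · rw [← mul_div_assoc, div_le_div_iff₀ hR hr]
    nlinarith
  · rw [← mul_div_assoc]
    exact div_le_div_of_nonneg_right (by linarith) ha

theorem Prof.mono (h : Prof Λ w a₀ L z F r P) (hr : 0 ≤ r) (hP : P ≤ P') : Prof Λ w a₀ L z F r P' :=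
  fun a h1 h2 => (h a h1 h2).trans (mul_le_mul_of_nonneg_right hP
    (rpow_nonneg (max_ratio_nonneg (Nat.cast_nonneg a) hr) _))


theorem Prof.rescale (h : Prof Λ w a₀ L z F R P) (hP : 0 ≤ P) (hR : 0 < R) (hM : 0 < M)
    (h1 : R / M ≤ r) (h2 : r ≤ M * R) : Prof Λ w a₀ L z F r (P * M ^ ew w) := by
  intro a h3 h4
  have hr : 0 < r := (div_pos hR hM).trans_le h1
  refine (h a h3 h4).trans ?_
  rw [mul_assoc, ← mul_rpow hM.le (max_ratio_nonneg (Nat.cast_nonneg a) hr.le)]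
  exact mul_le_mul_of_nonneg_left (rpow_le_rpow (max_ratio_nonneg (Nat.cast_nonneg a) hR.le)
    (max_ratio_rescale (Nat.cast_nonneg a) hR hM h1 h2) (ew_nonneg w)) hP

/-- the profile at a scale comparable with the reference scale -/
theorem Prof.le (h : Prof Λ w a₀ L z F R P) (hP : 0 ≤ P) (hR : 0 < R) (hM : 0 < M) {a : ℕ}
    (h0 : a₀ ≤ a) (hL : w * a ≤ L) (h1 : R / M ≤ a) (h2 : (a : ℝ) ≤ M * R) :
    nu Λ w z a F ≤ P * M ^ ew w / (a : ℝ) ^ 2 := by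
  have ha : (0 : ℝ) < a := (div_pos hR hM).trans_le h1
  rw [le_div_iff₀ (by positivity), mul_comm]
  exact (h a h0 hL).trans (mul_le_mul_of_nonneg_left (rpow_le_rpow (max_ratio_nonneg ha.le hR.le)
    (max_ratio_le ha hR hM h1 h2) (ew_nonneg w)) hP)

theorem Maj.one_le (h : Maj p Λ L R Y) : 1 ≤ R := h.1

theorem Maj.prof (h : Maj p Λ L R Y) : Prof Λ p.w p.r₀ L 0 (Jz 0) R Y := h.2.2

theorem Maj.pos (h : Maj p Λ L R Y) : 0 < Y :=
  (rpow_pos_of_pos (one_pos.trans_le h.1) _).trans_le h.2.1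

theorem Maj.mono (h : Maj p Λ L R Y) (hY : Y ≤ Y') : Maj p Λ L R Y' :=
  ⟨h.1, h.2.1.trans hY, h.2.2.mono (zero_le_one.trans h.1) hY⟩


theorem Maj.rescale (h : Maj p Λ L R Y) (hM : 0 < M) (hr : 1 ≤ r) (h1 : R / M ≤ r)
    (h2 : r ≤ M * R) : Maj p Λ L r (Y * M ^ ew p.w) := by
  have hR : 0 < R := one_pos.trans_le h.1
  refine ⟨hr, ?_, h.2.2.rescale h.pos.le hR hM h1 h2⟩
  refine (rpow_le_rpow_of_nonpos (div_pos hR hM) h1 (neg_nonpos.2 (ew_nonneg _))).trans ?_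
  rw [div_rpow hR.le hM.le, rpow_neg hM.le, div_inv_eq_mul]
  exact mul_le_mul_of_nonneg_right h.2.1 (rpow_nonneg hM.le _)


end prof

/-! ## RATE -/

theorem rateStmt : RateStmt := by
  intro w
  refine ⟨640, by norm_num, ?_⟩
  rintro p Λ L rfl hG m z r R F h0 hrR hL hm hF
  have hΛ : Λ.Ok := hG.mem.ok
  have hg := hΛ.one_le_rg
  have hw := hG.w4
  have h2 := hG.gd.2.1
  have hwr : 4 * r ≤ p.w * r := Nat.mul_le_mul_right _ hw
  have hwR : 4 * R ≤ p.w * R := Nat.mul_le_mul_right _ hw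
  have hwrR : p.w * r ≤ p.w * R := Nat.mul_le_mul_left _ hrR
  have hI : FlF4.Ir Λ z r r (p.w * r) F :=
    ⟨le_rfl, by omega, hF.1.mono (bl_mono z (by omega)), FlF4.In_tame hΛ _ _ hF.2⟩
  have hgam : Nc.gam Λ r (p.w * r) ≤ 2 := (hG.gd.2.2 r h0 (by omega)).trans (by norm_num)
  have hnu : 0 ≤ FlF4.nu Λ z r (p.w * r) F := FlF4.nu_nonneg hΛ _ _ _ _
  have hgn : Nc.gam Λ r (p.w * r) * FlF4.nu Λ z r (p.w * r) F ≤ 2 * FlF4.nu Λ z r (p.w * r) F :=
    mul_le_mul_of_nonneg_right hgam hnu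
  have hR0 : (0 : ℝ) < R := by exact_mod_cast (show 0 < R by omega)
  have hD : 4 ≤ 4 * p.w ^ 4 := by
    have : 1 ≤ p.w ^ 4 := Nat.one_le_pow _ _ (by omega)
    omega
  have key : ∀ k : ℕ, R < (4 * p.w ^ 4) ^ k * (r + Λ.rg) →
      (1 / 2 : ℝ) ^ (k + 1) ≤ ((r : ℝ) / R) ^ cw p.w := by
    intro k hk
    refine half_pow_le (by omega) hR0 ?_
    have : R ≤ (4 * p.w ^ 4) ^ (k + 1) * r := by
      refine hk.le.trans ?_
      rw [pow_succ _ k, mul_assoc]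
      exact Nat.mul_le_mul_left _ (le_trans (by omega) (Nat.mul_le_mul_right r hD))
    exact_mod_cast this
  change FlF4.nu Λ z R (p.w * R) _ ≤ _ * FlF4.nu Λ z r (p.w * r) F
  have hex : ∃ k : ℕ, R < (4 * p.w ^ 4) ^ (k + 1) * (r + Λ.rg) := by
    refine ⟨R, ?_⟩
    have h3 : R + 1 < (4 * p.w ^ 4) ^ (R + 1) := Nat.lt_pow_self (by omega)
    exact lt_of_lt_of_le (by omega) (Nat.le_mul_of_pos_right _ (by omega))
  classical
  have hk := key _ (Nat.find_spec hex)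
  rcases hn : Nat.find hex with _ | n
  · rw [hn] at hk
    have hFd : DepG (bl z (p.w * R)) F := hF.1.mono (bl_mono z (by omega))
    have h3 := FlF4.nu_sub_le hΛ (q := R) (by omega : R + Λ.rg ≤ p.w * R) hFd
      (DepG.const _ (Ex (m.W 0) F)) (FlF4.In_tame hΛ _ _ hF.2)
      (FlF4.In_tame hΛ _ _ (Tame.const _))
    have h4 := FlF4.nu_up hΛ (q := r) (q' := R) le_rfl hI.rc hwrR hrR
      (by omega : R + Λ.rg ≤ p.w * R) hI.dep hI.ig
    have hm' : Nc.Amb Λ m (bl z (p.w * r)) := FlF4.amb_mono hm (bl_mono z hwrR)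
    have h5 := FlF4.fus0 hΛ hm'.sub hI hm' (bl_mono z (by omega))
    have h6 := FlF4.abs_ex_le_nc hm.ctr hm.anch hm'.sub h5.1
    rw [FlF4.nu_const hΛ] at h3
    have h7 := h5.2
    nlinarith
  · have hlt := Nat.find_min hex (m := n) (by omega)
    rw [hn] at hk
    have h3 := FlF4.dec_nu hΛ (g := 1 / 400) (by norm_num) (by norm_num) hG.gd (n := n)
      (a := r + Λ.rg) (R := R) (by omega) (not_lt.1 hlt) ((not_lt.1 hlt).trans (by omega)) hI le_rfl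
      (Nat.mul_le_mul_left _ (by omega)) (FlF4.amb_mono hm (bl_mono z (by omega))) le_rfl
      (by omega : R + Λ.rg ≤ p.w * R)
    have h4 : (200 * (1 / 400) : ℝ) ^ n = 8 * (1 / 2) ^ (n + 1 + 1 + 1) := by
      rw [show (200 * (1 / 400) : ℝ) = 1 / 2 by norm_num]
      ring
    rw [h4] at h3
    refine h3.trans ?_
    have h5 : (0 : ℝ) ≤ (1 / 2) ^ (n + 1 + 1 + 1) := by positivity
    calc _ ≤ 40 * (8 * (1 / 2) ^ (n + 1 + 1 + 1)) * (2 * FlF4.nu Λ z r (p.w * r) F) := by gcongr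
      _ = 640 * (1 / 2) ^ (n + 1 + 1 + 1) * FlF4.nu Λ z r (p.w * r) F := by ring
      _ ≤ _ := by gcongr

end Crest.Agent.T145.Fl
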