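import Crest.Agent.T145.Xi_22
import Crest.Agent.T145.RJa_57

/-!
# Row 145: flows of `A₀ u`, affine parts, Taylor expansion against `D4` kernels (helper22)
-/

set_option autoImplicit false

namespace Crest.Agent.T145.Xi

open Finset Pot Pot.Ha91

/-! ## flows -/

theorem ev_nn (i : Fin 2) : ev i ∈ nn := by fin_cases i <;> decide


/-- the gradient of `u` is a flow of `A₀ u` -/
theorem f2_A0 {Λ : Lat} (hΛ : Λ.Ok) {B : Finset Pt} {u : Pt → ℝ}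
    (h : ∀ i z, df i u z ≠ 0 → z ∈ B ∧ z + ev i ∈ B) :
    F2 (Λ.edI B) (A0 u) (∑ i, ∑ z ∈ B, df i u z ^ 2) := by
  refine RJ57.f2_congr (RJ57.nn_f2 hΛ B (fun i => df i u) h) (funext fun ⟨a, b⟩ => ?_)
  simp only [Fin.sum_univ_two, df, ev, A0, Matrix.cons_val_zero, Matrix.cons_val_one, sub_add_cancel,
    Prod.mk_add_mk, Prod.mk_sub_mk, add_zero, sub_zero, ← sub_eq_add_neg]
  ring

theorem f2_A0_le {Λ : Lat} (hΛ : Λ.Ok) {B : Finset Pt} {u : Pt → ℝ} {K : ℝ}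
    (h : ∀ y ∈ nn, ∀ z, dif y u z ≠ 0 → z ∈ B) (hK : ∀ y ∈ nn, ∀ z ∈ B, |dif y u z| ≤ K) :
    F2 (Λ.edI B) (A0 u) (2 * B.card * K ^ 2) := by
  refine RJ57.f2_mono (f2_A0 hΛ fun i z hz => ⟨h _ (ev_nn i) z hz, h (-ev i)
    (by fin_cases i <;> decide) _ ?_⟩) ?_
  · rwa [Pot.dif_neg, add_sub_cancel_right, neg_ne_zero]
  · have : ∀ i, ∑ z ∈ B, df i u z ^ 2 ≤ B.card * K ^ 2 := fun i => by
      rw [← nsmul_eq_mul]
      exact sum_le_card_nsmul _ _ _ fun z hz => by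
        rw [← sq_abs]; exact pow_le_pow_left₀ (abs_nonneg _) (hK _ (ev_nn i) z hz) 2
    rw [Fin.sum_univ_two]; linarith [this 0, this 1]

/-- constant off a ball -/
theorem f2_A0_bl {Λ : Lat} (hΛ : Λ.Ok) {z : Pt} {b : ℕ} {u : Pt → ℝ} {c K : ℝ}
    (hout : ∀ x, x ∉ bl z b → u x = c) (hK : ∀ y ∈ nn, ∀ x ∈ bl z (b + 1), |dif y u x| ≤ K) :
    F2 (Λ.edI (bl z (b + 1))) (A0 u) (2 * (2 * b + 3) ^ 2 * K ^ 2) := by
  refine RJ57.f2_mono (f2_A0_le hΛ (fun y hy x hx => by_contra fun h => hx ?_) hK) (le_of_eq ?_)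
  · rw [dif, hout _ (mem_bl_one_of h (nn_bl hy x)), hout _ (mem_bl_one_of h (self_mem_bl _ _)), sub_self]
  · rw [card_bl]; push_cast; ring

/-- constant inside and constant outside: a flow in the annulus -/
theorem f2_A0_an {Λ : Lat} (hΛ : Λ.Ok) {z : Pt} {a b : ℕ} {u : Pt → ℝ} {c c' K : ℝ}
    (hin : ∀ x ∈ bl z (a + 1), u x = c') (hout : ∀ x, x ∉ bl z b → u x = c)
    (hK : ∀ y ∈ nn, ∀ x ∈ bl z (b + 1) \ bl z a, |dif y u x| ≤ K) :
    F2 (Λ.edI (bl z (b + 1) \ bl z a)) (A0 u) (2 * (2 * b + 3) ^ 2 * K ^ 2) := by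
  refine RJ57.f2_mono (f2_A0_le hΛ (fun y hy x hx => mem_sdiff.2 ⟨by_contra fun h => hx ?_,
    fun h => hx ?_⟩) hK) ?_
  · rw [dif, hout _ (mem_bl_one_of h (nn_bl hy x)), hout _ (mem_bl_one_of h (self_mem_bl _ _)), sub_self]
  · rw [dif, hin _ (bl_subset_bl h (by omega) (nn_bl hy x)), hin _ (bl_mono _ (by omega) h), sub_self]
  · have : ((bl z (b + 1) \ bl z a).card : ℝ) ≤ (2 * b + 3) ^ 2 := by
      have := card_le_card (sdiff_subset (s := bl z (b + 1)) (t := bl z a))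
      rw [card_bl] at this
      exact_mod_cast this
    gcongr

/-! ## the affine part -/

/-- symmetric gradient -/
noncomputable def gs (y : Pt) (u : Pt → ℝ) (z : Pt) : ℝ := (u (z + y) - u (z - y)) / 2

/-- the affine part of `u` at `z` -/
noncomputable def aff (u : Pt → ℝ) (z x : Pt) : ℝ :=
  u z + ((x.1 : ℝ) - z.1) * gs (1, 0) u z + ((x.2 : ℝ) - z.2) * gs (0, 1) u z

/-- `u` minus its affine part at `z` -/
noncomputable def rem (u : Pt → ℝ) (z x : Pt) : ℝ := u x - aff u z x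

theorem rem_eq (u : Pt → ℝ) (z : Pt) : rem u z = u - aff u z := rfl



theorem rem_self (u : Pt → ℝ) (z : Pt) : rem u z z = 0 := by simp [rem, aff]




theorem dif_aff (y : Pt) (u : Pt → ℝ) (z : Pt) :
    dif y (aff u z) = fun _ => (y.1 : ℝ) * gs (1, 0) u z + y.2 * gs (0, 1) u z := by
  funext x; simp [dif, aff]; ring

theorem difs_rem {ys : List Pt} (h : 2 ≤ ys.length) (u : Pt → ℝ) (z : Pt) :
    difs ys (rem u z) = difs ys u := by
  obtain ⟨y, y', ys, rfl⟩ : ∃ y y' ys', ys = y :: y' :: ys' := by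
    match ys, h with
    | y :: y' :: ys', _ => exact ⟨y, y', ys', rfl⟩
  funext x
  rw [rem_eq, difs_sub, Pi.sub_apply, difs_cons' y _ (aff u z), dif_aff, difs_const, sub_zero]

theorem dif_rem_self {y : Pt} (hy : y ∈ nn) (u : Pt → ℝ) (z : Pt) :
    dif y (rem u z) z = -difs [y, -y] u z / 2 := by
  rcases mem_nn.1 hy with rfl | rfl | rfl | rfl <;>
    simp [difs, dif, rem, aff, gs, sub_eq_add_neg, add_assoc, Prod.mk_zero_zero] <;> ring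

theorem neg_nn {y : Pt} (hy : y ∈ nn) : -y ∈ nn := by
  rcases mem_nn.1 hy with rfl | rfl | rfl | rfl <;> decide

section tay
variable {u : Pt → ℝ} {z : Pt} {r : ℕ} {K : ℝ}

/-- gradient of the remainder -/
theorem abs_dif_rem (h : ∀ x ∈ bl z r, ∀ e ∈ nn, ∀ e' ∈ nn, |difs [e, e'] u x| ≤ K) {y x : Pt}
    (hy : y ∈ nn) (hx : x ∈ bl z r) : |dif y (rem u z) x| ≤ (2 * r + 1) * K := by
  obtain ⟨w, rfl⟩ : ∃ w, x = z + w := ⟨x - z, by simp⟩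
  have h1 := tay1 (u := dif y (rem u z)) (add_mem_bl.1 hx) (K := K) fun w hw => by
    have : ∀ e, dif e (dif y (rem u z)) = difs [e, y] u := fun e => difs_rem (ys := [e, y]) le_rfl u z
    rw [this, this]
    exact ⟨h _ (add_mem_bl.2 hw) _ e1_nn _ hy, h _ (add_mem_bl.2 hw) _ e2_nn _ hy⟩
  have h2 := h z (self_mem_bl _ _) _ hy _ (neg_nn hy)
  rw [dif_rem_self hy] at h1
  rw [abs_le] at *
  constructor <;> linarith [h1.1, h1.2, h2.1, h2.2]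

/-- size of the remainder -/
theorem abs_rem (h : ∀ x ∈ bl z r, ∀ e ∈ nn, ∀ e' ∈ nn, |difs [e, e'] u x| ≤ K) {x : Pt}
    (hx : x ∈ bl z r) : |rem u z x| ≤ 6 * (r : ℝ) ^ 2 * K := by
  obtain ⟨w, rfl⟩ : ∃ w, x = z + w := ⟨x - z, by simp⟩
  have hK : 0 ≤ K := (abs_nonneg _).trans (h z (self_mem_bl _ _) _ e1_nn _ e1_nn)
  have h1 := tay1 (u := rem u z) (add_mem_bl.1 hx) (K := (2 * r + 1) * K) fun w hw =>
    ⟨abs_dif_rem h e1_nn (add_mem_bl.2 hw), abs_dif_rem h e2_nn (add_mem_bl.2 hw)⟩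
  rw [rem_self, sub_zero] at h1
  rcases Nat.eq_zero_or_pos r with rfl | hr
  · simpa using h1
  · have : (1 : ℝ) ≤ r := by exact_mod_cast hr
    nlinarith [mul_nonneg hK (mul_nonneg (sub_nonneg.2 this) (Nat.cast_nonneg (α := ℝ) r))]

/-- second order Taylor expansion with symmetric coefficients -/
theorem tay_sym (h : ∀ x ∈ bl z (r + 1), ∀ e ∈ nn, ∀ e' ∈ nn, ∀ e'' ∈ nn, |difs [e, e', e''] u x| ≤ K)
    {y : Pt} (hy : y ∈ bl 0 r) :
    |rem u z (z + y) - (-(y.1 : ℝ) ^ 2 / 2 * difs [(1, 0), (-1, 0)] u z +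
      y.1 * y.2 * difs [(1, 0), (0, 1)] u z - (y.2 : ℝ) ^ 2 / 2 * difs [(0, 1), (0, -1)] u z)| ≤
      10 * (r : ℝ) ^ 3 * K := by
  have h1 := tay3 hy fun x hx => h x (bl_mono _ (Nat.le_succ _) hx)
  have h2 := h _ (bl_mono _ (by omega) (nn_bl (e := (-1, 0)) (by decide) z)) _ e1_nn _ e1_nn _ e1_nn
  have h3 := h _ (bl_mono _ (by omega) (nn_bl (e := (0, -1)) (by decide) z)) _ e2_nn _ e2_nn _ e2_nn
  have hK : 0 ≤ K := (abs_nonneg _).trans h2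
  obtain ⟨ha, hb⟩ : |y.1| ≤ r ∧ |y.2| ≤ r := by simpa [mem_bl_abs] using hy
  have key : ∀ a : ℤ, |a| ≤ r → |(a : ℝ) * (a - 1) / 2| ≤ (r : ℝ) ^ 3 := fun a ha => by
    rcases Nat.eq_zero_or_pos r with rfl | hr
    · have : a = 0 := by simpa using ha
      simp [this]
    · have h1 : (1 : ℝ) ≤ r := by exact_mod_cast hr
      have h2 : |(a : ℝ)| ≤ r := by exact_mod_cast ha
      have h3 : |(a : ℝ) - 1| ≤ 2 * r := by
        have := abs_sub (a : ℝ) 1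
        rw [abs_one] at this; linarith
      rw [abs_div, abs_mul, abs_two]
      nlinarith [mul_le_mul h2 h3 (abs_nonneg _) (by positivity), sq_nonneg (r : ℝ)]
  have h4 := mul_le_mul (key _ ha) h2 (abs_nonneg _) (by positivity)
  have h5 := mul_le_mul (key _ hb) h3 (abs_nonneg _) (by positivity)
  rw [← abs_mul] at h4 h5
  have e : rem u z (z + y) - (-(y.1 : ℝ) ^ 2 / 2 * difs [(1, 0), (-1, 0)] u z +
      y.1 * y.2 * difs [(1, 0), (0, 1)] u z - (y.2 : ℝ) ^ 2 / 2 * difs [(0, 1), (0, -1)] u z) =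
      (u (z + y) - u z - (y.1 * dif (1, 0) u z + y.2 * dif (0, 1) u z) -
      ((y.1 : ℝ) * (y.1 - 1) / 2 * difs [(1, 0), (1, 0)] u z +
        y.1 * y.2 * difs [(1, 0), (0, 1)] u z +
        (y.2 : ℝ) * (y.2 - 1) / 2 * difs [(0, 1), (0, 1)] u z)) +
      (y.1 : ℝ) * (y.1 - 1) / 2 * difs [(1, 0), (1, 0), (1, 0)] u (z + (-1, 0)) +
      (y.2 : ℝ) * (y.2 - 1) / 2 * difs [(0, 1), (0, 1), (0, 1)] u (z + (0, -1)) := by
    generalize difs [(1, 0), (0, 1)] u z = q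
    simp only [difs, dif, rem, aff, gs, sub_eq_add_neg z, add_assoc z, Prod.mk_add_mk, Prod.neg_mk,
      Prod.fst_add, Prod.snd_add]
    norm_num [Prod.mk_zero_zero]
    ring
  rw [e]
  rw [abs_le] at *
  constructor <;> linarith [h1.1, h1.2, h4.1, h4.2, h5.1, h5.2]

end tay

/-! ## `D4` symmetric kernels -/

/-- invariant under the symmetries of the square -/
structure Sy4 (K : Pt → ℝ) : Prop where
  swap : ∀ x, K x.swap = K x
  neg_fst : ∀ x : Pt, K (-x.1, x.2) = K x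

theorem Sy4.neg_snd {K : Pt → ℝ} (h : Sy4 K) (x : Pt) : K (x.1, -x.2) = K x := by
  rw [← h.swap, ← h.swap x]; exact h.neg_fst x.swap
theorem Sy4.neg {K : Pt → ℝ} (h : Sy4 K) (x : Pt) : K (-x) = K x :=
  (h.neg_fst (x.1, -x.2)).trans (h.neg_snd x)
theorem Sy4.mul {K K' : Pt → ℝ} (h : Sy4 K) (h' : Sy4 K') : Sy4 fun x => K x * K' x :=
  ⟨fun x => by rw [h.swap, h'.swap], fun x => by rw [h.neg_fst, h'.neg_fst]⟩
theorem Sy4.add {K K' : Pt → ℝ} (h : Sy4 K) (h' : Sy4 K') : Sy4 fun x => K x + K' x :=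
  ⟨fun x => by rw [h.swap, h'.swap], fun x => by rw [h.neg_fst, h'.neg_fst]⟩
theorem Sy4.sub {K K' : Pt → ℝ} (h : Sy4 K) (h' : Sy4 K') : Sy4 fun x => K x - K' x :=
  ⟨fun x => by rw [h.swap, h'.swap], fun x => by rw [h.neg_fst, h'.neg_fst]⟩
theorem Sy4.comp {K : Pt → ℝ} (h : Sy4 K) (f : ℝ → ℝ) : Sy4 fun x => f (K x) :=
  ⟨fun x => by rw [h.swap], fun x => by rw [h.neg_fst]⟩
theorem Sy4.const (c : ℝ) : Sy4 fun _ => c := ⟨fun _ => rfl, fun _ => rfl⟩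
theorem Sy4.a0 {K : Pt → ℝ} (h : Sy4 K) : Sy4 (A0 K) := ⟨A0_swap h.swap, A0_neg_fst h.neg_fst⟩
theorem Sy4.d4 {K : Pt → ℝ} (h : Sy4 K) (z : Pt) (g : ℝ → ℝ) :
    D4 z fun s => g (pr (fun x => K (x - z)) s) := d4_pr h.swap h.neg_fst z g
/-- from invariance under `rotZ 0` and `swpZ 0` -/
theorem Sy4.of {K : Pt → ℝ} (h1 : ∀ x, K (rotZ 0 x) = K x) (h2 : ∀ x, K (swpZ 0 x) = K x) : Sy4 K := by
  have h3 : ∀ x : Pt, K x.swap = K x := fun x => by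
    rw [← h2 x]; congr 1; ext <;> simp [swpZ]
  refine ⟨h3, fun x => ?_⟩
  rw [← h3 x, ← h1 x.swap]; congr 1; ext <;> simp [rotZ]
theorem sy4_Phi (r : ℝ) : Sy4 (Phi r) := ⟨Phi_swap r, Phi_neg_fst r⟩
theorem sy4_xi (r : ℝ) : Sy4 (xi r) := ⟨xi_swap r, xi_neg_fst r⟩
theorem sy4_pk : Sy4 pk := ⟨pk_swap, pk_neg_fst⟩

theorem sum_bl_swap (n : ℕ) (f : Pt → ℝ) : ∑ x ∈ bl 0 n, f x.swap = ∑ x ∈ bl 0 n, f x :=
  sum_equiv (Equiv.prodComm ℤ ℤ) (fun x => by simp [mem_bl_abs, and_comm]) fun _ _ => rfl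

theorem sum_bl_neg_fst (n : ℕ) (f : Pt → ℝ) : ∑ x ∈ bl 0 n, f (-x.1, x.2) = ∑ x ∈ bl 0 n, f x :=
  sum_equiv ((Equiv.neg ℤ).prodCongr (Equiv.refl ℤ)) (fun x => by simp [mem_bl_abs]) fun _ _ => rfl

theorem sum_bl_neg (n : ℕ) (f : Pt → ℝ) : ∑ x ∈ bl 0 n, f (-x) = ∑ x ∈ bl 0 n, f x :=
  sum_equiv (Equiv.neg Pt) (fun x => by simp [mem_bl_abs]) fun _ _ => rfl

/-- the sup norm radius -/
def rad (y : Pt) : ℕ := max y.1.natAbs y.2.natAbs

theorem rad_le {y : Pt} {n : ℕ} : rad y ≤ n ↔ y ∈ bl 0 n := by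
  rw [mem_bl, rad, max_le_iff, Prod.fst_zero, Prod.snd_zero]; omega
theorem mem_bl_rad (y : Pt) : y ∈ bl 0 (rad y) := rad_le.1 le_rfl
theorem rad_le_eu (y : Pt) : (rad y : ℝ) ≤ eu y := by
  have h : ∀ a : ℤ, ((a.natAbs : ℕ) : ℝ) = |(a : ℝ)| := fun a => by
    rw [← Int.cast_natCast, Int.natCast_natAbs, Int.cast_abs]
  rw [rad, Nat.cast_max, h, h]
  exact max_le (abs_fst_le_eu y) (abs_snd_le_eu y)

namespace Sy4
variable {K : Pt → ℝ} (h : Sy4 K) (n : ℕ)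
include h

theorem sum_fst : ∑ w ∈ bl 0 n, K w * w.1 = 0 := by
  have := sum_bl_neg_fst n fun w => K w * w.1
  simp only [h.neg_fst, Int.cast_neg, mul_neg, sum_neg_distrib] at this
  linarith

theorem sum_snd : ∑ w ∈ bl 0 n, K w * w.2 = 0 := by
  have := sum_bl_swap n fun w => K w * w.1
  simp only [h.swap, Prod.fst_swap] at this
  rw [this, h.sum_fst]

theorem sum_mixed : ∑ w ∈ bl 0 n, K w * (w.1 * w.2) = 0 := by
  have := sum_bl_neg_fst n fun w => K w * (w.1 * w.2)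
  simp only [h.neg_fst, Int.cast_neg, mul_neg, neg_mul, sum_neg_distrib] at this
  linarith

theorem sum_sq_snd : ∑ w ∈ bl 0 n, K w * (w.2 : ℝ) ^ 2 = ∑ w ∈ bl 0 n, K w * (w.1 : ℝ) ^ 2 := by
  simpa only [h.swap, Prod.fst_swap] using sum_bl_swap n fun w => K w * (w.1 : ℝ) ^ 2

theorem sum_sq_fst : ∑ w ∈ bl 0 n, K w * (w.1 : ℝ) ^ 2 = (∑ w ∈ bl 0 n, K w * eu w ^ 2) / 2 := by
  simp only [eu_sq, mul_add, sum_add_distrib, h.sum_sq_snd]; ring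

/-- a symmetric kernel does not see the linear part -/
theorem sum_aff (u : Pt → ℝ) (z : Pt) :
    ∑ w ∈ bl 0 n, K w * aff u z (z + w) = (∑ w ∈ bl 0 n, K w) * u z := by
  have : ∀ w : Pt, K w * aff u z (z + w) =
      K w * u z + K w * w.1 * gs (1, 0) u z + K w * w.2 * gs (0, 1) u z := fun w => by
    simp [aff]; ring
  simp only [this, sum_add_distrib, ← sum_mul, h.sum_fst, h.sum_snd]; ring

/-- **Taylor expansion against a `D4` kernel** -/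
theorem tay {u : Pt → ℝ} {z : Pt} {k₃ : ℝ}
    (h3 : ∀ x ∈ bl z (n + 1), ∀ e ∈ nn, ∀ e' ∈ nn, ∀ e'' ∈ nn, |difs [e, e', e''] u x| ≤ k₃) :
    |∑ w ∈ bl 0 n, K w * rem u z (z + w) - -(1 / 4) * (∑ w ∈ bl 0 n, K w * eu w ^ 2) * A0 u z| ≤
      10 * k₃ * ∑ w ∈ bl 0 n, |K w| * eu w ^ 3 := by
  have hk : 0 ≤ k₃ := (abs_nonneg _).trans (h3 z (self_mem_bl _ _) _ e1_nn _ e1_nn _ e1_nn)
  have e : -(1 / 4) * (∑ w ∈ bl 0 n, K w * eu w ^ 2) * A0 u z = ∑ w ∈ bl 0 n, K w *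
      (-(w.1 : ℝ) ^ 2 / 2 * difs [(1, 0), (-1, 0)] u z +
      w.1 * w.2 * difs [(1, 0), (0, 1)] u z - (w.2 : ℝ) ^ 2 / 2 * difs [(0, 1), (0, -1)] u z) := by
    have h1 : A0 u z = difs [(1, 0), (-1, 0)] u z + difs [(0, 1), (0, -1)] u z := by
      simp [A0, difs, dif, add_assoc, Prod.mk_zero_zero]; ring
    have h2 : ∀ (w : Pt) (a b c : ℝ), K w * (-(w.1 : ℝ) ^ 2 / 2 * a + w.1 * w.2 * b - (w.2 : ℝ) ^ 2 / 2 * c) =
        K w * (w.1 : ℝ) ^ 2 * (-a / 2) + K w * (w.1 * w.2) * b + K w * (w.2 : ℝ) ^ 2 * (-c / 2) :=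
      fun w a b c => by ring
    simp only [h2, sum_add_distrib, ← sum_mul, h.sum_mixed, h.sum_sq_snd, h.sum_sq_fst, h1]
    ring
  rw [e, ← sum_sub_distrib, mul_sum]
  refine (abs_sum_le_sum_abs _ _).trans (sum_le_sum fun w hw => ?_)
  rw [← mul_sub, abs_mul]
  have h1 := tay_sym (fun x hx => h3 x (bl_mono _ (Nat.succ_le_succ (rad_le.2 hw)) hx)) (mem_bl_rad w)
  have h2 := rad_le_eu w
  calc _ ≤ |K w| * (10 * eu w ^ 3 * k₃) := by
        refine mul_le_mul_of_nonneg_left (h1.trans ?_) (abs_nonneg _)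
        gcongr
    _ = _ := by ring

end Sy4

/-! ## smoothness from the second order on; cut pieces of the remainder -/

/-- all differences of order `2 ≤ j ≤ k` are `≤ K / ℓ ^ (j - 2)` on `S` -/
def SmH (k : ℕ) (S : Set Pt) (K ℓ : ℝ) (u : Pt → ℝ) : Prop :=
  ∀ ys : List Pt, 2 ≤ ys.length → ys.length ≤ k → (∀ y ∈ ys, y ∈ nn) → ∀ z ∈ S,
    |difs ys u z| ≤ K / ℓ ^ (ys.length - 2)

section smH
variable {k : ℕ} {S S' : Set Pt} {K K' C ℓ : ℝ} {u v : Pt → ℝ}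

theorem Sm.smH (h : Sm k S C ℓ u) : SmH k S (C / ℓ ^ 2) ℓ u := fun ys h0 h1 h2 z hz => by
  rw [div_div, ← pow_add, Nat.add_sub_cancel' h0]; exact h ys h1 h2 z hz

theorem SmH.two (h : SmH k S K ℓ u) (hk : 2 ≤ k) {z : Pt} (hz : z ∈ S) :
    ∀ e ∈ nn, ∀ e' ∈ nn, |difs [e, e'] u z| ≤ K := fun e he e' he' => by
  simpa using h [e, e'] le_rfl hk (by simp [he, he']) z hz

theorem SmH.three (h : SmH k S K ℓ u) (hk : 3 ≤ k) {z : Pt} (hz : z ∈ S) :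
    ∀ e ∈ nn, ∀ e' ∈ nn, ∀ e'' ∈ nn, |difs [e, e', e''] u z| ≤ K / ℓ := fun e he e' he' e'' he'' => by
  simpa using h [e, e', e''] (by simp) hk (by simp [he, he', he'']) z hz

theorem SmH.mono (h : SmH k S K ℓ u) {k' : ℕ} (hk : k' ≤ k) (hS : S' ⊆ S) (hK : K ≤ K') (hℓ : 0 < ℓ) :
    SmH k' S' K' ℓ u := fun ys h0 h1 h2 z hz =>
  (h ys h0 (h1.trans hk) h2 z (hS hz)).trans (by gcongr)

theorem SmH.scale (h : SmH k S K ℓ u) (hK : 0 ≤ K) {ℓ' : ℝ} (h0 : 0 < ℓ') (hℓ : ℓ' ≤ ℓ) :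
    SmH k S K ℓ' u := fun ys h3 h1 h2 z hz => (h ys h3 h1 h2 z hz).trans (by gcongr)

theorem SmH.add (h : SmH k S K ℓ u) (h' : SmH k S K' ℓ v) : SmH k S (K + K') ℓ (u + v) :=
  fun ys h0 h1 h2 z hz => by
    rw [difs_add, add_div]
    exact (abs_add_le _ _).trans (add_le_add (h ys h0 h1 h2 z hz) (h' ys h0 h1 h2 z hz))

theorem SmH.sub (h : SmH k S K ℓ u) (h' : SmH k S K' ℓ v) : SmH k S (K + K') ℓ (u - v) :=
  fun ys h0 h1 h2 z hz => by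
    rw [difs_sub, add_div]
    exact (abs_sub _ _).trans (add_le_add (h ys h0 h1 h2 z hz) (h' ys h0 h1 h2 z hz))

theorem SmH.smul (h : SmH k S K ℓ u) (c : ℝ) : SmH k S (|c| * K) ℓ (c • u) :=
  fun ys h0 h1 h2 z hz => by
    rw [difs_smul, Pi.smul_apply, smul_eq_mul, abs_mul, mul_div_assoc]
    exact mul_le_mul_of_nonneg_left (h ys h0 h1 h2 z hz) (abs_nonneg _)

theorem SmH.shift (h : SmH k S K ℓ u) (a : Pt) (hS : ∀ z ∈ S', z + a ∈ S) :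
    SmH k S' K ℓ fun w => u (w + a) := fun ys h0 h1 h2 z hz => by
  rw [difs_shift]; exact h ys h0 h1 h2 _ (hS z hz)

theorem SmH.rem (h : SmH k S K ℓ u) (z : Pt) : SmH k S K ℓ (rem u z) := fun ys h0 h1 h2 x hx => by
  rw [difs_rem h0]; exact h ys h0 h1 h2 x hx

theorem SmH.abs_A0 (h : SmH k S K ℓ u) (hk : 2 ≤ k) {z : Pt} (hz : z ∈ S) : |A0 u z| ≤ 2 * K := by
  have h1 : A0 u z = difs [(1, 0), (-1, 0)] u z + difs [(0, 1), (0, -1)] u z := by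
    simp [A0, difs, dif, add_assoc, Prod.mk_zero_zero]; ring
  rw [h1, two_mul]
  exact (abs_add_le _ _).trans (add_le_add (h.two hk hz _ (by decide) _ (by decide))
    (h.two hk hz _ (by decide) _ (by decide)))


end smH









end Crest.Agent.T145.Xi
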