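import Crest.Agent.T145.EvDef_2
import Crest.Agent.T145.FlBare_80
import Crest.Agent.T145.FlSXa_44
import Crest.Agent.T145.Route_51
import Crest.Agent.T145.FlSw_22

-- ▼ part T145/EvCg_51
section

/-!
# Row 145, the even sector: CG (helper51)
-/

set_option autoImplicit false

namespace Crest.Agent.T145.Ev

open Finset Real Fl Xi

namespace Cg51

theorem abs_sub_sin (x : ℝ) : |x - sin x| ≤ x ^ 2 := by
  rw [← sq_abs]
  by_cases h : |x| ≤ 6
  · refine (abs_sub_sin_le x).trans ?_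
    nlinarith [mul_le_mul_of_nonneg_right h (sq_nonneg |x|)]
  · have := abs_sub x (sin x)
    have := abs_sin_le_one x
    nlinarith

theorem sn_near {a : ℝ} (ha : 0 < a) (x : ℝ) : |x - sin (a * x) / a| ≤ a * x ^ 2 ∧ |sin (a * x) / a| ≤ |x| := by
  constructor
  · rw [show x - sin (a * x) / a = (a * x - sin (a * x)) / a by field_simp, abs_div, abs_of_pos ha,
      div_le_iff₀ ha]
    exact (abs_sub_sin _).trans_eq (by ring)
  · rw [abs_div, abs_of_pos ha, div_le_iff₀' ha]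
    exact abs_sin_le_abs.trans_eq (by rw [abs_mul, abs_of_pos ha])

/-- linear factors from small shifts of the phase -/
theorem core {α : Type} {W A A' θ : α → ℝ} {a δ B : ℝ} (hW : Wt W) (ha : 0 < a)
    (i2 : Ig W fun s => A s ^ 2) (i4 : Ig W fun s => A s ^ 4) (j2 : Ig W fun s => A' s ^ 2)
    (j4 : Ig W fun s => A' s ^ 4) (b2 : Ex W (fun s => A s ^ 2) ≤ B) (b4 : Ex W (fun s => A s ^ 4) ≤ B)
    (c2 : Ex W (fun s => A' s ^ 2) ≤ B) (c4 : Ex W (fun s => A' s ^ 4) ≤ B)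
    (h : ∀ σ σ' ψ : ℝ, |σ| ≤ a → |σ'| ≤ a → |Ex W fun s => cos (θ s + σ * A s + σ' * A' s + ψ)| ≤ δ) :
    |Ex W fun s => A s * cos (θ s)| ≤ δ / a + a * B ∧
      |Ex W fun s => A s * A' s * cos (θ s)| ≤ δ / a ^ 2 + 2 * (a * B) := by
  have ic : ∀ σ σ' ψ : ℝ, Ig W fun s => cos (θ s + σ * A s + σ' * A' s + ψ) := fun _ _ _ =>
    hW.ig_bdd fun _ => abs_cos_le_one _
  have p : |a| ≤ a := (abs_of_pos ha).le
  have n : |-a| ≤ a := by rwa [abs_neg]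
  have z : |(0 : ℝ)| ≤ a := by rw [abs_zero]; exact ha.le
  have tr : ∀ {F G H : α → ℝ} {x y : ℝ}, Ig W G → Ig W H → (∀ s, |F s - G s| ≤ H s) → |Ex W G| ≤ x →
      Ex W H ≤ y → |Ex W F| ≤ x + y := fun {F G H x y} iG iH e hx hy => by
    have iD : Ig W fun s => F s - G s := iH.of_abs_le hW.nonneg fun s _ => e s
    rw [show F = fun s => G s + (F s - G s) from funext fun s => by ring, Ex_add iG iD]
    exact (abs_add_le _ _).trans (add_le_add hx ((abs_Ex_le hW.nonneg iD).trans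
      ((Ex_mono hW.nonneg (iD.abs hW.nonneg) iH e).trans hy)))
  constructor
  · refine tr (G := fun s => (cos (θ s + a * A s + 0 * A' s + -(π / 2)) -
      cos (θ s + -a * A s + 0 * A' s + -(π / 2))) / (2 * a)) (((ic _ _ _).sub (ic _ _ _)).div_const _)
      (i2.const_mul a) (fun s => ?_) ?_ ?_
    · rw [← sub_eq_add_neg, ← sub_eq_add_neg, cos_sub_pi_div_two, cos_sub_pi_div_two, zero_mul, add_zero,
        add_zero, neg_mul, ← sub_eq_add_neg, sin_add, sin_sub,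
        show ∀ x y c : ℝ, A s * c - (x + c * y - (x - c * y)) / (2 * a) = (A s - y / a) * c from
          fun _ _ _ => by field_simp; ring, abs_mul]
      exact (mul_le_of_le_one_right (abs_nonneg _) (abs_cos_le_one _)).trans (sn_near ha _).1
    · rw [Ex_div_const, Ex_sub (ic _ _ _) (ic _ _ _), abs_div, abs_of_pos (by positivity : 0 < 2 * a),
        div_le_div_iff₀ (by positivity) ha]
      have := (abs_sub _ _).trans (add_le_add (h _ _ (-(π / 2)) p z) (h _ _ (-(π / 2)) n z))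
      nlinarith
    · rw [Ex_const_mul]; exact mul_le_mul_of_nonneg_left b2 ha.le
  · refine tr (G := fun s => (cos (θ s + a * A s + -a * A' s + 0) + cos (θ s + -a * A s + a * A' s + 0) -
      (cos (θ s + a * A s + a * A' s + 0) + cos (θ s + -a * A s + -a * A' s + 0))) / (4 * a ^ 2))
      ((((ic _ _ _).add (ic _ _ _)).sub ((ic _ _ _).add (ic _ _ _))).div_const _)
      (((i4.add j2).add (i2.add j4)).const_mul (a / 2)) (fun s => ?_) ?_ ?_
    · have e : (cos (θ s + a * A s + -a * A' s + 0) + cos (θ s + -a * A s + a * A' s + 0) -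
          (cos (θ s + a * A s + a * A' s + 0) + cos (θ s + -a * A s + -a * A' s + 0))) / (4 * a ^ 2) =
          sin (a * A s) / a * (sin (a * A' s) / a) * cos (θ s) := by
        simp only [add_zero, neg_mul, cos_add, sin_add, cos_neg, sin_neg]; field_simp; ring
      rw [e, ← sub_mul, abs_mul]
      refine (mul_le_of_le_one_right (abs_nonneg _) (abs_cos_le_one _)).trans ?_
      obtain ⟨u1, u2⟩ := sn_near ha (A s)
      obtain ⟨v1, -⟩ := sn_near ha (A' s)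
      generalize sin (a * A s) / a = x at *
      generalize sin (a * A' s) / a = y at *
      rw [show A s * A' s - x * y = (A s - x) * A' s + x * (A' s - y) by ring]
      refine (abs_add_le _ _).trans ?_
      rw [abs_mul, abs_mul]
      have w1 := mul_le_mul_of_nonneg_right u1 (abs_nonneg (A' s))
      have w2 := mul_le_mul u2 v1 (abs_nonneg _) (abs_nonneg _)
      have w3 := mul_nonneg ha.le (sq_nonneg (A s ^ 2 - |A' s|))
      have w4 := mul_nonneg ha.le (sq_nonneg (A' s ^ 2 - |A s|))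
      have w5 := congrArg (a * ·) (sq_abs (A s))
      have w6 := congrArg (a * ·) (sq_abs (A' s))
      nlinarith
    · rw [Ex_div_const, Ex_sub ((ic _ _ _).add (ic _ _ _)) ((ic _ _ _).add (ic _ _ _)),
        Ex_add (ic _ _ _) (ic _ _ _), Ex_add (ic _ _ _) (ic _ _ _), abs_div,
        abs_of_pos (by positivity : 0 < 4 * a ^ 2), div_le_div_iff₀ (by positivity) (by positivity)]
      have := (abs_sub _ _).trans (add_le_add ((abs_add_le _ _).trans (add_le_add (h _ _ 0 p n) (h _ _ 0 n p)))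
        ((abs_add_le _ _).trans (add_le_add (h _ _ 0 p p) (h _ _ 0 n n))))
      nlinarith [pow_pos ha 2]
    · rw [Ex_const_mul, Ex_add (i4.add j2) (i2.add j4), Ex_add i4 j2, Ex_add i2 j4]
      nlinarith

/-- the energy of an admissible test function -/
theorem E0_le {R M : ℝ} {v : Pt → ℝ} (hR : 1 ≤ R) (hM : 1 ≤ M) (h : Sv R M v) :
    E0 (bl 0 ⌊M * R⌋₊) v ≤ 54 * M ^ 6 := by
  refine (B80.E0_le h.1 (k := M / (R / M) ^ 1) fun e he x _ =>
    h.2 [e] (by simp) (by simpa using he) x trivial).trans ?_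
  have a : (⌊M * R⌋₊ : ℝ) ≤ M * R := Nat.floor_le (by positivity)
  have b : 1 ≤ M * R := one_le_mul_of_one_le_of_one_le hM hR
  rw [card_bl]; push_cast
  refine (mul_le_mul_of_nonneg_left (pow_le_pow_left₀ (by positivity)
    (by linarith : 2 * (⌊M * R⌋₊ : ℝ) + 1 ≤ 3 * (M * R)) 2) (by positivity)).trans_eq ?_
  field_simp; norm_num

end Cg51

open Cg51 in
theorem cgStmt (hC : CmStmt) : CgStmt := fun p => by
  obtain ⟨Cm, Cm0, hC⟩ := hC p
  obtain ⟨k, hk⟩ := exists_nat_ge (2 * Cm)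
  obtain ⟨K, hK⟩ : ∃ K, K = 24 * exp p.F.τ₂ * 54 ^ 2 := ⟨_, rfl⟩
  have K0 : 0 < K := by rw [hK]; positivity
  have e1 := one_le_exp Cm0
  have e2 := le_mul_of_one_le_right Cm0 e1
  refine ⟨2 + 2 * K + Cm * exp Cm, k + 26, by linarith, ?_⟩
  intro Λ ω L N E R Y M hM g1 _ M2 h1 h2 q f v v' φ q0 q3 hf hv hv'
  have ok := E.mem.ok
  have Y0 := SX44.Y_pos hM
  have R1 := hM.1
  have M1 : 1 ≤ M := by linarith
  have n1 : M ≤ M ^ (k + 26) := le_self_pow₀ M1 (by omega)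
  obtain ⟨C, hC'⟩ : ∃ C, C = 2 + 2 * K + Cm * exp Cm := ⟨_, rfl⟩
  rw [← hC'] at h1 h2 ⊢
  have CM : 2 * M ≤ C * M ^ (k + 26) := mul_le_mul (by linarith) n1 (by linarith) (by linarith)
  have CC : C ≤ C * M ^ (k + 26) := le_mul_of_one_le_right (by linarith) (by linarith)
  have CY : C * Y ≤ 1 := (mul_le_mul_of_nonneg_right CC Y0.le).trans h1
  have Y1 : Y ≤ 1 := by nlinarith
  have CR : C ≤ R := by
    have a : C ≤ 1 / Y := (le_div_iff₀ Y0).2 CY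
    exact a.trans ((le_self_pow₀ (by linarith) (by norm_num)).trans (SX44.R_ge hM))
  have RL : 2 * M * R ≤ L := (mul_le_mul_of_nonneg_right CM (by linarith)).trans h2
  have MR : R ≤ M * R := le_mul_of_one_le_left (by linarith) M1
  have LN := E.le
  have u1 : ⌊M * R⌋₊ + 1 ≤ N := by
    have : (⌊M * R⌋₊ : ℝ) + 1 ≤ L := by linarith [Nat.floor_le (by linarith : 0 ≤ M * R)]
    have : ⌊M * R⌋₊ + 1 ≤ L := by exact_mod_cast this
    omega
  have u2 : ⌈2 * R⌉₊ ≤ N := (Nat.ceil_le.2 (by linarith)).trans LN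
  have cm := (hC Λ ω L N E R Y hM Y1 (by linarith)
    ((mul_le_mul_of_nonneg_right (by linarith) (by linarith)).trans h2) g1 (by nlinarith) q q0 q3).2 0
  obtain ⟨m, hm, hr⟩ := E.amb 0
  have up : ∀ {g : Pt → ℝ} {b : ℝ} {n : ℕ}, n ≤ N → F2 (nnL.edI (bl 0 n)) g b → F2 (nnL.edI (bl 0 N)) g b :=
    fun h hg => hg.subset (Lat.edI_mono (bl_mono _ h))
  have fv : ∀ {u : Pt → ℝ}, Sv R M u → F2 (nnL.edI (bl 0 N)) (A0 u) (54 * M ^ 6) := fun h =>
    RJ57.f2_mono (up u1 (B80.f2_A0 h.1)) (E0_le R1 M1 h)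
  have cq : ∀ {g : Pt → ℝ} {b : ℝ}, F2 (nnL.edI (bl 0 N)) g b → Chq (bl 0 N) ((q : ℝ) • xi R + g) (q * 1 + 0) :=
    fun h => ((chq_xi (by linarith) ((Nat.le_ceil _).trans (Nat.cast_le.2 u2))).zsmul q).add (chq_flow h)
  have f0 := up (by omega) hf
  have dX : ∀ {u : Pt → ℝ}, Sv R M u → DepG (bl 0 N) (X u) := fun h => (ins_A0 h.1 u1).1
  have M6 : 1 ≤ 54 * M ^ 6 := by linarith [one_le_pow₀ (n := 6) M1]
  have mo : ∀ {u : Pt → ℝ}, Sv R M u → Ex (m.W 0) (fun s => X u s ^ 2) ≤ K * M ^ 12 ∧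
      Ex (m.W 0) (fun s => X u s ^ 4) ≤ K * M ^ 12 := fun h => by
    obtain ⟨a, b⟩ := (B80.mo_amb ok hm subset_rfl (fv h)).fin (by positivity) E.mem.tau_le
    have e : K * M ^ 12 = 24 * exp p.F.τ₂ * (54 * M ^ 6) ^ 2 := by rw [hK]; ring
    rw [e]
    exact ⟨a.trans (mul_le_mul_of_nonneg_left (le_self_pow₀ M6 two_ne_zero) (by positivity)), b⟩
  have cen := (B80.mo_amb ok hm subset_rfl f0).cen
  obtain ⟨δ, hδ⟩ : ∃ δ, δ = Cm * exp Cm * (M ^ k * Y ^ (1 / 4 : ℝ)) := ⟨_, rfl⟩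
  have key : ∀ σ σ' ψ : ℝ, |σ| ≤ (M ^ 13)⁻¹ → |σ'| ≤ (M ^ 13)⁻¹ → |Ex (m.W 0) fun s =>
      cos (2 * π * pr ((q : ℝ) • xi R + f) s + φ + σ * X v s + σ' * X v' s + ψ)| ≤ δ := fun σ σ' ψ s1 s2 => by
    have sm : ∀ {t : ℝ}, |t| ≤ (M ^ 13)⁻¹ → (t / (2 * π)) ^ 2 * (54 * M ^ 6) ≤ 1 / 8 := fun {t} ht => by
      have a : t ^ 2 ≤ (M ^ 13)⁻¹ ^ 2 := by rw [← sq_abs]; exact pow_le_pow_left₀ (abs_nonneg _) ht 2
      have b : (t / (2 * π)) ^ 2 ≤ t ^ 2 := by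
        rw [div_pow]; exact div_le_self (sq_nonneg _) (one_le_pow₀ (by linarith [pi_gt_three]))
      refine (mul_le_mul_of_nonneg_right (b.trans a) (by positivity)).trans ?_
      rw [show (M ^ 13)⁻¹ ^ 2 * (54 * M ^ 6) = 54 / M ^ 20 by field_simp, div_le_iff₀ (by positivity)]
      linarith [pow_le_pow_left₀ zero_le_two M2 20]
    have fl := RJ57.f2_mono (RJ57.f2_add f0 (RJ57.f2_add (RJ57.f2_smul (σ / (2 * π)) (fv hv))
      (RJ57.f2_smul (σ' / (2 * π)) (fv hv')))) (by linarith [sm s1, sm s2] : _ ≤ 2 * log M + 1)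
    have := cm _ _ (φ + ψ) (bl_mono _ u2) fl
    rw [hr _ (depG_cp (cq fl) _)] at this
    refine (le_of_eq (congrArg abs (Ex_congr fun s _ => ?_))).trans (this.trans ?_)
    · simp only [cp, X, pr_add, pr_smul, AddMonoidHom.add_apply, AddMonoidHom.smul_apply, smul_eq_mul]
      congr 1; field_simp; ring
    · have a : √Y ≤ Y ^ (1 / 4 : ℝ) := by
        rw [sqrt_eq_rpow]; exact rpow_le_rpow_of_exponent_ge Y0 Y1 (by norm_num)
      have b : exp (Cm * (2 * log M + 1)) ≤ exp Cm * M ^ k := by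
        rw [← rpow_natCast, rpow_def_of_pos (by linarith), ← exp_add, exp_le_exp]
        nlinarith [mul_le_mul_of_nonneg_left hk (log_nonneg M1)]
      rw [hδ]
      exact (mul_le_mul (mul_le_mul_of_nonneg_left a Cm0) b (exp_pos _).le (by positivity)).trans_eq (by ring)
  have a0 : 0 < (M ^ 13)⁻¹ := by positivity
  have tX : ∀ (u : Pt → ℝ) (j : ℕ), Ig (m.W 0) fun s => X u s ^ j := fun u j => cen.ig ((tame_pr _).pow j)
  obtain ⟨c1, c2⟩ := core cen.wt a0 (tX v 2) (tX v 4) (tX v' 2) (tX v' 4) (mo hv).1 (mo hv).2 (mo hv').1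
    (mo hv').2 key
  have c0 := key 0 0 0 (by simpa using a0.le) (by simpa using a0.le)
  simp only [zero_mul, add_zero] at c0
  have dc := depG_cp (cq f0) φ
  rw [hr _ dc, hr _ ((dX hv).mul dc), hr _ (((dX hv).mul (dX hv')).mul dc)]
  have δ0 : 0 ≤ δ := (abs_nonneg _).trans c0
  have z1 : (M ^ 13)⁻¹ * (K * M ^ 12) = K * (1 / M) := by field_simp
  have z2 : δ / (M ^ 13)⁻¹ ^ 2 = δ * M ^ 26 := by field_simp
  have z3 : δ / (M ^ 13)⁻¹ ≤ δ * M ^ 26 := by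
    rw [div_inv_eq_mul]; exact mul_le_mul_of_nonneg_left (pow_le_pow_right₀ M1 (by norm_num)) δ0
  have z4 : δ ≤ δ * M ^ 26 := le_mul_of_one_le_right δ0 (one_le_pow₀ M1)
  have z5 : δ * M ^ 26 ≤ C * (M ^ (k + 26) * Y ^ (1 / 4 : ℝ)) := by
    rw [hδ, mul_assoc, mul_right_comm (M ^ k), ← pow_add]
    exact mul_le_mul_of_nonneg_right (by linarith) (by positivity)
  have z6 : 2 * K * (1 / M) ≤ C * (1 / M) := mul_le_mul_of_nonneg_right (by nlinarith) (by positivity)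
  have z7 : 0 ≤ K * (1 / M) := by positivity
  rw [z1] at c1 c2
  rw [mul_add]
  exact ⟨c0.trans (by linarith), c1.trans (by linarith), c2.trans (by linarith)⟩

end Crest.Agent.T145.Ev
end

-- ▼ part T145/EvClo_54
section

/-!
# Row 145, even sector: the closure of the profiles, bootstrap (helper54)
-/

set_option autoImplicit false

namespace Crest.Agent.T145.Ev

open Finset Pot Xi Real Fl

/-- the `K'` half of the closure -/
def KhStmt : Prop := ∀ (p : Par) (W : ℕ) (D₀ : ℝ), 16 ≤ W → ∃ C : ℝ, 1 ≤ C ∧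
  (∀ (E : Dt) (R Y : ℝ), E.Lv p W D₀ R Y → yk E.ω W R ≤ 1 →
    |gk E.ω' R| + Qq E.ω' R ≤ C * (|pd E.ω' W R| + |qd E.ω E.ω' W R|)) ∧
  ∀ a₂ : ℕ, ∃ B : ℝ, 0 ≤ B ∧ ∀ (E : Dt) (K : ℕ) (P : ℕ → ℝ), E.Ok p W →
    (∀ j, a₂ ≤ j → j ≤ K → E.Bs p W D₀ (Rk W j) (D₀ * yk E.ω W (Rk W j)) (P j) ∧
      C * yk E.ω W (Rk W j) ≤ 1) →
    (∀ j, a₂ ≤ j → j < K → yk E.ω W (Rk W j) ≤ 2 * yk E.ω W (Rk W (j + 1))) → C * Rk W K ≤ E.L →
    ∀ k, a₂ ≤ k → k ≤ K → E.Kp (Rk W k) (D₀ * yk E.ω W (Rk W k))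
      (C * (B + ∑ j ∈ Icc a₂ k, ((W : ℝ) ^ (-ew p.w)) ^ (2 * (k - j)) *
        (Qq E.ω' (Rk W j) + D₀ * yk E.ω W (Rk W j) * P j)))

namespace C54

theorem ew_pos {w : ℕ} (hw : 4 ≤ w) : 0 < ew w := by
  have h : (4 : ℝ) ≤ w := by exact_mod_cast hw
  have : (1 : ℝ) ≤ (w : ℝ) ^ 4 := one_le_pow₀ (by linarith)
  exact div_pos (div_pos (log_pos one_lt_two) (log_pos (by linarith))) (by norm_num)

theorem yk_nonneg (ω : Sta) (W R : ℝ) : 0 ≤ yk ω W R := by unfold yk; positivity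

theorem Qq_nonneg (ω : Sta) (R : ℝ) : 0 ≤ Qq ω R := by unfold Qq; positivity

/-- bootstrap -/
theorem boot {S : ℝ → Prop} {c l₀ : ℝ} (hc : 1 ≤ c) (h0 : 0 ≤ l₀)
    (mono : ∀ a b, a ≤ b → S a → S b) (s0 : S l₀) (step : ∀ l, 1 ≤ l → S l → S (c + l / 2)) :
    S (2 * c + 1) := by
  have h : ∀ n : ℕ, S (2 * c + l₀ / 2 ^ n) := fun n => by
    induction n with
    | zero => exact mono _ _ (by simp; linarith) s0
    | succ n ih =>
      have : 0 ≤ l₀ / 2 ^ n := by positivity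
      refine mono _ _ (le_of_eq ?_) (step _ (by linarith) ih)
      rw [pow_succ]; field_simp; ring
  obtain ⟨n, hn⟩ := pow_unbounded_of_one_lt l₀ (one_lt_two (α := ℝ))
  exact mono _ _ (by have := (div_le_one (by positivity)).2 hn.le; linarith) (h n)

/-- the majorant -/
noncomputable def sg (B θ : ℝ) (a K : ℕ) (s : ℕ → ℝ) (k : ℕ) : ℝ :=
  B + ∑ j ∈ Icc a K, θ ^ Nat.dist j k * s j

section sg
variable {B θ : ℝ} {a K : ℕ} {s : ℕ → ℝ}

theorem le_sg (h0 : 0 ≤ θ) (hs : ∀ j, 0 ≤ s j) (k : ℕ) : B ≤ sg B θ a K s k :=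
  le_add_of_nonneg_right (sum_nonneg fun j _ => mul_nonneg (pow_nonneg h0 _) (hs j))

theorem s_le (hB : 0 ≤ B) (h0 : 0 ≤ θ) (hs : ∀ j, 0 ≤ s j) {k : ℕ} (h1 : a ≤ k) (h2 : k ≤ K) :
    s k ≤ sg B θ a K s k := by
  have := single_le_sum (f := fun j => θ ^ Nat.dist j k * s j)
    (fun j _ => mul_nonneg (pow_nonneg h0 _) (hs j)) (mem_Icc.2 ⟨h1, h2⟩)
  simp only [Nat.dist_self, pow_zero, one_mul] at this
  unfold sg; linarith

theorem sg_le (hB : 0 ≤ B) (h0 : 0 ≤ θ) (h1 : θ ≤ 1) (hs : ∀ j, 0 ≤ s j) (j k : ℕ) :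
    θ ^ Nat.dist j k * sg B θ a K s j ≤ sg B θ a K s k := by
  unfold sg
  rw [mul_add, mul_sum]
  refine add_le_add (mul_le_of_le_one_left hB (pow_le_one₀ h0 h1)) (sum_le_sum fun i _ => ?_)
  rw [← mul_assoc, ← pow_add]
  exact mul_le_mul_of_nonneg_right (pow_le_pow_of_le_one h0 h1 (by
    have := Nat.dist.triangle_inequality i j k; omega)) (hs i)

theorem geo (h0 : 0 ≤ θ) (h1 : θ < 1) (a k : ℕ) : ∑ j ∈ Icc a k, θ ^ (k - j) ≤ (1 - θ)⁻¹ := by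
  rw [← tsum_geometric_of_lt_one h0 h1, ← sum_image (s := Icc a k) (g := fun j => k - j)
    (f := fun i => θ ^ i) fun i hi j hj e => by
      simp only [coe_Icc, Set.mem_Icc] at hi hj e; omega]
  exact (summable_geometric_of_lt_one h0 h1).sum_le_tsum _ fun i _ => pow_nonneg h0 i

end sg

section scales
variable {W : ℕ}

theorem Rk_pos (hW : 2 ≤ W) (k : ℕ) : 0 < Rk W k := by
  have : (0 : ℝ) < W := by exact_mod_cast (by omega : 0 < W)
  unfold Rk; positivity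

theorem Rk_add (j d : ℕ) : Rk W (j + d) = (W : ℝ) ^ d * Rk W j := by unfold Rk; ring

theorem Rk_cast (k : ℕ) : ((2 * W ^ k : ℕ) : ℝ) = Rk W k := by unfold Rk; push_cast; ring

theorem Rk_mono (hW : 2 ≤ W) {j k : ℕ} (h : j ≤ k) : Rk W j ≤ Rk W k := by
  have : (1 : ℝ) ≤ W := by exact_mod_cast (by omega : 1 ≤ W)
  unfold Rk; gcongr

theorem ex_scale {a K : ℕ} {x : ℝ} (h1 : Rk W a ≤ x) (h2 : x < Rk W K) (h : a ≤ K) :
    ∃ j, a ≤ j ∧ j < K ∧ Rk W j ≤ x ∧ x < Rk W (j + 1) := by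
  induction K, h using Nat.le_induction with
  | base => exact absurd h1 (not_le.2 h2)
  | succ K hK ih =>
    rcases lt_or_ge x (Rk W K) with h3 | h3
    · obtain ⟨j, b1, b2, b3⟩ := ih h3
      exact ⟨j, b1, by omega, b3⟩
    · exact ⟨K, hK, by omega, h3, h2⟩

theorem pw (hW : 2 ≤ W) (e : ℝ) (d : ℕ) : ((W : ℝ) ^ (-e)) ^ d * ((W : ℝ) ^ d) ^ e = 1 := by
  have h : (0 : ℝ) < W := by exact_mod_cast (by omega : 0 < W)
  rw [← rpow_natCast, ← rpow_natCast, ← rpow_mul h.le, ← rpow_mul h.le, ← rpow_add h]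
  simp [mul_comm]

/-- the weight of the profile against the weight of the majorant -/
theorem wt_mid (hW : 2 ≤ W) {e x : ℝ} (he : 0 ≤ e) {j : ℕ} (k : ℕ) (h1 : Rk W j ≤ x)
    (h2 : x ≤ Rk W (j + 1)) :
    1 ≤ (W : ℝ) ^ e * (((W : ℝ) ^ (-e)) ^ Nat.dist j k * max (x / Rk W k) (Rk W k / x) ^ e) := by
  have h : (1 : ℝ) ≤ W := by exact_mod_cast (by omega : 1 ≤ W)
  have hk := Rk_pos hW k
  have hx := (Rk_pos hW j).trans_le h1
  have h3 : (W : ℝ) ^ Nat.dist j k ≤ W * max (x / Rk W k) (Rk W k / x) := by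
    rcases le_total k j with c | c
    · obtain ⟨d, rfl⟩ := Nat.exists_eq_add_of_le c
      rw [Nat.dist_comm, Nat.dist_eq_sub_of_le c, Nat.add_sub_cancel_left]
      have : (W : ℝ) ^ d ≤ x / Rk W k := by rw [le_div_iff₀ hk, ← Rk_add]; exact h1
      exact (this.trans (le_max_left _ _)).trans (le_mul_of_one_le_left (by positivity) h)
    · obtain ⟨d, rfl⟩ := Nat.exists_eq_add_of_le c
      rw [Nat.dist_eq_sub_of_le c, Nat.add_sub_cancel_left]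
      refine le_trans ?_ (mul_le_mul_of_nonneg_left (le_max_right _ _) (by positivity))
      rw [← mul_div_assoc, le_div_iff₀ hx, Rk_add]
      rw [Rk_add, pow_one] at h2
      calc _ ≤ (W : ℝ) ^ d * (W * Rk W j) := by gcongr
        _ = _ := by ring
  rw [← pw hW e (Nat.dist j k), mul_left_comm, ← mul_rpow (by positivity) (by positivity)]
  gcongr

theorem wt_hi (hW : 2 ≤ W) {e x : ℝ} (he : 0 ≤ e) {k K : ℕ} (hk : k ≤ K) (h1 : Rk W K ≤ x) :
    (x / Rk W K) ^ (e / 10) ≤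
      ((W : ℝ) ^ (-e)) ^ Nat.dist K k * max (x / Rk W k) (Rk W k / x) ^ e := by
  have hK := Rk_pos hW K
  have hx := hK.trans_le h1
  have hk0 := Rk_pos hW k
  obtain ⟨d, rfl⟩ := Nat.exists_eq_add_of_le hk
  rw [Nat.dist_comm, Nat.dist_eq_sub_of_le hk, Nat.add_sub_cancel_left]
  have h2 : (W : ℝ) ^ d * (x / Rk W (k + d)) ≤ max (x / Rk W k) (Rk W k / x) := by
    have h : (0 : ℝ) < W := by exact_mod_cast (by omega : 0 < W)
    refine le_trans (le_of_eq ?_) (le_max_left _ _)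
    rw [Rk_add]; field_simp
  calc _ ≤ (x / Rk W (k + d)) ^ e :=
        rpow_le_rpow_of_exponent_le ((one_le_div hK).2 h1) (by linarith)
    _ = ((W : ℝ) ^ (-e)) ^ d * ((W : ℝ) ^ d * (x / Rk W (k + d))) ^ e := by
        rw [mul_rpow (by positivity) (by positivity), ← mul_assoc, pw hW, one_mul]
    _ ≤ _ := by gcongr

theorem one_le_wt {e x R : ℝ} (he : 0 ≤ e) (hR : 0 < R) (hx : 0 < x) :
    1 ≤ max (x / R) (R / x) ^ e := by
  refine one_le_rpow ?_ he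
  rcases le_total x R with c | c
  · exact le_max_of_le_right ((one_le_div hx).2 c)
  · exact le_max_of_le_left ((one_le_div hR).2 c)

end scales

theorem prof_mono {Λ : Lat} {w a₀ L : ℕ} {z : Pt} {F : Cfg Pt → ℝ} {R P P' : ℝ} (hR : 0 ≤ R)
    (h : Prof Λ w a₀ L z F R P) (hP : P ≤ P') : Prof Λ w a₀ L z F R P' := fun a h1 h2 =>
  (h a h1 h2).trans (mul_le_mul_of_nonneg_right hP (by positivity))

theorem r1_le {E : Dt} {p : Par} {W : ℕ} {D₀ R Y : ℝ} (h : E.Ok p W) (h' : E.Lv p W D₀ R Y) :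
    (E.r₁ : ℝ) ≤ R :=
  (le_self_pow₀ (by exact_mod_cast (by have := h.r8; omega : 1 ≤ E.r₁)) (by norm_num)).trans h'.r1

/-- from bounds scale by scale to the profile -/
theorem prof_of {E : Dt} {p : Par} {W a₂ K : ℕ} {Ca B μ : ℝ} {s : ℕ → ℝ} (hW : 2 ≤ W) (he : 0 ≤ ew p.w)
    (hCa : 1 ≤ Ca) (hs : ∀ j, 0 ≤ s j) (hμ : 0 ≤ μ) (hB : Ca * Rk W a₂ ^ 2 ≤ B)
    (hr : (E.r₁ : ℝ) ≤ Rk W K)
    (A1 : ∀ a : ℕ, p.r₀ ≤ a → nu E.Λ p.w 0 a (E.e 0) ≤ Ca)
    (A2 : ∀ r a : ℕ, E.r₁ ≤ r → r ≤ a → p.w * a ≤ E.L → (a : ℝ) ^ 2 * nu E.Λ p.w 0 a (E.e 0) ≤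
      Ca * ((a : ℝ) / r) ^ (ew p.w / 10) * ((r : ℝ) ^ 2 * nu E.Λ p.w 0 r (E.e 0)))
    (H : ∀ j, a₂ ≤ j → j ≤ K → ∀ a : ℕ, Rk W j ≤ a → (a : ℝ) ≤ W * Rk W j →
      (a : ℝ) ^ 2 * nu E.Λ p.w 0 a (E.e 0) ≤ μ * sg B ((W : ℝ) ^ (-ew p.w)) a₂ K s j)
    {k : ℕ} (h1 : a₂ ≤ k) (h2 : k ≤ K) :
    Prof E.Λ p.w p.r₀ E.L 0 (E.e 0) (Rk W k)
      ((Ca * (W : ℝ) ^ ew p.w * μ + 1) * sg B ((W : ℝ) ^ (-ew p.w)) a₂ K s k) := by
  intro a ha hL
  have hW1 : (1 : ℝ) ≤ W := by exact_mod_cast (by omega : 1 ≤ W)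
  set θ : ℝ := (W : ℝ) ^ (-ew p.w) with hθ
  have θ0 : 0 ≤ θ := by positivity
  have θ1 : θ ≤ 1 := rpow_le_one_of_one_le_of_nonpos hW1 (by linarith)
  have u1 : 1 ≤ (W : ℝ) ^ ew p.w := one_le_rpow hW1 he
  have B0 : 0 ≤ B := le_trans (by positivity) hB
  have g0 : ∀ j, 0 ≤ sg B θ a₂ K s j := fun j => B0.trans (le_sg θ0 hs j)
  have gk := g0 k
  have hk := Rk_pos hW k
  rcases Nat.eq_zero_or_pos a with rfl | a0
  · simp only [Nat.cast_zero, ne_eq, OfNat.ofNat_ne_zero, not_false_eq_true, zero_pow, zero_mul]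
    positivity
  have a0' : (0 : ℝ) < a := by exact_mod_cast a0
  have w1 := one_le_wt he hk a0'
  set T : ℝ := max (a / Rk W k) (Rk W k / a) ^ ew p.w with hT
  rcases lt_or_ge (a : ℝ) (Rk W a₂) with c1 | c1
  · calc _ ≤ Rk W a₂ ^ 2 * Ca := by
          refine (mul_le_mul_of_nonneg_left (A1 a ha) (by positivity)).trans ?_
          gcongr
      _ ≤ sg B θ a₂ K s k := by rw [mul_comm]; exact hB.trans (le_sg θ0 hs k)
      _ ≤ (Ca * (W : ℝ) ^ ew p.w * μ + 1) * sg B θ a₂ K s k :=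
          le_mul_of_one_le_left gk (le_add_of_nonneg_left (by positivity))
      _ ≤ _ := le_mul_of_one_le_right (by positivity) w1
  have fin : ∀ j, ∀ z : ℝ, z ≤ Ca * (W : ℝ) ^ ew p.w * (θ ^ Nat.dist j k * T) →
      z * (μ * sg B θ a₂ K s j) ≤ (Ca * (W : ℝ) ^ ew p.w * μ + 1) * sg B θ a₂ K s k * T := by
    intro j z hz
    have := g0 j
    calc _ ≤ Ca * (W : ℝ) ^ ew p.w * (θ ^ Nat.dist j k * T) * (μ * sg B θ a₂ K s j) := by gcongr
      _ = Ca * (W : ℝ) ^ ew p.w * μ * (θ ^ Nat.dist j k * sg B θ a₂ K s j) * T := by ring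
      _ ≤ Ca * (W : ℝ) ^ ew p.w * μ * sg B θ a₂ K s k * T := by
          gcongr; exact sg_le B0 θ0 θ1 hs j k
      _ ≤ _ := by gcongr; linarith
  rcases lt_or_ge (a : ℝ) (Rk W K) with c2 | c2
  · obtain ⟨j, j1, j2, j3, j4⟩ := ex_scale c1 c2 (h1.trans h2)
    refine (H j j1 j2.le a j3 (by rw [Rk_add, pow_one] at j4; exact j4.le)).trans ?_
    have := fin j 1 ((wt_mid hW he k j3 j4.le).trans (by
      rw [mul_assoc Ca]; exact le_mul_of_one_le_left (by positivity) hCa))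
    rwa [one_mul] at this
  · have b1 := A2 (2 * W ^ K) a (by exact_mod_cast hr.trans_eq (Rk_cast K).symm)
      (by exact_mod_cast (Rk_cast K).trans_le c2) hL
    have b2 := H K (h1.trans h2) le_rfl (2 * W ^ K) (Rk_cast K).ge
      ((Rk_cast K).trans_le (le_mul_of_one_le_left (Rk_pos hW K).le hW1))
    have hK := Rk_pos hW K
    refine (b1.trans (mul_le_mul_of_nonneg_left b2 (by positivity))).trans (fin K _ ?_)
    rw [Rk_cast, mul_assoc Ca]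
    exact mul_le_mul_of_nonneg_left ((wt_hi hW he h2 c2).trans
      (le_mul_of_one_le_left (by positivity) u1)) (by positivity)

end C54

open C54

set_option maxHeartbeats 1000000 in
theorem close_of (h1 : Cl1Stmt) (hA : ApStmt) (hK : KhStmt) : CloseStmt := by
  intro w
  obtain ⟨W₀, h1⟩ := h1 w
  refine ⟨max W₀ 16, ?_⟩
  rintro p W D₀ rfl hW
  rw [max_le_iff] at hW
  by_cases hw : 4 ≤ p.w
  swap
  · exact ⟨1, le_rfl, fun _ => ⟨0, le_rfl, fun E K h => absurd h.ed.w4 hw⟩⟩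
  have hW2 : 2 ≤ W := by omega
  obtain ⟨C₁, n, hC₁, h1⟩ := h1 p W D₀ rfl hW.1
  obtain ⟨Ca, hCa, hA⟩ := hA p W hW2
  obtain ⟨Ck, hCk, hQ, hK⟩ := hK p W D₀ hW.2
  have he := ew_pos hw
  have hW1 : (1 : ℝ) < W := by exact_mod_cast (by omega : 1 < W)
  set θ : ℝ := (W : ℝ) ^ (-ew p.w) with hθ
  have θ0 : 0 < θ := by positivity
  have θ1 : θ < 1 := rpow_lt_one_of_one_lt_of_neg hW1 (by linarith)
  have i0 : 0 ≤ (1 - θ)⁻¹ := inv_nonneg.2 (by linarith)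
  obtain ⟨G, hG⟩ : ∃ G, G = Ca * (W : ℝ) ^ ew p.w := ⟨_, rfl⟩
  have G1 : 1 ≤ G := hG ▸ one_le_mul_of_one_le_of_one_le hCa (one_le_rpow hW1.le he.le)
  obtain ⟨c₂, hc₂⟩ : ∃ c, c = Ck * (1 - θ)⁻¹ := ⟨_, rfl⟩
  have c20 : 0 ≤ c₂ := by rw [hc₂]; positivity
  obtain ⟨c₁, hc₁⟩ : ∃ c, c = Ck + c₂ * Ck := ⟨_, rfl⟩
  have c10 : 0 ≤ c₁ := by rw [hc₁]; positivity
  obtain ⟨τ, hτ⟩ : ∃ τ, τ = 4 * C₁ * G := ⟨_, rfl⟩
  have τ1 : 1 ≤ τ := by rw [hτ]; nlinarith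
  have τ0 : 0 < τ := by linarith
  obtain ⟨m, hm⟩ : ∃ m, m = τ ^ n * (τ ^ 4 * (4 * G * (1 + c₂))) := ⟨_, rfl⟩
  have m1 : 1 ≤ τ ^ n := one_le_pow₀ τ1
  have m2 : 1 ≤ τ ^ 4 * (4 * G * (1 + c₂)) :=
    one_le_mul_of_one_le_of_one_le (one_le_pow₀ τ1) (by nlinarith)
  have m3 : τ ^ n ≤ m := hm ▸ le_mul_of_one_le_right (by positivity) m2
  have m4 : τ ^ 4 * (4 * G * (1 + c₂)) ≤ m := hm ▸ le_mul_of_one_le_left (by positivity) m1
  obtain ⟨c, hc⟩ : ∃ c, c = G * (τ ^ 4 * (Ck + c₁)) + 1 := ⟨_, rfl⟩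
  have c1 : 1 ≤ c := by rw [hc]; exact le_add_of_nonneg_left (by positivity)
  obtain ⟨C, hC⟩ : ∃ C, C = Ck + (|D₀| + 1) * m + (2 * c + 1 + (c₁ + c₂ * (2 * c + 1))) := ⟨_, rfl⟩
  have x1 : 0 ≤ 2 * c + 1 + (c₁ + c₂ * (2 * c + 1)) := by positivity
  have x2 : 0 ≤ |D₀| * m := mul_nonneg (abs_nonneg _) (by linarith)
  have C1 : Ck ≤ C := by rw [hC]; nlinarith
  have C2 : m ≤ C := by rw [hC]; nlinarith
  have C3 : |D₀| * m ≤ C := by rw [hC]; nlinarith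
  have C4 : 2 * c + 1 + (c₁ + c₂ * (2 * c + 1)) ≤ C := by rw [hC]; nlinarith
  refine ⟨C, hCk.trans C1, fun a₂ => ?_⟩
  obtain ⟨Bk, Bk0, hK⟩ := hK a₂
  obtain ⟨B, hB⟩ : ∃ B, B = Bk + Ca * Rk W a₂ ^ 2 + 1 := ⟨_, rfl⟩
  have b0 : 0 ≤ Ca * Rk W a₂ ^ 2 := by positivity
  have B0 : 0 ≤ B := by linarith
  refine ⟨B, B0, fun E K hE hL hy hR k k1 k2 => ?_⟩
  obtain ⟨A1, A2, A3⟩ := hA E hE
  set s : ℕ → ℝ := fun j => |pd E.ω' W (Rk W j)| + |qd E.ω E.ω' W (Rk W j)| with hs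
  have s0 : ∀ j, 0 ≤ s j := fun j => by positivity
  set g : ℕ → ℝ := sg B θ a₂ K s with hg
  have g1 : ∀ j, 1 ≤ g j := fun j => le_trans (by linarith) (le_sg θ0.le s0 j)
  set Y : ℕ → ℝ := fun j => D₀ * yk E.ω W (Rk W j) with hY
  have Y0 : ∀ j, a₂ ≤ j → j ≤ K → 0 ≤ Y j ∧ m * Y j ≤ 1 := fun j j1 j2 => by
    have y0 := yk_nonneg E.ω W (Rk W j)
    have d1 := (hL j j1 j2).1.D1
    refine ⟨mul_nonneg (by linarith) y0, le_trans ?_ (hL j j1 j2).2⟩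
    rw [abs_of_nonneg (by linarith)] at C3
    calc m * (D₀ * yk E.ω W (Rk W j)) = D₀ * m * yk E.ω W (Rk W j) := by ring
      _ ≤ _ := by gcongr
  have y1 : ∀ j, a₂ ≤ j → j ≤ K → yk E.ω W (Rk W j) ≤ 1 := fun j j1 j2 =>
    (le_mul_of_one_le_left (yk_nonneg _ _ _) (hCk.trans C1)).trans (hL j j1 j2).2
  let S : ℝ → Prop := fun l => ∀ j, a₂ ≤ j → j ≤ K →
    Prof E.Λ p.w p.r₀ E.L 0 (E.e 0) (Rk W j) (l * g j)
  have bs : ∀ l, 1 ≤ l → S l → ∀ j, a₂ ≤ j → j ≤ K → E.Bs p W D₀ (Rk W j) (Y j) (l * g j) :=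
    fun l l1 h j j1 j2 => ⟨hE, (hL j j1 j2).1, one_le_mul_of_one_le_of_one_le l1 (g1 j), h j j1 j2⟩
  have kp : ∀ l, 1 ≤ l → S l → ∀ j, a₂ ≤ j → j ≤ K → ∃ P', E.Kp (Rk W j) (Y j) P' ∧
      P' ≤ (c₁ + c₂ * (m⁻¹ * l)) * g j := by
    intro l l1 h j j1 j2
    refine ⟨_, hK E K (fun i => l * g i) hE (fun i i1 i2 => ⟨bs l l1 h i i1 i2, le_trans
      (mul_le_mul_of_nonneg_right C1 (yk_nonneg _ _ _)) (hL i i1 i2).2⟩) hy
      ((mul_le_mul_of_nonneg_right C1 (Rk_pos hW2 K).le).trans hR) j j1 j2, ?_⟩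
    have gj := g1 j
    have m0 : 0 < m := by linarith
    have z1 : ∑ i ∈ Icc a₂ j, θ ^ (2 * (j - i)) * (Qq E.ω' (Rk W i) + Y i * (l * g i)) ≤
        ∑ i ∈ Icc a₂ j, θ ^ (j - i) * ((Ck + m⁻¹ * l) * g j) := by
      refine sum_le_sum fun i hi => ?_
      obtain ⟨i1, i2⟩ := mem_Icc.1 hi
      have gi := g1 i
      have q1 : Qq E.ω' (Rk W i) ≤ Ck * g i :=
        (le_add_of_nonneg_left (abs_nonneg _)).trans ((hQ E _ _ (hL i i1 (i2.trans j2)).1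
          (y1 i i1 (i2.trans j2))).trans
          (mul_le_mul_of_nonneg_left (s_le B0 θ0.le s0 i1 (i2.trans j2)) (by linarith)))
      have q2 : Y i ≤ m⁻¹ := by
        rw [inv_eq_one_div, le_div_iff₀' m0]; exact (Y0 i i1 (i2.trans j2)).2
      have q3 := sg_le (a := a₂) (K := K) B0 θ0.le θ1.le s0 i j
      rw [Nat.dist_eq_sub_of_le i2] at q3
      calc _ ≤ θ ^ (2 * (j - i)) * (Ck * g i + m⁻¹ * (l * g i)) := by gcongr
        _ = θ ^ (j - i) * ((Ck + m⁻¹ * l) * (θ ^ (j - i) * g i)) := by ring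
        _ ≤ _ := by gcongr
    rw [← sum_mul] at z1
    have z2 : Bk ≤ g j := le_trans (by linarith) (le_sg θ0.le s0 j)
    calc _ ≤ Ck * (g j + (1 - θ)⁻¹ * ((Ck + m⁻¹ * l) * g j)) := by
          gcongr
          exact z1.trans (mul_le_mul_of_nonneg_right (geo θ0.le θ1 _ _) (by positivity))
      _ = _ := by rw [hc₁, hc₂]; ring
  have m0 : 0 < m := by linarith
  have mi : m⁻¹ ≤ 1 := inv_le_one_of_one_le₀ (by linarith)
  have step : ∀ l, 1 ≤ l → S l → S (c + l / 2) := by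
    intro l l1 h j j1 j2
    have key := prof_of (μ := τ ^ 4 * (Ck + c₁) + l * (τ ^ 4 * m⁻¹ * (1 + c₂) + τ⁻¹ ^ 2)) hW2 he.le hCa s0
      (by positivity) (show _ ≤ B by linarith) (r1_le hE (hL K (j1.trans j2) le_rfl).1) A1 A2 ?_ j1 j2
    · refine prof_mono (Rk_pos hW2 j).le key (mul_le_mul_of_nonneg_right ?_ (by linarith [g1 j]))
      rw [← hG, hc]
      have z1 : G * (τ ^ 4 * m⁻¹ * (1 + c₂)) ≤ 1 / 4 := by
        rw [← div_le_one m0] at m4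
        calc _ = τ ^ 4 * (4 * G * (1 + c₂)) / m / 4 := by field_simp
          _ ≤ _ := by linarith
      have z2 : G * τ⁻¹ ^ 2 ≤ 1 / 4 := by
        rw [inv_pow, ← div_eq_mul_inv, div_le_iff₀ (by positivity)]
        nlinarith
      nlinarith
    intro i i1 i2 a a1 a2
    obtain ⟨P', k1, k2⟩ := kp l l1 h i i1 i2
    obtain ⟨y0, y2⟩ := Y0 i i1 i2
    have q2 : Y i ≤ m⁻¹ := by rw [inv_eq_one_div, le_div_iff₀' m0]; exact y2
    have gi := g1 i
    have z := h1 E _ _ _ τ⁻¹ (bs l l1 h i i1 i2) (inv_pos.2 τ0)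
      (by rw [← div_eq_mul_inv, div_le_one τ0, hτ]; nlinarith)
      (by rw [inv_pow]; exact q2.trans (inv_anti₀ (by positivity) m3))
      (by
        rw [inv_pow, ← div_eq_inv_mul, le_div_iff₀' (by positivity)]
        exact (mul_le_mul (m3.trans C2) (Rk_mono hW2 i2) (Rk_pos hW2 i).le (by linarith)).trans hR)
      P' k1 a (by linarith [Rk_pos hW2 i]) a2
    rw [inv_inv] at z
    have q1 : |gk E.ω' (Rk W i)| + Qq E.ω' (Rk W i) ≤ Ck * g i :=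
      (hQ E _ _ (hL i i1 i2).1 (y1 i i1 i2)).trans
        (mul_le_mul_of_nonneg_left (s_le B0 θ0.le s0 i1 i2) (by linarith))
    have q3 : Y i * P' ≤ (c₁ + c₂ * (m⁻¹ * l)) * g i :=
      (mul_le_of_le_one_left k1.1 (q2.trans mi)).trans k2
    have q4 : Y i * (l * g i) ≤ m⁻¹ * (l * g i) := by gcongr
    calc _ ≤ τ ^ 4 * (Ck * g i + m⁻¹ * (l * g i) + (c₁ + c₂ * (m⁻¹ * l)) * g i) + l * g i * τ⁻¹ ^ 2 := by
          refine z.trans ?_
          gcongr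
      _ = _ := by ring
  have fin : S (2 * c + 1) := by
    refine boot (l₀ := Ca * Rk W K ^ 2) c1 (by positivity) (fun a b hab h j j1 j2 =>
      prof_mono (Rk_pos hW2 j).le (h j j1 j2) (mul_le_mul_of_nonneg_right hab (by linarith [g1 j])))
      (fun j j1 j2 => prof_mono (Rk_pos hW2 j).le (A3 _ (r1_le hE (hL j j1 j2).1)) ?_) step
    have := Rk_pos hW2 j
    calc _ ≤ Ca * Rk W K ^ 2 := by gcongr; exact Rk_mono hW2 j2
      _ ≤ _ := le_mul_of_one_le_right (by positivity) (g1 j)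
  obtain ⟨P', z1, z2⟩ := kp _ (by linarith) fin k k1 k2
  refine ⟨_, P', bs _ (by linarith) fin k k1 k2, z1, ?_⟩
  have gk := g1 k
  calc _ ≤ (2 * c + 1) * g k + (c₁ + c₂ * (1 * (2 * c + 1))) * g k := by
        refine add_le_add le_rfl (z2.trans ?_)
        gcongr
    _ = (2 * c + 1 + (c₁ + c₂ * (2 * c + 1))) * g k := by ring
    _ ≤ C * g k := by gcongr

end Crest.Agent.T145.Ev
end

-- ▼ part T145/EvCloK_19

/-!
# Row 145, even sector: the `K'` half of CLOSE (helper19)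

`K19.qq_le`: `|g'|` and `Qq` are bounded by `|p| + |q|`.  `K19.kp`: the profile of `K'` from `DkStmt`, `AmbStmt`.
-/

set_option autoImplicit false

namespace Crest.Agent.T145.Ev

open Finset Pot Xi Real Fl

namespace K19

theorem ew_bd {w : ℕ} (hw : 4 ≤ w) : 0 < ew w ∧ ew w ≤ 1 / 100 := by
  have h4 : (4 : ℝ) ≤ w := by exact_mod_cast hw
  have h1 : (2 : ℝ) ≤ 4 * (w : ℝ) ^ 4 := by nlinarith [one_le_pow₀ (show (1 : ℝ) ≤ w by linarith) (n := 4)]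
  have h2 : 0 < log 2 := log_pos one_lt_two
  have h3 := log_le_log two_pos h1
  exact ⟨div_pos (div_pos h2 (h2.trans_le h3)) (by norm_num),
    div_le_div_of_nonneg_right ((div_le_one (h2.trans_le h3)).2 h3) (by norm_num)⟩

theorem ew_le' (w : ℕ) : ew w ≤ 1 / 100 := by
  rcases Nat.eq_zero_or_pos w with rfl | hw
  · simp [ew, cw]
  have h4 : (1 : ℝ) ≤ w := by exact_mod_cast hw
  have h1 : (2 : ℝ) ≤ 4 * (w : ℝ) ^ 4 := by nlinarith [one_le_pow₀ h4 (n := 4)]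
  have h2 : 0 < log 2 := log_pos one_lt_two
  have h3 := log_le_log two_pos h1
  exact div_le_div_of_nonneg_right ((div_le_one (h2.trans_le h3)).2 h3) (by norm_num)

theorem Rk_cast (W k : ℕ) : Rk W k = ((2 * W ^ k : ℕ) : ℝ) := by simp [Rk]

theorem Rk_succ (W k : ℕ) : Rk W (k + 1) = W * Rk W k := by rw [Rk, Rk]; ring

theorem Rk_add (W k m : ℕ) : Rk W (k + m) = (W : ℝ) ^ m * Rk W k := by rw [Rk, Rk]; ring

theorem two_le_Rk {W : ℕ} (hW : 1 ≤ W) (k : ℕ) : 2 ≤ Rk W k := by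
  have : (1 : ℝ) ≤ (W : ℝ) ^ k := one_le_pow₀ (by exact_mod_cast hW)
  rw [Rk]; linarith

theorem Rk_mono {W : ℕ} (hW : 1 ≤ W) {j k : ℕ} (h : j ≤ k) : Rk W j ≤ Rk W k := by
  have : (W : ℝ) ^ j ≤ (W : ℝ) ^ k := pow_le_pow_right₀ (by exact_mod_cast hW) h
  rw [Rk, Rk]; linarith

/-- the scale of a length -/
theorem exists_scale (f : ℕ → ℝ) {a k : ℕ} {d : ℝ} (hk : a ≤ k) (h : f a ≤ d) :
    ∃ j, a ≤ j ∧ j ≤ k ∧ f j ≤ d ∧ (j < k → d < f (j + 1)) := by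
  induction k, hk using Nat.le_induction with
  | base => exact ⟨a, le_rfl, le_rfl, h, fun h => absurd h (lt_irrefl _)⟩
  | succ k hk ih =>
    obtain ⟨j, h1, h2, h3, h4⟩ := ih
    by_cases h5 : f (k + 1) ≤ d
    · exact ⟨k + 1, by omega, le_rfl, h5, fun h => absurd h (lt_irrefl _)⟩
    · refine ⟨j, h1, by omega, h3, fun _ => ?_⟩
      rcases h2.eq_or_lt with rfl | h6
      · exact not_le.1 h5
      · exact h4 h6

theorem y_le {y : ℕ → ℝ} {a j k : ℕ} (h : ∀ i, a ≤ i → i < k → y i ≤ 2 * y (i + 1)) (h1 : a ≤ j)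
    (h2 : j ≤ k) : y j ≤ 2 ^ (k - j) * y k := by
  induction k, h2 using Nat.le_induction with
  | base => simp
  | succ k hk ih =>
    have h3 := mul_le_mul_of_nonneg_left (h k (by omega) (by omega)) (show (0 : ℝ) ≤ 2 ^ (k - j) by positivity)
    rw [Nat.succ_sub hk, pow_succ, mul_assoc]
    exact (ih fun i a b => h i a (by omega)).trans h3

theorem yk_nonneg (ω : Sta) (W R : ℝ) : 0 ≤ yk ω W R := by unfold yk; positivity

theorem Qq_nonneg (ω' : Sta) (R : ℝ) : 0 ≤ Qq ω' R := by unfold Qq; positivity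

/-- `|g'|` and `Qq` against `|p| + |q|` -/
theorem qq_le (W : ℕ) (hW : 2 ≤ W) : ∃ C : ℝ, 1 ≤ C ∧ ∀ (p : Par) (D₀ R Y : ℝ) (E : Dt),
    E.Lv p W D₀ R Y → yk E.ω W R ≤ 1 →
      |gk E.ω' R| + Qq E.ω' R ≤ C * (|pd E.ω' W R| + |qd E.ω E.ω' W R|) := by
  obtain ⟨c, Ca, hc, hA⟩ := akStmt W hW
  obtain ⟨Ce, he0, he⟩ := abs_er_le
  have hl : 1 ≤ π * log W := by
    have h2 : log 2 ≤ log W := log_le_log two_pos (by exact_mod_cast hW)
    nlinarith [pi_gt_three, log_two_gt_d9]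
  set b : ℝ := √(c / 2) * exp (-(2 * π ^ 2 * Ce)) with hb
  have hb0 : 0 < b := by positivity
  refine ⟨1 + (1 + 2 * π ^ 2 * Ce) / b, le_add_of_nonneg_right (by positivity),
    fun p D₀ R Y E h hy => ?_⟩
  have hR := h.maj.1
  have hew := ew_le' p.w
  have hg : |gk E.ω R| ≤ 1 := by
    have := abs_le.1 h.crit
    rw [abs_le]; constructor <;> nlinarith [pi_gt_three]
  have hg' : |gk E.ω' R| ≤ |pd E.ω' W R| := by
    rw [pd, abs_mul, abs_of_pos (one_pos.trans_le hl)]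
    exact le_mul_of_one_le_left (abs_nonneg _) hl
  have hy0 := yk_nonneg E.ω W R
  have hl0 : ell E.ω R (Jz 0) ≠ 0 := fun h0 => by
    have h1 := h.maj.2.1
    rw [h.cone, yk, h0] at h1
    simpa using (rpow_pos_of_pos (one_pos.trans_le hR) (-ew p.w)).trans_le h1
  have h1 : b * Qq E.ω' R ≤ yk E.ω W R * |lr E.ω E.ω' R| := by
    have e : yk E.ω W R * |lr E.ω E.ω' R| =
        √(π * log W * Ak W R / 2) * exp (-2 * π ^ 2 * gk E.ω R * er R) * Qq E.ω' R := by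
      have := abs_pos.2 hl0
      rw [yk, lr, Qq, abs_div]; field_simp
    rw [e]
    refine mul_le_mul_of_nonneg_right (mul_le_mul (sqrt_le_sqrt ?_) (exp_le_exp.2 ?_) (by positivity)
      (by positivity)) (Qq_nonneg _ _)
    · have := (hA R hR).1
      nlinarith
    · have h2 : |gk E.ω R * er R| ≤ Ce := by
        rw [abs_mul]; exact (mul_le_of_le_one_left (abs_nonneg _) hg).trans (he R hR)
      nlinarith [le_abs_self (gk E.ω R * er R), sq_nonneg π]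
  have h2 : yk E.ω W R * |lr E.ω E.ω' R| ≤ |qd E.ω E.ω' W R| + 2 * π ^ 2 * Ce * |pd E.ω' W R| := by
    have e : yk E.ω W R * lr E.ω E.ω' R =
        qd E.ω E.ω' W R + yk E.ω W R * (2 * π ^ 2 * (er R * gk E.ω' R)) := by rw [qd]; ring
    rw [← abs_of_nonneg hy0, ← abs_mul, e]
    refine (abs_add_le _ _).trans (add_le_add le_rfl ?_)
    rw [abs_mul, abs_of_nonneg hy0, abs_mul, abs_mul (er R), abs_of_pos (by positivity : 0 < 2 * π ^ 2),
      mul_assoc (2 * π ^ 2)]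
    refine (mul_le_of_le_one_left (by positivity) hy).trans ?_
    have := he R hR
    gcongr
  have h3 : Qq E.ω' R ≤ (1 + 2 * π ^ 2 * Ce) / b * (|pd E.ω' W R| + |qd E.ω E.ω' W R|) := by
    rw [div_mul_eq_mul_div, le_div_iff₀' hb0]
    have : 0 ≤ 2 * π ^ 2 * Ce * |qd E.ω E.ω' W R| := by positivity
    nlinarith [abs_nonneg (pd E.ω' W R)]
  nlinarith [abs_nonneg (qd E.ω E.ω' W R)]

/-- bare fourth moments of `J` in the free boxes -/
theorem JJ_sq (F : Fa) : ∃ B : ℝ, ∀ Λ, F.Mem Λ → ∀ (x : Pt) (a c : ℕ), x ∈ bl 0 a → a + 1 ≤ c →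
    Nc.Nm Λ 0 c (fun s => (Jz 0 s * Jz x s) ^ 2) ≤ B ^ 2 := by
  obtain ⟨C, hC, H⟩ := Fl.bareStmt F
  refine ⟨4 * √C, fun Λ hΛ x a c hx hc => ?_⟩
  have hO : Λ.Ok := ⟨hΛ.1 ▸ F.adm, F.pos.trans_le hΛ.2.2.1⟩
  have key : ∀ y ∈ bl (0 : Pt) a, Nc.EN Λ 0 c (fun s => Jz y s ^ 4) ≤ C * 16 := fun y hy => by
    have h1 := (((H Λ hΛ 0 a (dl y) (sup_dl hy)).2.2 c hc).2.1)
    have h2 : E0 (bl 0 a) (dl y) = 4 := by
      have : E0 (bl 0 a) (dl y) = A0 (dl y) y := ip_dl hy _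
      rw [this]; simp [A0]
    simp only [← Jz_eq_pr, h2] at h1
    linarith
  have hc' := hO.cen_Nr_bl (self_mem_bl (0 : Pt) c)
  have t : ∀ y, Tame fun s => Jz y s ^ 4 := fun y => (Om.tame_Jz y).pow 4
  have h3 : Nc.Nm Λ 0 c (fun s => (Jz 0 s * Jz x s) ^ 2) ≤
      Nc.EN Λ 0 c fun s => (Jz 0 s ^ 4 + Jz x s ^ 4) / 2 :=
    Ex_mono hc'.nonneg (hc'.ig ((((Om.tame_Jz 0).mul (Om.tame_Jz x)).pow 2).abs))
      (hc'.ig (((t 0).add (t x)).div_const 2)) fun s => by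
        rw [abs_of_nonneg (sq_nonneg _)]
        nlinarith [sq_nonneg (Jz 0 s ^ 2 - Jz x s ^ 2)]
  rw [Nc.EN, Ex_div_const, Ex_add (hc'.ig (t 0)) (hc'.ig (t x))] at h3
  have h4 := key 0 (self_mem_bl 0 a)
  have h5 := key x hx
  rw [mul_pow, sq_sqrt hC]
  simp only [Nc.EN] at h4 h5
  linarith

theorem two_le_pow {W : ℕ} (hW : 16 ≤ W) {e : ℝ} (he : e ≤ 1 / 100) :
    2 ≤ ((W : ℝ) ^ (-e)) ^ 2 * (W : ℝ) ^ (1 / 2 : ℝ) := by
  have h16 : (16 : ℝ) ≤ W := by exact_mod_cast hW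
  have h0 : (0 : ℝ) < W := by linarith
  rw [← rpow_natCast, ← rpow_mul h0.le, ← rpow_add h0]
  calc (2 : ℝ) = (16 : ℝ) ^ (1 / 4 : ℝ) := by
        rw [show (16 : ℝ) = 2 ^ (4 : ℝ) by norm_num, ← rpow_mul zero_le_two]; norm_num
    _ ≤ (W : ℝ) ^ (1 / 4 : ℝ) := rpow_le_rpow (by norm_num) h16 (by norm_num)
    _ ≤ _ := rpow_le_rpow_of_exponent_le (by linarith) (by push_cast; linarith)

set_option maxHeartbeats 1000000 in
/-- the profile of `K'` -/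
theorem kp (hD : DkStmt) (hA : AmbStmt) (p : Par) (W : ℕ) (D₀ : ℝ) (hW : 16 ≤ W) :
    ∃ C : ℝ, 1 ≤ C ∧ ∀ a₂ : ℕ, ∃ B : ℝ, 0 ≤ B ∧ ∀ (E : Dt) (k : ℕ) (P : ℕ → ℝ), a₂ ≤ k →
      (∀ j, a₂ ≤ j → j ≤ k → E.Bs p W D₀ (Rk W j) (D₀ * yk E.ω W (Rk W j)) (P j) ∧
        C * (D₀ * yk E.ω W (Rk W j)) ≤ 1) →
      (∀ j, a₂ ≤ j → j < k → yk E.ω W (Rk W j) ≤ 2 * yk E.ω W (Rk W (j + 1))) → C * Rk W k ≤ E.L →
      E.Kp (Rk W k) (D₀ * yk E.ω W (Rk W k)) (B + C * ∑ j ∈ Icc a₂ k,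
        (((W : ℝ) ^ (-ew p.w)) ^ 2) ^ (k - j) * (Qq E.ω' (Rk W j) + D₀ * yk E.ω W (Rk W j) * P j)) := by
  obtain ⟨C, hC, HD⟩ := hD p W D₀ (by omega)
  obtain ⟨B₀, HB⟩ := JJ_sq p.F
  have h16 : (16 : ℝ) ≤ W := by exact_mod_cast hW
  have hW0 : (0 : ℝ) < W := by linarith
  have hW1 : 1 ≤ W := by omega
  have hs : (1 : ℝ) ≤ (W : ℝ) ^ (1 / 2 : ℝ) := one_le_rpow (by linarith) (by norm_num)
  set C₁ : ℝ := C * (4 * W) ^ 4 * (W : ℝ) ^ (1 / 2 : ℝ) with hC₁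
  have hCC : C ≤ C₁ := by
    have : (1 : ℝ) ≤ (4 * W) ^ 4 := one_le_pow₀ (by linarith)
    rw [hC₁, mul_assoc]
    exact le_mul_of_one_le_right (by linarith) (one_le_mul_of_one_le_of_one_le this hs)
  have hw0 : (0 : ℝ) ≤ 16 * p.w := by positivity
  refine ⟨C₁ + 16 * p.w, by linarith, fun a₂ => ?_⟩
  obtain ⟨B', HA⟩ := (hA p W (2 * W ^ a₂) B₀ (by omega)).1
  refine ⟨|B'| * Rk W a₂ ^ 5, mul_nonneg (abs_nonneg _) (pow_nonneg (by linarith [two_le_Rk hW1 a₂]) _),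
    fun E k P hk hB hy hL => ?_⟩
  set θ : ℝ := ((W : ℝ) ^ (-ew p.w)) ^ 2 with hθ
  have hθ0 : 0 ≤ θ := sq_nonneg _
  have bk := (hB k hk le_rfl).1
  have hD1 := bk.D1
  have hew := ew_bd bk.ed.w4
  have hT : ∀ j ∈ Icc a₂ k, 0 ≤ θ ^ (k - j) * (Qq E.ω' (Rk W j) + D₀ * yk E.ω W (Rk W j) * P j) :=
    fun j hj => by
      have := (hB j (mem_Icc.1 hj).1 (mem_Icc.1 hj).2).1.P1
      have := yk_nonneg E.ω W (Rk W j)
      have := Qq_nonneg E.ω' (Rk W j)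
      positivity
  have hS := sum_nonneg hT
  have ha2 := two_le_Rk hW1 a₂
  have hk2 := two_le_Rk hW1 k
  have hY0 : 0 ≤ D₀ * yk E.ω W (Rk W k) := mul_nonneg (by linarith) (yk_nonneg _ _ _)
  have hB0 : 0 ≤ |B'| * Rk W a₂ ^ 5 := by positivity
  have hCS : 0 ≤ (C₁ + 16 * p.w) * ∑ j ∈ Icc a₂ k,
      θ ^ (k - j) * (Qq E.ω' (Rk W j) + D₀ * yk E.ω W (Rk W j) * P j) := mul_nonneg (by linarith) hS
  refine ⟨add_nonneg hB0 hCS, fun x hx0 hx => ?_⟩
  have hd := one_le_eu hx0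
  have hm0 : 0 ≤ max (eu x / Rk W k) (Rk W k / eu x) := le_max_of_le_left (by positivity)
  by_cases hsm : Rk W a₂ / 2 ≤ eu x
  · obtain ⟨j, j1, j2, j3, j4⟩ := exists_scale (fun j => Rk W j / 2) hk hsm
    have hj2 := two_le_Rk hW1 j
    have bj := hB j j1 j2
    have hYj : 0 ≤ D₀ * yk E.ω W (Rk W j) := mul_nonneg (by linarith) (yk_nonneg _ _ _)
    have hup : eu x ≤ 4 * W * Rk W j := by
      rcases j2.eq_or_lt with rfl | h
      · nlinarith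
      · have := j4 h
        rw [Rk_succ] at this
        nlinarith
    have h1 := ((HD E _ _ _ bj.1 (le_trans (mul_le_mul_of_nonneg_right (by linarith) hYj) bj.2)
      (le_trans (mul_le_mul (by linarith) (Rk_mono hW1 j2) (by linarith) (by linarith)) hL)).1 x j3 hup).2
    set T : ℝ := Qq E.ω' (Rk W j) + D₀ * yk E.ω W (Rk W j) * P j with hTd
    have hT0 : 0 ≤ T := by
      have := bj.1.P1
      have := Qq_nonneg E.ω' (Rk W j)
      positivity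
    have h2 : D₀ * yk E.ω W (Rk W j) ≤ 2 ^ (k - j) * (D₀ * yk E.ω W (Rk W k)) := by
      have := mul_le_mul_of_nonneg_left (y_le (y := fun j => yk E.ω W (Rk W j)) hy j1 j2)
        (show 0 ≤ D₀ by linarith)
      linarith
    have h3 : ((W : ℝ) ^ (1 / 2 : ℝ)) ^ (k - j) ≤
        (W : ℝ) ^ (1 / 2 : ℝ) * max (eu x / Rk W k) (Rk W k / eu x) ^ (1 / 2 : ℝ) := by
      rw [← mul_rpow hW0.le hm0, rpow_pow_comm hW0.le]
      refine rpow_le_rpow (by positivity) ?_ (by norm_num)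
      rcases j2.eq_or_lt with rfl | h
      · rw [Nat.sub_self, pow_zero]
        refine one_le_mul_of_one_le_of_one_le (by linarith) ?_
        rcases le_total (eu x) (Rk W j) with h | h
        · exact le_max_of_le_right ((one_le_div (by linarith)).2 h)
        · exact le_max_of_le_left ((one_le_div (by linarith)).2 h)
      · refine le_trans ?_ (mul_le_mul_of_nonneg_left (le_max_right _ _) hW0.le)
        have h4 := j4 h
        have h5 := Rk_add W j (k - j)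
        rw [Rk_succ] at h4
        rw [Nat.add_sub_cancel' j2] at h5
        rw [← mul_div_assoc, le_div_iff₀ (by linarith), h5]
        have : (0 : ℝ) ≤ (W : ℝ) ^ (k - j) := by positivity
        nlinarith [mul_le_mul_of_nonneg_left (show eu x ≤ W * Rk W j by nlinarith) this]
    have h4 : (2 : ℝ) ^ (k - j) ≤ θ ^ (k - j) *
        ((W : ℝ) ^ (1 / 2 : ℝ) * max (eu x / Rk W k) (Rk W k / eu x) ^ (1 / 2 : ℝ)) := by
      refine le_trans ?_ (mul_le_mul_of_nonneg_left h3 (pow_nonneg hθ0 _))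
      rw [← mul_pow]
      exact pow_le_pow_left₀ zero_le_two (two_le_pow hW hew.2) _
    have h5 : θ ^ (k - j) * T ≤ ∑ j ∈ Icc a₂ k,
        θ ^ (k - j) * (Qq E.ω' (Rk W j) + D₀ * yk E.ω W (Rk W j) * P j) :=
      single_le_sum hT (mem_Icc.2 ⟨j1, j2⟩)
    have hC0 : 0 ≤ C := by linarith
    calc |KK E.ω' x| * eu x ^ 4 ≤ C * (D₀ * yk E.ω W (Rk W j)) * T / Rk W j ^ 4 * (4 * W * Rk W j) ^ 4 := by
          gcongr
      _ = C * (4 * W) ^ 4 * T * (D₀ * yk E.ω W (Rk W j)) := by field_simp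
      _ ≤ C * (4 * W) ^ 4 * T * (θ ^ (k - j) * ((W : ℝ) ^ (1 / 2 : ℝ) *
          max (eu x / Rk W k) (Rk W k / eu x) ^ (1 / 2 : ℝ)) * (D₀ * yk E.ω W (Rk W k))) :=
          mul_le_mul_of_nonneg_left (h2.trans (mul_le_mul_of_nonneg_right h4 hY0)) (by positivity)
      _ = D₀ * yk E.ω W (Rk W k) * (C₁ * (θ ^ (k - j) * T)) *
          max (eu x / Rk W k) (Rk W k / eu x) ^ (1 / 2 : ℝ) := by rw [hC₁]; ring
      _ ≤ _ := by
          refine mul_le_mul_of_nonneg_right (mul_le_mul_of_nonneg_left ?_ hY0) (by positivity)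
          refine le_add_of_nonneg_of_le hB0 (mul_le_mul (by linarith) h5 (by positivity) (by linarith))
  · push Not at hsm
    have ba := (hB a₂ le_rfl hk).1
    have hc := Rk_cast W a₂
    obtain ⟨a, ha⟩ : ∃ a, 2 * W ^ a₂ = a + 1 := ⟨2 * W ^ a₂ - 1, by have := Nat.one_le_pow a₂ W hW1; omega⟩
    have hxa : x ∈ bl 0 a := mem_bl_of_eu (by
      rw [sub_zero]; rw [ha] at hc; push_cast at hc; linarith)
    have h1 : |KK E.ω' x| ≤ B' := HA E ba.toOk (by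
        have h2 : (1 : ℝ) ≤ E.r₁ := by exact_mod_cast (by have := ba.r8; omega : 1 ≤ E.r₁)
        have h3 := (le_self_pow₀ h2 (by norm_num : 100 ≠ 0)).trans ba.r1
        rw [hc] at h3
        exact_mod_cast h3)
      (by
        have h2 : 16 * (p.w : ℝ) * Rk W a₂ ≤ E.L :=
          le_trans (mul_le_mul (by linarith) (Rk_mono hW1 hk) (by linarith) (by linarith)) hL
        rw [hc] at h2
        exact_mod_cast h2) _
      ⟨(Om.depG_JJ 0 x).mono (union_subset (bl_mono 0 (by omega)) (bl_subset_bl hxa (by omega))),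
        (Om.tame_Jz 0).mul (Om.tame_Jz x)⟩ fun c hc => HB E.Λ bk.ed.mem x a c hxa (by omega)
    have h2 : 1 / Rk W a₂ ≤ D₀ * yk E.ω W (Rk W k) * max (eu x / Rk W k) (Rk W k / eu x) ^ (1 / 2 : ℝ) := by
      have h3 : Rk W k ^ (-(1 / 2) : ℝ) ≤ D₀ * yk E.ω W (Rk W k) :=
        (rpow_le_rpow_of_exponent_le (by linarith) (by linarith)).trans bk.maj.2.1
      have h4 : (Rk W k / Rk W a₂ ^ 2) ^ (1 / 2 : ℝ) ≤ max (eu x / Rk W k) (Rk W k / eu x) ^ (1 / 2 : ℝ) :=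
        rpow_le_rpow (by positivity) (le_max_of_le_right
          (div_le_div_of_nonneg_left (by linarith) (by linarith) (by nlinarith))) (by norm_num)
      refine le_trans (le_of_eq ?_) (mul_le_mul h3 h4 (by positivity) hY0)
      have h5 : 0 < Rk W k ^ (1 / 2 : ℝ) := by positivity
      rw [div_rpow (by linarith) (by positivity), ← sqrt_eq_rpow (Rk W a₂ ^ 2), sqrt_sq (by linarith),
        rpow_neg (by linarith)]
      field_simp
    calc |KK E.ω' x| * eu x ^ 4 ≤ |B'| * Rk W a₂ ^ 4 :=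
          mul_le_mul (h1.trans (le_abs_self _)) (pow_le_pow_left₀ (by linarith) (by linarith) 4)
            (by positivity) (abs_nonneg _)
      _ = |B'| * Rk W a₂ ^ 5 * (1 / Rk W a₂) := by field_simp
      _ ≤ |B'| * Rk W a₂ ^ 5 * (D₀ * yk E.ω W (Rk W k) *
          max (eu x / Rk W k) (Rk W k / eu x) ^ (1 / 2 : ℝ)) := mul_le_mul_of_nonneg_left h2 hB0
      _ = D₀ * yk E.ω W (Rk W k) * (|B'| * Rk W a₂ ^ 5) *
          max (eu x / Rk W k) (Rk W k / eu x) ^ (1 / 2 : ℝ) := by ring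
      _ ≤ _ := mul_le_mul_of_nonneg_right (mul_le_mul_of_nonneg_left (le_add_of_nonneg_right hCS) hY0)
          (by positivity)

end K19

open K19

/-- the `K'` half of CLOSE -/
theorem khStmt (hD : DkStmt) (hA : AmbStmt) : KhStmt := by
  intro p W D₀ hW
  obtain ⟨C₁, h1, H1⟩ := qq_le W (by omega)
  obtain ⟨C₂, h2, H2⟩ := K19.kp hD hA p W D₀ hW
  have hd := abs_nonneg D₀
  have hd2 : 0 ≤ C₂ * |D₀| := by positivity
  refine ⟨C₁ + C₂ + C₂ * |D₀|, by linarith, fun E R Y h hy => (H1 p D₀ R Y E h hy).trans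
    (mul_le_mul_of_nonneg_right (by linarith) (by positivity)), fun a₂ => ?_⟩
  obtain ⟨B, hB, H⟩ := H2 a₂
  refine ⟨B, hB, fun E K P _ hb hy hL k k1 k2 => ?_⟩
  have hW1 : 1 ≤ W := by omega
  have key := H E k P k1 (fun j j1 j2 => ⟨(hb j j1 (j2.trans k2)).1, le_trans (by
      rw [← mul_assoc]
      exact mul_le_mul_of_nonneg_right ((mul_le_mul_of_nonneg_left (le_abs_self _) (by linarith)).trans
        (by linarith)) (yk_nonneg _ _ _)) (hb j j1 (j2.trans k2)).2⟩)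
    (fun j j1 j2 => hy j j1 (by omega)) (le_trans (mul_le_mul (by linarith) (Rk_mono hW1 k2)
      (by linarith [two_le_Rk hW1 k]) (by linarith)) hL)
  simp only [← pow_mul] at key
  have hD1 := (hb k k1 k2).1.D1
  have hS : 0 ≤ ∑ j ∈ Icc a₂ k, ((W : ℝ) ^ (-ew p.w)) ^ (2 * (k - j)) *
      (Qq E.ω' (Rk W j) + D₀ * yk E.ω W (Rk W j) * P j) := sum_nonneg fun j hj => by
    have := (hb j (mem_Icc.1 hj).1 ((mem_Icc.1 hj).2.trans k2)).1.P1
    have := yk_nonneg E.ω W (Rk W j)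
    have := Qq_nonneg E.ω' (Rk W j)
    positivity
  have hY : 0 ≤ D₀ * yk E.ω W (Rk W k) := mul_nonneg (by linarith) (yk_nonneg _ _ _)
  have hR := two_le_Rk hW1 k
  refine ⟨mul_nonneg (by linarith) (by linarith), fun x h0 hx => (key.2 x h0 hx).trans
    (mul_le_mul_of_nonneg_right (mul_le_mul_of_nonneg_left ?_ hY)
      (rpow_nonneg (le_max_of_le_left (div_nonneg (by linarith [one_le_eu h0]) (by linarith))) _))⟩
  rw [mul_add]
  exact add_le_add (le_mul_of_one_le_left hB (by linarith)) (mul_le_mul_of_nonneg_right (by linarith) hS)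

/-- CLOSE -/
theorem closeStmt (h1 : Cl1Stmt) (hD : DkStmt) (hP : ApStmt) (hA : AmbStmt) : CloseStmt :=
  close_of h1 hP (khStmt hD hA)

end Crest.Agent.T145.Ev
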