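import Crest.Agent.T145.FlDef_82
import Crest.Agent.T145.OmB_11
import Crest.Agent.T145.CorB_59
import Crest.Agent.T145.Soft_23

/-!
# Row 145, task FL ENV (helper30)

The torus state is an `Env`; algebra of insertions and integer charges (`E30`); linearity, order,
oddness and differentiation in the charge for represented states (`Rep.*`, `Env.*`).
-/

set_option autoImplicit false

namespace Crest.Agent.T145.Fl

open Finset Pot Xi Real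

/-- ENV: the torus state is an invariant state -/
theorem env_om {p : Par} {Λ : Lat} {L N n : ℕ} (hG : Gs p Λ L) (h1 : 100 * p.w * p.r₀ ≤ L) (h2 : L ≤ N)
    (h3 : N ≤ p.K * L) (h4 : 2 * (N + Λ.rg) < n) (h5 : n ≤ 2 * (N + N / 4) + 1) :
    Env p Λ (Om.om Λ n) L N := by
  have hΛ := hG.mem.ok
  have hn : 2 * Λ.rg < n := by omega
  refine ⟨hG, h1, h2, h3, fun c => ⟨Om.Tb Λ n c, Om.amb_Tb hΛ c h4, fun F hF =>
    Om.om_Tb hΛ hn (by omega) hF⟩, fun c z F hF => Om.om_trl hΛ hn hF z,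
    fun F hF => ⟨(Om.om_rot hΛ hn hF 0).2, (Om.om_swp hΛ hn hF 0).2⟩,
    sq (0 - (((n / 2 : ℕ) : ℤ), ((n / 2 : ℕ) : ℤ))) n, Om.bl_subset_sq 0 (by omega), fun x hx => ?_,
    fun F hF => Om.sum_om_J hΛ (by omega) _ hF.1 fun x _ => Om.og_tame hΛ
      ((hF.1.mono subset_union_left).mul ((Om.depG_Jz x).mono subset_union_right))
      (hF.2.mul (Om.tame_Jz x))⟩
  simp only [mem_bl, mem_sq, Prod.fst_sub, Prod.snd_sub, Prod.fst_zero, Prod.snd_zero] at hx ⊢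
  omega


namespace E30

/-! ## insertions -/

section ins
variable {z : Pt} {r : ℕ} {F G : Cfg Pt → ℝ}

theorem ins_mono {z' : Pt} {r' : ℕ} (h : Ins z r F) (hs : bl z r ⊆ bl z' r') : Ins z' r' F :=
  ⟨h.1.mono hs, h.2⟩
theorem ins_le {r' : ℕ} (h : Ins z r F) (hr : r ≤ r') : Ins z r' F := ins_mono h (bl_mono z hr)
theorem ins_const (z : Pt) (r : ℕ) (c : ℝ) : Ins z r fun _ => c := ⟨DepG.const _ c, Tame.const c⟩
theorem ins_add (h : Ins z r F) (h' : Ins z r G) : Ins z r fun s => F s + G s :=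
  ⟨h.1.add h'.1, h.2.add h'.2⟩
theorem ins_sub (h : Ins z r F) (h' : Ins z r G) : Ins z r fun s => F s - G s :=
  ⟨h.1.sub h'.1, h.2.sub h'.2⟩
theorem ins_mul (h : Ins z r F) (h' : Ins z r G) : Ins z r fun s => F s * G s :=
  ⟨h.1.mul h'.1, h.2.mul h'.2⟩
theorem ins_abs (h : Ins z r F) : Ins z r fun s => |F s| := ⟨h.1.comp (|·|), h.2.abs⟩
theorem ins_pow (h : Ins z r F) (k : ℕ) : Ins z r fun s => F s ^ k := ⟨h.1.comp (· ^ k), h.2.pow k⟩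
theorem ins_smul (h : Ins z r F) (c : ℝ) : Ins z r fun s => c * F s := ins_mul (ins_const z r c) h
theorem ins_sum {ι : Type*} (T : Finset ι) {H : ι → Cfg Pt → ℝ} (h : ∀ i ∈ T, Ins z r (H i)) :
    Ins z r fun s => ∑ i ∈ T, H i s := ⟨DepG.sum fun i hi => (h i hi).1, Tame.sum T fun i hi => (h i hi).2⟩
theorem ins_prod {ι : Type*} (T : Finset ι) {H : ι → Cfg Pt → ℝ} (h : ∀ i ∈ T, Ins z r (H i)) :
    Ins z r fun s => ∏ i ∈ T, H i s :=
  ⟨DepG.prod fun i hi => (h i hi).1, Tame.prod T fun i hi => (h i hi).2⟩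
theorem ins_bdd (h : DepG (bl z r) F) {B : ℝ} (hB : ∀ s, |F s| ≤ B) : Ins z r F := ⟨h, Tame.bdd hB⟩
theorem ins_J {x : Pt} (h : bl x 1 ⊆ bl z r) : Ins z r (Jz x) := ins_mono (Om.ins_Jz x le_rfl) h
theorem ins_J' {x : Pt} {n : ℕ} (hx : x ∈ bl z n) (h : n + 1 ≤ r) : Ins z r (Jz x) :=
  ins_J (bl_one_sub h x hx)
theorem ins_trl (h : Ins 0 r F) (z : Pt) : Ins z r (trl z F) := by
  simpa only [zero_add] using Om.ins_trl h z

/-- the product of a far family is an insertion in every ball containing `U` -/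
theorem ins_far {p : Par} {L : ℕ} {ι : Type} {I : Finset ι} {x : ι → Pt} {rr : ι → ℕ}
    {H : ι → Cfg Pt → ℝ} (hw : 1 ≤ p.w) (h : Far p L (bl z r) I x rr H) :
    Ins z r fun s => ∏ i ∈ I, H i s :=
  ins_prod I fun i hi => ins_mono (h.ins i hi)
    ((bl_mono _ (Nat.le_mul_of_pos_left _ hw)).trans (h.sub i hi))

theorem even_mul_odd (h : EvenF F) (h' : OddF G) : OddF fun s => F s * G s := fun s => by
  simp only [h s, h' s, mul_neg]
theorem even_trl (h : EvenF F) (z : Pt) : EvenF (trl z F) := fun s => by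
  simp only [trl, map_neg, h _]
theorem odd_pr (f : Pt → ℝ) : OddF fun s => pr f s := fun s => map_neg _ s

theorem trl_mul (z : Pt) (F G : Cfg Pt → ℝ) :
    trl z (fun s => F s * G s) = fun s => trl z F s * trl z G s := rfl
theorem trl_zero (F : Cfg Pt → ℝ) : trl 0 F = F := by
  funext s; simp only [trl]; congr 1; ext x; simp
theorem trl_trl (z z' : Pt) (F : Cfg Pt → ℝ) : trl z (trl z' F) = trl (z' + z) F := by
  funext s; simp only [trl]; congr 1; ext x; simp [add_assoc]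
theorem trl_pr (z : Pt) (f : Pt → ℝ) (g : ℝ → ℝ) :
    trl z (fun s => g (pr f s)) = fun s => g (pr (fun y => f (y - z)) s) := by
  funext s; simp only [trl, pr_mapH, Equiv.subRight_apply]

end ins

/-! ## integer charges -/

section chq
variable {U U' : Finset Pt} {ξ η : Pt → ℝ} {q q' : ℤ}

theorem chq_mono (h : Chq U ξ q) (hU : U ⊆ U') : Chq U' ξ q :=
  ⟨h.1.mono hU, by rw [← h.2]; exact (sum_subset hU fun x _ hx => h.1 x hx).symm⟩
theorem chq_zero (U : Finset Pt) : Chq U 0 0 := ⟨fun _ _ => rfl, by simp⟩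
theorem chq_add (h : Chq U ξ q) (h' : Chq U η q') : Chq U (ξ + η) (q + q') :=
  ⟨fun x hx => by simp [h.1 x hx, h'.1 x hx], by simp [sum_add_distrib, h.2, h'.2]⟩
theorem chq_sub (h : Chq U ξ q) (h' : Chq U η q') : Chq U (ξ - η) (q - q') :=
  ⟨fun x hx => by simp [h.1 x hx, h'.1 x hx], by simp [sum_sub_distrib, h.2, h'.2]⟩
theorem chq_smul0 (h : Chq U ξ 0) (t : ℝ) : Chq U (t • ξ) 0 :=
  ⟨fun x hx => by simp [h.1 x hx], by simp [← mul_sum, h.2]⟩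
theorem chq_add0 (h : Chq U ξ q) (h' : Chq U η 0) : Chq U (ξ + η) q := by
  simpa only [add_zero] using chq_add h h'
theorem chq_sub0 (h : Chq U ξ q) (h' : Chq U η 0) : Chq U (ξ - η) q := by
  simpa only [sub_zero] using chq_sub h h'
theorem chq_line (h : Chq U ξ q) (h' : Chq U η 0) (t : ℝ) : Chq U (ξ + t • η) q :=
  chq_add0 h (chq_smul0 h' t)
theorem chq_A0 {c : Pt} {n N : ℕ} {v : Pt → ℝ} (hv : Pot.Sup (bl c n) v) (h : n + 1 ≤ N) :
    Chq (bl c N) (A0 v) 0 :=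
  ⟨(sup_A0 hv).mono (bl_mono c h), by rw [sum_A0 h hv]; simp⟩
theorem chq_xi {ρ : ℝ} {n : ℕ} (hρ : 0 < ρ) (h : 2 * ρ ≤ n) : Chq (bl 0 n) (xi ρ) 1 :=
  ⟨sup_xi hρ h, by rw [sum_xi hρ h]; simp⟩

theorem depG_pr (h : Chq U ξ 0) : DepG U fun s => pr ξ s := DepG.pr h.1 (by rw [h.2]; simp)
theorem ins_pr {z : Pt} {r : ℕ} (h : Chq (bl z r) ξ 0) : Ins z r fun s => pr ξ s :=
  ⟨depG_pr h, Tame.hom _⟩
theorem ins_prA0 {z : Pt} {n r : ℕ} {v : Pt → ℝ} (hv : Pot.Sup (bl z n) v) (h : n + 1 ≤ r) :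
    Ins z r fun s => pr (A0 v) s := ins_pr (chq_A0 hv h)

theorem pr_shift (h : Chq U ξ q) {s s' : Cfg Pt} {k : ℤ} (e : ∀ x ∈ U, s' x = s x + k) :
    pr ξ s' = pr ξ s + q * k := by
  simp only [pr_of_fsupp ξ _ h.1]
  rw [← h.2, sum_mul, ← sum_add_distrib]
  exact sum_congr rfl fun x hx => by rw [e x hx]; push_cast; ring

theorem depG_cp (h : Chq U ξ q) (φ : ℝ) : DepG U (cp ξ φ) := fun s s' k e => by
  simp only [cp, pr_shift h e]
  rw [← cos_add_int_mul_two_pi _ (q * k)]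
  congr 1; push_cast; ring

theorem abs_cp_le (ξ : Pt → ℝ) (φ : ℝ) (s : Cfg Pt) : |cp ξ φ s| ≤ 1 := abs_cos_le_one _
theorem tame_cp (ξ : Pt → ℝ) (φ : ℝ) : Tame (cp ξ φ) := Tame.bdd (abs_cp_le ξ φ)
theorem ins_cp {z : Pt} {r : ℕ} (h : Chq (bl z r) ξ q) (φ : ℝ) : Ins z r (cp ξ φ) :=
  ⟨depG_cp h φ, tame_cp ξ φ⟩

theorem out_pr {B : Finset Pt} (h : ∀ y ∈ B, ξ y = 0) : Out B fun s => pr ξ s := fun s s' e => by
  have : pr ξ (s - s') = 0 := by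
    rw [pr_eq_sum]
    refine sum_eq_zero fun x _ => ?_
    by_cases hx : x ∈ B
    · rw [h x hx, zero_mul]
    · rw [Finsupp.sub_apply, e x hx, sub_self]; simp
  rw [map_sub] at this
  exact sub_eq_zero.1 this
theorem out_cp {B : Finset Pt} (h : ∀ y ∈ B, ξ y = 0) (φ : ℝ) : Out B (cp ξ φ) :=
  (out_pr h).comp fun x => cos (2 * π * x + φ)

theorem cp_zero (φ : ℝ) : cp 0 φ = fun _ => cos φ := by funext s; simp [cp]
theorem cp_sub_half (ξ : Pt → ℝ) (φ : ℝ) (s : Cfg Pt) :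
    cp ξ (φ - π / 2) s = sin (2 * π * pr ξ s + φ) := by
  rw [cp, ← add_sub_assoc, cos_sub_pi_div_two]
theorem cp_pi_half (ξ : Pt → ℝ) (s : Cfg Pt) : cp ξ (π / 2) s = -sin (2 * π * pr ξ s) := by
  rw [cp, cos_add_pi_div_two]
theorem odd_cp (ξ : Pt → ℝ) : OddF (cp ξ (π / 2)) := fun s => by
  simp only [cp_pi_half, map_neg, mul_neg, sin_neg]
/-- the phase splits -/
theorem cp_phase (ξ : Pt → ℝ) (φ : ℝ) (s : Cfg Pt) :
    cp ξ φ s = cos φ * cp ξ 0 s + sin φ * cp ξ (π / 2) s := by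
  rw [cp_pi_half, cp, cp, add_zero, cos_add]; ring
/-- product of two charges -/
theorem cp_mul (ξ η : Pt → ℝ) (φ ψ : ℝ) (s : Cfg Pt) :
    cp ξ φ s * cp η ψ s = (cp (ξ + η) (φ + ψ) s + cp (ξ - η) (φ - ψ) s) / 2 := by
  simp only [cp, pr_add, pr_sub, AddMonoidHom.add_apply, AddMonoidHom.sub_apply]
  rw [show 2 * π * (pr ξ s + pr η s) + (φ + ψ) = (2 * π * pr ξ s + φ) + (2 * π * pr η s + ψ) by ring,
    show 2 * π * (pr ξ s - pr η s) + (φ - ψ) = (2 * π * pr ξ s + φ) - (2 * π * pr η s + ψ) by ring,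
    cos_add (2 * π * pr ξ s + φ), cos_sub (2 * π * pr ξ s + φ)]
  ring
theorem trl_cp (z : Pt) (ξ : Pt → ℝ) (φ : ℝ) : trl z (cp ξ φ) = cp (fun y => ξ (y - z)) φ :=
  trl_pr z ξ fun x => cos (2 * π * x + φ)
theorem d4_cp {u : Pt → ℝ} (h1 : ∀ x, u x.swap = u x) (h2 : ∀ x : Pt, u (-x.1, x.2) = u x) (φ : ℝ) :
    D4 0 (cp u φ) := by
  have := d4_pr h1 h2 0 fun x => cos (2 * π * x + φ)
  simp only [sub_zero] at this
  exact this

theorem Sn_eq (ρ : ℝ) : Sn ρ = cp (xi ρ) (-(π / 2)) := by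
  funext s; rw [← zero_sub, cp_sub_half, add_zero, Sn]
theorem abs_Sn_le (ρ : ℝ) (s : Cfg Pt) : |Sn ρ s| ≤ 1 := abs_sin_le_one _
theorem odd_Sn (ρ : ℝ) : OddF (Sn ρ) := fun s => by simp only [Sn, map_neg, mul_neg, sin_neg]
theorem d4_Sn (ρ : ℝ) : D4 0 (Sn ρ) := by rw [Sn_eq]; exact d4_cp (xi_swap ρ) (xi_neg_fst ρ) _
theorem ins_Sn {ρ : ℝ} {n : ℕ} (hρ : 0 < ρ) (h : 2 * ρ ≤ n) : Ins 0 n (Sn ρ) := by
  rw [Sn_eq]; exact ins_cp (chq_xi hρ h) _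
theorem out_Sn {ρ : ℝ} {n : ℕ} (hρ : 0 < ρ) (h : (n : ℝ) + 1 ≤ ρ) : Out (bl 0 n) (Sn ρ) := by
  rw [Sn_eq]; exact out_cp (fun _ hy => xi_in hρ h hy) _

end chq

end E30

open E30

/-! ## represented states -/

namespace Rep
variable {Λ : Lat} {ω : (Cfg Pt → ℝ) → ℝ} {m : Mdl Pt} {c : Pt} {N : ℕ} {F G H : Cfg Pt → ℝ}
  {ξ η : Pt → ℝ} {q : ℤ} (h : Rep Λ ω m c N)
include h

theorem cen : Cen (m.W 0) := h.1.ctr.cen h.1.anch
theorem amb_sub {U : Finset Pt} (hU : U ⊆ bl c N) : Nc.Amb Λ m U :=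
  ⟨h.1.ctr, h.1.anch, hU.trans h.1.sub, h.1.near.mono hU⟩
theorem ex_eq (hF : Ins c N F) : ω F = Ex (m.W 0) F := h.2 F hF.1
theorem ex_add (hF : Ins c N F) (hG : Ins c N G) : ω (fun s => F s + G s) = ω F + ω G := by
  rw [h.ex_eq (ins_add hF hG), h.ex_eq hF, h.ex_eq hG, Ex_add (h.cen.ig hF.2) (h.cen.ig hG.2)]
theorem ex_sub (hF : Ins c N F) (hG : Ins c N G) : ω (fun s => F s - G s) = ω F - ω G := by
  rw [h.ex_eq (ins_sub hF hG), h.ex_eq hF, h.ex_eq hG, Ex_sub (h.cen.ig hF.2) (h.cen.ig hG.2)]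
theorem ex_smul (hF : DepG (bl c N) F) (a : ℝ) : ω (fun s => a * F s) = a * ω F := by
  rw [h.2 _ (hF.comp (a * ·)), h.2 _ hF, Ex_const_mul]
theorem ex_const (a : ℝ) : ω (fun _ => a) = a := by
  rw [h.2 _ (DepG.const _ a), h.cen.wt.ex_const]
theorem ex_sum {ι : Type*} (T : Finset ι) {F : ι → Cfg Pt → ℝ} (hF : ∀ i ∈ T, Ins c N (F i)) :
    ω (fun s => ∑ i ∈ T, F i s) = ∑ i ∈ T, ω (F i) := by
  rw [h.ex_eq (ins_sum T hF), Ex_sum T fun i hi => h.cen.ig (hF i hi).2]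
  exact sum_congr rfl fun i hi => (h.ex_eq (hF i hi)).symm
theorem ex_sum_smul {ι : Type*} (T : Finset ι) (a : ι → ℝ) {F : ι → Cfg Pt → ℝ}
    (hF : ∀ i ∈ T, Ins c N (F i)) : ω (fun s => ∑ i ∈ T, a i * F i s) = ∑ i ∈ T, a i * ω (F i) := by
  rw [h.ex_sum T fun i hi => ins_smul (hF i hi) (a i)]
  exact sum_congr rfl fun i hi => h.ex_smul (hF i hi).1 _
theorem ex_odd (hF : DepG (bl c N) F) (ho : OddF F) : ω F = 0 := by
  rw [h.2 _ hF, h.cen.ex_odd ho]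
theorem ex_mono (hF : Ins c N F) (hG : Ins c N G) (hle : ∀ s, F s ≤ G s) : ω F ≤ ω G := by
  rw [h.ex_eq hF, h.ex_eq hG]; exact Ex_mono h.cen.nonneg (h.cen.ig hF.2) (h.cen.ig hG.2) hle
theorem abs_ex_le (hF : DepG (bl c N) F) {B : ℝ} (hB : ∀ s, |F s| ≤ B) : |ω F| ≤ B := by
  rw [h.2 _ hF]; exact h.cen.wt.abs_ex_le fun s _ => hB s
theorem abs_ex_le_abs (hF : Ins c N F) : |ω F| ≤ ω fun s => |F s| := by
  rw [h.ex_eq hF, h.ex_eq (ins_abs hF)]; exact abs_Ex_le h.cen.nonneg (h.cen.ig hF.2)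
theorem abs_ex_le_ex (hF : DepG (bl c N) F) (hG : Ins c N G) (hle : ∀ s, |F s| ≤ G s) :
    |ω F| ≤ ω G :=
  have hF' : Ins c N F := ⟨hF, hG.2.of_le hle⟩
  (h.abs_ex_le_abs hF').trans (h.ex_mono (ins_abs hF') hG hle)
/-- Cauchy–Schwarz -/
theorem abs_ex_mul_le (hF : Ins c N F) (hG : Ins c N G) :
    |ω fun s => F s * G s| ≤ √(ω fun s => F s ^ 2) * √(ω fun s => G s ^ 2) := by
  rw [h.ex_eq (ins_mul hF hG), h.ex_eq (ins_pow hF 2), h.ex_eq (ins_pow hG 2)]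
  exact abs_Ex_mul_le h.cen.nonneg (h.cen.ig (hF.2.pow 2)) (h.cen.ig (hG.2.pow 2))

/-- the phase against an even insertion -/
theorem ex_even_cp (hH : Ins c N H) (he : EvenF H) (hξ : Chq (bl c N) ξ q) (φ : ℝ) :
    ω (fun s => H s * cp ξ φ s) = cos φ * ω fun s => H s * cp ξ 0 s := by
  have a := ins_mul hH (ins_cp hξ 0)
  have b := ins_mul hH (ins_cp hξ (π / 2))
  have e : (fun s => H s * cp ξ φ s) =
      fun s => cos φ * (H s * cp ξ 0 s) + sin φ * (H s * cp ξ (π / 2) s) := by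
    funext s; rw [cp_phase]; ring
  rw [e, h.ex_add (ins_smul a _) (ins_smul b _), h.ex_smul a.1, h.ex_smul b.1,
    h.ex_odd b.1 (even_mul_odd he (odd_cp ξ)), mul_zero, add_zero]
theorem ex_cp (hξ : Chq (bl c N) ξ q) (φ : ℝ) : ω (cp ξ φ) = cos φ * ω (cp ξ 0) := by
  simpa only [one_mul] using h.ex_even_cp (ins_const c N 1) (fun _ => rfl) hξ φ
theorem ex_cp_le_one (hξ : Chq (bl c N) ξ q) (φ : ℝ) : |ω (cp ξ φ)| ≤ 1 :=
  h.abs_ex_le (depG_cp hξ φ) (abs_cp_le ξ φ)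








end Rep

/-! ## invariant states -/

namespace Env
variable {p : Par} {Λ : Lat} {ω : (Cfg Pt → ℝ) → ℝ} {L N : ℕ} {c : Pt} {F G H : Cfg Pt → ℝ}
  {ξ η : Pt → ℝ} {q : ℤ} (h : Env p Λ ω L N)
include h

theorem ok : Λ.Ok := h.mem.ok
theorem ex_add (hF : Ins c N F) (hG : Ins c N G) : ω (fun s => F s + G s) = ω F + ω G :=
  (h.amb c).elim fun _ hm => hm.ex_add hF hG
theorem ex_sub (hF : Ins c N F) (hG : Ins c N G) : ω (fun s => F s - G s) = ω F - ω G :=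
  (h.amb c).elim fun _ hm => hm.ex_sub hF hG
theorem ex_smul (hF : DepG (bl c N) F) (a : ℝ) : ω (fun s => a * F s) = a * ω F :=
  (h.amb c).elim fun _ hm => hm.ex_smul hF a
theorem ex_const (a : ℝ) : ω (fun _ => a) = a := (h.amb 0).elim fun _ hm => hm.ex_const a
theorem ex_sum {ι : Type*} (T : Finset ι) {F : ι → Cfg Pt → ℝ} (hF : ∀ i ∈ T, Ins c N (F i)) :
    ω (fun s => ∑ i ∈ T, F i s) = ∑ i ∈ T, ω (F i) := (h.amb c).elim fun _ hm => hm.ex_sum T hF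
theorem ex_sum_smul {ι : Type*} (T : Finset ι) (a : ι → ℝ) {F : ι → Cfg Pt → ℝ}
    (hF : ∀ i ∈ T, Ins c N (F i)) : ω (fun s => ∑ i ∈ T, a i * F i s) = ∑ i ∈ T, a i * ω (F i) :=
  (h.amb c).elim fun _ hm => hm.ex_sum_smul T a hF
theorem ex_odd (hF : DepG (bl c N) F) (ho : OddF F) : ω F = 0 :=
  (h.amb c).elim fun _ hm => hm.ex_odd hF ho
theorem abs_ex_le (hF : DepG (bl c N) F) {B : ℝ} (hB : ∀ s, |F s| ≤ B) : |ω F| ≤ B :=
  (h.amb c).elim fun _ hm => hm.abs_ex_le hF hB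
theorem abs_ex_le_ex (hF : DepG (bl c N) F) (hG : Ins c N G) (hle : ∀ s, |F s| ≤ G s) :
    |ω F| ≤ ω G := (h.amb c).elim fun _ hm => hm.abs_ex_le_ex hF hG hle
theorem abs_ex_mul_le (hF : Ins c N F) (hG : Ins c N G) :
    |ω fun s => F s * G s| ≤ √(ω fun s => F s ^ 2) * √(ω fun s => G s ^ 2) :=
  (h.amb c).elim fun _ hm => hm.abs_ex_mul_le hF hG
theorem ex_cp (hξ : Chq (bl c N) ξ q) (φ : ℝ) : ω (cp ξ φ) = cos φ * ω (cp ξ 0) :=
  (h.amb c).elim fun _ hm => hm.ex_cp hξ φ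
theorem ex_cp_le_one (hξ : Chq (bl c N) ξ q) (φ : ℝ) : |ω (cp ξ φ)| ≤ 1 :=
  (h.amb c).elim fun _ hm => hm.ex_cp_le_one hξ φ







theorem ell_sub {R : ℝ} (hR : 0 < R) (hN : 2 * R ≤ N) (hF : Ins 0 N F) (hG : Ins 0 N G) (a : ℝ) :
    ell ω R (fun s => F s - a * G s) = ell ω R F - a * ell ω R G := by
  have b := ins_mul hF (ins_Sn hR hN)
  have d := ins_mul hG (ins_Sn hR hN)
  simp only [ell, sub_mul, mul_assoc]
  rw [h.ex_sub b (ins_smul d a), h.ex_smul d.1]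



omit h in
theorem ell_eq (ω : (Cfg Pt → ℝ) → ℝ) (R : ℝ) (F : Cfg Pt → ℝ) :
    ell ω R F = ω fun s => F s * cp (xi R) (-(π / 2)) s := by rw [← Sn_eq, ell]



end Env

end Crest.Agent.T145.Fl
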