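import Crest.Agent.T145.KtA_54

-- ▼ part T145/KtC_54
section

/-!
# Row 145 (helper54): the discrete Kosterlitz-Thouless flow, part C (massive orbits: the exit time)
-/

set_option autoImplicit false

namespace Crest.Agent.T145.KT

open Filter Topology Finset Real

/-- the flow is valid from `a` on as long as the orbit stays in the ball of radius `ε` -/
def Val (C δ ε : ℝ) (x y : ℕ → ℝ) (a : ℕ) : Prop :=
  ∀ n, a ≤ n → (∀ j, a ≤ j → j ≤ n → |x j| + y j ≤ ε) → Step C δ x y n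

/-- `T` is the first exit time from the ball of radius `ε` -/
def IsExit (ε : ℝ) (x y : ℕ → ℝ) (a T : ℕ) : Prop :=
  a ≤ T ∧ (∀ j, a ≤ j → j < T → |x j| + y j ≤ ε) ∧ ε < |x T| + y T

theorem IsExit.unique {ε : ℝ} {x y : ℕ → ℝ} {a T T' : ℕ} (h : IsExit ε x y a T)
    (h' : IsExit ε x y a T') : T = T' := by
  rcases lt_trichotomy T T' with hl | hl | hl
  · exact absurd (h'.2.1 T h.1 hl) (not_le.2 h.2.2)
  · exact hl
  · exact absurd (h.2.1 T' h'.1 hl) (not_le.2 h'.2.2)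

theorem IsExit.le {ε ε' : ℝ} {x y : ℕ → ℝ} {a T T' : ℕ} (h : IsExit ε x y a T)
    (h' : IsExit ε' x y a T') (hε : ε ≤ ε') : T ≤ T' :=
  not_lt.1 fun hl => absurd ((h.2.1 T' h'.1 hl).trans hε) (not_le.2 h'.2.2)

theorem exists_isExit {ε : ℝ} {x y : ℕ → ℝ} {a : ℕ} (h : ∃ n, a ≤ n ∧ ε < |x n| + y n) :
    ∃ T, IsExit ε x y a T := by
  classical
  refine ⟨Nat.find h, (Nat.find_spec h).1, fun j h1 h2 => ?_, (Nat.find_spec h).2⟩
  exact not_lt.1 fun h3 => Nat.find_min h h2 ⟨h1, h3⟩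

theorem Val.step {C δ ε ε' : ℝ} {x y : ℕ → ℝ} {a n : ℕ} (h : Val C δ ε x y a) (hε : ε' ≤ ε)
    (hn : ∀ j, a ≤ j → j < n → |x j| + y j ≤ ε') :
    ∀ j, a ≤ j → j < n → Step C δ x y j ∧ |x j| + y j ≤ ε' := fun j h1 h2 =>
  ⟨h j h1 fun i h3 h4 => (hn i h3 (by omega)).trans hε, hn j h1 h2⟩

theorem pi_div_two_sub_le_arctan {u l : ℝ} (hu : 0 < u) (hl : 0 < l) :
    π / 2 - l / u ≤ arctan (u / l) := by
  have h1 := arctan_inv_of_pos (div_pos hu hl)
  have h2 : arctan (u / l)⁻¹ ≤ (u / l)⁻¹ := by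
    have := le_tan (x := arctan (u / l)⁻¹) (by simpa using arctan_mono (inv_pos.2 (div_pos hu hl)).le)
      (arctan_lt_pi_div_two _)
    rwa [tan_arctan] at this
  rw [inv_div] at h1 h2
  linarith

theorem arctan_le_of_neg {u l : ℝ} (hu : u < 0) (hl : 0 < l) :
    arctan (u / l) ≤ -(π / 2) + l / (-u) := by
  have := pi_div_two_sub_le_arctan (neg_pos.2 hu) hl
  rw [neg_div, arctan_neg] at this
  linarith

/-- one step of the angle variable -/
theorem St.angle {e x y x' y' w l κ : ℝ} (h : St e x y x' y') (hw : e + (|x| + y) ≤ w)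
    (hw1 : w ≤ 1 / 1000) (hl : 0 < l) (hκ : |y ^ 2 - x ^ 2 - l ^ 2| ≤ κ * (x ^ 2 + l ^ 2))
    (hκ1 : κ ≤ 1 / 5) : |arctan (x / l) - arctan (x' / l) - l| ≤ (κ + 5 * w) * (101 / 100) * l := by
  have he := h.e_nonneg
  have hp := h.pos
  have hx0 := abs_nonneg x
  have hlt : x' < x := h.lt (by linarith)
  obtain ⟨ζ, hζ, hm⟩ := exists_hasDerivAt_eq_slope (fun u => arctan (u / l))
    (fun u => 1 / (1 + (u / l) ^ 2) * (1 / l)) hlt (by fun_prop)
    (fun u _ => (hasDerivAt_arctan (u / l)).comp u (h := fun v => v / l)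
      ((hasDerivAt_id' u).div_const l))
  set S := x ^ 2 + l ^ 2 with hS
  have hS0 : 0 < S := by positivity
  have hκ0 : 0 ≤ κ := nonneg_of_mul_nonneg_left ((abs_nonneg _).trans hκ) hS0
  have hw0 : 0 ≤ w := by linarith
  have h1 := abs_le.1 hκ
  have h2 := abs_le.1 h.hx
  have hy : y ^ 2 ≤ 6 / 5 * S := by nlinarith
  have hey : e * y ^ 2 ≤ w * (6 / 5 * S) := by gcongr; linarith
  have hΔ : x - x' ≤ 121 / 100 * S := by nlinarith
  have hΔ' : x - x' ≤ w / 100 := by nlinarith [h.sub_le]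
  have hz : |ζ ^ 2 - x ^ 2| ≤ 5 / 2 * w * S := by
    have a1 : |ζ - x| ≤ x - x' := by rw [abs_le]; constructor <;> linarith [hζ.1, hζ.2]
    have a2 : |ζ + x| ≤ 201 / 100 * w := by
      have : |ζ + x| ≤ |ζ - x| + |2 * x| := by
        have := abs_add_le (ζ - x) (2 * x); rwa [show ζ - x + 2 * x = ζ + x by ring] at this
      rw [abs_mul, abs_two] at this
      linarith
    rw [sq_sub_sq, abs_mul]
    calc _ ≤ (201 / 100 * w) * (121 / 100 * S) := by gcongr; linarith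
      _ ≤ _ := by nlinarith [mul_nonneg hw0 hS0.le]
  have h3 := abs_le.1 hz
  have hQ : 0 < ζ ^ 2 + l ^ 2 := by positivity
  have e1 : arctan (x / l) - arctan (x' / l) - l =
      ((x - x') - (ζ ^ 2 + l ^ 2)) / (ζ ^ 2 + l ^ 2) * l := by
    have : arctan (x / l) - arctan (x' / l) = 1 / (1 + (ζ / l) ^ 2) * (1 / l) * (x - x') := by
      rw [hm, div_mul_cancel₀ _ (sub_pos.2 hlt).ne']
    rw [this]; field_simp; ring
  rw [e1, abs_mul, abs_of_pos hl]
  refine mul_le_mul_of_nonneg_right ?_ hl.le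
  rw [abs_div, abs_of_pos hQ, div_le_iff₀ hQ]
  have hQ' : 997 / 1000 * S ≤ ζ ^ 2 + l ^ 2 := by nlinarith
  have h4 : (κ + 5 * w) * (101 / 100) * (997 / 1000 * S) ≤
      (κ + 5 * w) * (101 / 100) * (ζ ^ 2 + l ^ 2) := by gcongr
  have h5 := mul_nonneg hκ0 hS0.le
  have h6 := mul_nonneg hw0 hS0.le
  rw [abs_le]; constructor <;> nlinarith

variable {C δ : ℝ} {x y : ℕ → ℝ}

/-- the entrance data of a massive orbit -/
structure Ent (C δ ρ l : ℝ) (x y : ℕ → ℝ) (a : ℕ) : Prop where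
  pos : 0 < l
  le : l ≤ x a / 3
  drift : om C δ (3 * x a) * x a ^ 2 ≤ ρ * l ^ 2
  inv : |y a ^ 2 - x a ^ 2 - l ^ 2| ≤ ρ * l ^ 2

theorem Ent.inv_le {ρ l ε : ℝ} {a : ℕ} (E : Ent C δ ρ l x y a) (hC : 0 ≤ C) (hδ : 0 ≤ δ)
    (hρ : ρ ≤ 1 / 1000) (hε0 : 0 ≤ ε) (hε : om C δ ε ≤ 1 / 1000) (n : ℕ) (hn : a ≤ n)
    (h : ∀ j, a ≤ j → j < n → Step C δ x y j ∧ |x j| + y j ≤ ε) :
    |y n ^ 2 - x n ^ 2 - l ^ 2| ≤ 61 * (ρ + om C δ ε) * (x n ^ 2 + l ^ 2) := by
  have hl := E.pos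
  have l2 := pow_pos hl 2
  have hρ0 : 0 ≤ ρ := nonneg_of_mul_nonneg_left ((abs_nonneg _).trans E.inv) l2
  have hw0 : 0 ≤ om C δ ε := om_nonneg hC hε0
  have hxa : 0 < x a := by linarith [E.le]
  induction n using Nat.strong_induction_on with
  | _ n ih =>
  have hη : ∀ j, a ≤ j → j < n → |x j| + y j ≤ 11 / 5 * (max (x a) |x n| + l) := by
    intro j h1 h2
    have i := (abs_le.1 (ih j h2 h1 fun i h3 h4 => h i h3 (by omega))).2
    have m1 := (KT.drift hC hδ (hε.trans (by norm_num)) h1 fun i h3 h4 => h i h3 (by omega)).1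
    have m2 := (KT.drift hC hδ (hε.trans (by norm_num)) h2.le fun i h3 h4 => h i (by omega) h4).1
    have m3 : |x j| ≤ max (x a) |x n| :=
      abs_le.2 ⟨by linarith [le_max_right (x a) |x n|, neg_abs_le (x n)],
        m1.trans (le_max_left _ _)⟩
    have m4 : y j ≤ 6 / 5 * (|x j| + l) := by
      refine (abs_le_of_sq_le_sq' ?_ (by positivity)).2
      have : 61 * (ρ + om C δ ε) * (x j ^ 2 + l ^ 2) ≤ 61 * (2 / 1000) * (x j ^ 2 + l ^ 2) := by
        gcongr; linarith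
      nlinarith [sq_abs (x j), mul_nonneg (abs_nonneg (x j)) hl.le, sq_nonneg (x j)]
    linarith
  have tri : ∀ d, |(x n ^ 2 - y n ^ 2) - (x a ^ 2 - y a ^ 2)| ≤ d →
      |y n ^ 2 - x n ^ 2 - l ^ 2| ≤ d + ρ * l ^ 2 := fun d hd => by
    have h1 := abs_le.1 hd
    have h2 := abs_le.1 E.inv
    rw [abs_le]; constructor <;> linarith
  have p1 := mul_nonneg hρ0 (sq_nonneg (x n))
  have p2 := mul_nonneg hw0 (sq_nonneg (x n))
  have p3 := mul_nonneg hw0 l2.le
  have p4 := mul_nonneg hρ0 l2.le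
  rcases le_total |x n| (x a) with hc | hc
  · rw [max_eq_left hc] at hη
    have m0 : 0 ≤ min ε (3 * x a) := le_min hε0 (by linarith)
    have d := KT.drift (σ := min ε (3 * x a)) hC hδ
      (((om_mono hC hδ m0 (min_le_left _ _)).trans hε).trans (by norm_num)) hn
      fun j h1 h2 => ⟨(h j h1 h2).1, le_min (h j h1 h2).2 ((hη j h1 h2).trans (by linarith [E.le]))⟩
    have d2 : 10 * om C δ (min ε (3 * x a)) * min ε (3 * x a) * (x a - x n) ≤
        10 * om C δ (3 * x a) * (3 * x a) * (2 * x a) := by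
      have := om_nonneg (δ := δ) hC (show 0 ≤ 3 * x a by linarith)
      have := sub_nonneg.2 d.1
      gcongr
      · exact om_mono hC hδ m0 (min_le_right _ _)
      · exact min_le_right _ _
      · linarith [neg_abs_le (x n)]
    have := tri _ (d.2.trans d2)
    nlinarith [E.drift]
  · rw [max_eq_right hc] at hη
    have m0 : 0 ≤ min ε (11 / 5 * (|x n| + l)) := le_min hε0 (by positivity)
    have d := KT.drift (σ := min ε (11 / 5 * (|x n| + l))) hC hδ
      (((om_mono hC hδ m0 (min_le_left _ _)).trans hε).trans (by norm_num)) hn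
      fun j h1 h2 => ⟨(h j h1 h2).1, le_min (h j h1 h2).2 (hη j h1 h2)⟩
    have d2 : 10 * om C δ (min ε (11 / 5 * (|x n| + l))) * min ε (11 / 5 * (|x n| + l)) *
        (x a - x n) ≤ 10 * om C δ ε * (11 / 5 * (|x n| + l)) * (2 * |x n|) := by
      have := sub_nonneg.2 d.1
      gcongr
      · exact om_mono hC hδ m0 (min_le_left _ _)
      · exact min_le_right _ _
      · linarith [neg_abs_le (x n)]
    have d3 : (|x n| + l) * |x n| ≤ 5 / 4 * (x n ^ 2 + l ^ 2) := by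
      nlinarith [sq_abs (x n), sq_nonneg (|x n| - 2 * l)]
    have d4 := mul_le_mul_of_nonneg_left d3 hw0
    have := tri _ (d.2.trans d2)
    nlinarith

theorem Ent.angle {ρ l ε : ℝ} {a : ℕ} (E : Ent C δ ρ l x y a) (hC : 0 ≤ C) (hδ : 0 ≤ δ)
    (hρ : ρ ≤ 1 / 1000) (hε0 : 0 ≤ ε) (hε : om C δ ε ≤ 1 / 1000) {m n : ℕ} (hm : a ≤ m) (hn : m ≤ n)
    (h : ∀ j, a ≤ j → j < n → Step C δ x y j ∧ |x j| + y j ≤ ε) :
    |arctan (x m / l) - arctan (x n / l) - l * (n - m)| ≤ 70 * (ρ + om C δ ε) * (l * (n - m)) := by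
  have hl := E.pos
  have hρ0 : 0 ≤ ρ := nonneg_of_mul_nonneg_left ((abs_nonneg _).trans E.inv) (pow_pos hl 2)
  have hw0 : 0 ≤ om C δ ε := om_nonneg hC hε0
  induction n, hn using Nat.le_induction with
  | base => simp
  | succ n hn ih =>
    have i := abs_le.1 (ih fun j h1 h2 => h j h1 (by omega))
    obtain ⟨s, hs⟩ := h n (hm.trans hn) (by omega)
    have := abs_le.1 (St.angle s (s.w_le hC hδ hs) hε hl
      (E.inv_le hC hδ hρ hε0 hε n (hm.trans hn) fun j h1 h2 => h j h1 (by omega)) (by linarith))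
    have p1 := mul_nonneg hρ0 hl.le
    have p2 := mul_nonneg hw0 hl.le
    push_cast
    rw [abs_le]; constructor <;> nlinarith

/-- a massive orbit leaves every small ball, on the side `x < 0` -/
theorem Ent.exit {ρ l ε ε₀ : ℝ} {a : ℕ} (E : Ent C δ ρ l x y a) (hC : 0 ≤ C) (hδ : 0 ≤ δ)
    (hρ : ρ ≤ 1 / 1000) (hε : om C δ ε ≤ 1 / 1000) (hεε : ε ≤ ε₀) (hxa : x a ≤ ε / 10)
    (hV : Val C δ ε₀ x y a) : ∃ T, IsExit ε x y a T ∧ x T ≤ -(ε / 3) := by
  have hl := E.pos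
  have hle := E.le
  have hε0 : 0 ≤ ε := by linarith
  have hρ0 : 0 ≤ ρ := nonneg_of_mul_nonneg_left ((abs_nonneg _).trans E.inv) (pow_pos hl 2)
  have hw0 : 0 ≤ om C δ ε := om_nonneg hC hε0
  have hex : ∃ n, a ≤ n ∧ ε < |x n| + y n := by
    by_contra hne
    push Not at hne
    obtain ⟨k, hk⟩ := exists_nat_gt (2 * π / l)
    have := (abs_le.1 (E.angle hC hδ hρ hε0 hε le_rfl (Nat.le_add_right a k)
      (hV.step hεε fun j h1 _ => hne j h1))).1
    push_cast at this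
    rw [add_sub_cancel_left] at this
    rw [div_lt_iff₀ hl] at hk
    have h1 := arctan_lt_pi_div_two (x a / l)
    have h2 := neg_pi_div_two_lt_arctan (x (a + k) / l)
    have h3 : 70 * (ρ + om C δ ε) * (l * k) ≤ 70 * (2 / 1000) * (l * k) := by gcongr; linarith
    nlinarith [pi_pos]
  obtain ⟨T, hT⟩ := exists_isExit hex
  refine ⟨T, hT, ?_⟩
  have hs := hV.step hεε hT.2.1
  have i := (abs_le.1 (E.inv_le hC hδ hρ hε0 hε T hT.1 hs)).2
  have m1 := (KT.drift hC hδ (hε.trans (by norm_num)) hT.1 hs).1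
  have m4 : y T ≤ 6 / 5 * (|x T| + l) := by
    refine (abs_le_of_sq_le_sq' ?_ (by positivity)).2
    have : 61 * (ρ + om C δ ε) * (x T ^ 2 + l ^ 2) ≤ 61 * (2 / 1000) * (x T ^ 2 + l ^ 2) := by
      gcongr; linarith
    nlinarith [sq_abs (x T), mul_nonneg (abs_nonneg (x T)) hl.le, sq_nonneg (x T)]
  have h1 := hT.2.2
  rcases abs_cases (x T) with h2 | h2 <;> linarith [h2.1]

/-- the exit time of a massive orbit is `π / l` to leading order -/
theorem exit_time (hC : 0 ≤ C) (hδ : 0 < δ) {ε₀ τ : ℝ} (hε0 : 0 < ε₀) (hε : om C δ ε₀ ≤ 1 / 1000)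
    (hτ : 0 < τ) : ∃ ρ, 0 < ρ ∧ ∀ (x y : ℕ → ℝ) (a : ℕ) (l : ℝ), Val C δ ε₀ x y a → 0 < l →
      l ≤ ρ * x a → x a ≤ ρ → om C δ (3 * x a) * x a ^ 2 ≤ ρ * l ^ 2 →
      |y a ^ 2 - x a ^ 2 - l ^ 2| ≤ ρ * l ^ 2 →
      ∃ T, IsExit ε₀ x y a T ∧ x T ≤ -(ε₀ / 3) ∧ |l * (T - a) - π| ≤ τ := by
  obtain ⟨ε', hε', h'⟩ := exists_om_le C hδ (show 0 < min (1 / 1000) (τ / 600) by positivity)
  set ε := min ε₀ ε' with hεd
  have hεp : 0 < ε := lt_min hε0 hε'
  have hw := h' ε hεp.le (min_le_right _ _)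
  have hw1 := hw.trans (min_le_left _ _)
  have hw2 := hw.trans (min_le_right _ _)
  refine ⟨min (min (1 / 1000) (τ / 600)) (ε / 10), by positivity, ?_⟩
  set ρ := min (min (1 / 1000) (τ / 600)) (ε / 10) with hρ
  have r0 : 0 < ρ := by positivity
  have r1 : ρ ≤ 1 / 1000 := (min_le_left _ _).trans (min_le_left _ _)
  have r2 : ρ ≤ τ / 600 := (min_le_left _ _).trans (min_le_right _ _)
  have r3 : ρ ≤ ε / 10 := min_le_right _ _
  intro x y a l hV hl h1 h2 h3 h4
  have hxa : 0 < x a := (mul_pos_iff_of_pos_left r0).1 (hl.trans_le h1)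
  have E : Ent C δ ρ l x y a := ⟨hl, by nlinarith, h3, h4⟩
  have hεε : ε ≤ ε₀ := min_le_left _ _
  obtain ⟨T₁, hT₁, hx₁⟩ := E.exit hC hδ.le r1 hw1 hεε (h2.trans r3) hV
  obtain ⟨T, hT, hx⟩ := E.exit hC hδ.le r1 hε le_rfl (by linarith) hV
  refine ⟨T, hT, hx, ?_⟩
  have hle := hT₁.le hT hεε
  have a1 := abs_le.1 (E.angle hC hδ.le r1 hεp.le hw1 le_rfl hT₁.1 (hV.step hεε hT₁.2.1))
  have a2 := (abs_le.1 (E.angle hC hδ.le r1 hε0.le hε hT₁.1 hle (hV.step le_rfl hT.2.1))).1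
  have b1 := pi_div_two_sub_le_arctan hxa hl
  have b2 := arctan_lt_pi_div_two (x a / l)
  have b3 := arctan_le_of_neg (show x T₁ < 0 by linarith) hl
  have b4 := neg_pi_div_two_lt_arctan (x T₁ / l)
  have b5 := neg_pi_div_two_lt_arctan (x T / l)
  have c1 : l / x a ≤ ρ := by rwa [div_le_iff₀ hxa]
  have c2 : l / -x T₁ ≤ ρ := by
    rw [div_le_iff₀ (by linarith)]
    nlinarith
  have hw0 : 0 ≤ om C δ ε := om_nonneg hC hεp.le
  have t1 : 0 ≤ l * ((T₁ : ℝ) - a) := mul_nonneg hl.le (sub_nonneg.2 (by exact_mod_cast hT₁.1))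
  have t2 : 0 ≤ l * ((T : ℝ) - T₁) := mul_nonneg hl.le (sub_nonneg.2 (by exact_mod_cast hle))
  have d1 : 70 * (ρ + om C δ ε) * (l * ((T₁ : ℝ) - a)) ≤ 70 * (2 / 1000) * (l * ((T₁ : ℝ) - a)) := by
    gcongr; linarith
  have d2 : 70 * (ρ + om C δ ε₀) * (l * ((T : ℝ) - T₁)) ≤ 70 * (2 / 1000) * (l * ((T : ℝ) - T₁)) := by
    gcongr; linarith
  have d3 : l * ((T₁ : ℝ) - a) ≤ 4 := by linarith [pi_lt_d2]
  have d4 : 70 * (ρ + om C δ ε) * (l * ((T₁ : ℝ) - a)) ≤ 70 * (ρ + om C δ ε) * 4 := by gcongr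
  have e : l * ((T : ℝ) - a) = l * ((T₁ : ℝ) - a) + l * ((T : ℝ) - T₁) := by ring
  rw [e, abs_le]; constructor <;> linarith

end Crest.Agent.T145.KT
end

-- ▼ part T145/KtB_54
section

/-!
# Row 145 (helper54): the discrete Kosterlitz-Thouless flow, part B (power sums, the critical orbit)
-/

set_option autoImplicit false

namespace Crest.Agent.T145.KT

open Filter Topology Finset Asymptotics

/-- the constant of the telescoping bounds -/
noncomputable def ks (s : ℝ) : ℝ := 1 / (|s| * min 1 ((2 : ℝ) ^ (s - 1)))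

theorem ks_pos {s : ℝ} (hs : s ≠ 0) : 0 < ks s := by
  have := abs_pos.2 hs
  unfold ks; positivity

theorem rpow_step (s : ℝ) {t : ℝ} (ht : 1 ≤ t) :
    ∃ ξ, (t + 1) ^ s - t ^ s = s * ξ ∧ min 1 ((2 : ℝ) ^ (s - 1)) * t ^ (s - 1) ≤ ξ := by
  obtain ⟨c, hc, h⟩ := exists_hasDerivAt_eq_slope (fun u : ℝ => u ^ s) (fun u => s * u ^ (s - 1))
    (show t < t + 1 by linarith)
    (fun u hu => (Real.continuousAt_rpow_const u s (Or.inl (by linarith [hu.1]))).continuousWithinAt)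
    (fun u hu => Real.hasDerivAt_rpow_const (Or.inl (by linarith [hu.1])))
  refine ⟨c ^ (s - 1), by rw [h]; ring, ?_⟩
  have h0 : 0 ≤ t ^ (s - 1) := Real.rpow_nonneg (by linarith) _
  rcases le_total 0 (s - 1) with hs | hs
  · calc _ ≤ 1 * t ^ (s - 1) := by gcongr; exact min_le_left _ _
      _ ≤ _ := by rw [one_mul]; exact Real.rpow_le_rpow (by linarith) hc.1.le hs
  · calc _ ≤ 2 ^ (s - 1) * t ^ (s - 1) := by gcongr; exact min_le_right _ _
      _ = (2 * t) ^ (s - 1) := (Real.mul_rpow (by norm_num) (by linarith)).symm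
      _ ≤ _ := Real.rpow_le_rpow_of_nonpos (by linarith [hc.1]) (by linarith [hc.2]) hs

theorem le_ks_pos {s t : ℝ} (hs : 0 < s) (ht : 1 ≤ t) :
    t ^ (s - 1) ≤ ks s * ((t + 1) ^ s - t ^ s) := by
  obtain ⟨ξ, h1, h2⟩ := rpow_step s ht
  have : 0 < min 1 ((2 : ℝ) ^ (s - 1)) := by positivity
  rw [h1, ks, abs_of_pos hs, one_div, inv_mul_eq_div, le_div_iff₀ (by positivity)]
  nlinarith

theorem le_ks_neg {s t : ℝ} (hs : s < 0) (ht : 1 ≤ t) :
    t ^ (s - 1) ≤ ks s * (t ^ s - (t + 1) ^ s) := by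
  obtain ⟨ξ, h1, h2⟩ := rpow_step s ht
  have : 0 < min 1 ((2 : ℝ) ^ (s - 1)) := by positivity
  have h3 : t ^ s - (t + 1) ^ s = -s * ξ := by linarith
  have h4 : 0 < -s := by linarith
  rw [h3, ks, abs_of_neg hs, one_div, inv_mul_eq_div, le_div_iff₀ (by positivity)]
  nlinarith

theorem tele_pos {s c : ℝ} (hs : 0 < s) (hc : 0 ≤ c) {f : ℕ → ℝ} {m n : ℕ} (hm : 1 ≤ m) (hmn : m ≤ n)
    (h : ∀ j, m ≤ j → j < n → |f (j + 1) - f j| ≤ c * (j : ℝ) ^ (s - 1)) :
    |f n - f m| ≤ c * ks s * (n : ℝ) ^ s := by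
  have key : |f n - f m| ≤ c * ks s * ((n : ℝ) ^ s - (m : ℝ) ^ s) := by
    induction n, hmn using Nat.le_induction with
    | base => simp
    | succ n hmn ih =>
      have i := ih fun j h1 h2 => h j h1 (by omega)
      have h1 := h n hmn (by omega)
      have h2 := le_ks_pos (t := n) hs (by exact_mod_cast hm.trans hmn)
      have h3 := abs_sub_le (f (n + 1)) (f n) (f m)
      have h4 := mul_le_mul_of_nonneg_left h2 hc
      push_cast
      linarith
  have := mul_nonneg (mul_nonneg hc (ks_pos hs.ne').le) (Real.rpow_nonneg (Nat.cast_nonneg m) s)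
  linarith

theorem tele_neg {s c : ℝ} (hs : s < 0) (hc : 0 ≤ c) {f : ℕ → ℝ} {m n : ℕ} (hm : 1 ≤ m) (hmn : m ≤ n)
    (h : ∀ j, m ≤ j → j < n → |f (j + 1) - f j| ≤ c * (j : ℝ) ^ (s - 1)) :
    |f n - f m| ≤ c * ks s * (m : ℝ) ^ s := by
  have key : |f n - f m| ≤ c * ks s * ((m : ℝ) ^ s - (n : ℝ) ^ s) := by
    induction n, hmn using Nat.le_induction with
    | base => simp
    | succ n hmn ih =>
      have i := ih fun j h1 h2 => h j h1 (by omega)
      have h1 := h n hmn (by omega)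
      have h2 := le_ks_neg (t := n) hs (by exact_mod_cast hm.trans hmn)
      have h3 := abs_sub_le (f (n + 1)) (f n) (f m)
      have h4 := mul_le_mul_of_nonneg_left h2 hc
      push_cast
      linarith
  have := mul_nonneg (mul_nonneg hc (ks_pos hs.ne).le) (Real.rpow_nonneg (Nat.cast_nonneg n) s)
  linarith

/-- the comparison function `n ^ s` -/
noncomputable abbrev pw (s : ℝ) : ℕ → ℝ := fun n => (n : ℝ) ^ s

theorem pw_nonneg (s : ℝ) (n : ℕ) : 0 ≤ pw s n := Real.rpow_nonneg (Nat.cast_nonneg n) s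

theorem bigO_iff {f : ℕ → ℝ} {s : ℝ} :
    f =O[atTop] pw s ↔ ∃ c, 0 ≤ c ∧ ∃ m, 1 ≤ m ∧ ∀ n, m ≤ n → |f n| ≤ c * (n : ℝ) ^ s := by
  constructor
  · intro h
    obtain ⟨c, hc, h⟩ := h.exists_nonneg
    obtain ⟨m, hm⟩ := eventually_atTop.1 h.bound
    refine ⟨c, hc, max 1 m, le_max_left _ _, fun n hn => ?_⟩
    have := hm n ((le_max_right _ _).trans hn)
    rwa [Real.norm_eq_abs, Real.norm_of_nonneg (pw_nonneg s n)] at this
  · rintro ⟨c, -, m, -, h⟩
    refine IsBigO.of_bound c ((eventually_ge_atTop m).mono fun n hn => ?_)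
    rw [Real.norm_eq_abs, Real.norm_of_nonneg (pw_nonneg s n)]
    exact h n hn

theorem pw_bigO {s t : ℝ} (h : s ≤ t) : pw s =O[atTop] pw t :=
  bigO_iff.2 ⟨1, zero_le_one, 1, le_rfl, fun n hn => by
    rw [one_mul, abs_of_nonneg (pw_nonneg s n)]
    exact Real.rpow_le_rpow_of_exponent_le (by exact_mod_cast hn) h⟩

theorem pw_mul (s t : ℝ) : (fun n => pw s n * pw t n) =O[atTop] pw (s + t) :=
  EventuallyEq.isBigO ((eventually_ge_atTop 1).mono fun n hn =>
    (Real.rpow_add (by exact_mod_cast hn) s t).symm)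

theorem bigO_mul {f g : ℕ → ℝ} {s t r : ℝ} (hf : f =O[atTop] pw s) (hg : g =O[atTop] pw t)
    (h : s + t ≤ r) : (fun n => f n * g n) =O[atTop] pw r :=
  ((hf.mul hg).trans (pw_mul s t)).trans (pw_bigO h)

theorem tendsto_pw {s : ℝ} (hs : s < 0) : Tendsto (pw s) atTop (𝓝 0) := by
  have := (tendsto_rpow_neg_atTop (neg_pos.2 hs)).comp tendsto_natCast_atTop_atTop
  simpa [Function.comp_def] using this

theorem bigO_tendsto {f : ℕ → ℝ} {s : ℝ} (hf : f =O[atTop] pw s) (hs : s < 0) :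
    Tendsto f atTop (𝓝 0) := hf.trans_tendsto (tendsto_pw hs)

theorem one_bigO {s : ℝ} (hs : 0 ≤ s) (c : ℝ) : (fun _ : ℕ => c) =O[atTop] pw s :=
  bigO_iff.2 ⟨|c|, abs_nonneg c, 1, le_rfl, fun n hn =>
    le_mul_of_one_le_right (abs_nonneg c) (Real.one_le_rpow (by exact_mod_cast hn) hs)⟩

theorem bigO_of_diff {f : ℕ → ℝ} {s : ℝ} (hs : 0 < s)
    (h : (fun n => f (n + 1) - f n) =O[atTop] pw (s - 1)) : f =O[atTop] pw s := by
  obtain ⟨c, hc, m, hm, h⟩ := bigO_iff.1 h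
  have h1 : (fun n => f n - f m) =O[atTop] pw s :=
    bigO_iff.2 ⟨c * ks s, mul_nonneg hc (ks_pos hs.ne').le, m, hm, fun n hn =>
      tele_pos hs hc hm hn fun j h1 _ => h j h1⟩
  simpa using h1.add (one_bigO hs.le (f m))

theorem cauchy_of_diff {f : ℕ → ℝ} {s : ℝ} (hs : s < 0)
    (h : (fun n => f (n + 1) - f n) =O[atTop] pw (s - 1)) :
    ∃ L, Tendsto f atTop (𝓝 L) ∧ (fun n => f n - L) =O[atTop] pw s := by
  obtain ⟨c, hc, m, hm, h⟩ := bigO_iff.1 h
  have h1 : ∀ k n, m ≤ k → k ≤ n → |f n - f k| ≤ c * ks s * (k : ℝ) ^ s := fun k n hk hn =>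
    tele_neg hs hc (hm.trans hk) hn fun j h1 _ => h j (hk.trans h1)
  have h2 : CauchySeq f := by
    refine Metric.cauchySeq_iff'.2 fun ε hε => ?_
    have t := (tendsto_pw hs).const_mul (c * ks s)
    rw [mul_zero] at t
    obtain ⟨k, hk⟩ := ((t.eventually (gt_mem_nhds hε)).and (eventually_ge_atTop m)).exists
    exact ⟨k, fun n hn => (h1 k n hk.2 hn).trans_lt hk.1⟩
  obtain ⟨L, hL⟩ := cauchySeq_tendsto_of_complete h2
  refine ⟨L, hL, bigO_iff.2 ⟨c * ks s, mul_nonneg hc (ks_pos hs.ne).le, m, hm, fun k hk => ?_⟩⟩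
  rw [abs_sub_comm]
  exact le_of_tendsto (hL.sub_const (f k)).abs ((eventually_ge_atTop k).mono fun n hn => h1 k n hk hn)

theorem inv_bigO : (fun n : ℕ => 1 / (n : ℝ)) =O[atTop] pw (-1) :=
  EventuallyEq.isBigO (Eventually.of_forall fun n => by simp [pw, Real.rpow_neg_one])

variable {C δ : ℝ} {x y : ℕ → ℝ}

/-- one Riccati step for `1 / x` -/
theorem St.ricc {e x y x' y' w : ℝ} (h : St e x y x' y') (hx : 0 < x) (hw : e + (|x| + y) ≤ w)
    (hw1 : w ≤ 1 / 100) {κ : ℝ} (hκ : |x ^ 2 - y ^ 2| ≤ κ * x ^ 2) (hκ1 : κ ≤ 3 / 10) :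
    0 < x' ∧ |1 / x' - 1 / x - 1| ≤ 2 * κ + 3 * w := by
  have he := h.e_nonneg
  have hp := h.pos
  rw [abs_of_pos hx] at hw
  have h1 := abs_le.1 h.hx
  have h2 := abs_le.1 hκ
  have x2 := pow_pos hx 2
  have hκ0 : 0 ≤ κ := nonneg_of_mul_nonneg_left ((abs_nonneg _).trans hκ) x2
  have hy : y ^ 2 ≤ 13 / 10 * x ^ 2 := by nlinarith
  have hey : e * y ^ 2 ≤ w * (13 / 10 * x ^ 2) := by gcongr; linarith; linarith
  have hd : x - x' ≤ 132 / 100 * x ^ 2 := by nlinarith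
  have hd0 : 0 ≤ x - x' := by nlinarith
  have hx' : 98 / 100 * x ≤ x' := by nlinarith
  have hx0 : 0 < x' := by linarith
  refine ⟨hx0, ?_⟩
  have e1 : 1 / x' - 1 / x - 1 = ((x - x' - x ^ 2) + x * (x - x')) / (x * x') := by
    field_simp; ring
  have hxx : 98 / 100 * x ^ 2 ≤ x * x' := by nlinarith
  have h3 : x * (x - x') ≤ w * (132 / 100 * x ^ 2) := by gcongr; linarith; linarith
  have h4 : 0 ≤ x * (x - x') := by positivity
  have h5 : (2 * κ + 3 * w) * (98 / 100 * x ^ 2) ≤ (2 * κ + 3 * w) * (x * x') := by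
    gcongr; linarith
  have h6 : 0 ≤ κ * x ^ 2 := by positivity
  have h7 : 0 ≤ w * x ^ 2 := by have : 0 ≤ w := by linarith
                                positivity
  rw [e1, abs_div, abs_of_pos (mul_pos hx hx0), div_le_iff₀ (mul_pos hx hx0), abs_le]
  constructor <;> nlinarith

/-- the critical orbit -/
theorem crit (hC : 0 ≤ C) (hδ : 0 < δ) (hδ1 : δ < 1) {ε : ℝ} (hε : om C δ ε ≤ 1 / 100) {a : ℕ}
    (h : ∀ j, a ≤ j → Step C δ x y j ∧ |x j| + y j ≤ ε) (hx : Tendsto x atTop (𝓝 0)) :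
    (fun n => x n - 1 / (n : ℝ)) =O[atTop] pw (-1 - δ) ∧
      (fun n => y n - 1 / (n : ℝ)) =O[atTop] pw (-1 - δ) ∧
      (fun n => x n ^ 2 - y n ^ 2) =O[atTop] pw (-2 - δ) := by
  have hx0 : ∀ j, a ≤ j → 0 ≤ x j := fun j hj =>
    le_of_tendsto hx ((eventually_ge_atTop j).mono fun n hn =>
      (drift hC hδ.le hε hn fun k h1 _ => h k (hj.trans h1)).1)
  obtain ⟨L, -, hL, -, hs⟩ := sup hC hδ.le hε h hx0
  obtain rfl : L = 0 := tendsto_nhds_unique hL hx
  have hxp : ∀ j, a ≤ j → 0 < x j := fun j hj => by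
    have := (hs j hj).2.1 j le_rfl
    have := (h j hj).1.eta_pos
    linarith
  set w : ℕ → ℝ := fun n => om C δ (min ε (3 * x n)) with hw
  have hm0 : ∀ j, a ≤ j → 0 ≤ min ε (3 * x j) := fun j hj =>
    le_min ((h j hj).1.eta_pos.le.trans (h j hj).2) (by linarith [hx0 j hj])
  have hw1 : ∀ j, a ≤ j → w j ≤ 1 / 100 := fun j hj =>
    (om_mono hC hδ.le (hm0 j hj) (min_le_left _ _)).trans hε
  have hw0 : ∀ j, a ≤ j → 0 ≤ w j := fun j hj => om_nonneg hC (hm0 j hj)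
  have hD : ∀ j, a ≤ j → |x j ^ 2 - y j ^ 2| ≤ 30 * w j * x j ^ 2 := fun j hj => by
    have := (hs j hj).2.2
    simp only [ne_eq, OfNat.ofNat_ne_zero, not_false_eq_true, zero_pow, sub_zero] at this
    refine this.trans (le_of_eq ?_)
    simp only [hw]; ring
  have hr : ∀ j, a ≤ j → |1 / x (j + 1) - 1 / x j - 1| ≤ 63 * w j := fun j hj => by
    have := (St.ricc (h j hj).1 (hxp j hj) ((h j hj).1.w_le hC hδ.le
      (le_min (h j hj).2 ((hs j hj).2.1 j le_rfl))) (hw1 j hj) (hD j hj)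
      (by linarith [hw1 j hj])).2
    linarith
  have hlin : ∀ n, a ≤ n → ((n : ℝ) - a) / 3 ≤ 1 / x n := by
    intro n hn
    induction n, hn using Nat.le_induction with
    | base => simpa using hx0 a le_rfl
    | succ n hn ih =>
      have := (abs_le.1 (hr n hn)).1
      have := hw1 n hn
      push_cast; linarith
  have hxO : x =O[atTop] pw (-1) := bigO_iff.2 ⟨6, by norm_num, 2 * a + 1, by omega, fun n hn => by
    have h1 : a ≤ n := by omega
    have h2 : (2 * a + 1 : ℝ) ≤ n := by exact_mod_cast hn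
    have h3 := hlin n h1
    have h4 := hxp n h1
    have h5 : (0 : ℝ) ≤ a := Nat.cast_nonneg a
    rw [abs_of_pos h4, Real.rpow_neg_one, ← div_eq_mul_inv, le_div_iff₀ (by linarith)]
    rw [le_div_iff₀ h4] at h3
    nlinarith⟩
  have hwO : w =O[atTop] pw (-δ) := by
    obtain ⟨c, hc, m, hm, hb⟩ := bigO_iff.1 hxO
    refine bigO_iff.2 ⟨(C + 1) * (3 * c) ^ δ, by positivity, max m a, le_max_of_le_left hm,
      fun n hn => ?_⟩
    have h1 := (le_max_right _ _).trans hn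
    have h2 := hb n ((le_max_left _ _).trans hn)
    rw [abs_of_pos (hxp n h1)] at h2
    rw [abs_of_nonneg (hw0 n h1)]
    refine (om_le hδ1.le hδ.le (hm0 n h1) (((le_om hC (hm0 n h1)).trans (hw1 n h1)).trans
      (by norm_num))).trans ?_
    have h3 : (n : ℝ) ^ (-δ) = ((n : ℝ) ^ (-1 : ℝ)) ^ δ := by
      rw [← Real.rpow_mul (Nat.cast_nonneg n)]; ring_nf
    rw [h3, mul_assoc, ← Real.mul_rpow (by positivity) (by positivity)]
    exact mul_le_mul_of_nonneg_left (Real.rpow_le_rpow (hm0 n h1)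
      ((min_le_right _ _).trans (by linarith)) hδ.le) (by linarith)
  have hrO : (fun n : ℕ => 1 / x n - n) =O[atTop] pw (1 - δ) := by
    refine bigO_of_diff (by linarith) ?_
    rw [show 1 - δ - 1 = -δ by ring]
    refine IsBigO.trans (IsBigO.of_bound 63 ((eventually_ge_atTop a).mono fun n hn => ?_)) hwO
    rw [Real.norm_eq_abs, Real.norm_of_nonneg (hw0 n hn)]
    convert hr n hn using 2
    push_cast; ring
  have r1 : (fun n => x n - 1 / (n : ℝ)) =O[atTop] pw (-1 - δ) := by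
    have := bigO_mul (bigO_mul hrO hxO le_rfl) inv_bigO (r := -1 - δ) (by linarith)
    refine EventuallyEq.trans_isBigO ((eventually_ge_atTop (a + 1)).mono fun n hn => ?_) this.neg_left
    have h1 := hxp n (by omega)
    have h2 : (0 : ℝ) < n := by exact_mod_cast (show 0 < n by omega)
    field_simp; ring
  have r3 : (fun n => x n ^ 2 - y n ^ 2) =O[atTop] pw (-2 - δ) := by
    have := bigO_mul hwO (bigO_mul hxO hxO le_rfl) (r := -2 - δ) (by linarith)
    refine IsBigO.trans (IsBigO.of_bound 30 ((eventually_ge_atTop a).mono fun n hn => ?_)) this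
    rw [Real.norm_eq_abs, Real.norm_of_nonneg (mul_nonneg (hw0 n hn) (mul_self_nonneg _))]
    exact (hD n hn).trans (le_of_eq (by ring))
  refine ⟨r1, ?_, r3⟩
  have r2 : (fun n => x n - y n) =O[atTop] pw (-1 - δ) := by
    have := bigO_mul hwO hxO (r := -1 - δ) (by linarith)
    refine IsBigO.trans (IsBigO.of_bound 30 ((eventually_ge_atTop a).mono fun n hn => ?_)) this
    have h1 := hxp n hn
    have h2 := (h n hn).1.pos
    rw [Real.norm_eq_abs, Real.norm_of_nonneg (mul_nonneg (hw0 n hn) h1.le)]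
    have h3 := hD n hn
    rw [sq_sub_sq, abs_mul, abs_of_pos (add_pos h1 h2)] at h3
    refine le_of_mul_le_mul_left ?_ h1
    nlinarith [abs_nonneg (x n - y n)]
  simpa using r1.sub r2


end Crest.Agent.T145.KT
end

-- ▼ part T145/KtD_54
section

/-!
# Row 145 (helper54): the discrete Kosterlitz-Thouless flow, part D (the linearised flow)
-/

set_option autoImplicit false

namespace Crest.Agent.T145.KT

open Filter Topology Finset Asymptotics

/-- one step of the linearised flow (`p = ∂ x`, `q = ∂ y`), relative error `e`, size `A` -/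
structure Ln (e x y p q p' q' A : ℝ) : Prop where
  hp : |p' - p + 2 * y * q| ≤ e * (|x| + y) * A
  hq : |q' - q + x * q + y * p| ≤ e * (|x| + y) * A
  le : |p| + |q| ≤ A

/-- one linearised step with error `C η ^ δ` -/
def Lin (C δ : ℝ) (x y p q A : ℕ → ℝ) (n : ℕ) : Prop :=
  Ln (C * (|x n| + y n) ^ δ) (x n) (y n) (p n) (q n) (p (n + 1)) (q (n + 1)) (A n)

namespace Ln
variable {e x y x' y' p q p' q' A w : ℝ}

theorem A_nonneg (h : Ln e x y p q p' q' A) : 0 ≤ A := le_trans (by positivity) h.le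

theorem mono (h : Ln e x y p q p' q' A) (hy : 0 ≤ y) (he0 : 0 ≤ e) {e' A' : ℝ} (he : e ≤ e')
    (hA : A ≤ A') : Ln e' x y p q p' q' A' := by
  have := h.A_nonneg
  have : 0 ≤ e' := he0.trans he
  exact ⟨h.hp.trans (by gcongr), h.hq.trans (by gcongr), h.le.trans hA⟩

/-- the linearised invariant `x p - y q` is almost conserved -/
theorem da (h : Ln e x y p q p' q' A) (s : St e x y x' y') (hw : e + (|x| + y) ≤ w)
    (hw1 : w ≤ 1 / 100) : |(x' * p' - y' * q') - (x * p - y * q)| ≤ 8 * w * (|x| + y) ^ 2 * A := by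
  have he := s.e_nonneg
  have hy := s.pos
  have hx0 := abs_nonneg x
  have hA := h.A_nonneg
  have hpA : |p| ≤ A := le_trans (by linarith [abs_nonneg q]) h.le
  have hqA : |q| ≤ A := le_trans (by linarith [abs_nonneg p]) h.le
  have h1 := s.hx
  have h2 := s.dy hw hw1
  have h3 := s.abs_dx hw hw1
  have h4 := s.abs_dy hw hw1
  have h5 := h.hp
  have h6 := h.hq
  obtain ⟨η, hη⟩ : ∃ η, η = |x| + y := ⟨_, rfl⟩
  rw [← hη] at h2 h4 h5 h6 hw ⊢
  have hη0 : 0 ≤ η := by linarith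
  have hyη : y ≤ η := by linarith
  have hxη : |x| ≤ η := by linarith
  have hew : e ≤ w := by linarith
  have hηw : η ≤ w := by linarith
  have hw0 : 0 ≤ w := by linarith
  have e1 : (x' * p' - y' * q') - (x * p - y * q) =
      (x' - x + y ^ 2) * p + x * (p' - p + 2 * y * q) - (y' - y + x * y) * q -
        y * (q' - q + x * q + y * p) + (x' - x) * (p' - p) - (y' - y) * (q' - q) := by ring
  have b1 : |(x' - x + y ^ 2) * p| ≤ w * η ^ 2 * A := by
    rw [abs_mul]; exact (mul_le_mul h1 hpA (abs_nonneg _) (by positivity)).trans (by gcongr)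
  have b2 : |x * (p' - p + 2 * y * q)| ≤ |x| * (w * η * A) := by
    rw [abs_mul]; exact mul_le_mul_of_nonneg_left (h5.trans (by gcongr)) hx0
  have b3 : |(y' - y + x * y) * q| ≤ 2 * w * η * η * A := by
    rw [abs_mul]; exact (mul_le_mul h2 hqA (abs_nonneg _) (by positivity)).trans (by gcongr)
  have b4 : |y * (q' - q + x * q + y * p)| ≤ y * (w * η * A) := by
    rw [abs_mul, abs_of_pos hy]; exact mul_le_mul_of_nonneg_left (h6.trans (by gcongr)) hy.le
  have b7 : |x| * (w * η * A) + y * (w * η * A) = w * η ^ 2 * A := by rw [hη]; ring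
  have hq' : |q' - q| ≤ 102 / 100 * w * A := by
    have a1 := abs_sub (q' - q + x * q + y * p) (x * q + y * p)
    have a0 := abs_add_le (x * q) (y * p)
    rw [show q' - q + x * q + y * p - (x * q + y * p) = q' - q by ring] at a1
    rw [abs_mul, abs_mul, abs_of_pos hy] at a0
    have a2 : |x| * |q| ≤ |x| * A := by gcongr
    have a4 : y * |p| ≤ y * A := by gcongr
    have a5 : η * A ≤ w * A := by gcongr
    have a3 : e * η * A ≤ 1 / 100 * w * A := by gcongr; linarith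
    have a6 : |x| * A + y * A = η * A := by rw [hη]; ring
    linarith [mul_nonneg hw0 hA]
  have hp' : |p' - p| ≤ 201 / 100 * w * A := by
    have a1 := abs_sub (p' - p + 2 * y * q) (2 * y * q)
    rw [add_sub_cancel_right, abs_mul, abs_mul, abs_two, abs_of_pos hy] at a1
    have a2 : 2 * y * |q| ≤ 2 * w * A := by gcongr; linarith
    have a3 : e * η * A ≤ 1 / 100 * w * A := by gcongr; linarith
    linarith
  have b5' : |(x' - x) * (p' - p)| ≤ 101 / 100 * η ^ 2 * (201 / 100 * w * A) := by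
    rw [abs_mul]; exact (mul_le_mul h3 hp' (abs_nonneg _) (by positivity)).trans (by gcongr)
  have b6' : |(y' - y) * (q' - q)| ≤ 102 / 100 * η * η * (102 / 100 * w * A) := by
    rw [abs_mul]; exact (mul_le_mul h4 hq' (abs_nonneg _) (by positivity)).trans (by gcongr)
  have c : 0 ≤ w * η ^ 2 * A := by positivity
  rw [e1, abs_le]
  have := abs_le.1 b1
  have := abs_le.1 b2
  have := abs_le.1 b3
  have := abs_le.1 b4
  have := abs_le.1 b5'
  have := abs_le.1 b6'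
  constructor <;> linarith

/-- one step of the growth bound -/
theorem grow (h : Ln e x y p q p' q' A) {κ t S B : ℝ} (hκ : 0 < κ) (hκ1 : κ ≤ 1) (ht : 2 ≤ t)
    (hx : |x - 1 / t| ≤ κ / 8 / t) (hy0 : 0 ≤ y) (hy : y ≤ (1 + κ / 8) / t) (he : 0 ≤ e)
    (hB : e * A ≤ B) (hS : 10 * B ≤ κ * S) (hp : |p| ≤ S) (hq : |q| ≤ S / 2) :
    |p'| ≤ S * (1 + (1 + κ) / t) ∧ |q'| ≤ S * (1 + (1 + κ) / t) / 2 := by
  have ht0 : 0 < t := by linarith
  have hS0 : 0 ≤ S := (abs_nonneg _).trans hp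
  have hA := h.A_nonneg
  set u := 1 / t with hu
  have hu0 : 0 < u := by positivity
  have hu1 : u ≤ 1 / 2 := by rw [hu, div_le_iff₀ ht0]; linarith
  rw [div_eq_mul_one_div (κ / 8), ← hu] at hx
  rw [div_eq_mul_one_div (1 + κ / 8), ← hu] at hy
  rw [div_eq_mul_one_div (1 + κ), ← hu]
  have h1 := abs_le.1 hx
  have hκu : κ * u ≤ u := by nlinarith
  have hκu0 : 0 ≤ κ * u := by positivity
  have hxa : |x| ≤ (1 + κ / 8) * u := by rw [abs_le]; constructor <;> nlinarith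
  have hF : e * (|x| + y) * A ≤ 3 * u * B := by
    calc e * (|x| + y) * A = (|x| + y) * (e * A) := by ring
      _ ≤ (3 * u) * B := by gcongr; nlinarith
  have hB' : 3 * u * B ≤ 3 / 10 * (κ * u * S) := by nlinarith
  have c0 : 0 ≤ κ * u * S := by positivity
  constructor
  · have a1 : |p'| ≤ |p' - p + 2 * y * q| + |p| + |2 * y * q| := by
      have := abs_add_le (p' - p + 2 * y * q) (p - 2 * y * q)
      have := abs_sub p (2 * y * q)
      rw [show p' - p + 2 * y * q + (p - 2 * y * q) = p' by ring] at *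
      linarith
    rw [abs_mul, abs_mul, abs_two, abs_of_nonneg hy0] at a1
    have a2 : 2 * y * |q| ≤ 2 * ((1 + κ / 8) * u) * (S / 2) := by gcongr
    nlinarith [h.hp]
  · have a1 : |q'| ≤ |q' - q + x * q + y * p| + |(1 - x) * q| + |y * p| := by
      have := abs_add_le (q' - q + x * q + y * p) ((1 - x) * q - y * p)
      have := abs_sub ((1 - x) * q) (y * p)
      rw [show q' - q + x * q + y * p + ((1 - x) * q - y * p) = q' by ring] at *
      linarith
    rw [abs_mul, abs_mul, abs_of_nonneg hy0, abs_of_nonneg (show 0 ≤ 1 - x by nlinarith)] at a1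
    have a2 : y * |p| ≤ ((1 + κ / 8) * u) * S := by gcongr
    have a3 : (1 - x) * |q| ≤ (1 - (1 - κ / 8) * u) * (S / 2) := by
      gcongr
      · nlinarith
      · nlinarith
    nlinarith [h.hq]

end Ln

theorem rpow_succ_ge {s t r : ℝ} (hs : 1 ≤ s) (hr : r ≤ s) (ht : 0 < t) :
    t ^ s * (1 + r / t) ≤ (t + 1) ^ s := by
  have h1 := one_add_mul_self_le_rpow_one_add (s := 1 / t) (by have := one_div_pos.2 ht; linarith) hs
  have h2 : (t + 1) ^ s = t ^ s * (1 + 1 / t) ^ s := by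
    rw [← Real.mul_rpow ht.le (by positivity)]; congr 1; field_simp
  rw [h2]
  refine mul_le_mul_of_nonneg_left (le_trans ?_ h1) (Real.rpow_nonneg ht.le _)
  rw [mul_one_div]; gcongr

/-- growth bound with a given forcing; `I` is the time interval, `g` a monotone weight -/
theorem grow {e x y p q A g : ℕ → ℝ} {I : ℕ → Prop} {a : ℕ} {κ s S B : ℝ} (hκ : 0 < κ) (hκ1 : κ ≤ 1)
    (hs : 1 + κ ≤ s) (ha : 2 ≤ a) (hI : ∀ n, I (n + 1) → a ≤ n → I n) (hg0 : ∀ n, 0 ≤ g n)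
    (hg : Monotone g)
    (h : ∀ n, a ≤ n → I (n + 1) → Ln (e n) (x n) (y n) (p n) (q n) (p (n + 1)) (q (n + 1)) (A n) ∧
      |x n - 1 / n| ≤ κ / 8 / n ∧ 0 ≤ y n ∧ y n ≤ (1 + κ / 8) / n ∧ 0 ≤ e n ∧
      e n * A n ≤ B * (g n * (n : ℝ) ^ s)) (hS : 10 * B ≤ κ * S) (hS' : 0 ≤ S)
    (hp : |p a| ≤ S * (g a * (a : ℝ) ^ s)) (hq : |q a| ≤ S * (g a * (a : ℝ) ^ s) / 2) :
    ∀ n, a ≤ n → I n → |p n| ≤ S * (g n * (n : ℝ) ^ s) ∧ |q n| ≤ S * (g n * (n : ℝ) ^ s) / 2 := by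
  intro n hn
  induction n, hn using Nat.le_induction with
  | base => exact fun _ => ⟨hp, hq⟩
  | succ n hn ih =>
    intro hI'
    obtain ⟨i1, i2⟩ := ih (hI n hI' hn)
    obtain ⟨h1, h2, h3, h4, h5, h6⟩ := h n hn hI'
    have hn2 : (2 : ℝ) ≤ n := by exact_mod_cast ha.trans hn
    have hG : 0 ≤ g n * (n : ℝ) ^ s := mul_nonneg (hg0 n) (by positivity)
    obtain ⟨r1, r2⟩ := h1.grow hκ hκ1 hn2 h2 h3 h4 h5 h6 (S := S * (g n * (n : ℝ) ^ s))
      (by nlinarith) i1 i2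
    have r3 : S * (g n * (n : ℝ) ^ s) * (1 + (1 + κ) / n) ≤
        S * (g (n + 1) * ((n + 1 : ℕ) : ℝ) ^ s) := by
      rw [mul_assoc, mul_assoc]
      refine mul_le_mul_of_nonneg_left (mul_le_mul (hg n.le_succ) ?_ (by positivity) (hg0 _)) hS'
      push_cast
      exact rpow_succ_ge (by linarith) hs (by linarith)
    exact ⟨r1.trans r3, r2.trans (by linarith)⟩


/-- damped recursion `f (n+1) = (1 - 2/n) f n + O(n^(t-1))` -/
theorem damp {f : ℕ → ℝ} {t : ℝ} (ht : -1 ≤ t)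
    (h : (fun n => f (n + 1) - (1 - 2 / (n : ℝ)) * f n) =O[atTop] pw (t - 1)) : f =O[atTop] pw t := by
  obtain ⟨c, hc, m, hm, h⟩ := bigO_iff.1 h
  have hm2 : (0 : ℝ) < ((m + 2 : ℕ) : ℝ) ^ t := Real.rpow_pos_of_pos (by positivity) _
  set S := c + |f (m + 2)| / ((m + 2 : ℕ) : ℝ) ^ t with hS
  have hS0 : c ≤ S := le_add_of_nonneg_right (by positivity)
  refine bigO_iff.2 ⟨S, hc.trans hS0, m + 2, by omega, fun n hn => ?_⟩
  induction n, hn using Nat.le_induction with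
  | base => rw [hS, add_mul, div_mul_cancel₀ _ hm2.ne']; exact le_add_of_nonneg_left (by positivity)
  | succ n hn ih =>
    have h1 := h n (by omega)
    have hn2 : (2 : ℝ) ≤ n := by exact_mod_cast (show 2 ≤ n by omega)
    have hn0 : (0 : ℝ) < n := by linarith
    have h2 : |f (n + 1)| ≤ |f (n + 1) - (1 - 2 / (n : ℝ)) * f n| + (1 - 2 / (n : ℝ)) * |f n| := by
      have := abs_add_le (f (n + 1) - (1 - 2 / (n : ℝ)) * f n) ((1 - 2 / (n : ℝ)) * f n)
      rwa [sub_add_cancel, abs_mul,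
        abs_of_nonneg (show 0 ≤ 1 - 2 / (n : ℝ) by rw [sub_nonneg, div_le_one hn0]; exact hn2)] at this
    have h3 : (1 - 2 / (n : ℝ)) * |f n| ≤ (1 - 2 / (n : ℝ)) * (S * (n : ℝ) ^ t) :=
      mul_le_mul_of_nonneg_left ih (by rw [sub_nonneg, div_le_one hn0]; exact hn2)
    have h4 : (n : ℝ) ^ t * (1 - 1 / n) ≤ ((n + 1 : ℕ) : ℝ) ^ t := by
      have e1 : ((n + 1 : ℕ) : ℝ) ^ t = (n : ℝ) ^ t * (1 + 1 / n) ^ t := by
        rw [← Real.mul_rpow hn0.le (by positivity)]; congr 1; push_cast; field_simp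
      rw [e1]
      refine mul_le_mul_of_nonneg_left ?_ (by positivity)
      refine le_trans ?_ (Real.rpow_le_rpow_of_exponent_le (le_add_of_nonneg_right (by positivity)) ht)
      rw [Real.rpow_neg_one, ← one_div, le_div_iff₀ (by positivity)]
      nlinarith [sq_nonneg (1 / (n : ℝ))]
    have h5 : (n : ℝ) ^ (t - 1) = (n : ℝ) ^ t * (1 / n) := by
      rw [Real.rpow_sub_one hn0.ne']; ring
    have h6 : c * ((n : ℝ) ^ t * (1 / n)) ≤ S * ((n : ℝ) ^ t * (1 / n)) := by gcongr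
    have h7 := mul_le_mul_of_nonneg_left h4 (hc.trans hS0)
    rw [h5] at h1
    have e2 : (2 : ℝ) / n = 2 * (1 / n) := by ring
    rw [e2] at h1 h2 h3
    linarith

end Crest.Agent.T145.KT
end

-- ▼ part T145/KtE_54
section

/-!
# Row 145 (helper54): the discrete Kosterlitz-Thouless flow, part E (linearisation at the critical orbit)
-/

set_option autoImplicit false

namespace Crest.Agent.T145.KT

open Filter Topology Finset Asymptotics

theorem bigO_of_le {f g : ℕ → ℝ} {s : ℝ} (c : ℝ) (hg : g =O[atTop] pw s)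
    (h : ∀ᶠ n in atTop, |f n| ≤ c * g n) : f =O[atTop] pw s :=
  IsBigO.trans (IsBigO.of_bound |c| (h.mono fun n hn => by
    rw [Real.norm_eq_abs, Real.norm_eq_abs, ← abs_mul]; exact hn.trans (le_abs_self _))) hg

theorem eventually_le_div {f : ℕ → ℝ} {δ τ : ℝ} (hδ : 0 < δ) (hτ : 0 < τ)
    (h : f =O[atTop] pw (-1 - δ)) : ∀ᶠ n : ℕ in atTop, |f n| ≤ τ / n := by
  have h1 : (fun n : ℕ => f n * n) =O[atTop] pw (-δ) :=
    bigO_mul h (s := -1 - δ) (t := 1) (EventuallyEq.isBigO (Eventually.of_forall fun n => (Real.rpow_one _).symm))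
      (by linarith)
  have h2 := (bigO_tendsto h1 (by linarith)).abs
  rw [abs_zero] at h2
  filter_upwards [h2.eventually (ge_mem_nhds hτ), eventually_ge_atTop 1] with n hn hn1
  have : (0 : ℝ) < n := by exact_mod_cast hn1
  rwa [abs_mul, Nat.abs_cast, ← le_div_iff₀ this] at hn

/-- the data of the linearised flow along the critical orbit -/
structure CL (δ : ℝ) (e x y p q A : ℕ → ℝ) : Prop where
  pos : 0 < δ
  lt : δ < 1
  hx : (fun n => x n - 1 / (n : ℝ)) =O[atTop] pw (-1 - δ)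
  hy : (fun n => y n - 1 / (n : ℝ)) =O[atTop] pw (-1 - δ)
  he : e =O[atTop] pw (-δ)
  st : ∀ᶠ n in atTop, St (e n) (x n) (y n) (x (n + 1)) (y (n + 1)) ∧
    Ln (e n) (x n) (y n) (p n) (q n) (p (n + 1)) (q (n + 1)) (A n)
  hA : ∀ s, 0 ≤ s → (fun n => |p n| + |q n|) =O[atTop] pw s → A =O[atTop] pw s

namespace CL
variable {δ : ℝ} {e x y p q A : ℕ → ℝ}

theorem xO (h : CL δ e x y p q A) : x =O[atTop] pw (-1) := by
  simpa using (h.hx.trans (pw_bigO (t := -1) (by linarith [h.pos]))).add inv_bigO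

theorem yO (h : CL δ e x y p q A) : y =O[atTop] pw (-1) := by
  simpa using (h.hy.trans (pw_bigO (t := -1) (by linarith [h.pos]))).add inv_bigO

theorem etaO (h : CL δ e x y p q A) : (fun n => |x n| + y n) =O[atTop] pw (-1) :=
  h.xO.abs_left.add h.yO

theorem wO (h : CL δ e x y p q A) : (fun n => e n + (|x n| + y n)) =O[atTop] pw (-δ) :=
  h.he.add (h.etaO.trans (pw_bigO (by linarith [h.lt])))

theorem pO (h : CL δ e x y p q A) {s : ℝ} (hA : A =O[atTop] pw s) : p =O[atTop] pw s :=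
  bigO_of_le 1 hA (h.st.mono fun n hn => by linarith [hn.2.le, abs_nonneg (q n)])

theorem inv_yO (h : CL δ e x y p q A) : (fun n => 1 / y n) =O[atTop] pw 1 := by
  refine bigO_of_le 2 (isBigO_refl (pw 1) atTop) ?_
  filter_upwards [eventually_le_div h.pos (τ := 1 / 2) (by norm_num) h.hy, eventually_ge_atTop 1,
    h.st] with n hn hn1 hs
  have h0 : (0 : ℝ) < n := by exact_mod_cast hn1
  have h1 := (abs_le.1 hn).1
  have h2 := hs.1.pos
  have h3 : 1 / 2 / (n : ℝ) ≤ y n := by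
    have : (1 : ℝ) / n = 2 * (1 / 2 / n) := by ring
    linarith
  rw [abs_of_pos (by positivity), pw, Real.rpow_one, div_le_iff₀ h2]
  rw [div_le_iff₀ h0] at h3
  linarith

/-- one improvement of the growth exponent -/
theorem improve (h : CL δ e x y p q A) {κ s t : ℝ} (hκ : 0 < κ) (hκ1 : κ ≤ 1) (ht : 1 + κ ≤ t)
    (hs : s - δ ≤ t) (hA : A =O[atTop] pw s) : (fun n => |p n| + |q n|) =O[atTop] pw t := by
  obtain ⟨B, hB, m, -, hm⟩ := bigO_iff.1 (bigO_mul h.he hA (r := t) (by linarith))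
  obtain ⟨a, ha⟩ := eventually_atTop.1 ((h.st.and (eventually_le_div h.pos
    (show 0 < κ / 8 by linarith) h.hx)).and ((eventually_le_div h.pos
    (show 0 < κ / 8 by linarith) h.hy).and (eventually_ge_atTop (max 2 m))))
  have ha2 : 2 ≤ a := (le_max_left _ _).trans (ha a le_rfl).2.2
  have hap : (0 : ℝ) < (a : ℝ) ^ t := Real.rpow_pos_of_pos (by exact_mod_cast (show 0 < a by omega)) _
  set S := 10 * B / κ + 2 * (|p a| + |q a|) / (a : ℝ) ^ t with hS
  have hS1 : 2 * (|p a| + |q a|) ≤ S * (1 * (a : ℝ) ^ t) := by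
    rw [hS, one_mul, add_mul, div_mul_cancel₀ _ hap.ne']
    exact le_add_of_nonneg_left (by positivity)
  have := grow (e := e) (x := x) (y := y) (p := p) (q := q) (A := A) (g := fun _ => 1)
    (I := fun _ => True) (S := S) (B := B) hκ hκ1 ht ha2 (fun _ _ _ => trivial)
    (fun _ => zero_le_one) monotone_const
    (fun n n1 _ => by
      obtain ⟨⟨⟨k1, k2⟩, k3⟩, k4, k5⟩ := ha n n1
      refine ⟨k2, k3, k1.pos.le, ?_, k1.e_nonneg, ?_⟩
      · rw [add_div]; linarith [(abs_le.1 k4).2]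
      · rw [one_mul]; exact (le_abs_self _).trans (hm n ((le_max_right _ _).trans k5)))
    (by
      rw [hS, mul_add, mul_div_cancel₀ _ hκ.ne']
      exact le_add_of_nonneg_right (by positivity))
    (by positivity) (by linarith [abs_nonneg (p a), abs_nonneg (q a)])
    (by linarith [abs_nonneg (p a)])
  refine bigO_iff.2 ⟨3 / 2 * S, by positivity, a, by omega, fun n hn => ?_⟩
  obtain ⟨k1, k2⟩ := this n hn trivial
  rw [abs_of_nonneg (by positivity)]
  linarith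

theorem growth (h : CL δ e x y p q A) {κ s : ℝ} (hκ : 0 < κ) (hκ1 : κ ≤ 1)
    (h0 : (fun n => |p n| + |q n|) =O[atTop] pw s) : A =O[atTop] pw (1 + κ) := by
  have key : ∀ k : ℕ, (fun n => |p n| + |q n|) =O[atTop] pw (1 + κ + k * δ) →
      A =O[atTop] pw (1 + κ) := by
    intro k
    induction k with
    | zero => intro h1; exact h.hA _ (by linarith) (by simpa using h1)
    | succ k ih =>
      intro h1
      have := mul_nonneg (Nat.cast_nonneg (α := ℝ) k) h.pos.le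
      refine ih (h.improve hκ hκ1 (by linarith) ?_ (h.hA _ ?_ h1)) <;> push_cast <;> linarith [h.pos]
  obtain ⟨k, hk⟩ := exists_nat_ge ((s - (1 + κ)) / δ)
  rw [div_le_iff₀ h.pos] at hk
  exact key k (h0.trans (pw_bigO (by linarith)))

theorem da (h : CL δ e x y p q A) {s : ℝ} (hA : A =O[atTop] pw s) :
    (fun n => (x (n + 1) * p (n + 1) - y (n + 1) * q (n + 1)) - (x n * p n - y n * q n))
      =O[atTop] pw (s - 1 - δ - 1) := by
  have h1 := bigO_mul (bigO_mul h.wO (bigO_mul h.etaO h.etaO le_rfl) le_rfl) hA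
    (r := s - 1 - δ - 1) (by linarith)
  refine bigO_of_le 8 h1 ?_
  filter_upwards [h.st, (bigO_tendsto h.wO (by linarith [h.pos])).eventually
    (ge_mem_nhds (show (0 : ℝ) < 1 / 100 by norm_num))] with n hn hw
  exact (hn.2.da hn.1 le_rfl hw).trans (le_of_eq (by ring))

/-- if the invariant is `O(n^(t-1))` then the solution is `O(n^t)` -/
theorem of_inv (h : CL δ e x y p q A) {s t : ℝ} (ht : -1 ≤ t) (hs : s - δ ≤ t)
    (hA : A =O[atTop] pw s) (ha : (fun n => x n * p n - y n * q n) =O[atTop] pw (t - 1)) :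
    (fun n => |p n| + |q n|) =O[atTop] pw t := by
  have h1 : (fun n => p (n + 1) - p n + 2 * y n * q n) =O[atTop] pw (t - 1) :=
    bigO_of_le 1 (bigO_mul (bigO_mul h.he h.etaO le_rfl) hA (by linarith))
      (h.st.mono fun n hn => by rw [one_mul]; exact hn.2.hp)
  have h2 := bigO_mul h.hx (h.pO hA) (r := t - 1) (by linarith)
  have hp : p =O[atTop] pw t := damp ht (((h1.add (ha.const_mul_left 2)).sub
    (h2.const_mul_left 2)).congr_left fun n => by ring)
  have hq : q =O[atTop] pw t := by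
    have h3 := bigO_mul ((bigO_mul h.xO hp (r := t - 1) (by linarith)).sub ha) h.inv_yO (r := t)
      (by linarith)
    refine EventuallyEq.trans_isBigO (h.st.mono fun n hn => ?_) h3
    have := hn.1.pos
    field_simp; ring
  exact hp.abs_left.add hq.abs_left

/-- the invariant converges, the growth is linear, and a vanishing limit forces decay -/
theorem main (h : CL δ e x y p q A) {s : ℝ} (h0 : (fun n => |p n| + |q n|) =O[atTop] pw s) :
    ∃ a, Tendsto (fun n => x n * p n - y n * q n) atTop (𝓝 a) ∧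
      (fun n => x n * p n - y n * q n - a) =O[atTop] pw (-δ) ∧ A =O[atTop] pw 1 ∧
      (a = 0 → Tendsto (fun n => |p n| + |q n|) atTop (𝓝 0)) := by
  have hδ := h.pos
  have hδ1 := h.lt
  have h1 := h.growth (κ := δ / 2) (by linarith) (by linarith) h0
  obtain ⟨a, ha, ha'⟩ := cauchy_of_diff (f := fun n => x n * p n - y n * q n) (by linarith) (h.da h1)
  have h2 : (fun n => x n * p n - y n * q n) =O[atTop] pw (1 - 1) := by
    simpa using (ha'.trans (pw_bigO (t := 1 - 1) (by linarith))).add (one_bigO (by linarith) a)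
  have h3 : A =O[atTop] pw 1 := h.hA 1 zero_le_one (h.of_inv (by linarith) (by linarith) h1 h2)
  have key : ∀ s, s - 1 - δ < 0 → A =O[atTop] pw s →
      (fun n => x n * p n - y n * q n - a) =O[atTop] pw (s - 1 - δ) := fun s hs hA => by
    obtain ⟨a', hb, hb'⟩ := cauchy_of_diff (f := fun n => x n * p n - y n * q n) hs (h.da hA)
    rwa [tendsto_nhds_unique ha hb]
  refine ⟨a, ha, by simpa using key 1 (by linarith) h3, h3, ?_⟩
  rintro rfl
  have it : ∀ k : ℕ, ∀ s, 0 ≤ s → s ≤ 1 → s < (k + 1) * δ → A =O[atTop] pw s →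
      Tendsto (fun n => |p n| + |q n|) atTop (𝓝 0) := by
    have step : ∀ s, 0 ≤ s → s ≤ 1 → A =O[atTop] pw s →
        (fun n => |p n| + |q n|) =O[atTop] pw (s - δ) := fun s s0 s1 hA =>
      h.of_inv (by linarith) le_rfl hA (by
        rw [show s - δ - 1 = s - 1 - δ by ring]; simpa using key s (by linarith) hA)
    intro k
    induction k with
    | zero => intro s s0 s1 s2 hA; exact bigO_tendsto (step s s0 s1 hA) (by simp at s2; linarith)
    | succ k ih =>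
      intro s s0 s1 s2 hA
      rcases lt_or_ge (s - δ) 0 with hl | hl
      · exact bigO_tendsto (step s s0 s1 hA) hl
      · exact ih (s - δ) hl (by linarith) (by push_cast at s2; linarith) (h.hA _ hl (step s s0 s1 hA))
  obtain ⟨k, hk⟩ := exists_nat_ge (1 / δ)
  rw [div_le_iff₀ hδ] at hk
  exact it k 1 zero_le_one le_rfl (by linarith) h3

end CL

end Crest.Agent.T145.KT
end

-- ▼ part T145/KtG_54
section

/-!
# Row 145 (helper54): the discrete Kosterlitz-Thouless flow, part G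
(finite horizons: Riccati comparison, infinite slope, exit, linear bounds with memory)
-/

set_option autoImplicit false

namespace Crest.Agent.T145.KT

open Filter Topology Finset Asymptotics

theorem St.eta_le' {e x y x' y' w : ℝ} (h : St e x y x' y') (hw : e + (|x| + y) ≤ w)
    (hw1 : w ≤ 1 / 100) : |x'| + y' ≤ (|x| + y) * (1 + 3 * (|x| + y)) := by
  have h1 := h.abs_dx hw hw1
  have h2 := (abs_le.1 (h.abs_dy hw hw1)).2
  have h3 : |x'| ≤ |x| + |x' - x| := by simpa using abs_add_le x (x' - x)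
  have hp := h.pos
  have := abs_nonneg x
  nlinarith [mul_nonneg this hp.le, mul_nonneg this this]

/-- `(u, v) = (∂ x, ∂ log y)` form of the linearised step implies the `(p, q)` form -/
theorem Ln.of_uv {e x y x' y' u v u' v' B w : ℝ} (s : St e x y x' y') (hw : e + (|x| + y) ≤ w)
    (hw1 : w ≤ 1 / 100) (hB : 0 ≤ B) (hu : |u' - u + 2 * y ^ 2 * v| ≤ w * (|x| + y) ^ 2 * B)
    (hv : |v' - v + u| ≤ w * (|x| + y) * B) :
    Ln (2 * w) x y u (y * v) u' (y' * v') (|u| + |y * v| + (|x| + y) * B) := by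
  have hy := s.pos
  have hx0 := abs_nonneg x
  have he := s.e_nonneg
  have h2 := s.dy hw hw1
  have h4 := s.abs_dy hw hw1
  obtain ⟨η, hη⟩ : ∃ η, η = |x| + y := ⟨_, rfl⟩
  rw [← hη] at hw hu hv h2 h4 ⊢
  have hη0 : 0 ≤ η := by linarith
  have hw0 : 0 ≤ w := by linarith
  have u0 := abs_nonneg u
  have v0 := abs_nonneg (y * v)
  have c1 : 0 ≤ w * η * |u| := by positivity
  have c2 : 0 ≤ w * η * |y * v| := by positivity
  have c3 : 0 ≤ w * η * (η * B) := by positivity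
  refine ⟨?_, ?_, le_add_of_nonneg_right (by positivity)⟩
  · rw [← hη, show u' - u + 2 * y * (y * v) = u' - u + 2 * y ^ 2 * v by ring]
    linarith
  · rw [← hη, show y' * v' - y * v + x * (y * v) + y * u =
      (y' - y + x * y) * v - (y' - y) * u + y' * (v' - v + u) by ring]
    have b1 : |(y' - y + x * y) * v| ≤ 2 * w * η * |y * v| := by
      rw [abs_mul, abs_mul, abs_of_pos hy, ← mul_assoc]; gcongr
    have b2 : |(y' - y) * u| ≤ 102 / 100 * η * w * |u| := by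
      rw [abs_mul]; exact mul_le_mul_of_nonneg_right (h4.trans (by gcongr; linarith)) u0
    have b3 : |y' * (v' - v + u)| ≤ 2 * η * (w * η * B) := by
      rw [abs_mul, abs_of_pos s.pos']
      refine mul_le_mul ?_ hv (abs_nonneg _) (by positivity)
      have : η * y ≤ (1 / 100) * η := by gcongr <;> linarith
      linarith [(abs_le.1 h4).2]
    have := abs_le.1 b1
    have := abs_le.1 b2
    have := abs_le.1 b3
    rw [abs_le]; constructor <;> linarith


theorem close_of_inv {x y t τ κ : ℝ} (ht : 0 < t) (hx : 0 < x) (hτ : τ ≤ 1 / 2) (hκ : 0 ≤ κ)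
    (h : |1 / x - t| ≤ τ * t) (hD : |x ^ 2 - y ^ 2| ≤ κ / t ^ 2) (hκτ : κ ≤ τ) :
    |x - 1 / t| ≤ 2 * τ / t ∧ y ≤ (1 + 3 * τ) / t := by
  have hτ0 : 0 ≤ τ := hκ.trans hκτ
  have h1 := abs_le.1 h
  have h2 : (1 - τ) * t * x ≤ 1 := by rw [← le_div_iff₀ hx]; linarith
  have h3 : 1 ≤ (1 + τ) * t * x := by rw [← div_le_iff₀ hx]; linarith
  have h4 : 0 < t * x := by positivity
  have h5 : |t * x - 1| ≤ 2 * τ := by rw [abs_le]; constructor <;> nlinarith
  constructor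
  · rw [show x - 1 / t = (t * x - 1) / t by field_simp, abs_div, abs_of_pos ht]; gcongr
  · rw [le_div_iff₀ ht]
    refine (abs_le_of_sq_le_sq' ?_ (by positivity)).2
    have h6 := (abs_le.1 hD).1
    have h7 : y ^ 2 * t ^ 2 ≤ x ^ 2 * t ^ 2 + κ := by
      have := mul_le_mul_of_nonneg_right (show y ^ 2 ≤ x ^ 2 + κ / t ^ 2 by linarith) (sq_nonneg t)
      rwa [add_mul, div_mul_cancel₀ _ (by positivity)] at this
    have h8 : (t * x) ^ 2 ≤ (1 + 2 * τ) ^ 2 := by gcongr; linarith [(abs_le.1 h5).2]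
    nlinarith

variable {C δ : ℝ}

/-- upper bound for a rough orbit in terms of its limit -/
theorem sup_upper (hC : 0 ≤ C) (hδ : 0 < δ) (hδ1 : δ < 1) {ε : ℝ} (hε : om C δ ε ≤ 1 / 1000)
    {a : ℕ} (ha : 1 ≤ a) : ∃ C', ∀ (x y : ℕ → ℝ) (L : ℝ),
      (∀ j, a ≤ j → Step C δ x y j ∧ |x j| + y j ≤ ε) → (∀ j, a ≤ j → 1 / (2 * (j : ℝ)) ≤ x j) →
      Tendsto x atTop (𝓝 L) → ∀ n, 2 * a ≤ n → L * n ≤ 1 / 4 →
        x n ≤ 1 / n + 40 * L ^ 2 * n + C' * (n : ℝ) ^ (-1 - δ) := by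
  refine ⟨5 * (63 * ((C + 1) * 15 ^ δ) * ks (1 - δ) + 2 * a), fun x y L h hx hL n hn hLn => ?_⟩
  have hj0 : ∀ j, a ≤ j → (0 : ℝ) < j := fun j hj => by exact_mod_cast (show 0 < j by omega)
  have hxp : ∀ j, a ≤ j → 0 < x j := fun j hj =>
    lt_of_lt_of_le (by have := hj0 j hj; positivity) (hx j hj)
  obtain ⟨L', hL0, hL', -, hs⟩ := sup hC hδ.le (hε.trans (by norm_num)) h fun j hj => (hxp j hj).le
  obtain rfl : L' = L := tendsto_nhds_unique hL' hL
  set w : ℕ → ℝ := fun n => om C δ (min ε (3 * x n)) with hw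
  have hm0 : ∀ j, a ≤ j → 0 ≤ min ε (3 * x j) := fun j hj =>
    le_min ((h j hj).1.eta_pos.le.trans (h j hj).2) (by linarith [hxp j hj])
  have hw1 : ∀ j, a ≤ j → w j ≤ 1 / 1000 := fun j hj =>
    (om_mono hC hδ.le (hm0 j hj) (min_le_left _ _)).trans hε
  have hw0 : ∀ j, a ≤ j → 0 ≤ w j := fun j hj => om_nonneg hC (hm0 j hj)
  have hr : ∀ j, a ≤ j → j ≤ n → |1 / x (j + 1) - 1 / x j - 1| ≤ 8 * (L' * n) ^ 2 + 63 * w j := by
    intro j hj hjn
    have p := hxp j hj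
    have a1 : 1 ≤ 2 * n * x j := by
      have := hx j hj
      rw [div_le_iff₀ (by have := hj0 j hj; positivity)] at this
      have : (j : ℝ) ≤ n := by exact_mod_cast hjn
      nlinarith
    have a2 : L' ^ 2 ≤ 4 * (L' * n) ^ 2 * x j ^ 2 := by
      have := mul_le_mul_of_nonneg_left (one_le_pow₀ (n := 2) a1) (sq_nonneg L')
      linarith
    have a3 : |x j ^ 2 - y j ^ 2| ≤ (4 * (L' * n) ^ 2 + 30 * w j) * x j ^ 2 := by
      have b1 := abs_le.1 (hs j hj).2.2
      have b2 : 30 * w j * x j * (x j - L') ≤ 30 * w j * x j * x j := by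
        have := hw0 j hj
        gcongr; linarith
      have := sq_nonneg L'
      simp only [hw] at *
      rw [abs_le]; constructor <;> nlinarith
    have a4 : (L' * n) ^ 2 ≤ (1 / 4) ^ 2 := by gcongr
    have := (St.ricc (h j hj).1 p ((h j hj).1.w_le hC hδ.le
      (le_min (h j hj).2 ((hs j hj).2.1 j le_rfl))) ((hw1 j hj).trans (by norm_num)) a3
      (by linarith [hw1 j hj])).2
    simp only [hw] at *
    linarith
  have a4 : (L' * n) ^ 2 ≤ (1 / 4) ^ 2 := by gcongr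
  have hlin : ∀ j, a ≤ j → j ≤ n → 2 / 5 * ((j : ℝ) - a) ≤ 1 / x j := by
    intro j hj
    induction j, hj using Nat.le_induction with
    | base => intro _; simpa using (hxp a le_rfl).le
    | succ j hj ih =>
      intro hjn
      have := (abs_le.1 (hr j hj (by omega))).1
      have := hw1 j hj
      have := ih (by omega)
      push_cast; linarith
  have hx5 : ∀ j, 2 * a ≤ j → j ≤ n → x j ≤ 5 / j := fun j h1 h2 => by
    have := hlin j (by omega) h2
    have h3 : (2 * a : ℝ) ≤ j := by exact_mod_cast h1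
    have p := hxp j (by omega)
    rw [le_div_iff₀ p] at this
    rw [le_div_iff₀ (hj0 j (by omega))]
    nlinarith
  have hwj : ∀ j, 2 * a ≤ j → j ≤ n → w j ≤ (C + 1) * 15 ^ δ * (j : ℝ) ^ (1 - δ - 1) := by
    intro j h1 h2
    have h3 : a ≤ j := by omega
    refine (om_le hδ1.le hδ.le (hm0 j h3) (((le_om hC (hm0 j h3)).trans (hw1 j h3)).trans
      (by norm_num))).trans ?_
    have e : (15 : ℝ) ^ δ * (j : ℝ) ^ (1 - δ - 1) = (15 / j) ^ δ := by
      rw [Real.div_rpow (by norm_num) (hj0 j h3).le, show 1 - δ - 1 = -δ by ring,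
        Real.rpow_neg (hj0 j h3).le, div_eq_mul_inv]
    rw [mul_assoc, e]
    refine mul_le_mul_of_nonneg_left (Real.rpow_le_rpow (hm0 j h3) ((min_le_right _ _).trans ?_) hδ.le)
      (by linarith)
    have := hx5 j h1 h2
    rw [show (15 : ℝ) / j = 3 * (5 / j) by ring]; linarith
  have key : ∀ j, 2 * a ≤ j → j ≤ n → (j : ℝ) - 2 * a - 8 * (L' * n) ^ 2 * j -
      63 * ((C + 1) * 15 ^ δ) * ks (1 - δ) * (j : ℝ) ^ (1 - δ) ≤ 1 / x j := by
    intro j hj
    induction j, hj using Nat.le_induction with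
    | base =>
      intro _
      have := (one_div_pos.2 (hxp (2 * a) (by omega))).le
      have := ks_pos (show 1 - δ ≠ 0 by linarith)
      have : 0 ≤ 63 * ((C + 1) * 15 ^ δ) * ks (1 - δ) * ((2 * a : ℕ) : ℝ) ^ (1 - δ) := by positivity
      have : 0 ≤ 8 * (L' * n) ^ 2 * ((2 * a : ℕ) : ℝ) := by positivity
      push_cast at *; linarith
    | succ j hj ih =>
      intro hjn
      have b1 := (abs_le.1 (hr j (by omega) (by omega))).1
      have b2 := hwj j hj (by omega)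
      have b3 := le_ks_pos (t := j) (show 0 < 1 - δ by linarith) (by exact_mod_cast (show 1 ≤ j by omega))
      have b4 := mul_le_mul_of_nonneg_left b3 (show 0 ≤ (C + 1) * 15 ^ δ by positivity)
      have := ih (by omega)
      push_cast; linarith
  have k1 := key n hn le_rfl
  have k2 := hx5 n hn le_rfl
  have p := hxp n (by omega)
  have n0 := hj0 n (by omega)
  have n1 : (1 : ℝ) ≤ (n : ℝ) ^ (1 - δ) := Real.one_le_rpow (by exact_mod_cast (show 1 ≤ n by omega))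
    (by linarith)
  set E := 63 * ((C + 1) * 15 ^ δ) * ks (1 - δ) with hE
  have hE0 : 0 ≤ E := by have := ks_pos (show 1 - δ ≠ 0 by linarith); positivity
  have k3 : (n : ℝ) - 1 / x n ≤ 8 * (L' * n) ^ 2 * n + (E + 2 * a) * (n : ℝ) ^ (1 - δ) := by
    have : (2 * a : ℝ) * 1 ≤ 2 * a * (n : ℝ) ^ (1 - δ) := by gcongr
    linarith
  have e1 : x n - 1 / n = ((n : ℝ) - 1 / x n) * (x n / n) := by field_simp
  have e2 : (n : ℝ) ^ (1 - δ) = (n : ℝ) ^ (-1 - δ) * n ^ 2 := by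
    rw [← Real.rpow_natCast, ← Real.rpow_add n0]; congr 1; push_cast; ring
  have k4 : x n - 1 / n ≤ (8 * (L' * n) ^ 2 * n + (E + 2 * a) * (n : ℝ) ^ (1 - δ)) * (5 / n / n) := by
    rw [e1]
    exact (mul_le_mul_of_nonneg_right k3 (by positivity)).trans (by gcongr)
  have e3 : (8 * (L' * n) ^ 2 * n + (E + 2 * a) * (n : ℝ) ^ (1 - δ)) * (5 / n / n) =
      40 * L' ^ 2 * n + 5 * (E + 2 * a) * (n : ℝ) ^ (-1 - δ) := by rw [e2]; field_simp; ring
  linarith

/-- infinite slope of the limiting stiffness at the threshold (argument of helper70) -/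
theorem slope (hC : 0 ≤ C) (hδ : 0 < δ) (hδ1 : δ < 1) {ε c C₁ : ℝ} (hε : om C δ ε ≤ 1 / 1000)
    (hc : 0 < c) {a : ℕ} {x y : ℕ → ℝ} {X Y : ℝ → ℕ → ℝ} {L : ℝ → ℝ}
    (h : ∀ j, a ≤ j → Step C δ x y j ∧ |x j| + y j ≤ ε) (hx : Tendsto x atTop (𝓝 0))
    (hX : ∀ᶠ μ in 𝓝[>] (0 : ℝ), (∀ j, a ≤ j → Step C δ (X μ) (Y μ) j ∧ |X μ j| + Y μ j ≤ ε) ∧
      Tendsto (X μ) atTop (𝓝 (L μ)) ∧
      ∀ j, a ≤ j → c * μ - C₁ * (j : ℝ) ^ (-1 - δ) ≤ X μ j - x j) :
    Tendsto (fun μ => L μ / μ) (𝓝[>] 0) atTop := by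
  have h1 := (crit hC hδ hδ1 (hε.trans (by norm_num)) h hx).1
  have h2 : (fun n : ℕ => C₁ * (n : ℝ) ^ (-1 - δ)) =O[atTop] pw (-1 - δ) :=
    (isBigO_refl _ _).const_mul_left C₁
  obtain ⟨b, hb⟩ := eventually_atTop.1 ((eventually_le_div hδ (τ := 1 / 2) (by norm_num)
    (h1.sub h2)).and (eventually_ge_atTop (max a 1)))
  have hb1 : 1 ≤ b := (le_max_right _ _).trans (hb b le_rfl).2
  have hab : a ≤ b := (le_max_left _ _).trans (hb b le_rfl).2
  obtain ⟨C', hC'⟩ := sup_upper hC hδ hδ1 hε hb1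
  obtain ⟨C₂, hC₂, m, -, hm⟩ := bigO_iff.1 h1
  refine tendsto_atTop.2 fun K => ?_
  set K' := max K 1 with hK'
  have K1 : 1 ≤ K' := le_max_right _ _
  set τ := min (1 / (8 * K')) (c / (320 * K' ^ 2)) with hτ
  have τ0 : 0 < τ := by positivity
  have τ1 : τ * K' ≤ 1 / 8 := by
    have := min_le_left (1 / (8 * K')) (c / (320 * K' ^ 2))
    rw [← hτ, le_div_iff₀ (by positivity)] at this; linarith
  have τ2 : τ * (320 * K' ^ 2) ≤ c := (le_div_iff₀ (by positivity)).1 (min_le_right _ _)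
  set E := |C'| + |C₁| + C₂ with hE
  have t1 : Tendsto (fun μ : ℝ => E * τ ^ (-1 - δ) * μ ^ δ) (𝓝[>] 0) (𝓝 0) := by
    have := ((Real.continuous_rpow_const hδ.le).tendsto 0).const_mul (E * τ ^ (-1 - δ))
    rw [Real.zero_rpow hδ.ne', mul_zero] at this
    exact this.mono_left nhdsWithin_le_nhds
  have t2 : Tendsto (fun μ : ℝ => τ / μ) (𝓝[>] 0) atTop := by
    simpa [div_eq_mul_inv] using tendsto_inv_nhdsGT_zero.const_mul_atTop τ0
  filter_upwards [hX, t1.eventually (ge_mem_nhds (show 0 < c / 4 by linarith)),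
    t2.eventually_ge_atTop ((max (2 * b) m : ℕ) : ℝ), self_mem_nhdsWithin] with μ hμ e1 e2 μ0
  obtain ⟨k1, k2, k3⟩ := hμ
  have μ0 : 0 < μ := μ0
  by_contra hK
  have hL : L μ ≤ K' * μ := by
    rw [← div_le_iff₀ μ0]; exact (not_le.1 hK).le.trans (le_max_left _ _)
  set n := ⌈τ / μ⌉₊ with hn
  have n1 : τ / μ ≤ n := Nat.le_ceil _
  have n2 : max (2 * b) m ≤ n := by exact_mod_cast e2.trans n1
  have n3 : (n : ℝ) ≤ 2 * (τ / μ) := by
    have := (Nat.ceil_lt_add_one (show 0 ≤ τ / μ by positivity)).le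
    have : (1 : ℝ) ≤ ((max (2 * b) m : ℕ) : ℝ) := by exact_mod_cast (show 1 ≤ max (2 * b) m by omega)
    linarith
  have n4 : μ * n ≤ 2 * τ := by
    calc μ * n ≤ μ * (2 * (τ / μ)) := by gcongr
      _ = _ := by field_simp
  have hlow : ∀ j, b ≤ j → 1 / (2 * (j : ℝ)) ≤ X μ j := fun j hj => by
    have a1 := (abs_le.1 (hb j hj).1).1
    have a2 := k3 j (hab.trans hj)
    have a3 : (1 : ℝ) / j = 2 * (1 / (2 * j)) := by ring
    have a4 : (1 : ℝ) / 2 / j = 1 / (2 * j) := by ring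
    have := mul_pos hc μ0
    linarith
  have hL0 : 0 ≤ L μ := ge_of_tendsto k2 ((eventually_ge_atTop b).mono fun j hj =>
    le_trans (by positivity) (hlow j hj))
  have u1 := hC' (X μ) (Y μ) (L μ) (fun j hj => k1 j (hab.trans hj)) hlow k2 n (by omega)
    (by nlinarith [Nat.cast_nonneg (α := ℝ) n])
  have u2 := (abs_le.1 (hm n (by omega))).1
  have u3 := k3 n (by omega)
  have u4 : 40 * L μ ^ 2 * n ≤ c / 4 * μ := by
    calc 40 * L μ ^ 2 * n ≤ 40 * (K' * μ) ^ 2 * n := by gcongr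
      _ = 40 * K' ^ 2 * μ * (μ * n) := by ring
      _ ≤ 40 * K' ^ 2 * μ * (2 * τ) := by gcongr
      _ ≤ _ := by nlinarith
  have u5 : E * (n : ℝ) ^ (-1 - δ) ≤ c / 4 * μ := by
    have a1 : (n : ℝ) ^ (-1 - δ) ≤ (τ / μ) ^ (-1 - δ) :=
      Real.rpow_le_rpow_of_nonpos (by positivity) n1 (by linarith)
    have a2 : (τ / μ) ^ (-1 - δ) = τ ^ (-1 - δ) * μ ^ δ * μ := by
      rw [Real.div_rpow τ0.le μ0.le, show -1 - δ = -(δ + 1) by ring, Real.rpow_neg μ0.le,
        Real.rpow_add_one μ0.ne']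
      field_simp
    calc E * (n : ℝ) ^ (-1 - δ) ≤ E * (τ / μ) ^ (-1 - δ) := by gcongr
      _ = E * τ ^ (-1 - δ) * μ ^ δ * μ := by rw [a2]; ring
      _ ≤ _ := by gcongr
  have p0 : 0 ≤ (n : ℝ) ^ (-1 - δ) := by positivity
  have := mul_le_mul_of_nonneg_right (le_abs_self C') p0
  have := mul_le_mul_of_nonneg_right (le_abs_self C₁) p0
  have := mul_pos hc μ0
  rw [hE] at u5
  linarith

end Crest.Agent.T145.KT
end

-- ▼ part T145/KtH_54

/-!
# Row 145 (helper54): the discrete Kosterlitz-Thouless flow, part H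
(orbits with a linearisation on a finite horizon; continuity method; exit on a finite horizon)
-/

set_option autoImplicit false

namespace Crest.Agent.T145.KT

open Filter Topology Finset Asymptotics

/-- relative error at step `n` for the horizon `K` -/
noncomputable def er (C δ θ τ : ℝ) (K : ℕ) (x y : ℕ → ℝ) (n : ℕ) : ℝ :=
  C * (|x n| + y n) ^ δ + τ * θ ^ (K - n)

/-- the size of the linearised solution seen at step `n` (memory, future, accumulated past) -/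
noncomputable def Abd (M B θ : ℝ) (a K : ℕ) (x y p q : ℕ → ℝ) (n : ℕ) : ℝ :=
  M * (B + ∑ j ∈ Icc a K, θ ^ Nat.dist j n * (|p j| + |q j|) +
    (|x n| + y n) * ∑ j ∈ Icc a n, (|p j| + |q j|))

/-- an orbit with a linearised solution on the horizon `[a, K]` -/
structure Orb (C δ θ M B τ ε : ℝ) (a K : ℕ) (x y p q : ℕ → ℝ) : Prop where
  small : ∀ n, a ≤ n → n ≤ K → |x n| + y n ≤ ε
  st : ∀ n, a ≤ n → n < K → St (er C δ θ τ K x y n) (x n) (y n) (x (n + 1)) (y (n + 1))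
  ln : ∀ n, a ≤ n → n < K → Ln (er C δ θ τ K x y n) (x n) (y n) (p n) (q n) (p (n + 1)) (q (n + 1))
    (Abd M B θ a K x y p q n)

theorem er_le {C δ θ τ ε : ℝ} {K n : ℕ} {x y : ℕ → ℝ} (hC : 0 ≤ C) (hδ : 0 ≤ δ) (hθ : 0 ≤ θ)
    (hθ1 : θ ≤ 1) (hτ : 0 ≤ τ) (h0 : 0 ≤ |x n| + y n) (h : |x n| + y n ≤ ε) :
    er C δ θ τ K x y n + (|x n| + y n) ≤ om C δ ε + τ := by
  have h1 := om_mono hC hδ h0 h
  have h2 : τ * θ ^ (K - n) ≤ τ := mul_le_of_le_one_right hτ (pow_le_one₀ hθ hθ1)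
  simp only [er, om] at *
  linarith

/-- continuity method for finitely many functions of a real parameter -/
theorem real_ind {b₀ b₁ : ℝ} (F : Finset ℕ) {D D' : ℕ → ℝ → ℝ} {r l : ℕ → ℝ}
    (hD : ∀ n ∈ F, ∀ b ∈ Set.Icc b₀ b₁, HasDerivAt (D n) (D' n b) b)
    (hl : ∀ b ∈ Set.Icc b₀ b₁, (∀ n ∈ F, |D n b| ≤ r n) → ∀ n ∈ F, |D' n b| ≤ l n)
    (hl0 : ∀ n ∈ F, 0 ≤ l n) (h : ∀ n ∈ F, |D n b₁| + l n * (b₁ - b₀) < r n) :
    ∀ b ∈ Set.Icc b₀ b₁, ∀ n ∈ F, |D n b| ≤ r n := by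
  set s : Set ℝ := {t | ∀ n ∈ F, |D n (b₁ - t)| ≤ r n} with hs
  have hm : ∀ t ∈ Set.Icc 0 (b₁ - b₀), b₁ - t ∈ Set.Icc b₀ b₁ := fun t ht =>
    ⟨by linarith [ht.2], by linarith [ht.1]⟩
  have hc : ∀ n ∈ F, ∀ t ∈ Set.Icc 0 (b₁ - b₀), ContinuousAt (fun t => |D n (b₁ - t)|) t :=
    fun n hn t ht => (ContinuousAt.comp (f := fun t => b₁ - t) (hD n hn _ (hm t ht)).continuousAt
      (by fun_prop)).abs
  have hcl : IsClosed (s ∩ Set.Icc 0 (b₁ - b₀)) := by
    have : s ∩ Set.Icc 0 (b₁ - b₀) = Set.Icc 0 (b₁ - b₀) ∩ ⋂ n ∈ F,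
        (Set.Icc 0 (b₁ - b₀) ∩ (fun t => |D n (b₁ - t)|) ⁻¹' Set.Iic (r n)) := by
      ext t
      simp only [hs, Set.mem_inter_iff, Set.mem_ofPred_eq, Set.mem_iInter, Set.mem_preimage,
        Set.mem_Iic]
      exact ⟨fun h => ⟨h.2, fun n hn => ⟨h.2, h.1 n hn⟩⟩, fun h => ⟨fun n hn => (h.2 n hn).2, h.1⟩⟩
    rw [this]
    exact isClosed_Icc.inter (isClosed_biInter fun n hn =>
      ContinuousOn.preimage_isClosed_of_isClosed (fun t ht => (hc n hn t ht).continuousWithinAt)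
        isClosed_Icc isClosed_Iic)
  intro b hb
  have hbb : 0 ≤ b₁ - b₀ := by linarith [hb.1, hb.2]
  have key := hcl.Icc_subset_of_forall_mem_nhdsGT_of_Icc_subset
    (fun n hn => by have := h n hn; have := mul_nonneg (hl0 n hn) hbb; rw [sub_zero]; linarith)
    (fun t ht hsub => by
      refine mem_nhdsWithin_of_mem_nhds ((eventually_all_finset F).2 fun n hn => ?_)
      refine (hc n hn t ⟨ht.1, ht.2.le⟩).eventually (ge_mem_nhds ?_)
      have hsub' : Set.Icc (b₁ - t) b₁ ⊆ Set.Icc b₀ b₁ :=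
        Set.Icc_subset_Icc (by linarith [ht.2]) le_rfl
      have := Convex.norm_image_sub_le_of_norm_hasDerivWithin_le (f := D n) (f' := D' n) (C := l n)
        (s := Set.Icc (b₁ - t) b₁) (fun u hu => (hD n hn u (hsub' hu)).hasDerivWithinAt)
        (fun u hu => hl u (hsub' hu) (fun k hk => by
          have hu' : b₁ - u ∈ Set.Icc 0 t := ⟨by linarith [hu.2], by linarith [hu.1]⟩
          simpa only [sub_sub_cancel] using hsub hu' k hk) n hn)
        (convex_Icc _ _) (Set.right_mem_Icc.2 (by linarith [ht.1]))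
        (Set.left_mem_Icc.2 (by linarith [ht.1]))
      rw [Real.norm_eq_abs, Real.norm_eq_abs, sub_sub_cancel_left, abs_neg, abs_of_nonneg ht.1] at this
      have h1 := abs_add_le (D n (b₁ - t) - D n b₁) (D n b₁)
      rw [sub_add_cancel] at h1
      have h2 := mul_le_mul_of_nonneg_left ht.2.le (hl0 n hn)
      have := h n hn
      linarith)
  have hb' : b₁ - b ∈ Set.Icc 0 (b₁ - b₀) := ⟨by linarith [hb.2], by linarith [hb.1]⟩
  have hk : ∀ n ∈ F, |D n (b₁ - (b₁ - b))| ≤ r n := key hb'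
  simpa only [sub_sub_cancel] using hk

/-- closed growth bound for an abstract weight `G` -/
theorem closed_abs {e p q A G : ℕ → ℝ} {a K : ℕ} {κ S₀ B₀ M e₀ : ℝ} (hκ : 0 < κ)
    (hG : ∀ n, a ≤ n → 0 < G n) (hB₀ : 0 ≤ B₀) (hS₀ : 0 ≤ S₀) (he₀ : 30 * e₀ * M ≤ κ)
    (he : ∀ n, a ≤ n → n < K → 0 ≤ e n ∧ e n ≤ e₀ ∧ 0 ≤ A n)
    (step : ∀ n, a ≤ n → n < K → ∀ S, 0 ≤ S → 10 * (e n * A n) ≤ κ * (S * G n) → |p n| ≤ S * G n →
      |q n| ≤ S * G n / 2 → |p (n + 1)| ≤ S * G (n + 1) ∧ |q (n + 1)| ≤ S * G (n + 1) / 2)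
    (hA : ∀ S, 0 ≤ S → (∀ j, a ≤ j → j ≤ K → |p j| + |q j| ≤ S * G j) →
      ∀ n, a ≤ n → n < K → A n ≤ M * (B₀ + S) * G n)
    (h0 : |p a| + |q a| ≤ S₀ * G a) :
    ∀ n, a ≤ n → n ≤ K → |p n| + |q n| ≤ (6 * S₀ + B₀) * G n := by
  set P : Set ℝ := {S | 0 ≤ S ∧ ∀ j, a ≤ j → j ≤ K → |p j| + |q j| ≤ S * G j} with hP
  have hne : P.Nonempty := by
    refine ⟨∑ j ∈ Icc a K, (|p j| + |q j|) / G j,
      sum_nonneg fun j hj => div_nonneg (by positivity) (hG j (mem_Icc.1 hj).1).le, fun j h1 h2 => ?_⟩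
    rw [← div_le_iff₀ (hG j h1)]
    exact single_le_sum (f := fun j => (|p j| + |q j|) / G j)
      (fun j hj => div_nonneg (by positivity) (hG j (mem_Icc.1 hj).1).le) (mem_Icc.2 ⟨h1, h2⟩)
  have hbd : BddBelow P := ⟨0, fun S hS => hS.1⟩
  have h1 : 0 ≤ sInf P := le_csInf hne fun S hS => hS.1
  have h2 : ∀ j, a ≤ j → j ≤ K → |p j| + |q j| ≤ sInf P * G j := fun j j1 j2 => by
    rw [← div_le_iff₀ (hG j j1)]
    exact le_csInf hne fun S hS => (div_le_iff₀ (hG j j1)).2 (hS.2 j j1 j2)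
  set S := 2 * S₀ + (B₀ + sInf P) / 3 with hS
  have hS0 : 0 ≤ S := by positivity
  have h3 : ∀ n, a ≤ n → n ≤ K → |p n| ≤ S * G n ∧ |q n| ≤ S * G n / 2 := by
    intro n hn
    induction n, hn using Nat.le_induction with
    | base =>
      intro _
      have := mul_nonneg (add_nonneg hB₀ h1) (hG a le_rfl).le
      have := mul_nonneg hS₀ (hG a le_rfl).le
      rw [hS]; constructor <;> linarith [abs_nonneg (q a), abs_nonneg (p a)]
    | succ n hn ih =>
      intro hK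
      obtain ⟨i1, i2⟩ := ih (by omega)
      obtain ⟨k1, k2, k3⟩ := he n hn (by omega)
      refine step n hn (by omega) S hS0 ?_ i1 i2
      have a1 := mul_le_mul k2 (hA _ h1 h2 n hn (by omega)) k3 (k1.trans k2)
      have a2 := mul_le_mul_of_nonneg_right he₀ (mul_nonneg (add_nonneg hB₀ h1) (hG n hn).le)
      have a3 := mul_nonneg (mul_nonneg hκ.le hS₀) (hG n hn).le
      rw [hS]; linarith
  have h4 : sInf P ≤ 3 / 2 * S := csInf_le hbd ⟨by positivity, fun j j1 j2 => by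
    obtain ⟨k1, k2⟩ := h3 j j1 j2
    linarith⟩
  intro n n1 n2
  exact (h2 n n1 n2).trans (mul_le_mul_of_nonneg_right (by linarith) (hG n n1).le)

theorem Ln.crude {e x y p q p' q' A κ S ε : ℝ} (h : Ln e x y p q p' q' A) (hκ1 : κ ≤ 1) (hy : 0 ≤ y)
    (hη : |x| + y ≤ ε) (he : 0 ≤ e) (hS : 10 * (e * A) ≤ κ * S) (hp : |p| ≤ S) (hq : |q| ≤ S / 2) :
    |p'| ≤ S * (1 + 3 * ε) ∧ |q'| ≤ S * (1 + 3 * ε) / 2 := by
  have hS0 : 0 ≤ S := (abs_nonneg _).trans hp
  have hA := h.A_nonneg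
  have hx0 := abs_nonneg x
  have hF : e * (|x| + y) * A ≤ ε * (S / 10) := by
    calc e * (|x| + y) * A = (|x| + y) * (e * A) := by ring
      _ ≤ ε * (S / 10) := by gcongr; linarith; nlinarith
  have c1 : |x| * S + y * S ≤ ε * S := by rw [← add_mul]; gcongr
  have c2 := mul_nonneg hx0 hS0
  have c3 := mul_nonneg hy hS0
  constructor
  · have a1 : |p'| ≤ |p' - p + 2 * y * q| + |p| + |2 * y * q| := by
      have := abs_add_le (p' - p + 2 * y * q) (p - 2 * y * q)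
      have := abs_sub p (2 * y * q)
      rw [show p' - p + 2 * y * q + (p - 2 * y * q) = p' by ring] at *
      linarith
    rw [abs_mul, abs_mul, abs_two, abs_of_nonneg hy] at a1
    have a2 : 2 * y * |q| ≤ 2 * y * (S / 2) := by gcongr
    linarith [h.hp]
  · have a1 : |q'| ≤ |q' - q + x * q + y * p| + (|q| + |x * q|) + |y * p| := by
      have := abs_add_le (q' - q + x * q + y * p) ((q - x * q) - y * p)
      have := abs_sub (q - x * q) (y * p)
      have := abs_sub q (x * q)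
      rw [show q' - q + x * q + y * p + ((q - x * q) - y * p) = q' by ring] at *
      linarith
    rw [abs_mul, abs_mul, abs_of_nonneg hy] at a1
    have a2 : y * |p| ≤ y * S := by gcongr
    have a3 : |x| * |q| ≤ |x| * (S / 2) := by gcongr
    linarith [h.hq]

theorem sum_dist_le {φ : ℕ → ℝ} (h0 : ∀ i, 0 ≤ φ i) (hφ : Summable φ) (S : Finset ℕ) (n : ℕ) :
    ∑ j ∈ S, φ (Nat.dist j n) ≤ 2 * ∑' i, φ i := by
  have key : ∀ T : Finset ℕ, Set.InjOn (fun j => Nat.dist j n) T →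
      ∑ j ∈ T, φ (Nat.dist j n) ≤ ∑' i, φ i := fun T hT => by
    rw [← sum_image (f := φ) hT]
    exact hφ.sum_le_tsum _ fun i _ => h0 i
  rw [← sum_filter_add_sum_filter_not S (· ≤ n), two_mul]
  refine add_le_add (key _ fun i hi j hj h => ?_) (key _ fun i hi j hj h => ?_)
  · simp only [coe_filter, Set.mem_ofPred_eq, Nat.dist] at hi hj h; omega
  · simp only [coe_filter, Set.mem_ofPred_eq, Nat.dist] at hi hj h; omega

/-- the constant of the memory kernel -/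
noncomputable def cth (θ : ℝ) : ℝ := ∑' i : ℕ, ((i : ℝ) + 1) ^ 2 * ((1 + θ) / 2) ^ i

theorem summable_cth {θ : ℝ} (h0 : 0 ≤ θ) (h1 : θ < 1) :
    Summable fun i : ℕ => ((i : ℝ) + 1) ^ 2 * ((1 + θ) / 2) ^ i := by
  have hr : ‖(1 + θ) / 2‖ < 1 := by rw [Real.norm_eq_abs, abs_of_nonneg (by linarith)]; linarith
  have a2 := summable_pow_mul_geometric_of_norm_lt_one 2 hr
  have a1 := summable_pow_mul_geometric_of_norm_lt_one 1 hr
  have a0 := summable_pow_mul_geometric_of_norm_lt_one 0 hr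
  exact ((a2.add (a1.mul_left 2)).add a0).congr fun i => by ring

theorem cth_nonneg {θ : ℝ} (h0 : 0 ≤ θ) : 0 ≤ cth θ := tsum_nonneg fun i => by positivity

theorem weight_le {θ Γ s : ℝ} (h0 : 0 ≤ θ) (hΓ : 1 ≤ Γ) (hθΓ : θ * Γ ≤ (1 + θ) / 2) (hs0 : 0 ≤ s)
    (hs : s ≤ 2) (N : ℕ) {j n : ℕ} (hn : 1 ≤ n) :
    θ ^ Nat.dist j n * (Γ ^ (j - N) * (j : ℝ) ^ s) ≤ (Γ ^ (n - N) * (n : ℝ) ^ s) *
      ((((Nat.dist j n : ℕ) : ℝ) + 1) ^ 2 * ((1 + θ) / 2) ^ Nat.dist j n) := by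
  obtain ⟨d, hd⟩ : ∃ d, d = Nat.dist j n := ⟨_, rfl⟩
  have h1 : j ≤ n + d := by rw [hd]; unfold Nat.dist; omega
  rw [← hd]
  have h2 : Γ ^ (j - N) ≤ Γ ^ (n - N) * Γ ^ d := by
    rw [← pow_add]; exact pow_le_pow_right₀ hΓ (by omega)
  have h3 : (j : ℝ) ^ s ≤ (n : ℝ) ^ s * ((d : ℝ) + 1) ^ 2 := by
    have a1 : (j : ℝ) ≤ n * (d + 1) := by
      have : j ≤ n * (d + 1) := by nlinarith
      exact_mod_cast this
    calc (j : ℝ) ^ s ≤ (n * (d + 1)) ^ s := Real.rpow_le_rpow (by positivity) a1 hs0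
      _ = (n : ℝ) ^ s * ((d : ℝ) + 1) ^ s := Real.mul_rpow (by positivity) (by positivity)
      _ ≤ (n : ℝ) ^ s * ((d : ℝ) + 1) ^ (2 : ℝ) := by
          gcongr; linarith [Nat.cast_nonneg (α := ℝ) d]
      _ = _ := by rw [Real.rpow_two]
  have h4 : θ ^ d * Γ ^ d ≤ ((1 + θ) / 2) ^ d := by rw [← mul_pow]; gcongr
  calc θ ^ d * (Γ ^ (j - N) * (j : ℝ) ^ s)
      ≤ θ ^ d * ((Γ ^ (n - N) * Γ ^ d) * ((n : ℝ) ^ s * ((d : ℝ) + 1) ^ 2)) := by gcongr
    _ = (Γ ^ (n - N) * (n : ℝ) ^ s) * (((d : ℝ) + 1) ^ 2 * (θ ^ d * Γ ^ d)) := by ring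
    _ ≤ _ := by gcongr

theorem sum_weight_le {Γ : ℝ} (hΓ : 1 < Γ) (N m n : ℕ) (hm : 1 ≤ m) :
    ∑ j ∈ Icc m n, Γ ^ (j - N) ≤ (min n N : ℕ) + Γ ^ (n - N) * (Γ / (Γ - 1)) := by
  have h0 : 0 < Γ - 1 := by linarith
  induction n with
  | zero => rw [Icc_eq_empty (by omega)]; simp; positivity
  | succ n ih =>
    by_cases hmn : m ≤ n + 1
    · rw [sum_Icc_succ_top hmn]
      by_cases hN : n + 1 ≤ N
      · rw [min_eq_left hN, show n + 1 - N = 0 by omega]
        rw [min_eq_left (by omega), show n - N = 0 by omega] at ih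
        push_cast; linarith
      · rw [min_eq_right (by omega), show n + 1 - N = n - N + 1 by omega, pow_succ]
        rw [min_eq_right (by omega)] at ih
        have : Γ ^ (n - N) * Γ * (Γ / (Γ - 1)) = Γ ^ (n - N) * (Γ / (Γ - 1)) + Γ ^ (n - N) * Γ := by
          field_simp; ring
        linarith
    · rw [Icc_eq_empty (by omega), sum_empty]; positivity

/-- the amplification constant of the size -/
noncomputable def Mth (M θ : ℝ) : ℝ := M * (4 + 2 * cth θ)

variable {C δ θ M B τ ε : ℝ} {a K : ℕ} {x y p q : ℕ → ℝ}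

/-- bounds for the linearised solution when the orbit is close to `1/n` on `[m, N]` -/
theorem Orb.lin_bound (O : Orb C δ θ M B τ ε a K x y p q) (hC : 0 ≤ C) (hδ : 0 ≤ δ) (hθ : 0 ≤ θ)
    (hθ1 : θ < 1) (hM : 0 ≤ M) (hB : 0 ≤ B) (hτ : 0 ≤ τ) (hε : 0 < ε) (hεθ : 6 * ε ≤ 1 - θ)
    {κ : ℝ} (hκ : 0 < κ) (hκ1 : κ ≤ 1) (hw : om C δ ε + τ ≤ 1 / 100)
    (hw' : 30 * (om C δ ε + τ) * Mth M θ ≤ κ) {m N : ℕ} (ham : a ≤ m) (hm : 2 ≤ m) (hmN : m ≤ N)
    (hNK : N ≤ K) (hcl : ∀ n, m ≤ n → n ≤ N → |x n - 1 / n| ≤ κ / 8 / n ∧ y n ≤ (1 + κ / 8) / n)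
    {B₁ : ℝ} (hB₁ : ∑ j ∈ Icc a m, (|p j| + |q j|) ≤ B₁) :
    (∀ j, m ≤ j → j ≤ K → |p j| + |q j| ≤
      (8 * B₁ + B) * ((1 + 3 * ε) ^ (j - N) * (j : ℝ) ^ (1 + κ))) ∧
    ∀ n, m ≤ n → n < K → Abd M B θ a K x y p q n ≤
      Mth M θ * (10 * B₁ + 2 * B) * ((1 + 3 * ε) ^ (n - N) * (n : ℝ) ^ (1 + κ)) := by
  set Γ := 1 + 3 * ε with hΓ
  have Γ1 : 1 < Γ := by linarith
  have hε1 : ε ≤ 1 / 100 := by linarith [le_om (δ := δ) hC hε.le]
  have hB1 : 0 ≤ B₁ := (sum_nonneg fun j _ => by positivity).trans hB₁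
  have hG1 : ∀ n, m ≤ n → 1 ≤ Γ ^ (n - N) * (n : ℝ) ^ (1 + κ) := fun n hn =>
    one_le_mul_of_one_le_of_one_le (one_le_pow₀ Γ1.le)
      (Real.one_le_rpow (by exact_mod_cast (show 1 ≤ n by omega)) (by linarith))
  have hwn : ∀ n, m ≤ n → n < K → er C δ θ τ K x y n + (|x n| + y n) ≤ om C δ ε + τ :=
    fun n h1 h2 => er_le hC hδ hθ hθ1.le hτ
      (add_nonneg (abs_nonneg _) (O.st n (by omega) h2).pos.le) (O.small n (by omega) h2.le)
  have hη3 : ∀ n, m ≤ n → n ≤ N → (|x n| + y n) * n ≤ 3 := fun n h1 h2 => by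
    obtain ⟨k1, k2⟩ := hcl n h1 h2
    have n0 : (0 : ℝ) < n := by exact_mod_cast (show 0 < n by omega)
    have k3 := abs_add_le (x n - 1 / n) (1 / n)
    rw [sub_add_cancel, abs_of_pos (show (0 : ℝ) < 1 / n by positivity)] at k3
    rw [← le_div_iff₀ n0]
    have : κ / 8 / n + 1 / n + (1 + κ / 8) / n ≤ 3 / n := by
      rw [← add_div, ← add_div]; gcongr; linarith
    linarith
  have hηN : ∀ n, N ≤ n → n ≤ K → (|x n| + y n) * N ≤ 3 * Γ ^ (n - N) := by
    intro n hn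
    induction n, hn using Nat.le_induction with
    | base => intro _; simpa using hη3 N hmN le_rfl
    | succ n hn ih =>
      intro hK
      have i := ih (by omega)
      have s := O.st n (by omega) (by omega)
      have k1 := s.eta_le' (hwn n (by omega) (by omega)) hw
      have k2 : (|x n| + y n) * (1 + 3 * (|x n| + y n)) ≤ (|x n| + y n) * Γ := by
        have := O.small n (by omega) (by omega)
        have := s.pos
        gcongr; linarith
      rw [show n + 1 - N = n - N + 1 by omega, pow_succ]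
      calc _ ≤ (|x n| + y n) * Γ * N := by gcongr; linarith
        _ = (|x n| + y n) * N * Γ := by ring
        _ ≤ 3 * Γ ^ (n - N) * Γ := by gcongr
        _ = _ := by ring
  have hA : ∀ S, 0 ≤ S → (∀ j, m ≤ j → j ≤ K → |p j| + |q j| ≤ S * (Γ ^ (j - N) * (j : ℝ) ^ (1 + κ))) →
      ∀ n, m ≤ n → n < K → Abd M B θ a K x y p q n ≤
        Mth M θ * ((B + 2 * B₁) + S) * (Γ ^ (n - N) * (n : ℝ) ^ (1 + κ)) := by
    intro S hS h n n1 n2
    have y0 := (O.st n (by omega) n2).pos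
    have η0 : 0 ≤ |x n| + y n := by positivity
    have η1 := O.small n (by omega) n2.le
    have past : ∑ j ∈ Ico a m, (|p j| + |q j|) ≤ B₁ := le_trans (sum_le_sum_of_subset_of_nonneg
      Ico_subset_Icc_self fun j _ _ => by positivity) hB₁
    have split : ∀ (f : ℕ → ℝ) k, m ≤ k → ∑ j ∈ Icc a k, f j = ∑ j ∈ Ico a m, f j + ∑ j ∈ Icc m k, f j :=
      fun f k hk => by
        rw [← Ico_add_one_right_eq_Icc, ← Ico_add_one_right_eq_Icc,
          sum_Ico_consecutive f ham (by omega)]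
    set G := Γ ^ (n - N) * (n : ℝ) ^ (1 + κ) with hG
    have G1 : 1 ≤ G := hG1 n n1
    have s1 : ∑ j ∈ Icc a K, θ ^ Nat.dist j n * (|p j| + |q j|) ≤ B₁ + S * G * (2 * cth θ) := by
      rw [split _ K (by omega)]
      refine add_le_add (le_trans (sum_le_sum fun j _ => ?_) past) ?_
      · exact mul_le_of_le_one_left (by positivity) (pow_le_one₀ hθ hθ1.le)
      · refine le_trans (sum_le_sum (g := fun j => S * G * ((((Nat.dist j n : ℕ) : ℝ) + 1) ^ 2 *
          ((1 + θ) / 2) ^ Nat.dist j n)) fun j hj => ?_) ?_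
        · have k1 := weight_le (j := j) (s := 1 + κ) hθ Γ1.le (by nlinarith) (by linarith) (by linarith)
            N (show 1 ≤ n by omega)
          calc _ ≤ θ ^ Nat.dist j n * (S * (Γ ^ (j - N) * (j : ℝ) ^ (1 + κ))) := by
                gcongr; exact h j (mem_Icc.1 hj).1 (mem_Icc.1 hj).2
            _ = S * (θ ^ Nat.dist j n * (Γ ^ (j - N) * (j : ℝ) ^ (1 + κ))) := by ring
            _ ≤ S * (G * _) := by gcongr
            _ = _ := by ring
        · rw [← mul_sum]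
          exact mul_le_mul_of_nonneg_left (sum_dist_le
            (φ := fun i : ℕ => ((i : ℝ) + 1) ^ 2 * ((1 + θ) / 2) ^ i) (fun i => by positivity)
            (summable_cth hθ hθ1) _ n) (by positivity)
    have s2 : (|x n| + y n) * ∑ j ∈ Icc a n, (|p j| + |q j|) ≤ B₁ + S * G * 4 := by
      rw [split _ n n1, mul_add]
      refine add_le_add ((mul_le_of_le_one_left (sum_nonneg fun j _ => by positivity)
        (by linarith)).trans past) ?_
      have k1 : ∑ j ∈ Icc m n, (|p j| + |q j|) ≤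
          S * (n : ℝ) ^ (1 + κ) * ((min n N : ℕ) + Γ ^ (n - N) * (Γ / (Γ - 1))) := by
        refine le_trans ?_ (mul_le_mul_of_nonneg_left (sum_weight_le Γ1 N m n (by omega)) (by positivity))
        rw [mul_sum]
        refine sum_le_sum fun j hj => (h j (mem_Icc.1 hj).1 (by have := (mem_Icc.1 hj).2; omega)).trans ?_
        have : (j : ℝ) ≤ n := by exact_mod_cast (mem_Icc.1 hj).2
        calc _ ≤ S * (Γ ^ (j - N) * (n : ℝ) ^ (1 + κ)) := by gcongr
          _ = _ := by ring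
      have k2 : (|x n| + y n) * (min n N : ℕ) ≤ 3 * Γ ^ (n - N) := by
        rcases le_total n N with hl | hl
        · rw [min_eq_left hl, show n - N = 0 by omega]; simpa using hη3 n n1 hl
        · rw [min_eq_right hl]; exact hηN n hl n2.le
      have k3 : (|x n| + y n) * (Γ / (Γ - 1)) ≤ 1 := by
        rw [← mul_div_assoc, div_le_one (by linarith)]; nlinarith
      have k4 := mul_le_mul_of_nonneg_left k3 (show 0 ≤ Γ ^ (n - N) by positivity)
      calc _ ≤ (|x n| + y n) * (S * (n : ℝ) ^ (1 + κ) *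
            ((min n N : ℕ) + Γ ^ (n - N) * (Γ / (Γ - 1)))) := by gcongr
        _ = S * (n : ℝ) ^ (1 + κ) * ((|x n| + y n) * (min n N : ℕ) +
            Γ ^ (n - N) * ((|x n| + y n) * (Γ / (Γ - 1)))) := by ring
        _ ≤ S * (n : ℝ) ^ (1 + κ) * (3 * Γ ^ (n - N) + Γ ^ (n - N) * 1) := by gcongr
        _ = _ := by rw [hG]; ring
    have c0 := cth_nonneg hθ
    have k5 : (B + 2 * B₁) * 1 ≤ (B + 2 * B₁) * ((4 + 2 * cth θ) * G) := by gcongr; nlinarith
    rw [Abd, Mth, mul_assoc, mul_assoc]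
    exact mul_le_mul_of_nonneg_left (by linarith) hM
  have h1 := closed_abs (e := er C δ θ τ K x y) (p := p) (q := q) (A := Abd M B θ a K x y p q)
    (G := fun n => Γ ^ (n - N) * (n : ℝ) ^ (1 + κ)) (a := m) (K := K) (S₀ := B₁) hκ
    (fun n hn => lt_of_lt_of_le one_pos (hG1 n hn)) (show 0 ≤ B + 2 * B₁ by positivity) hB1 hw'
    (fun n n1 n2 => ⟨(O.st n (by omega) n2).e_nonneg, by
      have := (O.st n (by omega) n2).pos
      linarith [hwn n n1 n2, abs_nonneg (x n)], (O.ln n (by omega) n2).A_nonneg⟩)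
    (fun n n1 n2 S hS k1 k2 k3 => by
      have s := O.st n (by omega) n2
      have n2' : (2 : ℝ) ≤ n := by exact_mod_cast hm.trans n1
      rcases lt_or_ge n N with hl | hl
      · obtain ⟨r1, r2⟩ := (O.ln n (by omega) n2).grow hκ hκ1 n2' (hcl n n1 hl.le).1 s.pos.le
          (hcl n n1 hl.le).2 s.e_nonneg le_rfl k1 k2 k3
        have r3 : S * (Γ ^ (n - N) * (n : ℝ) ^ (1 + κ)) * (1 + (1 + κ) / n) ≤
            S * (Γ ^ (n + 1 - N) * ((n + 1 : ℕ) : ℝ) ^ (1 + κ)) := by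
          rw [show n + 1 - N = n - N by omega, mul_assoc, mul_assoc]
          gcongr
          push_cast
          exact rpow_succ_ge (by linarith) le_rfl (by linarith)
        exact ⟨r1.trans r3, r2.trans (by linarith)⟩
      · obtain ⟨r1, r2⟩ := (O.ln n (by omega) n2).crude hκ1 s.pos.le (O.small n (by omega) n2.le)
          s.e_nonneg k1 k2 k3
        have r3 : S * (Γ ^ (n - N) * (n : ℝ) ^ (1 + κ)) * (1 + 3 * ε) ≤
            S * (Γ ^ (n + 1 - N) * ((n + 1 : ℕ) : ℝ) ^ (1 + κ)) := by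
          rw [show n + 1 - N = n - N + 1 by omega, pow_succ, ← hΓ, mul_assoc, mul_right_comm]
          gcongr; omega
        exact ⟨r1.trans r3, r2.trans (by linarith)⟩)
    hA (le_trans (le_trans (single_le_sum (f := fun j => |p j| + |q j|) (fun j _ => by positivity)
      (mem_Icc.2 ⟨ham, le_rfl⟩)) hB₁) (le_mul_of_one_le_right hB1 (hG1 m le_rfl)))
  have e1 : 6 * B₁ + (B + 2 * B₁) = 8 * B₁ + B := by ring
  rw [e1] at h1
  refine ⟨h1, fun n n1 n2 => (hA _ (by positivity) h1 n n1 n2).trans (le_of_eq (by ring))⟩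

end Crest.Agent.T145.KT
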