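import Crest.Agent.T145.EvDef_2
import Crest.Agent.T145.FlOBas_98
import Crest.Agent.T145.FlFar_57
import Crest.Agent.T145.FlA_51
import Crest.Agent.T145.FlRate_98
import Crest.Agent.T145.EvDer_5
import Crest.Agent.T145.KtH_54
import Crest.Agent.T145.EvXp_81
import Crest.Agent.T145.MidVg_19

-- ▼ part T145/EvEnv_30
section

/-!
# Row 145, even sector: `EnvStmt` (helper30)
-/

set_option autoImplicit false

namespace Crest.Agent.T145.Ev

open Finset Real Fl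

theorem envStmt (hE : EdStmt) (hP : EpurStmt) (hK : KeWStmt) (hL : LinkStmt) : EnvStmt := by
  intro F θ₀ w r₀ h0
  obtain ⟨W₁, h1⟩ := hK ⟨F, w, r₀, 0⟩ θ₀ h0
  obtain ⟨W₂, h2⟩ := hP w
  refine ⟨W₁ + W₂, fun q e1 e2 hv c => ?_⟩
  subst e1 e2
  have hW : W₁ + W₂ ≤ q.W := hv.trans Nat.lt_two_pow_self.le
  obtain ⟨δ₁, s₁, d1, h1⟩ := h1 q.W (by omega)
  obtain ⟨s, s1, s2⟩ : ∃ s, s₁ ≤ s ∧ q.s ≤ s := ⟨s₁ + q.s, by omega, by omega⟩
  refine ⟨⟨F, q.p.w, q.p.r₀, 2 ^ s⟩, s, rfl, fun C => ?_⟩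
  obtain ⟨ε, ε0, hε⟩ : ∃ ε : ℝ, 0 < ε ∧ (4 ≤ q.p.w → 8 * ε ≤ ew q.p.w / 100) := by
    rcases le_or_gt 4 q.p.w with h | h
    · have : (4 : ℝ) ≤ q.p.w := by exact_mod_cast h
      have l : 0 < log (4 * (q.p.w : ℝ) ^ 4) :=
        log_pos (by nlinarith [one_le_pow₀ (show (1 : ℝ) ≤ q.p.w by linarith) (n := 4)])
      have : 0 < ew q.p.w := div_pos (div_pos (log_pos one_lt_two) l) (by norm_num)
      exact ⟨ew q.p.w / 800, by positivity, fun _ => by linarith⟩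
    · exact ⟨1, one_pos, fun k => absurd k (by omega)⟩
  obtain ⟨C₃, δ₃, c3, d3, h3⟩ := hL q.p θ₀ ε h0 ε0
  obtain ⟨y₀, y0, ya, yb⟩ : ∃ y₀ : ℝ, 0 < y₀ ∧ |C| * y₀ ≤ 1 ∧ C₃ * y₀ ≤ 1 := by
    have := abs_nonneg C
    refine ⟨1 / (|C| + C₃ + 1), by positivity, ?_, ?_⟩ <;>
      rw [mul_one_div, div_le_one (by linarith)] <;> linarith
  obtain ⟨δ₄, d4, e4, h4⟩ := c.res y₀ y0
  obtain ⟨t₁, u1, v1⟩ := Dat.range { q with s := s } C
  obtain ⟨t₂, -, v2⟩ := Dat.range { q with s := s } 1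
  obtain ⟨t₃, -, v3⟩ := q.range C₃
  obtain ⟨t₄, -, v4⟩ := q.range q.C
  refine ⟨min (min δ₁ δ₃) (min δ₄ ε), t₁ + t₂ + t₃ + t₄, by positivity, by simp only at u1; omega,
    fun l => ?_⟩
  obtain ⟨ρ₁, h1⟩ := h1 l
  obtain ⟨ρ₃, h3⟩ := h3 l
  obtain ⟨ρ₄, k₄, h4⟩ := h4 l
  obtain ⟨r₁, a1, a2, a3, a4⟩ : ∃ r₁, ρ₁ ≤ r₁ ∧ ρ₄ ≤ r₁ ∧ q.p.r₀ ≤ r₁ ∧ 8 ≤ r₁ :=
    ⟨ρ₁ + ρ₄ + q.p.r₀ + 8, by omega, by omega, by omega, by omega⟩
  refine ⟨r₁, k₄ + r₁ ^ 100 + ρ₃ + 100 * q.p.w * q.p.r₀, fun Λ N k hΛ hw hk hN => ?_⟩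
  simp only at u1 v1 v2
  have m1 : q.v * k ≤ q.v * (k + 1) := Nat.mul_le_mul_left _ k.le_succ
  have m2 : q.v * k₄ ≤ q.v * k := Nat.mul_le_mul_left _ (by omega)
  have b1 : min (min δ₁ δ₃) (min δ₄ ε) ≤ δ₁ := (min_le_left _ _).trans (min_le_left _ _)
  have b3 : min (min δ₁ δ₃) (min δ₄ ε) ≤ δ₃ := (min_le_left _ _).trans (min_le_right _ _)
  have b4 : min (min δ₁ δ₃) (min δ₄ ε) ≤ δ₄ := (min_le_right _ _).trans (min_le_left _ _)
  have b5 : min (min δ₁ δ₃) (min δ₄ ε) ≤ ε := (min_le_right _ _).trans (min_le_right _ _)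
  have res := h4 Λ N hΛ ⟨hw.1.mono_d b4, hw.2.trans (b4.trans e4)⟩ (by omega)
  have env := res.env
  have kR : (k : ℝ) ≤ q.R k := by
    have := c.lt_R k
    have := Nat.cast_nonneg (α := ℝ) k
    rw [q.R_def]; linarith
  have LL : 2 ^ (N - s) ≤ q.L N := Nat.pow_le_pow_right two_pos (by omega)
  have sN : 2 ^ s * 2 ^ (N - s) = 2 ^ N := by rw [← pow_add]; congr 1; omega
  have RL : q.R k ≤ ((2 ^ (N - s) : ℕ) : ℝ) := (one_mul _).symm.trans_le (v2 N k (by omega))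
  have kL : k ≤ 2 ^ (N - s) := by exact_mod_cast kR.trans RL
  have gs : ∀ K, Gs ⟨F, q.p.w, q.p.r₀, K⟩ Λ (2 ^ (N - s)) := fun K =>
    ⟨hΛ, env.w4, env.gd.1, env.gd.2.1, fun r a b => env.gd.2.2 r a (b.trans LL)⟩
  have env' : Env ⟨F, q.p.w, q.p.r₀, 2 ^ s⟩ Λ (tor Λ N) (2 ^ (N - s)) (nA Λ N) :=
    ⟨gs _, by simp only; omega, LL.trans env.le, by
      have : 2 ^ (N - 1) ≤ 2 ^ N := Nat.pow_le_pow_right two_pos (Nat.sub_le _ _)
      simp only [sN, nA]; omega, env.amb, env.trl, env.d4, env.flux⟩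
  have cone := res.cone k (by omega) (v4 N k (by omega))
  have lk := h3 Λ _ _ _ N env (hw.1.mono_d b3) (q.L_le N) (q.R k) y₀ (res.maj _ (q.R_mono (by omega))) yb
    (le_trans (by exact_mod_cast (show ρ₃ ≤ k by omega)) kR) (v3 N k (by omega))
  refine ⟨⟨hE _ Λ _ N env', a3, a4, fun r m G b1 b2 b3 => res.pur r m G b1 (a2.trans b2) (b3.trans LL),
    h2 ⟨F, q.p.w, q.p.r₀, 2 ^ s⟩ q.W rfl (by omega) Λ _ r₁ _ _ env' a3 a4 fun r hr hL' => h1 Λ N _ (gs 0)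
      ⟨hw.1.mono_d b1, hw.2.trans b1⟩ ((Nat.mul_le_mul_right _ (Nat.pow_le_pow_right two_pos s1)).trans
        sN.le) r (a3.trans hr) (a1.trans hr) hL'⟩,
    ⟨c.D1, rfl, ⟨cone.1.1, cone.1.2.1, fun a b1 b2 => cone.1.2.2 a b1 (b2.trans LL)⟩,
      le_trans (by exact_mod_cast (show r₁ ^ 100 ≤ k by omega)) kR, ?_⟩,
    ((mul_le_mul_of_nonneg_right (le_abs_self C) (q.y_nonneg Λ N k)).trans
      (mul_le_mul_of_nonneg_left cone.2 (abs_nonneg C))).trans ya, v1 N k (by omega)⟩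
  have e := hε env.w4
  have t := (abs_sub_le (gk (tor Λ N) (q.R k)) (Λ.gN l) (2 / π)).trans (add_le_add lk (hw.2.trans b5))
  change |π * gk (tor Λ N) (q.R k) - 2| ≤ ew q.p.w / 100
  rw [show π * gk (tor Λ N) (q.R k) - 2 = π * (gk (tor Λ N) (q.R k) - 2 / π) by field_simp, abs_mul,
    abs_of_pos pi_pos]
  nlinarith [pi_le_four, pi_pos, abs_nonneg (gk (tor Λ N) (q.R k) - 2 / π)]

end Crest.Agent.T145.Ev
end

-- ▼ part T145/EvFar_58
section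

/-!
# Row 145, even sector: FAR and MID for a generic centred insertion, torus form (helper58)
-/

set_option autoImplicit false

namespace Crest.Agent.T145.Ev

open Finset Pot Xi Real Fl

namespace Far58

variable {p : Par} {Λ : Lat} {ω : (Cfg Pt → ℝ) → ℝ} {L N : ℕ}

theorem nu_trl (h : Gs p Λ L) {ρ : ℕ} (hρ : p.r₀ ≤ ρ) {E : Cfg Pt → ℝ} (hE : Ins 0 ρ E) (z : Pt) :
    nu Λ p.w z ρ (trl z E) = nu Λ p.w 0 ρ E := by
  have := h.gd.2.1
  have := A51.four_le h ρ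
  exact ((semiStmt Λ p.w ρ z h.mem.ok (by omega)).2 _ hE).2.1

/-- the profile above the reference scale -/
theorem prof_le {E : Cfg Pt → ℝ} {a₀ ρ : ℕ} {R A : ℝ} (hP : Prof Λ p.w a₀ L 0 E R A) (hR : 0 < R)
    (h0 : a₀ ≤ ρ) (hL : p.w * ρ ≤ L) (hρ : R ≤ ρ) :
    nu Λ p.w 0 ρ E ≤ A * (ρ / R) ^ ew p.w / (ρ : ℝ) ^ 2 := by
  have hρ0 : (0 : ℝ) < ρ := hR.trans_le hρ
  have h5 := hP ρ h0 hL
  rw [max_eq_left (((div_le_one hρ0).2 hρ).trans ((one_le_div hR).2 hρ))] at h5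
  rw [le_div_iff₀ (by positivity), mul_comm]
  exact h5


/-- one far site -/
theorem point {C : ℝ}
    (hR : ∀ (m : Mdl Pt) (z : Pt) (r R : ℕ) (F : Cfg Pt → ℝ), p.r₀ ≤ r → r ≤ R → p.w * R ≤ L →
      Nc.Amb Λ m (bl z (p.w * R)) → Ins z r F →
      nu Λ p.w z R (fun s => F s - Ex (m.W 0) F) ≤ C * ((r : ℝ) / R) ^ cw p.w * nu Λ p.w z r F)
    (h : Env p Λ ω L N) {E G : Cfg Pt → ℝ} {c : Pt} {a ρ : ℕ} (hE : Ins 0 ρ E) (hE0 : ω E = 0)
    (h0 : p.r₀ ≤ a) (hG : Ins c a G) (hρ : a ≤ ρ) (h8 : 8 * (p.w * ρ) ≤ L) {z : Pt}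
    (hz : z ∈ bl c (N + N / 4)) (hz' : z ∉ bl c (2 * (p.w * ρ))) :
    |ω fun s => G s * trl z E s| ≤
      32 * (C * ((a : ℝ) / ρ) ^ cw p.w * nu Λ p.w c a G) * nu Λ p.w 0 ρ E := by
  have hΛ := h.mem.ok
  have hw := h.w4
  have hrg := h.gd.2.1
  have hLN := h.le
  have h4 := A51.four_le h.toGs ρ
  obtain ⟨m, hm, hω⟩ := h.amb (c.1 + (z.1 - c.1) / 2, c.2 + (z.2 - c.2) / 2)
  have hC := hm.ctr.cen hm.anch
  have s0 : bl c (p.w * ρ) ⊆ bl (c.1 + (z.1 - c.1) / 2, c.2 + (z.2 - c.2) / 2) N := fun x hx' => by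
    rw [mem_bl] at hz hx' ⊢
    omega
  have sz : bl z (p.w * ρ) ⊆ bl (c.1 + (z.1 - c.1) / 2, c.2 + (z.2 - c.2) / 2) N := fun x hx' => by
    rw [mem_bl] at hz hx' ⊢
    omega
  have hd : Disjoint (bl c (p.w * ρ)) (bl z (p.w * ρ)) := disjoint_left.2 fun x h1 h2 => hz' (by
    rw [mem_bl] at h1 h2 ⊢
    omega)
  have hJ : Ins z ρ (trl z E) := hE.trl z
  have hJ' := hJ.1.mono ((bl_mono z (by omega)).trans sz)
  have hJ0 : Ex (m.W 0) (trl z E) = 0 := by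
    rw [← hω _ hJ', h.trl 0 z E (hE.1.mono (bl_mono 0 (by omega))), hE0]
  have hG' : Ins c ρ fun s => G s - Ex (m.W 0) G := (hG.mono hρ).sub_const _
  have e : ω (fun s => G s * trl z E s) = Ex (m.W 0) fun s =>
      (∏ _i ∈ (univ : Finset Unit), (G s - Ex (m.W 0) G)) * trl z E s * 1 := by
    rw [hω _ ((hG.1.mono ((bl_mono c (by omega)).trans s0)).mul hJ')]
    simp only [univ_unique, prod_singleton, mul_one, sub_mul]
    rw [Ex_sub (hC.ig (hG.2.mul hJ.2)) (hC.ig (hJ.2.const_mul _)), Ex_const_mul, hJ0, mul_zero, sub_zero]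
  have h1 := (((prodStmt p Λ L h.toGs m _ Unit univ (fun _ => c) (fun _ => ρ)
    (fun _ s => G s - Ex (m.W 0) G) (fun _ => 1) hm
    ⟨by simp, fun _ _ => hG', fun _ _ => ⟨by omega, by omega⟩, fun _ _ => s0,
      fun _ _ _ _ hne => (hne rfl).elim⟩ (fun _ _ => Out.const _ _) fun _ => by simp).2 z ρ
    (by omega) (by omega) sz fun _ _ => hd).2.1 _ hJ (Out.const _ _))
  rw [e]
  refine h1.trans ?_
  simp only [univ_unique, prod_singleton]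
  have h2 := hR m c a ρ G h0 hρ (by omega) ⟨hm.ctr, hm.anch, s0.trans hm.sub, hm.near.mono s0⟩ hG
  have h6 := A51.nu_nonneg hΛ p.w 0 ρ E
  rw [nu_trl h.toGs (by omega) hE]
  gcongr

end Far58

open Far58 in
/-- FAR for a generic centred insertion `E` with a norm profile -/
theorem farE (p : Par) : ∃ C : ℝ, 0 ≤ C ∧ ∀ Λ ω L N, Env p Λ ω L N →
    ∀ (E : Cfg Pt → ℝ) (a₀ : ℕ) (R A : ℝ), Ins 0 a₀ E → ω E = 0 → 0 < R → 0 ≤ A →
      Prof Λ p.w a₀ L 0 E R A → ∀ (c : Pt) (a b : ℕ) (G : Cfg Pt → ℝ), p.r₀ ≤ a → a₀ ≤ a → R ≤ a →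
      16 * p.w * a ≤ b → 16 * p.w * a ≤ L → Ins c a G →
      ∑ z ∈ bl c (N + N / 4) \ bl c b, |ω fun s => G s * trl z E s| ≤
        C * nu Λ p.w c a G * A * (a / R) ^ ew p.w *
          (((a : ℝ) / b) ^ (cw p.w / 2) + ((a : ℝ) / L) ^ (cw p.w / 2)) := by
  obtain ⟨C, hC, hR⟩ := rateStmt p.w
  have hc0 := cw_nonneg p.w
  refine ⟨32 * C * (16 * p.w) ^ 3 * (8 / (cw p.w / 2) + 16 * (p.K : ℝ) ^ 2), by positivity,
    fun Λ ω L N h E a₀ R Y hE hE0 hR0 hY hP c a b G h0 h0' hRa hb hL hG => ?_⟩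
  have hw := h.w4
  have hcp := cw_pos (show 1 ≤ p.w by omega)
  have hc1 := Far57.cw_le (show 1 ≤ p.w by omega)
  have ha : 1 ≤ a := by exact_mod_cast hR0.trans_le hRa
  have hwa : 4 * a ≤ p.w * a := Nat.mul_le_mul_right a hw
  have hb' : 16 * (p.w * a) ≤ b := by rw [← mul_assoc]; exact hb
  have hL' : 16 * (p.w * a) ≤ L := by rw [← mul_assoc]; exact hL
  have hν := A51.nu_nonneg h.mem.ok p.w c a G
  set A := 32 * C * (16 * p.w) ^ 3 * nu Λ p.w c a G * Y * (a / R) ^ ew p.w with hA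
  have hA0 : 0 ≤ A := by positivity
  set γ := cw p.w / 2 with hγ
  have key : ∀ k, b ≤ k → k < N + N / 4 → ∀ z ∈ bl c (k + 1) \ bl c k,
      |ω fun s => G s * trl z E s| ≤ A * (((a : ℝ) / ((k : ℝ) + 1)) ^ γ / ((k : ℝ) + 1) ^ 2 +
        ((a : ℝ) / L) ^ γ / (L : ℝ) ^ 2) := fun k hk hk' z hz => by
    obtain ⟨hz1, hz2⟩ := mem_sdiff.1 hz
    set μ := min (k + 1) L with hμ
    have hμ1 : 16 * (p.w * a) ≤ μ := le_min (by omega) hL'
    set ρ := μ / (8 * p.w) with hρ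
    have h1 : 8 * p.w * ρ ≤ μ := Nat.mul_div_le _ _
    have h2 : μ < 8 * p.w * (ρ + 1) := Nat.lt_mul_div_succ _ (by omega)
    have h3 : 2 * a ≤ ρ := (Nat.le_div_iff_mul_le (by omega)).2 (by nlinarith)
    have h1' : 8 * (p.w * ρ) ≤ μ := by rw [← mul_assoc]; exact h1
    have h4 : μ ≤ 16 * p.w * ρ := by nlinarith
    have h5 := point (hR p Λ L rfl h.toGs) h (hE.mono (by omega)) hE0 h0 hG (ρ := ρ) (by omega) (by omega)
      (bl_mono c (by omega) hz1) fun h6 => hz2 (bl_mono c (by omega) h6)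
    have h7 := prof_le hP hR0 (ρ := ρ) (by omega) (by omega)
      (hRa.trans (by exact_mod_cast (show a ≤ ρ by omega)))
    have hμ0 : (0 : ℝ) < μ := by exact_mod_cast (show 0 < μ by omega)
    have h6 := Far57.arith (t := 16 * p.w) (m := μ) (ρ := ρ) (a := a) hc0 hc1 (by exact_mod_cast ha) hR0
      (by exact_mod_cast (show a ≤ ρ by omega)) (by exact_mod_cast (show 1 ≤ 16 * p.w by omega)) hμ0
      (by exact_mod_cast h4)
    calc _ ≤ _ := h5.trans (mul_le_mul_of_nonneg_left h7 (by positivity))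
      _ = 32 * C * nu Λ p.w c a G * Y *
          (((a : ℝ) / ρ) ^ cw p.w * ((ρ / R) ^ (cw p.w / 100) / (ρ : ℝ) ^ 2)) := by rw [ew]; ring
      _ ≤ 32 * C * nu Λ p.w c a G * Y * ((16 * p.w) ^ 3 * (a / R) ^ (cw p.w / 100) *
          (((a : ℝ) / μ) ^ γ / (μ : ℝ) ^ 2)) := by gcongr
      _ = A * (((a : ℝ) / μ) ^ γ / (μ : ℝ) ^ 2) := by rw [hA, ew]; ring
      _ ≤ _ := by
          refine mul_le_mul_of_nonneg_left ?_ hA0
          rcases min_choice (k + 1) L with h7 | h7 <;> rw [hμ, h7]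
          · push_cast; exact le_add_of_nonneg_right (by positivity)
          · exact le_add_of_nonneg_left (by positivity)
  refine (Far57.shell _ _ c b _ key).trans ?_
  have hL0 : (0 : ℝ) < L := by exact_mod_cast (show 0 < L by omega)
  have h1 := Far57.tele (γ := γ) (a := a) (by positivity) (by positivity) (show 1 ≤ b by omega) (N + N / 4)
  have h2 : ∑ k ∈ Ico b (N + N / 4), 8 * ((k : ℝ) + 1) ≤ 16 * (p.K : ℝ) ^ 2 * (L : ℝ) ^ 2 := by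
    refine (Far57.sum_lin _ _).trans ?_
    have h3 : 2 * (N + N / 4) + 1 ≤ 4 * (p.K * L) := by have := h.leK; have := h.le; omega
    have h4 : (2 * ((N + N / 4 : ℕ) : ℝ) + 1) ≤ 4 * (p.K * L) := by exact_mod_cast h3
    exact (pow_le_pow_left₀ (by positivity) h4 2).trans_eq (by ring)
  calc _ = A * (∑ k ∈ Ico b (N + N / 4), 8 * ((k : ℝ) + 1) *
          (((a : ℝ) / ((k : ℝ) + 1)) ^ γ / ((k : ℝ) + 1) ^ 2) +
        (∑ k ∈ Ico b (N + N / 4), 8 * ((k : ℝ) + 1)) * (((a : ℝ) / L) ^ γ / (L : ℝ) ^ 2)) := by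
        rw [sum_mul, ← sum_add_distrib, mul_sum]
        exact sum_congr rfl fun _ _ => by ring
    _ ≤ A * (8 / γ * ((a : ℝ) / b) ^ γ +
        16 * (p.K : ℝ) ^ 2 * (L : ℝ) ^ 2 * (((a : ℝ) / L) ^ γ / (L : ℝ) ^ 2)) := by gcongr
    _ = A * (8 / γ * ((a : ℝ) / b) ^ γ + 16 * (p.K : ℝ) ^ 2 * ((a : ℝ) / L) ^ γ) := by
        congr 2; field_simp
    _ ≤ A * ((8 / γ + 16 * (p.K : ℝ) ^ 2) * ((a : ℝ) / b) ^ γ +
        (8 / γ + 16 * (p.K : ℝ) ^ 2) * ((a : ℝ) / L) ^ γ) := by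
        gcongr
        · exact le_add_of_nonneg_right (by positivity)
        · exact le_add_of_nonneg_left (by positivity)
    _ = _ := by rw [hA]; ring

namespace Far58

/-- the centred energy star at the origin -/
noncomputable def e0 (Λ : Lat) (n : ℕ) (s : Cfg Pt) : ℝ := Om.est Λ 0 s - Om.om Λ n (Om.est Λ 0)

variable {Λ : Lat} {n : ℕ} {S : Finset Pt} {G : Cfg Pt → ℝ}







end Far58


end Crest.Agent.T145.Ev
end

-- ▼ part T145/EvFarE_58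
section

/-!
# Row 145, even sector: `Ev.FarEStmt` (helper58)
-/

set_option autoImplicit false

namespace Crest.Agent.T145.Ev

open Finset Pot Xi Real Fl

namespace Far58

variable {p : Par} {Λ : Lat} {ω : Sta} {L N : ℕ}

theorem rg_le (h : Env p Λ ω L N) : Λ.rg ≤ N := by
  have h1 := h.gd.2.1
  have h2 := h.big
  have h3 := h.le
  have h4 := A51.four_le h.toGs p.r₀
  rw [mul_assoc] at h2
  omega

theorem trl_et (h : Env p Λ ω L N) (z : Pt) : trl z (et Λ ω 0) = et Λ ω z := by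
  have e : trl z (Om.est Λ 0) = Om.est Λ z := by rw [Om.trl_est, zero_add]
  have e' := h.trl 0 z _ ((Om.depG_est 0).mono (bl_mono 0 (rg_le h)))
  rw [e] at e'
  funext s
  rw [et, e', ← e]; rfl

theorem ins_et (hΛ : Λ.Ok) (ω : Sta) (z : Pt) : Ins z Λ.rg (et Λ ω z) := (Om.ins_est hΛ z).sub_const _

theorem om_et (h : Env p Λ ω L N) : ω (et Λ ω 0) = 0 := by
  obtain ⟨m, hm, hω⟩ := h.amb 0
  have hC := hm.ctr.cen hm.anch
  rw [hω _ ((ins_et h.mem.ok ω 0).1.mono (bl_mono 0 (rg_le h)))]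
  unfold et
  rw [Ex_sub (hC.ig (Om.tame_est h.mem.ok 0)) (hC.ig (Tame.const _)), hC.wt.ex_const,
    hω _ ((Om.depG_est 0).mono (bl_mono 0 (rg_le h))), sub_self]

/-- change of the reference scale of a profile -/
theorem prof_ref {w a₀ : ℕ} {z : Pt} {F : Cfg Pt → ℝ} {R R' P : ℝ} (h : Prof Λ w a₀ L z F R P)
    (h0 : 1 ≤ a₀) (hR : 0 < R) (hR' : 0 < R') (hP : 0 ≤ P) :
    Prof Λ w a₀ L z F R' (P * max (R' / R) (R / R') ^ ew w) := fun a ha hL => by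
  have ha0 : (0 : ℝ) < a := by exact_mod_cast h0.trans ha
  have hw : 0 ≤ ew w := div_nonneg (cw_nonneg w) (by norm_num)
  refine (h a ha hL).trans ?_
  rw [mul_assoc, ← mul_rpow (by positivity) (by positivity)]
  refine mul_le_mul_of_nonneg_left (rpow_le_rpow (by positivity) (max_le ?_ ?_) hw) hP
  · calc (a : ℝ) / R = R' / R * (a / R') := by field_simp
      _ ≤ _ := by gcongr <;> exact le_max_left _ _
  · calc R / a = R / R' * (R' / a) := by field_simp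
      _ ≤ _ := by gcongr <;> exact le_max_right _ _

end Far58

open Far58 in
theorem farEStmt : FarEStmt := fun p => by
  obtain ⟨C, hC, h⟩ := farE p
  refine ⟨C, hC, fun Λ ω L N hE R P hR hP hp a b G h0 hb hL hG => ?_⟩
  have h1 := hE.gd.2.1
  have h2 := hE.mem.ok.one_le_rg
  have ha : (0 : ℝ) < a := by exact_mod_cast (show 0 < a by omega)
  have h3 := h Λ ω L N hE _ p.r₀ a _ ((ins_et hE.mem.ok ω 0).mono (by omega)) (om_et hE) ha (by positivity)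
    (prof_ref hp (by omega) hR ha hP) 0 a b G h0 h0 le_rfl hb hL hG
  simp only [trl_et hE, div_self ha.ne', one_rpow, mul_one] at h3
  exact h3.trans_eq (by ring)

end Crest.Agent.T145.Ev
end

-- ▼ part T145/EvLn_58
section

/-!
# Row 145, even sector: one linearised step (`Ev.LnStmt`; helper58)
-/

set_option autoImplicit false

namespace Crest.Agent.T145.Ev

open Finset Pot Xi Real Fl

namespace Ln58

/-- the numerics of the linearised step -/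
theorem num {a k CU CB D x y x' y' e γ γ' l l' ε ε' b P P' Y τ κ C : ℝ} (ha : 1 ≤ a) (hε : |ε| ≤ k)
    (hε' : |ε'| ≤ k) (hCU : 0 ≤ CU) (hCB : 0 ≤ CB) (hD : 0 ≤ D) (st : KT.St e x y x' y') (hP : 0 ≤ P)
    (hP' : 0 ≤ P') (hY : 0 ≤ Y) (hYD : Y ≤ D * y) (hYτ : Y ≤ τ)
    (hU : |a * γ' - a * γ - 2 * l * (x' - x)| ≤ a * (CU * Y ^ 2 * P)) (hB : |b + γ| ≤ P * τ + CB * Y * P')
    (hV : |l' - l - b * (a + ε - ε')| ≤ (P + |b|) * τ) (hC1 : 2 + 4 * k + a * CU * D ≤ C)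
    (hC2 : (1 + CB) * (a + 2 * k) + k * (4 * (1 + k) + a * CU * D) + (3 + CB) ≤ C)
    (hκ : C * (e + (|x| + y) + τ) ≤ κ) (hκ1 : κ ≤ 1 / 100) :
    KT.Ln (2 * κ) x y (a * γ) (y * (l - ε * γ)) (a * γ') (y' * (l' - ε' * γ'))
      (2 * (|a * γ| + |y * (l - ε * γ)| + P + P')) := by
  have hy := st.pos
  have he := st.e_nonneg
  have hx := abs_nonneg x
  have hk : 0 ≤ k := (abs_nonneg _).trans hε
  have h0 : 0 ≤ a * CU * D := by positivity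
  obtain ⟨s, hs⟩ : ∃ s, s = e + (|x| + y) + τ := ⟨_, rfl⟩
  rw [← hs] at hκ
  have hs0 : 0 ≤ s := by linarith
  have hsκ : s ≤ κ := (le_mul_of_one_le_left hs0 (by linarith)).trans hκ
  have hw : e + (|x| + y) ≤ κ := by linarith
  have hdx := st.abs_dx hw hκ1
  have hhx := st.hx
  obtain ⟨A, hA⟩ : ∃ A, A = |a * γ| + |y * (l - ε * γ)| + P + P' := ⟨_, rfl⟩
  have u0 := abs_nonneg (a * γ)
  have v0 := abs_nonneg (y * (l - ε * γ))
  have hA0 : 0 ≤ A := by linarith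
  have hγ : |γ| ≤ A := by
    have : |γ| ≤ |a * γ| := by
      rw [abs_mul, abs_of_nonneg (by linarith : 0 ≤ a)]; exact le_mul_of_one_le_left (abs_nonneg _) ha
    linarith
  have hεγ : |ε * γ| ≤ k * A := by rw [abs_mul]; gcongr
  have hl : y * |l| ≤ (1 + k) * A := by
    have h1 : y * |l| ≤ |y * (l - ε * γ)| + y * |ε * γ| := by
      rw [abs_mul, abs_of_pos hy, ← mul_add]
      exact mul_le_mul_of_nonneg_left (by simpa using abs_add_le (l - ε * γ) (ε * γ)) hy.le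
    have h2 : y * |ε * γ| ≤ 1 * (k * A) := by gcongr; linarith
    linarith
  obtain ⟨η, hη⟩ : ∃ η, η = |x| + y := ⟨_, rfl⟩
  have hη0 : 0 < η := by linarith
  have hEU : a * (CU * Y ^ 2 * P) ≤ a * CU * D * (s * η * A) :=
    calc _ = a * CU * (Y * Y * P) := by ring
      _ ≤ a * CU * (s * (D * η) * A) := by
          gcongr
          · linarith
          · exact hYD.trans (by gcongr; linarith)
          · linarith
      _ = _ := by ring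
  have hu : |a * γ' - a * γ + 2 * y ^ 2 * (l - ε * γ)| ≤ κ * (|x| + y) ^ 2 * (A / η) := by
    have h1 : |2 * l * (x' - x + y ^ 2)| ≤ 2 * (1 + k) * (s * η * A) :=
      calc _ ≤ 2 * |l| * (e * y ^ 2) := by rw [abs_mul, abs_mul, abs_two]; gcongr
        _ = 2 * e * y * (y * |l|) := by ring
        _ ≤ 2 * s * η * ((1 + k) * A) := by gcongr <;> linarith
        _ = _ := by ring
    have h2 : |2 * y ^ 2 * (ε * γ)| ≤ 2 * k * (s * η * A) :=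
      calc _ = 2 * y * y * |ε * γ| := by rw [abs_mul, abs_of_nonneg (by positivity : 0 ≤ 2 * y ^ 2)]; ring
        _ ≤ 2 * s * η * (k * A) := by gcongr <;> linarith
        _ = _ := by ring
    have h3 : C * (s * η * A) ≤ κ * (|x| + y) ^ 2 * (A / η) :=
      calc _ = C * s * (η * A) := by ring
        _ ≤ κ * (η * A) := by gcongr
        _ = _ := by rw [← hη]; field_simp
    have h4 := mul_le_mul_of_nonneg_right hC1 (by positivity : 0 ≤ s * η * A)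
    rw [show a * γ' - a * γ + 2 * y ^ 2 * (l - ε * γ) = (a * γ' - a * γ - 2 * l * (x' - x)) +
      2 * l * (x' - x + y ^ 2) + -(2 * y ^ 2 * (ε * γ)) by ring]
    refine (abs_add_three _ _ _).trans ?_
    rw [abs_neg]
    linarith
  have hv : |l' - ε' * γ' - (l - ε * γ) + a * γ| ≤ κ * (|x| + y) * (A / η) := by
    have h1 : |b + γ| ≤ (1 + CB) * (s * A) := by
      have h1 : P * τ ≤ A * s := by gcongr <;> linarith
      have h2 : CB * Y * P' ≤ CB * s * A := by gcongr <;> linarith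
      linarith
    have h2 : |(b + γ) * (a + ε - ε')| ≤ (1 + CB) * (s * A) * (a + 2 * k) := by
      rw [abs_mul]
      refine mul_le_mul h1 ?_ (abs_nonneg _) (by positivity)
      rw [abs_le] at hε hε' ⊢
      constructor <;> linarith
    have h3 : |γ' - γ| ≤ (4 * (1 + k) + a * CU * D) * (s * A) := by
      have h3 : |γ' - γ| ≤ |a * γ' - a * γ| := by
        rw [← mul_sub, abs_mul, abs_of_nonneg (by linarith : 0 ≤ a)]
        exact le_mul_of_one_le_left (abs_nonneg _) ha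
      have h4 : |2 * l * (x' - x)| ≤ 4 * (1 + k) * (s * A) :=
        calc _ ≤ 2 * |l| * (2 * y ^ 2) := by
              rw [abs_mul, abs_mul, abs_two]; gcongr; linarith [sq_nonneg y]
          _ = 4 * y * (y * |l|) := by ring
          _ ≤ 4 * s * ((1 + k) * A) := by gcongr; linarith
          _ = _ := by ring
      have h5 : a * CU * D * (s * η * A) ≤ a * CU * D * (s * 1 * A) := by gcongr; linarith
      have h6 := abs_add_le (a * γ' - a * γ - 2 * l * (x' - x)) (2 * l * (x' - x))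
      rw [sub_add_cancel] at h6
      linarith
    have h4 : |ε' * (γ' - γ)| ≤ k * ((4 * (1 + k) + a * CU * D) * (s * A)) := by rw [abs_mul]; gcongr
    have h5 : (P + |b|) * τ ≤ (3 + CB) * A * s := by
      have h5 : |b| ≤ |b + γ| + |γ| := by simpa using abs_sub (b + γ) γ
      have h6 : (1 + CB) * (s * A) ≤ (1 + CB) * (1 * A) := by gcongr; linarith
      gcongr <;> linarith
    have h6 : C * (s * A) ≤ κ * (|x| + y) * (A / η) :=
      calc _ = C * s * A := by ring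
        _ ≤ κ * A := by gcongr
        _ = _ := by rw [← hη]; field_simp
    have h7 := mul_le_mul_of_nonneg_right hC2 (by positivity : 0 ≤ s * A)
    rw [show l' - ε' * γ' - (l - ε * γ) + a * γ = (l' - l - b * (a + ε - ε')) +
      (b + γ) * (a + ε - ε') + -(ε' * (γ' - γ)) by ring]
    refine (abs_add_three _ _ _).trans ?_
    rw [abs_neg]
    linarith
  refine (KT.Ln.of_uv st hw hκ1 (by positivity) hu hv).mono hy.le (by linarith) le_rfl ?_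
  rw [← hη, mul_div_cancel₀ _ hη0.ne', ← hA]
  linarith

/-- the small parameter -/
theorem small {z C : ℝ} {n : ℕ} (hz : 0 < z) (hn : n ≠ 0) (hC : 1 ≤ C)
    (h : C * z ^ (1 / (400 * n) : ℝ) ≤ 1) : ∃ t : ℝ, 0 < t ∧ z ^ (1 / (400 * n) : ℝ) = t ^ (1 / 400 : ℝ) ∧
      (∀ j ≤ n, z ≤ t ^ j) ∧ (∀ j : ℕ, j ≠ 0 → t ^ j ≤ t ^ (1 / 400 : ℝ)) ∧ z ≤ t ^ (1 / 400 : ℝ) ∧
      ∀ K x : ℝ, 0 ≤ K → K ≤ C → x ≤ t ^ (1 / 400 : ℝ) → K * x ≤ 1 := by
  obtain ⟨t, ht⟩ : ∃ t, t = z ^ ((n : ℝ)⁻¹) := ⟨_, rfl⟩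
  have ht0 : 0 < t := by rw [ht]; positivity
  have htn : t ^ n = z := by rw [ht]; exact rpow_inv_natCast_pow hz.le hn
  have e : z ^ (1 / (400 * n) : ℝ) = t ^ (1 / 400 : ℝ) := by
    rw [ht, ← rpow_mul hz.le]; congr 1; field_simp
  rw [e] at h
  have hτ0 : 0 < t ^ (1 / 400 : ℝ) := by positivity
  have ht1 : t ≤ 1 := by
    by_contra h'
    have := one_lt_rpow (not_le.1 h') (show (0 : ℝ) < 1 / 400 by norm_num)
    nlinarith
  have htτ : ∀ j : ℕ, j ≠ 0 → t ^ j ≤ t ^ (1 / 400 : ℝ) := fun j hj =>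
    (pow_le_of_le_one ht0.le ht1 hj).trans (by
      simpa using rpow_le_rpow_of_exponent_ge ht0 ht1 (show (1 / 400 : ℝ) ≤ 1 by norm_num))
  exact ⟨t, ht0, e, fun j h => htn ▸ pow_le_pow_of_le_one ht0.le ht1 h, htτ, htn ▸ htτ n hn,
    fun K x h0 h1 h2 => (mul_le_mul_of_nonneg_left h2 h0).trans
      ((mul_le_mul_of_nonneg_right h1 hτ0.le).trans h)⟩

theorem nd {a C C₄ P P' Y u τ γ κ : ℝ} (ha : 0 ≤ a) (c4 : 1 ≤ C₄) (hC : a * C₄ ≤ C) (hP : 0 ≤ P)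
    (hP' : 0 ≤ P') (hτ : 0 ≤ τ) (hu : u ≤ τ) (hY : Y ≤ τ) (hκ : C * τ ≤ κ)
    (h : C₄⁻¹ - P * u - C₄ * Y * P' ≤ γ) : a * C₄⁻¹ - κ * (P + P') ≤ a * γ := by
  have g0 : a * C₄ * τ ≤ κ := (mul_le_mul_of_nonneg_right hC hτ).trans hκ
  have g1 : a * (P * u) ≤ κ * P :=
    calc _ = a * 1 * u * P := by ring
      _ ≤ a * 1 * τ * P := by gcongr
      _ ≤ a * C₄ * τ * P := by gcongr
      _ ≤ _ := by gcongr
  have g2 : a * (C₄ * Y * P') ≤ κ * P' :=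
    calc _ = a * C₄ * Y * P' := by ring
      _ ≤ a * C₄ * τ * P' := by gcongr
      _ ≤ _ := by gcongr
  linarith [mul_le_mul_of_nonneg_left h ha]

theorem half {e x y x' y' κ : ℝ} (st : KT.St e x y x' y') (hw : e + (|x| + y) ≤ κ) (hκ : κ ≤ 1 / 100) :
    y ≤ 2 * y' := by
  have h1 := (abs_le.1 (st.abs_dy hw hκ)).1
  have h2 : (|x| + y) * y ≤ 1 / 100 * y := mul_le_mul_of_nonneg_right (by linarith [st.e_nonneg]) st.pos.le
  linarith [st.pos]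

end Ln58

open Ln58 in
theorem lnStmt (hDc : DcStmt) (hU : UStmt) (hV : VStmt) (hB : B1Stmt) (hN : NdStmt) : LnStmt := by
  intro w
  obtain ⟨W₁, h1⟩ := hDc w
  obtain ⟨W₂, h2⟩ := hV w
  obtain ⟨W₃, h3⟩ := hB w
  obtain ⟨W₄, h4⟩ := hN w
  obtain ⟨Ce, hCe, he⟩ := abs_er_le
  refine ⟨W₁ + W₂ + W₃ + W₄ + 2, fun p W D₀ hw hW => ?_⟩
  obtain ⟨C₁, n₁, c1, h1⟩ := h1 p W D₀ hw (by omega)
  obtain ⟨C₂, n₂, c2, h2⟩ := h2 p W D₀ hw (by omega)
  obtain ⟨C₃, n₃, c3, h3⟩ := h3 p W D₀ hw (by omega)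
  obtain ⟨C₄, n₄, c4, h4⟩ := h4 p W D₀ hw (by omega)
  obtain ⟨C₅, c5, h5⟩ := hU p W D₀ (by omega)
  have hW2 : (2 : ℝ) ≤ W := by exact_mod_cast (show 2 ≤ W by omega)
  obtain ⟨a, ha⟩ : ∃ a, a = π * log W := ⟨_, rfl⟩
  have ha1 : 1 ≤ a := by
    have : 1 / 2 ≤ log (W : ℝ) := by linarith [log_two_gt_d9, log_le_log (by norm_num) hW2]
    nlinarith [pi_gt_three]
  have ha0 : 0 ≤ a := zero_le_one.trans ha1
  obtain ⟨k, hk⟩ : ∃ k, k = 2 * π ^ 2 * Ce := ⟨_, rfl⟩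
  have hε : ∀ r : ℝ, 1 ≤ r → |2 * π ^ 2 * er r| ≤ k := fun r hr => by
    rw [abs_mul, abs_of_nonneg (by positivity : 0 ≤ 2 * π ^ 2), hk]; gcongr; exact he r hr
  obtain ⟨n, hn⟩ : ∃ n, n = n₁ + n₂ + n₃ + n₄ + 1 := ⟨_, rfl⟩
  have hn1 : (1 : ℝ) ≤ n := by exact_mod_cast (show 1 ≤ n by omega)
  obtain ⟨C, d1, d2, d3, d4⟩ : ∃ C : ℝ, C₁ + C₂ + C₃ + C₄ + C₅ ≤ C ∧ 2 + 4 * k + a * C₅ * |D₀| ≤ C ∧
      (1 + C₃) * (a + 2 * k) + k * (4 * (1 + k) + a * C₅ * |D₀|) + (3 + C₃) ≤ C ∧ a * C₄ ≤ C :=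
    ⟨_, le_max_left _ _, le_max_of_le_right (le_max_left _ _),
      le_max_of_le_right (le_max_of_le_right (le_max_left _ _)),
      le_max_of_le_right (le_max_of_le_right (le_max_right _ _))⟩
  obtain ⟨f0, f1, f2, f3, f4, f5⟩ : 1 ≤ C ∧ C₁ ≤ C ∧ C₂ ≤ C ∧ C₃ ≤ C ∧ C₄ ≤ C ∧ C₅ ≤ C :=
    ⟨by linarith, by linarith, by linarith, by linarith, by linarith, by linarith⟩
  refine ⟨a * C₄⁻¹, C, 1 / (400 * n), by positivity, f0, by positivity,
    (div_lt_one (by positivity)).2 (by linarith), fun E R Y P P' e κ hE hK st hκ hκ1 => ?_⟩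
  have hR : 1 ≤ R := hE.maj.1
  have hY := hE.maj.pos
  have hL : (0 : ℝ) < E.L := by
    have g2 := hE.ed.w4
    have g3 := hE.ed.gd.2.1
    have g4 := hE.ed.mem.ok.one_le_rg
    exact_mod_cast (Nat.mul_pos (show 0 < 100 * p.w by omega) (show 0 < p.r₀ by omega)).trans_le hE.ed.big
  have hq : 0 < R / E.L := by positivity
  have hs : 0 ≤ e + (|xk E.ω W R| + yk E.ω W R) := add_nonneg st.e_nonneg (add_nonneg (abs_nonneg _) st.pos.le)
  have hτ0 : 0 ≤ (Y + R / E.L) ^ (1 / (400 * n) : ℝ) := by positivity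
  have hκ' := (mul_le_mul_of_nonneg_left (le_add_of_nonneg_left hs) (zero_le_one.trans f0)).trans hκ
  have hw' := ((le_add_of_nonneg_right hτ0).trans (le_mul_of_one_le_left (add_nonneg hs hτ0) f0)).trans hκ
  obtain ⟨t, t0, et, t1, t2, t3, t4⟩ := small (add_pos hY hq) (show n ≠ 0 by omega) f0
    (hκ'.trans (hκ1.trans (by norm_num)))
  rw [et] at hκ hκ' hτ0
  have hYτ := (le_add_of_nonneg_right hq.le).trans t3
  have hj : ∀ j ≤ n, Y ≤ t ^ j := fun j h => (le_add_of_nonneg_right hq.le).trans (t1 j h)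
  have hj' : ∀ j ≤ n, R ≤ t ^ j * E.L := fun j h =>
    (div_le_iff₀ hL).1 ((le_add_of_nonneg_left hY.le).trans (t1 j h))
  have hCt : ∀ K, 1 ≤ K → K ≤ C → K * t ≤ 1 := fun K h h' =>
    t4 K t (zero_le_one.trans h) h' (by simpa using t2 1 one_ne_zero)
  obtain ⟨a₁, a₂, α₁, α₂, hD⟩ := h1 E R Y P t hE t0 (hCt _ c1 f1) (hj _ (by omega)) (hj' _ (by omega))
  have eV := h2 E R Y P t hE t0 (hCt _ c2 f2) (hj _ (by omega)) (hj' _ (by omega)) _ _ _ _ hD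
    (half st hw' hκ1)
  have eB := h3 E R Y P t hE t0 (hCt _ c3 f3) (hj _ (by omega)) (hj' _ (by omega)) _ _ _ _ hD P' hK
  have eN := h4 E R Y P t hE t0 (hCt _ c4 f4) (hj _ (by omega)) (hj' _ (by omega)) P' hK
  have eU := h5 E R Y P hE (t4 _ _ (zero_le_one.trans c5) f5 hYτ) (by
    have := t4 C₅ _ (zero_le_one.trans c5) f5 ((le_add_of_nonneg_left hY.le).trans t3)
    rwa [← mul_div_assoc, div_le_one hL] at this)
  have hP : 0 ≤ P := zero_le_one.trans hE.P1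
  simp only [pd, qd, ← ha]
  refine ⟨num (b := E.bb R a₁ α₁) ha1 (hε R hR) (hε (W * R) (one_le_mul_of_one_le_of_one_le (by linarith) hR))
    (zero_le_one.trans c5) (zero_le_one.trans c3) (abs_nonneg D₀) st hP hK.1 hY.le
    (hE.cone.trans_le (mul_le_mul_of_nonneg_right (le_abs_self _) st.pos.le)) hYτ ?_
    (eB.trans (add_le_add_left (mul_le_mul_of_nonneg_left (t2 6 (by norm_num)) hP) _)) ?_ d2 d3 hκ hκ1,
    nd ha0 c4 d4 hP hK.1 hτ0 (t2 5 (by norm_num)) hYτ hκ' eN⟩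
  · rw [show a * gk E.ω' (W * R) - a * gk E.ω' R - 2 * lr E.ω E.ω' R * (xk E.ω W (W * R) - xk E.ω W R) =
      a * (gk E.ω' (W * R) - gk E.ω' R - 2 * lr E.ω E.ω' R * (gk E.ω (W * R) - gk E.ω R)) by
        rw [ha, xk, xk]; ring, abs_mul, abs_of_nonneg ha0]
    exact mul_le_mul_of_nonneg_left eU ha0
  · refine le_trans (le_of_eq ?_) eV
    congr 1
    rw [ha]; field_simp

end Crest.Agent.T145.Ev
end

-- ▼ part T145/EvNdd_68

/-!
# Row 145, even sector: non-degeneracy `Ev.ndStmt` (helper68)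
-/

set_option autoImplicit false

namespace Crest.Agent.T145.Ev

open Finset Pot Xi Real Fl

namespace Nd68

variable {p : Par} {Λ : Lat} {ω ω' : Sta} {D : Finset Pt} {L N : ℕ} {F G : Cfg Pt → ℝ}

/-- an insertion at the origin and an energy star fit into one represented ball -/
theorem fit (h : Env p Λ ω L N) {z : Pt} (hz : z ∈ bl 0 (N + N / 4)) :
    ∃ c, bl 0 (N / 4) ⊆ bl c N ∧ bl z Λ.rg ⊆ bl c N := by
  have h0 := h.mem.ok.one_le_rg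
  have h1 := h.gd.2.1
  have h2 := h.big
  have h3 := h.le
  have h4 := A51.four_le h.toGs p.r₀
  rw [mul_assoc] at h2
  refine ⟨(z.1 / 2, z.2 / 2), fun x hx => ?_, fun x hx => ?_⟩ <;>
  · simp only [mem_bl, Prod.fst_zero, Prod.snd_zero] at hz hx ⊢
    omega

/-- `ω'` is linear -/
theorem om'_sub (h : Ed p Λ ω ω' D L N) (hF : Ins 0 (N / 4) F) (hG : Ins 0 (N / 4) G) (c : ℝ) :
    ω' (fun s => F s - c * G s) = ω' F - c * ω' G := by
  rw [h.der _ (hF.sub (hG.smul c)), h.der _ hF, h.der _ hG, mul_sum, ← sum_sub_distrib]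
  refine sum_congr rfl fun z hz => ?_
  obtain ⟨x, h1, h2⟩ := fit h.toEnv (h.hi hz)
  obtain ⟨m, hm⟩ := h.amb x
  have e := (Far58.ins_et h.mem.ok ω z).of_subset h2
  have a := (hF.of_subset h1).mul e
  have b := (hG.of_subset h1).mul e
  rw [← hm.ex_smul b.1, ← hm.ex_sub a (b.smul c)]
  exact congrArg ω (funext fun s => by ring)

theorem g_mem {w : ℕ} (hw : 4 ≤ w) {g : ℝ} (h : |π * g - 2| ≤ ew w / 100) : 1 / 4 ≤ g ∧ g ≤ 1 := by
  have := (X81.ew_bd hw).2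
  obtain ⟨a, b⟩ := abs_le.1 h
  constructor <;> nlinarith [pi_gt_three, pi_lt_four]

theorem one_le_E0 {ρ : ℕ} (hρ : 1 ≤ ρ) : 1 ≤ E0 (bl 0 (2 * ρ)) (Xi.chi ρ) := by
  have h0 : (0 : ℝ) < ρ := by exact_mod_cast hρ
  have h : Pot.Sup (bl 0 (2 * ρ)) (Xi.chi ρ) := sup_chi h0 (by push_cast; linarith)
  refine (Mid.Vg19.one_le_Ec hρ).trans_eq ?_
  rw [B80.E0_ed h (B80.gb_bl h), Mid.Ec, Lat.En]
  simp [nnL, pow_two]

theorem A0_chi {r : ℝ} (hr : 0 < r) {n : ℕ} (hn : (n : ℝ) + 1 ≤ r) {y : Pt} (hy : y ∈ bl 0 n) :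
    A0 (Xi.chi r) y = 0 := by
  rw [A0_congr (v := fun _ => 1) fun w hw => chi_one hr (n := n + 1) (by push_cast; exact hn)
    (bl_subset_bl hy (by omega) hw), A0_const]
  rfl

theorem num {A g Q τ T C B B' κ x y g' : ℝ} (hA : 1 ≤ A) (hg : 1 / 4 ≤ g) (hQ : |Q - g * A| ≤ 1 / 8)
    (τ0 : 0 < τ) (τ1 : τ ≤ T) (hC : 64 * T ^ 2 ≤ C) (nd : Q ^ 2 ≤ τ ^ 2 * A * B) (κ0 : 0 ≤ κ) (κ1 : κ ≤ 1)
    (hx : |B'| ≤ x) (hy : |B - κ * B' - g' * A| ≤ y) : C⁻¹ - x - y ≤ g' := by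
  have Q1 : A / 8 ≤ Q := by nlinarith [(abs_le.1 hQ).1]
  have τ2 : 64 * τ ^ 2 ≤ C := by nlinarith
  have τ3 : 0 < 64 * τ ^ 2 := by positivity
  have B1 : A ≤ 64 * τ ^ 2 * B :=
    le_of_mul_le_mul_left (by nlinarith [pow_le_pow_left₀ (by linarith) Q1 2]) (show 0 < A by linarith)
  have B0 : 0 ≤ B := by by_contra h; nlinarith
  have B2 : C⁻¹ * A ≤ B := by
    rw [inv_mul_le_iff₀ (by linarith)]; exact B1.trans (mul_le_mul_of_nonneg_right τ2 B0)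
  have u1 : κ * B' ≤ x := (le_abs_self _).trans (by
    rw [abs_mul, abs_of_nonneg κ0]; exact (mul_le_of_le_one_left (abs_nonneg _) κ1).trans hx)
  have u3 : 0 ≤ x + y := add_nonneg ((abs_nonneg _).trans hx) ((abs_nonneg _).trans hy)
  refine le_of_mul_le_mul_right ?_ (show 0 < A by linarith)
  nlinarith [(abs_le.1 hy).2, mul_le_mul_of_nonneg_left hA u3]

end Nd68

open Nd68 in
/-- ND -/
theorem ndStmt (hD : DcStmt) (hS : S1Stmt) (hV : VlStmt) (hN : NgStmt) : NdStmt := by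
  intro w
  obtain ⟨W₁, hD⟩ := hD w
  obtain ⟨W₂, hS⟩ := hS w
  refine ⟨W₁ + W₂ + 2, fun p W D₀ hw hW => ?_⟩
  obtain ⟨C₁, n₁, c1, hD⟩ := hD p W D₀ hw (by omega)
  obtain ⟨C₂, n₂, c2, hS⟩ := hS p W D₀ hw (by omega)
  obtain ⟨C₃, c3, hV⟩ := hV p W D₀ (by omega)
  obtain ⟨C₄, n₄, c4, hN⟩ := hN p
  obtain ⟨σ, σ0, hσ⟩ := sm_chi 3
  obtain ⟨M, M1, M2, M3⟩ : ∃ M : ℝ, 9 * σ ≤ M ∧ 16 * C₄ ≤ M ∧ 100 ≤ M :=
    ⟨9 * σ + 16 * C₄ + 100, by linarith, by linarith, by linarith⟩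
  have k1 : 0 ≤ C₃ * (9 * σ) ^ 2 := by positivity
  have k2 : 0 ≤ 16 * (C₄ * M ^ n₄) := by positivity
  have k3 : 0 ≤ 64 * p.F.τ₂ ^ 2 := by positivity
  obtain ⟨C, hC⟩ : ∃ C, C = C₁ + C₂ + C₃ + C₃ * (9 * σ) ^ 2 + 16 * (C₄ * M ^ n₄) + 64 * p.F.τ₂ ^ 2 + M :=
    ⟨_, rfl⟩
  refine ⟨C, n₁ + n₂ + 4, by linarith, fun E R Y P t b t0 tC hY hL P' hK => ?_⟩
  have e := b.ed
  have le : ∀ {A : ℝ}, A ≤ C → A * t ≤ 1 := fun h => (mul_le_mul_of_nonneg_right h t0.le).trans tC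
  have tM : M * t ≤ 1 := le (by linarith)
  have t1 : t ≤ 1 := by nlinarith
  have Y0 := (X81.Y_pos b.maj).le
  have L0 : (0 : ℝ) ≤ E.L := Nat.cast_nonneg _
  have pw : ∀ k, k ≤ n₁ + n₂ + 4 → Y ≤ t ^ k ∧ R ≤ t ^ k * E.L := fun k hk =>
    have a := pow_le_pow_of_le_one t0.le t1 hk
    ⟨hY.trans a, hL.trans (mul_le_mul_of_nonneg_right a L0)⟩
  obtain ⟨Yt, Rt⟩ := pw 1 (by omega)
  rw [pow_one] at Yt Rt
  have sm : ∀ {A : ℝ}, 0 ≤ A → A ≤ C → A * Y ≤ 1 ∧ A * R ≤ E.L := fun h0 h =>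
    ⟨(mul_le_mul_of_nonneg_left Yt h0).trans (le h), (mul_le_mul_of_nonneg_left Rt h0).trans (by
      rw [← mul_assoc]; exact mul_le_of_le_one_left L0 (le h))⟩
  obtain ⟨a₁, a₂, α₁, α₂, dc⟩ := hD E R Y P t b t0 (le (by linarith)) (pw n₁ (by omega)).1
    (pw n₁ (by omega)).2
  have S := hS E R Y P t b t0 (le (by linarith)) (pw n₂ (by omega)).1 (pw n₂ (by omega)).2 _ _ _ _ dc
  have V := hV E R Y P b (sm (by linarith) (by linarith)).1 (sm (by linarith) (by linarith)).2 P' (9 * σ)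
  obtain ⟨g1, g2⟩ := g_mem e.w4 b.crit
  have Ng := hN _ _ _ _ e.toEnv R Y M b.maj g1 g2 (by linarith) (sm (by positivity) (by linarith)).1
    (sm (by positivity) (by linarith)).2
  have RM : M ≤ R := X81.big e.w4 b.maj (sm (by linarith) (by linarith)).1 (by linarith)
  have R0 : 0 < R := by linarith
  have r1 : (⌊R⌋₊ : ℝ) ≤ R := Nat.floor_le R0.le
  have r2 := Nat.lt_floor_add_one R
  generalize ⌊R⌋₊ = ρ at r1 r2
  have ρ1 : (99 : ℝ) ≤ ρ := by linarith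
  have ρ0 : (0 : ℝ) < ρ := by linarith
  have ρ2 : 99 ≤ ρ := by exact_mod_cast ρ1
  have ρN : 100 * ρ ≤ E.N := by
    have a : (100 : ℝ) * R ≤ E.L := (sm (by norm_num) (by linarith)).2
    have : (E.L : ℝ) ≤ E.N := by exact_mod_cast e.le
    exact_mod_cast (by linarith : (100 : ℝ) * ρ ≤ E.N)
  have s1 : Pot.Sup (bl 0 (2 * ρ)) (Xi.chi ρ) := sup_chi ρ0 (by push_cast; linarith)
  have s2 : Pot.Sup (bl 0 (16 * ρ)) (Xi.chi (8 * ρ)) := sup_chi (by linarith) (by push_cast; linarith)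
  have m1 : Sm 3 Set.univ (8 * σ) R (Xi.chi ρ) := by
    have := ((hσ ρ ρ0).scale (ℓ' := R / 2) (by linarith) (by linarith)).scale' (m := 2) (by linarith)
      (by norm_num)
    rwa [show σ * 2 ^ 3 = 8 * σ by ring, show 2 * (R / 2) = R by ring] at this
  have m2 : Sm 3 Set.univ σ R (Xi.chi (8 * ρ)) := (hσ _ (by linarith)).scale R0 (by linarith)
  have sv : ∀ {v : Pt → ℝ} {a : ℝ}, Pot.Sup (bl 0 (16 * ρ)) v → Sm 3 Set.univ a R v → a ≤ 9 * σ →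
      Sv R M v := fun h1 h2 h3 =>
    ⟨h1.mono (bl_mono 0 (Nat.le_floor (by push_cast; nlinarith))),
      (h2.mono le_rfl Set.Subset.rfl (by linarith) R0).scale (by positivity)
        (div_le_self R0.le (by linarith))⟩
  have v1 := sv (s1.mono (bl_mono 0 (by omega))) m1 (by linarith)
  have v2 := sv s2 m2 (by linarith)
  have Mt : M ≤ t⁻¹ := by rw [← one_div, le_div_iff₀ t0]; exact tM
  have z2 : ∀ y ∈ bl 0 (5 * ρ), A0 (Xi.chi (8 * ρ)) y = 0 := fun y hy =>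
    A0_chi (by linarith) (by push_cast; linarith) hy
  have E12 : ∀ U, E1 U (Xi.chi ρ) (Xi.chi (8 * ρ)) = 0 := fun U => sum_eq_zero fun x _ => by
    by_cases hx : x ∈ bl 0 (2 * ρ)
    · rw [z2 x (bl_mono 0 (by omega) hx), mul_zero]
    · rw [s1 x hx, zero_mul]
  have S1 := S _ _ (X81.sv_mono v1 R0 (by linarith) Mt) (X81.sv_mono v2 R0 (by linarith) Mt) fun z => by
    have a : ⌈R * t⌉₊ ≤ ρ := Nat.ceil_le.2 (by nlinarith)
    by_cases hz : z ∈ bl 0 (4 * ρ)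
    · exact Or.inr fun y hy => z2 y (bl_subset_bl hz (by omega) hy)
    · refine Or.inl fun y hy => sup_A0 s1 y fun k => hz (bl_subset_bl k (r := ρ) (by omega) ?_)
      exact mem_bl_comm.1 (bl_mono z a hy)
  rw [E12, mul_zero, add_zero] at S1
  have c2R : 2 * ρ ≤ ⌈2 * R⌉₊ := by
    exact_mod_cast (by linarith [Nat.le_ceil (2 * R)] : (2 : ℝ) * ρ ≤ ⌈2 * R⌉₊)
  have c2R' : (⌈2 * R⌉₊ : ℝ) ≤ 8 * ρ := by linarith [Nat.ceil_lt_add_one (show 0 ≤ 2 * R by linarith)]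
  have c32 : 16 * ρ ≤ ⌈32 * R⌉₊ := by
    exact_mod_cast (by linarith [Nat.le_ceil (32 * R)] : (16 : ℝ) * ρ ≤ ⌈32 * R⌉₊)
  have q1 : 0 < ∑ x ∈ bl 0 ⌈2 * R⌉₊, Xi.chi ρ x :=
    sum_pos' (fun x _ => chi_nonneg _ x) ⟨0, self_mem_bl _ _, by
      rw [chi_one ρ0 le_rfl (self_mem_bl _ _)]; exact one_pos⟩
  obtain ⟨κ, κ0, κ1, hκ⟩ : ∃ κ : ℝ, 0 ≤ κ ∧ κ ≤ 1 ∧
      κ * ∑ x ∈ bl 0 ⌈2 * R⌉₊, Xi.chi ρ x = ∑ x ∈ bl 0 ⌈2 * R⌉₊, Xi.chi ρ x * Xi.chi ρ x :=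
    ⟨_ / _, div_nonneg (sum_nonneg fun x _ => mul_self_nonneg _) q1.le, (div_le_one q1).2
      (sum_le_sum fun x _ => mul_le_of_le_one_left (chi_nonneg _ x) (chi_le_one _ x)),
      div_mul_cancel₀ _ q1.ne'⟩
  have V1 := V (Xi.chi ρ) (Xi.chi ρ - κ • Xi.chi (8 * ρ)) hK (s1.mono (bl_mono 0 c2R))
    (fun x hx => by
      rw [Pi.sub_apply, Pi.smul_apply, s1 x fun k => hx (bl_mono 0 (by omega) k),
        s2 x fun k => hx (bl_mono 0 c32 k), smul_zero, sub_zero])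
    (m1.mono le_rfl Set.Subset.rfl (by linarith) R0)
    ((m1.sub (m2.smul κ)).mono le_rfl Set.Subset.rfl (by rw [abs_of_nonneg κ0]; nlinarith) R0) (by
      rw [← sub_eq_zero.2 hκ.symm, mul_sum, ← sum_sub_distrib]
      exact sum_congr rfl fun x hx => by
        rw [Pi.sub_apply, Pi.smul_apply, chi_one (by linarith) c2R' hx, smul_eq_mul]; ring)
  have i1 : Ins 0 (E.N / 4) (X (Xi.chi ρ)) := ins_A0 s1 (by omega)
  have i2 : Ins 0 (E.N / 4) (X (Xi.chi (8 * ρ))) := ins_A0 s2 (by omega)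
  have l1 : (fun s => X (Xi.chi ρ) s * X (Xi.chi ρ - κ • Xi.chi (8 * ρ)) s) = fun s =>
      X (Xi.chi ρ) s * X (Xi.chi ρ) s - κ * (X (Xi.chi ρ) s * X (Xi.chi (8 * ρ)) s) := funext fun s => by
    simp only [X, A0_sub, A0_smul, pr_sub, pr_smul, AddMonoidHom.sub_apply, AddMonoidHom.smul_apply,
      smul_eq_mul]
    ring
  have l2 : E1 (bl 0 ⌈2 * R⌉₊) (Xi.chi ρ) (Xi.chi ρ - κ • Xi.chi (8 * ρ)) =
      E0 (bl 0 (2 * ρ)) (Xi.chi ρ) := by
    rw [B80.E0_congr s1 (s1.mono (bl_mono 0 c2R)), ← sub_zero (E0 _ _), ← mul_zero κ,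
      ← E12 (bl 0 ⌈2 * R⌉₊), E0, E1, E1, mul_sum, ← sum_sub_distrib]
    exact sum_congr rfl fun x _ => by
      rw [A0_sub, A0_smul, Pi.sub_apply, Pi.smul_apply, smul_eq_mul]; ring
  rw [l1, om'_sub e (i1.mul i1) (i1.mul i2), l2] at V1
  have N3 := (Ng 0 _ _ (X81.sv_zero R0 (by linarith)) v1 v1 _ _ _ rfl rfl rfl).2.2
  have A00 : A0 (0 : Pt → ℝ) = 0 := A0_const 0
  have l3 : E1 (bl 0 ⌊M * R⌋₊) (Xi.chi ρ) (Xi.chi ρ) = E0 (bl 0 (2 * ρ)) (Xi.chi ρ) :=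
    B80.E0_congr v1.1 s1
  rw [l3] at N3
  simp only [E0, E1, cp, A00, Pi.zero_apply, mul_zero, sum_const_zero, exp_zero, mul_one, sub_zero,
    pr_zero, AddMonoidHom.zero_apply, add_zero, cos_zero] at N3
  have nd := e.nd (2 * ρ) _ (by omega) s1
  have E1' := one_le_E0 (show 1 ≤ ρ by omega)
  rw [E0] at nd E1' V1
  generalize ∑ x ∈ bl 0 (2 * ρ), Xi.chi ρ x * A0 (Xi.chi ρ) x = A at nd E1' V1 N3
  generalize E.ω' (fun s => X (Xi.chi ρ) s * X (Xi.chi ρ) s) = B at nd V1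
  generalize E.ω' (fun s => X (Xi.chi ρ) s * X (Xi.chi (8 * ρ)) s) = B' at S1 V1
  generalize E.ω (fun s => X (Xi.chi ρ) s * X (Xi.chi ρ) s) = Q at nd N3
  have ε1 : C₄ * (M ^ n₄ * Y ^ (1 / 4 : ℝ) + 1 / M) ≤ 1 / 8 := by
    have a : Y ^ (1 / 4 : ℝ) ≤ t := by
      refine (rpow_le_rpow Y0 (pw 4 (by omega)).1 (by norm_num)).trans_eq ?_
      rw [← rpow_natCast, ← rpow_mul t0.le]; norm_num
    have a2 := mul_le_mul_of_nonneg_left a k2
    have a3 : 16 * (C₄ * M ^ n₄) * t ≤ 1 := le (by linarith)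
    have a4 : C₄ * (1 / M) ≤ 1 / 16 := by rw [mul_one_div, div_le_iff₀ (by linarith)]; linarith
    linarith
  exact num E1' g1 (N3.trans ε1) e.mem.ok.pos e.mem.tau_le (by linarith) nd κ0 κ1
    (S1.trans (mul_le_mul_of_nonneg_left (pow_le_pow_of_le_one t0.le t1 (by norm_num)) (by linarith [b.P1])))
    (V1.trans (mul_le_mul_of_nonneg_right (mul_le_mul_of_nonneg_right (by linarith) Y0) hK.1))

end Crest.Agent.T145.Ev
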