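import Crest.Agent.T145.Pot_17
import Crest.Agent.T145.GeoA_51
import Crest.Agent.R165.PkD_583

/-!
# Row 145: deterministic potential theory on `ℤ²` (helper17): definitions, summation by parts, target Props
-/

set_option autoImplicit false

namespace Crest.Agent.T145.Pot

open Finset

export Crest.Agent.R165.Pkx583 (pk)

/-- difference along the step `y` -/
def dif (y : Pt) (u : Pt → ℝ) : Pt → ℝ := fun z => u (z + y) - u z

/-- iterated differences -/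
def difs : List Pt → (Pt → ℝ) → Pt → ℝ
  | [], u => u
  | y :: ys, u => dif y (difs ys u)

/-- the `J`-Laplacian -/
def lapJ (J : Finset Pt) (u : Pt → ℝ) : Pt → ℝ := fun z => ∑ y ∈ J, (u (z + y) - u z)

/-- the nearest neighbour Laplacian -/
def lap (u : Pt → ℝ) : Pt → ℝ := lapJ nn u

/-- nearest neighbour lattice -/
def nL : Lat := xyL 1

/-- Dirichlet form of the edges meeting `D` -/
noncomputable def eD (Λ : Lat) (D : Finset Pt) : Bf Pt := edF (Λ.edT D)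

/-- Dirichlet form of the edges inside `B` -/
noncomputable def eN (Λ : Lat) (B : Finset Pt) : Bf Pt := edF (Λ.edI B)

/-- Green form with zero boundary values off `D` -/
noncomputable def GD (Λ : Lat) (D : Finset Pt) (f g : Pt → ℝ) : ℝ := G D (eD Λ D) f g


/-- Euclidean norm -/
noncomputable def eu (z : Pt) : ℝ := √((z.1 : ℝ) ^ 2 + (z.2 : ℝ) ^ 2)

/-- Euclidean disc -/
noncomputable def disc (z : Pt) (ρ : ℝ) : Finset Pt :=
  (bl z ⌈ρ⌉₊).filter fun y => eu (y - z) ≤ ρ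

/-- `log |z| / 2π` (`0` at the origin) -/
noncomputable def lg (z : Pt) : ℝ := Real.log (eu z) / (2 * Real.pi)

/-- average over a finite set -/
noncomputable def av (S : Finset Pt) (u : Pt → ℝ) : ℝ := (∑ x ∈ S, u x) / S.card

/-! ## target Props -/

/-- asymptotics of the potential kernel -/
def PkStmt : Prop := (∀ z, 0 ≤ pk z) ∧ ∃ κ C : ℝ, ∀ z : Pt, z ≠ 0 → |pk z - lg z - κ| ≤ C / eu z

/-- differences of the lattice logarithm -/
def LgStmt : Prop := (∀ k : ℕ, ∃ C : ℝ, ∀ ys : List Pt, ys.length = k + 1 → (∀ y ∈ ys, y ∈ nn) →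
    ∀ z, |difs ys lg z| ≤ C / (1 + eu z) ^ (k + 1)) ∧
  (∀ k : ℕ, ∃ C : ℝ, ∀ ys : List Pt, ys.length = k → (∀ y ∈ ys, y ∈ nn) →
    ∀ z, |difs ys (lap lg) z| ≤ C / (1 + eu z) ^ (k + 4)) ∧
  ∃ C : ℝ, ∀ y ∈ nn, ∀ z : Pt, z ≠ 0 →
    |dif y lg z - ((y.1 : ℝ) * z.1 + y.2 * z.2) / (2 * Real.pi * eu z ^ 2)| ≤ C / eu z ^ 2

/-- all differences of the potential kernel -/
def PkDStmt : Prop := ∀ k : ℕ, ∃ C : ℝ, ∀ ys : List Pt, ys.length = k + 1 → (∀ y ∈ ys, y ∈ nn) →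
  ∀ z, |difs ys pk z| ≤ C / (1 + eu z) ^ (k + 1) ∧
    |difs ys (pk - lg) z| ≤ C / (1 + eu z) ^ (k + 2)

/-- mean value representation at scale `r` -/
def MvStmt : Prop := ∃ C : ℝ, ∀ r : ℕ, 1 ≤ r → ∃ k ψ : Pt → ℝ,
  (∀ y, |k y| ≤ C / (r : ℝ) ^ 2) ∧ (∀ y ∈ bl 0 r, k y = 0) ∧
  (∀ y ∈ bl 0 (2 * r), |ψ y| ≤ C * (1 + Real.log (4 * r / (1 + eu y)))) ∧ Sup (bl 0 (2 * r)) ψ ∧
  (∀ e ∈ nn, ∀ y, |dif e ψ y| ≤ C / (1 + eu y)) ∧
  ∀ (u : Pt → ℝ) (z : Pt), u z =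
    ∑ y ∈ bl 0 (2 * r + 1), k y * u (z + y) - ∑ y ∈ bl 0 (2 * r), ψ y * lap u (z + y)

/-- interior estimates -/
def HarmStmt : Prop :=
  (∃ C : ℝ, ∀ (r : ℕ) (u : Pt → ℝ) (z : Pt) (δ : ℝ), 1 ≤ r → (∀ x ∈ bl z (2 * r), |lap u x| ≤ δ) →
    |u z| ≤ C * ((∑ x ∈ bl z (2 * r + 1) \ bl z r, |u x|) / (r : ℝ) ^ 2 + (r : ℝ) ^ 2 * δ)) ∧
  (∃ C : ℝ, ∀ (r : ℕ) (u : Pt → ℝ) (z : Pt) (M δ : ℝ), 1 ≤ r → (∀ x ∈ bl z r, |lap u x| ≤ δ) →
    (∀ x ∈ bl z (r + 1), |u x| ≤ M) → ∀ e ∈ nn, |dif e u z| ≤ C * (M / r + r * δ)) ∧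
  ∀ k : ℕ, ∃ C : ℝ, ∀ (r : ℕ) (u : Pt → ℝ) (z : Pt) (M : ℝ), k ≤ r → 1 ≤ r →
    (∀ x ∈ bl z r, lap u x = 0) → (∀ x ∈ bl z (r + 1), |u x| ≤ M) →
    ∀ ys : List Pt, ys.length = k → (∀ y ∈ ys, y ∈ nn) → |difs ys u z| ≤ C * M / (r : ℝ) ^ k

/-- Taylor expansions of lattice functions by differences -/
def TayStmt : Prop := ∀ (r : ℕ) (u : Pt → ℝ) (z y : Pt), y ∈ bl 0 r →
  (∀ K : ℝ, (∀ x ∈ bl z r, ∀ e ∈ nn, |dif e u x| ≤ K) → |u (z + y) - u z| ≤ 2 * r * K) ∧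
  (∀ K : ℝ, (∀ x ∈ bl z (r + 1), ∀ e ∈ nn, ∀ e' ∈ nn, |difs [e, e'] u x| ≤ K) →
    |u (z + y) - u z - (y.1 * dif (1, 0) u z + y.2 * dif (0, 1) u z)| ≤ 4 * (r : ℝ) ^ 2 * K) ∧
  ∀ K : ℝ, (∀ x ∈ bl z (r + 2), ∀ e ∈ nn, ∀ e' ∈ nn, ∀ e'' ∈ nn, |difs [e, e', e''] u x| ≤ K) →
    |u (z + y) - u z - (y.1 * dif (1, 0) u z + y.2 * dif (0, 1) u z) -
      ((y.1 : ℝ) * (y.1 - 1) / 2 * difs [(1, 0), (1, 0)] u z + y.1 * y.2 * difs [(1, 0), (0, 1)] u z +
        (y.2 : ℝ) * (y.2 - 1) / 2 * difs [(0, 1), (0, 1)] u z)| ≤ 8 * (r : ℝ) ^ 3 * K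

/-- Poincaré inequalities on squares: free, pinned on a set of rows or columns, boundary layers -/
def PoinStmt : Prop := ∃ C : ℝ, ∀ (a : Pt) (n : ℕ) (u : Pt → ℝ),
  ∑ x ∈ sq a n, (u x - av (sq a n) u) ^ 2 ≤ C * (n : ℝ) ^ 2 * eN nL (sq a n) u u ∧
  (∀ K ⊆ sq a n, (∀ x ∈ K, u x = 0) →
    (K.image Prod.fst).card * ∑ x ∈ sq a n, u x ^ 2 ≤ C * (n : ℝ) ^ 3 * eN nL (sq a n) u u ∧
    (K.image Prod.snd).card * ∑ x ∈ sq a n, u x ^ 2 ≤ C * (n : ℝ) ^ 3 * eN nL (sq a n) u u) ∧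
  ∀ S ⊆ sq a n, ∀ w : ℕ,
    ((∀ j : ℤ, (S.filter fun x => x.2 = j).card ≤ w) ∨ ∀ i : ℤ, (S.filter fun x => x.1 = i).card ≤ w) →
    (n : ℝ) * ∑ x ∈ S, u x ^ 2 ≤
      C * w * (∑ x ∈ sq a n, u x ^ 2 + (n : ℝ) ^ 2 * eN nL (sq a n) u u)


/-- a `J`-connected set of diameter `r` meets many rows or many columns -/
def RowStmt : Prop := ∀ Λ : Lat, Λ.Ok → ∀ (K : Finset Pt) (x y : Pt) (r : ℕ), x ∈ K → y ∉ bl x r →
  Conn (Λ.edI K) x y →
    r + 1 ≤ Λ.rg * ((K ∩ bl x r).image Prod.fst).card ∨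
      r + 1 ≤ Λ.rg * ((K ∩ bl x r).image Prod.snd).card



/-! ## basic facts -/

theorem nL_ok : nL.Ok := xyL_ok one_pos
theorem nL_J : nL.J = nn := rfl
theorem nL_Jp : nL.Jp = {(1, 0), (0, 1)} := xyL_Jp 1
theorem nL_rg : nL.rg = 1 := xyL_rg 1
theorem nL_a : nL.a = 1 := xyL_a 1

theorem lap_apply (u : Pt → ℝ) (z : Pt) : lap u z =
    u (z.1 + 1, z.2) + u (z.1 - 1, z.2) + u (z.1, z.2 + 1) + u (z.1, z.2 - 1) - 4 * u z := by
  obtain ⟨a, b⟩ := z
  rw [lap, lapJ, nn, sum_insert (by decide), sum_insert (by decide), sum_pair (by decide)]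
  simp only [Prod.mk_add_mk, add_zero, ← sub_eq_add_neg]
  ring

theorem lap_pk (z : Pt) : lap pk z = if z = 0 then 1 else 0 := by
  rw [lap_apply, R165.Pkx583.pk_lap z.1 z.2]
  simp [Prod.ext_iff]

theorem lap_pk_sub (y z : Pt) : lap (fun w => pk (w - y)) z = dl y z := by
  have := lap_pk (z - y)
  simp only [lap, lapJ] at this ⊢
  simp only [add_sub_right_comm, this, sub_eq_zero, Pi.single_apply]

theorem lapJ_add (J : Finset Pt) (u v : Pt → ℝ) : lapJ J (u + v) = lapJ J u + lapJ J v := by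
  funext z; simp only [lapJ, Pi.add_apply, ← sum_add_distrib]; exact sum_congr rfl fun _ _ => by ring
theorem lapJ_sub (J : Finset Pt) (u v : Pt → ℝ) : lapJ J (u - v) = lapJ J u - lapJ J v := by
  funext z; simp only [lapJ, Pi.sub_apply, ← sum_sub_distrib]; exact sum_congr rfl fun _ _ => by ring
theorem lapJ_smul (J : Finset Pt) (c : ℝ) (u : Pt → ℝ) : lapJ J (c • u) = c • lapJ J u := by
  funext z; simp only [lapJ, Pi.smul_apply, smul_eq_mul, mul_sum]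
  exact sum_congr rfl fun _ _ => by ring
theorem lapJ_const (J : Finset Pt) (c : ℝ) (z : Pt) : lapJ J (fun _ => c) z = 0 := by simp [lapJ]
theorem lapJ_shift (J : Finset Pt) (u : Pt → ℝ) (y z : Pt) :
    lapJ J (fun w => u (w + y)) z = lapJ J u (z + y) := by
  simp only [lapJ, add_right_comm]
theorem lapJ_dif (J : Finset Pt) (y : Pt) (u : Pt → ℝ) : lapJ J (dif y u) = dif y (lapJ J u) := by
  funext z; simp only [lapJ, dif, ← sum_sub_distrib, add_right_comm z y]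
  exact sum_congr rfl fun _ _ => by ring
theorem lapJ_difs (J : Finset Pt) (ys : List Pt) (u : Pt → ℝ) :
    lapJ J (difs ys u) = difs ys (lapJ J u) := by
  induction ys with
  | nil => rfl
  | cons y ys ih => rw [difs, lapJ_dif, ih, difs]
theorem lapJ_mul (J : Finset Pt) (u v : Pt → ℝ) (z : Pt) : lapJ J (fun w => u w * v w) z =
    u z * lapJ J v z + v z * lapJ J u z + ∑ y ∈ J, dif y u z * dif y v z := by
  simp only [lapJ, dif, mul_sum, ← sum_add_distrib]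
  exact sum_congr rfl fun _ _ => by ring
theorem dif_comm (y y' : Pt) (u : Pt → ℝ) : dif y (dif y' u) = dif y' (dif y u) := by
  funext z; simp only [dif, add_right_comm z y]; ring
theorem dif_neg (y : Pt) (u : Pt → ℝ) (z : Pt) : dif (-y) u z = -dif y u (z - y) := by
  simp [dif, sub_eq_add_neg]
theorem difs_add (ys : List Pt) (u v : Pt → ℝ) : difs ys (u + v) = difs ys u + difs ys v := by
  induction ys with
  | nil => rfl
  | cons y ys ih => funext z; simp only [difs, ih, dif, Pi.add_apply]; ring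
theorem difs_sub (ys : List Pt) (u v : Pt → ℝ) : difs ys (u - v) = difs ys u - difs ys v := by
  induction ys with
  | nil => rfl
  | cons y ys ih => funext z; simp only [difs, ih, dif, Pi.sub_apply]; ring

theorem eu_nonneg (z : Pt) : 0 ≤ eu z := Real.sqrt_nonneg _
theorem eu_sq (z : Pt) : eu z ^ 2 = (z.1 : ℝ) ^ 2 + (z.2 : ℝ) ^ 2 := Real.sq_sqrt (by positivity)
@[simp] theorem eu_zero : eu 0 = 0 := by simp [eu]
theorem eu_neg (z : Pt) : eu (-z) = eu z := by simp [eu]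
theorem eu_sub_comm (z w : Pt) : eu (z - w) = eu (w - z) := by rw [← eu_neg, neg_sub]
theorem abs_fst_le_eu (z : Pt) : |(z.1 : ℝ)| ≤ eu z :=
  Real.abs_le_sqrt (by nlinarith [sq_nonneg (z.2 : ℝ)])
theorem abs_snd_le_eu (z : Pt) : |(z.2 : ℝ)| ≤ eu z :=
  Real.abs_le_sqrt (by nlinarith [sq_nonneg (z.1 : ℝ)])
theorem eu_le_add (z : Pt) : eu z ≤ |(z.1 : ℝ)| + |(z.2 : ℝ)| := by
  rw [eu, Real.sqrt_le_left (by positivity), add_sq, sq_abs, sq_abs]
  have := mul_nonneg (abs_nonneg (z.1 : ℝ)) (abs_nonneg (z.2 : ℝ)); linarith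
theorem one_le_eu {z : Pt} (hz : z ≠ 0) : 1 ≤ eu z := by
  by_cases h : z.1 = 0
  · have h2 : z.2 ≠ 0 := fun h2 => hz (Prod.ext h h2)
    refine le_trans ?_ (abs_snd_le_eu z)
    exact_mod_cast Int.one_le_abs h2
  · refine le_trans ?_ (abs_fst_le_eu z)
    exact_mod_cast Int.one_le_abs h
theorem eu_add_le (z w : Pt) : eu (z + w) ≤ eu z + eu w := by
  rw [eu, Real.sqrt_le_left (add_nonneg (eu_nonneg _) (eu_nonneg _)), add_sq (eu z), eu_sq, eu_sq]
  have h : (z.1 : ℝ) * w.1 + z.2 * w.2 ≤ eu z * eu w := by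
    rw [eu, eu, ← Real.sqrt_mul (by positivity)]
    exact (le_abs_self _).trans
      (Real.abs_le_sqrt (by nlinarith [sq_nonneg ((z.1 : ℝ) * w.2 - z.2 * w.1)]))
  simp only [Prod.fst_add, Prod.snd_add, Int.cast_add]
  nlinarith
theorem eu_nn {y : Pt} (hy : y ∈ nn) : eu y = 1 := by
  simp only [nn, mem_insert, mem_singleton] at hy
  rcases hy with rfl | rfl | rfl | rfl <;> simp [eu]
theorem eu_le_of_bl {z y : Pt} {r : ℕ} (h : y ∈ bl z r) : eu (y - z) ≤ 2 * r := by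
  rw [mem_bl_abs] at h
  have h1 : |((y - z).1 : ℝ)| ≤ r := by exact_mod_cast h.1
  have h2 : |((y - z).2 : ℝ)| ≤ r := by exact_mod_cast h.2
  linarith [eu_le_add (y - z)]
theorem mem_bl_of_eu {z y : Pt} {r : ℕ} (h : eu (y - z) < r + 1) : y ∈ bl z r := by
  have h1 := (abs_fst_le_eu (y - z)).trans_lt h
  have h2 := (abs_snd_le_eu (y - z)).trans_lt h
  rw [mem_bl_abs]
  constructor
  · have : |(y - z).1| < r + 1 := by exact_mod_cast h1
    simp only [Prod.fst_sub] at this; omega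
  · have : |(y - z).2| < r + 1 := by exact_mod_cast h2
    simp only [Prod.snd_sub] at this; omega
theorem le_eu_of_not_bl {z y : Pt} {r : ℕ} (h : y ∉ bl z r) : (r : ℝ) + 1 ≤ eu (y - z) := by
  by_contra h'; exact h (mem_bl_of_eu (not_le.1 h'))

section forms
variable {Λ : Lat}

theorem co_of_anch {V : Type*} {m : Mdl V} (h : m.Anch) (hs : m.site = fun _ _ => 1) :
    Co m.A (edF m.ed) := co_edF fun x hx => by
  obtain ⟨y, h1, h2⟩ := h x hx
  refine ⟨y, h2.resolve_right fun h3 => ?_, h1⟩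
  have h4 := (h3 0).tendsto_cofinite_zero
  simp [hs] at h4

theorem co_eD (h : Λ.Ok) (D : Finset Pt) : Co D (eD Λ D) := co_of_anch (h.anch_D D) rfl




theorem sy_eD (D : Finset Pt) : Sy (eD Λ D) := sy_edF _
theorem sy_eN (B : Finset Pt) : Sy (eN Λ B) := sy_edF _
theorem mk_eD (D : Finset Pt) : Mk (eD Λ D) := mk_edF _

theorem edF_mono {V : Type*} {ed ed' : Finset (V × V)} (h : ed' ⊆ ed) (u : V → ℝ) :
    edF ed' u u ≤ edF ed u u := by
  rw [edF_self, edF_self]; exact sum_le_sum_of_subset_of_nonneg h fun _ _ _ => sq_nonneg _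

theorem edF_const {V : Type*} (ed : Finset (V × V)) (c : ℝ) (v : V → ℝ) :
    edF ed (fun _ => c) v = 0 := by simp [edF_apply]

theorem edF_sub_const {V : Type*} (ed : Finset (V × V)) (c : ℝ) (u v : V → ℝ) :
    edF ed (fun x => u x - c) v = edF ed u v := by simp [edF_apply]

theorem edF_sub_const' {V : Type*} (ed : Finset (V × V)) (c : ℝ) (u : V → ℝ) :
    edF ed (fun x => u x - c) (fun x => u x - c) = edF ed u u := by simp [edF_apply]

theorem edF_congr {V : Type*} {ed : Finset (V × V)} {u u' : V → ℝ}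
    (h : ∀ e ∈ ed, u e.1 = u' e.1 ∧ u e.2 = u' e.2) (v : V → ℝ) : edF ed u v = edF ed u' v := by
  rw [edF_apply, edF_apply]; exact sum_congr rfl fun e he => by rw [(h e he).1, (h e he).2]

theorem eN_apply (B : Finset Pt) (u v : Pt → ℝ) : eN Λ B u v =
    ∑ y ∈ Λ.Jp, ∑ x ∈ B.filter (fun x => x + y ∈ B), dif y u x * dif y v x := by
  rw [eN, edF_apply, Lat.sum_edI]; rfl

theorem nn_subset (h : Λ.Ok) : nL.Jp ⊆ Λ.Jp := by
  rw [nL_Jp]; intro y hy
  rcases mem_insert.1 hy with rfl | hy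
  · exact h.e1
  · rw [mem_singleton.1 hy]; exact h.e2

theorem eN_nL_le (h : Λ.Ok) (B : Finset Pt) (u : Pt → ℝ) : eN nL B u u ≤ eN Λ B u u :=
  edF_mono (fun e he => by rw [Lat.mem_edI] at *; exact ⟨nn_subset h he.1, he.2⟩) u

theorem eD_nL_le (h : Λ.Ok) (D : Finset Pt) (u : Pt → ℝ) : eD nL D u u ≤ eD Λ D u u :=
  edF_mono (fun e he => by rw [Lat.mem_edT] at *; exact ⟨nn_subset h he.1, he.2⟩) u

theorem eN_le_eD (B : Finset Pt) (u : Pt → ℝ) : eN Λ B u u ≤ eD Λ B u u :=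
  edF_mono (Lat.edI_subset_edT B) u

theorem eN_mono {B B' : Finset Pt} (h : B ⊆ B') (u : Pt → ℝ) : eN Λ B u u ≤ eN Λ B' u u :=
  edF_mono (Lat.edI_mono h) u


/-- the operator of an edge form at a site all of whose lattice edges are present -/
theorem op_edF (h : Λ.Ok) {ed : Finset (Pt × Pt)} {x : Pt}
    (hx : ∀ e : Pt × Pt, e.1 = x ∨ e.2 = x → (e ∈ ed ↔ e.2 - e.1 ∈ Λ.Jp)) (u : Pt → ℝ) :
    op (edF ed) u x = -lapJ Λ.J u x := by
  have h1 : ∑ e ∈ ed, (u e.2 - u e.1) * dl x e.2 = ∑ y ∈ Λ.Jp, (u x - u (x + -y)) := by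
    rw [← sum_filter_of_ne (p := fun e => e.2 = x) fun e _ he => by
      by_contra h'; simp [Pi.single_eq_of_ne h'] at he]
    refine sum_bij (fun e _ => e.2 - e.1) (fun e he => ?_) (fun e he e' he' hh => ?_) (fun y hy => ?_)
      fun e he => ?_
    · rw [mem_filter] at he; exact (hx e (Or.inr he.2)).1 he.1
    · rw [mem_filter] at he he'
      refine Prod.ext ?_ (he.2.trans he'.2.symm)
      rw [he.2, he'.2] at hh; exact sub_right_injective hh
    · exact ⟨(x - y, x), mem_filter.2 ⟨(hx _ (Or.inr rfl)).2 (by simpa using hy), rfl⟩, by simp⟩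
    · rw [mem_filter] at he; simp [he.2]
  have h2 : ∑ e ∈ ed, (u e.2 - u e.1) * dl x e.1 = ∑ y ∈ Λ.Jp, (u (x + y) - u x) := by
    rw [← sum_filter_of_ne (p := fun e => e.1 = x) fun e _ he => by
      by_contra h'; simp [Pi.single_eq_of_ne h'] at he]
    refine sum_bij (fun e _ => e.2 - e.1) (fun e he => ?_) (fun e he e' he' hh => ?_) (fun y hy => ?_)
      fun e he => ?_
    · rw [mem_filter] at he; exact (hx e (Or.inl he.2)).1 he.1
    · rw [mem_filter] at he he'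
      refine Prod.ext (he.2.trans he'.2.symm) ?_
      rw [he.2, he'.2] at hh; exact sub_left_injective hh
    · exact ⟨(x, x + y), mem_filter.2 ⟨(hx _ (Or.inl rfl)).2 (by simpa using hy), rfl⟩, by simp⟩
    · rw [mem_filter] at he; simp [he.2]
  rw [op, edF_apply, lapJ, h.sum_J]
  simp only [mul_sub, sum_sub_distrib, h1, h2, sum_add_distrib]
  ring

theorem op_eD (h : Λ.Ok) {D : Finset Pt} {x : Pt} (hx : x ∈ D) (u : Pt → ℝ) :
    op (eD Λ D) u x = -lapJ Λ.J u x :=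
  op_edF h (fun e he => by
    rw [Lat.mem_edT]
    exact ⟨And.left, fun h1 => ⟨h1, he.imp (fun h2 => by rwa [h2]) fun h2 => by rwa [h2]⟩⟩) u


/-- summation by parts -/
theorem eD_sbp (h : Λ.Ok) {D : Finset Pt} (u : Pt → ℝ) {v : Pt → ℝ} (hv : Sup D v) :
    eD Λ D u v = -∑ x ∈ D, lapJ Λ.J u x * v x := by
  rw [← ip_op D _ u hv, ip, ← sum_neg_distrib]
  exact sum_congr rfl fun x hx => by rw [op_eD h hx, neg_mul]

/-- the form does not depend on the domain containing the support -/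
theorem eD_of_sup (h : Λ.Ok) {D D' : Finset Pt} (hD : D' ⊆ D) (u : Pt → ℝ) {v : Pt → ℝ}
    (hv : Sup D' v) : eD Λ D u v = eD Λ D' u v := by
  rw [eD_sbp h u hv, eD_sbp h u (hv.mono hD)]
  exact congrArg _ (ip_of_sup hD _ hv)

/-- Green's identity for a finitely supported `v` -/
theorem green (h : Λ.Ok) {D D' : Finset Pt} (hD : ∀ x ∈ D, bl x Λ.rg ⊆ D') (u : Pt → ℝ)
    {v : Pt → ℝ} (hv : Sup D v) :
    ∑ x ∈ D, lapJ Λ.J u x * v x = ∑ x ∈ D', u x * lapJ Λ.J v x := by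
  have hDD : D ⊆ D' := fun x hx => hD x hx (self_mem_bl _ _)
  set w : Pt → ℝ := fun x => if x ∈ D' then u x else 0
  have hw : Sup D' w := fun x hx => if_neg hx
  have h1 := eD_sbp h v hw
  rw [(sy_eD D').symm, eD_of_sup h hDD w hv, eD_sbp h w hv, neg_inj] at h1
  calc _ = ∑ x ∈ D, lapJ Λ.J w x * v x := sum_congr rfl fun x hx => by
        congr 1
        refine sum_congr rfl fun y hy => ?_
        have : x + y ∈ D' := hD x hx (mem_bl_abs.2 (by simpa using Lat.le_rg hy))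
        simp [w, this, hDD hx]
    _ = _ := h1.trans (sum_congr rfl fun x hx => by simp [w, hx, mul_comm])

theorem hm_eD (h : Λ.Ok) {D A : Finset Pt} (hA : A ⊆ D) {u : Pt → ℝ} :
    Hm A (eD Λ D) u ↔ ∀ x ∈ A, lapJ Λ.J u x = 0 := by
  rw [hm_iff]
  exact forall₂_congr fun x hx => by rw [op_eD h (hA hx), neg_eq_zero]

theorem gr_eD (h : Λ.Ok) {D D' : Finset Pt} (hD : D' ⊆ D) (f : Pt → ℝ) :
    gr D' (eD Λ D) f = gr D' (eD Λ D') f :=
  gr_congr_form (fun u _ _ hv => eD_of_sup h hD u hv) f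

theorem G_eD (h : Λ.Ok) {D D' : Finset Pt} (hD : D' ⊆ D) (f g : Pt → ℝ) :
    G D' (eD Λ D) f g = GD Λ D' f g := by rw [GD, G, G, gr_eD h hD]

theorem lapJ_gr (h : Λ.Ok) {D : Finset Pt} (f : Pt → ℝ) {x : Pt} (hx : x ∈ D) :
    lapJ Λ.J (gr D (eD Λ D) f) x = -f x := by
  rw [← (co_eD h D).op_gr f hx, op_eD h hx, neg_neg]


theorem GD_le_nL (h : Λ.Ok) (D : Finset Pt) (f : Pt → ℝ) : GD Λ D f f ≤ GD nL D f f := by
  simpa [GD] using (co_eD nL_ok D).G_mono (co_eD h D) Subset.rfl zero_le_one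
    (fun u _ => by simpa using eD_nL_le h D u) f

/-- maximum principle for edge forms: only the values at the ends of the edges matter -/
theorem le_of_sub_ed {V : Type*} {A : Finset V} {ed : Finset (V × V)} (h : Co A (edF ed))
    {u : V → ℝ} {M : ℝ} (h1 : ∀ e ∈ ed, (e.1 ∉ A → u e.1 ≤ M) ∧ (e.2 ∉ A → u e.2 ≤ M))
    (h2 : ∀ v, Sup A v → 0 ≤ v → edF ed u v ≤ 0) {x : V} (hx : x ∈ A) : u x ≤ M := by
  classical
  set w : V → ℝ := fun y => if y ∈ A ∨ ∃ e ∈ ed, e.1 = y ∨ e.2 = y then u y - M else 0 with hw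
  have := h.le_of_sub (mk_edF ed) (u := w) le_rfl (fun y hy => by
      simp only [hw]
      split_ifs with h3
      · obtain ⟨e, he, h4⟩ := h3.resolve_left hy
        rcases h4 with rfl | rfl
        · linarith [(h1 e he).1 hy]
        · linarith [(h1 e he).2 hy]
      · exact le_rfl)
    (fun v hv hv' => by
      rw [edF_congr (u' := fun y => u y - M) (fun e he =>
        ⟨if_pos (Or.inr ⟨e, he, Or.inl rfl⟩), if_pos (Or.inr ⟨e, he, Or.inr rfl⟩)⟩), edF_sub_const]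
      exact h2 v hv hv') x
  simp only [hw, hx, true_or, if_true] at this
  linarith

/-- lattice maximum principle: `lapJ u ≥ 0` on `D`, `u ≤ M` on the outer boundary -/
theorem le_of_lapJ (h : Λ.Ok) {D : Finset Pt} {u : Pt → ℝ} {M : ℝ}
    (h1 : ∀ x ∈ D, ∀ y ∈ Λ.J, x + y ∉ D → u (x + y) ≤ M) (h2 : ∀ x ∈ D, 0 ≤ lapJ Λ.J u x)
    {x : Pt} (hx : x ∈ D) : u x ≤ M :=
  le_of_sub_ed (co_eD h D) (fun e he => by
      rw [Lat.mem_edT] at he
      have hJ := (Lat.mem_Jp.1 he.1).1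
      refine ⟨fun h3 => ?_, fun h3 => ?_⟩
      · simpa using h1 e.2 (he.2.resolve_left h3) _ (h.neg hJ) (by simpa using h3)
      · simpa using h1 e.1 (he.2.resolve_right h3) _ hJ (by simpa using h3))
    (fun v hv hv' => by
      change eD Λ D u v ≤ 0
      rw [eD_sbp h u hv, neg_nonpos]
      exact sum_nonneg fun x hx => mul_nonneg (h2 x hx) (hv' x)) hx

theorem ge_of_lapJ (h : Λ.Ok) {D : Finset Pt} {u : Pt → ℝ} {M : ℝ}
    (h1 : ∀ x ∈ D, ∀ y ∈ Λ.J, x + y ∉ D → M ≤ u (x + y)) (h2 : ∀ x ∈ D, lapJ Λ.J u x ≤ 0)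
    {x : Pt} (hx : x ∈ D) : M ≤ u x := by
  have := le_of_lapJ h (u := (-1 : ℝ) • u) (M := -M) (fun x hx y hy h3 => by
    simpa using h1 x hx y hy h3) (fun x hx => by rw [lapJ_smul]; simpa using h2 x hx) hx
  simpa using this





end forms

/-! ## the Green function of a domain -/

theorem gr_dl_eq {D : Finset Pt} (y : Pt) : gr D (eD nL D) (dl y) =
    hx D (eD nL D) (fun w => pk (w - y)) - fun w => pk (w - y) := by
  have h := co_eD nL_ok D
  refine h.gr_unique' (fun x hx' => by simp [h.hx_off _ hx']) fun x hx' => ?_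
  rw [op_sub, Pi.sub_apply, hm_iff.1 (h.hx_hm _) x hx', op_eD nL_ok hx', ← lap_pk_sub y x]
  simp [lap, nL_J]

theorem GD_dl_le {D : Finset Pt} {x : Pt} (hx' : x ∈ D) (y : Pt) {M : ℝ}
    (hM : ∀ w ∈ D, ∀ e ∈ nn, w + e ∉ D → pk (w + e - y) ≤ M) :
    GD nL D (dl x) (dl y) ≤ M - pk (x - y) := by
  have h := co_eD nL_ok D
  rw [GD, h.G_dl, gr_dl_eq, Pi.sub_apply, sub_le_sub_iff_right]
  exact le_of_lapJ nL_ok (fun w hw e he h3 => by rw [h.hx_off _ h3]; exact hM w hw e he h3)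
    (fun w hw => ((hm_eD nL_ok Subset.rfl).1 (h.hx_hm _) w hw).ge) hx'

theorem le_GD_dl {D : Finset Pt} {x : Pt} (hx' : x ∈ D) (y : Pt) {M : ℝ}
    (hM : ∀ w ∈ D, ∀ e ∈ nn, w + e ∉ D → M ≤ pk (w + e - y)) :
    M - pk (x - y) ≤ GD nL D (dl x) (dl y) := by
  have h := co_eD nL_ok D
  rw [GD, h.G_dl, gr_dl_eq, Pi.sub_apply, sub_le_sub_iff_right]
  exact ge_of_lapJ nL_ok (fun w hw e he h3 => by rw [h.hx_off _ h3]; exact hM w hw e he h3)
    (fun w hw => ((hm_eD nL_ok Subset.rfl).1 (h.hx_hm _) w hw).le) hx'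


end Crest.Agent.T145.Pot
private theorem rz_fb51b5535e : type_of% @_root_.Crest.Agent.T145.Pot.difs.eq_def := @_root_.Crest.Agent.T145.Pot.difs.eq_def -- L21
private theorem rz_fa3af6270d : type_of% @_root_.Crest.Agent.T145.Pot.difs.eq_1 := @_root_.Crest.Agent.T145.Pot.difs.eq_1 -- L21
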