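import Crest.Agent.T145.T3b_50
import Crest.Agent.T145.PotL_17
import Crest.Agent.T145.MidDef_97
import Crest.Agent.T145.FlFus_4
import Crest.Agent.T145.OmB_11
import Crest.Agent.T145.XiB_22
import Crest.Agent.T145.NcT4Def_78
import Crest.Agent.T145.Soft_23

-- ▼ part T145/VxB_27
section

/-!
# Row 145, twisted module: the deterministic half of Lemma B (helper27)
-/

set_option autoImplicit false

namespace Crest.Agent.T145.Vb27

open Finset Pot

/-- the weight of the pair `(z, w)` -/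
def Ph (u u' : Pt → ℝ) (z w : Pt) : ℝ := (u z - u w) * (u' z - u' w)

theorem Ph_comm (u u' : Pt → ℝ) (z w : Pt) : Ph u u' z w = Ph u u' w z := by unfold Ph; ring


/-- (B0) -/
theorem alg (D : Finset Pt) (χ u u' : Pt → ℝ) (c : Pt → Pt → ℝ) (hc : ∀ z w, c z w = c w z) :
    ∑ z ∈ D, ∑ w ∈ D, χ z * χ w * Ph u u' z w * c z w =
      2 * ∑ z ∈ D, ∑ w ∈ D, χ z * u z * u' z * χ w * c z w -
        2 * ∑ z ∈ D, ∑ w ∈ D, χ z * u z * (χ w * u' w) * c z w := by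
  have h1 : ∑ z ∈ D, ∑ w ∈ D, χ w * u w * u' w * χ z * c z w =
      ∑ z ∈ D, ∑ w ∈ D, χ z * u z * u' z * χ w * c z w := by
    rw [sum_comm]; exact sum_congr rfl fun z _ => sum_congr rfl fun w _ => by rw [hc]
  have h2 : ∑ z ∈ D, ∑ w ∈ D, χ w * u w * (χ z * u' z) * c z w =
      ∑ z ∈ D, ∑ w ∈ D, χ z * u z * (χ w * u' w) * c z w := by
    rw [sum_comm]; exact sum_congr rfl fun z _ => sum_congr rfl fun w _ => by rw [hc]
  rw [two_mul, two_mul]
  nth_rewrite 1 [← h1, ← h2]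
  simp only [← sum_add_distrib, ← sum_sub_distrib]
  exact sum_congr rfl fun z _ => sum_congr rfl fun w _ => by unfold Ph; ring

theorem n2_eq (x : Pt) : n2 x = eu x ^ 2 := (eu_sq x).symm

theorem n2_nonneg (x : Pt) : 0 ≤ n2 x := by unfold n2; positivity

/-- shell summation -/
theorem sum_shell (z : Pt) (f : Pt → ℝ) (g : ℕ → ℝ) (l : ℕ) : ∀ n : ℕ,
    (∀ k, l ≤ k → k < n → ∀ x, x ∈ bl z (k + 1) → x ∉ bl z k → f x ≤ g k) →
    ∑ x ∈ bl z n \ bl z l, f x ≤ ∑ k ∈ Ico l n, 8 * ((k : ℝ) + 1) * g k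
  | 0, _ => by
    rw [sdiff_eq_empty_iff_subset.2 (bl_mono z l.zero_le)]; simp
  | n + 1, h => by
    by_cases hl : l ≤ n
    · have ih := sum_shell z f g l n fun k h1 h2 => h k h1 (by omega)
      have hs : bl z n ⊆ bl z (n + 1) := bl_mono z n.le_succ
      have e : bl z (n + 1) \ bl z l = (bl z (n + 1) \ bl z n) ∪ (bl z n \ bl z l) :=
        (sdiff_union_sdiff_cancel hs (bl_mono z hl)).symm
      have hd : Disjoint (bl z (n + 1) \ bl z n) (bl z n \ bl z l) :=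
        disjoint_left.2 fun x h1 h2 => (mem_sdiff.1 h1).2 (mem_sdiff.1 h2).1
      rw [e, sum_union hd, sum_Ico_succ_top hl]
      have h1 : ∑ x ∈ bl z (n + 1) \ bl z n, f x ≤ (bl z (n + 1) \ bl z n).card • g n :=
        sum_le_card_nsmul _ _ _ fun y hy =>
          h n hl n.lt_succ_self y (mem_sdiff.1 hy).1 (mem_sdiff.1 hy).2
      have h2 : (bl z (n + 1) \ bl z n).card = 8 * (n + 1) := by
        rw [card_sdiff_of_subset hs, card_bl, card_bl]
        exact Nat.sub_eq_of_eq_add (by ring)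
      rw [h2, nsmul_eq_mul] at h1
      push_cast at h1
      linarith
    · rw [sdiff_eq_empty_iff_subset.2 (bl_mono z (by omega)), Ico_eq_empty (by omega)]; simp

theorem sum_inv_le (l : ℕ) (hl : 1 ≤ l) : ∀ n : ℕ, l ≤ n →
    ∑ k ∈ Ico l n, ((k : ℝ) + 1)⁻¹ ≤ Real.log (n / l)
  | 0, h => by omega
  | n + 1, h => by
    have hl' : (0 : ℝ) < l := by exact_mod_cast hl
    rcases h.eq_or_lt with h1 | h1
    · rw [← h1, div_self hl'.ne']; simp
    have h2 : l ≤ n := by omega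
    have hn : (0 : ℝ) < n := by exact_mod_cast hl.trans h2
    rw [sum_Ico_succ_top h2]
    have ih := sum_inv_le l hl n h2
    have h3 := Real.one_sub_inv_le_log_of_pos (x := ((n : ℝ) + 1) / n) (by positivity)
    have h4 : Real.log (((n + 1 : ℕ) : ℝ) / l) = Real.log (n / l) + Real.log (((n : ℝ) + 1) / n) := by
      rw [← Real.log_mul (by positivity) (by positivity)]; congr 1; push_cast; field_simp
    have h5 : 1 - (((n : ℝ) + 1) / n)⁻¹ = ((n : ℝ) + 1)⁻¹ := by field_simp; ring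
    linarith

/-- `∑ 1 / |x|²` over an annulus -/
theorem sum_inv_sq (z : Pt) {l n : ℕ} (hl : 1 ≤ l) (hn : l ≤ n) :
    ∑ x ∈ bl z n \ bl z l, (eu (x - z) ^ 2)⁻¹ ≤ 8 * Real.log (n / l) := by
  refine (sum_shell z _ (fun k => (((k : ℝ) + 1) ^ 2)⁻¹) l n fun k _ _ x _ hx => ?_).trans ?_
  · exact inv_anti₀ (by positivity) (pow_le_pow_left₀ (by positivity) (le_eu_of_not_bl hx) 2)
  · refine le_trans (le_of_eq ?_) (mul_le_mul_of_nonneg_left (sum_inv_le l hl n hn) (by norm_num))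
    rw [mul_sum]
    exact sum_congr rfl fun k _ => by field_simp


/-- second moments of a symmetric kernel -/
theorem moments (k : Pt → ℝ) (l : ℕ) (h1 : ∀ x : Pt, k x.swap = k x) (h2 : ∀ x : Pt, k (-x.1, x.2) = k x) :
    ∑ x ∈ bl 0 l, k x * ((x.1 : ℝ) * x.2) = 0 ∧
      ∑ x ∈ bl 0 l, k x * (x.1 : ℝ) ^ 2 = (∑ x ∈ bl 0 l, k x * n2 x) / 2 ∧
      ∑ x ∈ bl 0 l, k x * (x.2 : ℝ) ^ 2 = (∑ x ∈ bl 0 l, k x * n2 x) / 2 := by
  have a1 : ∑ x ∈ bl 0 l, k x * ((x.1 : ℝ) * x.2) = ∑ x ∈ bl 0 l, -(k x * ((x.1 : ℝ) * x.2)) :=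
    sum_bij' (fun x _ => (-x.1, x.2)) (fun x _ => (-x.1, x.2))
      (fun x hx => by rw [mem_bl] at hx ⊢; simp at hx ⊢; omega)
      (fun x hx => by rw [mem_bl] at hx ⊢; simp at hx ⊢; omega)
      (fun x _ => by simp) (fun x _ => by simp) fun x _ => by rw [h2]; push_cast; ring
  have a2 : ∑ x ∈ bl 0 l, k x * (x.1 : ℝ) ^ 2 = ∑ x ∈ bl 0 l, k x * (x.2 : ℝ) ^ 2 :=
    sum_bij' (fun x _ => x.swap) (fun x _ => x.swap)
      (fun x hx => by rw [mem_bl] at hx ⊢; simp at hx ⊢; omega)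
      (fun x hx => by rw [mem_bl] at hx ⊢; simp at hx ⊢; omega)
      (fun x _ => by simp) (fun x _ => by simp) fun x _ => by rw [h1]; simp
  have a3 : ∑ x ∈ bl 0 l, k x * n2 x =
      ∑ x ∈ bl 0 l, k x * (x.1 : ℝ) ^ 2 + ∑ x ∈ bl 0 l, k x * (x.2 : ℝ) ^ 2 := by
    rw [← sum_add_distrib]; exact sum_congr rfl fun x _ => by unfold n2; ring
  rw [sum_neg_distrib] at a1
  exact ⟨by linarith, by linarith, by linarith⟩

/-- the Dirichlet density -/
def gg (u u' : Pt → ℝ) (z : Pt) : ℝ := df 0 u z * df 0 u' z + df 1 u z * df 1 u' z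

theorem tay {u : Pt → ℝ} {K L : ℝ} (hu : Sm2 u K L) (z : Pt) {l : ℕ} {x : Pt} (hx : x ∈ bl 0 l) :
    |u (z + x) - u z - (df 0 u z * x.1 + df 1 u z * x.2)| ≤ K / L ^ 2 * (4 * l) * eu x ∧
      |df 0 u z * x.1 + df 1 u z * x.2| ≤ K / L * (2 * eu x) ∧
      |u (z + x) - u z| ≤ K / L * (2 * eu x) := by
  have hm : z + x ∈ bl z l := by rw [mem_bl] at hx ⊢; simp at hx ⊢; omega
  have a1 := abs_fst_le_eu x
  have a2 := abs_snd_le_eu x
  have k1 : 0 ≤ K / L := (abs_nonneg _).trans (hu.1 0 0)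
  have k2 : 0 ≤ K / L ^ 2 := (abs_nonneg _).trans (hu.2 0 0 0)
  refine ⟨?_, ?_, ?_⟩
  · have := T3b50.taylor hu hm (self_mem_bl z l)
    simp only [Prod.fst_add, Prod.snd_add, Int.cast_add, add_sub_cancel_left] at this
    refine this.trans ?_
    have : 0 ≤ K / L ^ 2 * (2 * l) := by positivity
    nlinarith
  · refine (abs_add_le _ _).trans ?_
    rw [abs_mul, abs_mul]
    have b1 := mul_le_mul (hu.1 0 z) a1 (abs_nonneg _) k1
    have b2 := mul_le_mul (hu.1 1 z) a2 (abs_nonneg _) k1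
    linarith
  · have := T3b50.lipG u _ hu.1 (z + x) z
    simp only [Prod.fst_add, Prod.snd_add, Int.cast_add, add_sub_cancel_left] at this
    exact this.trans (mul_le_mul_of_nonneg_left (by linarith) k1)


theorem sum_bl_shift (z : Pt) (l : ℕ) (f : Pt → ℝ) : ∑ w ∈ bl z l, f w = ∑ x ∈ bl 0 l, f (z + x) :=
  (sum_bij' (fun x _ => z + x) (fun w _ => w - z)
    (fun x hx => by rw [mem_bl] at hx ⊢; simp at hx ⊢; omega)
    (fun x hx => by rw [mem_bl] at hx ⊢; simp at hx ⊢; omega)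
    (fun x _ => by simp) (fun x _ => by simp) fun x _ => rfl).symm

theorem abs_Ph_le {u u' : Pt → ℝ} {K L K' L' : ℝ} (hu : Sm2 u K L) (hu' : Sm2 u' K' L') (z x : Pt) :
    |Ph u u' z (z + x)| ≤ 4 * (K / L * (K' / L')) * n2 x := by
  obtain ⟨l, hl⟩ := exists_subset_bl {x} 0
  have hx := hl (mem_singleton_self x)
  obtain ⟨-, -, a⟩ := tay hu z hx
  obtain ⟨-, -, b⟩ := tay hu' z hx
  rw [Ph_comm, Ph, abs_mul, n2_eq]
  refine (mul_le_mul a b (abs_nonneg _) ((abs_nonneg _).trans a)).trans (le_of_eq ?_)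
  ring


end Crest.Agent.T145.Vb27
end

-- ▼ part T145/VxBc_27

/-!
# Row 145, twisted module: the centred inputs of Lemma B (helper27)
-/

set_option autoImplicit false

namespace Crest.Agent.T145.Vb27

open Finset Filter Pot Nc FlF4

/-- sup norm -/
def sn (x : Pt) : ℕ := max x.1.natAbs x.2.natAbs

theorem mem_bl_sn {z x : Pt} {r : ℕ} : x ∈ bl z r ↔ sn (x - z) ≤ r := by
  rw [mem_bl, sn]; simp only [Prod.fst_sub, Prod.snd_sub]; omega

theorem sn_neg (x : Pt) : sn (-x) = sn x := by simp [sn]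

theorem sn_comm (x y : Pt) : sn (x - y) = sn (y - x) := by rw [← sn_neg, neg_sub]

theorem sn_tri (x y z : Pt) : sn (x - z) ≤ sn (x - y) + sn (y - z) := by
  simp only [sn, Prod.fst_sub, Prod.snd_sub]; omega

theorem eu_le_sn (x : Pt) : eu x ≤ 2 * sn x := by
  simpa using eu_le_of_bl (z := 0) (y := x) (r := sn x) (mem_bl_sn.2 (by simp))

theorem sn_le_eu (x : Pt) : (sn x : ℝ) ≤ eu x := by
  have a := abs_fst_le_eu x
  have b := abs_snd_le_eu x
  rw [sn, Nat.cast_max, Nat.cast_natAbs, Nat.cast_natAbs]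
  push_cast
  exact max_le a b

theorem disj_bl {z w : Pt} {c c' : ℕ} (h : c + c' < sn (w - z)) : Disjoint (bl z c) (bl w c') :=
  disjoint_left.2 fun x h1 h2 => by
    rw [mem_bl_sn] at h1 h2
    have := sn_tri w x z
    rw [sn_comm w x] at this
    omega

theorem bl_sub {z w : Pt} {c c' : ℕ} (h : c + sn (z - w) ≤ c') : bl z c ⊆ bl w c' :=
  bl_subset_bl (mem_bl_sn.2 le_rfl) h

/-- the centred input -/
structure Ci (Λ : Lat) (W : ℕ) (C c : ℝ) : Prop where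
  ok : Λ.Ok
  rg : 2 * Λ.rg + 2 ≤ W
  C1 : 1 ≤ C
  c0 : 0 < c
  gam : ∀ r R, W ≤ r → W * r ≤ R → gam Λ r R ≤ 2
  f1 : ∀ z r R, W ≤ r → W * r ≤ R → nu Λ z r R (Jz z) ≤ C / ((r : ℝ) ^ 2 * Real.log r)
  dec : ∀ (r a R : ℕ) (z : Pt) (X : Cfg Pt → ℝ), 1 ≤ r → W * r ≤ a → W * a ≤ R → DepG (bl z r) X →
    In Λ z a X → ∀ m : Mdl Pt, Amb Λ m (bl z (R + Λ.rg)) →
      (∀ R', R + Λ.rg ≤ R' →
        Nm Λ z R' (fun s => St Λ z R X s - Ex (m.W 0) X) ≤ W * ((a : ℝ) / R) ^ c * Nm Λ z a X) ∧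
      ∀ (q : ℕ) (G : Cfg Pt → ℝ), W * a ≤ q → W * q ≤ R → Out (bl z R) G →
        Ig ((hole m (bl z q)).W 0) G → |Cv (m.W 0) X G| ≤ W * ((a : ℝ) / q) ^ c * Nm Λ z a X *
          Ex ((hole m (bl z q)).W 0) fun s => |G s|


theorem f2_up {ed ed' : Finset (Pt × Pt)} {f : Pt → ℝ} {n : ℝ} (hs : ed ⊆ ed') (h : F2 ed f n) :
    F2 ed' f n := by
  classical
  obtain ⟨φ, h1, h2⟩ := h
  refine ⟨fun e => if e ∈ ed then φ e else 0, ?_, ?_⟩
  · rw [h1]; funext x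
    simp only [dv]
    rw [← sum_subset hs fun e _ he => by simp [he]]
    exact sum_congr rfl fun e he => by simp [he]
  · rw [← sum_subset hs fun e _ he => by simp [he]]
    exact (le_of_eq (sum_congr rfl fun e he => by simp [he])).trans h2

theorem f2_J {Λ : Lat} (h : Λ.Ok) {z : Pt} {D : Finset Pt} (hD : bl z 1 ⊆ D) :
    F2 (Λ.edI D) (A0 (dl z)) (5 ^ 2) := by
  refine f2_up (Lat.edI_mono hD) (RJ57.f2_mono (Xi.f2_A0_bl h (z := z) (b := 0) (c := 0) (K := 1)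
    (fun x hx => ?_) fun y _ x _ => ?_) (by norm_num))
  · rw [Xi.dl_apply, if_neg]; rintro rfl; exact hx (self_mem_bl _ _)
  · simp only [dif, Xi.dl_apply]; split_ifs <;> simp

theorem bd_JJ {Λ : Lat} (h : Λ.Ok) {z w : Pt} {D : Finset Pt} (hz : bl z 1 ⊆ D) (hw : bl w 1 ⊆ D) :
    Bd Λ D (fun s => |Jz z s * Jz w s|) (cB Λ.τ 2 * 25) := by
  have := bd_pow₂ h (by norm_num) (f2_J h hz) (by norm_num) (f2_J h hw) 1 1
  refine (this.congr fun s => ?_).le (le_of_eq (by norm_num))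
  rw [pow_one, pow_one, abs_mul, Xi.Jz_eq_pr, Xi.Jz_eq_pr]

theorem one_le_log {q : ℕ} (h : 4 ≤ q) : 1 ≤ Real.log q := by
  have : (4 : ℝ) ≤ q := by exact_mod_cast h
  rw [Real.le_log_iff_exp_le (by linarith)]
  linarith [Real.exp_one_lt_d9]

namespace Ci
variable {Λ : Lat} {W : ℕ} {C c : ℝ} (h : Ci Λ W C c)
include h

theorem four : 4 ≤ W := by have := h.ok.one_le_rg; have := h.rg; omega

theorem ir {z : Pt} {q R : ℕ} (hq : W ≤ q) (hR : W * q ≤ R) : Ir Λ z q q R (Jz z) := by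
  have := h.rg
  have := h.ok.one_le_rg
  have : 2 * q ≤ W * q := Nat.mul_le_mul_right _ (by omega)
  exact ⟨le_rfl, by omega, (Om.depG_Jz z).mono (bl_mono z (by omega)), In_tame h.ok _ _ (Om.tame_Jz z)⟩

theorem f1' {z : Pt} {q R : ℕ} (hq : W ≤ q) (hR : W * q ≤ R) : nu Λ z q R (Jz z) ≤ C / (q : ℝ) ^ 2 := by
  have h4 := h.four
  have hl := one_le_log (h4.trans hq)
  have hq0 : (0 : ℝ) < q := by exact_mod_cast (by omega : 0 < q)
  refine (h.f1 z q R hq hR).trans (div_le_div_of_nonneg_left (by linarith [h.C1]) (by positivity) ?_)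
  nlinarith [sq_nonneg (q : ℝ)]

/-- the norm of `J_z J_w` -/
theorem jj : ∃ C' : ℝ, 0 ≤ C' ∧ ∀ (z x : Pt) (Q R : ℕ), 2 * sn x + 1 ≤ Q → Q + Λ.rg ≤ R →
    In Λ z R (fun s => Jz z s * Jz (z + x) s) ∧
      nu Λ z Q R (fun s => Jz z s * Jz (z + x) s) ≤ C' / ((sn x : ℝ) + 1) ^ 4 := by
  have h4 := h.four
  have hC := h.C1
  have hb := cB_pos Λ.τ 2
  refine ⟨cB Λ.τ 2 * 25 * (4 * W ^ 2 + 1) ^ 4 + 4 * C ^ 2 * (8 * W) ^ 4, by positivity,
    fun z x Q R hQ hR => ⟨In_tame h.ok _ _ ((Om.tame_Jz _).mul (Om.tame_Jz _)), ?_⟩⟩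
  have e : z + x - z = x := add_sub_cancel_left z x
  rw [le_div_iff₀ (by positivity)]
  by_cases hn : sn x ≤ 4 * W ^ 2
  · have s1 : bl z 1 ⊆ bl z R := bl_mono z (by omega)
    have s2 : bl (z + x) 1 ⊆ bl z R := bl_sub (by rw [e]; omega)
    have a := (m2_nu h.ok hR subset_rfl ((Om.depG_JJ z (z + x)).mono (union_subset s1 s2))
      (bd_JJ h.ok s1 s2) fun _ => le_rfl).2
    have b : ((sn x : ℝ) + 1) ^ 4 ≤ (4 * W ^ 2 + 1) ^ 4 :=
      pow_le_pow_left₀ (by positivity) (by exact_mod_cast Nat.succ_le_succ hn) 4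
    have := mul_le_mul a b (by positivity) (by positivity)
    have : 0 ≤ 4 * C ^ 2 * (8 * (W : ℝ)) ^ 4 := by positivity
    linarith
  · set q := (sn x - 1) / (2 * W)
    have q1 : 2 * W * q ≤ sn x - 1 := Nat.mul_div_le _ _
    have q2 : sn x - 1 < 2 * W * (q + 1) := Nat.lt_mul_div_succ _ (by omega)
    have q3 : W ≤ q := by
      by_contra hq
      have : 2 * W * (q + 1) ≤ 2 * W * W := Nat.mul_le_mul_left _ (by omega)
      have : 2 * W * W = 2 * W ^ 2 := by ring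
      omega
    have q5 : q ≤ W * q := Nat.le_mul_of_pos_left _ (by omega)
    have q6 : 2 * (W * q) = 2 * W * q := by ring
    have q4 : sn x + 1 ≤ 8 * W * q := by
      have : W * 1 ≤ W * q := Nat.mul_le_mul_left _ (by omega)
      have : 2 * W * (q + 1) = 2 * (W * q) + 2 * W := by ring
      have : 8 * W * q = 8 * (W * q) := by ring
      omega
    have a := (fus_nu (Λ := Λ) (Z := fun _ => 1) (univ : Finset Bool)
      (z := fun b => cond b z (z + x)) (q := fun _ => q) (r := fun _ => q) (c := fun _ => W * q)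
      (F := fun b => cond b (Jz z) (Jz (z + x))) h.ok (y := z) (P := Q) hR hR (DepG.const _ _)
      (fun i _ j _ hij => by
        have d : Disjoint (bl z (W * q)) (bl (z + x) (W * q)) := disj_bl (by rw [e]; omega)
        cases i <;> cases j
        exacts [absurd rfl hij, d.symm, d, absurd rfl hij])
      (fun i _ => by
        cases i
        exacts [⟨h.ir q3 le_rfl, bl_sub (by rw [cond_false, e]; omega),
          bl_sub (by rw [cond_false, e]; omega), Out.const _ _⟩,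
          ⟨h.ir q3 le_rfl, bl_mono z (by omega), bl_mono z (by omega), Out.const _ _⟩])
      (K := 1) fun _ => by simp).2
    simp only [Fintype.univ_bool, mem_singleton, Bool.true_eq_false, not_false_eq_true, prod_insert,
      cond_true, prod_singleton, cond_false, one_mul] at a
    have g := h.gam q _ q3 le_rfl
    have n1 := h.f1' (z := z) q3 le_rfl
    have n2 := h.f1' (z := z + x) q3 le_rfl
    have p1 := nu_nonneg h.ok z q (W * q) (Jz z)
    have p2 := nu_nonneg h.ok (z + x) q (W * q) (Jz (z + x))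
    have hq0 : (0 : ℝ) < q := by exact_mod_cast (by omega : 0 < q)
    have b : ((sn x : ℝ) + 1) ^ 4 ≤ (8 * W * q) ^ 4 :=
      pow_le_pow_left₀ (by positivity) (by exact_mod_cast q4) 4
    have a2 : nu Λ z Q R (fun s => Jz z s * Jz (z + x) s) ≤ 2 * (C / q ^ 2) * (2 * (C / q ^ 2)) :=
      a.trans (mul_le_mul (mul_le_mul g n1 p1 (by norm_num)) (mul_le_mul g n2 p2 (by norm_num))
        (mul_nonneg (zero_le_one.trans (one_le_gam h.ok (h.ir (z := z) q3 le_rfl).rc)) p2)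
        (by positivity))
    have := mul_le_mul a2 b (by positivity) (by positivity)
    have e2 : 2 * (C / q ^ 2) * (2 * (C / q ^ 2)) * (8 * (W : ℝ) * q) ^ 4 = 4 * C ^ 2 * (8 * W) ^ 4 := by
      field_simp; ring
    have : 0 ≤ cB Λ.τ 2 * 25 * (4 * (W : ℝ) ^ 2 + 1) ^ 4 := by positivity
    linarith

end Ci

/-- the centred kernel -/
noncomputable def kk (Λ : Lat) (R : ℕ) (x : Pt) : ℝ :=
  Ex ((Λ.D (bl 0 R)).W 0) fun s => Jz 0 s * Jz x s

theorem gJ_kk (Λ : Lat) (R l : ℕ) :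
    gJ ((Λ.D (bl 0 R)).W 0) 0 l = -(1 / 4) * ∑ x ∈ bl 0 l, kk Λ R x * n2 x := by
  simp only [gJ, kk, zero_add]

theorem kk_swap {Λ : Lat} (h : Λ.Ok) (R : ℕ) (x : Pt) : kk Λ R x.swap = kk Λ R x := by
  have e : x.swap = swpZ 0 x := by ext <;> simp [swpZ]
  rw [kk, (Om.sym_swp h 0).ex_D0 h (Om.map_bl_swp 0 R), kk]
  simp only [e, Om.Jz_swp, (Om.d4_Jz 0 _).2]

theorem kk_rot {Λ : Lat} (h : Λ.Ok) (R : ℕ) (x : Pt) : kk Λ R (-x.2, x.1) = kk Λ R x := by
  have e : ((-x.2, x.1) : Pt) = rotZ 0 x := by ext <;> simp [rotZ]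
  rw [kk, (Om.sym_rot h 0).ex_D0 h (Om.map_bl_rot 0 R), kk]
  simp only [e, Om.Jz_rot, (Om.d4_Jz 0 _).1]

theorem kk_neg {Λ : Lat} (h : Λ.Ok) (R : ℕ) (x : Pt) : kk Λ R (-x.1, x.2) = kk Λ R x := by
  rw [← kk_swap h R x]; exact kk_rot h R x.swap

theorem kk_trl {Λ : Lat} (h : Λ.Ok) (R : ℕ) (z x : Pt) :
    Ex ((Λ.D (bl z R)).W 0) (fun s => Jz z s * Jz (z + x) s) = kk Λ R x := by
  have := (Om.sym_sub Λ z).ex_D0 h (Om.map_bl_sub z z R) fun s => Jz 0 s * Jz x s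
  rw [sub_self] at this
  rw [kk, this]
  have a := Om.trl_Jz z 0
  have b := Om.trl_Jz z x
  rw [zero_add] at a
  rw [add_comm] at b
  rw [← a, ← b]; rfl

namespace Ci
variable {Λ : Lat} {W : ℕ} {C c : ℝ} (h : Ci Λ W C c)
include h

/-- size of the kernel; distance of the flowed `J_z J_w` from it -/
theorem ker : ∃ C' : ℝ, 0 ≤ C' ∧ ∀ (x : Pt) (R₀ : ℕ),
    (W * (2 * sn x + 1 + W) ≤ R₀ → |kk Λ R₀ x| ≤ C' / ((sn x : ℝ) + 1) ^ 4) ∧
    ∀ (z : Pt) (a R R' : ℕ), W * (2 * sn x + 1 + Λ.rg) ≤ a → W * a ≤ R → R + Λ.rg ≤ R₀ → R + Λ.rg ≤ R' →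
      nu Λ z R R' (fun s => Jz z s * Jz (z + x) s - kk Λ R₀ x) ≤
        C' * ((a : ℝ) / R) ^ c / ((sn x : ℝ) + 1) ^ 4 := by
  obtain ⟨C', h0, hj⟩ := h.jj
  have h4 := h.four
  have hg := h.rg
  have g1 := h.ok.one_le_rg
  have w1 : (2 : ℝ) ≤ W := by exact_mod_cast (by omega : 2 ≤ W)
  have dep : ∀ (z x : Pt) {p : ℕ}, sn x + 1 ≤ p → DepG (bl z p) fun s => Jz z s * Jz (z + x) s :=
    fun z x p hp => (Om.depG_JJ z (z + x)).mono (union_subset (bl_mono z (by omega))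
      (bl_sub (by rw [add_sub_cancel_left]; omega)))
  refine ⟨W * C', by positivity, fun x R₀ => ⟨fun hR => ?_, fun z a R R' ha hR h1 h2 => ?_⟩⟩
  · set Q := 2 * sn x + 1 + W
    have q2 : 2 * Q ≤ W * Q := Nat.mul_le_mul_right _ (by omega)
    obtain ⟨j1, j2⟩ := hj 0 x Q (W * Q) (by omega) (by omega)
    have hm := L37.amb_D h.ok (bl 0 R₀)
    have a := (fus0 h.ok subset_rfl ⟨le_rfl, by omega, dep 0 x (by omega), j1⟩
      (amb_mono hm (bl_mono 0 hR)) (bl_mono 0 (by omega : Q ≤ R₀))).2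
    rw [nc_self hm.ctr hm.anch, kk_trl h.ok] at a
    refine a.trans ((mul_le_mul ((h.gam Q _ (by omega) le_rfl).trans w1) j2 (nu_nonneg h.ok _ _ _ _)
      (by positivity)).trans (le_of_eq (by ring)))
  · set Q := 2 * sn x + 1
    have q2 : 4 * (Q + Λ.rg) ≤ W * (Q + Λ.rg) := Nat.mul_le_mul_right _ (by omega)
    have q3 : 2 * a ≤ W * a := Nat.mul_le_mul_right _ (by omega)
    obtain ⟨j1, j2⟩ := hj z x Q a le_rfl (by omega)
    have tm := (Om.tame_Jz z).mul (Om.tame_Jz (z + x))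
    have hm := L37.amb_D h.ok (bl z R₀)
    have dX := depG_St h.ok (dep z x (p := Q + Λ.rg) (by omega)) le_rfl
    have iX := In_St h.ok (q := Q) (dep z x (p := a) (by omega)) (by omega) j1
    have a1 := (h.dec (Q + Λ.rg) a R z _ (by omega) ha hR dX iX _ (amb_mono hm (bl_mono z h1))).1 R' h2
    have hQ : Amb Λ (Λ.D (bl z R₀)) (bl z Q) := amb_mono hm (bl_mono z (by omega))
    have e1 : Ex ((Λ.D (bl z R₀)).W 0) (St Λ z Q fun s => Jz z s * Jz (z + x) s) = kk Λ R₀ x := by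
      rw [St_cE h.ok hQ, ex_cE hm.ctr hm.anch hQ.sub (ig_tame hm.ctr hm.anch tm), kk_trl h.ok]
    have tm' := tm.sub (Tame.const (kk Λ R₀ x))
    rw [← nu_St h.ok h2 (by omega : Q ≤ R) ((dep z x (by omega)).sub (DepG.const _ _))
      (In_tame h.ok _ _ tm'), St_sub h.ok tm (Tame.const _), St_const h.ok]
    have ig := ((ld1 Λ h.ok).2 z Q a R _ (by omega) (by omega) dX iX).2.1
    have e2 : St Λ z R (fun s => St Λ z Q (fun s => Jz z s * Jz (z + x) s) s - kk Λ R₀ x) =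
        fun s => St Λ z R (St Λ z Q fun s => Jz z s * Jz (z + x) s) s - kk Λ R₀ x :=
      funext fun s => (h.ok.wt_D _ s).ex_sub_const (ig s) _
    rw [nu, e2]
    rw [e1] at a1
    refine a1.trans ((mul_le_mul_of_nonneg_left j2 (by positivity)).trans (le_of_eq (by ring)))

end Ci

end Crest.Agent.T145.Vb27
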