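import Crest.Agent.T145.Def2_97
import Crest.Agent.T145.GeoB_51
import Crest.Agent.T145.GffDef_8

/-!
# Row 145, design N: the shared vocabulary of the insertion calculus (helper97)

Every module (Nc, Kr/Sec, Mx, Fl, Tw, Top) states its interface Props with these words.
`σ` is a seam (`σ = 0`: centred sector).  Balls are the squares `bl z r`.
-/

set_option autoImplicit false

namespace Crest.Agent.T145

open Finset

/-- gauge invariant gradient `∇_e s + σ_e` -/
def nE (σ : Pt × Pt → ℤ) (e : Pt × Pt) (s : Cfg Pt) : ℤ := dE e s + σ e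

/-- an insertion at `z` of radius `r`: shift invariant, read on `bl z r`, exponential growth -/
def Ins (z : Pt) (r : ℕ) (F : Cfg Pt → ℝ) : Prop := DepG (bl z r) F ∧ Tame F

/-- odd / even under `s ↦ -s` -/
def OddF (F : Cfg Pt → ℝ) : Prop := ∀ s, F (-s) = -F s
def EvenF (F : Cfg Pt → ℝ) : Prop := ∀ s, F (-s) = F s

/-- the quarter turn and the diagonal reflection about `z` -/
def rotZ (z : Pt) : Pt ≃ Pt where
  toFun x := (z.1 - (x.2 - z.2), z.2 + (x.1 - z.1))
  invFun x := (z.1 + (x.2 - z.2), z.2 - (x.1 - z.1))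
  left_inv x := by ext <;> simp
  right_inv x := by ext <;> simp

def swpZ (z : Pt) : Pt ≃ Pt where
  toFun x := (z.1 + (x.2 - z.2), z.2 + (x.1 - z.1))
  invFun x := (z.1 + (x.2 - z.2), z.2 + (x.1 - z.1))
  left_inv x := by ext <;> simp
  right_inv x := by ext <;> simp

/-- invariant under the symmetries of the square about `z` -/
def D4 (z : Pt) (F : Cfg Pt → ℝ) : Prop :=
  ∀ s, F (mapH (rotZ z) s) = F s ∧ F (mapH (swpZ z) s) = F s

/-- the translate of `F` by `z` (an insertion at `0` becomes one at `z`) -/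
noncomputable def trl (z : Pt) (F : Cfg Pt → ℝ) : Cfg Pt → ℝ :=
  fun s => F (mapH (Equiv.subRight z) s)

/-- `J_z = (A₀ s)_z`, `A₀` = minus the nearest neighbour Laplacian -/
def Jz (z : Pt) (s : Cfg Pt) : ℝ :=
  4 * (s z : ℝ) - s (z + (1, 0)) - s (z + (-1, 0)) - s (z + (0, 1)) - s (z + (0, -1))

/-- `A₀ u` -/
def A0 (u : Pt → ℝ) (z : Pt) : ℝ :=
  4 * u z - u (z + (1, 0)) - u (z + (-1, 0)) - u (z + (0, 1)) - u (z + (0, -1))

namespace Lat
variable (Λ : Lat)

/-- expectation in the free box `bl z R` (sector `σ`) -/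
noncomputable def exN (σ : Pt × Pt → ℤ) (z : Pt) (R : ℕ) (F : Cfg Pt → ℝ) : ℝ :=
  Ex ((Λ.Nr (bl z R) z).Ws 0 σ) F

/-- the norm: `L¹` in the free box `bl z R` (sector `σ`) -/
noncomputable def nrm (σ : Pt × Pt → ℤ) (z : Pt) (R : ℕ) (F : Cfg Pt → ℝ) : ℝ :=
  Λ.exN σ z R fun s => |F s|

/-- the transfer operator: conditional expectation given the heights off `bl z r` (sector `σ`);
it maps `Ins z (r + rg)` to itself -/
noncomputable def tr (σ : Pt × Pt → ℤ) (z : Pt) (r : ℕ) (F : Cfg Pt → ℝ) : Cfg Pt → ℝ :=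
  fun s => Ex ((Λ.D (bl z r)).Ws s σ) F


/-- expectation on the torus of side `n` (translation invariant on shift invariant observables) -/
noncomputable def exT (n : ℕ) (F : Cfg Pt → ℝ) : ℝ := Ex ((Λ.T n).W 0) F

/-- the energy insertion of the edge `e`: `∂_τ log w` -/
noncomputable def en (σ : Pt × Pt → ℤ) (e : Pt × Pt) (s : Cfg Pt) : ℝ :=
  deriv (fun τ => Real.log (kern Λ.xy τ (nE σ e s))) Λ.τ

end Lat

end Crest.Agent.T145
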