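import Crest.Agent.T145.TauC_5
import Crest.Agent.T145.Route_51
import Crest.Agent.T145.Sc_97
import Crest.Agent.T145.NcDef_78

-- ▼ part T145/TauD_5
section

/-!
# Row 145: integrated non-degeneracy in the edge length (helper5)
-/

set_option autoImplicit false

namespace Crest.Agent.T145.Tau5

open Finset Filter Topology

section mdl
variable {V : Type} [DecidableEq V] {m : Mdl V} {τ τ' : ℝ} {xy : Bool}

theorem deriv_vr_nonneg (hc : m.Ctr) (hA : m.Anch) (hτ : 0 < τ) (X : Cfg V →+ ℝ) :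
    0 ≤ Cv ((m.len xy τ).W 0) (fun s => X s * X s) (m.en xy τ 0) :=
  le_trans (div_nonneg (sum_nonneg fun _ _ => sq_nonneg _) (sq_nonneg _)) (nondeg hc hA hτ X)

theorem vr_len_mono (hc : m.Ctr) (hA : m.Anch) (X : Cfg V →+ ℝ) :
    MonotoneOn (fun t => Vr ((m.len xy t).W 0) X X) (Set.Ioi 0) :=
  monotoneOn_of_hasDerivWithinAt_nonneg (convex_Ioi 0)
    (fun _ ht => (ctr_hasDerivAt_Vr hc hA ht X X).continuousAt.continuousWithinAt)
    (fun _ ht => (ctr_hasDerivAt_Vr hc hA (interior_subset ht) X X).hasDerivWithinAt)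
    fun _ ht => deriv_vr_nonneg hc hA (interior_subset ht) X

/-- integrated non-degeneracy: `V(τ') - V(τ) ≥ V(τ)² (1/τ - 1/τ') / ∑ g²` for `X = ∑ g_e ∇_e` -/
theorem vr_sub_ge (hc : m.Ctr) (hA : m.Anch) (hτ : 0 < τ) (h : τ ≤ τ') {T : Finset (V × V)}
    (hT : T ⊆ m.ed) (g : V × V → ℝ) {X : Cfg V →+ ℝ} (hX : X = ∑ e ∈ T, g e • dR e) {n : ℝ}
    (hn : 0 < n) (hg : ∑ e ∈ T, g e ^ 2 ≤ n) :
    Vr ((m.len xy τ).W 0) X X ^ 2 / n * (τ⁻¹ - τ'⁻¹) ≤
      Vr ((m.len xy τ').W 0) X X - Vr ((m.len xy τ).W 0) X X := by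
  set c := Vr ((m.len xy τ).W 0) X X ^ 2 / n with hc0
  have hd : ∀ t ∈ Set.Ici τ, HasDerivAt (fun t => Vr ((m.len xy t).W 0) X X + c * t⁻¹)
      (Cv ((m.len xy t).W 0) (fun s => X s * X s) (m.en xy t 0) + c * -(t ^ 2)⁻¹) t := fun t ht =>
    (ctr_hasDerivAt_Vr hc hA (hτ.trans_le ht) X X).fun_add
      ((hasDerivAt_inv (hτ.trans_le ht).ne').const_mul c)
  have hm := monotoneOn_of_hasDerivWithinAt_nonneg (convex_Ici τ)
    (fun t ht => (hd t ht).continuousAt.continuousWithinAt)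
    (fun t ht => (hd t (interior_subset ht)).hasDerivWithinAt) (fun t ht => by
      have ht' : τ ≤ t := interior_subset ht
      have ht0 := hτ.trans_le ht'
      have h1 := nondeg_flow (xy := xy) hc hA ht0 X hT g
      rw [← hX] at h1
      have h2 := vr_len_mono (xy := xy) hc hA X hτ ht0 ht'
      have hn0 := Md.ctr_cen (len_ctr hc xy hτ) hA
      have h3 := pow_le_pow_left₀ (hn0.wt.Vr_nonneg hn0.se X) h2 2
      have h4 := deriv_vr_nonneg (xy := xy) hc hA ht0 X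
      have h5 := mul_le_mul_of_nonneg_right (mul_le_mul_of_nonneg_left hg (sq_nonneg t)) h4
      rw [mul_neg, ← sub_eq_add_neg, sub_nonneg, hc0, ← div_eq_mul_inv, div_div,
        div_le_iff₀ (by positivity)]
      nlinarith) (Set.self_mem_Ici) h h
  simp only at hm
  linarith

end mdl





end Crest.Agent.T145.Tau5
end

-- ▼ part T145/TauE_5
section

/-!
# Row 145: signs of single-edge energy insertions (one-sided links) (helper5)
-/

set_option autoImplicit false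

namespace Crest.Agent.T145.Tau5

open Finset Filter Topology


section grp
variable {L : Type} [AddCommGroup L] [IsAddTorsionFree L] {ρ : L → ℝ} {xy : Bool} {τ : ℝ}





end grp

section mdl
variable {V : Type} [DecidableEq V] {m : Mdl V} {xy : Bool} {τ : ℝ} {e : V × V}













end mdl

/-- the energy insertion of `Sc_97` is `eps` -/
theorem en_eq {Λ : Lat} (h : Λ.Ok) (σ : Pt × Pt → ℤ) (e : Pt × Pt) (s : Cfg Pt) :
    Λ.en σ e s = eps Λ.xy Λ.τ (nE σ e s) := by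
  have h1 := kern_pos Λ.xy h.2 (nE σ e s)
  rw [Lat.en, ((hasDerivAt_kern Λ.xy h.2 _).log h1.ne').deriv, mul_div_cancel_left₀ _ h1.ne']

theorem en_eq0 {Λ : Lat} (h : Λ.Ok) (e : Pt × Pt) : Λ.en 0 e = fun s => eps Λ.xy Λ.τ (dE e s) :=
  funext fun s => by rw [en_eq h, nE, Pi.zero_apply, add_zero]

theorem men_eq {Λ : Lat} (h : Λ.Ok) (m : Mdl Pt) (σ : Pt × Pt → ℤ) :
    m.en Λ.xy Λ.τ σ = fun s => ∑ e ∈ m.ed, Λ.en σ e s :=
  funext fun s => sum_congr rfl fun e _ => (en_eq h σ e s).symm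

theorem tame_len {Λ : Lat} (h : Λ.Ok) (σ : Pt × Pt → ℤ) (e : Pt × Pt) : Tame (Λ.en σ e) :=
  (tame_eps (tame_d σ e) Λ.xy h.2).congr fun s => (en_eq h σ e s).symm

/-- energy insertion on the torus -/
theorem hasDerivAt_exT {Λ : Lat} (h : Λ.Ok) (n : ℕ) {F : Cfg Pt → ℝ} (hF : Tame F) :
    HasDerivAt (fun t => (Λ.at' t).exT n F)
      (∑ e ∈ (Λ.T n).ed, Cv ((Λ.T n).W 0) F (Λ.en 0 e)) Λ.τ := by
  have h1 := ctr_hasDerivAt (xy := Λ.xy) (h.ctr_T n) (h.anch_T n) 0 h.2 hF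
  have hS := (h.cen_T n).se
  rw [men_eq h, T_len, Cv_comm, Cv_sum_left _ (fun e _ => hS.ig (tame_len h 0 e))
    fun e _ => hS.ig ((tame_len h 0 e).mul hF)] at h1
  exact h1.congr_deriv (sum_congr rfl fun e _ => Cv_comm _ _ _)



end Crest.Agent.T145.Tau5
end

-- ▼ part T145/Om_11

/-!
# Row 145: the torus state (helper11)

`om Λ n F` = expectation on the torus of side `n` of the local observable `F` of `ℤ²` (periodic lift).
It is invariant under all translations, `D4` and `s ↦ -s`, and equals the expectation in the centred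
model `Tb Λ n c`, which is the lattice model around the centre `c`.
-/

set_option autoImplicit false

namespace Crest.Agent.T145.Om

open Finset Filter

/-- reduction modulo `n` -/
def md (n : ℕ) (x : Pt) : Pt := (x.1 % n, x.2 % n)

theorem md_mem {n : ℕ} (hn : 0 < n) (x : Pt) : md n x ∈ sq 0 n := emod_mem_sq0 hn _ _

theorem md_of_mem {n : ℕ} {x : Pt} (hx : x ∈ sq 0 n) : md n x = x := by
  have := mem_sq0.1 hx
  unfold md
  rw [Int.emod_eq_of_lt this.1 this.2.1, Int.emod_eq_of_lt this.2.2.1 this.2.2.2]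


theorem md_add_mul (n : ℕ) (x v : Pt) : md n (x + (n : ℤ) • v) = md n x := by
  simp [md]

theorem md_eq (n : ℕ) (x : Pt) : md n x = x + (n : ℤ) • (-(x.1 / n), -(x.2 / n)) := by
  ext
  · simp only [md, Prod.fst_add, Prod.smul_fst, smul_eq_mul, Int.emod_def]; ring
  · simp only [md, Prod.snd_add, Prod.smul_snd, smul_eq_mul, Int.emod_def]; ring

theorem md_aff (n : ℕ) (L : Pt →+ Pt) (c x : Pt) : md n (L (md n x) + c) = md n (L x + c) := by
  rw [md_eq n x, map_add, map_zsmul, add_right_comm, md_add_mul]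

theorem md_add (n : ℕ) (x v : Pt) : md n (md n x + v) = md n (x + v) :=
  md_aff n (AddMonoidHom.id _) v x

theorem md_inj {n : ℕ} {x y : Pt} (h : md n x = md n y) (h1 : |x.1 - y.1| < n) (h2 : |x.2 - y.2| < n) :
    x = y := by
  simp only [md, Prod.mk.injEq] at h
  have a1 : x.1 - y.1 = 0 := Int.eq_zero_of_abs_lt_dvd
    (Int.emod_emod_of_dvd _ (dvd_refl (n : ℤ)) ▸ (Int.emod_eq_emod_iff_emod_sub_eq_zero.1 h.1) |>
      Int.dvd_of_emod_eq_zero) h1
  have a2 : x.2 - y.2 = 0 := Int.eq_zero_of_abs_lt_dvd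
    (Int.dvd_of_emod_eq_zero (Int.emod_eq_emod_iff_emod_sub_eq_zero.1 h.2)) h2
  ext <;> omega

/-- pull-back along `φ`, restricted to the window `S` -/
noncomputable def pb (φ : Pt → Pt) (S : Finset Pt) : Cfg Pt →+ Cfg Pt :=
  ∑ x ∈ S, (Finsupp.singleAddHom x).comp (Finsupp.applyAddHom (φ x))

theorem pb_apply (φ : Pt → Pt) (S : Finset Pt) (s : Cfg Pt) (x : Pt) :
    pb φ S s x = if x ∈ S then s (φ x) else 0 := by
  simp [pb, Finsupp.finsetSum_apply, Finsupp.single_apply]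

theorem pb_of_mem (φ : Pt → Pt) {S : Finset Pt} (s : Cfg Pt) {x : Pt} (hx : x ∈ S) :
    pb φ S s x = s (φ x) := by rw [pb_apply, if_pos hx]

/-- the periodic lift on the window `S` -/
noncomputable def lf (n : ℕ) (S : Finset Pt) : Cfg Pt →+ Cfg Pt := pb (md n) S

theorem lf_of_mem (n : ℕ) {S : Finset Pt} (s : Cfg Pt) {x : Pt} (hx : x ∈ S) :
    lf n S s x = s (md n x) := pb_of_mem _ s hx

theorem dep_lf {β : Type*} {S S' : Finset Pt} {F : Cfg Pt → β} (hF : Dep S F) (h : S ⊆ S') (n : ℕ)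
    (s : Cfg Pt) : F (lf n S' s) = F (lf n S s) :=
  hF _ _ fun _ hx => by rw [lf_of_mem n s hx, lf_of_mem n s (h hx)]

/-- the torus state -/
noncomputable def om (Λ : Lat) (n : ℕ) (F : Cfg Pt → ℝ) : ℝ :=
  limUnder atTop fun R : ℕ => Λ.exT n fun s => F (lf n (bl 0 R) s)

/-- local and integrable for the torus state -/
def Og (Λ : Lat) (n : ℕ) (F : Cfg Pt → ℝ) : Prop :=
  ∃ S, DepG S F ∧ Ig ((Λ.T n).W 0) fun s => F (lf n S s)

/-- covariance in the torus state -/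
noncomputable def ocv (Λ : Lat) (n : ℕ) (F G : Cfg Pt → ℝ) : ℝ :=
  om Λ n (fun s => F s * G s) - om Λ n F * om Λ n G

variable {Λ : Lat} {n : ℕ} {F G : Cfg Pt → ℝ} {S : Finset Pt}

theorem om_eq (hF : Dep S F) : om Λ n F = Ex ((Λ.T n).W 0) fun s => F (lf n S s) := by
  obtain ⟨R, hR⟩ := exists_subset_bl S 0
  refine Tendsto.limUnder_eq (tendsto_const_nhds.congr' ?_)
  filter_upwards [eventually_ge_atTop R] with R' hR'
  simp only [Lat.exT, dep_lf hF (hR.trans (bl_mono 0 hR'))]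

theorem Og.ig (h : Og Λ n F) (hF : Dep S F) : Ig ((Λ.T n).W 0) fun s => F (lf n S s) := by
  obtain ⟨S', h1, h2⟩ := h
  have : (fun s => F (lf n S s)) = fun s => F (lf n S' s) := funext fun s => by
    rw [← dep_lf hF subset_union_left (S' := S ∪ S'), dep_lf h1.dep subset_union_right]
  rwa [this]

theorem Og.two (h : Og Λ n F) (h' : Og Λ n G) : ∃ S, DepG S F ∧ DepG S G ∧
    Ig ((Λ.T n).W 0) (fun s => F (lf n S s)) ∧ Ig ((Λ.T n).W 0) fun s => G (lf n S s) := by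
  obtain ⟨S, h1, -⟩ := id h
  obtain ⟨S', h2, -⟩ := id h'
  have a := h1.mono (subset_union_left (s₂ := S'))
  have b := h2.mono (subset_union_right (s₁ := S))
  exact ⟨_, a, b, h.ig a.dep, h'.ig b.dep⟩

theorem W_nonneg (hΛ : Λ.Ok) (n : ℕ) (s : Cfg Pt) : 0 ≤ (Λ.T n).W 0 s := (hΛ.cen_T n).wt.nonneg s

theorem og_tame (hΛ : Λ.Ok) (hF : DepG S F) (hT : Tame F) : Og Λ n F :=
  ⟨S, hF, (hΛ.cen_T n).ig (hT.comp (lf n S))⟩

theorem og_ins (hΛ : Λ.Ok) {z : Pt} {r : ℕ} (h : Ins z r F) : Og Λ n F := og_tame hΛ h.1 h.2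

theorem og_bdd (hΛ : Λ.Ok) (hF : DepG S F) {C : ℝ} (h : ∀ s, |F s| ≤ C) : Og Λ n F :=
  og_tame hΛ hF (Tame.bdd h)

theorem og_const (hΛ : Λ.Ok) (c : ℝ) : Og Λ n fun _ => c :=
  og_tame hΛ (DepG.const ∅ c) (Tame.const c)

theorem Og.add (h : Og Λ n F) (h' : Og Λ n G) : Og Λ n fun s => F s + G s := by
  obtain ⟨S, a, b, c, d⟩ := h.two h'
  exact ⟨S, a.add b, c.add d⟩

theorem Og.sub (h : Og Λ n F) (h' : Og Λ n G) : Og Λ n fun s => F s - G s := by
  obtain ⟨S, a, b, c, d⟩ := h.two h'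
  exact ⟨S, a.sub b, c.sub d⟩

theorem Og.const_mul (h : Og Λ n F) (c : ℝ) : Og Λ n fun s => c * F s := by
  obtain ⟨S, a, b⟩ := h
  exact ⟨S, a.comp (c * ·), b.const_mul c⟩

theorem Og.neg (h : Og Λ n F) : Og Λ n fun s => -F s := by
  obtain ⟨S, a, b⟩ := h
  exact ⟨S, a.comp (- ·), b.neg⟩

theorem Og.abs (hΛ : Λ.Ok) (h : Og Λ n F) : Og Λ n fun s => |F s| := by
  obtain ⟨S, a, b⟩ := h
  exact ⟨S, a.comp (|·|), b.abs (W_nonneg hΛ n)⟩

theorem Og.sum (hΛ : Λ.Ok) {ι : Type*} (T : Finset ι) {F : ι → Cfg Pt → ℝ}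
    (h : ∀ i ∈ T, Og Λ n (F i)) : Og Λ n fun s => ∑ i ∈ T, F i s := by
  classical
  induction T using Finset.induction_on with
  | empty => simpa using og_const hΛ 0
  | insert i T hi ih =>
    simp only [sum_insert hi]
    exact (h i (mem_insert_self _ _)).add (ih fun j hj => h j (mem_insert_of_mem hj))

theorem Og.of_abs_le (hΛ : Λ.Ok) (hG : Og Λ n G) (hF : DepG S F) (h : ∀ s, |F s| ≤ G s) :
    Og Λ n F := by
  obtain ⟨S', a, -⟩ := id hG
  have b := a.mono (subset_union_right (s₁ := S))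
  exact ⟨S ∪ S', hF.mono subset_union_left,
    Ig.of_abs_le (W_nonneg hΛ n) (hG.ig b.dep) fun s _ => h _⟩

theorem Og.mul_bdd (hΛ : Λ.Ok) (h : Og Λ n F) (hG : DepG S G) {C : ℝ} (hC : ∀ s, |G s| ≤ C) :
    Og Λ n fun s => F s * G s := by
  obtain ⟨S', a, b, c, -⟩ := h.two (og_bdd hΛ hG hC)
  exact ⟨S', a.mul b, c.mul_bdd (W_nonneg hΛ n) fun s => hC _⟩

theorem om_add (h : Og Λ n F) (h' : Og Λ n G) :
    om Λ n (fun s => F s + G s) = om Λ n F + om Λ n G := by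
  obtain ⟨S, a, b, c, d⟩ := h.two h'
  rw [om_eq (a.add b).dep, om_eq a.dep, om_eq b.dep, Ex_add c d]

theorem om_sub (h : Og Λ n F) (h' : Og Λ n G) :
    om Λ n (fun s => F s - G s) = om Λ n F - om Λ n G := by
  obtain ⟨S, a, b, c, d⟩ := h.two h'
  rw [om_eq (a.sub b).dep, om_eq a.dep, om_eq b.dep, Ex_sub c d]

theorem om_const_mul (hF : Dep S F) (c : ℝ) : om Λ n (fun s => c * F s) = c * om Λ n F := by
  rw [om_eq (hF.comp (c * ·)), om_eq hF, Ex_const_mul]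


theorem om_const (hΛ : Λ.Ok) (c : ℝ) : om Λ n (fun _ => c) = c := by
  rw [om_eq (Dep.const ∅ c), (hΛ.cen_T n).wt.ex_const]

theorem om_sum (hΛ : Λ.Ok) {ι : Type*} (T : Finset ι) {F : ι → Cfg Pt → ℝ}
    (h : ∀ i ∈ T, Og Λ n (F i)) : om Λ n (fun s => ∑ i ∈ T, F i s) = ∑ i ∈ T, om Λ n (F i) := by
  classical
  induction T using Finset.induction_on with
  | empty => simpa using om_const hΛ 0
  | insert i T hi ih =>
    have h' : ∀ j ∈ T, Og Λ n (F j) := fun j hj => h j (mem_insert_of_mem hj)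
    simp only [sum_insert hi]
    rw [om_add (h i (mem_insert_self _ _)) (Og.sum hΛ T h'), ih h']

theorem om_mono (hΛ : Λ.Ok) (h : Og Λ n F) (h' : Og Λ n G) (hle : ∀ s, F s ≤ G s) :
    om Λ n F ≤ om Λ n G := by
  obtain ⟨S, a, b, c, d⟩ := h.two h'
  rw [om_eq a.dep, om_eq b.dep]
  exact Ex_mono (W_nonneg hΛ n) c d fun s => hle _

theorem om_nonneg (hΛ : Λ.Ok) (hF : Dep S F) (h : ∀ s, 0 ≤ F s) : 0 ≤ om Λ n F := by
  rw [om_eq hF]; exact Ex_nonneg (W_nonneg hΛ n) fun s _ => h _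

theorem abs_om_le (hΛ : Λ.Ok) (h : Og Λ n F) : |om Λ n F| ≤ om Λ n fun s => |F s| := by
  obtain ⟨S, a, b⟩ := h
  rw [om_eq a.dep, om_eq (a.comp (|·|)).dep]
  exact abs_Ex_le (W_nonneg hΛ n) b




/-! ## affine symmetries -/

/-- the permutation of the representatives induced by `x ↦ L x + c` -/
noncomputable def tq (n : ℕ) (L : Pt ≃+ Pt) (c : Pt) : Pt ≃ Pt where
  toFun x := if x ∈ sq 0 n then md n (L x + c) else x
  invFun x := if x ∈ sq 0 n then md n (L.symm x + -L.symm c) else x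
  left_inv x := by
    by_cases hx : x ∈ sq 0 n
    · simp only [if_pos hx, if_pos (md_mem (pos_of_mem_sq hx) _)]
      have := md_aff n L.symm.toAddMonoidHom (-L.symm c) (L x + c)
      simp only [AddEquiv.toAddMonoidHom_eq_coe, AddMonoidHom.coe_coe] at this
      rw [this]; simp [md_of_mem hx]
    · simp only [if_neg hx]
  right_inv x := by
    by_cases hx : x ∈ sq 0 n
    · simp only [if_pos hx, if_pos (md_mem (pos_of_mem_sq hx) _)]
      have := md_aff n L.toAddMonoidHom c (L.symm x + -L.symm c)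
      simp only [AddEquiv.toAddMonoidHom_eq_coe, AddMonoidHom.coe_coe] at this
      rw [this]; simp [md_of_mem hx]
    · simp only [if_neg hx]

theorem tq_md (hn : 0 < n) (L : Pt ≃+ Pt) (c x : Pt) : tq n L c (md n x) = md n (L x + c) := by
  have := md_aff n L.toAddMonoidHom c x
  simp only [AddEquiv.toAddMonoidHom_eq_coe, AddMonoidHom.coe_coe] at this
  simp only [tq, Equiv.coe_fn_mk, if_pos (md_mem hn x), this]

theorem tq_mem (L : Pt ≃+ Pt) (c : Pt) {x : Pt} : tq n L c x ∈ sq 0 n ↔ x ∈ sq 0 n := by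
  by_cases hx : x ∈ sq 0 n
  · simp only [tq, Equiv.coe_fn_mk, if_pos hx]
    exact iff_of_true (md_mem (pos_of_mem_sq hx) _) hx
  · simp only [tq, Equiv.coe_fn_mk, if_neg hx]

theorem sum_tq (L : Pt ≃+ Pt) (c : Pt) (f : Pt → ℝ) :
    ∑ x ∈ sq 0 n, f (tq n L c x) = ∑ x ∈ sq 0 n, f x :=
  sum_equiv (tq n L c) (fun _ => (tq_mem L c).symm) fun _ _ => rfl

/-- a sum over the edges of the torus -/
theorem sum_T_ed (hn : 2 * Λ.rg < n) (f : Pt × Pt → ℝ) :
    ∑ e ∈ (Λ.T n).ed, f e = ∑ y ∈ Λ.Jp, ∑ x ∈ sq 0 n, f (x, md n (x + y)) := by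
  rw [← sum_comm, ← sum_product' (f := fun x y => f (x, md n (x + y)))]
  refine sum_image ?_
  rintro ⟨x, y⟩ h ⟨x', y'⟩ h' he
  simp only [coe_product, Set.mem_prod, mem_coe, Prod.mk.injEq] at h h' he
  obtain ⟨rfl, h1, h2⟩ := he
  have a := Lat.le_rg (Lat.mem_Jp.1 h.2).1
  have b := Lat.le_rg (Lat.mem_Jp.1 h'.2).1
  have : x + y = x + y' := md_inj (n := n) (Prod.ext h1 h2)
    (by simp only [Prod.fst_add, abs_lt, abs_le] at *; omega)
    (by simp only [Prod.snd_add, abs_lt, abs_le] at *; omega)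
  rw [add_left_cancel this]

theorem sum_shift (hn : 0 < n) (v : Pt) (f : Pt → ℝ) :
    ∑ x ∈ sq 0 n, f (md n (x + v)) = ∑ x ∈ sq 0 n, f x := by
  rw [← sum_tq (n := n) (AddEquiv.refl _) v f]
  refine sum_congr rfl fun x hx => ?_
  rw [← md_of_mem hx, tq_md hn, md_of_mem hx]; rfl

/-- a sum of an even function of the gradients over the edges of the torus is half the star sum -/
theorem sum_T_even (hΛ : Λ.Ok) (hn : 2 * Λ.rg < n) {g : ℤ → ℝ} (hg : ∀ k, g (-k) = g k) (s : Cfg Pt) :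
    2 * ∑ e ∈ (Λ.T n).ed, g (dE e s) = ∑ y ∈ Λ.J, ∑ x ∈ sq 0 n, g (s (md n (x + y)) - s x) := by
  rw [sum_T_ed hn, hΛ.sum_J, mul_sum]
  refine sum_congr rfl fun y _ => ?_
  rw [← sum_shift (by omega) y fun x => g (s (md n (x + -y)) - s x), two_mul]
  congr 1
  refine sum_congr rfl fun x hx => ?_
  rw [md_add, add_neg_cancel_right, md_of_mem hx, ← hg]
  simp only [dE, neg_sub]

theorem W_tq (hΛ : Λ.Ok) (hn : 2 * Λ.rg < n) (L : Pt ≃+ Pt) (hL : ∀ y, L y ∈ Λ.J ↔ y ∈ Λ.J) (c : Pt)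
    (s : Cfg Pt) : ∏ e ∈ (Λ.T n).ed, Λ.w (dE e (mapH (tq n L c).symm s)) =
      ∏ e ∈ (Λ.T n).ed, Λ.w (dE e s) := by
  have hp : ∀ k, 0 < Λ.w k := fun k => Tau5.kern_pos _ hΛ.pos k
  refine Real.log_injOn_pos (prod_pos fun _ _ => hp _) (prod_pos fun _ _ => hp _) ?_
  rw [Real.log_prod fun _ _ => (hp _).ne', Real.log_prod fun _ _ => (hp _).ne']
  have he : ∀ k, Real.log (Λ.w (-k)) = Real.log (Λ.w k) := fun k => by
    simp only [Lat.w, kern_neg]
  have h1 := sum_T_even hΛ hn (g := fun k => Real.log (Λ.w k)) he (mapH (tq n L c).symm s)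
  have h2 := sum_T_even hΛ hn (g := fun k => Real.log (Λ.w k)) he s
  have : ∑ y ∈ Λ.J, ∑ x ∈ sq 0 n, Real.log (Λ.w (mapH (tq n L c).symm s (md n (x + y)) -
      mapH (tq n L c).symm s x)) =
      ∑ y ∈ Λ.J, ∑ x ∈ sq 0 n, Real.log (Λ.w (s (md n (x + y)) - s x)) := by
    refine sum_equiv L.toEquiv (fun y => (hL y).symm) fun y _ => ?_
    rw [← sum_tq (n := n) L c fun x => Real.log (Λ.w (s (md n (x + L.toEquiv y)) - s x))]
    refine sum_congr rfl fun x hx => ?_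
    simp only [mapH_apply, Equiv.symm_symm, tq_md (by omega : 0 < n)]
    rw [← md_of_mem hx, tq_md (by omega), md_add, md_of_mem hx, map_add, add_right_comm]; rfl
  linarith

theorem ex_tq (hΛ : Λ.Ok) (hn : 2 * Λ.rg < n) (L : Pt ≃+ Pt) (hL : ∀ y, L y ∈ Λ.J ↔ y ∈ Λ.J) (c : Pt)
    (hG : ∀ s h, G (s + cst (sq 0 n) h) = G s) :
    (Ig ((Λ.T n).W 0) (fun s => G (mapH (tq n L c).symm s)) ↔ Ig ((Λ.T n).W 0) G) ∧
      Ex ((Λ.T n).W 0) (fun s => G (mapH (tq n L c).symm s)) = Ex ((Λ.T n).W 0) G := by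
  set θ := tq n L c
  have h0 : (0 : Pt) ∈ sq 0 n := self_mem_sq _ (by omega)
  have hr : θ.symm 0 ∈ sq 0 n := (tq_mem L c).1 (by simpa [θ] using h0)
  have hW : ∀ s, ((Λ.T n).free ((sq 0 n).erase (θ.symm 0))).W 0 (mapH θ.symm s) = (Λ.T n).W 0 s := by
    intro s
    simp only [Mdl.W, Mdl.free, Lat.T, prod_const_one, mul_one]
    congr 1
    · refine ind_congr ⟨fun h x hx => ?_, fun h x hx => ?_⟩
      · have := h (θ.symm x) fun h' => hx (by
          rw [mem_erase] at h' ⊢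
          exact ⟨fun e => h'.1 (by rw [e]), by
            have := (tq_mem L c).2 h'.2; simpa [θ] using this⟩)
        simpa using this
      · have := h (θ x) fun h' => hx (by
          rw [mem_erase] at h' ⊢
          exact ⟨fun e => h'.1 (by rw [e]; simp), (tq_mem L c).1 h'.2⟩)
        simpa using this
    · exact W_tq hΛ hn L hL c s
  have hR := rootStmt Pt (Λ.T n) (sq 0 n) (θ.symm 0) 0 hr h0 (fun _ he => Lat.T_ed_mem he)
    (fun _ _ => rfl) G hG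
  let e : Cfg Pt ≃ Cfg Pt := (Finsupp.domCongr θ.symm).toEquiv
  have a := ig_equiv (W := ((Λ.T n).free ((sq 0 n).erase (θ.symm 0))).W 0) (F := G) e
  have b := Ex_equiv e (((Λ.T n).free ((sq 0 n).erase (θ.symm 0))).W 0) G
  have he : ∀ s, e s = mapH θ.symm s := fun _ => rfl
  simp only [he, hW] at a b
  exact ⟨a.trans hR.2.1, b.trans hR.2.2⟩

theorem depG_mapH {β : Type*} {F : Cfg Pt → β} (hF : DepG S F) (φ : Pt ≃ Pt) :
    DepG (S.map φ.symm.toEmbedding) fun s => F (mapH φ s) :=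
  fun s s' h hs => hF _ _ h fun x hx => by
    simp only [mapH_apply]; exact hs _ (mem_map_of_mem _ hx)

/-- invariance under the affine symmetries of the lattice model -/
theorem om_aff (hΛ : Λ.Ok) (hn : 2 * Λ.rg < n) (L : Pt ≃+ Pt) (hL : ∀ y, L y ∈ Λ.J ↔ y ∈ Λ.J) (c : Pt)
    {φ : Pt ≃ Pt} (hφ : ∀ x, φ.symm x = L x + c) (hF : DepG S F) :
    (Og Λ n (fun s => F (mapH φ s)) ↔ Og Λ n F) ∧ om Λ n (fun s => F (mapH φ s)) = om Λ n F := by
  have h1 := depG_mapH hF φ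
  have key : ∀ s, F (mapH φ (lf n (S.map φ.symm.toEmbedding) s)) =
      F (lf n S (mapH (tq n L c).symm s)) := fun s => hF.dep _ _ fun x hx => by
    have hx' : φ.symm x ∈ S.map φ.symm.toEmbedding := mem_map_of_mem φ.symm.toEmbedding hx
    rw [mapH_apply, lf_of_mem n s hx', lf_of_mem n _ hx, mapH_apply,
      Equiv.symm_symm, tq_md (by omega)]
    exact congrArg (fun y => s (md n y)) (hφ x)
  have h2 := ex_tq hΛ hn L hL c (G := fun s => F (lf n S s)) fun s h =>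
    (hF _ _ h fun x hx => by
      rw [lf_of_mem n _ hx, lf_of_mem n _ hx, Finsupp.add_apply,
        cst_of_mem h (md_mem (by omega) x)]).symm
  refine ⟨⟨fun h => ⟨S, hF, h2.1.1 ?_⟩, fun h => ⟨_, h1, ?_⟩⟩, ?_⟩
  · simpa only [key] using h.ig h1.dep
  · simp only [key]; exact h2.1.2 (h.ig hF.dep)
  · rw [om_eq h1.dep, om_eq hF.dep]; simp only [key]; exact h2.2

theorem om_trl (hΛ : Λ.Ok) (hn : 2 * Λ.rg < n) (hF : DepG S F) (z : Pt) :
    om Λ n (trl z F) = om Λ n F :=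
  (om_aff hΛ hn (AddEquiv.refl _) (fun _ => Iff.rfl) z (fun _ => rfl) hF).2


/-- the quarter turn (inverse of `rotZ 0`) -/
def rotL : Pt ≃+ Pt where
  toFun x := (x.2, -x.1)
  invFun x := (-x.2, x.1)
  left_inv x := by ext <;> simp
  right_inv x := by ext <;> simp
  map_add' x y := by ext <;> simp [add_comm]

theorem om_rot (hΛ : Λ.Ok) (hn : 2 * Λ.rg < n) (hF : DepG S F) (z : Pt) :
    (Og Λ n (fun s => F (mapH (rotZ z) s)) ↔ Og Λ n F) ∧
      om Λ n (fun s => F (mapH (rotZ z) s)) = om Λ n F := by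
  refine om_aff hΛ hn rotL (fun y => ⟨fun h => ?_, fun h => ?_⟩) (z.1 - z.2, z.2 + z.1) (fun x => ?_) hF
  · simpa [rotL] using hΛ.rot h
  · simpa [rotL] using hΛ.neg (hΛ.rot h)
  · ext <;> simp [rotZ, rotL] <;> ring

theorem om_swp (hΛ : Λ.Ok) (hn : 2 * Λ.rg < n) (hF : DepG S F) (z : Pt) :
    (Og Λ n (fun s => F (mapH (swpZ z) s)) ↔ Og Λ n F) ∧
      om Λ n (fun s => F (mapH (swpZ z) s)) = om Λ n F := by
  refine om_aff hΛ hn (AddEquiv.prodComm) (fun y => ⟨fun h => ?_, fun h => ?_⟩) (z.1 - z.2, z.2 - z.1)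
    (fun x => ?_) hF
  · exact hΛ.swap h
  · exact hΛ.swap h
  · ext <;> simp [swpZ] <;> ring

/-! ## the torus as an ambient model -/

/-- the torus on the representatives `sq a n`, pinned at the corner `a` -/
noncomputable def Tc (Λ : Lat) (n : ℕ) (a : Pt) : Mdl Pt :=
  ⟨(sq a n).erase a, (Λ.T n).ed.map ((Equiv.addRight a).prodCongr (Equiv.addRight a)).toEmbedding,
    fun _ => Λ.w, fun _ _ => 1⟩

theorem iso_Tc (Λ : Lat) (n : ℕ) (a : Pt) : (Λ.T n).Iso (Tc Λ n a) (Equiv.addRight a)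
    ((Equiv.addRight a).prodCongr (Equiv.addRight a)) :=
  ⟨by simp only [Tc, Lat.T, map_erase, map_sq_add, zero_add]; simp, rfl, fun _ => Or.inl rfl,
    fun _ _ => rfl, fun _ _ => rfl⟩

theorem mem_Tc_ed {a : Pt} {e : Pt × Pt} : e ∈ (Tc Λ n a).ed ↔ (e.1 - a, e.2 - a) ∈ (Λ.T n).ed := by
  simp only [Tc, mem_map_equiv]
  simp only [sub_eq_add_neg]; rfl

theorem mem_sq_sub {a x : Pt} : x - a ∈ sq 0 n ↔ x ∈ sq a n := by
  simp only [mem_sq, Prod.fst_sub, Prod.snd_sub, Prod.fst_zero, Prod.snd_zero]; omega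

theorem ctr_Tc (hΛ : Λ.Ok) (n : ℕ) (a : Pt) : (Tc Λ n a).Ctr :=
  ctr_of_site_one (fun _ _ => hΛ.fam) rfl

theorem anch_Tc (hΛ : Λ.Ok) (n : ℕ) (a : Pt) : (Tc Λ n a).Anch := by
  intro x hx
  have hx' := (mem_erase.1 hx).2
  refine ⟨a, ?_, Or.inl (notMem_erase _ _)⟩
  refine Conn.mono (ω := Λ.edI (sq a n)) (fun e he => ?_)
    (hΛ.conn_sq hx' (self_mem_sq a (pos_of_mem_sq hx')))
  rw [Lat.mem_edI] at he
  refine mem_Tc_ed.2 (Lat.edI_subset_T n (Lat.mem_edI.2 ⟨?_, mem_sq_sub.2 he.2.1, mem_sq_sub.2 he.2.2⟩))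
  simpa using he.1

theorem cen_Tc (hΛ : Λ.Ok) (n : ℕ) (a : Pt) : Cen ((Tc Λ n a).W 0) :=
  (ctr_Tc hΛ n a).cen (anch_Tc hΛ n a)

theorem amb_Tc (hΛ : Λ.Ok) {a : Pt} {U : Finset Pt} (hU : ∀ x ∈ U, bl x Λ.rg ⊆ sq a n) :
    Nc.Amb Λ (Tc Λ n a) U := by
  have hD : ∀ x ∈ U.image (· - a), bl x Λ.rg ⊆ sq 0 n := by
    intro x hx y hy
    obtain ⟨u, hu, rfl⟩ := mem_image.1 hx
    have := hU u hu (show y + a ∈ bl u Λ.rg by
      simp only [mem_bl, Prod.fst_add, Prod.snd_add, Prod.fst_sub, Prod.snd_sub] at hy ⊢; omega)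
    simpa using mem_sq_sub.2 this
  refine ⟨ctr_Tc hΛ n a, anch_Tc hΛ n a, fun x hx => ?_, fun e he => ?_, fun _ _ _ => rfl,
    fun _ _ _ => rfl⟩
  · have := mem_erase.1 (hΛ.subset_T_A hD (mem_image_of_mem _ hx))
    exact mem_erase.2 ⟨fun e => this.1 (by rw [e, sub_self]), mem_sq_sub.1 this.2⟩
  · rw [mem_Tc_ed, (Lat.near_T hD).1 (e.1 - a, e.2 - a)
      (he.imp (mem_image_of_mem _) (mem_image_of_mem _))]
    simp

theorem om_Tc (hΛ : Λ.Ok) (hn : 2 * Λ.rg < n) {a : Pt} (hF : DepG S F) (hS : S ⊆ sq a n) :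
    (Og Λ n F ↔ Ig ((Tc Λ n a).W 0) F) ∧ om Λ n F = Ex ((Tc Λ n a).W 0) F := by
  have h1 := om_aff hΛ hn (AddEquiv.refl _) (fun _ => Iff.rfl) (-a) (φ := Equiv.addRight a)
    (fun _ => rfl) hF
  have h2 := depG_mapH hF (Equiv.addRight a)
  have key : ∀ s, F (mapH (Equiv.addRight a) (lf n (S.map (Equiv.addRight a).symm.toEmbedding) s)) =
      F (mapH (Equiv.addRight a) s) := fun s => h2.dep _ _ fun x hx => by
    rw [lf_of_mem n s hx, md_of_mem]
    obtain ⟨y, hy, rfl⟩ := mem_map.1 hx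
    exact mem_sq_sub.2 (hS hy)
  rw [(iso_Tc Λ n a).ig0 (hΛ.ctr_T n).1, (iso_Tc Λ n a).ex0 (hΛ.ctr_T n).1, ← h1.1, ← h1.2,
    om_eq h2.dep]
  refine ⟨⟨fun h => ?_, fun h => ⟨_, h2, ?_⟩⟩, ?_⟩
  · simpa only [key] using h.ig h2.dep
  · simpa only [key] using h
  · simp only [key]

/-- the torus centred at `c` -/
noncomputable def Tb (Λ : Lat) (n : ℕ) (c : Pt) : Mdl Pt :=
  Tc Λ n (c - (((n / 2 : ℕ) : ℤ), ((n / 2 : ℕ) : ℤ)))

theorem bl_subset_sq (c : Pt) {R : ℕ} (h : 2 * R < n) :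
    bl c R ⊆ sq (c - (((n / 2 : ℕ) : ℤ), ((n / 2 : ℕ) : ℤ))) n := fun x hx => by
  simp only [mem_bl, mem_sq, Prod.fst_sub, Prod.snd_sub] at hx ⊢; omega

theorem cen_Tb (hΛ : Λ.Ok) (n : ℕ) (c : Pt) : Cen ((Tb Λ n c).W 0) := cen_Tc hΛ n _

theorem amb_Tb (hΛ : Λ.Ok) (c : Pt) {R : ℕ} (h : 2 * (R + Λ.rg) < n) :
    Nc.Amb Λ (Tb Λ n c) (bl c R) :=
  amb_Tc hΛ fun _ hx => (bl_subset_bl hx (by omega)).trans (bl_subset_sq c h)

theorem om_Tb (hΛ : Λ.Ok) (hn : 2 * Λ.rg < n) {c : Pt} {R : ℕ} (h : 2 * R < n) (hF : DepG (bl c R) F) :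
    om Λ n F = Ex ((Tb Λ n c).W 0) F :=
  (om_Tc hΛ hn hF (bl_subset_sq c h)).2



end Crest.Agent.T145.Om
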