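import Crest.Agent.T145.MidDef2_76
import Crest.Agent.T145.Om_11
import Crest.Agent.T145.RJa_57

/-!
# Row 145: MID MO, monotonicity of the normalised torus variance (helper32)
-/

set_option autoImplicit false

namespace Crest.Agent.T145.Mid

open Finset

namespace Mo32

theorem A0_dv {u : Pt → ℝ} {R : ℕ} (hu : Sup (bl 0 R) u) :
    A0 u = dv (nnL.edI (bl 0 (R + 1))) fun e => u e.2 - u e.1 := by
  have hg : ∀ i z, RJ57.gt (bl 0 (R + 1)) (ev i) z * (u (z + ev i) - u z) =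
      u (z + ev i) - u z := fun i z => by
    by_cases h : z ∈ bl 0 R ∨ z + ev i ∈ bl 0 R
    · rw [RJ57.gt_one, one_mul] <;> rw [mem_bl, mem_bl] at h <;> rw [mem_bl] <;> fin_cases i <;>
        simp [ev] at h ⊢ <;> omega
    · rw [not_or] at h
      rw [hu _ h.1, hu _ h.2, sub_self, mul_zero]
  funext ⟨a, b⟩
  rw [RJ57.dv_nn]
  have h1 := fun i => hg i ((a, b) - ev i)
  simp only [sub_add_cancel] at h1
  simp only [h1, hg]
  simp only [Fin.sum_univ_two, ev, A0, Matrix.cons_val_zero, Matrix.cons_val_one,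
    Prod.mk_add_mk, Prod.mk_sub_mk, add_zero, sub_zero, ← sub_eq_add_neg]
  ring

theorem sub_Tb {Λ : Lat} (h : Λ.Ok) {n R : ℕ} (hR : 2 * R < n) :
    nnL.edI (bl 0 R) ⊆ (Om.Tb Λ n 0).ed := fun e he => by
  obtain ⟨h1, h2, h3⟩ := Lat.mem_edI.1 he
  refine Om.mem_Tc_ed.2 (Lat.edI_subset_T n (Lat.mem_edI.2 ⟨?_,
    Om.mem_sq_sub.2 (Om.bl_subset_sq 0 hR h2), Om.mem_sq_sub.2 (Om.bl_subset_sq 0 hR h3)⟩))
  rw [RJ57.nn_Jp, mem_insert, mem_singleton] at h1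
  simp only [sub_sub_sub_cancel_right]
  rcases h1 with h1 | h1 <;> rw [h1]
  exacts [h.e1, h.e2]

end Mo32

open Mo32 in
theorem moStmt (hC : ChiStmt) : MoStmt := by
  intro Λ τ' n ρ h hτ hρ hn _
  obtain ⟨C, -, hC⟩ := hC
  obtain ⟨-, hs, h1, -⟩ := hC ρ hρ
  have h0 : 0 < Ec ρ := one_pos.trans_le h1
  have k := Tau5.vr_sub_ge (xy := Λ.xy) (m := Om.Tb Λ n 0) (Om.ctr_Tc h n _) (Om.anch_Tc h n _)
    h.pos hτ (sub_Tb h (R := 2 * ρ + 1) (by omega)) (fun e => Xi.chi ρ e.2 - Xi.chi ρ e.1)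
    (X := pr (A0 (Xi.chi ρ))) (AddMonoidHom.ext fun s => by
      rw [A0_dv hs, pr_dv, AddMonoidHom.finsetSum_apply]; rfl) h0
    (le_of_eq (sum_congr rfl fun e _ => by simp only [nnL, div_one, pow_two]))
  refine le_trans (le_of_eq ?_) ((div_le_div_of_nonneg_right k h0.le).trans_eq (sub_div _ _ _))
  change (Vr ((Om.Tb Λ n 0).W 0) _ _ / _) ^ 2 * _ = Vr ((Om.Tb Λ n 0).W 0) _ _ ^ 2 / _ * _ / _
  field_simp

end Crest.Agent.T145.Mid
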