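import Crest.Agent.T145.EvDef_2
import Crest.Agent.T145.EvDer_5
import Crest.Agent.T145.FlBare_80
import Crest.Agent.T145.FlBas_4
import Crest.Agent.T145.MidMo_32
import Crest.Agent.T145.EvS4D_36
import Crest.Agent.T145.EvNum_3
import Crest.Agent.T145.EvAmb_49

-- ▼ part T145/EvTDer_12
section

/-!
# Row 145, even sector: DER and TDER (helper12)
-/

set_option autoImplicit false

namespace Crest.Agent.T145.Ev

open Finset Real Fl Om Filter Topology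

namespace TD12

variable {Λ : Lat} {N : ℕ} {S : Finset Pt} {F : Cfg Pt → ℝ}

theorem tor'_eq (hΛ : Λ.Ok) (hn : 2 * Λ.rg < 2 ^ N) (hF : DepG S F) (hT : Tame F) :
    tor' Λ N F = dom Λ (2 ^ N) F := (dom_eq hΛ hn _ hF hT).symm

theorem gk_eq (hΛ : Λ.Ok) (hn : 2 * Λ.rg < 2 ^ N) (R : ℝ) : gk (tor' Λ N) R = dg Λ (2 ^ N) R :=
  congrArg (_ * ·) (sum_congr rfl fun x _ =>
    congrArg (· * _ * _) (tor'_eq hΛ hn (depG_JJ 0 x) (tame_JJ x)))

theorem ell_eq (hΛ : Λ.Ok) (hn : 2 * Λ.rg < 2 ^ N) {R : ℝ} (hR : 0 < R) :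
    ell (tor' Λ N) R (Jz 0) = dl Λ (2 ^ N) R := tor'_eq hΛ hn (ins_JS hR).1 (ins_JS hR).2

theorem pT_eq (hΛ : Λ.Ok) (hn : 2 * Λ.rg < 2 ^ N) (q : Dat) (k : ℕ) : pT q Λ N k = pk q Λ N k := by
  rw [pT, pd, gk_eq hΛ hn, pk]; ring

theorem qT_eq (hΛ : Λ.Ok) (hn : 2 * Λ.rg < 2 ^ N) (q : Dat) (k : ℕ) : qT q Λ N k = qk q Λ N k := by
  rw [qT, qd, lr, gk_eq hΛ hn, ell_eq hΛ hn (q.R_pos k), qk, vk, mul_right_comm (2 * π ^ 2)]; rfl

end TD12

open TD12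


theorem tDerStmt : TDerStmt := fun F θ₀ _ _ _ => ⟨0, fun q _ _ _ h => by
  refine ((lDer h).and (h.base one_pos 0)).mono fun P ⟨hd, hb⟩ l => ?_
  obtain ⟨a, hd⟩ := hd l
  obtain ⟨r₁, k₀, hb⟩ := hb l
  refine ⟨max a k₀, fun Λ N k hV hk => ?_⟩
  obtain ⟨hR, -⟩ := hb Λ N k hV (le_of_max_le_right hk)
  obtain ⟨h1, h2, h3, h4⟩ := hd Λ N k hV (le_of_max_le_left hk)
  have hΛ := res_ok hR
  have hn := res_rg hR
  rw [pT_eq hΛ hn, qT_eq hΛ hn]
  refine ⟨h1, h2, h3.congr ?_, h4.congr ?_⟩ <;> filter_upwards [Ioi_mem_nhds hΛ.pos] with t ht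
  exacts [(pT_eq (hΛ.at' ht) hn q k).symm, (qT_eq (hΛ.at' ht) hn q k).symm]⟩

end Crest.Agent.T145.Ev
end

-- ▼ part T145/EvEd_82
section

/-!
# Row 145, even sector: ED, the torus state with its derivative (helper82)
-/

set_option autoImplicit false

namespace Crest.Agent.T145.Ev

open Finset Real Fl Om TD12

/-- non-degeneracy on the torus -/
theorem nd_dom {Λ : Lat} {n k : ℕ} (hΛ : Λ.Ok) (hn : 2 * Λ.rg < n) (hk : 2 * (k + 1) < n) {v : Pt → ℝ}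
    (hv : Pot.Sup (bl 0 k) v) :
    om Λ n (fun s => X v s * X v s) ^ 2 ≤ Λ.τ ^ 2 * E0 (bl 0 k) v * dom Λ n fun s => X v s * X v s := by
  have i : Ins 0 (k + 1) fun s => X v s * X v s := (ins_A0 hv le_rfl).mul (ins_A0 hv le_rfl)
  have e : ∀ t, (Λ.at' t).Ok → om (Λ.at' t) n (fun s => X v s * X v s) =
      Vr (((Tb Λ n 0).len Λ.xy t).W 0) (pr (A0 v)) (pr (A0 v)) := fun t h =>
    (om_Tb h hn hk i.1).trans ((cen_Tb h n 0).Vr_eq _ _).symm
  have k1 := Tau5.nondeg_flow (xy := Λ.xy) (m := Tb Λ n 0) (ctr_Tc hΛ n _) (anch_Tc hΛ n _) hΛ.pos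
    (pr (A0 v)) (Mid.Mo32.sub_Tb hΛ hk) fun e => v e.2 - v e.1
  rw [← show pr (A0 v) = ∑ e ∈ nnL.edI (bl 0 (k + 1)), (v e.2 - v e.1) • dR e from AddMonoidHom.ext fun s => by
    rw [Mid.Mo32.A0_dv hv, pr_dv, AddMonoidHom.finsetSum_apply]; rfl, ← B80.E0_ed hv (B80.gb_bl hv)] at k1
  rw [dom_unique hΛ hn i.1 i.2 (Tau5.ctr_hasDerivAt_Vr (ctr_Tc hΛ n _) (anch_Tc hΛ n _) hΛ.pos _ _) e]
  exact (congrArg (· ^ 2) (e Λ.τ hΛ)).trans_le k1

theorem edStmt : EdStmt := fun p Λ L N h => by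
  have hΛ := h.mem.ok
  have h1 := hΛ.one_le_rg
  have h2 := h.gd.2.1
  have h3 : 100 * 4 * p.r₀ ≤ nA Λ N := le_trans (by gcongr; exact h.w4) (h.big.trans h.le)
  have h4 : 2 ^ N = 2 * 2 ^ (N - 1) := by
    rcases N with _ | N
    · simp [nA] at h3; omega
    · rw [pow_succ', Nat.add_sub_cancel]
  have h5 : nA Λ N + Λ.rg + 1 = 2 ^ (N - 1) := by unfold nA at h3 ⊢; omega
  have hn : 2 * Λ.rg < 2 ^ N := by omega
  refine ⟨h, fun x hx => ?_, fun x hx => ?_, fun F hF => sum_congr rfl fun z _ => ?_, fun z F hF _ => ?_,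
    fun F hF => ⟨?_, ?_⟩, fun k v hk hv => ?_⟩
  · simp only [Mid.Qd, mem_sq, mem_bl, Prod.fst_zero, Prod.snd_zero] at hx ⊢; omega
  · simp only [Mid.Qd, mem_sq, mem_bl, Prod.fst_zero, Prod.snd_zero] at hx ⊢; omega
  · simp only [et, mul_sub, mul_comm (F _) (tor Λ N _)]
    rw [tor, om_sub (og_tame hΛ ((hF.1.mono subset_union_left).mul ((depG_est z).mono subset_union_right))
      (hF.2.mul (tame_est hΛ z))) ((og_ins hΛ hF).const_mul _), om_const_mul hF.1.dep, ocv, mul_comm]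
  · have i := ins_trl hF z
    rw [tor'_eq hΛ hn i.1 i.2, tor'_eq hΛ hn hF.1 hF.2]
    exact dom_congr hΛ hn i.1 i.2 hF.1 hF.2 fun _ h => om_trl h hn hF.1 z
  · rw [tor'_eq hΛ hn (depG_mapH hF.1 _) (hF.2.comp _), tor'_eq hΛ hn hF.1 hF.2]
    exact dom_congr hΛ hn (depG_mapH hF.1 _) (hF.2.comp _) hF.1 hF.2 fun _ h => (om_rot h hn hF.1 0).2
  · rw [tor'_eq hΛ hn (depG_mapH hF.1 _) (hF.2.comp _), tor'_eq hΛ hn hF.1 hF.2]
    exact dom_congr hΛ hn (depG_mapH hF.1 _) (hF.2.comp _) hF.1 hF.2 fun _ h => (om_swp h hn hF.1 0).2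
  · have i : Ins 0 (k + 1) fun s => X v s * X v s := (ins_A0 hv le_rfl).mul (ins_A0 hv le_rfl)
    rw [tor'_eq hΛ hn i.1 i.2]
    exact nd_dom hΛ hn (by omega) hv

end Crest.Agent.T145.Ev
end

-- ▼ part T145/EvS4F_14

/-!
# Row 145, even sector (helper14): the far sites of S4
-/

set_option autoImplicit false

namespace Crest.Agent.T145.Ev.S4

open Finset Pot Xi Real Fl

theorem E0_chi14 : ∃ C : ℝ, 0 ≤ C ∧ ∀ r : ℝ, 1 ≤ r → E0 (bl 0 ⌈2 * r⌉₊) (Xi.chi r) ≤ C := by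
  obtain ⟨C, hC, h⟩ := sm_chi 1
  refine ⟨6 * C ^ 2 * 49, by positivity, fun r hr => ?_⟩
  have r0 : 0 < r := by linarith
  have h1 := (Nat.ceil_lt_add_one (show 0 ≤ 2 * r by linarith)).le
  refine (B80.E0_le (k := C / r) (sup_chi r0 ((Nat.le_ceil _).trans (by linarith))) fun e he x _ =>
    (h r r0).one le_rfl he trivial).trans ?_
  rw [card_bl]; push_cast
  calc _ ≤ 6 * (C / r) ^ 2 * (7 * r) ^ 2 := by gcongr; linarith
    _ = _ := by field_simp; norm_num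

theorem fS (hB : Fl.BareStmt) (hF : FarEStmt) : FS := fun w => ⟨0, fun p W D₀ _ _ => by
  obtain ⟨C₁, c1, hF⟩ := hF p
  obtain ⟨C₂, c2, hB⟩ := hB p.F
  obtain ⟨C₃, c3, h3⟩ := E0_chi14
  have pw : (0 : ℝ) ≤ p.w := Nat.cast_nonneg _
  have k0 : 0 ≤ 16 * C₁ * (C₂ * C₃ + 1) := by positivity
  refine ⟨1 + 64 * p.w + 16 * C₁ * (C₂ * C₃ + 1), nr p.w, by linarith,
    fun E R Y P t hE t0 hC hY hR => ?_⟩
  have ht : ∀ x : ℝ, x ≤ 1 + 64 * p.w + 16 * C₁ * (C₂ * C₃ + 1) → x * t ≤ 1 := fun x hx =>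
    (mul_le_mul_of_nonneg_right hx t0.le).trans hC
  have t1 : t ≤ 1 := by linarith [ht 1 (by linarith)]
  have hG := hE.ed.toEnv.toGs
  have hn := N3.nr_ge hG.w4
  have w4 : (4 : ℝ) ≤ p.w := by exact_mod_cast hG.w4
  have R1 := hE.maj.one_le
  have R0 : 0 < R := by linarith
  have P1 := hE.P1
  have tw := ht (64 * p.w) (by linarith)
  have tn : t ^ nr p.w ≤ t := pow_le_of_le_one t0.le t1 (by omega)
  have tn0 : 0 < t ^ nr p.w := by positivity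
  have hr : 1 ≤ R / (16 * p.w) := by
    have := N3.one_le_R hG.w4 hE.maj t0 t1 hY (k := 1) (by omega)
    rw [one_le_div (by positivity)]
    refine le_of_mul_le_mul_right ?_ t0
    have h4 : 0 ≤ (p.w : ℝ) * t := by positivity
    rw [pow_one] at this
    linarith
  have hr' : R / (16 * p.w) ≤ R := div_le_self R0.le (by linarith)
  obtain ⟨a, ha⟩ : ∃ a, a = ⌈2 * R⌉₊ + 1 := ⟨_, rfl⟩
  have a1 : 2 * R ≤ a := by rw [ha]; push_cast; linarith [Nat.le_ceil (2 * R)]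
  have a2 : (a : ℝ) ≤ 4 * R := by
    rw [ha]; push_cast; linarith [Nat.ceil_lt_add_one (show 0 ≤ 2 * R by linarith)]
  have a3 : ⌈2 * (R / (16 * p.w))⌉₊ + 1 ≤ a := by
    rw [ha]; exact Nat.succ_le_succ (Nat.ceil_mono (by linarith))
  have a4 : p.r₀ ≤ a := by
    have h1 := N3.r1_le hG.w4 hE.maj t0 t1 hY hE.r1 (k := 0) (by omega)
    have h2 : (E.r₁ : ℝ) ≤ a := by linarith
    exact hE.r0.trans (by exact_mod_cast h2)
  have L0 : (0 : ℝ) < E.L := (mul_pos_iff_of_pos_left tn0).1 (R0.trans_le hR)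
  have b0 := Nat.le_ceil (R * t⁻¹ ^ nr p.w)
  beta_reduce
  generalize ⌈R * t⁻¹ ^ nr p.w⌉₊ = b at b0 ⊢
  have b2 : R ≤ t ^ nr p.w * b := by
    rw [inv_pow, ← div_eq_mul_inv, div_le_iff₀' tn0] at b0; exact b0
  have key : ∀ n : ℕ, R ≤ t ^ nr p.w * n → 16 * p.w * a ≤ n ∧ ((a : ℝ) / n) ^ (cw p.w / 2) ≤ 4 * t ^ 8 :=
    fun n h => by
    have n0 : (0 : ℝ) < n := (mul_pos_iff_of_pos_left tn0).1 (R0.trans_le h)
    constructor
    · have : (16 * p.w * a : ℝ) ≤ n := calc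
        _ ≤ (16 * p.w * (4 * (t * n)) : ℝ) := by gcongr; exact a2.trans (by gcongr; exact h.trans (by gcongr))
        _ = 64 * p.w * t * n := by ring
        _ ≤ 1 * n := by gcongr
        _ = _ := one_mul _
      exact_mod_cast this
    · have c0 := N3.cw_pos hG.w4
      have c1 := N3.cw_le hG.w4
      calc _ ≤ (4 * t ^ nr p.w) ^ (cw p.w / 2) := by
            gcongr; rw [div_le_iff₀ n0]; linarith
        _ = 4 ^ (cw p.w / 2) * t ^ (nr p.w * (cw p.w / 2)) := by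
            rw [mul_rpow (by norm_num) tn0.le, rpow_natCast_mul t0.le]
        _ ≤ 4 ^ (1 : ℝ) * t ^ ((8 : ℕ) : ℝ) := by
            refine mul_le_mul (rpow_le_rpow_of_exponent_le (by norm_num) (by linarith))
              (rpow_le_rpow_of_exponent_ge t0 t1 ?_) (by positivity) (by positivity)
            push_cast; linarith [N3.nr_cw hG.w4]
        _ = _ := by rw [rpow_one, rpow_natCast]
  have hs : Pot.Sup (bl 0 ⌈2 * (R / (16 * p.w))⌉₊) (vv p.w R) :=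
    sup_chi (by linarith) ((Nat.le_ceil _).trans (by linarith))
  have i1 : Ins 0 a (X (vv p.w R)) := ins_A0 hs a3
  have i2 : Ins 0 a (cp (xi R) (-(π / 2))) := ins_cp (chq_xi R0 a1) _
  have n1 : nu E.Λ p.w 0 a (fun s => X (vv p.w R) s * cp (xi R) (-(π / 2)) s) ≤ (C₂ * C₃ + 1) / 2 := by
    refine A49.nu_mul hG a4 i1 i2 ?_ (A49.nm_bdd hG.mem.ok _ _ fun s => ?_)
    · have := ((hB _ hG.mem 0 _ _ hs).2.2 (p.w * a) (by have := A51.four_le hG a; omega)).1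
      refine le_of_eq_of_le (congrArg (Nc.EN E.Λ 0 _) (funext fun s => abs_of_nonneg (sq_nonneg _)))
        (this.trans (mul_le_mul_of_nonneg_left (h3 _ hr) c2))
    · rw [abs_pow]; exact pow_le_one₀ (abs_nonneg _) (abs_cp_le _ _ _)
  have m1 : max (a / R) (R / a) ^ ew p.w ≤ 4 := by
    have a0 : (0 : ℝ) < a := by linarith
    refine (rpow_le_rpow (max_ratio_nonneg a0.le R0.le)
      (max_ratio_le a0 R0 (M := 4) (by norm_num) (by linarith) a2) (ew_nonneg _)).trans ?_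
    exact (rpow_le_rpow_of_exponent_le (by norm_num) (by linarith [ew_le' hG.w4])).trans_eq (rpow_one _)
  refine (sum_le_sum_of_subset_of_nonneg (sdiff_subset_sdiff hE.ed.hi subset_rfl)
    fun _ _ _ => abs_nonneg _).trans ((hF _ _ _ _ hE.ed.toEnv R P R0 (by linarith) hE.prof a b _ a4
      (key b b2).1 (key _ hR).1 (i1.mul i2)).trans ?_)
  calc _ ≤ C₁ * ((C₂ * C₃ + 1) / 2) * P * 4 * (4 * t ^ 8 + 4 * t ^ 8) := by
        gcongr
        exacts [(key b b2).2, (key _ hR).2]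
    _ = P * t ^ 7 * (16 * C₁ * (C₂ * C₃ + 1) * t) := by ring
    _ ≤ P * t ^ 7 * 1 := by gcongr; exact ht _ (by linarith)
    _ = _ := mul_one _⟩

end Crest.Agent.T145.Ev.S4
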