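import Crest.Agent.T145.EvS4D_36
import Crest.Agent.T145.EvNum_3
import Crest.Agent.T145.EvLe_60
import Crest.Agent.T145.FlBare_80
import Crest.Agent.T145.FlNeu_31
import Crest.Agent.T145.Route_51

-- ▼ part T145/EvS4R_36
section

/-!
# Row 145, even sector: the coefficient of `T2` (S4, helper36)
-/

set_option autoImplicit false

namespace Crest.Agent.T145.Ev

open Finset Pot Xi Real Fl

namespace S436




variable {p : Par} {Λ : Lat} {ω : Sta} {L N : ℕ}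


theorem split (hE : Env p Λ ω L N) {F G T₁ T₂ : Cfg Pt → ℝ} {z : Pt} {a k : ℕ} (hF : Ins 0 N F)
    (hG : Ins 0 a G) (h1 : Ins 0 a T₁) (h2 : Ins 0 a T₂) (hz : z ∈ bl 0 k) (hk : a + k ≤ N) (α₁ α₂ : ℝ) :
    ω (fun s => F s * trl z G s) =
      ω (fun s => trl z (fun s => G s - (α₁ * (T₁ s - ω T₁) + α₂ * (T₂ s - ω T₂))) s * F s) +
        α₁ * cv ω (trl z T₁) F + α₂ * cv ω (trl z T₂) F := by
  have hs : bl z a ⊆ bl 0 N := bl_subset_bl hz hk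
  have up : ∀ {T : Cfg Pt → ℝ}, Ins 0 a T → Ins 0 N (trl z T) := fun h =>
    E30.ins_mono (E30.ins_trl h z) hs
  have hc : ∀ {T : Cfg Pt → ℝ}, Ins 0 a T →
      cv ω (trl z T) F = ω fun s => (trl z T s - ω T) * F s := fun {T} h => by
    rw [cv, hE.trl 0 z T (h.1.mono (bl_mono 0 (by omega))), ← hE.ex_smul hF.1,
      ← hE.ex_sub (E30.ins_mul (up h) hF) (E30.ins_smul hF _)]
    congr 1; funext s; ring
  have i1 := E30.ins_mul (E30.ins_sub (up h1) (E30.ins_const 0 N (ω T₁))) hF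
  have i2 := E30.ins_mul (E30.ins_sub (up h2) (E30.ins_const 0 N (ω T₂))) hF
  have i0 := E30.ins_mul (up (E30.ins_sub hG (E30.ins_add
    (E30.ins_smul (E30.ins_sub h1 (E30.ins_const 0 a (ω T₁))) α₁)
    (E30.ins_smul (E30.ins_sub h2 (E30.ins_const 0 a (ω T₂))) α₂)))) hF
  rw [hc h1, hc h2, ← hE.ex_smul i1.1, ← hE.ex_smul i2.1, ← hE.ex_add i0 (E30.ins_smul i1 _),
    ← hE.ex_add (E30.ins_add i0 (E30.ins_smul i1 _)) (E30.ins_smul i2 _)]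
  congr 1; funext s
  simp only [trl]; ring



/-- the real scales -/
structure Sc (R t C Y : ℝ) (L n₀ k : ℕ) : Prop where
  t0 : 0 < t
  t1 : t ≤ 1
  R0 : 0 < R
  r1 : C ≤ R * t ^ n₀
  r2 : C * (R * t ^ n₀) ≤ R
  b1 : C * R ≤ R * t⁻¹ ^ n₀
  b2 : C * (R * t⁻¹ ^ n₀) ≤ L
  m1 : C * (R * t⁻¹ ^ n₀) ≤ t⁻¹ ^ (80 * n₀) * R
  m2 : C ≤ t⁻¹ ^ (80 * n₀)
  y1 : ∀ j ≤ k, C * (t⁻¹ ^ (80 * n₀)) ^ j * Y ≤ 1
  y2 : ∀ j ≤ k, C * (t⁻¹ ^ (80 * n₀)) ^ j * R ≤ L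
  y3 : ∀ j ≤ k, (t⁻¹ ^ (80 * n₀)) ^ j * Y ^ (1 / 4 : ℝ) + 1 / t⁻¹ ^ (80 * n₀) ≤ 2 * t ^ (80 * n₀)
  y4 : Y ≤ t ^ 7

theorem sc {R t C Y e : ℝ} {L n₀ k : ℕ} (hC : 1 ≤ C) (h0 : 0 < t) (hCt : C * t ≤ 1) (hn : 1 ≤ n₀)
    (hR : 1 ≤ R) (he : e ≤ 1) (hY : R ^ (-e) ≤ Y) (h1 : Y ≤ t ^ (4 * (80 * n₀ * (k + 1))))
    (h2 : R ≤ t ^ (4 * (80 * n₀ * (k + 1))) * L) : Sc R t C Y L n₀ k := by
  have t1 : t ≤ 1 := by nlinarith
  have R0 : 0 < R := by linarith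
  have hi : C ≤ t⁻¹ := by rw [← one_div, le_div_iff₀ h0]; exact hCt
  have i1 : 1 ≤ t⁻¹ := hC.trans hi
  have hp : ∀ {a b : ℕ}, a ≤ b → t ^ b ≤ t ^ a := fun h => pow_le_pow_of_le_one h0.le t1 h
  have hq : ∀ {a : ℕ}, 1 ≤ a → C * t ^ a ≤ 1 := fun h =>
    le_trans (mul_le_mul_of_nonneg_left (by simpa using hp h) (by linarith)) hCt
  have hm : ∀ a b : ℕ, t⁻¹ ^ a * t ^ (a + b) = t ^ b := fun a b => by
    rw [pow_add, ← mul_assoc, ← mul_pow, inv_mul_cancel₀ h0.ne', one_pow, one_mul]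
  have hY0 : 0 < Y := (rpow_pos_of_pos R0 _).trans_le hY
  have hL : (0 : ℝ) ≤ L := Nat.cast_nonneg _
  obtain ⟨n, hn'⟩ : ∃ n, n = 4 * (80 * n₀ * (k + 1)) := ⟨_, rfl⟩
  rw [← hn'] at h1 h2
  have hR1 : 1 ≤ R * t ^ n := by
    have : R⁻¹ ≤ t ^ n := by
      rw [← rpow_neg_one]
      exact (rpow_le_rpow_of_exponent_le hR (by linarith)).trans (hY.trans h1)
    rwa [inv_le_iff_one_le_mul₀' R0] at this
  have hk : ∀ j ≤ k, ∃ b, 1 ≤ b ∧ n = 80 * n₀ * j + b := fun j hj =>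
    ⟨n - 80 * n₀ * j, by
      have : 80 * n₀ * j ≤ 80 * n₀ * k := Nat.mul_le_mul_left _ hj
      rw [mul_add] at hn'; omega⟩
  have hnn : n₀ + 1 ≤ n ∧ 7 ≤ n := by rw [mul_add] at hn'; omega
  have hpw : ∀ {a : ℕ}, 1 ≤ a → C ≤ t⁻¹ ^ a := fun h => hi.trans (le_self_pow₀ i1 (by omega))
  refine ⟨h0, t1, R0, ?_, ?_, ?_, ?_, ?_, hpw (by omega), fun j hj => ?_, fun j hj => ?_,
    fun j hj => ?_, h1.trans (hp hnn.2)⟩
  · calc C ≤ C * (R * t ^ (n₀ + 1)) := le_mul_of_one_le_right (by linarith)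
          (hR1.trans (mul_le_mul_of_nonneg_left (hp hnn.1) R0.le))
      _ = C * t * (R * t ^ n₀) := by ring
      _ ≤ _ := mul_le_of_le_one_left (by positivity) hCt
  · rw [mul_left_comm]; exact mul_le_of_le_one_right R0.le (hq hn)
  · rw [mul_comm]; exact mul_le_mul_of_nonneg_left (hpw hn) R0.le
  · obtain ⟨b, hb⟩ := Nat.exists_eq_add_of_le hnn.1
    calc C * (R * t⁻¹ ^ n₀) ≤ C * (t ^ n * L * t⁻¹ ^ n₀) := by gcongr
      _ = C * (t⁻¹ ^ n₀ * t ^ (n₀ + (1 + b))) * L := by rw [hb, add_assoc]; ring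
      _ ≤ 1 * L := by rw [hm]; gcongr; exact hq (by omega)
      _ = _ := one_mul _
  · calc C * (R * t⁻¹ ^ n₀) ≤ t⁻¹ ^ (79 * n₀) * (R * t⁻¹ ^ n₀) := by gcongr; exact hpw (by omega)
      _ = _ := by rw [show 80 * n₀ = 79 * n₀ + n₀ by ring, pow_add]; ring
  · obtain ⟨b, hb, e⟩ := hk j hj
    calc _ ≤ C * (t⁻¹ ^ (80 * n₀)) ^ j * t ^ n := by gcongr
      _ = C * t ^ b := by rw [← pow_mul, mul_assoc, e, hm]
      _ ≤ 1 := hq hb
  · obtain ⟨b, hb, e⟩ := hk j hj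
    calc _ ≤ C * (t⁻¹ ^ (80 * n₀)) ^ j * (t ^ n * L) := by gcongr
      _ = C * t ^ b * L := by rw [← pow_mul, ← mul_assoc, mul_assoc C, e, hm]
      _ ≤ 1 * L := by gcongr; exact hq hb
      _ = _ := one_mul _
  · have h3 : Y ^ (1 / 4 : ℝ) ≤ t ^ (80 * n₀ * j + 80 * n₀) := by
      calc _ ≤ ((t ^ (80 * n₀ * (k + 1))) ^ 4) ^ (1 / 4 : ℝ) := by
            rw [← pow_mul, mul_comm _ 4, ← hn']; gcongr
        _ = t ^ (80 * n₀ * (k + 1)) := by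
            rw [one_div]; exact pow_rpow_inv_natCast (by positivity) (by norm_num)
        _ ≤ _ := hp (by rw [mul_add, mul_one]; exact Nat.add_le_add_right (Nat.mul_le_mul_left _ hj) _)
    have h4 : (t⁻¹ ^ (80 * n₀)) ^ j * Y ^ (1 / 4 : ℝ) ≤ t ^ (80 * n₀) := by
      rw [← pow_mul, ← hm (80 * n₀ * j)]; gcongr
    have h5 : 1 / t⁻¹ ^ (80 * n₀) = t ^ (80 * n₀) := by rw [inv_pow, one_div, inv_inv]
    rw [h5]; linarith

theorem g_mem {g e : ℝ} (he : e ≤ 1) (h : |π * g - 2| ≤ e / 100) : 1 / 4 ≤ g ∧ g ≤ 1 := by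
  rw [abs_le] at h
  have h3 := pi_gt_three
  have h4 := pi_le_four
  constructor <;> by_contra hc <;> nlinarith

/-- size of the coefficients -/
theorem al_le {p : Par} {E : Dt} {R P t α₁ α₂ : ℝ} {a₁ a₂ : ℕ} (hw : 4 ≤ p.w) (t0 : 0 < t) (t1 : t ≤ 1)
    (R0 : 0 < R) (hP : 0 ≤ P) (h : E.Dc p R P t a₁ a₂ α₁ α₂) :
    max |α₁| |α₂| * t ^ (72 * nr p.w) ≤ P / R ^ 2 := by
  have h1 := h.lo
  have h2 : (a₁ : ℝ) ≤ R := h.hi.trans (mul_le_of_le_one_right R0.le (pow_le_one₀ t0.le t1))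
  have a0 : (0 : ℝ) < a₁ := lt_of_lt_of_le (by positivity) h1
  have h3 : (R / a₁) ^ (3 * ew p.w) ≤ R / a₁ := by
    conv_rhs => rw [← rpow_one (R / a₁)]
    exact rpow_le_rpow_of_exponent_le ((one_le_div a0).2 h2) (by linarith [N3.ew_le hw])
  have h4 := h.b.trans (mul_le_mul_of_nonneg_left h3 hP)
  have h5 : 0 ≤ max |α₁| |α₂| := le_max_of_le_left (abs_nonneg _)
  rw [← mul_div_assoc, le_div_iff₀ a0] at h4
  rw [le_div_iff₀ (by positivity)]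
  refine le_of_mul_le_mul_right ?_ R0
  calc _ = max |α₁| |α₂| * (R * t ^ (24 * nr p.w)) ^ 3 := by
        rw [show 72 * nr p.w = 24 * nr p.w * 3 by ring, pow_mul]; ring
    _ ≤ max |α₁| |α₂| * (a₁ : ℝ) ^ 3 := by gcongr
    _ ≤ _ := by rw [pow_succ _ 2, ← mul_assoc]; exact h4

end S436
open S436 Lj36

set_option maxHeartbeats 800000 in
theorem S4.repS (hS : SemiStmt) (hPu : PuStmt) (hHf : HfStmt) (h2 : X2Stmt) (h4 : X4Stmt) (hD : DetStmt)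
    (hB : BasStmt) (hT : TgStmt) : S4.RepS := by
  intro σ hσ w
  refine ⟨0, fun p W D₀ _ _ => ?_⟩
  obtain ⟨CP, hCP, hPu⟩ := hPu p
  obtain ⟨CH, hCH, hHf⟩ := hHf
  obtain ⟨C2, n2, hC2, h2⟩ := h2 p
  obtain ⟨C4, n4, hC4, h4⟩ := h4 p
  obtain ⟨CD, hCD, -, hD, -⟩ := hD
  obtain ⟨_, -, hB⟩ := hB p
  obtain ⟨_, _, -, -, hT⟩ := hT
  obtain ⟨K, hK0, hK⟩ : ∃ K, 0 ≤ K ∧ K = CP * √(2 * σ + CH * σ ^ 2) := ⟨_, by positivity, rfl⟩
  have hw2 : (0 : ℝ) ≤ (p.w : ℝ) ^ 2 := by positivity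
  have hex := exp_pos σ
  obtain ⟨C, hC⟩ : ∃ C, C = 16 + 8 * (p.w : ℝ) ^ 2 + exp σ + K + 2 * C2 + 2 * C4 := ⟨_, rfl⟩
  refine ⟨C, 4 * (80 * nr p.w * (n2 + n4 + 1)), by linarith, ?_⟩
  intro E R Y P t hBs t0 hCt hY hR a₁ a₂ α₁ α₂ hc z v v'' hz hA
  have hE := hBs.ed.toEnv
  have hG := hE.toGs
  have hw := hG.w4
  have hw' : (4 : ℝ) ≤ p.w := by exact_mod_cast hw
  have hn := N3.nr_ge hw
  have P1 := hBs.P1
  have R1 := hBs.maj.1
  have S := sc (by linarith) t0 hCt (by omega) R1 (by linarith [N3.ew_le hw]) hBs.maj.2.1 hY hR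
  have hal := al_le hw t0 S.t1 S.R0 (by linarith) hc
  obtain ⟨g1, g2⟩ := g_mem (by linarith [N3.ew_le hw]) hBs.crit
  have t1 := S.t1
  have R0 := S.R0
  have c16 : 16 ≤ C := by linarith
  have cw : 8 * (p.w : ℝ) ^ 2 ≤ C := by linarith
  have hup : (a₂ : ℝ) ≤ R * t ^ nr p.w * t := by rw [mul_assoc, ← pow_succ]; exact hc.up
  have hρ0 : 0 < R * t ^ nr p.w := by positivity
  have hρM : R / t⁻¹ ^ (80 * nr p.w) ≤ R * t ^ nr p.w := by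
    rw [inv_pow, div_inv_eq_mul]; gcongr _ * ?_; exact N3.pow_anti t0 t1 (by omega)
  have haM : R / t⁻¹ ^ (80 * nr p.w) ≤ a₁ := by
    refine le_trans ?_ hc.lo
    rw [inv_pow, div_inv_eq_mul]; gcongr _ * ?_; exact N3.pow_anti t0 t1 (by omega)
  have x2 := h2 _ _ _ _ hE R Y _ hBs.maj g1 g2 (le_trans (by linarith) S.m2)
    (le_trans (by have := maj_pos hBs.maj; gcongr; linarith) (S.y1 n2 (by omega)))
    (le_trans (by gcongr; linarith) (S.y2 n2 (by omega)))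
  have x4 := h4 _ _ _ _ hE R Y _ hBs.maj g1 g2 (le_trans (by linarith) S.m2)
    (le_trans (by have := maj_pos hBs.maj; gcongr; linarith) (S.y1 n4 (by omega)))
    (le_trans (by gcongr; linarith) (S.y2 n4 (by omega)))
  have y2 := mul_le_mul_of_nonneg_left (S.y3 n2 (by omega)) (by linarith : 0 ≤ C2)
  have y4 := mul_le_mul_of_nonneg_left (S.y3 n4 (by omega)) (by linarith : 0 ≤ C4)
  obtain ⟨r1, r2, b1, b2, m1, m2⟩ := And.intro S.r1 (And.intro S.r2 (And.intro S.b1 (And.intro S.b2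
    (And.intro S.m1 S.m2))))
  have hb' := (Nat.ceil_lt_add_one (show 0 ≤ R * t⁻¹ ^ nr p.w by positivity)).le
  have hb'' := Nat.le_ceil (R * t⁻¹ ^ nr p.w)
  generalize ⌈R * t⁻¹ ^ nr p.w⌉₊ = b at *
  generalize R * t⁻¹ ^ nr p.w = B at *
  generalize t⁻¹ ^ (80 * nr p.w) = M at *
  generalize R * t ^ nr p.w = ρ at *
  have ρR : 16 * ρ ≤ R := le_trans (by gcongr) r2
  have RB : 16 * R ≤ B := le_trans (by gcongr) b1
  have BL : 16 * B ≤ E.L := le_trans (by gcongr; linarith) b2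
  have BM : 16 * B ≤ M * R := le_trans (by gcongr; linarith) m1
  have a0 : (0 : ℝ) ≤ a₂ := Nat.cast_nonneg _
  have aρ : C * a₂ ≤ ρ := by
    calc C * a₂ ≤ C * (ρ * t) := by gcongr
      _ = C * t * ρ := by ring
      _ ≤ ρ := mul_le_of_le_one_left hρ0.le hCt
  have aρ1 : 16 * (a₂ : ℝ) ≤ ρ := le_trans (by gcongr) aρ
  have aρ2 : 8 * ((p.w * (p.w * a₂) : ℕ) : ℝ) ≤ ρ := by
    refine le_trans ?_ aρ
    push_cast
    calc _ = 8 * (p.w : ℝ) ^ 2 * a₂ := by ring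
      _ ≤ _ := by gcongr
  have a12 : 8 * (a₁ : ℝ) ≤ a₂ := by exact_mod_cast hc.le
  have k4 := Nat.floor_le (show 0 ≤ R / 4 by positivity)
  have k5 := Nat.floor_le (show 0 ≤ 4 * R by positivity)
  have k6 := (Nat.lt_floor_add_one (4 * R)).le
  have k7 := (Nat.lt_floor_add_one (M * R)).le
  have LN : (E.L : ℝ) ≤ E.N := by exact_mod_cast hE.le
  have hσM : σ ≤ log M := by rw [le_log_iff_exp_le (by linarith)]; linarith
  have hσM' : σ ≤ M := by linarith [add_one_le_exp σ]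
  have q1 := hc.le
  have q2 := hc.r1
  have q3 := hBs.r8
  have q4 := hBs.r0
  have q5 := gs_rg hG
  have q6 := le_wmul hG a₂
  have q7 := le_wmul hG (p.w * a₂)
  have sv : ∀ {u : Pt → ℝ} {k : ℕ}, Pot.Sup (bl 0 k) u → (k : ℝ) ≤ 4 * R → Sm 3 Set.univ σ ρ u →
      Sv R M u := fun hu hk hm =>
    ⟨hu.mono (bl_mono 0 (Nat.le_floor (by linarith))),
      (hm.mono le_rfl Set.Subset.rfl hσM' hρ0).scale (div_pos R0 (by linarith)) hρM⟩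
  have sv1 := sv hA.s1 (by linarith) hA.m1
  have sv2 := sv hA.s2 k5 hA.m2
  have hzM : eu z ≤ M * R := by
    have := eu_le_of_bl hz
    rw [sub_zero] at this; linarith
  have hq : Chq (bl 0 (⌊4 * R⌋₊ + 1)) (xi R - A0 v'') 1 :=
    E30.chq_sub0 (E30.chq_xi R0 (by push_cast; linarith)) (E30.chq_A0 hA.s2 le_rfl)
  have n1 : b + (⌊4 * R⌋₊ + 1) ≤ E.N := by
    exact_mod_cast (show (b : ℝ) + (⌊4 * R⌋₊ + 1) ≤ E.N by linarith)
  have n2' : ⌊R / 4⌋₊ + 1 ≤ E.N := by exact_mod_cast (show (⌊R / 4⌋₊ : ℝ) + 1 ≤ E.N by linarith)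
  have n3 : a₂ + b ≤ E.N := by exact_mod_cast (show (a₂ : ℝ) + b ≤ E.N by linarith)
  have n4' : 4 * (p.w * (p.w * a₂)) ≤ ⌊R / 4⌋₊ + b := by
    have : (4 : ℝ) * ((p.w * (p.w * a₂) : ℕ) : ℝ) ≤ ⌊R / 4⌋₊ + b := by
      linarith [Nat.cast_nonneg (α := ℝ) ⌊R / 4⌋₊]
    exact_mod_cast this
  have n5 : p.w * (⌊R / 4⌋₊ + b + 1) ≤ E.L := by
    have : (p.w : ℝ) * (⌊R / 4⌋₊ + b + 1) ≤ E.L := by
      calc _ ≤ (p.w : ℝ) * (2 * B) := by gcongr; linarith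
        _ ≤ C * B := by
            rw [← mul_assoc]
            exact mul_le_mul_of_nonneg_right (by nlinarith only [cw, hw']) (by linarith)
        _ ≤ _ := b2
    exact_mod_cast this
  have n6 : ⌊4 * R⌋₊ + 1 ≤ ⌊M * R⌋₊ := Nat.le_floor (by push_cast; linarith)
  have z0 : (0 : Pt) ∈ bl z b := mem_bl_comm.1 hz
  have iF : Ins 0 E.N fun s => X v s * cp (xi R - A0 v'') (-(π / 2)) s :=
    E30.ins_mul (E30.ins_prA0 hA.s1 n2') (E30.ins_le (E30.ins_cp hq _) (by omega))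
  have i0 : Ins 0 a₂ (E.e 0) := E30.ins_le (hB _ _ _ _ hE 0).2.2.1 (by omega)
  have i1 : Ins 0 a₂ (T1 a₁) := E30.ins_le (hT a₁ (by omega)).1.1 (by omega)
  have i2 : Ins 0 a₂ (T2 a₁) := E30.ins_le (hT a₁ (by omega)).2.1.1 (by omega)
  have i3 : Ins 0 a₂ fun s => E.e 0 s - Tc E.ω a₁ α₁ α₂ s := E30.ins_sub i0 (E30.ins_add
    (E30.ins_smul (E30.ins_sub i1 (E30.ins_const _ _ _)) _)
    (E30.ins_smul (E30.ins_sub i2 (E30.ins_const _ _ _)) _))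
  have sp := split hE iF i0 i1 i2 hz n3 α₁ α₂
  -- the rest
  obtain ⟨l1, l2⟩ := hA.h0 (4 * (p.w * (p.w * a₂))) (by rw [Nat.cast_mul 4, Nat.cast_ofNat]; linarith)
  have su : Pot.Sup (bl z (⌊R / 4⌋₊ + b)) v := hA.s1.mono (bl_subset_bl z0 le_rfl)
  have fl := (hHf v z (p.w * (p.w * a₂)) _ (σ / R) (by omega) n4' su (fun y hy => (l2 y hy).1)
    fun y hy e he => (l1 y hy e he).1).mono (show _ ≤ 2 * σ + CH * σ ^ 2 by
      rw [B80.E0_congr su hA.s1]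
      have : ((p.w * (p.w * a₂) : ℕ) : ℝ) * (σ / R) ≤ σ := by
        rw [mul_comm, div_mul_eq_mul_div, div_le_iff₀ R0]; gcongr; linarith
      have h' := hA.e1
      gcongr)
  have k0 := (hPu _ _ _ _ hE z a₂ _ _ (cp (xi R - A0 v'') (-(π / 2))) _ _ _ _ (by omega) (by omega) n5
    (E30.ins_trl i3 z) (E30.depG_cp (E30.chq_mono hq (bl_subset_bl z0 (by omega))) _)
    (E30.out_cp (fun y hy => (l2 y (bl_mono z (by omega) hy)).2) _) (E30.abs_cp_le _ _) fl fl).1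
  rw [Le60.nu_trl hS hG (by omega) i3 le_rfl, mul_right_comm, ← hK] at k0
  replace k0 := k0.trans (mul_le_mul_of_nonneg_left hc.nu hK0)
  -- the two references
  have k1 := ((x2 a₁ z v v haM (by linarith) hzM sv1 sv1).2.2 (-A0 v'') (-(π / 2))
    ((B80.f2_gb hA.s2 ((B80.gb_bl hA.s2).mono (bl_mono 0 n6))).neg.mono (hA.e2.trans hσM))).2.1.trans y2
  have w1 := ((hD v z a₁ (σ / R) 0 (by omega) (hA.h0 (6 * a₁) (by push_cast; linarith)).1).2)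
  rw [mul_zero, abs_nonpos_iff, sub_eq_zero] at w1
  have k2 := (x4 a₁ z v v'' (v z) haM (by linarith) hzM sv1 hA.s1 sv2
    (by rw [B80.E0_congr sv2.1 hA.s2]; exact hA.e2.trans hσM) w1.symm
    (hA.alt.imp_right fun h => ⟨h.1, sum_eq_zero fun x _ => h.2 x⟩)).trans y4
  rw [← sub_eq_add_neg] at k1
  rw [Dt.e, ← (hB _ _ _ _ hE z).2.1, sp]
  have e0 : (fun s => trl z (fun s => E.e 0 s - (α₁ * (T1 a₁ s - E.ω (T1 a₁)) +
      α₂ * (T2 a₁ s - E.ω (T2 a₁)))) s * (X v s * cp (xi R - A0 v'') (-(π / 2)) s)) =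
      fun s => trl z (fun s => E.e 0 s - Tc E.ω a₁ α₁ α₂ s) s * pr (A0 v) s *
        cp (xi R - A0 v'') (-(π / 2)) s := funext fun s => (mul_assoc _ _ _).symm
  rw [e0]
  generalize E.ω (fun s => trl z (fun s => E.e 0 s - Tc E.ω a₁ α₁ α₂ s) s * pr (A0 v) s *
        cp (xi R - A0 v'') (-(π / 2)) s) = u₀ at *
  generalize cv E.ω (trl z (T1 a₁)) _ = u₁ at *
  generalize cv E.ω (trl z (T2 a₁)) _ = u₂ at *
  have hQ : 0 ≤ P / R ^ 2 := by positivity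
  have f1 : ∀ {α u c : ℝ}, |α| ≤ max |α₁| |α₂| → 0 ≤ c → |u| ≤ c * (2 * t ^ (80 * nr p.w)) →
      |α * u| ≤ 2 * c * (t * (P / R ^ 2 * t ^ (2 * nr p.w + 8))) := fun {α u c} h1 h2 h3 => by
    rw [abs_mul]
    calc _ ≤ max |α₁| |α₂| * (c * (2 * t ^ (80 * nr p.w))) := by gcongr
      _ = 2 * c * (max |α₁| |α₂| * t ^ (72 * nr p.w) * t ^ (8 * nr p.w)) := by
          rw [show 80 * nr p.w = 72 * nr p.w + 8 * nr p.w by ring, pow_add]; ring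
      _ ≤ 2 * c * (P / R ^ 2 * t ^ (2 * nr p.w + 8 + 1)) := by
          gcongr _ * (?_ * ?_); exact N3.pow_anti t0 t1 (by omega)
      _ = _ := by ring
  have f2 := f1 (le_max_left _ _) (by linarith) k1
  have f3 := f1 (le_max_right _ _) (by linarith) k2
  have f0 : |u₀| ≤ K * (t * (P / R ^ 2 * t ^ (2 * nr p.w + 8))) := by
    refine k0.trans (mul_le_mul_of_nonneg_left ?_ hK0)
    calc _ = P / R ^ 2 * t ^ (16 + 2 * nr p.w) := by ring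
      _ ≤ P / R ^ 2 * t ^ (2 * nr p.w + 8 + 1) := by
          gcongr _ * ?_; exact N3.pow_anti t0 t1 (by omega)
      _ = _ := by ring
  have hQ' : 0 ≤ P / R ^ 2 * t ^ (2 * nr p.w + 8) := by positivity
  calc _ = |u₀ + α₁ * u₁ + α₂ * (u₂ + π * gk E.ω R * v z * ph (gk E.ω R) a₁ R)| := by ring_nf
    _ ≤ (K + 2 * C2 + 2 * C4) * (t * (P / R ^ 2 * t ^ (2 * nr p.w + 8))) := by
        linarith [abs_add_three u₀ (α₁ * u₁) (α₂ * (u₂ + π * gk E.ω R * v z * ph (gk E.ω R) a₁ R))]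
    _ ≤ C * (t * (P / R ^ 2 * t ^ (2 * nr p.w + 8))) := by gcongr; linarith
    _ ≤ P / R ^ 2 * t ^ (2 * nr p.w + 8) := by
        rw [← mul_assoc]; exact mul_le_of_le_one_left hQ' hCt
    _ = _ := by ring

end Crest.Agent.T145.Ev
end

-- ▼ part T145/EvS4_36

/-!
# Row 145, even sector: S4 from its pieces (helper36)
-/

set_option autoImplicit false

namespace Crest.Agent.T145.Ev

open Finset Pot Xi Real Fl S436 Lj36

set_option maxHeartbeats 800000 in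
theorem S4.s4_of (hB : BasStmt) (hA : S4.AS) (hM : S4.BS) (hF : S4.FS) (hD : S4.AdmS) (hR : S4.RepS) :
    S4Stmt := by
  intro w
  by_cases hw : 4 ≤ w
  swap
  · exact ⟨0, fun p W D₀ hp _ => ⟨1, 0, le_rfl, fun E R Y P t h =>
      absurd (hp ▸ h.ed.toEnv.toGs.w4) hw⟩⟩
  obtain ⟨CD, σ, hCD, hσ, hD⟩ := hD w hw
  obtain ⟨W1, hA⟩ := hA w
  obtain ⟨W2, hM⟩ := hM w
  obtain ⟨W3, hF⟩ := hF w
  obtain ⟨W4, hR⟩ := hR σ hσ w
  refine ⟨max (max W1 W2) (max W3 W4), fun p W D₀ hp hW => ?_⟩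
  simp only [max_le_iff] at hW
  subst hp
  obtain ⟨C1, n1, c1, hA⟩ := hA p W D₀ rfl hW.1.1
  obtain ⟨C2, n2, c2, hM⟩ := hM p W D₀ rfl hW.1.2
  obtain ⟨C3, n3, c3, hF⟩ := hF p W D₀ rfl hW.2.1
  obtain ⟨C4, n4, c4, hR⟩ := hR p W D₀ rfl hW.2.2
  obtain ⟨_, -, hB⟩ := hB p
  obtain ⟨C, hC⟩ : ∃ C, C = C1 + C2 + C3 + C4 + CD + 200 := ⟨_, rfl⟩
  obtain ⟨n, hn⟩ : ∃ n, n = n1 + n2 + n3 + n4 + 4 * (80 * nr p.w * (0 + 1)) := ⟨_, rfl⟩
  refine ⟨C, n, by linarith, fun E R Y P t h t0 hCt hY hL a₁ a₂ α₁ α₂ hc => ?_⟩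
  beta_reduce
  have c0 : 200 ≤ C := by linarith
  have t1 : t ≤ 1 := N3.t_le_one (by linarith) t0 hCt
  have hE := h.ed.toEnv
  have hG := hE.toGs
  have mY : ∀ {m : ℕ}, m ≤ n → Y ≤ t ^ m := fun hm => hY.trans (N3.pow_anti t0 t1 hm)
  have mL : ∀ {m : ℕ}, m ≤ n → R ≤ t ^ m * E.L := fun hm =>
    hL.trans (mul_le_mul_of_nonneg_right (N3.pow_anti t0 t1 hm) (Nat.cast_nonneg _))
  have mC : ∀ {c : ℝ}, c ≤ C → c * t ≤ 1 := fun hm => (mul_le_mul_of_nonneg_right hm t0.le).trans hCt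
  have S := sc (k := 0) (by linarith) t0 hCt (le_trans (by norm_num) (N3.nr_ge hw)) h.maj.1
    (by linarith [N3.ew_le hw]) h.maj.2.1 (mY (by omega)) (mL (by omega))
  replace hA := hA E R Y P t h t0 (mC (by linarith)) (mY (by omega)) (mL (by omega))
  replace hM := hM E R Y P t h t0 (mC (by linarith)) (mY (by omega)) (mL (by omega))
  replace hF := hF E R Y P t h t0 (mC (by linarith)) (mY (by omega)) (mL (by omega))
  replace hR := hR E R Y P t h t0 (mC (by linarith)) (mY (by omega)) (mL (by omega)) _ _ _ _ hc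
  beta_reduce at hA hM hF hR
  have R0 := S.R0
  have P1 := h.P1
  have hρ0 : 0 < R * t ^ nr p.w := by positivity
  replace hD := fun z => hD R _ z (le_trans (by linarith) S.r1) (le_trans (by gcongr; linarith) S.r2)
  have ρ1 : 200 ≤ R * t ^ nr p.w := c0.trans S.r1
  have ρ2 : 200 * (R * t ^ nr p.w) ≤ R := le_trans (by gcongr) S.r2
  have RB : 200 * R ≤ R * t⁻¹ ^ nr p.w := le_trans (by gcongr) S.b1
  have BL : 200 * (R * t⁻¹ ^ nr p.w) ≤ E.L := le_trans (by gcongr) S.b2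
  have Bt : (R * t⁻¹ ^ nr p.w) ^ 2 * t ^ (2 * nr p.w + 8) = R ^ 2 * t ^ 8 := by
    rw [mul_pow, ← pow_mul, mul_comm (nr p.w) 2, mul_assoc, ← N3.inv_pow_mul t0 (2 * nr p.w) 1 8,
      pow_one, mul_one]
  have hb' := (Nat.ceil_lt_add_one (show 0 ≤ R * t⁻¹ ^ nr p.w by positivity)).le
  have hb'' := Nat.le_ceil (R * t⁻¹ ^ nr p.w)
  generalize ⌈R * t⁻¹ ^ nr p.w⌉₊ = b at *
  generalize R * t⁻¹ ^ nr p.w = B at *
  generalize R * t ^ nr p.w = ρ at *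
  have LN : (E.L : ℝ) ≤ E.N := by exact_mod_cast hE.le
  have hw' : (4 : ℝ) ≤ p.w := by exact_mod_cast hw
  have k1 := (Nat.ceil_lt_add_one (show 0 ≤ 3 * R by positivity)).le
  have k2 := Nat.le_ceil (3 * R)
  have k3 := Nat.floor_le (show 0 ≤ R / 5 by positivity)
  have k4 := Nat.floor_le (show 0 ≤ R / 4 by positivity)
  have k5 := (Nat.lt_floor_add_one (R / 4)).le
  have hL0 : (100 : ℝ) * E.Λ.rg ≤ E.L := by
    have h1 := hE.big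
    have h2 := gs_rg hG
    have h3 : 100 * 4 * p.r₀ ≤ 100 * p.w * p.r₀ := by gcongr
    exact_mod_cast (show 100 * E.Λ.rg ≤ E.L by omega)
  have n1' : 4 * ⌈3 * R⌉₊ ≤ E.N := by exact_mod_cast (show 4 * (⌈3 * R⌉₊ : ℝ) ≤ E.N by linarith)
  have n2' : ⌊R / 4⌋₊ + 1 ≤ ⌈3 * R⌉₊ := by
    exact_mod_cast (show (⌊R / 4⌋₊ : ℝ) + 1 ≤ ⌈3 * R⌉₊ by linarith)
  have n3' : E.Λ.rg + ⌊R / 5⌋₊ ≤ E.N := by
    exact_mod_cast (show (E.Λ.rg : ℝ) + ⌊R / 5⌋₊ ≤ E.N by linarith)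
  have n4' : b ≤ E.N := by exact_mod_cast (show (b : ℝ) ≤ E.N by linarith)
  have n5' : ⌈3 * R⌉₊ ≤ b := by exact_mod_cast (show (⌈3 * R⌉₊ : ℝ) ≤ b by linarith)
  have n6' : ⌊R / 5⌋₊ ≤ ⌈3 * R⌉₊ := by exact_mod_cast (show (⌊R / 5⌋₊ : ℝ) ≤ ⌈3 * R⌉₊ by linarith)
  have sv : Pot.Sup (bl 0 ⌊R / 4⌋₊) (S4.vv p.w R) := sup_chi (by positivity) (by
    have : R / (16 * p.w) ≤ R / 64 := by gcongr; linarith
    linarith)
  have iX : ∀ {u : Pt → ℝ}, Pot.Sup (bl 0 ⌊R / 4⌋₊) u →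
      Ins 0 ⌈3 * R⌉₊ fun s => X u s * cp (xi R) (-(π / 2)) s := fun hu =>
    E30.ins_mul (E30.ins_prA0 hu n2') (E30.ins_cp (E30.chq_xi R0 (by linarith)) _)
  obtain ⟨κ, hκ⟩ : ∃ κ, κ = α₂ * π * gk E.ω R * ph (gk E.ω R) a₁ R := ⟨_, rfl⟩
  obtain ⟨f, hf⟩ : ∃ f : Pt → ℝ, f = fun z =>
    E.ω fun s => X (S4.vv p.w R) s * cp (xi R) (-(π / 2)) s * E.e z s := ⟨_, rfl⟩
  rw [← hκ] at hR ⊢
  have z0 : xi R - A0 0 = xi R := by funext x; simp [A0]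
  have site : ∀ z ∈ bl 0 b, |f z + κ * S4.vv p.w R z| ≤ P * t ^ (2 * nr p.w + 8) / R ^ 2 +
      if z ∈ bl 0 ⌈3 * R⌉₊ then P * t ^ 8 / R ^ 2 else 0 := fun z hz => by
    rw [hf]
    by_cases h1 : z ∈ bl 0 ⌊R / 5⌋₊
    · obtain ⟨a, e⟩ := (hD z).1 h1
      have k := hR z _ _ hz a
      have k' := hA z h1
      have iz : Ins 0 E.N (E.e z) := E30.ins_mono (hB _ _ _ _ hE z).2.2.1 (bl_subset_bl h1 n3')
      have su : Pot.Sup (bl 0 ⌊R / 4⌋₊) (sw (S4.vv p.w R) z ρ) := by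
        simpa only [sub_sub_cancel] using sv.sub a.s1
      rw [z0, e] at k
      have xs : ∀ (u u' : Pt → ℝ) s, X (u - u') s = X u s - X u' s := fun u u' s => by
        simp only [X, A0_sub, pr_sub, AddMonoidHom.sub_apply]
      simp only [xs, sub_mul] at k
      rw [hE.ex_sub (E30.ins_mul (E30.ins_le (iX sv) (by omega)) iz)
        (E30.ins_mul (E30.ins_le (iX su) (by omega)) iz)] at k
      rw [if_pos (bl_mono 0 n6' h1)]
      rw [abs_le] at k k' ⊢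
      exact ⟨by linarith [k.1, k'.1], by linarith [k.2, k'.2]⟩
    by_cases h2 : z ∈ bl 0 ⌈3 * R⌉₊
    · have k := hR z _ _ hz ((hD z).2.1 h2 h1)
      have k' := hM z h2 h1
      rw [if_pos h2]
      rw [abs_le] at k k' ⊢
      exact ⟨by linarith [k.1, k'.1], by linarith [k.2, k'.2]⟩
    · have k := hR z _ _ hz ((hD z).2.2 h2)
      rw [z0] at k
      rw [if_neg h2, add_zero]
      exact k
  have e1 : E.ω' (fun s => X (Xi.chi (R / (16 * p.w))) s * Sn R s) = ∑ z ∈ E.D, f z := by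
    rw [hf, E30.Sn_eq]; exact h.ed.der _ (E30.ins_le (iX sv) (by omega))
  have e2 : ∑ x ∈ bl 0 ⌊R / 4⌋₊, Xi.chi (R / (16 * p.w)) x = ∑ x ∈ bl 0 b, S4.vv p.w R x :=
    sum_subset (bl_mono 0 (by omega)) fun x _ hx => sv x hx
  have s1 : |∑ z ∈ E.D \ bl 0 b, f z| ≤ P * t ^ 7 := (abs_sum_le_sum_abs _ _).trans (by rw [hf]; exact hF)
  have s2 := (abs_sum_le_sum_abs _ _).trans (sum_le_sum site)
  rw [sum_add_distrib, sum_add_distrib, sum_const, ← mul_sum, ← sum_filter, sum_const, nsmul_eq_mul,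
    nsmul_eq_mul, filter_mem_eq_inter, inter_eq_right.2 (bl_mono 0 n5'), card_bl, card_bl] at s2
  have s3 : (((2 * b + 1) ^ 2 : ℕ) : ℝ) * (P * t ^ (2 * nr p.w + 8) / R ^ 2) ≤ 9 * (P * t ^ 8) := by
    calc _ ≤ (3 * B) ^ 2 * (P * t ^ (2 * nr p.w + 8) / R ^ 2) := by push_cast; gcongr; linarith
      _ = 9 * P * (B ^ 2 * t ^ (2 * nr p.w + 8)) / R ^ 2 := by ring
      _ = _ := by rw [Bt]; field_simp
  have s4 : (((2 * ⌈3 * R⌉₊ + 1) ^ 2 : ℕ) : ℝ) * (P * t ^ 8 / R ^ 2) ≤ 49 * (P * t ^ 8) := by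
    calc _ ≤ (7 * R) ^ 2 * (P * t ^ 8 / R ^ 2) := by push_cast; gcongr; linarith
      _ = _ := by field_simp; norm_num
  have s5 : P * t ^ 8 ≤ P * t ^ 7 := by gcongr _ * ?_; exact N3.pow_anti t0 t1 (by norm_num)
  have s6 : 200 * (P * t ^ 7) ≤ P * t ^ 6 := by
    calc _ = 200 * t * (P * t ^ 6) := by ring
      _ ≤ _ := mul_le_of_le_one_left (by positivity) (mC c0)
  have s7 : 0 ≤ P * t ^ 7 := by positivity
  rw [e1, e2, ← sum_sdiff ((bl_mono 0 n4').trans h.ed.lo), add_assoc]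
  linarith [abs_add_le (∑ z ∈ E.D \ bl 0 b, f z) (∑ z ∈ bl 0 b, f z + κ * ∑ x ∈ bl 0 b, S4.vv p.w R x)]

end Crest.Agent.T145.Ev
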