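import Crest.Agent.T145.FlBas_4
import Crest.Agent.T145.FlA_51
import Crest.Agent.T145.FlRate_98
import Crest.Agent.T145.FlBare_80
import Crest.Agent.T145.FlKb_14
import Crest.Agent.T145.FlDef2_82

/-!
# Row 145, module Fl: dependence on the ambient model (`Fl.amb0Stmt`, `Fl.ambKStmt`, helper4)
-/

set_option autoImplicit false

namespace Crest.Agent.T145.Fl

open Finset Pot Xi Real

namespace Amb4

variable {p : Par} {Λ : Lat} {L N : ℕ} {ω : (Cfg Pt → ℝ) → ℝ} {m m' : Mdl Pt} {z : Pt}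
  {F : Cfg Pt → ℝ} {r : ℕ}

theorem abs_ex_le (h : Gs p Λ L) (h0 : p.r₀ ≤ r) (hL : p.w * r ≤ L) (hm : Nc.Amb Λ m (bl z (p.w * r)))
    (hF : Ins z r F) : |Ex (m.W 0) F| ≤ 2 * nu Λ p.w z r F := by
  have h4 := A51.four_le h r
  have hq : bl z r ⊆ bl z (p.w * r) := bl_mono z (by omega)
  have h1 := FlF4.fus0 h.mem.ok (hq.trans hm.sub) (A51.ir h h0 hF) hm subset_rfl
  exact (FlF4.abs_ex_le_nc hm.ctr hm.anch (hq.trans hm.sub) h1.1).trans (h1.2.trans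
    (mul_le_mul_of_nonneg_right (A51.gam_le h h0 (by omega)).2 (A51.nu_nonneg h.mem.ok _ _ _ _)))

/-- the norm in any larger free box -/
theorem Nm_St_le (h : Gs p Λ L) (h0 : p.r₀ ≤ r) (hL : r ≤ L) (hF : Ins z r F) {c : ℕ}
    (hc : p.w * r ≤ c) : Nc.Nm Λ z c (Nc.St Λ z r F) ≤ 2 * nu Λ p.w z r F :=
  have h1 := A51.ir h h0 hF
  (FlF4.nu_box h.mem.ok le_rfl h1.rc hc h1.dep h1.ig).2.trans
    (mul_le_mul_of_nonneg_right (A51.gam_le h h0 hL).2 (A51.nu_nonneg h.mem.ok _ _ _ _))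

theorem amb0 : Amb0Stmt := by
  intro w
  obtain ⟨C, hC, H⟩ := rateStmt w
  refine ⟨2 * C * (2 * w), by positivity, ?_⟩
  rintro p Λ L rfl h m m' z z' r F hm hm' h0 hL hF
  have ok := h.mem.ok
  have h4 := h.w4
  have h2 := Kb14.two_le_r0 h
  have h7 := h.gd.2.1
  have h1 : p.w * (L / p.w) ≤ L := Nat.mul_div_le _ _
  have h3 : r ≤ L / p.w := (Nat.le_div_iff_mul_le (by omega)).2 (by rwa [mul_comm])
  have h5 : L < p.w * (L / p.w + 1) := Nat.lt_mul_div_succ _ (by omega)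
  set R := L / p.w
  have h8 := A51.four_le h R
  have h9 := A51.four_le h r
  have k0 : ∀ (m : Mdl Pt) (z : Pt), Nc.Amb Λ m (bl z L) →
      nu Λ p.w 0 R (fun s => F s - Ex (m.W 0) (trl z F)) ≤
        C * ((r : ℝ) / R) ^ cw p.w * nu Λ p.w 0 r F := fun m z hm => by
    rw [← ((semiStmt Λ p.w R z ok (by omega)).2 _ ((hF.mono h3).sub_const _)).2.1,
      ← ((semiStmt Λ p.w r z ok (by omega)).2 _ hF).2.1]
    exact H p Λ L rfl h m z r R _ h0 h3 h1 (FlF4.amb_mono hm (bl_mono z h1)) (hF.trl z)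
  have k1 := (((semiStmt Λ p.w R 0 ok (by omega)).1 _
    ((hF.mono h3).sub_const (Ex (m'.W 0) (trl z' F)))).2.2.2.2 _
    ((hF.mono h3).sub_const (Ex (m.W 0) (trl z F)))).2
  simp only [sub_sub_sub_cancel_left] at k1
  rw [A51.nu_eq, FlF4.nu_const ok] at k1
  have k2 := k0 m z hm
  have k2' := k0 m' z' hm'
  have hw : (4 : ℝ) ≤ p.w := by exact_mod_cast h4
  have hR : (1 : ℝ) ≤ R := by exact_mod_cast (by omega : 1 ≤ R)
  have hL0 : (0 : ℝ) < L := by exact_mod_cast (by omega : 0 < L)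
  have h6 : (L : ℝ) ≤ 2 * p.w * R := by exact_mod_cast (by nlinarith : L ≤ 2 * p.w * R)
  have k3 : ((r : ℝ) / R) ^ cw p.w ≤ 2 * p.w * ((r : ℝ) / L) ^ cw p.w := by
    have a1 : (r : ℝ) / R ≤ 2 * p.w * ((r : ℝ) / L) := by
      rw [← mul_div_assoc, div_le_div_iff₀ (by positivity) hL0]
      nlinarith [(Nat.cast_nonneg r : (0 : ℝ) ≤ r)]
    refine (rpow_le_rpow (by positivity) a1 (cw_nonneg _)).trans ?_
    rw [mul_rpow (by positivity) (by positivity)]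
    exact mul_le_mul_of_nonneg_right ((rpow_le_rpow_of_exponent_le (by linarith)
      ((cw_le' h4).trans (by norm_num))).trans_eq (rpow_one _)) (by positivity)
  have hn := A51.nu_nonneg h.mem.ok p.w 0 r F
  calc _ ≤ 2 * (C * ((r : ℝ) / R) ^ cw p.w * nu Λ p.w 0 r F) := by linarith
    _ ≤ 2 * (C * (2 * p.w * ((r : ℝ) / L) ^ cw p.w) * nu Λ p.w 0 r F) := by gcongr
    _ = _ := by ring

theorem part1 (w : ℕ) : ∃ C : ℝ, 0 ≤ C ∧ ∀ (p : Par) Λ ω L N, p.w = w → Env p Λ ω L N →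
    ∀ (m : Mdl Pt) (z : Pt), Nc.Amb Λ m (bl z L) → ∀ (r : ℕ) (F : Cfg Pt → ℝ), p.r₀ ≤ r → w * r ≤ L →
      Ins 0 r F → |Ex (m.W 0) (trl z F) - ω F| ≤ C * ((r : ℝ) / L) ^ cw w * nu Λ w 0 r F := by
  obtain ⟨C, hC, H⟩ := amb0 w
  refine ⟨C, hC, ?_⟩
  rintro p Λ ω L N rfl h m z hm r F h0 hL hF
  obtain ⟨m', hm', e⟩ := h.amb 0
  have h4 := A51.four_le h.toGs r
  have h5 := h.le
  have := H p Λ L rfl h.toGs m m' z 0 r F hm (FlF4.amb_mono hm' (bl_mono 0 h5)) h0 hL hF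
  rwa [trl_zero, ← e F (hF.mono (by omega)).1] at this

theorem nm_JJ (F : Fa) : ∃ C : ℝ, 0 ≤ C ∧ ∀ Λ, F.Mem Λ → ∀ (x : Pt) (n c : ℕ), x ∈ bl 0 n → n + 1 ≤ c →
    Nc.Nm Λ 0 c (fun s => Jz 0 s * Jz x s) ≤ C := by
  obtain ⟨C, hC, h⟩ := bareStmt F
  refine ⟨C * 4, by positivity, fun Λ hΛ x n c hx hc => ?_⟩
  have hW := hΛ.ok.cen_Nr_bl (self_mem_bl (0 : Pt) c)
  have key : ∀ y ∈ bl 0 n, Nc.EN Λ 0 c (fun s => Jz y s ^ 2) ≤ C * 4 := fun y hy => by
    have := ((h Λ hΛ 0 n (dl y) (sup_dl hy)).2.2 c hc).1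
    simp only [← Jz_eq_pr] at this
    refine this.trans_eq ?_
    rw [E0, show ∑ x ∈ bl 0 n, dl y x * A0 (dl y) x = _ from ip_dl hy _]
    simp [A0, Prod.ext_iff]
  have i1 := hW.ig ((tame_Jz 0).pow 2)
  have i2 := hW.ig ((tame_Jz x).pow 2)
  have k := Ex_mono hW.nonneg (hW.ig (((tame_Jz 0).mul (tame_Jz x)).abs.const_mul 2)) (i1.add i2)
    fun s => by
      rw [abs_mul, ← sq_abs (Jz 0 s), ← sq_abs (Jz x s)]; nlinarith [sq_nonneg (|Jz 0 s| - |Jz x s|)]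
  rw [Ex_const_mul, Ex_add i1 i2] at k
  have k1 := key 0 (self_mem_bl _ _)
  have k2 := key x hx
  simp only [Nc.Nm, Nc.EN] at k1 k2 ⊢
  linarith

set_option maxHeartbeats 800000 in
theorem nu_JJ (p : Par) : ∃ C : ℝ, 0 ≤ C ∧ ∀ Λ L, Gs p Λ L → ∀ R Y M : ℝ, Maj p Λ L R Y →
    1 ≤ M → ∀ (x : Pt) (d : ℕ), x ∈ bl 0 d → (∀ k, k < d → x ∉ bl 0 k) → x ≠ 0 → (d : ℝ) ≤ M * R →
      p.w * (2 * d + p.r₀) ≤ L →
      nu Λ p.w 0 (2 * d + p.r₀) (fun s => Jz 0 s * Jz x s) * eu x ^ 4 *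
        ((2 * d + p.r₀ : ℕ) : ℝ) ^ cw p.w ≤
        C * (Y ^ 2 * (M ^ 2 * R) ^ (2 * ew p.w)) * eu x ^ (cw p.w - 2 * ew p.w) := by
  obtain ⟨C, hC, H⟩ := nm_JJ p.F
  obtain ⟨κ, hκ⟩ : ∃ κ : ℝ, κ = 4 * (2 * p.w + 1) := ⟨_, rfl⟩
  obtain ⟨D, hD⟩ : ∃ D : ℝ, D = 3 * ((2 * p.w + 1) * p.r₀) := ⟨_, rfl⟩
  have hw0 : (0 : ℝ) ≤ p.w := Nat.cast_nonneg _
  have hκ1 : 1 ≤ κ := by rw [hκ]; linarith
  have hD0 : 0 ≤ D := by rw [hD]; positivity
  refine ⟨48 * κ ^ 5 + C * D ^ 5, by positivity, fun Λ L h R Y M hY hM x d hd hd' hx0 hdM hL => ?_⟩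
  have h2 := Kb14.two_le_r0 h
  have h4 := h.w4
  have h5 := h.gd.2.1
  have h6 := A51.four_le h (2 * d + p.r₀)
  have ok := h.mem.ok
  have e0 := ew_nonneg p.w
  have e1 := ew_le' h4
  have c0 := cw_eq_ew p.w
  have hR := hY.one_le
  have hx1 := one_le_eu hx0
  have hxd : eu x ≤ 2 * d := by simpa using eu_le_of_bl hd
  have hT : 1 ≤ Y ^ 2 * (M ^ 2 * R) ^ (2 * ew p.w) := by
    have a1 : R ^ (-(2 * ew p.w)) ≤ Y ^ 2 := by
      rw [show -(2 * ew p.w) = -ew p.w * 2 by ring, rpow_mul (by linarith), rpow_two]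
      exact pow_le_pow_left₀ (by positivity) hY.2.1 2
    have a2 : R ^ (2 * ew p.w) ≤ (M ^ 2 * R) ^ (2 * ew p.w) :=
      rpow_le_rpow (by linarith) (le_mul_of_one_le_left (by linarith) (one_le_pow₀ hM)) (by linarith)
    calc (1 : ℝ) = R ^ (-(2 * ew p.w)) * R ^ (2 * ew p.w) := by
          rw [← rpow_add (by linarith), neg_add_cancel, rpow_zero]
      _ ≤ _ := by gcongr
  have hE : 1 ≤ eu x ^ (cw p.w - 2 * ew p.w) := one_le_rpow hx1 (by linarith)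
  have hJJ : Ins 0 (2 * d + p.r₀) fun s => Jz 0 s * Jz x s :=
    (ins_Jz 0 (by omega)).mul ((ins_Jz x le_rfl).move hd (by omega))
  set a := d / (2 * p.w + 1)
  have ha1 : (2 * p.w + 1) * a ≤ d := Nat.mul_div_le _ _
  have ha2 : d < (2 * p.w + 1) * (a + 1) := Nat.lt_mul_div_succ _ (by omega)
  by_cases ha : p.r₀ ≤ a
  · have ha3 : 2 * (p.w * a) < d := by nlinarith
    have h7 := A51.four_le h a
    have hx' := hd' _ ha3
    have dis : Disjoint (bl 0 (p.w * a)) (bl x (p.w * a)) := disjoint_left.2 fun y hy hy' => hx' (by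
      simp only [mem_bl, Prod.fst_zero, Prod.snd_zero] at hy hy' ⊢; omega)
    have k1 := (fusStmt p Λ L h 0 (2 * d + p.r₀) hL).2.2 Bool univ (fun i => cond i 0 x) (fun _ => a)
      (fun i => Jz (cond i 0 x)) (fun _ => 1) (by omega) ⟨by simp, fun i _ => ins_Jz _ (by omega),
        fun _ _ => ⟨ha, by omega⟩, fun i _ => by
          cases i
          exacts [bl_subset_bl hd (by omega), bl_mono 0 (by omega)],
        fun i _ j _ hij => by
          cases i <;> cases j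
          exacts [absurd rfl hij, dis.symm, dis, absurd rfl hij]⟩ (DepG.const _ _)
      (fun _ _ => Out.const _ _) (by simp)
    have e := ((semiStmt Λ p.w a x ok (by omega)).2 (Jz 0) (ins_Jz _ (by omega))).2.1
    rw [trl_Jz] at e
    simp only [Fintype.prod_bool, cond_true, cond_false, mul_one, e] at k1
    have k2 := hY.prof a ha (by omega)
    have k3 := A51.nu_nonneg ok p.w 0 a (Jz 0)
    have ha0 : (1 : ℝ) ≤ a := by exact_mod_cast (by omega : 1 ≤ a)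
    have k4 : eu x ≤ κ * a := by
      have : (d : ℝ) ≤ (2 * p.w + 1) * (a + 1) := by exact_mod_cast ha2.le
      rw [hκ]; nlinarith
    have had : (a : ℝ) ≤ M * R := le_trans (by exact_mod_cast (by nlinarith : a ≤ d)) hdM
    have k5 : R / a ≤ M ^ 2 * R / a := by gcongr; nlinarith
    have k6 : max (a / R) (R / a) ≤ κ * (M ^ 2 * R / eu x) := by
      refine (max_le ?_ k5).trans ?_
      · rw [div_le_div_iff₀ (by linarith) (by linarith)]; nlinarith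
      · rw [← mul_div_assoc, div_le_div_iff₀ (by linarith) (by linarith)]
        nlinarith [mul_le_mul_of_nonneg_left k4 (show 0 ≤ M ^ 2 * R by positivity)]
    have k7 : (max (a / R) (R / a) ^ ew p.w) ^ 2 ≤
        κ * ((M ^ 2 * R) ^ (2 * ew p.w) / eu x ^ (2 * ew p.w)) := by
      have : 0 ≤ max (a / R) (R / a) := le_max_of_le_left (by positivity)
      rw [← rpow_two, ← rpow_mul this, mul_comm (ew p.w)]
      refine (rpow_le_rpow this k6 (by linarith)).trans ?_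
      rw [mul_rpow (by positivity) (by positivity), div_rpow (by positivity) (by positivity)]
      exact mul_le_mul_of_nonneg_right ((rpow_le_rpow_of_exponent_le hκ1 (by linarith)).trans_eq
        (rpow_one _)) (by positivity)
    have k8 : ((2 * d + p.r₀ : ℕ) : ℝ) ^ cw p.w ≤ 3 * eu x ^ cw p.w := by
      have b1 := le_eu_of_not_bl (hd' (d - 1) (by omega))
      rw [sub_zero, Nat.cast_sub (by omega), Nat.cast_one, sub_add_cancel] at b1
      have b2 : ((2 * d + p.r₀ : ℕ) : ℝ) ≤ 3 * eu x :=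
        le_trans (by exact_mod_cast (by nlinarith : 2 * d + p.r₀ ≤ 3 * d)) (by linarith : 3 * (d : ℝ) ≤ _)
      refine (rpow_le_rpow (by positivity) b2 (by linarith)).trans ?_
      rw [mul_rpow (by positivity) (by positivity)]
      exact mul_le_mul_of_nonneg_right ((rpow_le_rpow_of_exponent_le (by norm_num)
        (by linarith)).trans_eq (rpow_one _)) (by positivity)
    have hY0 := hY.pos
    have k9 : ((a : ℝ) ^ 2 * nu Λ p.w 0 a (Jz 0)) ^ 2 ≤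
        Y ^ 2 * (κ * ((M ^ 2 * R) ^ (2 * ew p.w) / eu x ^ (2 * ew p.w))) :=
      (pow_le_pow_left₀ (by positivity) k2 2).trans (by rw [mul_pow]; gcongr)
    calc _ ≤ 16 * (nu Λ p.w 0 a (Jz 0) * nu Λ p.w 0 a (Jz 0)) * (κ * a) ^ 4 * (3 * eu x ^ cw p.w) := by
          gcongr
      _ = 48 * κ ^ 4 * ((a : ℝ) ^ 2 * nu Λ p.w 0 a (Jz 0)) ^ 2 * eu x ^ cw p.w := by ring
      _ ≤ 48 * κ ^ 4 * (Y ^ 2 * (κ * ((M ^ 2 * R) ^ (2 * ew p.w) / eu x ^ (2 * ew p.w)))) *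
          eu x ^ cw p.w := by gcongr
      _ = 48 * κ ^ 5 * (Y ^ 2 * (M ^ 2 * R) ^ (2 * ew p.w)) * eu x ^ (cw p.w - 2 * ew p.w) := by
          rw [rpow_sub (by linarith)]; ring
      _ ≤ _ := by gcongr; exact le_add_of_nonneg_right (by positivity)
  · have k1 : d ≤ (2 * p.w + 1) * p.r₀ := ha2.le.trans (Nat.mul_le_mul_left _ (by omega))
    have k2 := (((semiStmt Λ p.w _ 0 ok (by omega)).1 _ hJJ).2.1).trans
      (H Λ h.mem x d _ hd (by omega))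
    have k0 : (d : ℝ) ≤ (2 * p.w + 1) * p.r₀ := by exact_mod_cast k1
    have r0 : (0 : ℝ) ≤ p.r₀ := Nat.cast_nonneg _
    have k3 : eu x ≤ D := by rw [hD]; nlinarith
    have k4 : ((2 * d + p.r₀ : ℕ) : ℝ) ^ cw p.w ≤ D := by
      refine ((rpow_le_rpow_of_exponent_le (by exact_mod_cast (by omega : 1 ≤ 2 * d + p.r₀))
        (by linarith : cw p.w ≤ 1)).trans_eq (rpow_one _)).trans ?_
      push_cast; rw [hD]; nlinarith
    calc _ ≤ C * D ^ 4 * D := by gcongr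
      _ = C * D ^ 5 * 1 * 1 := by ring
      _ ≤ _ := by gcongr; exact le_add_of_nonneg_left (by positivity)

theorem ambK : AmbKStmt := by
  intro p
  obtain ⟨C₁, hC₁, H₁⟩ := amb0 p.w
  obtain ⟨C₂, hC₂, H₂⟩ := nu_JJ p
  refine ⟨C₁ * C₂ * (8 / |cw p.w - 2 * ew p.w|) + p.w * (2 + p.r₀), by positivity,
    fun Λ L h R Y M hY hM m m' z z' n hm hm' hn hL => ?_⟩
  have h2 := Kb14.two_le_r0 h
  have h4 := h.w4
  have e0 := ew_pos (w := p.w) (by omega)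
  have e1 := ew_le' h4
  have c0 := cw_eq_ew p.w
  have hR := hY.one_le
  have g0 : 0 < cw p.w - 2 * ew p.w := by linarith
  have hL' : p.w * (2 + p.r₀) * n ≤ L := by
    have : (p.w * (2 + p.r₀) : ℝ) * n ≤ L := le_trans (by gcongr; exact le_add_of_nonneg_left (by positivity)) hL
    exact_mod_cast this
  rw [abs_of_pos g0, ← sum_sdiff (bl_mono 0 n.zero_le), sum_eq_zero (s := bl 0 0) fun x hx => by
    have : x = 0 := by
      simp only [mem_bl, Prod.fst_zero, Prod.snd_zero, Prod.ext_iff] at hx ⊢; omega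
    simp [this], add_zero]
  rcases n.eq_zero_or_pos with rfl | hn0
  · rw [sdiff_self, bot_eq_empty, sum_empty]; positivity
  have hL0 : (0 : ℝ) < L := by
    have : 0 < p.w * (2 + p.r₀) * n := by positivity
    exact_mod_cast (by omega : 0 < L)
  have key : ∀ x ∈ bl (0 : Pt) n \ bl 0 0,
      |Ex (m.W 0) (fun s => Jz z s * Jz (z + x) s) -
        Ex (m'.W 0) fun s => Jz z' s * Jz (z' + x) s| * eu x ^ 2 ≤
        C₁ * C₂ * (Y ^ 2 * (M ^ 2 * R) ^ (2 * ew p.w) / (L : ℝ) ^ cw p.w) *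
          (eu (x - 0) ^ (cw p.w - 2 * ew p.w) / eu (x - 0) ^ 2) := by
    intro x hx
    obtain ⟨hx, hx'⟩ := mem_sdiff.1 hx
    have hx0 : x ≠ 0 := fun e => hx' (e ▸ self_mem_bl _ _)
    obtain ⟨d, hd, hd'⟩ : ∃ d : ℕ, x ∈ bl 0 d ∧ ∀ k, k < d → x ∉ bl 0 k :=
      ⟨max x.1.natAbs x.2.natAbs, by simp only [mem_bl, Prod.fst_zero, Prod.snd_zero]; omega,
        fun k hk => by simp only [mem_bl, Prod.fst_zero, Prod.snd_zero]; omega⟩
    have hdn : d ≤ n := by by_contra h'; exact hd' n (by omega) hx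
    have hdL : p.w * (2 * d + p.r₀) ≤ L := by
      refine le_trans ?_ hL'
      rw [mul_assoc]
      exact Nat.mul_le_mul_left _ (by nlinarith)
    have k1 := H₁ p Λ L rfl h m m' z z' (2 * d + p.r₀) (fun s => Jz 0 s * Jz x s) hm hm' (by omega) hdL
      ((ins_Jz 0 (by omega)).mul ((ins_Jz x le_rfl).move hd (by omega)))
    simp only [trl_mul, Om.trl_Jz, zero_add, add_comm x] at k1
    have k2 := H₂ Λ L h R Y M hY hM x d hd hd' hx0 (le_trans (by exact_mod_cast hdn) hn) hdL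
    have hx1 := one_le_eu hx0
    rw [sub_zero]
    refine (mul_le_mul_of_nonneg_right k1 (by positivity)).trans ?_
    rw [div_rpow (by positivity) hL0.le]
    calc _ = C₁ / ((L : ℝ) ^ cw p.w * eu x ^ 2) * (nu Λ p.w 0 (2 * d + p.r₀)
          (fun s => Jz 0 s * Jz x s) * eu x ^ 4 * ((2 * d + p.r₀ : ℕ) : ℝ) ^ cw p.w) := by
          field_simp
      _ ≤ C₁ / ((L : ℝ) ^ cw p.w * eu x ^ 2) *
          (C₂ * (Y ^ 2 * (M ^ 2 * R) ^ (2 * ew p.w)) * eu x ^ (cw p.w - 2 * ew p.w)) := by gcongr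
      _ = _ := by field_simp
  refine (sum_le_sum key).trans ?_
  rw [← mul_sum]
  have k3 := Kb14.sum_up 0 g0 (by linarith) n.zero_le
  have k4 : (M ^ 2 * R) ^ (2 * ew p.w) * (n : ℝ) ^ (cw p.w - 2 * ew p.w) ≤ M * R ^ cw p.w := by
    have a1 : (n : ℝ) ^ (cw p.w - 2 * ew p.w) ≤ (M * R) ^ (cw p.w - 2 * ew p.w) :=
      rpow_le_rpow (by positivity) hn g0.le
    have a2 : (M ^ 2) ^ (2 * ew p.w) * M ^ (cw p.w - 2 * ew p.w) ≤ M := by
      rw [← rpow_two, ← rpow_mul (by linarith), ← rpow_add (by linarith)]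
      exact (rpow_le_rpow_of_exponent_le hM (by linarith)).trans_eq (rpow_one _)
    have a3 : R ^ (2 * ew p.w) * R ^ (cw p.w - 2 * ew p.w) = R ^ cw p.w := by
      rw [← rpow_add (by linarith)]; congr 1; ring
    calc _ ≤ (M ^ 2 * R) ^ (2 * ew p.w) * (M * R) ^ (cw p.w - 2 * ew p.w) := by gcongr
      _ = (M ^ 2) ^ (2 * ew p.w) * M ^ (cw p.w - 2 * ew p.w) *
          (R ^ (2 * ew p.w) * R ^ (cw p.w - 2 * ew p.w)) := by
          rw [mul_rpow (by positivity) (by positivity), mul_rpow (by positivity) (by positivity)]; ring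
      _ ≤ _ := by rw [a3]; gcongr
  calc _ ≤ C₁ * C₂ * (Y ^ 2 * (M ^ 2 * R) ^ (2 * ew p.w) / (L : ℝ) ^ cw p.w) *
        (8 / (cw p.w - 2 * ew p.w) * (n : ℝ) ^ (cw p.w - 2 * ew p.w)) := by gcongr
    _ = C₁ * C₂ * (8 / (cw p.w - 2 * ew p.w)) * Y ^ 2 *
        ((M ^ 2 * R) ^ (2 * ew p.w) * (n : ℝ) ^ (cw p.w - 2 * ew p.w)) / (L : ℝ) ^ cw p.w := by ring
    _ ≤ C₁ * C₂ * (8 / (cw p.w - 2 * ew p.w)) * Y ^ 2 * (M * R ^ cw p.w) / (L : ℝ) ^ cw p.w := by gcongr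
    _ = C₁ * C₂ * (8 / (cw p.w - 2 * ew p.w)) * M * Y ^ 2 * (R / L) ^ cw p.w := by
        rw [div_rpow (by linarith) hL0.le]; ring
    _ ≤ _ := by gcongr; exact le_add_of_nonneg_right (by positivity)

/-- sharp against smooth cut-off -/
theorem part3 (p : Par) : ∃ C : ℝ, 0 ≤ C ∧ ∀ Λ ω L N, Env p Λ ω L N → ∀ R Y M : ℝ, Maj p Λ L R Y →
    1 ≤ M → ∀ r : ℕ, R / M ≤ r → (r : ℝ) ≤ M * R → r ≤ L → 2 * R + 1 ≤ L →
      |-(1 / 4) * ∑ x ∈ bl 0 r, KK ω x * eu x ^ 2 - gk ω R| ≤ C * (M ^ 5 * Y ^ 2) := by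
  obtain ⟨C, hC, H⟩ := Kb14.part1 semiStmt prodStmt bareStmt p
  refine ⟨C * 294, by positivity, fun Λ ω L N h R Y M hY hM r h1 h2 h3 h4 => ?_⟩
  have hR := hY.one_le
  have hc : (⌈2 * R⌉₊ : ℝ) ≤ 2 * R + 1 := (Nat.ceil_lt_add_one (by linarith)).le
  set n := max r ⌈2 * R⌉₊ with hn
  have hnL : n ≤ L := max_le h3 (by exact_mod_cast hc.trans h4)
  have hnM : (n : ℝ) ≤ 3 * (M * R) := by
    rw [hn, Nat.cast_max]; exact max_le (by nlinarith) (by nlinarith)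
  have e1 : ∑ x ∈ bl 0 r, KK ω x * eu x ^ 2 =
      ∑ x ∈ bl 0 n, KK ω x * eu x ^ 2 * if x ∈ bl 0 r then 1 else 0 := by
    simp only [mul_ite, mul_one, mul_zero]
    rw [← sum_filter, filter_mem_eq_inter, inter_eq_right.2 (bl_mono 0 (le_max_left _ _))]
  have e2 : ∑ x ∈ bl 0 ⌈2 * R⌉₊, KK ω x * eu x ^ 2 * Xi.chi R x =
      ∑ x ∈ bl 0 n, KK ω x * eu x ^ 2 * Xi.chi R x :=
    sum_subset (bl_mono 0 (le_max_right _ _)) fun x _ hx => by
      rw [sup_chi (by linarith) ((Nat.le_ceil _).trans (by linarith)) x hx, mul_zero]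
  rw [gk, e1, e2, ← mul_sub, ← sum_sub_distrib, abs_mul]
  have key : ∀ x ∈ bl (0 : Pt) n, |KK ω x * eu x ^ 2 * (if x ∈ bl 0 r then 1 else 0) -
      KK ω x * eu x ^ 2 * Xi.chi R x| ≤ C * Y ^ 2 * (6 * M) * (M / R) ^ 2 := by
    intro x hx
    by_cases hx1 : eu x ≤ R / M
    · have a1 : x ∈ bl 0 r := mem_bl_of_eu (by rw [sub_zero]; linarith)
      rw [if_pos a1, chi_one_of_eu (by linarith) (hx1.trans (div_le_self (by linarith) hM)), sub_self,
        abs_zero]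
      positivity
    have hx2 : R / M < eu x := not_le.1 hx1
    have hx3 : 0 < eu x := lt_trans (by positivity) hx2
    have hx0 : x ≠ 0 := fun e => by simp [e] at hx3
    have a2 : eu x ≤ 2 * n := by simpa using eu_le_of_bl hx
    have a3 := H Λ ω L N h R Y hY x (bl_mono 0 hnL hx) hx0
    have a4 : max (eu x / R) (R / eu x) ^ (2 * ew p.w) ≤ 6 * M := by
      have b1 : max (eu x / R) (R / eu x) ≤ 6 * M := max_ratio_le hx3 (by linarith) (by linarith)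
        (le_trans (by gcongr; linarith) hx2.le) (by linarith)
      have := ew_le' h.w4
      exact (rpow_le_rpow (le_max_of_le_left (by positivity)) b1
        (by linarith [ew_nonneg p.w])).trans ((rpow_le_rpow_of_exponent_le (by linarith)
        (by linarith)).trans_eq (rpow_one _))
    have a5 : |(if x ∈ bl (0 : Pt) r then 1 else 0) - Xi.chi R x| ≤ 1 := by
      have := chi_nonneg R x
      have := chi_le_one R x
      split_ifs <;> rw [abs_le] <;> constructor <;> linarith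
    have a6 : 1 ≤ M / R * eu x := by
      rw [div_lt_iff₀ (by linarith)] at hx2
      rw [div_mul_eq_mul_div, one_le_div (by linarith)]; linarith
    rw [← mul_sub, abs_mul, abs_mul, abs_of_nonneg (sq_nonneg (eu x))]
    calc _ ≤ |KK ω x| * eu x ^ 2 * (M / R * eu x) ^ 2 := by
          gcongr; exact a5.trans (one_le_pow₀ a6)
      _ = |KK ω x| * eu x ^ 4 * (M / R) ^ 2 := by ring
      _ ≤ _ := mul_le_mul_of_nonneg_right (a3.trans (by gcongr)) (by positivity)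
  have k := (abs_sum_le_sum_abs _ _).trans (sum_le_card_nsmul _ _ _ key)
  rw [nsmul_eq_mul, card_bl] at k
  push_cast at k
  have hMR : 1 ≤ M * R := by nlinarith
  have k2 : (2 * (n : ℝ) + 1) ^ 2 ≤ (7 * (M * R)) ^ 2 := by gcongr; linarith
  calc _ ≤ 1 * ((7 * (M * R)) ^ 2 * (C * Y ^ 2 * (6 * M) * (M / R) ^ 2)) := by
        gcongr
        · rw [abs_le]; constructor <;> norm_num
        · exact k.trans (by gcongr)
    _ = _ := by field_simp; ring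

/-- the sharp stiffness in an ambient model against the smooth one in the invariant state -/
theorem gj (p : Par) : ∃ C : ℝ, 0 ≤ C ∧ ∀ Λ ω L N, Env p Λ ω L N → ∀ (m : Mdl Pt) (z : Pt),
    Nc.Amb Λ m (bl z L) → ∀ R Y M : ℝ, Maj p Λ L R Y → 1 ≤ M → ∀ r : ℕ, R / M ≤ r → (r : ℝ) ≤ M * R →
      C * r ≤ L → 2 * R + 1 ≤ L →
      |gJ (m.W 0) z r - gk ω R| ≤ C * Y ^ 2 * (M ^ 5 + M * (R / L) ^ cw p.w) := by
  obtain ⟨C₂, h2, H₂⟩ := ambK p
  obtain ⟨C₃, h3, H₃⟩ := part3 p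
  refine ⟨C₂ + C₃ + 2, by positivity, fun Λ ω L N h m z hm R Y M hY hM r a1 a2 a3 a4 => ?_⟩
  have hR := hY.one_le
  have r0 : (0 : ℝ) ≤ r := Nat.cast_nonneg r
  obtain ⟨m', hm', e⟩ := h.amb 0
  have hN := h.le
  have b1 : 2 * r ≤ L := by exact_mod_cast (by nlinarith : (2 * r : ℝ) ≤ L)
  have b2 : 2 ≤ L := by exact_mod_cast (by linarith : (2 : ℝ) ≤ L)
  have k1 := H₂ Λ L h.toGs R Y M hY hM m m' z 0 r hm (FlF4.amb_mono hm' (bl_mono 0 hN)) a2 (by nlinarith)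
  have k2 := H₃ Λ ω L N h R Y M hY hM r a1 a2 (by omega) a4
  have k3 : |gJ (m.W 0) z r - -(1 / 4) * ∑ x ∈ bl 0 r, KK ω x * eu x ^ 2| ≤
      C₂ * M * Y ^ 2 * (R / L) ^ cw p.w := by
    rw [gJ, ← mul_sub, ← sum_sub_distrib, abs_mul]
    refine le_trans (mul_le_of_le_one_left (abs_nonneg _) (by rw [abs_le]; constructor <;> norm_num))
      ((abs_sum_le_sum_abs _ _).trans (le_trans (le_of_eq (sum_congr rfl fun x hx => ?_)) k1))
    rw [n2, ← eu_sq, ← sub_mul, abs_mul, abs_of_nonneg (sq_nonneg (eu x)), zero_add, KK,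
      e _ ((ins_Jz 0 (by omega)).mul ((ins_Jz x le_rfl).move hx (by omega))).1]
  have k4 := abs_sub_le (gJ (m.W 0) z r) (-(1 / 4) * ∑ x ∈ bl 0 r, KK ω x * eu x ^ 2) (gk ω R)
  have p1 : 0 ≤ M ^ 5 * Y ^ 2 := by positivity
  have p2 : 0 ≤ M * Y ^ 2 * (R / L) ^ cw p.w := by positivity
  nlinarith [mul_nonneg h2 p1, mul_nonneg h3 p2]

/-- two invariant states -/
theorem gk_amb (p : Par) : ∃ C : ℝ, 0 ≤ C ∧ ∀ Λ ω L N ω' L' N', Env p Λ ω L N → Env p Λ ω' L' N' →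
    L ≤ N' → (∀ (r : ℕ) (F : Cfg Pt → ℝ), p.r₀ ≤ r → p.w * r ≤ L → Ins 0 r F →
      |ω' F - ω F| ≤ C * ((r : ℝ) / L) ^ cw p.w * nu Λ p.w 0 r F) ∧
    ∀ R Y : ℝ, Maj p Λ L R Y → C * R ≤ L → |gk ω' R - gk ω R| ≤ C * Y ^ 2 * (R / L) ^ cw p.w := by
  obtain ⟨C₁, h1, H₁⟩ := part1 p.w
  obtain ⟨C, hC, H⟩ := ambK p
  refine ⟨C₁ + 3 * C + 4, by positivity, fun Λ ω L N ω' L' N' h h' hL => ?_⟩
  obtain ⟨m, hm, e⟩ := h.amb 0
  obtain ⟨m', hm', e'⟩ := h'.amb 0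
  have hN := h.le
  refine ⟨fun r F h0 hr hF => ?_, fun R Y hY hR => ?_⟩
  · have := H₁ p Λ ω L N rfl h m' 0 (FlF4.amb_mono hm' (bl_mono 0 hL)) r F h0 hr hF
    have a1 := A51.four_le h.toGs r
    have a2 := A51.nu_nonneg h.mem.ok p.w 0 r F
    rw [trl_zero, ← e' F (hF.mono (by omega)).1] at this
    exact this.trans (by gcongr; linarith)
  have a1 := hY.one_le
  have hc : (⌈2 * R⌉₊ : ℝ) ≤ 3 * R := (Nat.ceil_lt_add_one (by linarith)).le.trans (by linarith)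
  have a2 : ⌈2 * R⌉₊ + 1 ≤ L := by exact_mod_cast (by nlinarith : (⌈2 * R⌉₊ + 1 : ℝ) ≤ L)
  have k3 := H Λ L h.toGs R Y 3 hY (by norm_num) m' m 0 0 _ (FlF4.amb_mono hm' (bl_mono 0 hL))
    (FlF4.amb_mono hm (bl_mono 0 hN)) hc (by nlinarith)
  rw [gk, gk, ← mul_sub, ← sum_sub_distrib, abs_mul]
  refine le_trans (mul_le_of_le_one_left (abs_nonneg _) (by rw [abs_le]; constructor <;> norm_num))
    ((abs_sum_le_sum_abs _ _).trans (le_trans (sum_le_sum fun x hx => ?_) (k3.trans (by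
      gcongr; linarith))))
  have i := fun n (hn : L ≤ n) => ((ins_Jz 0 (by omega : 1 ≤ n)).mul
    ((ins_Jz x le_rfl).move hx (by omega))).1
  rw [← sub_mul, ← sub_mul, abs_mul, abs_mul, abs_of_nonneg (sq_nonneg (eu x)), zero_add, KK, KK,
    e _ (i N hN), e' _ (i N' hL)]
  exact mul_le_of_le_one_right (by positivity) (abs_chi_le R x)

end Amb4



end Crest.Agent.T145.Fl
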