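import Crest.Agent.T145.EvX2_81_Mg
import Crest.Agent.T145.FlAmb_4

/-!
# Row 145, even sector, SH (helper87): `J₀` times the energy of a small ball is a multiple of `J₀`
-/

set_option autoImplicit false

namespace Crest.Agent.T145.Ev

open Finset Pot Xi Real Fl

namespace J87

theorem d4_ball {G : Cfg Pt → ℝ} (h : D4 0 G) (n : ℕ) : D4 0 fun s => ∑ z ∈ bl 0 n, trl z G s := by
  have key : ∀ φ : Pt ≃ Pt, (∀ s, G (mapH φ s) = G s) → (∀ x y, φ.symm (x + y) = φ.symm x + φ.symm y) →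
      (∀ x, x ∈ bl 0 n ↔ φ.symm x ∈ bl 0 n) → ∀ s,
      ∑ z ∈ bl 0 n, trl z G (mapH φ s) = ∑ z ∈ bl 0 n, trl z G s := fun φ h1 h2 h3 s => by
    refine sum_equiv φ.symm h3 fun z _ => ?_
    rw [trl, trl, ← h1 (mapH (Equiv.subRight (φ.symm z)) s)]
    congr 1; ext y
    simp only [mapH_apply, Equiv.subRight_symm_apply, h2]
  intro s
  refine ⟨key _ (fun s => (h s).1) (fun x y => ?_) (fun x => ?_) s,
    key _ (fun s => (h s).2) (fun x y => ?_) (fun x => ?_) s⟩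
  · ext <;> simp [rotZ]; ring
  · simp only [mem_bl, rotZ, Equiv.coe_fn_symm_mk, Prod.fst_zero, Prod.snd_zero]; omega
  · ext <;> simp [swpZ]
  · simp only [mem_bl, swpZ, Equiv.coe_fn_symm_mk, Prod.fst_zero, Prod.snd_zero]; omega

section Jh
variable {p : Par} {Λ : Lat} {L N : ℕ} {ω : Sta}

/-- what is used of `BasStmt` -/
def Bq (Λ : Lat) (ω : Sta) : Prop := ∀ z, trl z (et Λ ω 0) = et Λ ω z ∧ Ins z Λ.rg (et Λ ω z) ∧
  EvenF (et Λ ω z) ∧ D4 z (et Λ ω z)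

theorem ins_Je (h : Bq Λ ω) {z : Pt} {n r : ℕ} (hz : z ∈ bl 0 n) (hr : Λ.rg + n ≤ r) (h1 : 1 ≤ r) :
    Ins 0 r fun s => Jz 0 s * et Λ ω z s := (ins_Jz 0 h1).mul ((h z).2.1.move hz hr)

theorem ins_Jh (h : Bq Λ ω) {n r : ℕ} (hr : Λ.rg + n ≤ r) (h1 : 1 ≤ r) : Ins 0 r (Jh Λ ω n) :=
  (ins_Jz 0 h1).mul (Ins.sum _ fun z hz => (h z).2.1.move hz hr)

theorem odd_Jh (h : Bq Λ ω) (n : ℕ) : OddF (Jh Λ ω n) :=
  (odd_Jz 0).mul_even (EvenF.sum _ fun z _ => (h z).2.2.1)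

theorem d4_Jh (h : Bq Λ ω) (n : ℕ) : D4 0 (Jh Λ ω n) := by
  have := d4_ball (h 0).2.2.2 n
  simp only [(h _).1] at this
  exact (d4_Jz 0).mul this

theorem Jh_eq (n : ℕ) : Jh Λ ω n = fun s => ∑ z ∈ bl 0 n, Jz 0 s * et Λ ω z s :=
  funext fun _ => mul_sum _ _ _

theorem Jh_sub {k n : ℕ} (h : k ≤ n) : (fun s => Jh Λ ω n s - Jh Λ ω k s) =
    fun s => ∑ z ∈ bl 0 n \ bl 0 k, Jz 0 s * et Λ ω z s := by
  funext s; simp only [Jh_eq]; rw [← sum_sdiff (bl_mono 0 h), add_sub_cancel_right]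

/-- `J₀` times a far star -/
theorem nu_pair (hG : Gs p Λ L) (h : Bq Λ ω) {z : Pt} {c r : ℕ} (h0 : p.r₀ ≤ c) (h1 : 1 ≤ c)
    (hL : p.w * r ≤ L) (hz : z ∉ bl 0 (2 * (p.w * c))) (hr : bl z (p.w * c) ⊆ bl 0 r) :
    nu Λ p.w 0 r (fun s => Jz 0 s * et Λ ω z s) ≤
      16 * (nu Λ p.w 0 c (Jz 0) * nu Λ p.w 0 c (et Λ ω 0)) := by
  have hrg := hG.gd.2.1
  have h4 := A51.four_le hG c
  have hcr : p.w * c ≤ r := by
    have a1 := hr (show (z.1 + (p.w * c : ℕ), z.2) ∈ _ by rw [mem_bl]; simp only; omega)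
    have a2 := hr (show (z.1 - (p.w * c : ℕ), z.2) ∈ _ by rw [mem_bl]; simp only; omega)
    simp only [mem_bl, Prod.fst_zero] at a1 a2
    omega
  have hd : Disjoint (bl 0 (p.w * c)) (bl z (p.w * c)) := disjoint_left.2 fun x a1 a2 => hz (by
    rw [mem_bl] at a1 a2 ⊢
    simp only [Prod.fst_zero, Prod.snd_zero] at a1 a2 ⊢
    omega)
  have hc : p.w * c ≤ L := (Nat.mul_le_mul_left _ (show c ≤ r by omega)).trans hL
  have e := ((semiStmt Λ p.w c z hG.mem.ok (SX44.rg_le hG h0)).2 _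
    ((h 0).2.1.mono (show Λ.rg ≤ c by omega))).2.1
  rw [(h z).1] at e
  have := (fusStmt p Λ L hG 0 r hL).2.2 Bool univ (fun i => cond i 0 z) (fun _ => c)
    (fun i => cond i (Jz 0) (et Λ ω z)) (fun _ => 1) (by omega)
    ⟨by simp, fun i _ => by
        cases i
        exacts [(h z).2.1.mono (show Λ.rg ≤ c by omega), ins_Jz 0 h1],
      fun _ _ => ⟨h0, hc⟩, fun i _ => by
        cases i
        exacts [hr, bl_mono 0 hcr],
      fun i _ j _ hij => by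
        cases i <;> cases j
        exacts [absurd rfl hij, hd.symm, hd, absurd rfl hij]⟩
    (DepG.const _ _) (fun _ _ => Out.const _ _) fun _ => by simp
  simpa only [Fintype.prod_bool, cond_true, cond_false, mul_one, e] using this

theorem prof_le {F : Cfg Pt → ℝ} {R P t : ℝ} {a : ℕ} (h : Prof Λ p.w p.r₀ L 0 F R P) (hP : 0 ≤ P)
    (h1 : p.r₀ ≤ a) (a1 : 1 ≤ a) (h2 : p.w * a ≤ L) (h3 : (a : ℝ) ≤ R) (h4 : R ≤ t * a) :
    nu Λ p.w 0 a F ≤ P * t ^ ew p.w / (a : ℝ) ^ 2 := by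
  have ha : (0 : ℝ) < a := by exact_mod_cast a1
  have hR : 0 < R := ha.trans_le h3
  have ht : 1 ≤ t := by nlinarith
  rw [le_div_iff₀' (by positivity)]
  exact (h a h1 h2).trans (mul_le_mul_of_nonneg_left (rpow_le_rpow (le_max_of_le_left (by positivity))
    (max_le (((div_le_one hR).2 h3).trans ht) ((div_le_iff₀ ha).2 h4)) (SX44.ew_nonneg _)) hP)

/-- one shell -/
theorem shell (hG : Gs p Λ L) (h : Bq Λ ω) {R Y P : ℝ} (hM : Maj p Λ L R Y) (hP : 0 ≤ P)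
    (hp : Prof Λ p.w p.r₀ L 0 (et Λ ω 0) R P) {k : ℕ} (h0 : 2 * (p.w * p.r₀) ≤ k) (h1 : 2 * p.w ≤ k)
    (hL : p.w * (2 * k) ≤ L) (hR : (k : ℝ) ≤ R) :
    nu Λ p.w 0 (2 * k) (fun s => Jh Λ ω (k + 1) s - Jh Λ ω k s) ≤
      256 * (4 * p.w) ^ 5 * (P * Y) * (k / R) ^ (-(2 * ew p.w)) / (k : ℝ) ^ 3 := by
  have hw := hG.w4
  have hrg := hG.gd.2.1
  have h4 := A51.four_le hG p.r₀
  obtain ⟨c, hc⟩ : ∃ c, c = k / (2 * p.w) := ⟨_, rfl⟩
  have c1 : 2 * p.w * c ≤ k := hc ▸ Nat.mul_div_le _ _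
  have c2 : k < 2 * p.w * (c + 1) := hc ▸ Nat.lt_mul_div_succ _ (by omega)
  have c3 : p.r₀ ≤ c := hc ▸ (Nat.le_div_iff_mul_le (by omega)).2 (by nlinarith)
  have c4 : 1 ≤ c := hc ▸ (Nat.le_div_iff_mul_le (by omega)).2 (by omega)
  have c5 : k ≤ 4 * p.w * c := by nlinarith
  rw [mul_assoc] at c1
  have c6 := A51.four_le hG c
  have c7 : p.w * c ≤ L := (Nat.mul_le_mul_left _ (show c ≤ 2 * k by omega)).trans hL
  have k0 : (0 : ℝ) < k := by exact_mod_cast (show 0 < k by omega)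
  have R0 : 0 < R := k0.trans_le hR
  have Y0 := SX44.Y_pos hM
  have w1 : (1 : ℝ) ≤ 4 * p.w := by exact_mod_cast (show 1 ≤ 4 * p.w by omega)
  have c5' : (k : ℝ) ≤ 4 * p.w * c := by exact_mod_cast c5
  have cR : (c : ℝ) ≤ R := le_trans (by exact_mod_cast (show c ≤ k by omega)) hR
  have Rc : R ≤ 4 * p.w * (k / R)⁻¹ * c := by
    rw [inv_div, mul_right_comm, ← mul_div_assoc, le_div_iff₀ k0, mul_comm]; gcongr
  have n1 := prof_le hM.2.2 Y0.le c3 c4 c7 cR Rc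
  have n2 := prof_le hp hP c3 c4 c7 cR Rc
  have n3 := A51.nu_nonneg hG.mem.ok p.w 0 c (et Λ ω 0)
  have c0 : (0 : ℝ) < c := by exact_mod_cast c4
  obtain ⟨t, ht⟩ : ∃ t : ℝ, t = (4 * p.w * (k / R)⁻¹) ^ ew p.w := ⟨_, rfl⟩
  rw [← ht] at n1 n2
  have t0 : 0 ≤ t := by rw [ht]; positivity
  have t1 : t ^ 2 ≤ 4 * p.w * (k / R) ^ (-(2 * ew p.w)) := by
    rw [ht, ← rpow_mul_natCast (by positivity), mul_rpow (by positivity) (by positivity),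
      inv_rpow (by positivity), ← rpow_neg (by positivity), mul_comm (ew p.w)]
    push_cast
    gcongr
    exact (rpow_le_rpow_of_exponent_le w1 (by linarith [SX44.ew_le p.w])).trans_eq (rpow_one _)
  rw [Jh_sub k.le_succ]
  refine (nu_sum hG (by omega) _ fun z hz => ins_Je h (mem_sdiff.1 hz).1 (by omega) (by omega)).trans ?_
  refine (sum_le_card_nsmul _ _ (16 * (Y * t / (c : ℝ) ^ 2 * (P * t / (c : ℝ) ^ 2))) fun z hz => ?_).trans ?_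
  · obtain ⟨z1, z2⟩ := mem_sdiff.1 hz
    refine (nu_pair hG h c3 c4 hL (fun a => z2 (bl_mono 0 c1 a)) fun x hx => ?_).trans (by gcongr)
    rw [mem_bl] at z1 hx ⊢
    simp only [Prod.fst_zero, Prod.snd_zero] at z1 hx ⊢
    omega
  have card : ((bl (0 : Pt) (k + 1) \ bl 0 k).card : ℝ) ≤ 16 * k := by
    rw [card_sdiff_of_subset (bl_mono 0 k.le_succ), card_bl, card_bl,
      show (2 * (k + 1) + 1) ^ 2 - (2 * k + 1) ^ 2 = 8 * (k + 1) from Nat.sub_eq_of_eq_add (by ring)]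
    exact_mod_cast (show 8 * (k + 1) ≤ 16 * k by omega)
  rw [nsmul_eq_mul]
  calc _ ≤ 16 * k * (16 * (Y * t / (c : ℝ) ^ 2 * (P * t / (c : ℝ) ^ 2))) := by gcongr
    _ = 256 * (P * Y) * t ^ 2 * (k / c) ^ 4 / (k : ℝ) ^ 3 := by field_simp; ring
    _ ≤ 256 * (P * Y) * (4 * p.w * (k / R) ^ (-(2 * ew p.w))) * (4 * p.w) ^ 4 / (k : ℝ) ^ 3 := by
        gcongr; rwa [div_le_iff₀ c0]
    _ = _ := by ring

theorem nm_mul (hΛ : Λ.Ok) {c : ℕ} {F G : Cfg Pt → ℝ} (hF : Tame F) (hG : Tame G) :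
    Nc.Nm Λ 0 c (fun s => F s * G s) ≤
      Nc.Nm Λ 0 c (fun s => F s * F s) + Nc.Nm Λ 0 c fun s => G s ^ 2 := by
  have hW := hΛ.cen_Nr_bl (self_mem_bl (0 : Pt) c)
  have i1 := hW.ig (hF.mul hF).abs
  have i2 := hW.ig (hG.pow 2).abs
  simp only [Nc.Nm, Nc.EN]
  rw [← Ex_add i1 i2]
  refine Ex_mono hW.nonneg (hW.ig (hF.mul hG).abs) (i1.add i2) fun s => ?_
  rw [abs_mul, abs_mul, abs_pow]
  nlinarith [sq_nonneg (|F s| - |G s|), mul_nonneg (abs_nonneg (F s)) (abs_nonneg (G s))]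

end Jh

theorem step {k R : ℝ} (hk : 1 ≤ k) (hR : 0 < R) :
    14 * (k / R) ^ (1 / 7 : ℝ) + (k / R) ^ (1 / 7 : ℝ) / k ≤ 14 * ((k + 1) / R) ^ (1 / 7 : ℝ) := by
  have k0 : 0 < k := by linarith
  have h1 := rpow_one_add_le_one_add_mul_self (s := -(1 / (k + 1)))
    (neg_le_neg ((div_le_one (by linarith)).2 (by linarith))) (p := 1 / 7) (by norm_num) (by norm_num)
  have h2 : (k / R) ^ (1 / 7 : ℝ) = ((k + 1) / R) ^ (1 / 7 : ℝ) * (1 + -(1 / (k + 1))) ^ (1 / 7 : ℝ) := by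
    have e : 1 + -(1 / (k + 1)) = k / (k + 1) := by field_simp; ring
    rw [e, ← mul_rpow (by positivity) (by positivity)]
    congr 1; field_simp
  have h3 : (k / R) ^ (1 / 7 : ℝ) ≤ ((k + 1) / R) ^ (1 / 7 : ℝ) := by gcongr; linarith
  have h4 : 0 ≤ ((k + 1) / R) ^ (1 / 7 : ℝ) := by positivity
  have h5 : (k / R) ^ (1 / 7 : ℝ) / k ≤ ((k + 1) / R) ^ (1 / 7 : ℝ) * (2 * (1 / (k + 1))) := by
    rw [div_eq_mul_one_div]
    gcongr
    rw [mul_one_div, div_le_div_iff₀ k0 (by linarith)]; linarith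
  have h6 := mul_le_mul_of_nonneg_left h1 h4
  rw [← h2] at h6
  linarith

theorem core_num {q e x A ρ R : ℝ} (q1 : 1 ≤ q) (hR : R = q ^ (100 : ℝ)) (e0 : 0 ≤ e) (e1 : e ≤ 1 / 1000)
    (A1 : 1 ≤ A) (x0 : 0 ≤ x) (hx : x ≤ A * q / R) (hρ : 1 ≤ ρ) :
    x ^ (11 / 5 - 3 * e) * q ^ 2 ≤ A ^ 3 * (R ^ (-e) * (ρ / R) ^ (1 / 7 : ℝ) / R ^ 2) := by
  have q0 : 0 < q := by linarith
  have R0 : 0 < R := by rw [hR]; positivity
  have a1 : x ^ (11 / 5 - 3 * e) ≤ A ^ 3 * q ^ (-99 * (11 / 5 - 3 * e)) := by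
    refine (rpow_le_rpow x0 hx (by linarith)).trans ?_
    have : A * q / R = A * q ^ (-99 : ℝ) := by
      rw [hR, mul_div_assoc, show (-99 : ℝ) = 1 - 100 by norm_num, rpow_sub q0, rpow_one]
    rw [this, mul_rpow (by linarith) (by positivity), ← rpow_mul q0.le, ← rpow_natCast A 3]
    gcongr
    push_cast; linarith
  have a2 : q ^ (100 * (-e - 1 / 7 - 2)) ≤ R ^ (-e) * (ρ / R) ^ (1 / 7 : ℝ) / R ^ 2 := by
    rw [rpow_mul q0.le, ← hR, rpow_sub R0, rpow_sub R0, rpow_two, div_rpow (by linarith) R0.le,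
      ← mul_div_assoc]
    gcongr
    exact le_mul_of_one_le_right (by positivity) (one_le_rpow hρ (by norm_num))
  calc _ ≤ A ^ 3 * q ^ (-99 * (11 / 5 - 3 * e)) * q ^ 2 := by gcongr
    _ = A ^ 3 * q ^ (-99 * (11 / 5 - 3 * e) + 2) := by rw [rpow_add q0, rpow_two]; ring
    _ ≤ A ^ 3 * q ^ (100 * (-e - 1 / 7 - 2)) := by gcongr; linarith
    _ ≤ _ := by gcongr

theorem shell_num {k R e x A : ℝ} (k0 : 0 < k) (hR : k ≤ R) (e0 : 0 ≤ e) (e1 : e ≤ 1 / 1000)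
    (A1 : 1 ≤ A) (x0 : 0 ≤ x) (hx : x ≤ A * (k / R)) :
    x ^ (11 / 5 - 3 * e) * ((k / R) ^ (-(2 * e)) / k ^ 3) ≤
      A ^ 3 / R ^ 2 * ((k / R) ^ (1 / 7 : ℝ) / k) := by
  have R0 : 0 < R := k0.trans_le hR
  have y0 : 0 < k / R := by positivity
  have a1 : x ^ (11 / 5 - 3 * e) ≤ A ^ 3 * (k / R) ^ (11 / 5 - 3 * e) := by
    refine (rpow_le_rpow x0 hx (by linarith)).trans ?_
    rw [mul_rpow (by linarith) y0.le, ← rpow_natCast A 3]
    gcongr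
    push_cast; linarith
  have a2 : (k / R) ^ (11 / 5 - 3 * e) * (k / R) ^ (-(2 * e)) ≤ (k / R) ^ 2 * (k / R) ^ (1 / 7 : ℝ) := by
    rw [← rpow_two, ← rpow_add y0, ← rpow_add y0]
    exact rpow_le_rpow_of_exponent_ge y0 ((div_le_one R0).2 hR) (by linarith)
  calc _ ≤ A ^ 3 * (k / R) ^ (11 / 5 - 3 * e) * ((k / R) ^ (-(2 * e)) / k ^ 3) := by gcongr
    _ = A ^ 3 / k ^ 3 * ((k / R) ^ (11 / 5 - 3 * e) * (k / R) ^ (-(2 * e))) := by ring
    _ ≤ A ^ 3 / k ^ 3 * ((k / R) ^ 2 * (k / R) ^ (1 / 7 : ℝ)) := by gcongr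
    _ = _ := by field_simp

end J87

open J87 in
set_option maxHeartbeats 400000 in
/-- SH -/
theorem shStmt (hB : BasStmt) : ShStmt := by
  intro p W D₀ hW
  obtain ⟨D, hD⟩ := cone hW D₀
  obtain ⟨C₁, C1, hJ⟩ := purJ p hW D (16 * p.w)
  obtain ⟨P₀, -, hB⟩ := hB p
  obtain ⟨CJ, CJ0, hJJ⟩ := Amb4.nm_JJ p.F
  obtain ⟨A, hA⟩ : ∃ A : ℝ, A = 48 * (p.w : ℝ) ^ 2 := ⟨_, rfl⟩
  obtain ⟨B₀, hB₀⟩ : ∃ B : ℝ, B = C₁ * (A * (CJ + P₀ ^ 2)) * A ^ 3 := ⟨_, rfl⟩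
  obtain ⟨B₁, hB₁⟩ : ∃ B : ℝ, B = C₁ * (256 * (4 * p.w) ^ 5) * A ^ 3 := ⟨_, rfl⟩
  have A0 : 0 ≤ A := by rw [hA]; positivity
  have B00 : 0 ≤ B₀ := by rw [hB₀]; positivity
  have B10 : 0 ≤ B₁ := by rw [hB₁]; positivity
  refine ⟨2 + A + B₀ + 14 * B₁, by linarith, fun E R Y P h hY hL a ρ ha haR ρ1 ρa => ?_⟩
  have hE := h.ed.toEnv
  have hG := hE.toGs
  have hw := hG.w4
  have hrg := hG.gd.2.1
  have w4 : (4 : ℝ) ≤ p.w := by exact_mod_cast hw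
  have Aw : 32 * (p.w : ℝ) ≤ A := by rw [hA]; nlinarith
  have A1 : 1 ≤ A := by linarith
  have e0 := SX44.ew_nonneg p.w
  have e1 := J87.ew_le hw
  have R1 := h.maj.1
  have R0 : 0 < R := by linarith
  have Y0 := SX44.Y_pos h.maj
  have P1 := h.P1
  have hb := hB _ _ _ _ hE
  have hq : Bq E.Λ E.ω := fun z => ⟨(hb z).2.1, (hb z).2.2.1, (hb z).2.2.2.1, (hb z).2.2.2.2.1⟩
  have r0 := h.r0
  have r8 := h.r8
  have a2 : (2 : ℝ) ≤ a := by exact_mod_cast (show 2 ≤ a by omega)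
  have hL' : (2 + A) * R ≤ E.L := le_trans (mul_le_mul_of_nonneg_right (by linarith) R0.le) hL
  have hN : 2 * R ≤ E.N := by
    have : (E.L : ℝ) ≤ E.N := by exact_mod_cast hE.le
    nlinarith
  have haL : p.w * a ≤ E.L := by
    have : (p.w : ℝ) * a ≤ E.L := by nlinarith
    exact_mod_cast this
  have pj := fun r F h0 h1 h2 h3 => hJ _ _ _ _ _ hE h.pur R Y h.maj (hD p E R Y h.toLv) hN r a F h0 h1 h2 h3
    haL (by linarith) ha
  -- the hundredth root of `R`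
  obtain ⟨q, hq'⟩ : ∃ q : ℝ, q = R ^ (1 / 100 : ℝ) := ⟨_, rfl⟩
  have q1 : 1 ≤ q := hq' ▸ one_le_rpow R1 (by norm_num)
  have Rq : R = q ^ (100 : ℝ) := by rw [hq', ← rpow_mul R0.le]; norm_num
  have Rq' : R = q ^ 100 := by rw [Rq, ← rpow_natCast]; norm_num
  have rq : (E.r₁ : ℝ) ≤ q := le_of_pow_le_pow_left₀ (by norm_num) (by linarith) (h.r1.trans_eq Rq')
  have Aq : A * q ≤ R := by
    have t1 : A ≤ 1 / Y := by rw [le_div_iff₀ Y0]; refine le_trans ?_ hY; gcongr; linarith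
    have t2 : A ^ 4 ≤ (q ^ 25) ^ 4 := by
      rw [← pow_mul]; exact ((pow_le_pow_left₀ A0 t1 4).trans (SX44.R_ge h.maj)).trans_eq Rq'
    have t3 := le_of_pow_le_pow_left₀ (by norm_num) (by positivity) t2
    rw [Rq']
    calc _ ≤ q ^ 25 * q := by gcongr
      _ ≤ _ := by rw [← pow_succ]; exact pow_le_pow_right₀ q1 (by norm_num)
  obtain ⟨b, hb'⟩ : ∃ b, b = 2 * (p.w * E.r₁) := ⟨_, rfl⟩
  have b1 : 4 * E.r₁ ≤ p.w * E.r₁ := Nat.mul_le_mul_right _ hw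
  have b2 : p.w * p.r₀ ≤ p.w * E.r₁ := Nat.mul_le_mul_left _ r0
  have b3 : p.w ≤ p.w * E.r₁ := Nat.le_mul_of_pos_right _ (by omega)
  have b4 : ((b + E.r₁ : ℕ) : ℝ) ≤ 3 * p.w * q := by
    have : ((b + E.r₁ : ℕ) : ℝ) ≤ 3 * p.w * E.r₁ := by
      exact_mod_cast (show b + E.r₁ ≤ 3 * p.w * E.r₁ by rw [mul_assoc]; omega)
    exact this.trans (by gcongr)
  have a0 : (0 : ℝ) < a := by linarith
  have b5 : ((b + E.r₁ : ℕ) : ℝ) / a ≤ A * q / R := by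
    rw [div_le_div_iff₀ a0 R0, hA]
    calc _ ≤ 3 * p.w * q * (16 * p.w * a) := by gcongr
      _ = _ := by ring
  have b6 : b + E.r₁ ≤ a := by
    have := b5.trans ((div_le_one R0).2 Aq)
    rw [div_le_one a0] at this
    exact_mod_cast this
  have PY : 0 ≤ P * Y := by positivity
  have core : ∀ n ≤ b, ∃ μ : ℝ, nu E.Λ p.w 0 a (fun s => Jh E.Λ E.ω n s - μ * Jz 0 s) ≤
      B₀ * (P * Y) * (ρ / R) ^ (1 / 7 : ℝ) / R ^ 2 := fun n hn => by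
    obtain ⟨μ, m, -⟩ := pj (b + E.r₁) _ (by omega) (by omega) (by omega) b6
      (ins_Jh hq (show E.Λ.rg + n ≤ _ by omega) (by omega)) (odd_Jh hq n) (d4_Jh hq n)
    refine ⟨μ, m.trans ?_⟩
    have c4 := A51.four_le hG (b + E.r₁)
    have n1 : nu E.Λ p.w 0 (b + E.r₁) (Jh E.Λ E.ω n) ≤ A * (CJ + P₀ ^ 2) * q ^ 2 := by
      rw [Jh_eq]
      refine (nu_sum hG (by omega) _ fun z hz => ins_Je hq hz (by omega) (by omega)).trans ?_
      refine (sum_le_card_nsmul _ _ (CJ + P₀ ^ 2) fun z hz => ?_).trans ?_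
      · refine (nu_le_Nm hG (by omega) (ins_Je hq hz (by omega) (by omega))).trans
          ((nm_mul hG.mem.ok (tame_Jz 0) (hq z).2.1.2).trans (add_le_add
            (hJJ _ hG.mem 0 0 _ (self_mem_bl _ _) (by omega)) ((hb z).2.2.2.2.2.2 0 _ fun x hx => ?_).1))
        rw [mem_bl] at hz hx ⊢
        simp only [Prod.fst_zero, Prod.snd_zero] at hz hx ⊢
        omega
      rw [nsmul_eq_mul, card_bl, mul_right_comm]
      gcongr
      have t1 : ((2 * n + 1 : ℕ) : ℝ) ≤ 2 * ((b + E.r₁ : ℕ) : ℝ) := by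
        exact_mod_cast (show 2 * n + 1 ≤ 2 * (b + E.r₁) by omega)
      rw [Nat.cast_pow, hA]
      calc _ ≤ (2 * (3 * p.w * q)) ^ 2 := by gcongr; linarith
        _ ≤ _ := by nlinarith [sq_nonneg (p.w * q)]
    have n2 := core_num q1 Rq e0 e1 A1 (by positivity) b5 (show (1 : ℝ) ≤ ρ by exact_mod_cast ρ1)
    have n3 : R ^ (-ew p.w) ≤ P * Y := h.maj.2.1.trans (le_mul_of_one_le_left Y0.le P1)
    calc _ ≤ C₁ * (((b + E.r₁ : ℕ) : ℝ) / a) ^ (11 / 5 - 3 * ew p.w) * (A * (CJ + P₀ ^ 2) * q ^ 2) := by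
          gcongr
      _ = C₁ * (A * (CJ + P₀ ^ 2)) * ((((b + E.r₁ : ℕ) : ℝ) / a) ^ (11 / 5 - 3 * ew p.w) * q ^ 2) := by
          ring
      _ ≤ C₁ * (A * (CJ + P₀ ^ 2)) * (A ^ 3 * (P * Y * (ρ / R) ^ (1 / 7 : ℝ) / R ^ 2)) := by
          refine mul_le_mul_of_nonneg_left (n2.trans ?_) (by positivity)
          gcongr
      _ = _ := by rw [hB₀]; ring
  have key : ∀ n ≤ ρ, ∃ μ : ℝ, nu E.Λ p.w 0 a (fun s => Jh E.Λ E.ω n s - μ * Jz 0 s) ≤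
      B₀ * (P * Y) * (ρ / R) ^ (1 / 7 : ℝ) / R ^ 2 + B₁ * (P * Y) / R ^ 2 * (14 * (n / R) ^ (1 / 7 : ℝ)) := by
    intro n
    induction n with
    | zero =>
      intro _
      obtain ⟨μ, m⟩ := core 0 (by omega)
      exact ⟨μ, m.trans (le_add_of_nonneg_right (by positivity))⟩
    | succ k ih =>
      intro hk
      rcases le_or_gt (k + 1) b with hkb | hkb
      · obtain ⟨μ, m⟩ := core _ hkb
        exact ⟨μ, m.trans (le_add_of_nonneg_right (by positivity))⟩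
      obtain ⟨μ, m⟩ := ih (by omega)
      have k1 : (1 : ℝ) ≤ k := by exact_mod_cast (show 1 ≤ k by omega)
      have ka : (k : ℝ) ≤ a := by exact_mod_cast (show k ≤ a by omega)
      have i1 : ∀ r, 2 * k ≤ r → Ins 0 r fun s => Jh E.Λ E.ω (k + 1) s - Jh E.Λ E.ω k s := fun r hr =>
        (ins_Jh hq (by omega) (by omega)).sub (ins_Jh hq (by omega) (by omega))
      obtain ⟨μ', m', -⟩ := pj (2 * k) _ (by omega) (by omega) (by omega) (by omega) (i1 _ le_rfl)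
        ((odd_Jh hq _).sub (odd_Jh hq _)) ((d4_Jh hq _).sub (d4_Jh hq _))
      have s1 := shell hG hq h.maj (by linarith) h.prof (k := k) (by omega) (by omega)
        ((Nat.mul_le_mul_left _ (by omega)).trans haL) (by linarith)
      have s2 := shell_num (x := ((2 * k : ℕ) : ℝ) / a) (by linarith) (show (k : ℝ) ≤ R by linarith) e0 e1
        A1 (by positivity) (by
          rw [← mul_div_assoc, div_le_div_iff₀ a0 R0]
          push_cast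
          calc _ ≤ 2 * (k : ℝ) * (16 * p.w * a) := by gcongr
            _ = 32 * p.w * k * a := by ring
            _ ≤ _ := by gcongr)
      have iJ : Ins 0 a (Jz 0) := ins_Jz 0 (by omega)
      have s3 := nu_add hG (show p.r₀ ≤ a by omega)
        (Cc87.Ins.sub' (ins_Jh hq (show E.Λ.rg + k ≤ a by omega) (by omega)) iJ μ)
        (Cc87.Ins.sub' (i1 a (by omega)) iJ μ')
      have s4 : nu E.Λ p.w 0 a (fun s => Jh E.Λ E.ω (k + 1) s - Jh E.Λ E.ω k s - μ' * Jz 0 s) ≤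
          B₁ * (P * Y) / R ^ 2 * ((k / R) ^ (1 / 7 : ℝ) / k) :=
        calc _ ≤ C₁ * (((2 * k : ℕ) : ℝ) / a) ^ (11 / 5 - 3 * ew p.w) *
              (256 * (4 * p.w) ^ 5 * (P * Y) * (k / R) ^ (-(2 * ew p.w)) / (k : ℝ) ^ 3) :=
              m'.trans (by gcongr)
          _ = C₁ * (256 * (4 * p.w) ^ 5) * (P * Y) * ((((2 * k : ℕ) : ℝ) / a) ^ (11 / 5 - 3 * ew p.w) *
              ((k / R) ^ (-(2 * ew p.w)) / (k : ℝ) ^ 3)) := by ring
          _ ≤ C₁ * (256 * (4 * p.w) ^ 5) * (P * Y) * (A ^ 3 / R ^ 2 * ((k / R) ^ (1 / 7 : ℝ) / k)) := by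
              gcongr
          _ = _ := by rw [hB₁]; ring
      have s5 := mul_le_mul_of_nonneg_left (step k1 R0) (show 0 ≤ B₁ * (P * Y) / R ^ 2 by positivity)
      refine ⟨μ + μ', ?_⟩
      rw [show (fun s => Jh E.Λ E.ω (k + 1) s - (μ + μ') * Jz 0 s) = fun s =>
        (Jh E.Λ E.ω k s - μ * Jz 0 s) + (Jh E.Λ E.ω (k + 1) s - Jh E.Λ E.ω k s - μ' * Jz 0 s) from
        funext fun s => by ring]
      push_cast
      linarith
  obtain ⟨μ, m⟩ := key ρ le_rfl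
  refine ⟨μ, m.trans ?_⟩
  calc _ = (B₀ + 14 * B₁) * P * Y * (ρ / R) ^ (1 / 7 : ℝ) / R ^ 2 := by ring
    _ ≤ _ := by gcongr; linarith

end Crest.Agent.T145.Ev
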