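import Crest.Agent.T145.FlDef_82
import Crest.Agent.T145.XiB_22
import Crest.Agent.T145.OmB_11
import Crest.Agent.T145.FlBas_4
import Crest.Agent.T145.FlA_51
import Crest.Agent.T145.FlPur_64

-- ▼ part T145/FlBeta_3
section

/-!
# Row 145, the odd flow: BETA (`Fl.betaStmt`), the contact term of `J`
-/

set_option autoImplicit false

namespace Crest.Agent.T145.Fl

open Finset Pot Xi Real

namespace Beta3

theorem cw_nonneg (w : ℕ) : 0 ≤ cw w := by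
  rcases Nat.eq_zero_or_pos w with rfl | hw
  · simp [cw]
  · have h1 : (1 : ℝ) ≤ (w : ℝ) ^ 4 := one_le_pow₀ (by exact_mod_cast hw)
    exact div_nonneg (log_nonneg (by norm_num)) (log_nonneg (by linarith))

theorem cw_le_one (w : ℕ) : cw w ≤ 1 := by
  rcases Nat.eq_zero_or_pos w with rfl | hw
  · simp [cw]
  · have h1 : (1 : ℝ) ≤ (w : ℝ) ^ 4 := one_le_pow₀ (by exact_mod_cast hw)
    exact div_le_one_of_le₀ (log_le_log (by norm_num) (by linarith)) (log_nonneg (by linarith))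

theorem ew_nonneg (w : ℕ) : 0 ≤ ew w := div_nonneg (cw_nonneg w) (by norm_num)

theorem ew_le (w : ℕ) : ew w ≤ 1 / 100 := div_le_div_of_nonneg_right (cw_le_one w) (by norm_num)

/-- `∑ |x|^(-3/2) ≤ 16 √n` -/
theorem sum_shell (n : ℕ) : ∑ x ∈ bl 0 n, (eu x * √(eu x))⁻¹ ≤ 16 * √n := by
  induction n with
  | zero =>
    have : bl (0 : Pt) 0 = {0} := by
      ext y; rw [mem_bl, mem_singleton, Prod.ext_iff]; omega
    simp [this]
  | succ n ih =>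
    have hs : bl (0 : Pt) n ⊆ bl 0 (n + 1) := bl_mono _ n.le_succ
    rw [← sum_sdiff hs]
    have h1 : ∑ y ∈ bl 0 (n + 1) \ bl 0 n, (eu y * √(eu y))⁻¹ ≤
        (bl (0 : Pt) (n + 1) \ bl 0 n).card • (((n : ℝ) + 1) * √(n + 1))⁻¹ :=
      sum_le_card_nsmul _ _ _ fun y hy => by
        have := le_eu_of_not_bl (mem_sdiff.1 hy).2
        rw [sub_zero] at this
        have := eu_nonneg y
        exact inv_anti₀ (by positivity) (by gcongr)
    have h2 : (bl (0 : Pt) (n + 1) \ bl 0 n).card = 8 * (n + 1) := by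
      rw [card_sdiff_of_subset hs, card_bl, card_bl]
      exact Nat.sub_eq_of_eq_add (by ring)
    rw [h2, nsmul_eq_mul] at h1
    have h0 : 0 < √((n : ℝ) + 1) := by positivity
    have h3 : ((8 * (n + 1) : ℕ) : ℝ) * (((n : ℝ) + 1) * √(n + 1))⁻¹ = 8 / √(n + 1) := by
      push_cast; field_simp
    have h4 : 8 / √((n : ℝ) + 1) ≤ 16 * √(n + 1) - 16 * √n := by
      rw [div_le_iff₀ h0]
      nlinarith [Real.sq_sqrt (by positivity : (0 : ℝ) ≤ n + 1), Real.sq_sqrt (Nat.cast_nonneg (α := ℝ) n),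
        sq_nonneg (√((n : ℝ) + 1) - √n)]
    push_cast
    linarith

variable {p : Par} {Λ : Lat} {ω : (Cfg Pt → ℝ) → ℝ} {L N : ℕ}

theorem depG_JJ {z x : Pt} {n : ℕ} (hx : x ∈ bl z n) (hn : n + 1 ≤ N) :
    DepG (bl z N) fun s => Jz z s * Jz x s :=
  ((Om.depG_Jz z).mono (bl_mono z (by omega))).mul ((Om.depG_Jz x).mono (bl_one_sub hn x hx))

/-- translation covariance of the two-point function -/
theorem om_JJ (h : Env p Λ ω L N) (z : Pt) {x : Pt} {n : ℕ} (hx : x ∈ bl 0 n) (hn : n + 1 ≤ N) :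
    ω (fun s => Jz z s * Jz (z + x) s) = KK ω x := by
  rw [KK, ← h.trl 0 z _ (depG_JJ hx hn)]
  congr 1
  funext s
  have a := congrFun (Om.trl_Jz z 0) s
  have b := congrFun (Om.trl_Jz z x) s
  simp only [trl, zero_add] at a b ⊢
  rw [a, b, add_comm x z]

/-- `ω (J_z (A₀ v, s)) = ∑ v (z + x) K (x)` -/
theorem om_J_pr (h : Env p Λ ω L N) (z : Pt) {v : Pt → ℝ} {n : ℕ} (hv : Pot.Sup (bl z n) v)
    (hn : n + 1 ≤ N) :
    ω (fun s => Jz z s * pr (A0 v) s) = ∑ x ∈ bl 0 n, KK ω x * v (z + x) := by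
  obtain ⟨m, hm, hω⟩ := h.amb z
  have hC := hm.ctr.cen hm.anch
  have e : (fun s => Jz z s * pr (A0 v) s) = fun s => ∑ y ∈ bl z n, v y * (Jz z s * Jz y s) := by
    funext s
    rw [pr_A0 hv, mul_sum]
    exact sum_congr rfl fun _ _ => by ring
  rw [e, hω _ (DepG.sum fun y hy => (DepG.const _ _).mul (depG_JJ hy hn)),
    Ex_sum _ fun y _ => hC.ig (((Om.tame_Jz z).mul (Om.tame_Jz y)).const_mul _), ← Ha91.sum_bl]
  refine sum_congr rfl fun x hx => ?_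
  rw [Ex_const_mul, ← hω _ (depG_JJ (Ha91.add_mem_bl.2 hx) hn), om_JJ h z hx hn, mul_comm]

/-- a symmetric kernel does not see which affine part is removed -/
theorem sum_aff {K : Pt → ℝ} (hK : Sy4 K) (n : ℕ) (u : Pt → ℝ) (z : Pt) :
    ∑ x ∈ bl 0 n, K x * (u (z + x) - Fl.aff u z (z + x)) = ∑ x ∈ bl 0 n, K x * rem u z (z + x) := by
  have e : ∀ x : Pt, K x * (u (z + x) - Fl.aff u z (z + x)) = K x * rem u z (z + x) +
      K x * x.1 * (Xi.gs (1, 0) u z - dif (1, 0) u z) + K x * x.2 * (Xi.gs (0, 1) u z - dif (0, 1) u z) :=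
    fun x => by simp [Fl.aff, rem, Xi.aff]; ring
  simp only [e, sum_add_distrib, ← sum_mul, hK.sum_fst, hK.sum_snd, zero_mul, add_zero]

end Beta3

open Beta3

/-- BETA -/
theorem betaStmt (hK : KbStmt) : BetaStmt := by
  intro p
  obtain ⟨C, C0, hC⟩ := hK p
  refine ⟨160 * C, by positivity, fun Λ ω L N h r Y hY hr ξ u z σ ρ hu h1 h8 => ?_⟩
  obtain ⟨k1, k2, -⟩ := hC Λ ω L N h r Y hY
  have ρ0 : 0 < ρ := by linarith
  have r0 : (0 : ℝ) < r := by linarith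
  set n := ⌈2 * ρ⌉₊ with hn
  have n1 : 2 * ρ ≤ n := Nat.le_ceil _
  have n2 : (n : ℝ) ≤ 2 * ρ + 1 := (Nat.ceil_lt_add_one (by positivity)).le
  have n3 : n + 1 ≤ r := by exact_mod_cast (by linarith : (n : ℝ) + 1 ≤ r)
  have n4 : n + 1 ≤ N := n3.trans (hr.trans h.le)
  have hs : Pot.Sup (bl 0 n) (Xi.chi ρ) := sup_chi ρ0 (by linarith)
  have hS : Sy4 fun x => KK ω x * Xi.chi ρ x := by
    have h0 : ∀ x, x ∉ bl 0 (N - 1) → Xi.chi ρ x = 0 := fun x hx =>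
      hs x fun h' => hx (bl_mono _ (by omega) h')
    constructor <;> intro x <;> by_cases hx : x ∈ bl 0 (N - 1)
    · rw [(k2 x hx).1, chi_swap]
    · rw [chi_swap, h0 x hx, mul_zero, mul_zero]
    · rw [(k2 x hx).2, chi_neg_fst]
    · rw [chi_neg_fst, h0 x hx, mul_zero, mul_zero]
  have hv : Pot.Sup (bl z n) (sw u z ρ) := fun y hy => by
    rw [sw, lc, hs (y - z) fun h' => hy (by simpa using Ha91.add_mem_bl (z := z).2 h'), mul_zero]
  have e1 : ∑ x ∈ bl 0 n, KK ω x * sw u z ρ (z + x) =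
      ∑ x ∈ bl 0 n, (KK ω x * Xi.chi ρ x) * (u (z + x) - aff u z (z + x)) :=
    sum_congr rfl fun x _ => by rw [sw, lc, add_sub_cancel_left]; ring
  have e2 : gk ω ρ = -(1 / 4) * ∑ x ∈ bl 0 n, (KK ω x * Xi.chi ρ x) * eu x ^ 2 := by
    rw [gk]; congr 1; exact sum_congr rfl fun x _ => by ring
  rw [om_J_pr h z hv n4, e1, sum_aff hS, e2, (hu.2 z (self_mem_bl _ _)).1]
  refine (hS.tay n (k₃ := σ / (r : ℝ) ^ 3) fun x hx e he e' he' =>
    ((hu.2 x (bl_mono _ (by omega) hx)).2 e he e' he').2).trans ?_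
  have b : ∀ x ∈ bl 0 n, |KK ω x * Xi.chi ρ x| * eu x ^ 3 ≤ C * Y ^ 2 * √r * (eu x * √(eu x))⁻¹ := by
    intro x hx
    by_cases x0 : x = 0
    · simp [x0]
    have a1 := one_le_eu x0
    have a2 : eu x ≤ r := by have := eu_le_of_bl hx; rw [sub_zero] at this; linarith
    have a3 : 1 ≤ r / eu x := (one_le_div (by linarith)).2 a2
    have a4 := k1 x (bl_mono _ (by omega) hx) x0
    rw [max_eq_right (((div_le_one r0).2 a2).trans a3)] at a4
    have a5 : (r / eu x) ^ (2 * ew p.w) ≤ √r / √(eu x) := by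
      rw [← Real.sqrt_div r0.le, Real.sqrt_eq_rpow]
      exact rpow_le_rpow_of_exponent_le a3 (by linarith [ew_le p.w])
    have a6 : |KK ω x * Xi.chi ρ x| ≤ |KK ω x| := by
      rw [abs_mul]; exact mul_le_of_le_one_right (abs_nonneg _) (abs_chi_le ρ x)
    have a7 := a4.trans (mul_le_mul_of_nonneg_left a5 (by positivity))
    calc _ ≤ |KK ω x| * eu x ^ 3 := by gcongr
      _ = |KK ω x| * eu x ^ 4 / eu x := by field_simp
      _ ≤ C * Y ^ 2 * (√r / √(eu x)) / eu x := by gcongr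
      _ = _ := by field_simp
  have b2 : ∑ x ∈ bl 0 n, |KK ω x * Xi.chi ρ x| * eu x ^ 3 ≤ C * Y ^ 2 * (16 * r) := by
    refine (sum_le_sum b).trans ?_
    rw [← mul_sum, mul_assoc]
    refine mul_le_mul_of_nonneg_left ?_ (by positivity)
    have a1 : √(n : ℝ) ≤ √r := Real.sqrt_le_sqrt (by linarith)
    calc _ ≤ √r * (16 * √r) := mul_le_mul_of_nonneg_left ((sum_shell n).trans (by linarith))
          (Real.sqrt_nonneg _)
      _ = _ := by rw [mul_left_comm, Real.mul_self_sqrt r0.le]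
  have σ0 := hu.1
  calc _ ≤ 10 * (σ / (r : ℝ) ^ 3) * (C * Y ^ 2 * (16 * r)) := by gcongr
    _ = _ := by field_simp; ring

end Crest.Agent.T145.Fl
end

-- ▼ part T145/FlCone_64

/-!
# Row 145, odd flow: the cone on the lattice, PUR (helper64)
-/

set_option autoImplicit false

namespace Crest.Agent.T145.Fl

open Finset Real

namespace Cone

/-- odd invariant insertions of radius `r` -/
def cls (r : ℕ) : Submodule ℝ (Cfg Pt → ℝ) where
  carrier := {F | Ins 0 r F ∧ OddF F ∧ D4 0 F}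
  add_mem' h h' := ⟨h.1.add h'.1, h.2.1.add h'.2.1, h.2.2.add h'.2.2⟩
  zero_mem' := ⟨Ins.const 0 r 0, fun _ => by simp, D4.const 0 0⟩
  smul_mem' c _ h := ⟨h.1.smul c, h.2.1.smul c, h.2.2.smul c⟩


theorem ew_pos {w : ℕ} (hw : 1 ≤ w) : 0 < ew w := by
  have h1 : (1 : ℝ) ≤ (w : ℝ) ^ 4 := one_le_pow₀ (by exact_mod_cast hw)
  exact div_pos (div_pos (log_pos one_lt_two) (log_pos (by linarith))) (by norm_num)

variable {p : Par} {Λ : Lat} {ω : (Cfg Pt → ℝ) → ℝ} {L N r : ℕ} {F G : Cfg Pt → ℝ}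

theorem two_le (h : Gs p Λ L) (h0 : p.r₀ ≤ r) : 2 ≤ r := by
  have := h.gd.2.1
  have := h.mem.ok.one_le_rg
  omega

theorem ins_l (h : Env p Λ ω L N) (h0 : p.r₀ ≤ r) (hL : p.w * r ≤ L) (hF : Ins 0 r F) :
    Ins 0 N fun s => F s * Sn (2 * r) s := by
  have h1 := two_le h.toGs h0
  have h2 := A51.four_le h.toGs r
  have h3 := h.le
  have h4 : (0 : ℝ) < r := by exact_mod_cast (by omega : 0 < r)
  refine (hF.mono (by omega)).mul (ins_Sn (by positivity) ?_)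
  have : ((4 * r : ℕ) : ℝ) ≤ N := by exact_mod_cast (by omega : 4 * r ≤ N)
  push_cast at this; linarith

/-- the left functional is bounded by the norm -/
theorem abs_ell_le (h : Env p Λ ω L N) (h0 : p.r₀ ≤ r) (hL : p.w * r ≤ L) (hF : Ins 0 r F) :
    |ell ω (2 * r) F| ≤ 2 * nu Λ p.w 0 r F := by
  obtain ⟨m, hm, hω⟩ := h.amb 0
  have h1 := two_le h.toGs h0
  have h2 := A51.four_le h.toGs r
  have h3 := h.le
  have h4 : (2 : ℝ) ≤ r := by exact_mod_cast h1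
  have hm' : Nc.Amb Λ m (bl 0 (p.w * r)) := FlF4.amb_mono hm (bl_mono 0 (by omega))
  have hB : bl (0 : Pt) r ⊆ m.A := (bl_mono 0 (by omega)).trans hm.sub
  have k := FlF4.fus1 h.mem.ok hB (A51.ir h.toGs h0 hF) hm' subset_rfl
    (out_Sn (ρ := 2 * r) (by positivity) (by linarith)) (abs_Sn_le _)
  have g := A51.gam_le h.toGs h0 (by omega)
  rw [ell, hω _ (ins_l h h0 hL hF).1]
  simp only [mul_comm (F _)]
  refine (FlF4.abs_ex_le_nc hm.ctr hm.anch hB k.1).trans (k.2.trans ?_)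
  rw [one_mul]
  exact mul_le_mul_of_nonneg_right g.2 (A51.nu_nonneg h.mem.ok _ _ _ _)

theorem ell_sub (h : Env p Λ ω L N) (h0 : p.r₀ ≤ r) (hL : p.w * r ≤ L) (hF : Ins 0 r F) (hG : Ins 0 r G)
    (t : ℝ) : ell ω (2 * r) (fun s => F s - t * G s) = ell ω (2 * r) F - t * ell ω (2 * r) G := by
  obtain ⟨m, hm, hω⟩ := h.amb 0
  have i1 := ins_l h h0 hL hF
  have i2 := ins_l h h0 hL hG
  rw [ell, ell, ell, hω _ (ins_l h h0 hL (hF.sub (hG.smul t))).1, hω _ i1.1, hω _ i2.1, ← Ex_const_mul,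
    ← Ex_sub (FlF4.ig_tame hm.ctr hm.anch i1.2) (FlF4.ig_tame hm.ctr hm.anch ((Tame.const t).mul i2.2))]
  congr 1; funext s; ring

theorem rp {W a b : ℝ} (h1 : 1 ≤ W) (h : 16 ≤ W ^ (1 / 5 : ℝ)) (hab : a + 1 / 5 ≤ b) :
    16 * W ^ a ≤ W ^ b := by
  have h0 : 0 < W := by linarith
  calc 16 * W ^ a ≤ W ^ (1 / 5 : ℝ) * W ^ a := by gcongr
    _ = W ^ (a + 1 / 5) := by rw [← rpow_add h0, add_comm]
    _ ≤ W ^ b := rpow_le_rpow_of_exponent_le h1 hab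

theorem ev_rpow (c : ℝ) {a : ℝ} (ha : 0 < a) : ∃ W₀ : ℕ, 1 ≤ W₀ ∧ ∀ W : ℕ, W₀ ≤ W → c ≤ (W : ℝ) ^ a := by
  have := ((tendsto_rpow_atTop ha).comp tendsto_natCast_atTop_atTop).eventually_ge_atTop c
  obtain ⟨W₀, h⟩ := Filter.eventually_atTop.1 this
  exact ⟨W₀ + 1, by omega, fun W hW => h W (by omega)⟩

/-- the left functional at step `k ≤ m` -/
noncomputable def lk (ω : (Cfg Pt → ℝ) → ℝ) (W r m k : ℕ) (F : Cfg Pt → ℝ) : ℝ :=
  if k ≤ m then ell ω (2 * (W ^ k * r : ℕ)) F else 0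

theorem lk_eq {W m k : ℕ} (h : k ≤ m) (F : Cfg Pt → ℝ) :
    lk ω W r m k F = ell ω (2 * (W ^ k * r : ℕ)) F := if_pos h

/-- the data of the cone argument along the scales `W ^ k * r`, `k ≤ m` -/
def Lc (p : Par) (W : ℕ) (Λ : Lat) (ω : (Cfg Pt → ℝ) → ℝ) (r m : ℕ) : Prop :=
  Lf (fun k => cls (W ^ k * r)) (fun k => nu Λ p.w 0 (W ^ k * r)) (lk ω W r m)
    (fun k => Sn ((W ^ k * r : ℕ) / 4)) ((W : ℝ) ^ (-3 + ew p.w / 10)) ((W : ℝ) ^ (-2 + ew p.w / 10)) 2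
    ((W : ℝ) ^ (-2 - ew p.w / 10)) ((W : ℝ) ^ (-4 - ew p.w / 10)) ((W : ℝ) ^ (5 / 2 : ℝ))
    ((W : ℝ) ^ (-(9 / 4) : ℝ)) 0 m

theorem lc_of {W r₁ m : ℕ} (hW : 1 ≤ W) (h16 : 16 ≤ (W : ℝ) ^ (1 / 5 : ℝ)) (h : Pack p W Λ ω r₁ L N)
    (h0 : p.r₀ ≤ r) (h1 : r₁ ≤ r) (hL : p.w * (W ^ m * r) ≤ L) : Lc p W Λ ω r m := by
  have hΛ := h.mem.ok
  have W1 : (1 : ℝ) ≤ W := by exact_mod_cast hW
  have W0 : (0 : ℝ) < W := by linarith
  have e0 := Beta3.ew_nonneg p.w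
  have e1 := Beta3.ew_le p.w
  have up : ∀ k, r ≤ W ^ k * r := fun k => Nat.le_mul_of_pos_left _ (pow_pos hW k)
  have mo : ∀ {j k}, j ≤ k → W ^ j * r ≤ W ^ k * r := fun hjk =>
    Nat.mul_le_mul_right _ (Nat.pow_le_pow_right hW hjk)
  have hk : ∀ {k}, k ≤ m → p.w * (W ^ k * r) ≤ L := fun hk => (Nat.mul_le_mul_left _ (mo hk)).trans hL
  have su : ∀ k, W ^ (k + 1) * r = W * (W ^ k * r) := fun k => by ring
  have se : ∀ k, _ := fun k => semiStmt Λ p.w (W ^ k * r) 0 hΛ (by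
    have := A51.four_le h.toGs (W ^ k * r); have := h.gd.2.1; have := up k; omega)
  have one : ∀ k, 1 ≤ W ^ k * r := fun k => by have := two_le h.toGs h0; have := up k; omega
  have R := fun {a b : ℝ} (hab : a + 1 / 5 ≤ b) => rp W1 h16 hab
  have P : ∀ a : ℝ, 0 < (W : ℝ) ^ a := fun a => rpow_pos_of_pos W0 a
  have M : ∀ a b : ℝ, (W : ℝ) ^ a * (W : ℝ) ^ b = (W : ℝ) ^ (a + b) := fun a b => (rpow_add W0 a b).symm
  refine ⟨fun k F hF => ⟨hF.1.mono (mo (Nat.le_succ k)), hF.2⟩,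
    fun k F hF G hG => (((se k).1 F hF.1).2.2.2.2 G hG.1).1, fun k t F hF => ((se k).1 F hF.1).2.2.1 t,
    fun k F => A51.nu_nonneg hΛ _ _ _ _, fun k t F hF G hG => ?_,
    fun k => ⟨ins_Sn4 (one k), odd_Sn _, d4_Sn _⟩,
    fun k => ((se k).1 _ (ins_Sn4 (one k))).2.2.2.1 1 (abs_Sn_le _), fun k _ hb F hF => ?_,
    fun k _ hb F hF => ?_, fun k _ hb F hF => ?_, fun k _ hb => ?_, fun k _ hb => ?_, (P _).le, P _,
    two_pos, P _, P _, ?_, ?_, ?_, ?_, ?_⟩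
  · by_cases hb : k ≤ m
    · simp only [lk_eq hb]
      exact ell_sub h.toEnv (h0.trans (up k)) (hk hb) hF.1 hG.1 t
    · simp [lk, hb]
  · have := (h.ks _ (h0.trans (up k)) (h1.trans (up k)) (su k ▸ hk hb) F hF.1 hF.2.1 hF.2.2).2
    rw [← su] at this
    exact this
  · have := (h.ks _ (h0.trans (up k)) (h1.trans (up k)) (su k ▸ hk hb) F hF.1 hF.2.1 hF.2.2).1
    rwa [← su] at this
  · rw [lk_eq hb]
    exact abs_ell_le h.toEnv (h0.trans (up k)) (hk hb) hF.1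
  · have := h.low₁ _ (h0.trans (up k)) (h1.trans (up k)) (su k ▸ hk hb)
    rw [lk_eq hb, su, Nat.cast_mul]
    exact this.trans (le_abs_self _)
  · have := h.low₂ _ (h0.trans (up k)) (h1.trans (up k)) (su k ▸ su (k + 1) ▸ hk hb)
    rw [lk_eq hb, su, su, Nat.cast_mul, Nat.cast_mul]
    exact this.trans (le_abs_self _)
  · have := R (a := 5 / 2 + (-3 + ew p.w / 10)) (b := 0) (by linarith)
    rw [← M, rpow_zero] at this
    nlinarith [mul_pos (P (5 / 2)) (P (-3 + ew p.w / 10))]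
  · have := R (a := 5 / 2 + (-2 + ew p.w / 10 + (-2 + ew p.w / 10)) + (-3 + ew p.w / 10))
      (b := -4 - ew p.w / 10) (by linarith)
    rw [← M, ← M, ← M] at this
    linarith
  · have := R (a := -2 + ew p.w / 10) (b := 5 / 2 + (-4 - ew p.w / 10)) (by linarith)
    rw [← M (5 / 2)] at this
    linarith [P (-2 + ew p.w / 10)]
  · have := R (a := 0) (b := 5 / 2 + (-2 - ew p.w / 10)) (by linarith)
    rw [← M, rpow_zero] at this
    linarith
  · have a1 := R (a := -2 + ew p.w / 10) (b := 5 / 2 + (-2 - ew p.w / 10) + -(9 / 4)) (by linarith)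
    have a2 := R (a := 5 / 2 + (-2 - ew p.w / 10) + (-3 + ew p.w / 10))
      (b := 5 / 2 + (-2 - ew p.w / 10) + -(9 / 4)) (by linarith)
    rw [← M _ (-(9 / 4)), ← M (5 / 2)] at a1
    rw [← M _ (-(9 / 4)), ← M _ (-3 + ew p.w / 10), ← M (5 / 2)] at a2
    nlinarith [P (-2 + ew p.w / 10), mul_pos (mul_pos (P (5 / 2)) (P (-2 - ew p.w / 10)))
      (P (-3 + ew p.w / 10))]

end Cone

open Cone in
/-- **PUR** -/
theorem purStmt : PurStmt := by
  intro w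
  rcases Nat.eq_zero_or_pos w with rfl | hw
  · exact ⟨0, fun p W hp _ Λ ω r₁ L N h => absurd h.w4 (by omega)⟩
  have e0 := ew_pos hw
  have e1 := Beta3.ew_le w
  obtain ⟨W₁, hW₁, H₁⟩ := ev_rpow 16 (by norm_num : (0 : ℝ) < 1 / 5)
  obtain ⟨W₂, -, H₂⟩ := ev_rpow 8 (half_pos e0)
  refine ⟨W₁ + W₂, fun p W hp hW Λ ω r₁ L N h r m F h0 h1 hL hF ho hd => ?_⟩
  subst hp
  have hW1 : 1 ≤ W := by omega
  have W1 : (1 : ℝ) ≤ W := by exact_mod_cast hW1
  have W0 : (0 : ℝ) < W := by linarith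
  have k := lc_of hW1 (H₁ W (by omega)) h h0 h1 hL
  have hC : F ∈ cls (W ^ 0 * r) := by rw [pow_zero, one_mul]; exact ⟨hF, ho, hd⟩
  have hν := A51.nu_nonneg h.mem.ok p.w 0 r F
  have Q : ∀ (a b : ℝ) (n : ℕ), a ≤ b → ((W : ℝ) ^ a) ^ n ≤ (W : ℝ) ^ (b * n) := fun a b n hab => by
    rw [← rpow_mul_natCast W0.le]
    exact rpow_le_rpow_of_exponent_le W1 (by gcongr)
  have d := k.dec_pow le_rfl hC m (by omega)
  simp only [zero_add, pow_zero, one_mul] at d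
  have d' := d.trans (mul_le_mul_of_nonneg_right (Q _ (-2 + ew p.w) m (by linarith)) hν)
  rcases m with _ | m
  · exact ⟨0, by simpa using hν, by simp; linarith, d'⟩
  obtain ⟨α, -, a1, a2⟩ := k.pur le_rfl hC m (by omega)
  simp only [zero_add, pow_zero, one_mul] at a1 a2
  have b1 : 2 * (W : ℝ) ^ (-2 + ew p.w / 10) / (W : ℝ) ^ (-2 - ew p.w / 10) ≤ 2 * (W : ℝ) ^ ew p.w := by
    rw [mul_div_assoc, ← rpow_sub W0]
    exact mul_le_mul_of_nonneg_left (rpow_le_rpow_of_exponent_le W1 (by linarith)) zero_le_two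
  have b2 : 4 * 2 * ((W : ℝ) ^ (-2 + ew p.w / 10)) ^ 2 / (W : ℝ) ^ (-4 - ew p.w / 10) ≤
      (W : ℝ) ^ ew p.w := by
    rw [mul_div_assoc, ← rpow_mul_natCast W0.le, ← rpow_sub W0]
    calc _ ≤ (W : ℝ) ^ (ew p.w / 2) * (W : ℝ) ^ (ew p.w / 2) :=
          mul_le_mul (by linarith [H₂ W (by omega)])
            (rpow_le_rpow_of_exponent_le W1 (by push_cast; linarith)) (by positivity) (by positivity)
      _ = _ := by rw [← rpow_add W0, add_halves]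
  have b3 : |α| ≤ 2 * (W : ℝ) ^ (ew p.w * ((m + 1 : ℕ) : ℝ)) * nu Λ p.w 0 r F := by
    refine a1.trans (mul_le_mul_of_nonneg_right ?_ hν)
    rw [rpow_mul_natCast W0.le, pow_succ' _ m, ← mul_assoc]
    exact mul_le_mul b1 (pow_le_pow_left₀ (by positivity) b2 m) (by positivity) (by positivity)
  refine ⟨α, b3, a2.trans ?_, d'⟩
  have b4 : 1 ≤ (W : ℝ) ^ (ew p.w * ((m + 1 : ℕ) : ℝ)) := one_le_rpow W1 (by positivity)
  have b5 : ((W : ℝ) ^ (-(9 / 4) : ℝ)) ^ (m + 1) * (W : ℝ) ^ (ew p.w * ((m + 1 : ℕ) : ℝ)) ≤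
      (W : ℝ) ^ (-(11 / 5 : ℝ) * ((m + 1 : ℕ) : ℝ)) := by
    rw [← rpow_mul_natCast W0.le, ← rpow_add W0, ← add_mul]
    exact rpow_le_rpow_of_exponent_le W1 (mul_le_mul_of_nonneg_right (by linarith) (by positivity))
  have b6 : 0 ≤ ((W : ℝ) ^ (-(9 / 4) : ℝ)) ^ (m + 1) := by positivity
  calc _ ≤ ((W : ℝ) ^ (-(9 / 4) : ℝ)) ^ (m + 1) *
        (3 * (W : ℝ) ^ (ew p.w * ((m + 1 : ℕ) : ℝ)) * nu Λ p.w 0 r F) := by
        gcongr; nlinarith
    _ ≤ _ := by nlinarith [mul_le_mul_of_nonneg_right b5 hν]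

end Crest.Agent.T145.Fl
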