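import Crest.Agent.T145.GsQ_85
import Crest.Agent.T145.ApiL_98

/-!
# Row 145 (helper85): ring weights (dual tilt, quantitative Hubbard-Stratonovich transfer) and the
`Ex` forms of the soft Gaussianity lemmas
-/

set_option autoImplicit false
set_option linter.unusedSectionVars false

namespace Crest.Agent.T145.Gs

open MeasureTheory ProbabilityTheory Matrix
open scoped MatrixOrder

universe u

section
variable {ι : Type*} [Fintype ι] [DecidableEq ι] {B C : Matrix ι ι ℝ}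

theorem tl_dual (h : IsUnit (1 + B * C).det) : B - B * tl C B * B = tl B C := by
  have h' : IsUnit (1 + C * B).det := by rwa [det_one_add_mul_comm]
  have e : tl C B * B = C * tl B C := by
    rw [tl, tl, push B C h', Matrix.mul_assoc]
  rw [tl_res' h', Matrix.mul_assoc, e, Matrix.mul_assoc]

/-- `E gw B (φ + x) = det (1 + B C)^{-1/2} gw ((B⁻¹ + C)⁻¹) φ` -/
theorem integral_gw_add' (hC : C.PosSemidef) (hB : Bᵀ = B) (h : TOk C B) (φ : ι → ℝ) :
    ∫ x, gw B (φ + x) ∂(gm C) = (Real.sqrt (1 + B * C).det)⁻¹ * gw (tl B C) φ := by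
  rw [integral_gw_add hC hB h, tl_dual (h.unit hC)]

theorem one_le_det_mul (hB : B.PosSemidef) (hC : C.PosSemidef) : 1 ≤ (1 + B * C).det := by
  rw [← TOk.det_eq hC]
  have := psd_conj hB (CFC.sqrt C)
  rw [sqrt_transpose] at this
  exact one_le_det this

theorem unit_psd (hB : B.PosSemidef) (hC : C.PosSemidef) : IsUnit (1 + B * C).det :=
  (one_pos.trans_le (one_le_det_mul hB hC)).ne'.isUnit

theorem tl_psd (hB : B.PosSemidef) (hC : C.PosSemidef) : (tl B C).PosSemidef :=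
  (tOk_of_psd B hC).psd hB

theorem det_mul_le_exp (hB : B.PosSemidef) (hC : C.PosSemidef) :
    (1 + B * C).det ≤ Real.exp (B * C).trace := by
  have hM := psd_conj hB (CFC.sqrt C)
  rw [sqrt_transpose] at hM
  have e : (CFC.sqrt C * B * CFC.sqrt C).trace = (B * C).trace := by
    rw [trace_mul_cycle, sqrt_mul hC, trace_mul_comm]
  rw [← TOk.det_eq hC, ← e]
  exact det_le_exp (psd_transpose hM) fun x => by linarith [psd_quad hM x, dot_self_nonneg x]

theorem det_sq_le {M : Matrix ι ι ℝ} (hM : M.PosSemidef) :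
    (1 + M).det ^ 2 ≤ (1 + (2 : ℝ) • M).det * Real.exp (M * M).trace := by
  obtain ⟨U, h1, h2, h3⟩ := spec hM.1
  have e : 1 + (2 : ℝ) • M = U * (diagonal fun i => 1 + 2 * hM.1.eigenvalues i) * Uᵀ := by
    conv_lhs => rw [h3, ← h2]
    rw [← diagonal_add, diagonal_one, Matrix.mul_add, Matrix.add_mul, Matrix.mul_one,
      ← Matrix.smul_mul, ← Matrix.mul_smul, ← diagonal_smul]
    rfl
  rw [e, det_mul, det_mul, mul_comm U.det, mul_assoc _ U.det, ← det_mul, h2, det_one, mul_one,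
    det_diagonal, det_one_add_eq hM.1, trace_sq_eq hM.1, Real.exp_sum, ← Finset.prod_pow,
    ← Finset.prod_mul_distrib]
  refine Finset.prod_le_prod (fun i _ => sq_nonneg _) fun i _ => ?_
  have h4 := hM.eigenvalues_nonneg i
  set l := hM.1.eigenvalues i
  have h5 := Real.add_one_le_exp (l ^ 2)
  nlinarith [mul_le_mul_of_nonneg_left h5 (by linarith : 0 ≤ 1 + 2 * l), mul_nonneg h4 (sq_nonneg l)]

/-- `det (1 + 2 B C)^{-1/2} ≤ c₀² exp (tr (B C B C) / 2)`, `c₀ = det (1 + B C)^{-1/2}` -/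
theorem det_two (hB : B.PosSemidef) (hC : C.PosSemidef) :
    (Real.sqrt (1 + ((2 : ℝ) • B) * C).det)⁻¹ ≤
      ((Real.sqrt (1 + B * C).det)⁻¹) ^ 2 * Real.exp ((B * C * (B * C)).trace / 2) := by
  have hM := psd_conj hB (CFC.sqrt C)
  rw [sqrt_transpose] at hM
  have h := det_sq_le hM
  have e1 : (CFC.sqrt C * B * CFC.sqrt C * (CFC.sqrt C * B * CFC.sqrt C)).trace =
      (B * C * (B * C)).trace := by
    have e : CFC.sqrt C * B * CFC.sqrt C * (CFC.sqrt C * B * CFC.sqrt C) =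
        CFC.sqrt C * (B * (CFC.sqrt C * CFC.sqrt C) * B * CFC.sqrt C) := by
      simp only [Matrix.mul_assoc]
    rw [e, trace_mul_comm, Matrix.mul_assoc _ (CFC.sqrt C), sqrt_mul hC, Matrix.mul_assoc]
  have e2 : (2 : ℝ) • (CFC.sqrt C * B * CFC.sqrt C) = CFC.sqrt C * ((2 : ℝ) • B) * CFC.sqrt C := by
    simp
  rw [e1, e2, TOk.det_eq hC, TOk.det_eq hC] at h
  have p1 := one_pos.trans_le (one_le_det_mul hB hC)
  have p2 := one_pos.trans_le (one_le_det_mul (hB.smul (zero_le_two (α := ℝ))) hC)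
  rw [inv_pow, Real.sq_sqrt p1.le, inv_mul_eq_div, le_div_iff₀ p1, inv_mul_eq_div,
    div_le_iff₀ (Real.sqrt_pos.2 p2)]
  apply le_of_sq_le_sq _ (by positivity)
  rw [mul_pow, Real.sq_sqrt p2.le, ← Real.exp_nat_mul, mul_comm]
  refine h.trans_eq ?_
  congr 2
  push_cast
  ring








/-- quantitative Hubbard-Stratonovich transfer -/
theorem hs_le {Ω : Type*} [MeasurableSpace Ω] {P : Measure Ω} [IsProbabilityMeasure P]
    {Y a : Ω → ι → ℝ} {u : Ω → ℝ} (hB : B.PosSemidef) (hC : C.PosSemidef) {K R η : ℝ}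
    (hBK : ∀ i, B i i ≤ K) (hY : Measurable Y) (ha : Measurable a) (hu : Measurable u)
    (hu1 : ∀ ω, |u ω| ≤ 1) (hη : 0 ≤ η)
    (h : ∀ t : ι → ℝ, ‖t‖ ≤ R → |∫ ω, u ω * Real.cos (t ⬝ᵥ Y ω) ∂P -
      Real.exp (-(t ⬝ᵥ C *ᵥ t) / 2) * ∫ ω, u ω * Real.cos (t ⬝ᵥ a ω) ∂P| ≤ η) :
    |∫ ω, u ω * gw B (Y ω) ∂P -
      (Real.sqrt (1 + B * C).det)⁻¹ * ∫ ω, u ω * gw (tl B C) (a ω) ∂P| ≤
      η + 2 * Real.exp (-R) * (1 + 2 * Fintype.card ι * Real.exp (K / 2)) := by
  have hE : ∀ t : ι → ℝ, |Real.exp (-(t ⬝ᵥ C *ᵥ t) / 2)| ≤ 1 := fun t => by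
    rw [abs_of_pos (Real.exp_pos _)]; exact gw_le_one hC t
  have m1 : Measurable fun p : Ω × (ι → ℝ) => u p.1 * Real.cos (p.2 ⬝ᵥ Y p.1) :=
    (hu.comp measurable_fst).mul (Real.measurable_cos.comp
      (meas_dot measurable_snd (hY.comp measurable_fst)))
  have m2 : Measurable fun p : Ω × (ι → ℝ) =>
      u p.1 * (Real.exp (-(p.2 ⬝ᵥ C *ᵥ p.2) / 2) * Real.cos (p.2 ⬝ᵥ a p.1)) :=
    (hu.comp measurable_fst).mul (((cont_gw C).measurable.comp measurable_snd).mul
      (Real.measurable_cos.comp (meas_dot measurable_snd (ha.comp measurable_fst))))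
  have i1 := int_bdd (μ := P.prod (gm B)) m1 (c := 1)
    fun p => abs_mul_le_one (hu1 _) (Real.abs_cos_le_one _)
  have i2 := int_bdd (μ := P.prod (gm B)) m2 (c := 1)
    fun p => abs_mul_le_one (hu1 _) (abs_mul_le_one (hE _) (Real.abs_cos_le_one _))
  have e0 : (Real.sqrt (1 + B * C).det)⁻¹ * ∫ ω, u ω * gw (tl B C) (a ω) ∂P =
      ∫ ω, u ω * ∫ x, gw B (a ω + x) ∂(gm C) ∂P := by
    simp_rw [integral_gw_add' hC (psd_transpose hB) (tOk_of_psd C hB)]
    rw [← integral_const_mul]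
    congr 1; funext ω; ring
  rw [e0]
  simp_rw [integral_gw_cos hB hC, gw_eq_cos hB, ← integral_const_mul]
  have s1 := integral_integral_swap (f := fun ω t => u ω * Real.cos (t ⬝ᵥ Y ω)) i1
  have s2 := integral_integral_swap
    (f := fun ω t => u ω * (Real.exp (-(t ⬝ᵥ C *ᵥ t) / 2) * Real.cos (t ⬝ᵥ a ω))) i2
  rw [s1, s2, ← integral_sub i1.integral_prod_right i2.integral_prod_right]
  have hb : ∀ t : ι → ℝ, ‖∫ ω, u ω * Real.cos (t ⬝ᵥ Y ω) ∂P -
      ∫ ω, u ω * (Real.exp (-(t ⬝ᵥ C *ᵥ t) / 2) * Real.cos (t ⬝ᵥ a ω)) ∂P‖ ≤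
      η + 2 * Real.exp (-R) * Real.exp (1 * ‖t‖) := by
    intro t
    rw [Real.norm_eq_abs]
    rcases le_or_gt ‖t‖ R with ht | ht
    · have h1 := h t ht
      rw [← integral_const_mul] at h1
      simp_rw [mul_left_comm (u _)]
      exact h1.trans (le_add_of_nonneg_right (by positivity))
    · have h1 : |∫ ω, u ω * Real.cos (t ⬝ᵥ Y ω) ∂P| ≤ 1 := by
        simpa using norm_integral_le_of_norm_le_const (μ := P) (C := 1)
          (f := fun ω => u ω * Real.cos (t ⬝ᵥ Y ω))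
          (Filter.Eventually.of_forall fun ω => abs_mul_le_one (hu1 _) (Real.abs_cos_le_one _))
      have h2 : |∫ ω, u ω * (Real.exp (-(t ⬝ᵥ C *ᵥ t) / 2) * Real.cos (t ⬝ᵥ a ω)) ∂P| ≤ 1 := by
        simpa using norm_integral_le_of_norm_le_const (μ := P) (C := 1)
          (f := fun ω => u ω * (Real.exp (-(t ⬝ᵥ C *ᵥ t) / 2) * Real.cos (t ⬝ᵥ a ω)))
          (Filter.Eventually.of_forall fun ω => abs_mul_le_one (hu1 _)
            (abs_mul_le_one (hE _) (Real.abs_cos_le_one _)))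
      have h3 : 1 ≤ Real.exp (-R) * Real.exp (1 * ‖t‖) := by
        rw [← Real.exp_add]; exact Real.one_le_exp (by linarith)
      rw [abs_le] at h1 h2 ⊢
      constructor <;> linarith [h1.1, h1.2, h2.1, h2.2]
  have i3 := (int_exp_norm B 1).const_mul (2 * Real.exp (-R))
  have h4 := norm_integral_le_of_norm_le ((integrable_const η).add i3)
    (Filter.Eventually.of_forall hb)
  rw [integral_add' (integrable_const _) i3, integral_const_mul] at h4
  have h5 := integral_exp_norm_le hB hBK 1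
  simp only [integral_const, probReal_univ, smul_eq_mul, one_mul, Real.norm_eq_abs, one_pow] at h4 h5
  refine h4.trans ?_
  gcongr

end

/-! ### `Ex` forms -/

section
variable {α : Type u} [Countable α] {W : α → ℝ}


theorem hs_le_Ex {ι : Type*} [Fintype ι] [DecidableEq ι] {B C : Matrix ι ι ℝ} (hW : Wt W)
    (Y a : α → ι → ℝ) {u : α → ℝ} (hB : B.PosSemidef) (hC : C.PosSemidef) {K R η : ℝ}
    (hBK : ∀ i, B i i ≤ K) (hu1 : ∀ s, |u s| ≤ 1) (hη : 0 ≤ η)
    (h : ∀ t : ι → ℝ, ‖t‖ ≤ R → |Ex W (fun s => u s * Real.cos (t ⬝ᵥ Y s)) -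
      Real.exp (-(t ⬝ᵥ C *ᵥ t) / 2) * Ex W fun s => u s * Real.cos (t ⬝ᵥ a s)| ≤ η) :
    |Ex W (fun s => u s * gw B (Y s)) -
      (Real.sqrt (1 + B * C).det)⁻¹ * Ex W fun s => u s * gw (tl B C) (a s)| ≤
      η + 2 * Real.exp (-R) * (1 + 2 * Fintype.card ι * Real.exp (K / 2)) := by
  let _ : MeasurableSpace α := ⊤
  have : DiscreteMeasurableSpace α := ⟨fun _ => trivial⟩
  have := law_prob hW
  simp only [← law_integral hW] at h ⊢
  exact hs_le hB hC hBK Measurable.of_discrete Measurable.of_discrete Measurable.of_discrete hu1 hη h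


end




end Crest.Agent.T145.Gs
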