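import Crest.Agent.T145.PotL_17

/-!
# Row 145 (helper59): Caccioppoli inequality and hole filling on `ℤ²`
-/

set_option autoImplicit false

namespace Crest.Agent.T145.Pot

open Finset

variable {Λ : Lat}


theorem sum_ends_le (B : Finset Pt) {f : Pt → ℝ} (hf : ∀ x, 0 ≤ f x) :
    ∑ e ∈ Λ.edI B, (f e.1 + f e.2) ≤ 2 * Λ.Jp.card * ∑ x ∈ B, f x := by
  rw [Lat.sum_edI, mul_comm 2, mul_assoc, ← nsmul_eq_mul]
  refine sum_le_card_nsmul _ _ _ fun y _ => ?_
  rw [sum_add_distrib, two_mul]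
  refine add_le_add (sum_le_sum_of_subset_of_nonneg (filter_subset _ _) fun x _ _ => hf x) ?_
  rw [← sum_image (g := fun x => x + y) (f := f) fun a _ b _ hab => add_right_cancel hab]
  refine sum_le_sum_of_subset_of_nonneg (fun x hx => ?_) fun x _ _ => hf x
  obtain ⟨w, hw, rfl⟩ := mem_image.1 hx
  exact (mem_filter.1 hw).2


namespace H59


/-- sup norm distance -/
def ds (z x : Pt) : ℤ := max |x.1 - z.1| |x.2 - z.2|

theorem mem_bl_ds {z x : Pt} {r : ℕ} : x ∈ bl z r ↔ ds z x ≤ r := by rw [mem_bl_abs, ds, max_le_iff]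

theorem ds_lip (z : Pt) {x y : Pt} {r : ℕ} (h : y ∈ bl x r) : |ds z y - ds z x| ≤ r := by
  rw [mem_bl] at h
  simp only [ds, abs_eq_max_neg]
  omega

/-- cutoff: `1` on `bl z (k m)`, `0` off `bl z ((k + 1) m)` -/
noncomputable def cut (z : Pt) (k m : ℕ) (x : Pt) : ℝ := max 0 (min 1 (k + 1 - (ds z x : ℝ) / m))

theorem cut_one {z x : Pt} {k m : ℕ} (hm : 0 < m) (h : x ∈ bl z (k * m)) : cut z k m x = 1 := by
  have h1 : (ds z x : ℝ) ≤ k * m := by exact_mod_cast mem_bl_ds.1 h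
  have h2 : (ds z x : ℝ) / m ≤ k := by rwa [div_le_iff₀ (by positivity)]
  rw [cut, min_eq_left (by linarith), max_eq_right zero_le_one]



/-- a connected set leaves a ball through a thin shell -/
theorem exists_exit {K : Finset Pt} {z y : Pt} {t : ℕ} (h : Conn (Λ.edI K) z y) (hy : y ∉ bl z t) :
    ∃ x ∈ K, x ∉ bl z t ∧ x ∈ bl z (t + Λ.rg) ∧ Conn (Λ.edI K) x z := by
  induction h with
  | refl => exact absurd (self_mem_bl _ _) hy
  | @tail b c h1 h2 ih =>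
    by_cases hb : b ∈ bl z t
    · have h3 : c ∈ K ∧ c ∈ bl b Λ.rg := by
        rcases h2 with h2 | h2
        · exact ⟨(Lat.mem_edI.1 h2).2.2, Lat.edge_near (e := (b, c)) (Lat.mem_edI.1 h2).1⟩
        · exact ⟨(Lat.mem_edI.1 h2).2.1, Lat.edge_near' (e := (c, b)) (Lat.mem_edI.1 h2).1⟩
      exact ⟨c, h3.1, hy, bl_subset_bl hb (add_comm _ _).le h3.2,
        Conn.symm (Relation.ReflTransGen.tail h1 h2)⟩
    · exact ih hb

/-- eight centres around `z` -/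
def cen (z : Pt) (m : ℕ) : Fin 8 → Pt :=
  ![(z.1 + 4 * m, z.2), (z.1 + 4 * m, z.2 + 4 * m), (z.1, z.2 + 4 * m), (z.1 - 4 * m, z.2 + 4 * m),
    (z.1 - 4 * m, z.2), (z.1 - 4 * m, z.2 - 4 * m), (z.1, z.2 - 4 * m), (z.1 + 4 * m, z.2 - 4 * m)]




theorem chain {S T : Finset Pt} (hT : T ⊆ S) (hc : (S.card : ℝ) ≤ 9 * T.card) (u : Pt → ℝ) (a : ℝ) :
    ∑ x ∈ S, u x ^ 2 ≤ 36 * ∑ x ∈ T, u x ^ 2 + 38 * ∑ x ∈ S, (u x - a) ^ 2 := by
  have h1 : ∑ x ∈ S, u x ^ 2 ≤ 2 * ∑ x ∈ S, (u x - a) ^ 2 + 2 * (S.card * a ^ 2) := by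
    rw [← nsmul_eq_mul, ← sum_const, mul_sum, mul_sum, ← sum_add_distrib]
    exact sum_le_sum fun x _ => by nlinarith [sq_nonneg (u x - 2 * a)]
  have h2 : T.card * a ^ 2 ≤ 2 * ∑ x ∈ T, u x ^ 2 + 2 * ∑ x ∈ T, (u x - a) ^ 2 := by
    rw [← nsmul_eq_mul, ← sum_const, mul_sum, mul_sum, ← sum_add_distrib]
    exact sum_le_sum fun x _ => by nlinarith [sq_nonneg (2 * u x - a)]
  have h3 : ∑ x ∈ T, (u x - a) ^ 2 ≤ ∑ x ∈ S, (u x - a) ^ 2 :=
    sum_le_sum_of_subset_of_nonneg hT fun _ _ _ => sq_nonneg _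
  nlinarith [mul_le_mul_of_nonneg_right hc (sq_nonneg a)]

/-- iteration of a one step contraction -/
theorem iter {E : ℕ → ℝ} (hE : Monotone E) (h0 : ∀ r, 0 ≤ E r) {M R : ℕ} (hM : 2 ≤ M) {θ : ℝ}
    (h1 : 0 < θ) (h2 : θ < 1) (h : ∀ r, 1 ≤ r → M * r ≤ R → E r ≤ θ * E (M * r)) :
    ∀ r, 1 ≤ r → r ≤ R →
      E r ≤ θ⁻¹ * ((r : ℝ) / R) ^ (-Real.log θ / Real.log M) * E R := by
  set c := -Real.log θ / Real.log M with hc
  have hM1 : (1 : ℝ) < M := by exact_mod_cast hM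
  have hl := Real.log_pos hM1
  have hc0 : 0 ≤ c := div_nonneg (neg_nonneg.2 (Real.log_neg h1 h2).le) hl.le
  have hMc : (M : ℝ) ^ c = θ⁻¹ := by
    rw [Real.rpow_def_of_pos (by positivity), hc, mul_div_cancel₀ _ hl.ne', Real.exp_neg,
      Real.exp_log h1]
  intro r
  induction hn : R - r using Nat.strong_induction_on generalizing r with
  | _ n ih =>
    intro hr hR
    have hr0 : (0 : ℝ) < r := by exact_mod_cast hr
    have hR0 : (0 : ℝ) < R := by exact_mod_cast hr.trans hR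
    have e : (((M * r : ℕ) : ℝ) / R) ^ c = θ⁻¹ * ((r : ℝ) / R) ^ c := by
      rw [Nat.cast_mul, mul_div_assoc, Real.mul_rpow (by positivity) (by positivity), hMc]
    by_cases h3 : M * r ≤ R
    · have h4 : r < M * r := by nlinarith
      have h5 := ih (R - M * r) (by omega) (M * r) rfl (by omega) h3
      refine (h r hr h3).trans ((mul_le_mul_of_nonneg_left h5 h1.le).trans_eq ?_)
      rw [e]
      field_simp
    · refine (hE hR).trans (le_mul_of_one_le_left (h0 R) ?_)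
      rw [← e]
      refine Real.one_le_rpow ?_ hc0
      rw [le_div_iff₀ hR0, one_mul]
      exact_mod_cast (not_le.1 h3).le

end H59

open H59



end Crest.Agent.T145.Pot
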