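import Crest.Agent.T145.PotD_17
import Crest.Agent.T145.PotPo_44

/-!
# Row 145 (helper44): Poincaré inequalities on rectangles and annuli (`AnnStmt`)
-/

set_option autoImplicit false

namespace Crest.Agent.T145.Pot

open Finset Po44

namespace An44

/-- the rectangle `a + [0, p) × [0, q)` -/
noncomputable def rec (a : Pt) (p q : ℕ) : Finset Pt := Ico a.1 (a.1 + p) ×ˢ Ico a.2 (a.2 + q)

theorem mem_rec {a x : Pt} {p q : ℕ} :
    x ∈ rec a p q ↔ (a.1 ≤ x.1 ∧ x.1 < a.1 + p) ∧ a.2 ≤ x.2 ∧ x.2 < a.2 + q := by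
  simp only [rec, mem_product, mem_Ico]

theorem card_rec (a : Pt) (p q : ℕ) : (rec a p q).card = p * q := by simp [rec]

theorem eN_rec (a : Pt) (p q : ℕ) (u : Pt → ℝ) : eN nL (rec a p q) u u =
    ∑ j ∈ Ico a.2 (a.2 + q), rw' a p u j + ∑ i ∈ Ico a.1 (a.1 + p), cl' a q u i := by
  have h1 : (rec a p q).filter (fun x => x + (1, 0) ∈ rec a p q) =
      Ico a.1 (a.1 + p - 1) ×ˢ Ico a.2 (a.2 + q) := by
    ext x; simp only [mem_filter, mem_rec, mem_product, mem_Ico, Prod.fst_add, Prod.snd_add]; omega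
  have h2 : (rec a p q).filter (fun x => x + (0, 1) ∈ rec a p q) =
      Ico a.1 (a.1 + p) ×ˢ Ico a.2 (a.2 + q - 1) := by
    ext x; simp only [mem_filter, mem_rec, mem_product, mem_Ico, Prod.fst_add, Prod.snd_add]; omega
  rw [eN_apply, nL_Jp, sum_pair (by decide), h1, h2, sum_product_right, sum_product]
  simp only [rw', cl', dif, Prod.mk_add_mk, add_zero, pow_two]

/-- the mean minimises -/
theorem var_le (S : Finset Pt) (u : Pt → ℝ) (c : ℝ) :
    ∑ x ∈ S, (u x - av S u) ^ 2 ≤ ∑ x ∈ S, (u x - c) ^ 2 := by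
  rcases S.eq_empty_or_nonempty with rfl | hS
  · simp
  have h0 : (0 : ℝ) < S.card := by exact_mod_cast hS.card_pos
  have h1 : ∑ x ∈ S, (u x - av S u) = 0 := by
    rw [sum_sub_distrib, sum_const, nsmul_eq_mul, av]; field_simp; ring
  have h2 : ∑ x ∈ S, (u x - c) ^ 2 = ∑ x ∈ S, (u x - av S u) ^ 2 +
      2 * (av S u - c) * ∑ x ∈ S, (u x - av S u) + ∑ x ∈ S, (av S u - c) ^ 2 := by
    rw [mul_sum, ← sum_add_distrib, ← sum_add_distrib]; exact sum_congr rfl fun x _ => by ring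
  rw [h2, h1]
  have : 0 ≤ ∑ x ∈ S, (av S u - c) ^ 2 := by positivity
  linarith

/-- Poincaré inequality on a rectangle -/
theorem poin_rec (a : Pt) {p q n : ℕ} (hp : p ≤ n) (hq : q ≤ n) (u : Pt → ℝ) :
    ∑ x ∈ rec a p q, (u x - av (rec a p q) u) ^ 2 ≤ 2 * (n : ℝ) ^ 2 * eN nL (rec a p q) u u := by
  rcases (p * q).eq_zero_or_pos with h | hn
  · rw [card_eq_zero.1 ((card_rec a p q).trans h), sum_empty]
    have := eN_nonneg nL ∅ u
    positivity
  have h0 : (0 : ℝ) < (p : ℝ) * q := by exact_mod_cast hn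
  have hp' : (p : ℝ) ≤ n := by exact_mod_cast hp
  have hq' : (q : ℝ) ≤ n := by exact_mod_cast hq
  have h2 : (p : ℝ) * q * ∑ x ∈ rec a p q, (u x - av (rec a p q) u) ^ 2 ≤
      ∑ x ∈ rec a p q, ∑ y ∈ rec a p q, (u x - u y) ^ 2 := by
    rw [mul_sum]
    refine sum_le_sum fun x _ => ?_
    have := card_mul_av_sub (rec a p q) u (u x)
    rw [card_rec] at this
    push_cast at this
    rw [← neg_sub, neg_sq]
    exact this.trans (le_of_eq (sum_congr rfl fun y _ => by ring))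
  refine le_of_mul_le_mul_left (h2.trans ?_) h0
  have hR : 0 ≤ ∑ j ∈ Ico a.2 (a.2 + q), rw' a p u j := sum_nonneg fun _ _ => rw_nonneg _ _ _ _
  have hC : 0 ≤ ∑ j ∈ Ico a.1 (a.1 + p), cl' a q u j := sum_nonneg fun _ _ => cl_nonneg _ _ _ _
  simp only [eN_rec]
  simp only [rec, sum_product]
  calc _ ≤ ∑ i ∈ Ico a.1 (a.1 + p), ∑ j ∈ Ico a.2 (a.2 + q), ∑ i' ∈ Ico a.1 (a.1 + p),
        ∑ j' ∈ Ico a.2 (a.2 + q), (2 * p * rw' a p u j + 2 * q * cl' a q u i') := by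
        refine sum_le_sum fun i hi => sum_le_sum fun j hj => sum_le_sum fun i' hi' =>
          sum_le_sum fun j' hj' => ?_
        have e1 : (u (i, j) - u (i', j)) ^ 2 ≤ p * rw' a p u j := oneD (fun i => u (i, j)) hi hi'
        have e2 : (u (i', j) - u (i', j')) ^ 2 ≤ q * cl' a q u i' :=
          oneD (fun j => u (i', j)) hj hj'
        nlinarith [sq_nonneg (u (i, j) - u (i', j) - (u (i', j) - u (i', j')))]
    _ = (p : ℝ) * q * (2 * (p : ℝ) ^ 2 * ∑ j ∈ Ico a.2 (a.2 + q), rw' a p u j +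
          2 * (q : ℝ) ^ 2 * ∑ j ∈ Ico a.1 (a.1 + p), cl' a q u j) := by
        simp only [sum_add_distrib, sum_const, card_I, nsmul_eq_mul, ← mul_sum]
        ring
    _ ≤ _ := by
        rw [mul_add (2 * (n : ℝ) ^ 2)]
        gcongr

/-- gluing two Poincaré inequalities along a common subset -/
theorem glue {A B T : Finset Pt} {u : Pt → ℝ} {K₁ K₂ M : ℝ} (hM : 0 ≤ M) (hA : T ⊆ A) (hB : T ⊆ B)
    (hA' : (A.card : ℝ) ≤ M * T.card) (hB' : (B.card : ℝ) ≤ M * T.card)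
    (h1 : ∑ x ∈ A, (u x - av A u) ^ 2 ≤ K₁) (h2 : ∑ x ∈ B, (u x - av B u) ^ 2 ≤ K₂) :
    ∑ x ∈ A ∪ B, (u x - av (A ∪ B) u) ^ 2 ≤ (2 + 2 * M) * (K₁ + K₂) := by
  have key : ∀ {A : Finset Pt} {K : ℝ}, T ⊆ A → (A.card : ℝ) ≤ M * T.card →
      ∑ x ∈ A, (u x - av A u) ^ 2 ≤ K → ∑ x ∈ A, (u x - av T u) ^ 2 ≤ (2 + 2 * M) * K := by
    intro A K hA hA' h
    have e1 : T.card * (av T u - av A u) ^ 2 ≤ K := (card_mul_av_sub T u _).trans
      ((sum_le_sum_of_subset_of_nonneg hA fun _ _ _ => sq_nonneg _).trans h)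
    have e2 : ∑ x ∈ A, (u x - av T u) ^ 2 ≤
        2 * ∑ x ∈ A, (u x - av A u) ^ 2 + 2 * (A.card * (av T u - av A u) ^ 2) := by
      rw [← nsmul_eq_mul, ← sum_const, mul_sum, mul_sum, ← sum_add_distrib]
      exact sum_le_sum fun x _ => by nlinarith [sq_nonneg (u x - 2 * av A u + av T u)]
    have e3 : A.card * (av T u - av A u) ^ 2 ≤ M * K :=
      (mul_le_mul_of_nonneg_right hA' (sq_nonneg _)).trans
        (by rw [mul_assoc]; exact mul_le_mul_of_nonneg_left e1 hM)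
    linarith
  refine (var_le _ u (av T u)).trans ?_
  have e4 := sum_union_inter (s₁ := A) (s₂ := B) (f := fun x => (u x - av T u) ^ 2)
  have e5 : 0 ≤ ∑ x ∈ A ∩ B, (u x - av T u) ^ 2 := by positivity
  linarith [key hA hA' h1, key hB hB' h2]

theorem mem_an {z x : Pt} {r R : ℕ} : x ∈ an z r R ↔ x ∈ bl z R ∧ x ∉ bl z r := mem_sdiff

theorem an_mono (z : Pt) {r R r' R' : ℕ} (h : r' ≤ r) (h' : R ≤ R') : an z r R ⊆ an z r' R' :=
  sdiff_subset_sdiff (bl_mono z h') (bl_mono z h)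



theorem poin_an (lam : ℕ) : ∃ C : ℝ, 0 ≤ C ∧ ∀ (z : Pt) (r R : ℕ) (u : Pt → ℝ), R ≤ lam * (R - r) →
    ∑ x ∈ an z r R, (u x - av (an z r R) u) ^ 2 ≤ C * (R : ℝ) ^ 2 * eN nL (an z r R) u u := by
  set c : ℝ := 2 + 2 * (9 * (lam : ℝ) ^ 2) with hc
  refine ⟨c * (c * (c * 2 + 1) + 1) * 18, by positivity, fun z r R u h => ?_⟩
  have hE := eN_nonneg nL (an z r R) u
  rcases le_or_gt R r with hr | hr
  · rw [show an z r R = ∅ from sdiff_eq_empty_iff_subset.2 (bl_mono z hr), sum_empty]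
    have := eN_nonneg nL ∅ u
    positivity
  obtain ⟨w, rfl⟩ : ∃ w, R = r + w := ⟨R - r, by omega⟩
  rw [Nat.add_sub_cancel_left] at h
  set K : ℝ := 18 * ((r + w : ℕ) : ℝ) ^ 2 * eN nL (an z r (r + w)) u u with hK
  have h1 : (1 : ℝ) ≤ (r + w : ℕ) := by exact_mod_cast (by omega : 1 ≤ r + w)
  have base : ∀ (a : Pt) (p q : ℕ), p ≤ 2 * (r + w) + 1 → q ≤ 2 * (r + w) + 1 →
      rec a p q ⊆ an z r (r + w) → ∑ x ∈ rec a p q, (u x - av (rec a p q) u) ^ 2 ≤ K := by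
    intro a p q hp hq hs
    refine (poin_rec a hp hq u).trans (mul_le_mul ?_ (eN_mono hs u) (eN_nonneg _ _ _) (by positivity))
    rw [Nat.cast_add (2 * (r + w)), Nat.cast_mul]
    push_cast at h1 ⊢
    nlinarith
  have crd : ∀ (A : Finset Pt) (a : Pt), A ⊆ an z r (r + w) →
      (A.card : ℝ) ≤ 9 * (lam : ℝ) ^ 2 * (rec a w w).card := by
    intro A a hA
    have e1 := card_le_card (hA.trans sdiff_subset)
    rw [card_bl] at e1
    have e2 : (2 * (r + w) + 1) ^ 2 ≤ (3 * (lam * w)) ^ 2 := Nat.pow_le_pow_left (by omega) 2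
    have e3 : A.card ≤ 9 * lam ^ 2 * (w * w) := (e1.trans e2).trans (le_of_eq (by ring))
    rw [card_rec]
    exact_mod_cast e3
  set L := rec (z.1 - r - w, z.2 - r - w) w (2 * (r + w) + 1)
  set T := rec (z.1 - r - w, z.2 + r + 1) (2 * (r + w) + 1) w
  set Rr := rec (z.1 + r + 1, z.2 - r - w) w (2 * (r + w) + 1)
  set B := rec (z.1 - r - w, z.2 - r - w) (2 * (r + w) + 1) w
  have hL : L ⊆ an z r (r + w) := fun x => by simp only [L, mem_rec, mem_an, mem_bl]; omega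
  have hT : T ⊆ an z r (r + w) := fun x => by simp only [T, mem_rec, mem_an, mem_bl]; omega
  have hR : Rr ⊆ an z r (r + w) := fun x => by simp only [Rr, mem_rec, mem_an, mem_bl]; omega
  have hB : B ⊆ an z r (r + w) := fun x => by simp only [B, mem_rec, mem_an, mem_bl]; omega
  have g1 := glue (A := L) (B := T) (T := rec (z.1 - r - w, z.2 + r + 1) w w) (by positivity)
    (fun x => by simp only [L, mem_rec]; omega) (fun x => by simp only [T, mem_rec]; omega)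
    (crd _ _ hL) (crd _ _ hT) (base _ _ _ (by omega) le_rfl hL) (base _ _ _ le_rfl (by omega) hT)
  have g2 := glue (A := L ∪ T) (B := Rr) (T := rec (z.1 + r + 1, z.2 + r + 1) w w) (by positivity)
    (fun x => by simp only [L, T, mem_union, mem_rec]; omega)
    (fun x => by simp only [Rr, mem_rec]; omega)
    (crd _ _ (union_subset hL hT)) (crd _ _ hR) g1 (base _ _ _ (by omega) le_rfl hR)
  have g3 := glue (A := L ∪ T ∪ Rr) (B := B) (T := rec (z.1 - r - w, z.2 - r - w) w w)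
    (by positivity) (fun x => by simp only [L, T, Rr, mem_union, mem_rec]; omega)
    (fun x => by simp only [B, mem_rec]; omega)
    (crd _ _ (union_subset (union_subset hL hT) hR)) (crd _ _ hB) g2
    (base _ _ _ le_rfl (by omega) hB)
  have e : L ∪ T ∪ Rr ∪ B = an z r (r + w) := by
    ext x; simp only [L, T, Rr, B, mem_union, mem_rec, mem_an, mem_bl]; omega
  rw [e, ← hc] at g3
  exact g3.trans (le_of_eq (by rw [hK]; ring))

theorem poin_D (z : Pt) (R : ℕ) (u : Pt → ℝ) (hu : Sup (bl z R) u) :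
    ∑ x ∈ bl z R, u x ^ 2 ≤ 18 * ((R : ℝ) + 1) ^ 2 * eD nL (bl z R) u u := by
  set a : Pt := (z.1 - (R + 1 : ℕ), z.2 - (R + 1 : ℕ))
  set n := 2 * (R + 1) + 1
  have h1 := abs2 (v := fun j i => u (i, j)) (card_I a.2 n) (card_I a.1 n) (cl_nonneg a n u)
    (rw_nonneg a n u) (hCol a n u) (hRow a n u) (Z := Ico a.2 (a.2 + n)) Subset.rfl
    (fun j _ => ⟨a.1, by simp only [n, mem_Ico]; omega, hu _ (by simp only [a, mem_bl]; omega)⟩)
  rw [add_comm (∑ j ∈ _, cl' a n u j), ← eN_sq, ← sum_product_right' (f := fun i j => u (i, j) ^ 2),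
    card_I] at h1
  change _ * ∑ x ∈ sq a n, u x ^ 2 ≤ _ at h1
  rw [← bl_eq_sq] at h1
  have hs := bl_mono z (Nat.le_succ R)
  have h2 : eN nL (bl z (R + 1)) u u ≤ eD nL (bl z R) u u :=
    (eN_le_eD _ u).trans (eD_of_sup nL_ok hs u hu).le
  have h3 : ∑ x ∈ bl z R, u x ^ 2 ≤ ∑ x ∈ bl z (R + 1), u x ^ 2 :=
    sum_le_sum_of_subset_of_nonneg hs fun _ _ _ => sq_nonneg _
  have h0 : (0 : ℝ) < n := by positivity
  have h4 : ∑ x ∈ bl z (R + 1), u x ^ 2 ≤ 2 * (n : ℝ) ^ 2 * eN nL (bl z (R + 1)) u u :=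
    le_of_mul_le_mul_left (h1.trans (le_of_eq (by ring))) h0
  refine h3.trans (h4.trans (mul_le_mul ?_ h2 (eN_nonneg _ _ _) (by positivity)))
  simp only [n]
  push_cast
  nlinarith [(Nat.cast_nonneg R : (0 : ℝ) ≤ R)]


end An44

open An44


end Crest.Agent.T145.Pot
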