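import Crest.Agent.T145.EvDef_2
import Crest.Agent.T145.FlCone_64
import Crest.Agent.T145.FlEnv_30
import Crest.Agent.T145.PurV_93
import Crest.Agent.T145.KrWL_56
import Crest.Agent.T145.PotAn_44
import Crest.Agent.T145.PotD_17
import Crest.Agent.T145.FlA_51
import Crest.Agent.T145.FlBas_4
import Crest.Agent.T145.FlSw_22
import Crest.Agent.T145.FlFar_57

-- ▼ part T145/EvCone_93
section

/-!
# Row 145, even sector: the cone on the lattice with two references, EPUR (helper93)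
-/

set_option autoImplicit false

namespace Crest.Agent.T145.Ev

open Finset Real Fl

namespace E93

/-- the norm of the centred insertion -/
noncomputable def nc (Λ : Lat) (w : ℕ) (ω : (Cfg Pt → ℝ) → ℝ) (r : ℕ) (F : Cfg Pt → ℝ) : ℝ :=
  nu Λ w 0 r fun s => F s - ω F

/-- combination of the two references at scale `r` -/
noncomputable def cmb (σ : ℕ → Fin 2 → Cfg Pt → ℝ) (r : ℕ) (a : Fin 2 → ℝ) : Cfg Pt → ℝ :=
  fun s => ∑ i, a i * σ r i s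

/-- references `σ r` and test functions `ψ r` at scale `r` -/
structure RefAt (σ ψ : ℕ → Fin 2 → Cfg Pt → ℝ) (r : ℕ) : Prop where
  ins : ∀ i, Ins 0 r (σ r i)
  even : ∀ i, EvenF (σ r i)
  d4 : ∀ i, D4 0 (σ r i)
  bd : ∀ i s, |σ r i s| ≤ 2
  ins' : ∀ j, Ins 0 (4 * r) (ψ r j)
  out : ∀ j, Out (bl 0 r) (ψ r j)
  bd' : ∀ j s, |ψ r j s| ≤ 2

/-- one step of the even flow -/
def Kq (w W : ℕ) (Λ : Lat) (ω : (Cfg Pt → ℝ) → ℝ) (σ : ℕ → Fin 2 → Cfg Pt → ℝ) (e e₁ : ℝ) (r : ℕ) : Prop :=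
  ∀ F, Ins 0 r F → EvenF F → D4 0 F →
    nc Λ w ω (W * r) F ≤ (W : ℝ) ^ (-2 + e) * nc Λ w ω r F ∧
      ∃ a, nc Λ w ω (W * r) (fun s => F s - cmb σ r a s) ≤ (W : ℝ) ^ (-3 + e₁) * nc Λ w ω r F

/-- the matrix (references at `r`, tests at `R`) is bounded below -/
def Low (ω : (Cfg Pt → ℝ) → ℝ) (σ ψ : ℕ → Fin 2 → Cfg Pt → ℝ) (r R : ℕ) (b : ℝ) : Prop :=
  ∀ a : Fin 2 → ℝ, b * ‖a‖ ≤ ‖fun j => cv ω (cmb σ r a) (ψ R j)‖

/-- the inputs of the even cone along the scales `W ^ k * r`, `k ≤ m` -/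
structure PackE (p : Par) (W : ℕ) (Λ : Lat) (ω : (Cfg Pt → ℝ) → ℝ) (σ ψ : ℕ → Fin 2 → Cfg Pt → ℝ)
    (e e₁ : ℝ) (r m L N : ℕ) : Prop extends Env p Λ ω L N where
  r0 : p.r₀ ≤ r
  top : p.w * (W ^ m * r) ≤ L
  ref : ∀ k, RefAt σ ψ (W ^ k * r)
  ke : ∀ k, k < m → Kq p.w W Λ ω σ e e₁ (W ^ k * r)
  low₁ : ∀ k, k < m → Low ω σ ψ (W ^ k * r) (W * (W ^ k * r)) ((W : ℝ) ^ (-2 - e))
  low₂ : ∀ k, k + 1 < m → Low ω σ ψ (W ^ k * r) (W * (W * (W ^ k * r))) ((W : ℝ) ^ (-4 - e))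

/-- even invariant insertions of radius `r` -/
def cle (r : ℕ) : Submodule ℝ (Cfg Pt → ℝ) where
  carrier := {F | Ins 0 r F ∧ EvenF F ∧ D4 0 F}
  add_mem' h h' := ⟨h.1.add h'.1, h.2.1.add h'.2.1, h.2.2.add h'.2.2⟩
  zero_mem' := ⟨Ins.const 0 r 0, EvenF.const 0, D4.const 0 0⟩
  smul_mem' c _ h := ⟨h.1.smul c, h.2.1.smul c, h.2.2.smul c⟩

variable {p : Par} {Λ : Lat} {ω : (Cfg Pt → ℝ) → ℝ} {L N r : ℕ} {F G H : Cfg Pt → ℝ}
  {σ ψ : ℕ → Fin 2 → Cfg Pt → ℝ}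

theorem cmb_smul (σ : ℕ → Fin 2 → Cfg Pt → ℝ) (r : ℕ) (t : ℝ) (a : Fin 2 → ℝ) :
    cmb σ r (t • a) = fun s => t * cmb σ r a s := by
  funext s; simp only [cmb, Pi.smul_apply, smul_eq_mul, mul_sum, mul_assoc]

theorem cmb_add (σ : ℕ → Fin 2 → Cfg Pt → ℝ) (r : ℕ) (a b : Fin 2 → ℝ) :
    cmb σ r (a + b) = fun s => cmb σ r a s + cmb σ r b s := by
  funext s; simp only [cmb, Pi.add_apply, add_mul, sum_add_distrib]

theorem cmb_zero (σ : ℕ → Fin 2 → Cfg Pt → ℝ) (r : ℕ) : cmb σ r 0 = fun _ => 0 := by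
  funext s; simp [cmb]

theorem RefAt.ins_cmb (h : RefAt σ ψ r) (a : Fin 2 → ℝ) : Ins 0 r (cmb σ r a) :=
  Ins.sum _ fun i _ => (h.ins i).smul (a i)
theorem RefAt.even_cmb (h : RefAt σ ψ r) (a : Fin 2 → ℝ) : EvenF (cmb σ r a) :=
  EvenF.sum _ fun i _ => (h.even i).smul (a i)
theorem RefAt.d4_cmb (h : RefAt σ ψ r) (a : Fin 2 → ℝ) : D4 0 (cmb σ r a) :=
  D4.sum _ fun i _ => (h.d4 i).smul (a i)
theorem RefAt.abs_cmb (h : RefAt σ ψ r) (a : Fin 2 → ℝ) (s : Cfg Pt) : |cmb σ r a s| ≤ 4 * ‖a‖ := by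
  have k : ∀ i, |a i * σ r i s| ≤ ‖a‖ * 2 := fun i => by
    rw [abs_mul]
    exact mul_le_mul (norm_le_pi_norm a i) (h.bd i s) (abs_nonneg _) (norm_nonneg _)
  rw [cmb, Fin.sum_univ_two]
  linarith [abs_add_le (a 0 * σ r 0 s) (a 1 * σ r 1 s), k 0, k 1]

theorem nc_nonneg (hΛ : Λ.Ok) (w r : ℕ) (F : Cfg Pt → ℝ) : 0 ≤ nc Λ w ω r F := A51.nu_nonneg hΛ _ _ _ _

section env
variable (h : Env p Λ ω L N) (h0 : p.r₀ ≤ r) (hL : p.w * r ≤ L)
include h hL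

theorem four_le : 4 * r ≤ N := ((A51.four_le h.toGs r).trans hL).trans h.le

theorem insN (hF : Ins 0 r F) : Ins 0 N F := hF.mono (by have := four_le h hL; omega)

theorem om_add (hF : Ins 0 r F) (hG : Ins 0 r G) : ω (fun s => F s + G s) = ω F + ω G := by
  obtain ⟨m, hm⟩ := h.amb 0
  exact hm.ex_add (insN h hL hF) (insN h hL hG)

theorem om_sub (hF : Ins 0 r F) (hG : Ins 0 r G) : ω (fun s => F s - G s) = ω F - ω G := by
  obtain ⟨m, hm⟩ := h.amb 0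
  exact hm.ex_sub (insN h hL hF) (insN h hL hG)

theorem om_smul (hF : Ins 0 r F) (t : ℝ) : ω (fun s => t * F s) = t * ω F := by
  obtain ⟨m, hm⟩ := h.amb 0
  exact hm.ex_smul (insN h hL hF).1 t

theorem cv_add (hF : Ins 0 r F) (hG : Ins 0 r G) (hH : Ins 0 (4 * r) H) :
    cv ω (fun s => F s + G s) H = cv ω F H + cv ω G H := by
  obtain ⟨m, hm⟩ := h.amb 0
  have k := hH.mono (four_le h hL)
  have := hm.ex_add ((insN h hL hF).mul k) ((insN h hL hG).mul k)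
  simp only [cv, add_mul, this, om_add h hL hF hG]
  ring

theorem cv_smul (hF : Ins 0 r F) (hH : Ins 0 (4 * r) H) (t : ℝ) :
    cv ω (fun s => t * F s) H = t * cv ω F H := by
  obtain ⟨m, hm⟩ := h.amb 0
  have k := hH.mono (four_le h hL)
  have := hm.ex_smul ((insN h hL hF).mul k).1 t
  simp only [cv, mul_assoc, this, om_smul h hL hF t]
  ring


theorem cv_eq (hF : Ins 0 r F) (hH : Ins 0 (4 * r) H) : cv ω F H = ω fun s => H s * (F s - ω F) := by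
  obtain ⟨m, hm⟩ := h.amb 0
  have k := hH.mono (four_le h hL)
  have e1 := hm.ex_sub ((insN h hL hF).mul k) (k.smul (ω F))
  have e2 := hm.ex_smul k.1 (ω F)
  rw [cv, ← e2, ← e1]
  congr 1; funext s; ring

theorem om_sub_const (hF : Ins 0 r F) (c : ℝ) : ω (fun s => F s - c) = ω F - c := by
  obtain ⟨m, hm⟩ := h.amb 0
  rw [om_sub h hL hF (Ins.const 0 r c), hm.ex_const]

theorem cv_sub_const (hF : Ins 0 r F) (hH : Ins 0 (4 * r) H) (c : ℝ) :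
    cv ω (fun s => F s - c) H = cv ω F H := by
  rw [cv_eq h hL hF hH, cv_eq h hL (hF.sub_const c) hH, om_sub_const h hL hF]
  congr 1; funext s; ring

include h0

omit hL in
theorem semi : r + 2 * Λ.rg ≤ p.w * r := by
  have := A51.four_le h.toGs r; have := h.gd.2.1; omega

theorem nc_add (hF : Ins 0 r F) (hG : Ins 0 r G) :
    nc Λ p.w ω r (fun s => F s + G s) ≤ nc Λ p.w ω r F + nc Λ p.w ω r G := by
  have := (((semiStmt Λ p.w r 0 h.mem.ok (semi h h0)).1 _ (hF.sub_const (ω F))).2.2.2.2 _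
    (hG.sub_const (ω G))).1
  rw [nc, om_add h hL hF hG]
  refine le_of_eq_of_le ?_ this
  congr 1; funext s; ring


theorem nc_smul (hF : Ins 0 r F) (t : ℝ) : nc Λ p.w ω r (fun s => t * F s) = |t| * nc Λ p.w ω r F := by
  have := ((semiStmt Λ p.w r 0 h.mem.ok (semi h h0)).1 _ (hF.sub_const (ω F))).2.2.1 t
  rw [nc, om_smul h hL hF, nc, ← this]
  congr 1; funext s; ring

theorem nc_le (hF : Ins 0 r F) {B : ℝ} (hB : ∀ s, |F s| ≤ B) : nc Λ p.w ω r F ≤ 2 * B := by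
  obtain ⟨m, hm⟩ := h.amb 0
  have k := hm.abs_ex_le (insN h hL hF).1 hB
  exact ((semiStmt Λ p.w r 0 h.mem.ok (semi h h0)).1 _ (hF.sub_const (ω F))).2.2.2.1 _ fun s => by
    linarith [abs_sub (F s) (ω F), hB s]

/-- the covariance with an outer bounded function is bounded by the centred norm -/
theorem abs_cv_le (hF : Ins 0 r F) (hH : Ins 0 (4 * r) H) (hO : Out (bl 0 r) H) {K : ℝ}
    (hK : ∀ s, |H s| ≤ K) : |cv ω F H| ≤ 2 * K * nc Λ p.w ω r F := by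
  rw [cv_eq h hL hF hH]
  obtain ⟨m, hm, hω⟩ := h.amb 0
  have h2 := A51.four_le h.toGs r
  have h3 := h.le
  have hm' : Nc.Amb Λ m (bl 0 (p.w * r)) := FlF4.amb_mono hm (bl_mono 0 (by omega))
  have hB : bl (0 : Pt) r ⊆ m.A := (bl_mono 0 (by omega)).trans hm.sub
  have k := FlF4.fus1 h.mem.ok hB (A51.ir h.toGs h0 (hF.sub_const (ω F))) hm' subset_rfl hO hK
  have g := A51.gam_le h.toGs h0 (by omega)
  rw [hω _ ((hH.mono (four_le h hL)).mul (insN h hL (hF.sub_const _))).1]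
  refine (FlF4.abs_ex_le_nc hm.ctr hm.anch hB k.1).trans (k.2.trans ?_)
  have K0 : 0 ≤ K := (abs_nonneg _).trans (hK 0)
  rw [mul_comm 2 K, mul_assoc]
  exact mul_le_mul_of_nonneg_left
    (mul_le_mul_of_nonneg_right g.2 (A51.nu_nonneg h.mem.ok _ _ _ _)) K0

theorem abs_om_le (hF : Ins 0 r F) : |ω F| ≤ 2 * nu Λ p.w 0 r F := by
  obtain ⟨m, hm, hω⟩ := h.amb 0
  have h2 := A51.four_le h.toGs r
  have h3 := h.le
  have hm' : Nc.Amb Λ m (bl 0 (p.w * r)) := FlF4.amb_mono hm (bl_mono 0 (by omega))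
  have hB : bl (0 : Pt) r ⊆ m.A := (bl_mono 0 (by omega)).trans hm.sub
  have k := FlF4.fus0 h.mem.ok hB (A51.ir h.toGs h0 hF) hm' subset_rfl
  have g := A51.gam_le h.toGs h0 (by omega)
  rw [hω _ (insN h hL hF).1]
  exact (FlF4.abs_ex_le_nc hm.ctr hm.anch hB k.1).trans (k.2.trans
    (mul_le_mul_of_nonneg_right g.2 (A51.nu_nonneg h.mem.ok _ _ _ _)))

theorem nc_le_nu (hF : Ins 0 r F) : nc Λ p.w ω r F ≤ 3 * nu Λ p.w 0 r F := by
  have se := (semiStmt Λ p.w r 0 h.mem.ok (semi h h0)).1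
  have a := ((se _ hF).2.2.2.2 _ (Ins.const 0 r (ω F))).2
  have b := (se _ (Ins.const 0 r (ω F))).2.2.2.1 _ fun _ => abs_om_le h h0 hL hF
  rw [nc]; linarith

theorem nc_le_sub (hF : Ins 0 r F) (c c' : ℝ) :
    nc Λ p.w ω r F ≤ 3 * nu Λ p.w 0 r fun s => F s - c - c' := by
  have := nc_le_nu h h0 hL ((hF.sub_const c).sub_const c')
  rw [nc, om_sub_const h hL (hF.sub_const c), om_sub_const h hL hF] at this
  refine le_of_eq_of_le ?_ this
  rw [nc]; congr 1; funext s; ring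

omit h0 in
theorem om_cmb (hr : RefAt σ ψ r) (a : Fin 2 → ℝ) :
    ω (cmb σ r a) = a 0 * ω (σ r 0) + a 1 * ω (σ r 1) := by
  rw [← om_smul h hL (hr.ins 0), ← om_smul h hL (hr.ins 1),
    ← om_add h hL ((hr.ins 0).smul _) ((hr.ins 1).smul _)]
  congr 1; funext s; rw [cmb, Fin.sum_univ_two]

end env

/-- the references, normalised, as a linear map -/
noncomputable def lm (σ : ℕ → Fin 2 → Cfg Pt → ℝ) (r : ℕ) : (Fin 2 → ℝ) →ₗ[ℝ] (Cfg Pt → ℝ) where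
  toFun a := cmb σ r ((1 / 8 : ℝ) • a)
  map_add' a b := by rw [smul_add, cmb_add]; rfl
  map_smul' t a := by rw [smul_comm, cmb_smul]; rfl

theorem rp {W a b : ℝ} (h1 : 1 ≤ W) (h : 1024 ≤ W ^ (1 / 5 : ℝ)) (hab : a + 1 / 5 ≤ b) :
    1024 * W ^ a ≤ W ^ b := by
  have h0 : 0 < W := by linarith
  calc 1024 * W ^ a ≤ W ^ (1 / 5 : ℝ) * W ^ a := by gcongr
    _ = W ^ (a + 1 / 5) := by rw [← rpow_add h0, add_comm]
    _ ≤ W ^ b := rpow_le_rpow_of_exponent_le h1 hab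

/-- the data of the cone argument along the scales `W ^ k * r`, `k ≤ m` -/
def Lc (p : Par) (W : ℕ) (Λ : Lat) (ω : (Cfg Pt → ℝ) → ℝ) (σ ψ : ℕ → Fin 2 → Cfg Pt → ℝ) (e e₁ : ℝ)
    (r m : ℕ) : Prop :=
  Pv.Lv (fun k => cle (W ^ min k m * r)) (fun k => nc Λ p.w ω (W ^ min k m * r))
    (fun k F j => cv ω F (ψ (W ^ min k m * r) j)) (fun k => lm σ (W ^ min k m * r))
    ((W : ℝ) ^ (-3 + e₁)) ((W : ℝ) ^ (-2 + e)) 4 ((W : ℝ) ^ (-2 - e) / 8) ((W : ℝ) ^ (-4 - e) / 8)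
    ((W : ℝ) ^ (11 / 4 : ℝ)) ((W : ℝ) ^ (-(5 / 2) : ℝ)) 0 m

theorem lc_of {W m : ℕ} {e e₁ : ℝ} (hW : 1 ≤ W) (h16 : 1024 ≤ (W : ℝ) ^ (1 / 5 : ℝ))
    (e1 : e ≤ 1 / 100) (e2 : e₁ ≤ 1 / 100) (h : PackE p W Λ ω σ ψ e e₁ r m L N) :
    Lc p W Λ ω σ ψ e e₁ r m := by
  have h0 := h.r0
  have hL := h.top
  have hΛ := h.mem.ok
  have W1 : (1 : ℝ) ≤ W := by exact_mod_cast hW
  have W0 : (0 : ℝ) < W := by linarith
  have up : ∀ k, r ≤ W ^ k * r := fun k => Nat.le_mul_of_pos_left _ (pow_pos hW k)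
  have mo : ∀ {j k}, j ≤ k → W ^ j * r ≤ W ^ k * r := fun hjk =>
    Nat.mul_le_mul_right _ (Nat.pow_le_pow_right hW hjk)
  have hk : ∀ k, p.w * (W ^ min k m * r) ≤ L := fun k =>
    (Nat.mul_le_mul_left _ (mo (min_le_right k m))).trans hL
  have su : ∀ {k}, k < m → W ^ min (k + 1) m * r = W * (W ^ min k m * r) := fun hb => by
    rw [min_eq_left hb, min_eq_left hb.le]; ring
  have u0 : ∀ k, p.r₀ ≤ W ^ k * r := fun k => h0.trans (up k)
  have rf := h.ref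
  have ml : ∀ {k}, k < m → min k m < m := fun hb => (min_le_left _ _).trans_lt hb
  have R := fun {a b : ℝ} (hab : a + 1 / 5 ≤ b) => rp W1 h16 hab
  have P : ∀ a : ℝ, 0 < (W : ℝ) ^ a := fun a => rpow_pos_of_pos W0 a
  have M : ∀ a b : ℝ, (W : ℝ) ^ a * (W : ℝ) ^ b = (W : ℝ) ^ (a + b) := fun a b => (rpow_add W0 a b).symm
  have n8 : ∀ a : Fin 2 → ℝ, ‖(1 / 8 : ℝ) • a‖ = ‖a‖ / 8 := fun a => by
    rw [norm_smul, Real.norm_eq_abs, abs_of_pos (by norm_num)]; ring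
  refine ⟨fun k F hF => ⟨hF.1.mono (mo (min_le_min_right m (Nat.le_succ k))), hF.2⟩,
    fun k F hF G hG => nc_add h.toEnv (u0 _) (hk k) hF.1 hG.1,
    fun k t F hF => nc_smul h.toEnv (u0 _) (hk k) hF.1 t, fun k F => nc_nonneg hΛ _ _ _,
    fun k F hF G hG => funext fun j => cv_add h.toEnv (hk k) hF.1 hG.1 ((rf _).ins' j),
    fun k t F hF => funext fun j => cv_smul h.toEnv (hk k) hF.1 ((rf _).ins' j) t,
    fun k a => ⟨(rf _).ins_cmb _, (rf _).even_cmb _, (rf _).d4_cmb _⟩, fun k a => ?_,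
    fun k _ hb F hF => ?_, fun k _ hb F hF => ?_, fun k _ hb F hF => ?_, fun k _ hb a => ?_,
    fun k _ hb a => ?_, (P _).le, P _, four_pos, div_pos (P _) (by norm_num),
    div_pos (P _) (by norm_num), ?_, ?_, ?_, ?_, ?_⟩
  · have := nc_le h.toEnv (u0 _) (hk k) ((rf _).ins_cmb ((1 / 8 : ℝ) • a)) ((rf _).abs_cmb _)
    rw [n8] at this
    exact this.trans (le_of_eq (by ring))
  · obtain ⟨a, ha⟩ := (h.ke _ (ml hb) F hF.1 hF.2.1 hF.2.2).2
    refine ⟨(8 : ℝ) • a, ?_⟩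
    have e : lm σ (W ^ min k m * r) ((8 : ℝ) • a) = cmb σ (W ^ min k m * r) a := by
      show cmb σ _ ((1 / 8 : ℝ) • (8 : ℝ) • a) = _
      rw [smul_smul]; norm_num
    rw [e, su hb]
    exact ha
  · have := (h.ke _ (ml hb) F hF.1 hF.2.1 hF.2.2).1
    rwa [← su hb] at this
  · refine (pi_norm_le_iff_of_nonneg (mul_nonneg four_pos.le (nc_nonneg hΛ _ _ _))).2 fun j => ?_
    exact (abs_cv_le h.toEnv (u0 _) (hk k) hF.1 ((rf _).ins' j) ((rf _).out j) ((rf _).bd' j)).trans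
      (le_of_eq (by ring))
  · have := h.low₁ _ (ml hb) ((1 / 8 : ℝ) • a)
    rw [n8, ← su hb] at this
    exact le_of_eq_of_le (by ring) this
  · have := h.low₂ (min k m) (by omega) ((1 / 8 : ℝ) • a)
    rw [n8, ← su (show k < m by omega), ← su hb] at this
    exact le_of_eq_of_le (by ring) this
  · have := R (a := 11 / 4 + (-3 + e₁)) (b := 0) (by linarith)
    rw [← M, rpow_zero] at this
    nlinarith [mul_pos (P (11 / 4)) (P (-3 + e₁))]
  · have := R (a := 11 / 4 + (-2 + e + (-2 + e)) + (-3 + e₁)) (b := -4 - e) (by linarith)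
    rw [← M, ← M, ← M] at this
    nlinarith [mul_pos (mul_pos (P (11 / 4)) (mul_pos (P (-2 + e)) (P (-2 + e)))) (P (-3 + e₁))]
  · have := R (a := -2 + e) (b := 11 / 4 + (-4 - e)) (by linarith)
    rw [← M (11 / 4)] at this
    linarith [P (-2 + e)]
  · have := R (a := 0) (b := 11 / 4 + (-2 - e)) (by linarith)
    rw [← M, rpow_zero] at this
    linarith
  · have a1 := R (a := -2 + e) (b := 11 / 4 + (-2 - e) + -(5 / 2)) (by linarith)
    have a2 := R (a := 11 / 4 + (-2 - e) + (-3 + e₁)) (b := 11 / 4 + (-2 - e) + -(5 / 2)) (by linarith)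
    rw [← M _ (-(5 / 2)), ← M (11 / 4)] at a1
    rw [← M _ (-(5 / 2)), ← M _ (-3 + e₁), ← M (11 / 4)] at a2
    nlinarith [P (-2 + e), mul_pos (mul_pos (P (11 / 4)) (P (-2 - e))) (P (-3 + e₁))]

theorem n6 {W e : ℝ} (W1 : 1 ≤ W) (h16 : 1024 ≤ W ^ (1 / 5 : ℝ)) (e1 : e ≤ 1 / 100) :
    8 * 4 ^ 2 * W ^ (-2 + e) * W ^ (11 / 4 : ℝ) * (W ^ (-(5 / 2) : ℝ)) ^ 2 ≤ W ^ (-4 - e) / 8 := by
  have W0 : 0 < W := by linarith
  have := rp (a := -2 + e + 11 / 4 + (-(5 / 2) + -(5 / 2))) (b := -4 - e) W1 h16 (by linarith)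
  rw [rpow_add W0, rpow_add W0 (-2 + e), rpow_add W0 (-(5 / 2))] at this
  linarith

theorem cst {W e : ℝ} (W1 : 1 ≤ W) (e0 : 0 ≤ e) (hW : 2 ^ 15 ≤ W ^ e) :
    (4 * W ^ (-2 + e) + 8 * 4 ^ 2 * W ^ (-2 + e) * ((W ^ (-2 + e)) ^ 2 + (W ^ (-(5 / 2) : ℝ)) ^ 2) /
      (W ^ (-4 - e) / 8)) / (W ^ (-2 - e) / 8) ≤ W ^ (6 * e) := by
  have W0 : 0 < W := by linarith
  set x := W ^ e with hx
  set u := W ^ (-2 : ℝ) with hu
  have x0 : 0 < x := rpow_pos_of_pos W0 _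
  have u0 : 0 < u := rpow_pos_of_pos W0 _
  have e1 : W ^ (-2 + e) = u * x := rpow_add W0 _ _
  have e2 : W ^ (-2 - e) = u / x := rpow_sub W0 _ _
  have e3 : W ^ (-4 - e) = u ^ 2 / x := by
    rw [rpow_sub W0, hu, ← rpow_mul_natCast W0.le, hx]; norm_num
  have e4 : W ^ (6 * e) = x ^ 6 := by rw [mul_comm, hx, ← rpow_mul_natCast W0.le]; norm_num
  have e5 : (W ^ (-(5 / 2) : ℝ)) ^ 2 ≤ (u * x) ^ 2 := by
    rw [← e1]
    exact pow_le_pow_left₀ (by positivity) (rpow_le_rpow_of_exponent_le W1 (by linarith)) 2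
  rw [e1, e2, e3, e4]
  calc _ ≤ (4 * (u * x) + 8 * 4 ^ 2 * (u * x) * ((u * x) ^ 2 + (u * x) ^ 2) / (u ^ 2 / x / 8)) /
        (u / x / 8) := by gcongr
    _ = 32 * x ^ 2 + 2 ^ 14 * x ^ 5 := by field_simp; ring
    _ ≤ x ^ 6 := by
      have x1 : 1 ≤ x := by linarith
      have : x ^ 2 ≤ x ^ 5 := pow_le_pow_right₀ x1 (by norm_num)
      have : 2 ^ 15 * x ^ 5 ≤ x * x ^ 5 := by gcongr
      nlinarith [pow_pos x0 5]

section out
variable {W m : ℕ} {e e₁ : ℝ} (hW : 2 ^ 15 ≤ (W : ℝ) ^ e) (e0 : 0 < e) (e1 : e ≤ 1 / 100)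
include hW e0

theorem one_le : 1 ≤ W := by
  rcases Nat.eq_zero_or_pos W with rfl | h
  · rw [Nat.cast_zero, zero_rpow e0.ne'] at hW; norm_num at hW
  · exact h

include e1

theorem big : 1024 ≤ (W : ℝ) ^ (1 / 5 : ℝ) :=
  le_trans (by linarith) (rpow_le_rpow_of_exponent_le (by exact_mod_cast one_le hW e0)
    (show e ≤ 1 / 5 by linarith))

variable (e2 : e₁ ≤ 1 / 100) (h : PackE p W Λ ω σ ψ e e₁ r m L N)
include e2 h


/-- **PURE** -/
theorem purE (hF : Ins 0 r F) (he : EvenF F) (hd : D4 0 F) :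
    ∃ a : Fin 2 → ℝ, ‖a‖ ≤ (W : ℝ) ^ (6 * e) * nc Λ p.w ω r F ∧
      (1 ≤ m → ∀ j, cv ω (fun s => F s - cmb σ r a s) (ψ (W ^ m * r) j) = 0) ∧
      ∀ j, j ≤ m → nc Λ p.w ω (W ^ j * r) (fun s => F s - cmb σ r a s) ≤
        2 * (W : ℝ) ^ (6 * e) * (W : ℝ) ^ (-(5 / 2 : ℝ) * j) * nc Λ p.w ω r F := by
  have hW1 := one_le hW e0
  have W1 : (1 : ℝ) ≤ W := by exact_mod_cast hW1
  have W0 : (0 : ℝ) < W := by linarith
  have hν := nc_nonneg (ω := ω) h.mem.ok p.w r F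
  have b4 : 1 ≤ (W : ℝ) ^ (6 * e) := one_le_rpow W1 (by positivity)
  rcases m with _ | m
  · refine ⟨0, by rw [norm_zero]; positivity, fun h => absurd h (by omega), fun j hj => ?_⟩
    obtain rfl : j = 0 := by omega
    simp only [cmb_zero, sub_zero, pow_zero, one_mul, Nat.cast_zero, mul_zero, rpow_zero, mul_one]
    nlinarith
  have k := lc_of hW1 (big hW e0 e1) e1 e2 h
  have hC : F ∈ cle (W ^ min 0 (m + 1) * r) := by
    rw [Nat.zero_min, pow_zero, one_mul]; exact ⟨hF, he, hd⟩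
  obtain ⟨α, a0, -, a1, a2⟩ := k.pur rfl le_rfl hC m (by omega)
  have a1 := (a1 (n6 W1 (big hW e0 e1) e1)).trans (mul_le_mul_of_nonneg_right (cst W1 e0.le hW)
    (nc_nonneg h.mem.ok _ _ _))
  simp only [zero_add, Nat.zero_min, pow_zero, one_mul, min_self] at a0 a1 a2
  refine ⟨(1 / 8 : ℝ) • α, ?_, fun _ j => congrFun a0 j, fun j hj => ?_⟩
  · rw [norm_smul, Real.norm_eq_abs, abs_of_pos (by norm_num)]
    linarith [norm_nonneg α]
  · have := a2 j hj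
    rw [min_eq_left hj, ← rpow_mul_natCast W0.le] at this
    refine this.trans ?_
    have : 0 < (W : ℝ) ^ (-(5 / 2 : ℝ) * j) := by positivity
    nlinarith [mul_le_mul_of_nonneg_left a1 this.le, mul_le_mul_of_nonneg_right b4 (mul_nonneg this.le hν)]

end out

theorem norm2 (a : Fin 2 → ℝ) : ‖a‖ = max |a 0| |a 1| :=
  le_antisymm ((pi_norm_le_iff_of_nonneg (le_max_of_le_left (abs_nonneg _))).2
    (Fin.forall_fin_two.2 ⟨le_max_left _ _, le_max_right _ _⟩))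
    (max_le (norm_le_pi_norm a 0) (norm_le_pi_norm a 1))

section ker
variable {W : ℕ} {e : ℝ} (hW : 2 ^ 15 ≤ (W : ℝ) ^ (e / 2)) (e0 : 0 < e) (he : e = ew p.w / 10)
  (h : Env p Λ ω L N) (h0 : p.r₀ ≤ r) (hL : p.w * (W * r) ≤ L) (hK : Ke p.w W Λ r)
include hW e0 he h h0 hL hK

/-- crude step -/
theorem step (hF : Ins 0 r F) (hv : EvenF F) (hd : D4 0 F) :
    nc Λ p.w ω (W * r) F ≤ (W : ℝ) ^ (-2 + e) * nc Λ p.w ω r F := by
  have hW1 := one_le hW (half_pos e0)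
  have W0 : (0 : ℝ) < W := by exact_mod_cast hW1
  have up : r ≤ W * r := Nat.le_mul_of_pos_left _ hW1
  obtain ⟨c, hc⟩ := hK.1 _ (hF.sub_const (ω F)) (hv.sub (EvenF.const _)) (hd.sub (D4.const _ _))
  have a := nc_le_sub h (h0.trans up) hL (hF.mono up) (ω F) c
  have b : (W : ℝ) ^ (-2 + e) = (W : ℝ) ^ (e / 2) * (W : ℝ) ^ (-2 + ew p.w / 20) := by
    rw [← rpow_add W0]; congr 1; linarith
  have q : 0 ≤ (W : ℝ) ^ (-2 + ew p.w / 20) * nc Λ p.w ω r F :=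
    mul_nonneg (by positivity) (nc_nonneg h.mem.ok _ _ _)
  rw [b, mul_assoc]
  have hc' : _ ≤ (W : ℝ) ^ (-2 + ew p.w / 20) * nc Λ p.w ω r F := hc
  nlinarith

/-- the kernel is spanned by the references -/
theorem kq (e1 : e ≤ 1 / 100) (hr : RefAt σ ψ r) (hr' : RefAt σ ψ (W * r))
    (hl : Low ω σ ψ r (W * r) ((W : ℝ) ^ (-2 - e))) : Kq p.w W Λ ω σ e (3 * e) r := by
  intro F hF hv hd
  have st := step hW e0 he h h0 hL hK hF hv hd
  refine ⟨st, ?_⟩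
  have hW1 := one_le hW (half_pos e0)
  have W1 : (1 : ℝ) ≤ W := by exact_mod_cast hW1
  have W0 : (0 : ℝ) < W := by linarith
  have up : r ≤ W * r := Nat.le_mul_of_pos_left _ hW1
  have hL' : p.w * r ≤ L := (Nat.mul_le_mul_left _ up).trans hL
  have h0' := h0.trans up
  obtain ⟨t, t0, c, hc⟩ := hK.2 ![fun s => F s - ω F, fun s => σ r 0 s - ω (σ r 0), fun s => σ r 1 s - ω (σ r 1)]
    (Fin.forall_fin_succ.2 ⟨⟨hF.sub_const _, hv.sub (EvenF.const _), hd.sub (D4.const _ _)⟩,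
      Fin.forall_fin_two.2
        ⟨⟨(hr.ins 0).sub_const _, (hr.even 0).sub (EvenF.const _), (hr.d4 0).sub (D4.const _ _)⟩,
         ⟨(hr.ins 1).sub_const _, (hr.even 1).sub (EvenF.const _), (hr.d4 1).sub (D4.const _ _)⟩⟩⟩)
  set a : Fin 2 → ℝ := ![t 1, t 2] with ha
  set X : Cfg Pt → ℝ := fun s => t 0 * F s + cmb σ r a s with hX
  have iX : Ins 0 r X := (hF.smul _).add (hr.ins_cmb a)
  have oX : ω X = t 0 * ω F + (t 1 * ω (σ r 0) + t 2 * ω (σ r 1)) := by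
    rw [hX, om_add h hL' (hF.smul _) (hr.ins_cmb a), om_smul h hL' hF, om_cmb h hL' hr]; rfl
  have eX : ∀ s, ∑ i, t i * ![fun s => F s - ω F, fun s => σ r 0 s - ω (σ r 0),
      fun s => σ r 1 s - ω (σ r 1)] i s = X s - ω X := fun s => by
    rw [oX, Fin.sum_univ_three, hX]
    simp only [cmb, Fin.sum_univ_two, ha, Matrix.cons_val]
    ring
  simp only [eX] at hc
  set x := nc Λ p.w ω r F with hx
  have x0 : 0 ≤ x := nc_nonneg h.mem.ok _ _ _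
  set A := (W : ℝ) ^ (-3 + ew p.w / 20) with hA
  set y := (W : ℝ) ^ (e / 2) with hy
  set b := (W : ℝ) ^ (-2 - e) with hb
  have A0 : 0 < A := by positivity
  have b0 : 0 < b := by positivity
  have y4 : y ^ 4 = (W : ℝ) ^ (2 * e) := by rw [hy, ← rpow_mul_natCast W0.le]; congr 1; push_cast; ring
  have eB : (W : ℝ) ^ (-2 + e) = b * y ^ 4 := by rw [y4, hb, ← rpow_add W0]; congr 1; ring
  have eA : (W : ℝ) ^ (-3 + 3 * e) = A * y ^ 4 * y := by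
    rw [y4, hA, hy, ← rpow_add W0, ← rpow_add W0]; congr 1; linarith
  have Ab : 1024 * A ≤ b := rp W1 (le_trans (by linarith)
    (rpow_le_rpow_of_exponent_le W1 (show e / 2 ≤ 1 / 5 by linarith))) (by linarith)
  have y1 : 1 ≤ y ^ 4 := one_le_pow₀ (by linarith)
  have n1 : nc Λ p.w ω r X ≤ |t 0| * x + 8 * ‖a‖ := by
    have u := nc_add h h0 hL' (hF.smul (t 0)) (hr.ins_cmb a)
    rw [nc_smul h h0 hL' hF] at u
    linarith [nc_le h h0 hL' (hr.ins_cmb a) (hr.abs_cmb a)]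
  have n2 : nc Λ p.w ω (W * r) X ≤ 3 * (A * (|t 0| * x + 8 * ‖a‖)) :=
    (nc_le_sub h h0' hL (iX.mono up) (ω X) c).trans (by
      gcongr; exact hc.trans (mul_le_mul_of_nonneg_left n1 A0.le))
  have tx : 0 ≤ |t 0| * x := by positivity
  have n3 : b * ‖a‖ ≤ 12 * (A * (|t 0| * x + 8 * ‖a‖)) + |t 0| * (4 * (b * y ^ 4 * x)) := by
    refine (hl a).trans ((pi_norm_le_iff_of_nonneg (by positivity)).2 fun j => ?_)
    have u1 := abs_cv_le h h0' hL (iX.mono up) (hr'.ins' j) (hr'.out j) (hr'.bd' j)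
    have u2 := abs_cv_le h h0' hL (hF.mono up) (hr'.ins' j) (hr'.out j) (hr'.bd' j)
    have u3 := cv_add h hL ((hF.mono up).smul (t 0)) ((hr.ins_cmb a).mono up) (hr'.ins' j)
    rw [cv_smul h hL (hF.mono up) (hr'.ins' j)] at u3
    have u4 : cv ω (cmb σ r a) (ψ (W * r) j) = cv ω X (ψ (W * r) j) - t 0 * cv ω F (ψ (W * r) j) := by
      rw [hX, u3]; ring
    rw [Real.norm_eq_abs, u4]
    refine (abs_sub _ _).trans (add_le_add (by linarith) ?_)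
    rw [abs_mul, ← eB]
    exact mul_le_mul_of_nonneg_left (by linarith) (abs_nonneg _)
  have n4 : ‖a‖ ≤ 16 * y ^ 4 * (|t 0| * x) := by
    refine le_of_mul_le_mul_left ?_ b0
    have v1 := mul_le_mul_of_nonneg_right Ab tx
    have v2 := mul_le_mul_of_nonneg_right Ab (norm_nonneg a)
    have v3 := mul_le_mul_of_nonneg_right y1 (mul_nonneg b0.le tx)
    have v4 := mul_nonneg b0.le (norm_nonneg a)
    have v5 := mul_nonneg b0.le tx
    nlinarith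
  have t1 : t 0 ≠ 0 := fun z => t0 (by
    rw [z, abs_zero, zero_mul, mul_zero, norm_le_zero_iff] at n4
    funext i
    fin_cases i
    · exact z
    · exact congrFun n4 0
    · exact congrFun n4 1)
  have t2 := abs_pos.2 t1
  refine ⟨(-(t 0)⁻¹) • a, ?_⟩
  have q : (fun s => F s - cmb σ r ((-(t 0)⁻¹) • a) s) = fun s => (t 0)⁻¹ * X s := by
    funext s; rw [cmb_smul, hX]; field_simp; ring
  rw [q, nc_smul h h0' hL (iX.mono up), abs_inv, inv_mul_le_iff₀ t2, eA]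
  refine n2.trans ?_
  have v1 := mul_le_mul_of_nonneg_left n4 A0.le
  have v2 := mul_le_mul_of_nonneg_right y1 (mul_nonneg A0.le tx)
  have v3 := mul_le_mul_of_nonneg_right hW (mul_nonneg (mul_nonneg A0.le (by positivity : 0 ≤ y ^ 4)) tx)
  have v4 := mul_nonneg (mul_nonneg A0.le (by positivity : 0 ≤ y ^ 4)) tx
  nlinarith

end ker

/-- the references and tests of `EvDef_2` -/
noncomputable def sg (r : ℕ) : Fin 2 → Cfg Pt → ℝ := ![T1 (r / 8), T2 (r / 8)]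
noncomputable def ps (r : ℕ) : Fin 2 → Cfg Pt → ℝ := ![G1 (2 * r), T2 (2 * r)]

theorem refAt (hT : TgStmt) (h8 : 8 ≤ r) : RefAt sg ps r := by
  obtain ⟨c, C, -, -, H⟩ := hT
  obtain ⟨a1, a2, -, -⟩ := H (r / 8) (by omega)
  obtain ⟨-, b2, b3, -⟩ := H (2 * r) (by omega)
  have cp2 : ∀ ξ s, |cp ξ 0 s| ≤ 2 := fun ξ s => (abs_cp_le ξ 0 s).trans one_le_two
  have e : 2 * (2 * r) = 4 * r := by ring
  exact ⟨Fin.forall_fin_two.2 ⟨a1.1.mono (by omega), a2.1.mono (by omega)⟩,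
    Fin.forall_fin_two.2 ⟨a1.2.1, a2.2.1⟩, Fin.forall_fin_two.2 ⟨a1.2.2.1, a2.2.2.1⟩,
    Fin.forall_fin_two.2 ⟨fun s => (a1.2.2.2 s).trans one_le_two, cp2 _⟩,
    Fin.forall_fin_two.2 ⟨e ▸ b3.1, e ▸ b2.1⟩,
    Fin.forall_fin_two.2 ⟨b3.2.1.mono (bl_mono 0 (by omega)), b2.2.2.2.mono (bl_mono 0 (by omega))⟩,
    Fin.forall_fin_two.2 ⟨cp2 _, cp2 _⟩⟩

theorem tc_eq (h : Env p Λ ω L N) (hL : p.w * r ≤ L) (hr : RefAt sg ps r) (a : Fin 2 → ℝ) :
    Tc ω (r / 8) (a 0) (a 1) = fun s => cmb sg r a s - ω (cmb sg r a) := by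
  funext s
  rw [om_cmb h hL hr]
  simp only [Tc, cmb, Fin.sum_univ_two, sg, Matrix.cons_val]
  ring

theorem low_of {R : ℕ} {b : ℝ} (h : Env p Λ ω L N) (hL : p.w * R ≤ L) (hR : r ≤ R) (hr : RefAt sg ps r)
    (hr' : RefAt sg ps R) (hl : Lw ω (r / 8) (2 * R) b) : Low ω sg ps r R b := fun a => by
  have := hl (a 0) (a 1)
  rw [tc_eq h ((Nat.mul_le_mul_left _ hR).trans hL) hr,
    cv_sub_const (H := G1 (2 * R)) h hL ((hr.ins_cmb a).mono hR) (hr'.ins' 0),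
    cv_sub_const (H := T2 (2 * R)) h hL ((hr.ins_cmb a).mono hR) (hr'.ins' 1)] at this
  rw [norm2, norm2]
  exact this

end E93

open E93 in
/-- **EPUR** -/
theorem epurStmt (hT : TgStmt) : EpurStmt := by
  intro w
  rcases Nat.eq_zero_or_pos w with rfl | hw
  · exact ⟨0, fun p W hp _ Λ ω r₁ L N h => absurd h.w4 (by omega)⟩
  have e0 : 0 < ew w / 10 := by have := Cone.ew_pos hw; positivity
  have e1 := Beta3.ew_le w
  obtain ⟨W₀, -, H⟩ := Cone.ev_rpow (2 ^ 15) (half_pos e0)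
  refine ⟨W₀, fun p W hp hW Λ ω r₁ L N h h0 h8 hK r m F h1 hL hF hv hd => ?_⟩
  subst hp
  have hW' := H W hW
  have hW1 := one_le hW' (half_pos e0)
  have W1 : (1 : ℝ) ≤ W := by exact_mod_cast hW1
  have W0 : (0 : ℝ) < W := by linarith
  have up : ∀ k, r ≤ W ^ k * r := fun k => Nat.le_mul_of_pos_left _ (pow_pos hW1 k)
  have hk : ∀ {k}, k ≤ m → p.w * (W ^ k * r) ≤ L := fun hk =>
    (Nat.mul_le_mul_left _ (Nat.mul_le_mul_right _ (Nat.pow_le_pow_right hW1 hk))).trans hL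
  have su : ∀ k, W ^ (k + 1) * r = W * (W ^ k * r) := fun k => by ring
  have u1 : ∀ k, r₁ ≤ W ^ k * r := fun k => h1.trans (up k)
  have hr0 := h0.trans h1
  have hL0 : p.w * r ≤ L := (Nat.mul_le_mul_left _ (up m)).trans hL
  have ke : ∀ k, k < m → Ke p.w W Λ (W ^ k * r) := fun k hb => hK _ (u1 k) (su k ▸ hk hb)
  have n3 := nc_le_nu h hr0 hL0 hF
  have hν := A51.nu_nonneg h.mem.ok p.w 0 r F
  have hc := nc_nonneg (ω := ω) h.mem.ok p.w r F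
  constructor
  · have d : ∀ j, j ≤ m → nc Λ p.w ω (W ^ j * r) F ≤ ((W : ℝ) ^ (-2 + ew p.w / 10)) ^ j * nc Λ p.w ω r F := by
      intro j hj
      induction j with
      | zero => simp
      | succ j ih =>
        have := step hW' e0 rfl h (h0.trans (u1 j)) (su j ▸ hk hj) (ke j hj) (hF.mono (up j)) hv hd
        rw [su, pow_succ', mul_assoc]
        exact this.trans (mul_le_mul_of_nonneg_left (ih (by omega)) (by positivity))
    refine (d m le_rfl).trans ?_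
    rw [← rpow_mul_natCast W0.le]
    have : 0 ≤ (W : ℝ) ^ ((-2 + ew p.w / 10) * m) := by positivity
    nlinarith [mul_le_mul_of_nonneg_left n3 this, mul_nonneg this hν]
  intro hl
  have rf : ∀ k, RefAt sg ps (W ^ k * r) := fun k => refAt hT (h8.trans (u1 k))
  have le1 : ∀ n, n ≤ W * n := fun n => Nat.le_mul_of_pos_left _ hW1
  have l1 : ∀ k, k < m → Low ω sg ps (W ^ k * r) (W * (W ^ k * r)) ((W : ℝ) ^ (-2 - ew p.w / 10)) :=
    fun k hb => low_of h (su k ▸ hk hb) (le1 _) (rf k) (su k ▸ rf (k + 1)) (hl k hb).1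
  have P : PackE p W Λ ω sg ps (ew p.w / 10) (3 * (ew p.w / 10)) r m L N :=
    ⟨h, hr0, hL, rf, fun k hb => kq hW' e0 rfl h (h0.trans (u1 k)) (su k ▸ hk hb) (ke k hb) (by linarith)
      (rf k) (su k ▸ rf (k + 1)) (l1 k hb), l1, fun k hb => low_of h (su k ▸ su (k + 1) ▸ hk hb)
      ((le1 _).trans (le1 _)) (rf k) (su k ▸ su (k + 1) ▸ rf (k + 2)) (hl k (by omega)).2⟩
  rcases Nat.eq_zero_or_pos m with rfl | hm
  · refine ⟨0, 0, by simpa using hν, ?_⟩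
    simp only [Tc, zero_mul, add_zero, sub_zero, pow_zero, one_mul, Nat.cast_zero, mul_zero, rpow_zero]
    exact n3.trans (by linarith)
  have hW2 : 2 ^ 15 ≤ (W : ℝ) ^ (ew p.w / 10) :=
    hW'.trans (rpow_le_rpow_of_exponent_le W1 (by linarith))
  obtain ⟨a, a1, -, a2⟩ := purE hW2 e0 (by linarith) (by linarith) P hF hv hd
  have m1 : (1 : ℝ) ≤ m := by exact_mod_cast hm
  have rf0 : RefAt sg ps r := refAt hT (h8.trans h1)
  refine ⟨a 0, a 1, ?_, ?_⟩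
  · rw [← norm2]
    refine a1.trans ?_
    have : 3 * (W : ℝ) ^ (6 * (ew p.w / 10)) ≤ (W : ℝ) ^ (ew p.w * m) :=
      calc _ ≤ (W : ℝ) ^ (ew p.w / 10) * (W : ℝ) ^ (6 * (ew p.w / 10)) := by gcongr; linarith
        _ ≤ _ := by
          rw [← rpow_add W0]
          exact rpow_le_rpow_of_exponent_le W1 (by nlinarith)
    have q : 0 ≤ (W : ℝ) ^ (6 * (ew p.w / 10)) := by positivity
    nlinarith [mul_le_mul_of_nonneg_left n3 q, mul_le_mul_of_nonneg_right this hν]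
  · have := a2 m le_rfl
    rw [nc, om_sub h hL0 hF (rf0.ins_cmb a)] at this
    rw [tc_eq h hL0 rf0]
    refine le_trans (le_of_eq ?_) (this.trans ?_)
    · congr 1; funext s; ring
    · have q : (W : ℝ) ^ (6 * (ew p.w / 10)) * (W : ℝ) ^ (-(5 / 2 : ℝ) * m) ≤ (W : ℝ) ^ (-(11 / 5 : ℝ) * m) := by
        rw [← rpow_add W0]
        exact rpow_le_rpow_of_exponent_le W1 (by linarith)
      have q0 : 0 ≤ (W : ℝ) ^ (-(11 / 5 : ℝ) * m) := by positivity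
      nlinarith [mul_le_mul_of_nonneg_right q hc, mul_le_mul_of_nonneg_left n3 q0, mul_nonneg q0 hν]

end Crest.Agent.T145.Ev
end

-- ▼ part T145/EvHf_89
section

/-!
# Row 145, module Ev: HF, a flow that avoids a hole (helper89)
-/

set_option autoImplicit false

namespace Crest.Agent.T145.Ev

open Finset Pot Xi Fl Kw56 H59

/-- HF -/
theorem hfStmt : HfStmt := by
  obtain ⟨P, P0, hP⟩ := An44.poin_an 2
  refine ⟨324 * (2 + 16 * P), by positivity, fun v z c n k₁ c1 cn hv h0 hk => ?_⟩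
  have man : ∀ {p q : ℕ} {x : Pt}, x ∈ an z p q ↔ (p : ℤ) < ds z x ∧ ds z x ≤ q := fun {p q x} => by
    rw [an, mem_sdiff, mem_bl_ds, mem_bl_ds, not_le, and_comm]
  have hE0 : E0 (bl z n) v = eD nL (bl z n) v v := by
    rw [eD_sbp nL_ok v hv, E0, ← sum_neg_distrib]
    exact sum_congr rfl fun x _ => by rw [A0_apply, lap, nL_J]; ring
  have e0 : 0 ≤ E0 (bl z n) v := hE0 ▸ (sy_eD _).nonneg v
  refine f2_of_dual (U := an z c (n + 1)) (ed := nL.edI (an z c (n + 1)))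
    (fun e he => (Lat.mem_edI.1 he).2) (fun x hx => ?_) (by positivity) fun u => ?_
  · by_cases h : x ∈ bl z (n + 1)
    · exact h0 x (by rw [man] at hx; rw [mem_bl_ds] at *; push_cast at *; omega)
    · exact sup_A0 hv x h
  have r1 : (1 : ℝ) ≤ c := by exact_mod_cast c1
  have b1 : (2 * c : ℝ) < 4 * c := by linarith
  obtain ⟨a, ha⟩ : ∃ a, a = av (an z c (4 * c)) u := ⟨_, rfl⟩
  obtain ⟨ζ, hζ⟩ : ∃ ζ : Pt → ℝ, ζ = fun x => 1 - rmp z (2 * c) (4 * c) x := ⟨_, rfl⟩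
  obtain ⟨w, hw⟩ : ∃ w : Pt → ℝ, w = fun x => ζ x * (u x - a) := ⟨_, rfl⟩
  have w1 : ∀ x, (4 * c : ℤ) ≤ ds z x → w x = u x - a := fun x h => by
    simp only [hw, hζ, rmp_zero b1 (show (4 * c : ℝ) ≤ ds z x by exact_mod_cast h), sub_zero, one_mul]
  have near : ∀ e : Pt × Pt, e.2 - e.1 ∈ nL.Jp → e.2 ∈ bl e.1 1 := fun e he => by
    have := Lat.edge_near he; rwa [nL_rg] at this
  have lip : ∀ e : Pt × Pt, e.2 - e.1 ∈ nL.Jp → |ds z e.2 - ds z e.1| ≤ 1 := fun e he => by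
    simpa using ds_lip z (near e he)
  have i1 : Pot.ip (an z c (n + 1)) (A0 v) u = eD nL (bl z n) w v := by
    have s1 : ∑ x ∈ bl z (n + 1), w x * A0 v x = ∑ x ∈ bl z (n + 1), (u x - a) * A0 v x :=
      sum_congr rfl fun x _ => by
        by_cases h : x ∈ bl z (4 * c)
        · rw [h0 x h, mul_zero, mul_zero]
        · rw [w1 x (by rw [mem_bl_ds] at h; push_cast at h; omega)]
    have s2 := green0 (D := bl z n) (D' := bl z (n + 1)) (bl_one_sub le_rfl) w hv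
    rw [eD_sbp nL_ok w hv, ← sum_neg_distrib, sum_congr rfl fun x _ =>
      show -(lapJ nL.J w x * v x) = A0 w x * v x by rw [A0_apply, lap, nL_J]; ring, s2, s1]
    simp only [sub_mul, sum_sub_distrib, ← mul_sum, sum_A0 le_rfl hv, mul_zero, sub_zero]
    rw [Pot.ip, an, sum_sdiff_eq_sub (bl_mono z (by omega)), sum_eq_zero (s := bl z c) fun x hx => by
      rw [h0 x (bl_mono z (by omega) hx), zero_mul], sub_zero]
    exact sum_congr rfl fun x _ => mul_comm _ _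
  obtain ⟨q, hq⟩ : ∃ q : Pt × Pt → Prop, q = fun e => (4 * c : ℤ) ≤ ds z e.1 ∧ (4 * c : ℤ) ≤ ds z e.2 :=
    ⟨_, rfl⟩
  classical
  obtain ⟨E₁, h1⟩ : ∃ E₁, E₁ = (nL.edT (bl z n)).filter q := ⟨_, rfl⟩
  obtain ⟨E₂, h2⟩ : ∃ E₂, E₂ = (nL.edT (bl z n)).filter fun e => ¬ q e := ⟨_, rfl⟩
  have i2 : eD nL (bl z n) w v = edF E₁ w v + edF E₂ w v := by
    rw [eD, edF_apply, edF_apply, edF_apply, h1, h2, sum_filter_add_sum_filter_not]
  have m1 : ∀ e ∈ E₁, e ∈ nL.edI (an z c (n + 1)) ∧ (4 * c : ℤ) ≤ ds z e.1 ∧ (4 * c : ℤ) ≤ ds z e.2 :=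
    fun e he => by
      rw [h1, mem_filter, Lat.mem_edT, mem_bl_ds, mem_bl_ds, hq] at he
      have := abs_le.1 (lip e he.1.1)
      refine ⟨Lat.mem_edI.2 ⟨he.1.1, ?_⟩, he.2⟩
      rw [man, man]; push_cast; omega
  have m2 : ∀ e ∈ E₂, e.2 - e.1 ∈ nL.Jp ∧ ds z e.1 ≤ 4 * c ∧ ds z e.2 ≤ 4 * c := fun e he => by
    rw [h2, mem_filter, Lat.mem_edT, hq] at he
    have := abs_le.1 (lip e he.1.1)
    exact ⟨he.1.1, by omega⟩
  obtain ⟨E, hE⟩ : ∃ E, E = edF (nL.edI (an z c (n + 1))) u u := ⟨_, rfl⟩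
  have E0' : 0 ≤ E := hE ▸ (sy_edF _).nonneg u
  have t1 : edF E₁ w w ≤ E := by
    rw [hE]
    refine le_trans (le_of_eq ?_) (Pot.edF_mono (fun e he => (m1 e he).1) u)
    rw [edF_self, edF_self]
    exact sum_congr rfl fun e he => by rw [w1 _ (m1 e he).2.1, w1 _ (m1 e he).2.2]; ring
  have t2 : edF E₁ v v ≤ E0 (bl z n) v := by
    rw [hE0, h1]; exact Pot.edF_mono (filter_subset _ _) v
  have t3 : edF E₂ v v ≤ 162 * (c * k₁) ^ 2 := by
    refine (Pot.edF_mono (ed := nL.edI (bl z (4 * c))) (fun e he => Lat.mem_edI.2 ⟨(m2 e he).1, ?_⟩) v).trans ?_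
    · rw [mem_bl_ds, mem_bl_ds]; exact_mod_cast (m2 e he).2
    · have c2 : ((bl z (4 * c)).card : ℝ) ≤ 81 * (c : ℝ) ^ 2 := by
        rw [card_bl]; push_cast; nlinarith
      rw [← eN, eN_apply]
      refine (sum_le_card_nsmul _ _ (81 * (c : ℝ) ^ 2 * k₁ ^ 2) fun y hy => ?_).trans ?_
      · refine (sum_le_card_nsmul _ _ (k₁ ^ 2) fun x hx => ?_).trans ?_
        · have := abs_le.1 (hk x (mem_filter.1 hx).1 y (Lat.mem_Jp.1 hy).1)
          nlinarith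
        · rw [nsmul_eq_mul]
          exact mul_le_mul_of_nonneg_right ((Nat.cast_le.2 (card_filter_le _ _)).trans c2) (sq_nonneg _)
      · rw [nL_Jp, card_pair (by decide), nsmul_eq_mul]; push_cast; exact le_of_eq (by ring)
  have t4 : edF E₂ w w ≤ (2 + 16 * P) * E := by
    have r0 : ∀ x, 0 ≤ rmp z (2 * c) (4 * c) x ∧ rmp z (2 * c) (4 * c) x ≤ 1 := fun x =>
      ⟨le_max_left _ _, max_le zero_le_one (min_le_left _ _)⟩
    have u1 := edF_cut_le (Λ := nL) (ed := E₂) (fun e he => (m2 e he).1) (S := an z c (4 * c))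
      (S' := an z c (4 * c)) (ζ := ζ) (L := 1 / (2 * c))
      (fun x => by rw [hζ, abs_le]; constructor <;> linarith [(r0 x).1, (r0 x).2])
      (fun e he hne => by
        have d1 := abs_le.1 (lip e (m2 e he).1)
        have d2 : (2 * c : ℤ) < ds z e.1 := by
          by_contra h
          exact hne (by simp only [hζ]; rw [rmp_one b1 (by exact_mod_cast not_lt.1 h), sub_self])
        have := (m2 e he).2
        rw [man, man]; push_cast; omega)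
      (fun e he hne => by
        have d1 := (rmp_ne (z := z) b1 (near e (m2 e he).1) fun h => hne (by simp only [hζ, h])).2.1
        have d2 : (2 * c : ℤ) - 1 < ds z e.2 := by exact_mod_cast d1
        have := (m2 e he).2
        refine ⟨by rw [man]; push_cast; omega, ?_⟩
        simp only [hζ]
        rw [sub_sub_sub_cancel_left, abs_sub_comm]
        exact (rmp_lip z b1 (near e (m2 e he).1)).trans (le_of_eq (by push_cast; ring)))
      fun x => u x - a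
    have u2 := hP z c (4 * c) u (by omega)
    have u3 : eN nL (an z c (4 * c)) u u ≤ E := hE ▸ eN_mono (An44.an_mono z le_rfl (by omega)) u
    rw [← ha] at u2
    rw [← hw, eN, edF_sub_const', ← eN, nL_Jp, card_pair (by decide)] at u1
    have u4 : ((2 : ℕ) : ℝ) * (1 / (2 * c)) ^ 2 * ∑ x ∈ an z c (4 * c), (u x - a) ^ 2 ≤ 8 * P * E :=
      (mul_le_mul_of_nonneg_left (u2.trans (mul_le_mul_of_nonneg_left u3 (by positivity)))
        (by positivity)).trans (le_of_eq (by push_cast; field_simp; ring))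
    linarith
  have q1 := ((sy_edF E₁).cs w v).trans (mul_le_mul t1 t2 ((sy_edF _).nonneg v) E0')
  have q2 := ((sy_edF E₂).cs w v).trans (mul_le_mul t4 t3 ((sy_edF _).nonneg v) (by positivity))
  rw [i1, i2, ← hE]
  nlinarith [sq_nonneg (edF E₁ w v - edF E₂ w v)]

end Crest.Agent.T145.Ev
end

-- ▼ part T145/EvT2_17

/-!
# Row 145, even sector: T2L, the coefficient of the charged reference insertion (helper17)
-/

set_option autoImplicit false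

namespace Crest.Agent.T145.Ev

open Finset Pot Xi Real Fl

namespace T17

theorem ew_le {w : ℕ} (hw : 1 ≤ w) : 0 < ew w ∧ ew w ≤ 1 / 100 := by
  have h1 := Far57.cw_pos hw
  have h2 := Far57.cw_le hw
  constructor <;> rw [ew] <;> linarith

/-- the small parameter makes everything large -/
theorem small {p : Par} {Λ : Lat} {L n : ℕ} {R Y t C : ℝ} (hw : 1 ≤ p.w) (hM : Maj p Λ L R Y) (hC : 1 ≤ C)
    (ht : 0 < t) (hCt : C * t ≤ 1) (hn : 1 ≤ n) (hY : Y ≤ t ^ n) (hL : R ≤ t ^ n * L) :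
    0 < Y ∧ t ≤ 1 ∧ C * Y ≤ 1 ∧ C * R ≤ L ∧ C ≤ R := by
  have hR := hM.1
  have hR0 : 0 < R := by linarith
  have t1 : t ≤ 1 := by nlinarith
  have h1 : t ^ n ≤ t := pow_le_of_le_one ht.le t1 (by omega)
  have h2 : R⁻¹ ≤ Y := by
    rw [← rpow_neg_one]
    exact (rpow_le_rpow_of_exponent_le hR (by linarith [(ew_le hw).2])).trans hM.2.1
  have hY0 : 0 < Y := (inv_pos.2 hR0).trans_le h2
  have h3 : C * Y ≤ 1 := (mul_le_mul_of_nonneg_left (hY.trans h1) (by linarith)).trans hCt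
  have hL0 : (0 : ℝ) ≤ L := Nat.cast_nonneg _
  refine ⟨hY0, t1, h3, ?_, ?_⟩
  · calc C * R ≤ C * (t * L) := by gcongr; exact hL.trans (by gcongr)
      _ = C * t * L := by ring
      _ ≤ 1 * L := by gcongr
      _ = L := one_mul _
  · have : C * R⁻¹ ≤ 1 := (mul_le_mul_of_nonneg_left h2 (by linarith)).trans h3
    rwa [← div_eq_mul_inv, div_le_one hR0] at this

variable {p : Par} {Λ : Lat} {ω ω' : Sta} {D : Finset Pt} {L N : ℕ}

/-- a centre that sees the origin and a far site -/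
theorem mid (h : Env p Λ ω L N) {z : Pt} (hz : z ∈ bl 0 (N + N / 4)) :
    ∃ c m, Rep Λ ω m c N ∧ bl 0 (N / 4) ⊆ bl c N ∧ bl z Λ.rg ⊆ bl c N := by
  obtain ⟨m, hm⟩ := h.amb (z.1 / 2, z.2 / 2)
  have h1 := h.gd.2.1
  have h2 := h.big
  have h3 := h.le
  have h4 : 400 * p.r₀ ≤ 100 * p.w * p.r₀ := Nat.mul_le_mul_right _ (by have := h.w4; omega)
  have h5 := h.mem.ok.one_le_rg
  refine ⟨_, m, hm, fun x hx => ?_, fun x hx => ?_⟩ <;>
  · rw [mem_bl] at hz hx ⊢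
    simp only [Prod.fst_zero, Prod.snd_zero] at hz hx ⊢
    omega

/-- linearity of the derivative state -/
theorem der_sum (h : Ed p Λ ω ω' D L N) (he : ∀ z, Ins z Λ.rg (et Λ ω z)) {ι : Type} (T : Finset ι)
    (a : ι → ℝ) {F : ι → Cfg Pt → ℝ} (hF : ∀ i ∈ T, Ins 0 (N / 4) (F i)) :
    ω' (fun s => ∑ i ∈ T, a i * F i s) = ∑ i ∈ T, a i * ω' (F i) := by
  have e : ∑ i ∈ T, a i * ω' (F i) = ∑ i ∈ T, ∑ z ∈ D, a i * ω fun s => F i s * et Λ ω z s :=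
    sum_congr rfl fun i hi => by rw [h.der _ (hF i hi), mul_sum]
  rw [h.der _ (Ins.sum T fun i hi => (hF i hi).smul _), e, sum_comm]
  refine sum_congr rfl fun z hz => ?_
  obtain ⟨c, m, hm, s1, s2⟩ := mid h.toEnv (h.hi hz)
  rw [← hm.ex_sum_smul T a fun i hi => ((hF i hi).of_subset s1).mul ((he z).of_subset s2)]
  simp only [sum_mul, mul_assoc]

theorem ins_Jh (he : ∀ z, Ins z Λ.rg (et Λ ω z)) {ρ a : ℕ} (h1 : 1 ≤ a) (h : Λ.rg + ρ ≤ a) :
    Ins 0 a (Jh Λ ω ρ) :=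
  (ins_Jz 0 h1).mul (Ins.sum _ fun _ hz => (he _).move hz h)

theorem trl_Jh (he : ∀ z, trl z (et Λ ω 0) = et Λ ω z) (ρ : ℕ) (x : Pt) :
    trl x (Jh Λ ω ρ) = fun s => Jz x s * ∑ z ∈ bl x ρ, et Λ ω z s := by
  funext s
  rw [← Pot.Ha91.sum_bl x ρ fun z => et Λ ω z s, ← trl_Jz x]
  refine congrArg _ (sum_congr rfl fun z _ => ?_)
  rw [← he (x + z), add_comm, ← Fl.trl_trl, he]
  rfl

theorem nat_le {a b : ℕ} (h : (a : ℝ) ≤ b) : a ≤ b := by exact_mod_cast h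

/-- the scales -/
theorem scales {w r₀ L N : ℕ} {R A : ℝ} (hw : 4 ≤ w) (hA : 0 ≤ A)
    (hR : (384 * (w : ℝ) ^ 2 + 4) * (A + r₀ + 4) ≤ R) (hL : 64 * R ≤ L) (hN : L ≤ N) :
    ∃ k : ℕ, R ≤ 192 * (w * (w * k)) ∧ 96 * ((w : ℝ) * (w * k)) ≤ R ∧ 384 * ((w : ℝ) * k) ≤ R ∧
      (k : ℝ) ≤ R ∧ A ≤ k ∧ r₀ + 4 ≤ k ∧ 4 * k ≤ w * k ∧ 4 * (w * k) ≤ w * (w * k) ∧
      ⌈2 * R⌉₊ ≤ N / 4 ∧ ⌊R / 4⌋₊ + 12 * (w * (w * k)) + 1 ≤ ⌈2 * R⌉₊ ∧ ⌈2 * R⌉₊ ≤ L := by
  have hw' : (4 : ℝ) ≤ w := by exact_mod_cast hw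
  have hr0 : (0 : ℝ) ≤ r₀ := Nat.cast_nonneg _
  have h0 : 0 < 192 * (w : ℝ) ^ 2 := by positivity
  have hR3 : (384 * (w : ℝ) ^ 2 + 4) * 4 ≤ R := le_trans (by gcongr; linarith) hR
  have hR0 : 16 ≤ R := by linarith
  obtain ⟨k, hk1, hk2⟩ : ∃ k : ℕ, R ≤ 192 * (w : ℝ) ^ 2 * k ∧ 192 * (w : ℝ) ^ 2 * k ≤ 2 * R := by
    refine ⟨⌈R / (192 * (w : ℝ) ^ 2)⌉₊, ?_, ?_⟩
    · rw [← div_le_iff₀' h0]; exact Nat.le_ceil _
    · have := (Nat.ceil_lt_add_one (show 0 ≤ R / (192 * (w : ℝ) ^ 2) by positivity)).le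
      have h2 := mul_le_mul_of_nonneg_left this h0.le
      rw [mul_add, mul_div_cancel₀ _ h0.ne'] at h2
      linarith
  have hk0 : (0 : ℝ) ≤ k := Nat.cast_nonneg _
  have hkM : R ≤ (384 * (w : ℝ) ^ 2 + 4) * k := hk1.trans (by gcongr; linarith)
  have hk3 : A + r₀ + 4 ≤ k := le_of_mul_le_mul_left (hR.trans hkM) (by linarith)
  have h1 : 4 * (k : ℝ) ≤ w * k := by gcongr
  have h2 : 4 * ((w : ℝ) * k) ≤ w * (w * k) := by gcongr
  have h3 : 96 * ((w : ℝ) * (w * k)) ≤ R := by linarith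
  have hq : (⌊R / 4⌋₊ : ℝ) ≤ R / 4 := Nat.floor_le (by positivity)
  have hc := (Nat.ceil_lt_add_one (show 0 ≤ 2 * R by positivity)).le
  have hLN : (L : ℝ) ≤ N := by exact_mod_cast hN
  refine ⟨k, by linarith, h3, by linarith, by linarith, by linarith, nat_le (by push_cast; linarith),
    Nat.mul_le_mul_right _ hw, Nat.mul_le_mul_right _ hw, ?_,
    nat_le (by push_cast; linarith [Nat.le_ceil (2 * R)]), nat_le (by linarith)⟩
  rw [Nat.le_div_iff_mul_le (by norm_num)]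
  exact nat_le (by push_cast; linarith)

/-- the stars near the current -/
theorem near (hE : Env p Λ ω L N) (he : ∀ z, Ins z Λ.rg (et Λ ω z))
    (ht : ∀ z, trl z (et Λ ω 0) = et Λ ω z) {R : ℝ} {x : Pt} {a ρ d : ℕ} (hx : x ∈ bl 0 d)
    (h0 : p.r₀ ≤ a) (h1 : 1 ≤ a) (h2 : Λ.rg + ρ ≤ a) (h3 : p.w * a + d ≤ L) (hS : Ins 0 L (Sn R))
    (hout : ∀ y ∈ bl x a, xi R y = 0) :
    |∑ z ∈ bl x ρ, ω fun s => Jz x s * Sn R s * et Λ ω z s| ≤ 16 * nu Λ p.w 0 a (Jh Λ ω ρ) := by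
  obtain ⟨m, hm⟩ := hE.amb 0
  have h4 := A51.four_le hE.toGs a
  have h5 := hE.gd.2.1
  have h6 := hE.le
  have i1 : Ins 0 a (Jh Λ ω ρ) := ins_Jh he h1 h2
  have s1 : bl x (p.w * a) ⊆ bl 0 N := bl_subset_bl hx (by omega)
  have k := (prodStmt p Λ L hE.toGs m _ Unit univ (fun _ => x) (fun _ => a)
    (fun _ => trl x (Jh Λ ω ρ)) (Sn R) hm.1
    ⟨by simp, fun _ _ => i1.trl x, fun _ _ => ⟨h0, by omega⟩, fun _ _ => s1,
      fun _ _ _ _ hne => (hne rfl).elim⟩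
    (fun _ _ => by rw [Fl.Sn_eq]; exact out_cp hout _) (abs_Sn_le R)).1
  simp only [univ_unique, prod_singleton] at k
  rw [((semiStmt Λ p.w _ x hE.mem.ok (by omega)).2 _ i1).2.1,
    ← hm.ex_eq (((i1.trl x).move hx (by omega)).mul (hS.mono h6)), trl_Jh ht] at k
  rw [← hm.ex_sum _ fun z hz => (((ins_Jz x h1).move hx (by omega)).mul (hS.mono h6)).mul
    ((he z).move (bl_subset_bl hx (le_refl _) hz) (by omega))]
  refine le_trans (le_of_eq ?_) k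
  congr 2; funext s; rw [← mul_sum]; ring

theorem nu_J {R Y M : ℝ} {k : ℕ} (hE : Gs p Λ L) (h : Maj p Λ L R Y) (h0 : p.r₀ ≤ k) (h1 : 1 ≤ k)
    (hL : p.w * k ≤ L) (hkR : (k : ℝ) ≤ R) (hkM : R ≤ M * k) (hM : 1 ≤ M) (x : Pt) :
    nu Λ p.w x k (Jz x) ≤ M ^ 3 * Y / R ^ 2 := by
  have hR0 : 0 < R := by linarith [h.1]
  have hY0 : 0 < Y := (rpow_pos_of_pos hR0 _).trans_le h.2.1
  have h4 := A51.four_le hE k
  have h5 := hE.gd.2.1
  have hk0 : (0 : ℝ) < k := by exact_mod_cast h1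
  have hew := ew_le (w := p.w) (by have := hE.w4; omega)
  rw [← trl_Jz x, ((semiStmt Λ p.w k x hE.mem.ok (by omega)).2 _ (ins_Jz 0 h1)).2.1]
  have h3 : max ((k : ℝ) / R) (R / k) ^ ew p.w ≤ M := by
    have h4 : max ((k : ℝ) / R) (R / k) ≤ M := max_le (((div_le_one hR0).2 hkR).trans hM)
      (by rwa [div_le_iff₀ hk0])
    calc _ ≤ M ^ ew p.w := rpow_le_rpow (by positivity) h4 hew.1.le
      _ ≤ M ^ (1 : ℝ) := rpow_le_rpow_of_exponent_le hM (by linarith [hew.2])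
      _ = M := rpow_one _
  have h2 : (k : ℝ) ^ 2 * nu Λ p.w 0 k (Jz 0) ≤ Y * M :=
    (h.2.2 k h0 hL).trans (mul_le_mul_of_nonneg_left h3 hY0.le)
  rw [le_div_iff₀ (by positivity)]
  have h6 := A51.nu_nonneg hE.mem.ok p.w 0 k (Jz 0)
  calc _ ≤ nu Λ p.w 0 k (Jz 0) * (M * k) ^ 2 := by gcongr
    _ = M ^ 2 * ((k : ℝ) ^ 2 * nu Λ p.w 0 k (Jz 0)) := by ring
    _ ≤ M ^ 2 * (Y * M) := mul_le_mul_of_nonneg_left h2 (by positivity)
    _ = _ := by ring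

/-- one site -/
theorem site (hB : BasStmt) (hD : DkStmt) (hC : Cr3Stmt) (p : Par) (W : ℕ) (D₀ : ℝ) (hW : 2 ≤ W) :
    ∃ C : ℝ, 1 ≤ C ∧ ∀ (E : Dt) (R Y P : ℝ), E.Bs p W D₀ R Y P → C * Y ≤ 1 → C * R ≤ E.L → C ≤ R →
      ∀ x ∈ bl (0 : Pt) ⌊R / 4⌋₊,
        |E.ω' fun s => Jz x s * Sn R s| ≤ C * (Qq E.ω' R + Y * P) / R ^ 2 := by
  obtain ⟨P₀, -, hB⟩ := hB p
  obtain ⟨Cd, hCd, hD⟩ := hD p W D₀ hW
  obtain ⟨Cc, hCc, hC⟩ := hC p
  obtain ⟨σ, hσ, hX⟩ := lr_xi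
  obtain ⟨M, hM⟩ : ∃ M : ℝ, M = 384 * (p.w : ℝ) ^ 2 + 4 := ⟨_, rfl⟩
  have hM0 : 4 ≤ M := by rw [hM]; exact le_add_of_nonneg_left (by positivity)
  have k1 : 0 ≤ Cc * M ^ 8 * (1 + σ) ^ 2 := by positivity
  have k2 : 0 ≤ M * (Cc + p.r₀ + 4) := by positivity
  refine ⟨16 * Cd + Cc * M ^ 8 * (1 + σ) ^ 2 + M * (Cc + p.r₀ + 4) + 64, by linarith,
    fun E R Y P h hY hL hR x hx => ?_⟩
  have hE := h.ed.toEnv
  have hw := hE.w4
  have hw' : (4 : ℝ) ≤ p.w := by exact_mod_cast hw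
  have hR1 := h.maj.1
  have hR0 : 0 < R := by linarith
  have hY0 : 0 < Y := (rpow_pos_of_pos hR0 _).trans_le h.maj.2.1
  have hP := h.P1
  have he := fun z => (hB _ _ _ _ hE z).2.2.1
  have ht := fun z => (hB _ _ _ _ hE z).2.1
  have hrg := hE.gd.2.1
  have cL : ∀ A : ℝ, A ≤ 16 * Cd + Cc * M ^ 8 * (1 + σ) ^ 2 + M * (Cc + p.r₀ + 4) + 64 → A * R ≤ E.L :=
    fun A hA => (mul_le_mul_of_nonneg_right hA hR0.le).trans hL
  obtain ⟨k, a1, a2, a3, a4, a5, a6, a7, a8, a9, a10, a11⟩ := scales (r₀ := p.r₀) (R := R) hw hCc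
    (by rw [← hM]; linarith) (cL 64 (by linarith)) hE.le
  have hk0 : (0 : ℝ) ≤ k := Nat.cast_nonneg _
  have hkM : R ≤ M * k := by
    have : 0 ≤ (p.w : ℝ) * (p.w * k) := by positivity
    rw [hM]; linarith
  have hq : (⌊R / 4⌋₊ : ℝ) ≤ R / 4 := Nat.floor_le (by positivity)
  have hMR : 4 * R ≤ M * R := mul_le_mul_of_nonneg_right hM0 hR0.le
  have hfl : ∀ n : ℕ, (n : ℝ) ≤ 4 * R → n ≤ ⌊M * R⌋₊ := fun n hn => Nat.le_floor (hn.trans hMR)
  have hS : Ins 0 ⌈2 * R⌉₊ (Sn R) := ins_Sn hR0 (Nat.le_ceil _)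
  have hJ : Ins 0 ⌈2 * R⌉₊ (Jz x) := (ins_Jz x le_rfl).move hx (by omega)
  have e3 : 3 * p.w * k = 3 * (p.w * k) := mul_assoc _ _ _
  have e4 : p.w * (12 * (p.w * k)) = 12 * (p.w * (p.w * k)) := mul_left_comm _ _ _
  have hsub : bl x (3 * p.w * k) ⊆ E.D := (bl_subset_bl hx (by omega)).trans h.ed.lo
  have hout : ∀ n : ℕ, n ≤ 12 * (p.w * k) → ∀ y ∈ bl x n, xi R y = 0 := fun n hn y hy =>
    xi_in hR0 (n := 12 * (p.w * k) + ⌊R / 4⌋₊) (by push_cast; linarith)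
      (bl_subset_bl hx (by omega) hy)
  rw [h.ed.der _ ((hJ.mul hS).mono a9), ← sum_sdiff hsub, add_comm]
  refine (abs_add_le _ _).trans ?_
  have hQ : 0 ≤ Qq E.ω' R := by rw [Qq]; positivity
  have n1 := near (ρ := 3 * p.w * k) hE he ht hx (a := 12 * (p.w * k)) (by omega) (by omega)
    (by omega) (by omega) (hS.mono a11) (hout _ le_rfl)
  have n2 := (hD E R Y P h ((mul_le_mul_of_nonneg_right (by linarith) hY0.le).trans hY)
    (cL _ (by linarith))).2 (12 * (p.w * k)) (3 * p.w * k) (by push_cast; linarith)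
    (by push_cast; linarith) (by push_cast; linarith) (by omega)
  have f1 := hC _ _ _ _ hE R P M hR1 hP h.prof (by linarith)
    (cL _ (by nlinarith [mul_nonneg (show 0 ≤ M by linarith) (Nat.cast_nonneg p.r₀ : (0 : ℝ) ≤ _)]))
    Unit univ (fun _ => x) k (fun _ => Jz x) (xi R) 1 σ
    (-(π / 2)) (E.D \ bl x (3 * p.w * k)) a5 (by rwa [div_le_iff₀' (by linarith)]) (by simp)
    ⟨by simp, fun _ _ => ins_Jz x (by omega), fun _ _ => ⟨by omega, by omega⟩,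
      fun _ _ => bl_subset_bl hx (hfl _ (by push_cast; linarith)), fun _ _ _ _ hne => (hne rfl).elim⟩
    (by linarith) (fun _ _ => hout _ (by omega))
    (chq_xi hR0 ((Nat.le_ceil _).trans (Nat.cast_le.2 (hfl _
      (by linarith [(Nat.ceil_lt_add_one (show 0 ≤ 2 * R by positivity)).le])))))
    (fun z => ⟨_, by
      simpa only [sub_zero] using (hX R 0 z k (by omega) a4).mono (mul_le_of_le_one_right hσ
        (pow_le_one₀ (by positivity) ((div_le_one hR0).2 a4)))⟩)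
    (sdiff_subset.trans h.ed.hi) fun z hz _ _ => (mem_sdiff.1 hz).2
  simp only [univ_unique, prod_singleton, ← Fl.Sn_eq] at f1
  have f2 := nu_J hE.toGs h.maj (k := k) (by omega) (by omega) (by omega) a4 hkM (by linarith) x
  have hYP : 0 ≤ Y * P := by positivity
  calc _ ≤ 16 * (Cd * (Qq E.ω' R + Y * P) / R ^ 2) +
        Cc * M ^ 5 * (1 + σ) ^ 2 * (M ^ 3 * Y / R ^ 2) * P :=
        add_le_add (n1.trans (by gcongr)) ((abs_sum_le_sum_abs _ _).trans (f1.trans (by gcongr)))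
    _ = (16 * Cd * (Qq E.ω' R + Y * P) + Cc * M ^ 8 * (1 + σ) ^ 2 * (Y * P)) / R ^ 2 := by ring
    _ ≤ _ := by
        refine div_le_div_of_nonneg_right ?_ (by positivity)
        linarith [mul_nonneg k1 hQ, mul_nonneg k2 (add_nonneg hQ hYP)]

end T17

open T17 in
/-- T2L -/
theorem t2Stmt (hS : S4Stmt) (hB : BasStmt) (hD : DkStmt) (hC : Cr3Stmt) : T2Stmt := by
  intro w
  obtain ⟨W₀, hS⟩ := hS w
  refine ⟨max W₀ 2, fun p W D₀ hp hW => ?_⟩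
  obtain ⟨Cs, n, hCs, hS⟩ := hS p W D₀ hp (le_of_max_le_left hW)
  obtain ⟨K, hK, hsite⟩ := site hB hD hC p W D₀ (le_of_max_le_right hW)
  obtain ⟨P₀, -, hB⟩ := hB p
  obtain ⟨Ce, hCe, her⟩ := abs_er_le
  set e := exp (4 * π ^ 2 * Ce) with he
  have he1 : 1 ≤ e := one_le_exp (by positivity)
  have k1 : 0 ≤ e * (256 * (p.w : ℝ) ^ 2) := by positivity
  have k2 : K ≤ e * K := le_mul_of_one_le_left (by linarith) he1
  refine ⟨Cs + e * K + e * (256 * (p.w : ℝ) ^ 2), max n 1, by linarith,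
    fun E R Y P t h ht hCt hY hL a₁ a₂ α₁ α₂ hc => ?_⟩
  have hE := h.ed.toEnv
  have hw := hE.w4
  have hw' : (4 : ℝ) ≤ p.w := by exact_mod_cast hw
  obtain ⟨hY0, t1, c1, c2, c3⟩ := small (by omega) h.maj (by linarith) ht hCt (le_max_right _ _) hY hL
  have hR1 := h.maj.1
  have hR0 : 0 < R := by linarith
  have hP := h.P1
  have hn : t ^ max n 1 ≤ t ^ n := pow_le_pow_of_le_one ht.le t1 (le_max_left _ _)
  have h1 := hS E R Y P t h ht (le_trans (by gcongr; linarith) hCt) (hY.trans hn)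
    (hL.trans (by gcongr)) a₁ a₂ α₁ α₂ hc
  have h2 := hsite E R Y P h (le_trans (by gcongr; linarith) c1) (le_trans (by gcongr; linarith) c2)
    (by linarith)
  set ρ := R / (16 * p.w) with hρ
  have hρ0 : 0 < ρ := by positivity
  have hρR : R = 16 * p.w * ρ := by rw [hρ]; field_simp
  have hq := Nat.lt_floor_add_one (R / 4)
  have hq' : (⌊R / 4⌋₊ : ℝ) ≤ R / 4 := Nat.floor_le (by positivity)
  have hρ64 : 64 * ρ ≤ R := by rw [hρR]; gcongr; linarith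
  have hsup : Pot.Sup (bl 0 ⌊R / 4⌋₊) (Xi.chi ρ) := sup_chi hρ0 (by linarith)
  set S := ∑ x ∈ bl (0 : Pt) ⌊R / 4⌋₊, Xi.chi ρ x with hSd
  have hS1 : ρ ^ 2 ≤ S := by
    have h3 : ⌊ρ⌋₊ ≤ ⌊R / 4⌋₊ := Nat.floor_le_floor (by linarith)
    calc ρ ^ 2 ≤ (2 * (⌊ρ⌋₊ : ℝ) + 1) ^ 2 := by
          gcongr; linarith [Nat.lt_floor_add_one ρ, (Nat.cast_nonneg ⌊ρ⌋₊ : (0 : ℝ) ≤ _)]
      _ = ∑ x ∈ bl (0 : Pt) ⌊ρ⌋₊, Xi.chi ρ x := by
          rw [sum_congr rfl fun x hx => chi_one hρ0 (Nat.floor_le hρ0.le) hx]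
          simp [card_bl]
      _ ≤ S := sum_le_sum_of_subset_of_nonneg (bl_mono 0 h3) fun x _ _ => chi_nonneg _ _
  have hS0 : 0 < S := lt_of_lt_of_le (by positivity) hS1
  have hLN : (E.L : ℝ) ≤ E.N := by exact_mod_cast hE.le
  have hRL : 64 * R ≤ E.L := le_trans (by gcongr; nlinarith) c2
  have hN4 : ⌈2 * R⌉₊ ≤ E.N / 4 := by
    rw [Nat.le_div_iff_mul_le (by norm_num)]
    have : ((⌈2 * R⌉₊ * 4 : ℕ) : ℝ) ≤ E.N := by
      push_cast
      linarith [(Nat.ceil_lt_add_one (show 0 ≤ 2 * R by positivity)).le]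
    exact_mod_cast this
  have hq2 : 1 + ⌊R / 4⌋₊ ≤ ⌈2 * R⌉₊ := by
    have : ((1 + ⌊R / 4⌋₊ : ℕ) : ℝ) ≤ ⌈2 * R⌉₊ := by push_cast; linarith [Nat.le_ceil (2 * R)]
    exact_mod_cast this
  have hQ : 0 ≤ Qq E.ω' R := by rw [Qq]; positivity
  set Z := Qq E.ω' R + Y * P with hZ
  have hZ0 : 0 ≤ Z := by positivity
  have h3 : |E.ω' fun s => X (Xi.chi ρ) s * Sn R s| ≤ S * (K * Z / R ^ 2) := by
    simp only [X, pr_A0 hsup, sum_mul, mul_assoc]
    rw [der_sum h.ed (fun z => (hB _ _ _ _ hE z).2.2.1) _ _ fun x hx =>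
      (((ins_Jz x le_rfl).move hx hq2).mul (ins_Sn hR0 (Nat.le_ceil _))).mono hN4, hSd, sum_mul]
    refine (abs_sum_le_sum_abs _ _).trans (sum_le_sum fun x hx => ?_)
    rw [abs_mul, abs_of_nonneg (chi_nonneg _ _)]
    exact mul_le_mul_of_nonneg_left (h2 x hx) (chi_nonneg _ _)
  -- the Gaussian factor
  set g := gk E.ω R with hg
  have hew := ew_le (w := p.w) (by omega)
  have hcr := abs_le.1 h.crit
  have ha1 : (1 : ℝ) ≤ a₁ := by exact_mod_cast (show 1 ≤ a₁ by have := hc.r1; have := h.r8; omega)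
  have haR : (a₁ : ℝ) ≤ R := hc.hi.trans (mul_le_of_le_one_right hR0.le (pow_le_one₀ ht.le t1))
  have hg0 : 0 ≤ g := nonneg_of_mul_nonneg_right (a := π) (by linarith) pi_pos
  have hg1 : g ≤ 1 := by nlinarith [pi_gt_three]
  have h4 : (a₁ / R) ^ 2 * (a₁ / R) ^ (ew p.w / 100) ≤ e * ph g a₁ R := by
    have h5 : (0 : ℝ) < a₁ / R := by positivity
    have h6 : 0 ≤ log (R / a₁) := log_nonneg ((one_le_div (by linarith)).2 haR)
    have h7 : log (a₁ / R) = -log (R / a₁) := by rw [← log_inv, inv_div]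
    rw [← rpow_two, ← rpow_add h5, rpow_def_of_pos h5, he, ph, ← exp_add, exp_le_exp, h7]
    have h8 := abs_le.1 (her a₁ ha1)
    have h9 := abs_le.1 (her R hR1)
    have h10 : -2 * π ^ 2 * g * (log (R / a₁) / (2 * π) - er a₁ - er R) =
        -(π * g) * log (R / a₁) + 2 * π ^ 2 * (g * (er a₁ + er R)) := by field_simp; ring
    have h11 : -(2 * Ce) ≤ g * (er a₁ + er R) := by nlinarith
    rw [h10]
    nlinarith [mul_le_mul_of_nonneg_left h11 (by positivity : 0 ≤ 2 * π ^ 2),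
      mul_nonneg h6 (show 0 ≤ 2 + ew p.w / 100 - π * g by linarith)]
  have hph : 0 < ph g a₁ R := exp_pos _
  have h5 : |α₂| * ph g a₁ R * S ≤ S * (K * Z / R ^ 2) + P * t ^ 6 := by
    have h6 : |α₂ * π * g * ph g a₁ R * S| ≤ S * (K * Z / R ^ 2) + P * t ^ 6 := by
      have := abs_sub (E.ω' (fun s => X (Xi.chi ρ) s * Sn R s) + α₂ * π * g * ph g a₁ R * S)
        (E.ω' fun s => X (Xi.chi ρ) s * Sn R s)
      rw [add_sub_cancel_left] at this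
      linarith
    refine le_trans ?_ h6
    rw [mul_assoc α₂, abs_mul, abs_mul, abs_mul, abs_of_pos hS0, abs_of_pos hph,
      abs_of_nonneg (mul_nonneg pi_pos.le hg0)]
    gcongr
    exact le_mul_of_one_le_right (abs_nonneg _) (by linarith)
  have h6 : |α₂| * ph g a₁ R * R ^ 2 ≤ K * Z + 256 * (p.w : ℝ) ^ 2 * (P * t ^ 6) := by
    refine le_of_mul_le_mul_right ?_ hS0
    calc _ = |α₂| * ph g a₁ R * S * R ^ 2 := by ring
      _ ≤ (S * (K * Z / R ^ 2) + P * t ^ 6) * R ^ 2 := by gcongr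
      _ = K * Z * S + 256 * (p.w : ℝ) ^ 2 * (P * t ^ 6) * ρ ^ 2 := by
          rw [add_mul, mul_assoc S, div_mul_cancel₀ _ (by positivity)]
          conv_lhs => enter [2]; rw [hρR]
          ring
      _ ≤ K * Z * S + 256 * (p.w : ℝ) ^ 2 * (P * t ^ 6) * S := by gcongr
      _ = _ := by ring
  have h7 : e * (256 * (p.w : ℝ) ^ 2) * t ≤ 1 := le_trans (by gcongr; linarith) hCt
  calc _ = |α₂| * ((a₁ / R) ^ 2 * (a₁ / R) ^ (ew p.w / 100)) * R ^ 2 := by field_simp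
    _ ≤ |α₂| * (e * ph g a₁ R) * R ^ 2 := by gcongr
    _ = e * (|α₂| * ph g a₁ R * R ^ 2) := by ring
    _ ≤ e * (K * Z + 256 * (p.w : ℝ) ^ 2 * (P * t ^ 6)) := by gcongr
    _ = e * K * Z + e * (256 * (p.w : ℝ) ^ 2) * t * (P * t ^ 5) := by ring
    _ ≤ _ := add_le_add (mul_le_mul_of_nonneg_right (by linarith) hZ0)
        (mul_le_of_le_one_left (by positivity) h7)

end Crest.Agent.T145.Ev
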