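import Crest.Agent.T145.FlKs_11
import Crest.Agent.T145.KrK3_85
import Crest.Agent.T145.EvDef_2
import Crest.Agent.T145.FlA_51
import Crest.Agent.T145.FlBas_4
import Crest.Agent.T145.FlEnv_30
import Crest.Agent.T145.FlSXa_44
import Crest.Agent.T145.FlSw_22
import Crest.Agent.T145.FlCc_87
import Crest.Agent.T145.EvDet_91
import Crest.Agent.T145.EvXp_81

-- ▼ part T145/EvKeW_90
section

/-!
# Row 145, even sector: `KeWStmt`, the even kernel theorem in a window (helper90)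
-/

set_option autoImplicit false

namespace Crest.Agent.T145.Ev.W90

open Finset Real Filter Fl Fl.L11

variable {Λ : Lat}

/-- the covariance with an outer function is linear in the flowed insertion -/
theorem C_sum (hΛ : Λ.Ok) (G : Kr.Gm) {r : ℕ} (hr : r + Λ.rg ≤ G.R₂) {ι : Type} [Fintype ι]
    {F : ι → Cfg Pt → ℝ} (hF : ∀ i, Ins 0 r (F i)) {Φ : Cfg Pt → ℝ} (hΦ : Ins 0 G.R₂ Φ)
    (ho : Out (bl 0 r) Φ) (t : ι → ℝ) :
    G.C Λ (Nc.St Λ 0 r fun s => ∑ i, t i * F i s) Φ = ∑ i, t i * G.C Λ (Nc.St Λ 0 r (F i)) Φ := by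
  have st : Nc.St Λ 0 r (fun s => ∑ i, t i * F i s) = fun s => ∑ i, t i * Nc.St Λ 0 r (F i) s :=
    funext fun s => by
      simp only [Nc.St, ← Ex_const_mul]
      exact Ex_sum _ fun i _ => (hΛ.se_D _ s).ig ((hF i).2.const_mul _)
  have i1 : ∀ i, Nc.In Λ 0 G.R₂ (Nc.St Λ 0 r (F i)) := fun i =>
    FlF4.In_St hΛ ((hF i).mono (by omega)).1 hr (FlF4.In_tame hΛ _ _ (hF i).2)
  have i2 : ∀ i, Nc.In Λ 0 G.R₂ fun s => Nc.St Λ 0 r (F i) s * Φ s := fun i => by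
    have k := hΦ.mul ((hF i).mono (show r ≤ G.R₂ by omega))
    have := FlF4.In_St hΛ k.1 hr (FlF4.In_tame hΛ _ _ k.2)
    rw [FlF4.St_out_mul ho] at this
    simpa only [mul_comm] using this
  simp only [st, Kr.Gm.C, Kr.Gm.E, Nc.EN, sum_mul, mul_assoc, mul_sub, sum_sub_distrib]
  rw [Ex_sum _ fun i _ => (i1 i).const_mul _, Ex_sum _ fun i _ => (i2 i).const_mul _]
  simp only [Ex_const_mul, sum_mul, mul_assoc]

theorem keP (hK : Kr.KEvenStmt) (F : Fa) {θ₀ : ℝ} (h0 : 0 < θ₀) {w : ℕ} (hw : 4 ≤ w) :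
    ∀ᶠ W : ℕ in atTop, ∃ δ : ℝ, 0 < δ ∧ ∀ Λ, F.Mem Λ → ∀ l L', Λ.Win θ₀ δ l L' →
      2 - ew w / 80 ≤ π * Λ.gN l → ∀ r₀ L r : ℕ, Nc.Gd Λ (1 / 400) w r₀ L → r₀ ≤ r → 64 ≤ r →
      w * (W * r) ≤ L → W * r ≤ L' → L' ≤ 2 * (W * r) → Ke w W Λ r := by
  have e0 := Kb14.ew_pos (show 1 ≤ w by omega)
  have e1 := Kb14.ew_le (show 1 ≤ w by omega)
  obtain ⟨ε, hε⟩ : ∃ ε, ε = ew w / 80 := ⟨_, rfl⟩
  obtain ⟨ω, hω⟩ : ∃ ω : ℝ, ω = w ^ 2 + 1 := ⟨_, rfl⟩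
  have w4 : (4 : ℝ) ≤ w := by exact_mod_cast hw
  have ω1 : 1 ≤ ω := by nlinarith
  have ε0 : 0 < ε := by linarith
  obtain ⟨W₁, h₂⟩ := hK F θ₀ ε h0 ε0 (by linarith)
  obtain ⟨C₃, -, h₃⟩ := Kr.k3Stmt
  filter_upwards [ev_rp ε0 (ω ^ 3), ev_rp one_pos (max W₁ 1024 * ω)] with W hx hW
  rw [rpow_one, ← le_div_iff₀ (by linarith)] at hW
  obtain ⟨δ₂, d2, h₂⟩ := h₂ _ ((le_max_left _ _).trans hW) 2 one_le_two
  have k1 := (le_max_right _ _).trans hW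
  have W1 : (1 : ℝ) ≤ W := by rw [le_div_iff₀ (by linarith)] at k1; linarith
  have W1' : 1 ≤ W := by exact_mod_cast W1
  refine ⟨δ₂, d2, fun Λ hΛ l L' hw' hg r₀ L r hG a1 r64 a3 a4 a5 => ?_⟩
  have g1 := hG.2.1
  have b1 : 4 * r ≤ w * r := Nat.mul_le_mul_right _ hw
  have b2 : 4 * (w * r) ≤ w * (w * r) := Nat.mul_le_mul_right _ hw
  have b3 : 4 * (W * r) ≤ w * (W * r) := Nat.mul_le_mul_right _ hw
  have b4 : r ≤ W * r := Nat.le_mul_of_pos_left _ W1'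
  have b5 : w * r ≤ w * (W * r) := Nat.mul_le_mul_left _ b4
  have rg : (Λ.rg : ℝ) ≤ r := by exact_mod_cast (by omega : Λ.rg ≤ r)
  have r0 : (0 : ℝ) ≤ r := r.cast_nonneg
  have ok : (gm Λ w W r).Ok (W / ω) := by
    refine ⟨k1, show 2 * (w * r) ≤ w * (w * r) + _ by omega, show 64 ≤ w * (w * r) + _ by omega, ?_, ?_,
      show 2 * (W * r) ≤ w * (W * r) by omega⟩ <;> simp only [gm] <;> push_cast
    · rw [div_mul_eq_mul_div, div_le_iff₀ (by linarith), mul_assoc]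
      gcongr; nlinarith
    · rw [mul_assoc, div_mul_eq_mul_div, ← mul_div_assoc, le_div_iff₀ (by linarith), mul_assoc, mul_left_comm 2]
      refine mul_le_mul_of_nonneg_left ?_ W.cast_nonneg
      nlinarith [mul_nonneg r0 (show (0 : ℝ) ≤ w ^ 2 - 1 by nlinarith), Λ.rg.cast_nonneg (α := ℝ)]
  obtain ⟨-, l2⟩ := h₂ Λ hΛ l L' hw' _ ok ⟨a4, by simp only [gm]; exact_mod_cast a5⟩ (by linarith)
  have W0 : (0 : ℝ) < W := by linarith
  have p1 : ω ^ 2 ≤ ω ^ 3 := pow_le_pow_right₀ ω1 (by norm_num)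
  have ok' := hΛ.ok
  have ad := fun H (hH : Ins 0 r H) => adm ok' W hG hw a1 (b5.trans a3) hH
  have n0 := A51.nu_nonneg ok' w 0 r
  have hTS : ∀ H, Tame H → (gm Λ w W r).T Λ (Nc.St Λ 0 r H) = Nc.St Λ 0 (W * r) H := fun H hH =>
    St_St ok' b4 hH
  have al := Kr.algStmt' _ _ ok
  have lt := Kr.O11.r_lt ok
  have g2 : r + 1 ≤ (gm Λ w W r).r := show _ ≤ w * (w * r) + _ by omega
  have g3 : (gm Λ w W r).r ≤ (gm Λ w W r).R₂ := by have := ok.out; omega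
  have y1 := (((h₃ _ _ ok).2.1 0).1)
  clear h₂ h₃ hK
  set G := gm Λ w W r
  have sub : Nc.an 0 (G.r - 1) G.r ⊆ bl 0 G.R₂ := sdiff_subset.trans (bl_mono 0 g3)
  have out : ∀ {f : Pt → ℝ}, Sup (Nc.an 0 (G.r - 1) G.r) f → Out (bl 0 r) fun s => pr f s := fun hf =>
    out_pr fun y hy => hf y fun h => (mem_sdiff.1 h).2 (bl_mono 0 (by omega) hy)
  refine ⟨fun H hH he _ => ⟨G.E Λ (Nc.St Λ 0 r H), ?_⟩, fun H hH => ?_⟩
  · have := (l2 _ (ad H hH) (Om.even_St he 0 r)).1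
    rw [hTS H hH.2] at this
    rw [nu, FlF4.St_sub ok' hH.2 (Tame.const _), FlF4.St_const ok']
    exact this.trans (mul_le_mul_of_nonneg_right ((dvp (n := 2) W0 ω1 (by push_cast; linarith)).trans
      (L11.ab W1 hx p1 (by linarith))) (n0 H))
  let Φ : Fin 2 → Cfg Pt → ℝ := ![Kr.cs G.eq, fun t => G.yi (Λ.gN l) 0 t * G.yi (Λ.gN l) 0 t]
  have iy : Ins 0 G.R₂ (G.yi (Λ.gN l) 0) :=
    ⟨((Kr.O11.depG_f2 y1.1 y1.2).mono sub).comp (· / Λ.gN l), Kr.O11.tame_y 0⟩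
  have oy : Out (bl 0 r) (G.yi (Λ.gN l) 0) := (out y1.1).comp (· / Λ.gN l)
  have hΦ : ∀ k, Ins 0 G.R₂ (Φ k) ∧ Out (bl 0 r) (Φ k) := Fin.forall_fin_two.2
    ⟨⟨⟨(Kr.O11.depG_cs al.eq_sup ((Kr.O11.sum_sup al.eq_sup fun x hx => al.eq_sup x fun h => hx
      (Nc.Geo.an_mono 0 (by have := ok.hc; omega) le_rfl h)).trans al.eq_sum)).mono sub,
      Tame.bdd (Kr.O11.abs_cs _)⟩, (out al.eq_sup).comp fun x => cos (2 * π * x)⟩, iy.mul iy, oy.mul oy⟩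
  let M : (Fin 3 → ℝ) →ₗ[ℝ] (Fin 2 → ℝ) :=
    { toFun := fun t k => ∑ i, t i * G.C Λ (Nc.St Λ 0 r (H i)) (Φ k)
      map_add' := fun x y => by ext k; simp only [Pi.add_apply, add_mul, sum_add_distrib]
      map_smul' := fun c x => by
        ext k; simp only [Pi.smul_apply, smul_eq_mul, RingHom.id_apply, mul_sum, mul_assoc] }
  obtain ⟨t, ht, t0⟩ := (Submodule.ne_bot_iff _).1 (LinearMap.ker_ne_bot_of_finrank_lt (f := M) (by simp))
  have iH : Ins 0 r fun s => ∑ i, t i * H i s := Ins.sum _ fun i _ => (hH i).1.smul _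
  have z : ∀ k, G.C Λ (Nc.St Λ 0 r fun s => ∑ i, t i * H i s) (Φ k) = 0 := fun k =>
    (C_sum ok' G (show _ ≤ w * (W * r) by omega) (fun i => (hH i).1) (hΦ k).1 (hΦ k).2 t).trans
      (congrFun (LinearMap.mem_ker.1 ht) k)
  obtain ⟨-, -, -, c3, c4⟩ := l2 _ (ad _ iH) (Om.even_St (EvenF.sum _ fun i _ => (hH i).2.1.smul _) 0 r)
  obtain ⟨c3, c5⟩ := c3 (Om.d4_St ok' (D4.sum _ fun i _ => (hH i).2.2.smul _) r)
  have c6 : G.C Λ (Nc.St Λ 0 r fun s => ∑ i, t i * H i s)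
      (fun t => G.yi (Λ.gN l) 1 t * G.yi (Λ.gN l) 0 t) = 0 := by simpa only [mul_comm] using c3
  have z0 : G.C Λ _ (Kr.cs G.eq) = 0 := z 0
  have z1 : G.C Λ _ (fun t => G.yi (Λ.gN l) 0 t * G.yi (Λ.gN l) 0 t) = 0 := z 1
  simp only [Fin.sum_univ_two, c3, c6, ← c5, z0, z1, hTS _ iH.2, mul_zero, zero_mul, zero_div, add_zero,
    sub_zero] at c4
  refine ⟨t, t0, G.E Λ (Nc.St Λ 0 r fun s => ∑ i, t i * H i s), ?_⟩
  rw [nu, FlF4.St_sub ok' iH.2 (Tame.const _), FlF4.St_const ok']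
  exact c4.trans (mul_le_mul_of_nonneg_right ((dvp (n := 3) W0 ω1 (by push_cast; linarith)).trans
    (L11.ab W1 hx le_rfl (by linarith))) (n0 _))

end Crest.Agent.T145.Ev.W90

namespace Crest.Agent.T145.Ev

open Finset Real Filter Fl Fl.L11

/-- KE in a window -/
theorem keWStmt (hK : Kr.KEvenStmt) (hT : T1mStmt) : KeWStmt := fun p θ₀ h0 => by
  by_cases hw : 4 ≤ p.w
  swap
  · exact ⟨0, fun _ _ => ⟨1, 0, one_pos, fun _ => ⟨0, fun _ _ _ h => absurd h.w4 hw⟩⟩⟩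
  have e0 := Kb14.ew_pos (show 1 ≤ p.w by omega)
  obtain ⟨W₀, H⟩ := eventually_atTop.1 ((W90.keP hK p.F (half_pos h0) hw).and (eventually_ge_atTop 1))
  refine ⟨W₀, fun W hW => ?_⟩
  obtain ⟨⟨δ₁, d, h₁⟩, W1⟩ := H W hW
  obtain ⟨δ, ⟨⟨k1, k2⟩, k3⟩, d0⟩ := ((((ev_subwin hT p.F h0 d 0).and (ev_le d)).and
    (ev_le (show 0 < ew p.w / 320 by linarith))).and self_mem_nhdsWithin).exists
  refine ⟨δ, 0, d0, fun l => ⟨max 64 (⌈l / δ₁⌉₊ + 1), fun Λ N L hG hC hL r a b c => ?_⟩⟩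
  have b3 : 4 * (W * r) ≤ p.w * (W * r) := Nat.mul_le_mul_right _ hw
  have b4 : r ≤ W * r := Nat.le_mul_of_pos_left _ W1
  obtain ⟨j, j1, j2⟩ := dyad (show 1 ≤ W * r by omega)
  refine h₁ Λ hG.mem l _ (k1 Λ hG.mem l _ hC.1 j (by omega) (Or.inr ⟨hC.1.2.1.1.trans (by gcongr), ?_⟩)) ?_
    _ _ r hG.gd a (by omega) c j1 j2
  · rw [mul_comm, ← div_le_iff₀ d]
    exact (Nat.le_ceil _).trans (by exact_mod_cast (by omega : _ ≤ 2 ^ j))
  · have : π * Λ.gN l = 2 + π * (Λ.gN l - 2 / π) := by field_simp; ring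
    nlinarith [(abs_le.1 hC.2).1, pi_lt_four, pi_pos]

end Crest.Agent.T145.Ev
end

-- ▼ part T145/EvPurJ_87
section

/-!
# Row 145, even sector, PURJ (helper87): inside the cone an odd invariant insertion is a multiple of `J`
-/

set_option autoImplicit false

namespace Crest.Agent.T145.Ev

open Finset Pot Xi Real Fl

namespace J87

theorem ew_le {w : ℕ} (h : 4 ≤ w) : ew w ≤ 1 / 1000 := by
  have hw : (4 : ℝ) ≤ w := by exact_mod_cast h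
  have h2 : (2 : ℝ) ^ 10 ≤ 4 * (w : ℝ) ^ 4 := by
    have : (4 : ℝ) ^ 4 ≤ (w : ℝ) ^ 4 := by gcongr
    linarith
  have l2 : 0 < log 2 := log_pos one_lt_two
  have l3 := log_le_log (by norm_num) h2
  rw [log_pow] at l3
  push_cast at l3
  have : cw w ≤ 1 / 10 := by rw [cw, div_le_iff₀ (by linarith)]; linarith
  rw [ew]; linarith

section nu
variable {p : Par} {Λ : Lat} {L N r : ℕ} {ω : Sta} {z : Pt} {F G : Cfg Pt → ℝ}

theorem nu_add (h : Gs p Λ L) (h0 : p.r₀ ≤ r) (hF : Ins z r F) (hG : Ins z r G) :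
    nu Λ p.w z r (fun s => F s + G s) ≤ nu Λ p.w z r F + nu Λ p.w z r G :=
  (((semiStmt Λ p.w r z h.mem.ok (SX44.rg_le h h0)).1 F hF).2.2.2.2 G hG).1

theorem nu_sub (h : Gs p Λ L) (h0 : p.r₀ ≤ r) (hF : Ins z r F) (hG : Ins z r G) :
    nu Λ p.w z r (fun s => F s - G s) ≤ nu Λ p.w z r F + nu Λ p.w z r G :=
  (((semiStmt Λ p.w r z h.mem.ok (SX44.rg_le h h0)).1 F hF).2.2.2.2 G hG).2

theorem nu_smul (h : Gs p Λ L) (h0 : p.r₀ ≤ r) (hF : Ins z r F) (c : ℝ) :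
    nu Λ p.w z r (fun s => c * F s) = |c| * nu Λ p.w z r F :=
  ((semiStmt Λ p.w r z h.mem.ok (SX44.rg_le h h0)).1 F hF).2.2.1 c

theorem nu_bdd (h : Gs p Λ L) (h0 : p.r₀ ≤ r) (hF : Ins z r F) {B : ℝ} (hB : ∀ s, |F s| ≤ B) :
    nu Λ p.w z r F ≤ B :=
  ((semiStmt Λ p.w r z h.mem.ok (SX44.rg_le h h0)).1 F hF).2.2.2.1 B hB

theorem nu_le_Nm (h : Gs p Λ L) (h0 : p.r₀ ≤ r) (hF : Ins z r F) :
    nu Λ p.w z r F ≤ Nc.Nm Λ z (p.w * r) F :=
  ((semiStmt Λ p.w r z h.mem.ok (SX44.rg_le h h0)).1 F hF).2.1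

theorem nu_sum (h : Gs p Λ L) (h0 : p.r₀ ≤ r) {ι : Type*} (T : Finset ι) {H : ι → Cfg Pt → ℝ}
    (hH : ∀ i ∈ T, Ins z r (H i)) :
    nu Λ p.w z r (fun s => ∑ i ∈ T, H i s) ≤ ∑ i ∈ T, nu Λ p.w z r (H i) := by
  classical
  induction T using Finset.induction_on with
  | empty => simpa using nu_bdd h h0 (Ins.const z r 0) (B := 0) fun _ => by simp
  | insert i T hi ih =>
    simp only [sum_insert hi]
    have h1 := fun j hj => hH j (mem_insert_of_mem hj)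
    exact (nu_add h h0 (hH i (mem_insert_self _ _)) (Ins.sum T h1)).trans (add_le_add le_rfl (ih h1))

theorem nu_mono (h : Gs p Λ L) (h0 : p.r₀ ≤ r) {b : ℕ} (hb : r ≤ b) (hL : p.w * b ≤ L)
    (hF : Ins z r F) : nu Λ p.w z b F ≤ 2 * nu Λ p.w z r F := by
  simpa using (fusStmt p Λ L h z b hL).1 r F (fun _ => 1) h0 hb hF (DepG.const _ _) (Out.const _ _)
    fun _ => by simp

theorem ell_le (h : Env p Λ ω L N) (h0 : p.r₀ ≤ r) (hL : p.w * r ≤ L) {R : ℝ} (hR : (r : ℝ) + 1 ≤ R)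
    (hN : 2 * R ≤ N) (hF : Ins 0 r F) : |ell ω R F| ≤ 32 * nu Λ p.w 0 r F := by
  obtain ⟨m, hm⟩ := h.amb 0
  have R0 : 0 < R := by have : (0 : ℝ) ≤ r := Nat.cast_nonneg r; linarith
  have h4 := A51.four_le h.toGs r
  have h5 := h.le
  rw [ell, hm.2 _ ((hF.mono (show r ≤ N by omega)).mul (ins_Sn R0 hN)).1]
  exact SX44.prod1 prodStmt h.toGs hm.1 h0 hL (by omega) hF (out_Sn R0 hR) (abs_Sn_le R)

end nu

theorem num {l k v T D u aF aJ nF n₂ nS l₂ lS : ℝ} (hl : 0 < l) (v1 : 1 ≤ v) (vk : v ≤ k) (hT : 1 ≤ T)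
    (hD : 0 ≤ D) (hu : 0 < u) (big : 192 * D * T ^ 3 ≤ k) (nF0 : 0 ≤ nF) (hF : |aF| ≤ 2 * v * nF)
    (h2 : n₂ ≤ 3 * (u * T ^ 3 * v / k ^ 2)) (hS : nS ≤ v / l ^ 2) (hl2 : |l₂| ≤ 32 * n₂)
    (hlS : |lS| ≤ 32 * nS) (cone : u ≤ D * |l₂ + aJ * lS|) :
    aJ ≠ 0 ∧ |aF / aJ| * u ≤ 128 * D * (v ^ 2 / l ^ 2) * nF ∧
      |aF / aJ| * n₂ ≤ 384 * D * T ^ 3 * (v ^ 3 / (l ^ 2 * k ^ 2)) * nF := by
  have k0 : 0 < k := by linarith
  have a1 : D * |l₂| ≤ u / 2 := calc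
    _ ≤ D * (32 * (3 * (u * T ^ 3 * k / k ^ 2))) := by
        refine mul_le_mul_of_nonneg_left (hl2.trans ?_) hD
        have : u * T ^ 3 * v / k ^ 2 ≤ u * T ^ 3 * k / k ^ 2 := by gcongr
        linarith
    _ = u / 2 * (192 * D * T ^ 3 / k) := by field_simp; ring
    _ ≤ u / 2 * 1 := by gcongr; exact (div_le_one k0).2 big
    _ = _ := mul_one _
  have a2 : D * |aJ * lS| ≤ 32 * D * (v / l ^ 2) * |aJ| := by
    rw [abs_mul]
    calc _ ≤ D * (|aJ| * (32 * (v / l ^ 2))) := by gcongr; linarith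
      _ = _ := by ring
  have a3 : u ≤ 64 * D * (v / l ^ 2) * |aJ| := by
    have := mul_le_mul_of_nonneg_left (abs_add_le l₂ (aJ * lS)) hD
    linarith
  have a4 : aJ ≠ 0 := fun e => by rw [e, abs_zero, mul_zero] at a3; linarith
  have a5 : 0 < |aJ| := abs_pos.2 a4
  have a6 : |aF / aJ| * u ≤ 128 * D * (v ^ 2 / l ^ 2) * nF := calc
    _ ≤ 2 * v * nF / |aJ| * (64 * D * (v / l ^ 2) * |aJ|) := by rw [abs_div]; gcongr
    _ = _ := by field_simp; ring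
  refine ⟨a4, a6, ?_⟩
  calc _ ≤ |aF / aJ| * (3 * (u * T ^ 3 * v / k ^ 2)) := by gcongr
    _ = |aF / aJ| * u * (3 * T ^ 3 * v / k ^ 2) := by ring
    _ ≤ 128 * D * (v ^ 2 / l ^ 2) * nF * (3 * T ^ 3 * v / k ^ 2) := by gcongr
    _ = _ := by field_simp; ring

set_option maxHeartbeats 400000 in
/-- PURJ -/
theorem purJ (p : Par) {W : ℕ} (hW : 2 ≤ W) (D M : ℝ) : ∃ C : ℝ, 1 ≤ C ∧ ∀ Λ ω r₁ L N, Env p Λ ω L N →
    Pur p W Λ r₁ L → ∀ R Y : ℝ, Maj p Λ L R Y → Y ≤ D * (R ^ 2 * |ell ω R (Jz 0)|) → 2 * R ≤ N →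
    ∀ (r b : ℕ) (F : Cfg Pt → ℝ), p.r₀ ≤ r → r₁ ≤ r → 1 ≤ r → r ≤ b → p.w * b ≤ L → (b : ℝ) + 1 ≤ R →
      R ≤ M * b → Ins 0 r F → OddF F → D4 0 F → ∃ μ : ℝ,
        nu Λ p.w 0 b (fun s => F s - μ * Jz 0 s) ≤
          C * ((r : ℝ) / b) ^ (11 / 5 - 3 * ew p.w) * nu Λ p.w 0 r F ∧
        |μ| * Y ≤ C * ((b : ℝ) / r) ^ (2 * ew p.w) * r ^ 2 * nu Λ p.w 0 r F := by
  obtain ⟨T, hT⟩ : ∃ T : ℝ, T = max 1 M * W := ⟨_, rfl⟩
  obtain ⟨K, hK⟩ : ∃ K : ℝ, K = 1 + 192 * |D| * T ^ 3 := ⟨_, rfl⟩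
  have W1 : (1 : ℝ) ≤ W := by exact_mod_cast (show 1 ≤ W by omega)
  have T1 : 1 ≤ T := by rw [hT]; exact one_le_mul_of_one_le_of_one_le (le_max_left _ _) W1
  have K1 : 1 ≤ K := by rw [hK]; have : 0 ≤ 192 * |D| * T ^ 3 := by positivity
                        linarith
  have KW : 1 ≤ K ^ 10 * W := one_le_mul_of_one_le_of_one_le (one_le_pow₀ K1) W1
  have KW3 : 1 ≤ (K ^ 10 * W) ^ 3 := one_le_pow₀ KW
  refine ⟨6 * (K ^ 10 * W) ^ 3, by linarith, ?_⟩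
  intro Λ ω r₁ L N hE hP R Y hM hc hN r b F h0 h1 r1 rb hL hR hR' hF hFo hF4
  have hG := hE.toGs
  have e0 := SX44.ew_nonneg p.w
  have e1 := SX44.ew_le p.w
  have Y0 := SX44.Y_pos hM
  have R0 : 0 < R := by linarith [hM.1]
  have r0 : (0 : ℝ) < r := by exact_mod_cast r1
  have b0 : (0 : ℝ) < b := by exact_mod_cast r1.trans rb
  have nF0 := A51.nu_nonneg hG.mem.ok p.w 0 r F
  have D0 : 0 ≤ D := by
    by_contra hn
    have := mul_nonpos_of_nonpos_of_nonneg (not_le.1 hn).le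
      (show 0 ≤ R ^ 2 * |ell ω R (Jz 0)| by positivity)
    linarith
  rw [abs_of_nonneg D0] at hK
  obtain ⟨m, m1, m2, m3⟩ := Cc87.scale hW r1 rb
  obtain ⟨l, hl⟩ : ∃ l : ℝ, l = (W : ℝ) ^ m := ⟨_, rfl⟩
  rw [← hl] at m2 m3
  have l1 : 1 ≤ l := hl ▸ one_le_pow₀ W1
  have l0 : 0 < l := by linarith
  obtain ⟨x, hx⟩ : ∃ x : ℝ, x = r / b := ⟨_, rfl⟩
  rw [← hx] at m2 m3 ⊢
  have x0 : 0 < x := by rw [hx]; positivity
  have x1 : x ≤ 1 := (le_mul_of_one_le_left x0.le l1).trans m2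
  by_cases big : K ≤ l ^ (1 / 10 : ℝ)
  swap
  · refine ⟨0, ?_, by rw [abs_zero, zero_mul]; positivity⟩
    simp only [zero_mul, sub_zero]
    have a1 : l ≤ K ^ 10 := by
      have := pow_le_pow_left₀ (by positivity) (not_le.1 big).le 10
      rwa [← rpow_mul_natCast l0.le, show (1 / 10 : ℝ) * (10 : ℕ) = 1 by norm_num, rpow_one] at this
    have a2 : 1 ≤ K ^ 10 * W * x := m3.trans (by rw [mul_assoc]; gcongr)
    have a3 : x ^ 3 ≤ x ^ (11 / 5 - 3 * ew p.w) := by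
      rw [← rpow_natCast x 3]; exact rpow_le_rpow_of_exponent_ge x0 x1 (by push_cast; linarith)
    have a4 : 1 ≤ (K ^ 10 * W) ^ 3 * x ^ (11 / 5 - 3 * ew p.w) :=
      (one_le_pow₀ (n := 3) a2).trans (by rw [mul_pow]; gcongr)
    refine (nu_mono hG h0 rb hL hF).trans (mul_le_mul_of_nonneg_right ?_ nF0)
    linarith
  have pw : ∀ c : ℝ, (W : ℝ) ^ (c * m) = l ^ c := fun c => by
    rw [hl, mul_comm, rpow_natCast_mul (by linarith)]
  have hb' : p.w * (W ^ m * r) ≤ L := (Nat.mul_le_mul_left _ m1).trans hL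
  have rb' : r ≤ W ^ m * r := Nat.le_mul_of_pos_left r (pow_pos (by omega) m)
  have hb'' : ((W ^ m * r : ℕ) : ℝ) + 1 ≤ R := by
    have : ((W ^ m * r : ℕ) : ℝ) ≤ b := by exact_mod_cast m1
    linarith
  have h0' := h0.trans rb'
  have iJ : Ins 0 r (Jz 0) := ins_Jz 0 r1
  have iS : Ins 0 r (Sn (r / 4)) := ins_Sn4 r1
  obtain ⟨aF, f1, f2, -⟩ := hP r m F h0 h1 hb' hF hFo hF4
  obtain ⟨aJ, -, j2, -⟩ := hP r m _ h0 h1 hb' iJ (odd_Jz 0) (d4_Jz 0)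
  obtain ⟨-, -, -, s3⟩ := hP r m _ h0 h1 hb' iS (odd_Sn _) (d4_Sn _)
  rw [pw] at f1 f2 j2 s3
  obtain ⟨v, hv⟩ : ∃ v : ℝ, v = l ^ ew p.w := ⟨_, rfl⟩
  obtain ⟨k, hk⟩ : ∃ k : ℝ, k = l ^ (1 / 10 : ℝ) := ⟨_, rfl⟩
  have v1 : 1 ≤ v := hv ▸ one_le_rpow l1 e0
  have vk : v ≤ k := by rw [hv, hk]; exact rpow_le_rpow_of_exponent_le l1 e1
  have k0 : 0 < k := by linarith
  have q1 : l ^ (-(11 / 5) : ℝ) = 1 / (l ^ 2 * k ^ 2) := by
    rw [hk, ← rpow_mul_natCast l0.le, ← rpow_natCast l 2, ← rpow_add l0, one_div, ← rpow_neg l0.le]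
    norm_num
  have q2 : l ^ (-2 + ew p.w) = v / l ^ 2 := by
    rw [rpow_add l0, ← hv, rpow_neg l0.le, rpow_two]; ring
  rw [← hv] at f1
  rw [← hk] at big
  rw [q1] at f2 j2
  rw [q2] at s3
  have RT : R ≤ T * l * r := calc
    R ≤ max 1 M * b := hR'.trans (by gcongr; exact le_max_right _ _)
    _ ≤ max 1 M * (b * (l * (W * x))) := by gcongr; exact le_mul_of_one_le_right b0.le m3
    _ = _ := by rw [hT, hx]; field_simp
  have rR : (r : ℝ) ≤ R := by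
    have : (r : ℝ) ≤ b := by exact_mod_cast rb
    linarith
  have nJ := SX44.prof_le hM h0 ((Nat.mul_le_mul_left _ rb).trans hL) rR RT
    (A51.nu_nonneg hG.mem.ok _ _ _ _)
  have q3 : (T * l) ^ ew p.w ≤ T * v := by
    rw [mul_rpow (by linarith) l0.le, ← hv]
    gcongr
    exact (rpow_le_rpow_of_exponent_le T1 (by linarith)).trans_eq (rpow_one T)
  have u0 : 0 < Y / R ^ 2 := by positivity
  have iJ' := Cc87.Ins.sub' (iJ.mono rb') (iS.mono rb') aJ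
  have iF' := Cc87.Ins.sub' (hF.mono rb') (iS.mono rb') aF
  have rN : r ≤ N := by
    have h4 := A51.four_le hG (W ^ m * r)
    have h5 := hE.le
    omega
  obtain ⟨c1, c2, c3⟩ := num (aF := aF) (aJ := aJ) l0 v1 vk T1 D0 u0 (by linarith) nF0 f1
    (j2.trans (show _ ≤ 3 * (Y / R ^ 2 * T ^ 3 * v / k ^ 2) from
      calc _ ≤ 3 * (1 / (l ^ 2 * k ^ 2)) * (Y / R ^ 2 * ((T * l) ^ 2 * (T * v))) := by
            refine mul_le_mul_of_nonneg_left (nJ.trans ?_) (by positivity)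
            gcongr
        _ = _ := by field_simp))
    (s3.trans (mul_le_of_le_one_right (by positivity) (nu_bdd hG h0 iS (abs_Sn_le _))))
    (ell_le hE h0' hb' hb'' hN iJ') (ell_le hE h0' hb' hb'' hN (iS.mono rb')) (by
      rw [hE.ell_sub R0 hN (iJ.mono rN) (iS.mono rN), sub_add_cancel, div_le_iff₀ (by positivity)]
      linarith)
  have KK : 128 * (D * T ^ 3) + 1 ≤ K ^ 30 := by
    have t1 := le_self_pow₀ K1 (show 30 ≠ 0 by norm_num)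
    have t2 : 0 ≤ D * T ^ 3 := by positivity
    linarith only [t1, t2, hK]
  refine ⟨aF / aJ, ?_, ?_⟩
  · have e : (fun s => F s - aF / aJ * Jz 0 s) = fun s => (F s - aF * Sn (r / 4) s) -
        aF / aJ * (Jz 0 s - aJ * Sn (r / 4) s) := by funext s; field_simp; ring
    rw [e]
    refine (nu_mono hG h0' m1 hL (Cc87.Ins.sub' iF' iJ' _)).trans ?_
    have a1 := nu_sub hG h0' iF' (iJ'.smul (aF / aJ))
    rw [nu_smul hG h0' iJ'] at a1
    have a2 : v ^ 3 / (l ^ 2 * k ^ 2) ≤ W ^ 3 * x ^ (11 / 5 - 3 * ew p.w) := calc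
      _ = l⁻¹ ^ (11 / 5 - 3 * ew p.w) := by
          rw [div_eq_mul_one_div, ← q1, hv, ← rpow_mul_natCast l0.le, ← rpow_add l0, inv_rpow l0.le,
            ← rpow_neg l0.le]
          congr 1; push_cast; ring
      _ ≤ (W * x) ^ (11 / 5 - 3 * ew p.w) :=
          rpow_le_rpow (by positivity) (by rw [inv_le_iff_one_le_mul₀' l0]; exact m3) (by linarith)
      _ ≤ _ := by
          rw [mul_rpow (by linarith) x0.le, ← rpow_natCast _ 3]
          gcongr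
          push_cast; linarith
    have a3 : 1 / (l ^ 2 * k ^ 2) ≤ v ^ 3 / (l ^ 2 * k ^ 2) := by gcongr; exact one_le_pow₀ v1
    have a4 := f2.trans (show _ ≤ 3 * (v ^ 3 / (l ^ 2 * k ^ 2)) * nu Λ p.w 0 r F by gcongr)
    calc _ ≤ 2 * (3 * (128 * (D * T ^ 3) + 1) * (v ^ 3 / (l ^ 2 * k ^ 2)) * nu Λ p.w 0 r F) := by
          linarith
      _ ≤ 2 * (3 * K ^ 30 * (W ^ 3 * x ^ (11 / 5 - 3 * ew p.w)) * nu Λ p.w 0 r F) := by gcongr
      _ = _ := by ring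
  · have a1 : v ^ 2 ≤ ((b : ℝ) / r) ^ (2 * ew p.w) := by
      rw [hv, ← rpow_mul_natCast l0.le, mul_comm]
      refine rpow_le_rpow l0.le ?_ (by positivity)
      rw [hx, ← mul_div_assoc, div_le_one b0] at m2
      rwa [le_div_iff₀ r0]
    have a2 : 128 * (D * T ^ 2) ≤ 6 * (K ^ 10 * W) ^ 3 := by
      have t1 : D * T ^ 2 ≤ D * T ^ 3 := by gcongr; norm_num
      have t2 : K ^ 30 ≤ (K ^ 10 * W) ^ 3 := by
        rw [mul_pow, ← pow_mul]; exact le_mul_of_one_le_right (by positivity) (one_le_pow₀ W1)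
      linarith
    calc _ = |aF / aJ| * (Y / R ^ 2) * R ^ 2 := by field_simp
      _ ≤ 128 * D * (v ^ 2 / l ^ 2) * nu Λ p.w 0 r F * (T * l * r) ^ 2 := by gcongr
      _ = 128 * (D * T ^ 2) * v ^ 2 * r ^ 2 * nu Λ p.w 0 r F := by field_simp
      _ ≤ _ := by gcongr

/-- in the cone `Y` is at most a constant times `R² |l_R J|` -/
theorem cone {W : ℕ} (hW : 2 ≤ W) (D₀ : ℝ) : ∃ D : ℝ, ∀ (p : Par) (E : Dt) (R Y : ℝ), E.Lv p W D₀ R Y →
    Y ≤ D * (R ^ 2 * |ell E.ω R (Jz 0)|) := by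
  obtain ⟨c, C, -, hA⟩ := akStmt W hW
  obtain ⟨Ce, hCe, he⟩ := abs_er_le
  have hl : 0 < log (W : ℝ) := log_pos (by exact_mod_cast (by omega : 1 < W))
  refine ⟨D₀ * (√(π * log W * C / 2) * exp (2 * π ^ 2 * Ce)), fun p E R Y h => ?_⟩
  have e1 := SX44.ew_le p.w
  have h1 := abs_le.1 h.crit
  have p3 := pi_gt_three
  have g0 : 0 ≤ gk E.ω R := by nlinarith
  have g1 : gk E.ω R ≤ 1 := by nlinarith
  have h2 : -(gk E.ω R * er R) ≤ Ce := by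
    have h3 := he R h.maj.1
    have h4 : |gk E.ω R * er R| ≤ Ce := by
      rw [abs_mul, abs_of_nonneg g0]; nlinarith [abs_nonneg (er R)]
    linarith [neg_abs_le (gk E.ω R * er R)]
  have D0 : 0 ≤ D₀ := by linarith [h.D1]
  have h5 := (hA R h.maj.1).2.1
  rw [h.cone, yk]
  have h6 : exp (-2 * π ^ 2 * gk E.ω R * er R) ≤ exp (2 * π ^ 2 * Ce) :=
    exp_le_exp.2 (by nlinarith [sq_nonneg π])
  calc _ ≤ D₀ * (√(π * log W * C / 2) * R ^ 2 * |ell E.ω R (Jz 0)| * exp (2 * π ^ 2 * Ce)) := by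
        gcongr
    _ = _ := by ring

end J87

end Crest.Agent.T145.Ev
end

-- ▼ part T145/EvTg_91
section

/-!
# Row 145, the even sector: the deterministic leaf `TgStmt` (helper91)
-/

set_option autoImplicit false

namespace Crest.Agent.T145.Ev

open Finset Pot Pot.Ha91 Xi Real Fl Fl.Sw22

namespace D91

/-! ## the dipoles -/

theorem chq_fd {a : ℕ} (ha : 1 ≤ a) (i : Fin 2) : Chq (bl 0 (5 * a)) (fd a i) 0 := by
  have ha0 : (0 : ℝ) < a := by exact_mod_cast ha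
  have h := fun c : Pt => chq_xi' ha0 (r := 2 * a) (by simp) c
  have h1 := ((h _).mono (bl_subset_bl (r' := 5 * a) (ev_mem a i).1 (by omega))).sub
    ((h _).mono (bl_subset_bl (r' := 5 * a) (ev_mem a i).2 (by omega)))
  simp only [sub_neg_eq_add, sub_self] at h1
  exact h1

theorem fd_swp (a : ℕ) (x : Pt) : fd a 0 (swpZ 0 x) = fd a 1 x ∧ fd a 1 (swpZ 0 x) = fd a 0 x := by
  constructor <;>
  · rw [fd, fd, ← xi_swap, ← xi_swap a (swpZ 0 x + _)]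
    congr 2 <;> ext <;> simp [swpZ, ev]

theorem fd_rot (a : ℕ) (x : Pt) : fd a 0 (rotZ 0 x) = -fd a 1 x ∧ fd a 1 (rotZ 0 x) = fd a 0 x := by
  constructor
  · rw [fd, fd, neg_sub, ← xi_rot a (x + _), ← xi_rot a (x - _)]
    congr 2 <;> ext <;> simp [rotZ, ev] <;> ring
  · rw [fd, fd, ← xi_rot a (x + _), ← xi_rot a (x - _)]
    congr 2 <;> ext <;> simp [rotZ, ev]

theorem cp_mapH (φ : Pt ≃ Pt) (ξ : Pt → ℝ) (t : ℝ) (s : Cfg Pt) :
    cp ξ t (mapH φ s) = cp (fun x => ξ (φ x)) t s := by simp only [cp, pr_mapH]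

theorem d4_T1 (a : ℕ) : D4 0 (T1 a) := fun s => by
  have h : cp (fun x => -fd a 1 x) 0 s = cp (fd a 1) 0 s := by
    have := cp_neg (fd a 1) 0
    rw [neg_zero] at this
    exact congrFun this s
  simp only [T1, cp_mapH, (fd_swp a _).1, (fd_swp a _).2, (fd_rot a _).1, (fd_rot a _).2, h]
  exact ⟨by rw [add_comm], by rw [add_comm]⟩

theorem ins_T1 {a : ℕ} (ha : 1 ≤ a) : Ins 0 (5 * a) (T1 a) :=
  (((ins_cp (chq_fd ha 0) 0).add (ins_cp (chq_fd ha 1) 0)).mul_const 2⁻¹).congr fun s => by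
    rw [T1, div_eq_mul_inv]

theorem even_T1 (a : ℕ) : EvenF (T1 a) := fun s => by simp only [T1, even_cp _ s]

theorem abs_T1 (a : ℕ) (s : Cfg Pt) : |T1 a s| ≤ 1 := by
  have h1 := abs_le.1 (abs_cp_le (fd a 0) 0 s)
  have h2 := abs_le.1 (abs_cp_le (fd a 1) 0 s)
  rw [T1, abs_le]
  constructor <;> linarith [h1.1, h1.2, h2.1, h2.2]

/-! ## the linear test function -/

theorem lin_in {a n : ℕ} (ha : 1 ≤ a) (hn : n ≤ a) {x : Pt} (hx : x ∈ bl 0 n) : lin a x = x.1 / a := by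
  rw [lin, chi_one (by exact_mod_cast ha) (by exact_mod_cast hn) hx, mul_one]

theorem sup_lin {a : ℕ} (ha : 1 ≤ a) : Pot.Sup (bl 0 (2 * a - 1)) (lin a) := fun x hx => by
  have h : 2 * (a : ℝ) ≤ ((2 * a - 1 : ℕ) : ℝ) + 1 := by
    have : 2 * a ≤ 2 * a - 1 + 1 := by omega
    exact_mod_cast this
  rw [lin, sup_chi (by exact_mod_cast ha) h x hx, mul_zero, zero_div]

theorem dif_lin {a n : ℕ} (ha : 1 ≤ a) (hn : n + 1 ≤ a) {x e : Pt} (hx : x ∈ bl 0 n) (he : e ∈ nn) :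
    dif e (lin a) x = e.1 / a := by
  rw [dif, lin_in ha hn (bl_subset_bl hx (by omega) (nn_bl he x)), lin_in ha hn (bl_mono _ (by omega) hx)]
  simp only [Prod.fst_add]; push_cast; ring

theorem sm_lin : ∃ C : ℝ, 0 ≤ C ∧ ∀ a : ℕ, 1 ≤ a → Sm 3 Set.univ C a (lin a) := by
  obtain ⟨C1, h1, hC1⟩ := sm_chi 3
  refine ⟨2 ^ 3 * 8 * C1, by positivity, fun a ha => ?_⟩
  have ha1 : (1 : ℝ) ≤ a := by exact_mod_cast ha
  have ha0 : (0 : ℝ) < a := by linarith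
  have hd : ∀ y : Pt, dif y (fun x : Pt => (x.1 : ℝ) / a) = fun _ => (y.1 : ℝ) / a := fun y => by
    funext x; simp only [dif, Prod.fst_add]; push_cast; ring
  have h6 : Sm 3 (bl (0 : Pt) (2 * a + 6)) 8 a fun x : Pt => (x.1 : ℝ) / a := fun ys _ h8 x hx => by
    match ys, h8 with
    | [], _ =>
      simp only [difs, List.length_nil, pow_zero, div_one]
      have h2 : |x.1| ≤ ((2 * a + 6 : ℕ) : ℤ) := by simpa using (mem_bl_abs.1 hx).1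
      have h3 : |(x.1 : ℝ)| ≤ 2 * a + 6 := by exact_mod_cast h2
      rw [abs_div, abs_of_pos ha0, div_le_iff₀ ha0]; linarith
    | [y], h8 =>
      simp only [difs, hd, List.length_singleton, pow_one]
      rw [abs_div, abs_of_pos ha0]
      gcongr
      exact (abs_nn_le (h8 y (by simp))).1.trans (by norm_num)
    | y :: y' :: ys, _ =>
      rw [difs_cons', hd, difs_const, abs_zero]; positivity
  have h8 := h6.mul ha0 ((hC1 a ha0).mono le_rfl (Set.subset_univ _) le_rfl ha0) (S := bl 0 (2 * a + 3))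
    fun x hx w hw => bl_subset_bl hx (by omega) hw
  have h9 : Sm 3 {x | x ∉ bl (0 : Pt) (2 * a + 3)} (2 ^ 3 * 8 * C1) a (lin a) :=
    (Sm.zero' 3 _ (by positivity) ha0).congr fun x hx w hw => sup_lin ha w fun h =>
      hx (bl_subset_bl h (by omega) (mem_bl_comm.1 hw))
  have e : (fun w : Pt => (w.1 : ℝ) / a * Xi.chi a w) = lin a := funext fun w => by rw [lin]; ring
  rw [e] at h8
  exact (Sm.union h8 h9).mono le_rfl (fun x _ => em _) le_rfl ha0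

theorem E0_le {C : ℝ} {a : ℕ} (ha : 1 ≤ a) {v : Pt → ℝ} (h : Sm 3 Set.univ C a v) :
    E0 (bl 0 (2 * a)) v ≤ 50 * C ^ 2 := by
  have ha1 : (1 : ℝ) ≤ a := by exact_mod_cast ha
  have hC : 0 ≤ C := (abs_nonneg _).trans (h.zero (z := 0) trivial)
  have h9 : ∀ x ∈ bl (0 : Pt) (2 * a), v x * A0 v x ≤ C * (2 * (C / (a : ℝ) ^ 2)) := fun x _ => by
    refine (le_abs_self _).trans ?_
    rw [abs_mul]
    exact mul_le_mul (h.zero trivial) ((Sm.smH h).abs_A0 (by norm_num) trivial) (abs_nonneg _) hC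
  refine (sum_le_card_nsmul _ _ _ h9).trans ?_
  rw [card_bl, nsmul_eq_mul]
  push_cast
  calc _ ≤ (5 * (a : ℝ)) ^ 2 * (C * (2 * (C / (a : ℝ) ^ 2))) := by gcongr; linarith
    _ = _ := by field_simp; ring

theorem lk_lin {a n : ℕ} (ha : 1 ≤ a) (hn : n + 2 ≤ a) : Lk (lin a) 0 n (1 / a) 0 := fun y hy e he => by
  constructor
  · rw [dif_lin ha (by omega) hy he, abs_div, Nat.abs_cast]
    gcongr
    exact (abs_nn_le he).1
  · intro e' he'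
    change |dif e' (lin a) (y + e) - dif e' (lin a) y| ≤ 0
    rw [dif_lin ha hn (bl_subset_bl hy (by omega) (nn_bl he y)) he',
      dif_lin ha hn (bl_mono _ (by omega) hy) he', sub_self, abs_zero]

theorem A0_lin {a : ℕ} (ha : 1 ≤ a) {y : Pt} (hy : y ∈ bl 0 (a - 1)) : A0 (lin a) y = 0 := by
  rw [A0_congr (v := fun x : Pt => (x.1 : ℝ) / a) fun w hw =>
    lin_in ha le_rfl (bl_subset_bl hy (by omega) hw)]
  simp only [A0, Prod.fst_add]; push_cast; ring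

theorem gr_lin {a : ℕ} (ha : 1 ≤ a) : gr (lin a) (lin a) 0 = 1 / (a : ℝ) ^ 2 := by
  simp only [gr, Fin.sum_univ_two, dif_lin (n := 0) ha ha (self_mem_bl _ _) (ev_nn _)]
  simp [ev]; ring

/-! ## the response -/

theorem kp_exp : ∃ A : ℝ, 0 ≤ A ∧ ∀ a : ℕ, 1 ≤ a → |pk (6 * (a : ℤ), 0) - Xi.cr a - er a| ≤ A := by
  obtain ⟨C1, h1, hC1⟩ := pk_sub_cr
  obtain ⟨C2, h2, hC2⟩ := abs_er_le
  refine ⟨C1 + 5 + C2, by positivity, fun a ha => ?_⟩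
  have ha1 : (1 : ℝ) ≤ a := by exact_mod_cast ha
  have hz : ((6 * (a : ℤ), 0) : Pt) ≠ 0 := fun h => by
    have := congrArg Prod.fst h
    simp only [Prod.fst_zero] at this
    omega
  have h3 := hC1 a (by linarith) _ hz
  have h4 : eu (6 * (a : ℤ), 0) / a = 6 := by
    rw [eu]; push_cast
    rw [zero_pow two_ne_zero, add_zero, sqrt_sq (by positivity)]; field_simp
  rw [h4] at h3
  have h5 : C1 / eu (6 * (a : ℤ), 0) ≤ C1 := div_le_self h1 (one_le_eu hz)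
  have h6 : 0 ≤ log 6 / (2 * π) := div_nonneg (log_nonneg (by norm_num)) (by positivity)
  have h7 : log 6 / (2 * π) ≤ 5 :=
    (div_le_self (log_nonneg (by norm_num)) (by linarith [pi_gt_three])).trans
      (by linarith [log_le_sub_one_of_pos (show (0 : ℝ) < 6 by norm_num)])
  have h8 := abs_le.1 (hC2 a ha1)
  have h9 := abs_le.1 h3
  rw [abs_le]
  constructor <;> linarith [h8.1, h8.2, h9.1, h9.2]

theorem kp_bd : ∃ c C : ℝ, 0 < c ∧ 0 ≤ C ∧ ∀ a : ℕ, 1 ≤ a → ∀ g : ℝ, 1 / 4 ≤ g → g ≤ 1 →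
    c * (a : ℝ) ^ 2 ≤ kp g a ∧ kp g a ≤ C * (a : ℝ) ^ 2 := by
  obtain ⟨A, hA, h⟩ := kp_exp
  refine ⟨exp (-(4 * π ^ 2 * A)) * (24 * π ^ 2 * (1 / 4)) ^ 2 / 4, exp (4 * π ^ 2 * A) * (24 * π ^ 2) ^ 2 / 4,
    by positivity, by positivity, fun a ha g h1 h2 => ?_⟩
  have h3 : |-4 * π ^ 2 * g * (pk (6 * (a : ℤ), 0) - Xi.cr a - er a)| ≤ 4 * π ^ 2 * A := by
    rw [abs_mul, show -4 * π ^ 2 * g = -(4 * π ^ 2 * g) by ring, abs_neg, abs_of_nonneg (by positivity)]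
    exact mul_le_mul (mul_le_of_le_one_right (by positivity) h2) (h a ha) (abs_nonneg _) (by positivity)
  obtain ⟨h4, h5⟩ := abs_le.1 h3
  constructor
  · calc _ = exp (-(4 * π ^ 2 * A)) * (24 * π ^ 2 * (1 / 4) * a) ^ 2 / 4 := by ring
      _ ≤ _ := by rw [kp]; gcongr
  · calc kp g a ≤ exp (4 * π ^ 2 * A) * (24 * π ^ 2 * 1 * a) ^ 2 / 4 := by rw [kp]; gcongr
      _ = _ := by ring

end D91

open D91

theorem tgStmt : TgStmt := by
  obtain ⟨c, C1, hc, h1, hk⟩ := kp_bd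
  obtain ⟨C2, h2, hl⟩ := sm_lin
  refine ⟨c, C1 + C2 + 50 * C2 ^ 2, hc, by positivity, fun a ha => ?_⟩
  have ha0 : (0 : ℝ) < a := by exact_mod_cast ha
  have h3 : ((a - 1 : ℕ) : ℝ) + 1 ≤ a := by
    have : a - 1 + 1 ≤ a := by omega
    exact_mod_cast this
  refine ⟨⟨ins_T1 ha, even_T1 a, d4_T1 a, abs_T1 a⟩,
    ⟨ins_cp (chq_xi ha0 (by simp)) 0, even_cp _, d4_cp (xi_rot a) (xi_swp a) 0,
      out_cp (fun _ hy => xi_in ha0 h3 hy) 0⟩,
    ⟨ins_cp (chq_A0 (sup_lin ha) (by omega)) 0, out_cp (fun _ hy => A0_lin ha hy) 0,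
      (sup_lin ha).mono (bl_mono _ (by omega)), (hl a ha).mono le_rfl Set.Subset.rfl
        (by nlinarith [sq_nonneg C2]) ha0, (E0_le ha (hl a ha)).trans (by linarith), gr_lin ha,
      fun n hn => lk_lin ha hn⟩, fun g g1 g2 => ⟨(hk a ha g g1 g2).1, (hk a ha g g1 g2).2.trans ?_⟩⟩
  gcongr
  nlinarith [sq_nonneg C2]

end Crest.Agent.T145.Ev
end

-- ▼ part T145/EvX2_81

/-! # Row 145, even sector: the covariances with a net charge (helper81) -/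

set_option autoImplicit false

namespace Crest.Agent.T145.Ev

open Finset Pot Xi Real Fl

namespace X81

variable {R b e ℓ ε φ : ℝ} {p : Par} {Λ : Lat} {ω : Sta} {L N n a : ℕ} {H : Cfg Pt → ℝ} {ξ ζ f : Pt → ℝ}
  {q q' : ℤ} {z : Pt}

/-- product of cosines -/
theorem half (h : Env p Λ ω L N) (hH : Ins 0 N H) (hξ : Chq (bl 0 N) ξ q) (hζ : Chq (bl 0 N) ζ q') :
    ω (fun s => cp ξ 0 s * (H s * cp ζ φ s)) =
      (ω (fun s => H s * cp (ζ + ξ) φ s) + ω fun s => H s * cp (ζ - ξ) φ s) / 2 := by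
  have a := hH.mul (ins_cp (hζ.add hξ) φ)
  have b := hH.mul (ins_cp (hζ.sub hξ) φ)
  rw [← h.ex_add a b, div_eq_inv_mul, ← h.ex_smul (a.add b).1]
  congr 1
  funext s
  have := cp_mul ζ ξ φ 0 s
  rw [add_zero, sub_zero] at this
  rw [mul_left_comm, mul_comm (cp ξ 0 s), this]
  ring

/-- charged expectations against `H` are small -/
def Sml (ω : Sta) (H : Cfg Pt → ℝ) (n : ℕ) (R b ε : ℝ) : Prop := ∀ (q : ℤ) (ζ : Pt → ℝ) (φ : ℝ), q ≠ 0 →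
  |q| ≤ 3 → F2 (nnL.edI (bl 0 n)) (ζ - (q : ℝ) • xi R) b → |ω fun s => H s * cp ζ φ s| ≤ ε

theorem chq_of (hR : 0 < R) (hN : 2 * R ≤ N) (hn : n ≤ N)
    (hf : F2 (nnL.edI (bl 0 n)) (ζ - (q : ℝ) • xi R) b) : Chq (bl 0 N) ζ q := by
  simpa using (chq hf hn).add ((chq_xi hR hN).zsmul q)

theorem prod (h : Env p Λ ω L N) (hR : 0 < R) (hN : 2 * R ≤ N) (hn : n ≤ N) (hH : Ins 0 N H)
    (hs : Sml ω H n R b ε) (hξ : F2 (nnL.edI (bl 0 n)) (ξ - (q : ℝ) • xi R) e)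
    (hζ : F2 (nnL.edI (bl 0 n)) (ζ - (q' : ℝ) • xi R) ℓ) (hb : 2 * (ℓ + e) ≤ b)
    (h1 : q' + q ≠ 0) (h2 : |q' + q| ≤ 3) (h3 : q' - q ≠ 0) (h4 : |q' - q| ≤ 3) :
    |ω fun s => cp ξ 0 s * (H s * cp ζ φ s)| ≤ ε := by
  rw [half h hH (chq_of hR hN hn hξ) (chq_of hR hN hn hζ)]
  have a := hs _ (ζ + ξ) φ h1 h2 (((hζ.add hξ).mono hb).congr (by push_cast; module))
  have b := hs _ (ζ - ξ) φ h3 h4 (((hζ.sub hξ).mono hb).congr (by push_cast; module))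
  rw [abs_le] at *
  constructor <;> linarith

theorem abs_cv {F G : Cfg Pt → ℝ} {x y u : ℝ} (h1 : |ω fun s => F s * G s| ≤ x) (h2 : |ω F| ≤ y)
    (h3 : |ω G| ≤ u) : |cv ω F G| ≤ x + y * u :=
  (abs_sub _ _).trans (add_le_add h1 ((abs_mul _ _).trans_le
    (mul_le_mul h2 h3 (abs_nonneg _) ((abs_nonneg _).trans h2))))

theorem trl_T1 (z : Pt) (a : ℕ) : trl z (T1 a) = fun s =>
    (cp (fun y => fd a 0 (y - z)) 0 s + cp (fun y => fd a 1 (y - z)) 0 s) / 2 := by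
  rw [← trl_cp, ← trl_cp]; rfl

theorem trl_T2 (z : Pt) (a : ℕ) : trl z (T2 a) = cp (fun y => xi a (y - z)) 0 := trl_cp _ _ _

theorem cvT1 (h : Env p Λ ω L N) (hR : 0 < R) (hN : 2 * R ≤ N) (hn : n ≤ N) (hH : Ins 0 N H)
    (hs : Sml ω H n R b ε) (hd : ∀ i, F2 (nnL.edI (bl 0 n)) (fun y => fd a i (y - z)) e)
    (hζ : F2 (nnL.edI (bl 0 n)) (ζ - (q : ℝ) • xi R) ℓ) (hb : 2 * (ℓ + e) ≤ b) (h1 : q ≠ 0) (h2 : |q| ≤ 3) :
    |cv ω (trl z (T1 a)) fun s => H s * cp ζ φ s| ≤ 2 * ε := by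
  have c := fun i => ins_cp (chq (hd i) hn) 0
  have g := hH.mul (ins_cp (chq_of hR hN hn hζ) φ)
  have k := fun i => prod (φ := φ) (q := 0) (ξ := fun y => fd a i (y - z)) h hR hN hn hH hs
    ((hd i).congr (by simp)) hζ hb (by simpa)
    (by simpa) (by simpa) (by simpa)
  rw [trl_T1, two_mul]
  refine (abs_cv (x := ε) (y := 1) ?_ (h.abs_ex_le (((c 0).add (c 1)).mul_const _).1 fun s => ?_)
    (hs q ζ φ h1 h2 (hζ.mono (by linarith [hζ.nonneg, (hd 0).nonneg])))).trans_eq (by ring)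
  · have e : (fun s => (cp (fun y => fd a 0 (y - z)) 0 s + cp (fun y => fd a 1 (y - z)) 0 s) * 2⁻¹ *
        (H s * cp ζ φ s)) = fun s => 2⁻¹ * (cp (fun y => fd a 0 (y - z)) 0 s * (H s * cp ζ φ s) +
          cp (fun y => fd a 1 (y - z)) 0 s * (H s * cp ζ φ s)) := funext fun s => by ring
    rw [e, h.ex_smul (((c 0).mul g).add ((c 1).mul g)).1, h.ex_add ((c 0).mul g) ((c 1).mul g)]
    have k0 := k 0
    have k1 := k 1
    rw [abs_le] at *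
    constructor <;> linarith
  · have k0 := abs_cp_le (fun y => fd a 0 (y - z)) 0 s
    have k1 := abs_cp_le (fun y => fd a 1 (y - z)) 0 s
    rw [abs_le] at *
    constructor <;> linarith

theorem eu_ev (a : ℕ) (i : Fin 2) : eu ((3 * a : ℤ) • ev i) = 3 * a := by
  fin_cases i <;> simp [eu, ev]

theorem log_two_le {M : ℝ} (hM : 2 ≤ M) : 1 ≤ 2 * log M := by
  linarith [log_two_gt_d9, log_le_log (by norm_num) hM]

/-- moving `ξ_R` to `ξ_a (· - z)` -/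
theorem move (hX : XfStmt) : ∃ C : ℝ, 0 ≤ C ∧ ∀ (R M : ℝ) (a n : ℕ), 1 ≤ R → 2 ≤ M → R / M ≤ a →
    (a : ℝ) ≤ M * R → 32 * (M * R) ≤ n →
    (∀ z, eu z ≤ 4 * (M * R) → F2 (nnL.edI (bl 0 n)) ((fun y => xi a (y - z)) - xi R) (C * log M)) ∧
    ∀ z, eu z ≤ M * R → ∀ i, F2 (nnL.edI (bl 0 n)) (fun y => fd a i (y - z)) (4 * (C * log M)) := by
  obtain ⟨C, C0, h, -⟩ := hX
  refine ⟨6 * C, by positivity, fun R M a n hR hM a1 a2 hn => ?_⟩
  have a0 : (1 : ℝ) ≤ a := by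
    have : (0 : ℝ) < a := (div_pos (by linarith) (by linarith)).trans_le a1
    exact_mod_cast (show 0 < a by exact_mod_cast this)
  rw [div_le_iff₀ (by linarith)] at a1
  have l1 := log_two_le hM
  have l2 : log (4 * M ^ 2) ≤ 4 * log M := by
    have : log (4 * M ^ 2) ≤ log (M ^ 4) := log_le_log (by positivity) (by
      nlinarith [mul_le_mul_of_nonneg_right (pow_le_pow_left₀ (by norm_num) hM 2) (sq_nonneg M)])
    rwa [log_pow] at this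
  have k : ∀ z, eu z ≤ 4 * (M * R) →
      F2 (nnL.edI (bl 0 n)) ((fun y => xi a (y - z)) - xi R) (6 * C * log M) := fun z hz =>
    (h (4 * M ^ 2) (4 * (M * R)) a R z n a0 hR (by nlinarith) (by nlinarith) hz (by nlinarith)
      (by nlinarith [mul_le_mul_of_nonneg_right hM (show 0 ≤ M * R by nlinarith)]) (by linarith)).mono
      (by nlinarith)
  refine ⟨k, fun z hz i => ?_⟩
  have e1 := (eu_add_le z ((3 * a : ℤ) • ev i)).trans_eq (by rw [eu_ev])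
  have e2 := (eu_add_le z (-((3 * a : ℤ) • ev i))).trans_eq (by rw [eu_neg, eu_ev])
  refine (((k _ (e1.trans (by linarith))).sub (k _ (e2.trans (by linarith)))).mono (by linarith)).congr ?_
  funext y
  simp only [fd, Pi.sub_apply, sub_add_eq_sub_sub, sub_neg_eq_add]
  ring

/-- the three clauses of CG -/
theorem sml {M : ℝ} {v v' : Pt → ℝ} (hv : Sv R M v) (hv' : Sv R M v')
    (h : ∀ (q : ℤ) (f v v' : Pt → ℝ) (φ : ℝ), q ≠ 0 → |q| ≤ 3 →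
      F2 (nnL.edI (bl 0 ⌊M * R⌋₊)) f (log M) → Sv R M v → Sv R M v' →
      |ω (cp ((q : ℝ) • xi R + f) φ)| ≤ ε ∧ |ω fun s => X v s * cp ((q : ℝ) • xi R + f) φ s| ≤ ε ∧
      |ω fun s => X v s * X v' s * cp ((q : ℝ) • xi R + f) φ s| ≤ ε) :
    Sml ω (fun _ => 1) ⌊M * R⌋₊ R (log M) ε ∧ Sml ω (X v) ⌊M * R⌋₊ R (log M) ε ∧
      Sml ω (fun s => X v s * X v' s) ⌊M * R⌋₊ R (log M) ε := by
  refine ⟨fun q ζ φ h1 h2 h3 => ?_, fun q ζ φ h1 h2 h3 => ?_, fun q ζ φ h1 h2 h3 => ?_⟩ <;>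
    have := h q _ v v' φ h1 h2 h3 hv hv' <;> rw [add_sub_cancel] at this
  exacts [by simpa only [one_mul] using this.1, this.2.1, this.2.2]

end X81

open X81 in
theorem x2Stmt (hC : CgStmt) (hX : XfStmt) : X2Stmt := by
  obtain ⟨C, C0, hX⟩ := move hX
  obtain ⟨K, hK⟩ := exists_nat_ge (8 * C + 6)
  have K6 : 6 ≤ K := by exact_mod_cast (show (6 : ℝ) ≤ K by linarith)
  refine Xp.lift hC fun p => ⟨K, 2 + 54 * |p.F.τ₂|, by linarith [abs_nonneg p.F.τ₂],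
    fun Λ ω L N h R M _ ε' _ ε hR hM _ l1 _ _ e0 e1 _ _ _ hf a z v v' a1 a2 a3 sv sv' => ?_⟩
  have τ0 := τ_pos h
  rw [abs_of_pos τ0] at l1 e1
  have M1 : 1 ≤ M := by linarith
  have R0 : 0 < R := by linarith
  obtain ⟨n1, n2⟩ := floor_lt (K := K + 1) hR hM (by omega)
  have mm : M ≤ M ^ (K + 1) := le_self_pow₀ M1 (by omega)
  have nN : ⌊M ^ (K + 1) * R⌋₊ ≤ N := Nat.floor_le_of_le (by
    have : (L : ℝ) ≤ N := by exact_mod_cast h.le
    nlinarith [mul_pos τ0 (show 0 < M ^ (K + 1) * R by positivity)])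
  have hN : 2 * R ≤ N := by
    have : (⌊M ^ (K + 1) * R⌋₊ : ℝ) ≤ N := by exact_mod_cast nN
    nlinarith
  obtain ⟨s1, s2, s3⟩ := sml (sv_mono sv R0 (by linarith) mm) (sv_mono sv' R0 (by linarith) mm) hf
  obtain ⟨d1, d2⟩ := hX R M a _ hR hM a1 a2 n1
  have d1 := (d1 z (by nlinarith)).congr
    (show (fun y => xi a (y - z)) - ((1 : ℤ) : ℝ) • xi R = _ by simp)
  have d2 := d2 z a3
  have l0 : 0 ≤ log M := log_nonneg M1
  have lb : 2 * (log M + 4 * (C * log M)) ≤ log (M ^ (K + 1)) := by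
    rw [log_pow]; push_cast; nlinarith
  have lb' : 2 * (log M + C * log M) ≤ log (M ^ (K + 1)) := by nlinarith
  have m6 : M ^ 6 ≤ M ^ K := pow_le_pow_right₀ M1 K6
  have m0 : 1 ≤ M ^ 6 := one_le_pow₀ M1
  have e2 : 2 * ε' ≤ ε := by
    nlinarith [mul_nonneg τ0.le (mul_nonneg (show 0 ≤ M ^ K by positivity) e0),
      mul_le_mul_of_nonneg_right (m0.trans m6) e0]
  have t2 : |ω (cp (fun y => xi a (y - z)) 0)| ≤ ε' := by
    simpa only [one_mul] using s1 1 _ 0 one_ne_zero (by norm_num) (d1.mono (by nlinarith))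
  have i1 := Ins.const 0 N 1
  have T : ∀ (q : ℤ) (ζ : Pt → ℝ) (φ : ℝ), q = 0 ∨ q = 2 →
      F2 (nnL.edI (bl 0 ⌊M ^ (K + 1) * R⌋₊)) (ζ - (q : ℝ) • xi R) (log M) →
      |cv ω (trl z (T2 a)) (cp ζ φ)| ≤ ε := fun q ζ φ hq hζ => by
    rw [trl_T2]
    refine (abs_cv (x := ε') ?_ t2 (h.ex_cp_le_one (chq_of R0 hN nN hζ) φ)).trans (by linarith)
    simpa only [one_mul] using prod (φ := φ) h R0 hN nN i1 s1 d1 hζ lb' (by omega)
      (by rcases hq with rfl | rfl <;> norm_num) (by omega) (by rcases hq with rfl | rfl <;> norm_num)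
  refine ⟨fun hE => T 0 _ 0 (Or.inl rfl) ((f2_up (B80.f2_A0 sv.1) n2 hE).congr (by simp)), ?_,
    fun f φ hf => ?_⟩
  · rw [trl_T2]
    refine (abs_cv (x := ε') ?_ t2 (XX_le h sv sv' hR M1 (n2.trans nN))).trans ?_
    · simpa only [mul_comm] using s3 1 _ 0 one_ne_zero (by norm_num) (d1.mono (by nlinarith))
    · nlinarith [mul_le_mul_of_nonneg_right (m0.trans m6) e0,
        mul_le_mul_of_nonneg_left (mul_le_mul_of_nonneg_right m6 e0) τ0.le]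
  have hf := f2_up hf (show _ ≤ ⌊M ^ (K + 1) * R⌋₊ by omega) le_rfl
  have f1 := hf.congr (show xi R + f - ((1 : ℤ) : ℝ) • xi R = f by simp)
  have f2 := hf.congr (show (2 : ℝ) • xi R + f - ((2 : ℤ) : ℝ) • xi R = f by simp)
  refine ⟨?_, (cvT1 h R0 hN nN (ins_X sv (n2.trans nN)) s2 d2 f1 lb one_ne_zero (by norm_num)).trans e2,
    ?_, T 2 _ φ (Or.inr rfl) f2⟩
  · simpa only [one_mul] using (cvT1 (φ := φ) h R0 hN nN i1 s1 d2 f1 lb one_ne_zero (by norm_num)).trans e2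
  · simpa only [one_mul] using (cvT1 (φ := φ) h R0 hN nN i1 s1 d2 f2 lb two_ne_zero (by norm_num)).trans e2

end Crest.Agent.T145.Ev
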