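import Crest.Agent.T145.KrDef_77
import Crest.Agent.T145.NcGeo_51

/-!
# Row 145, module KERNEL: geometry of the condenser (helper87, task ALG-GEO)

The geometric fields of `Gm.Alg` (`r_le` .. `cells`, `map_an`, `sym`), the group `gp`, its action `ga`,
membership and inclusion lemmas for `In`, `A`, `Ou`, `Om`, `Ga`, `mid` and their edges.
-/

set_option autoImplicit false

namespace Crest.Agent.T145.Kr.Geo87

open Finset Nc

/-! ## The group of the square -/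

/-- the index set -/
abbrev D8 : Type := Fin 4 × Fin 2

@[simp] theorem rot_apply (x : Pt) : rotZ 0 x = (-x.2, x.1) := by ext <;> simp [rotZ]
@[simp] theorem swp_apply (x : Pt) : swpZ 0 x = (x.2, x.1) := by ext <;> simp [swpZ]

/-- the matrix of `gp k` -/
def mt (k : D8) : ℤ × ℤ × ℤ × ℤ :=
  ![![(1, 0, 0, 1), (0, 1, 1, 0)], ![(0, -1, 1, 0), (-1, 0, 0, 1)], ![(-1, 0, 0, -1), (0, -1, -1, 0)],
    ![(0, 1, -1, 0), (1, 0, 0, -1)]] k.1 k.2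

theorem gp_apply (k : D8) (x : Pt) :
    gp k x = ((mt k).1 * x.1 + (mt k).2.1 * x.2, (mt k).2.2.1 * x.1 + (mt k).2.2.2 * x.2) := by
  obtain ⟨a, b⟩ := k
  fin_cases a <;> fin_cases b <;> simp [gp, mt, pow_succ, Equiv.Perm.mul_apply]

theorem gp_one : gp (0, 0) = 1 := by simp [gp]

/-- the eight formulas -/
theorem gp_cases (k : D8) : (∀ x, gp k x = (x.1, x.2)) ∨ (∀ x, gp k x = (x.2, x.1)) ∨
    (∀ x, gp k x = (-x.2, x.1)) ∨ (∀ x, gp k x = (-x.1, x.2)) ∨ (∀ x, gp k x = (-x.1, -x.2)) ∨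
    (∀ x, gp k x = (-x.2, -x.1)) ∨ (∀ x, gp k x = (x.2, -x.1)) ∨ ∀ x, gp k x = (x.1, -x.2) := by
  obtain ⟨a, b⟩ := k
  fin_cases a <;> fin_cases b <;> simp [gp_apply, mt]

/-- induction over the group -/
theorem gp_ind {P : Equiv.Perm Pt → Prop} (h1 : P 1) (hr : P (rotZ 0)) (hs : P (swpZ 0))
    (hm : ∀ φ ψ, P φ → P ψ → P (φ * ψ)) (k : D8) : P (gp k) := by
  have hp : ∀ φ, P φ → ∀ n : ℕ, P (φ ^ n) := fun φ h n => by
    induction n with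
    | zero => simpa using h1
    | succ n ih => rw [pow_succ]; exact hm _ _ ih h
  exact hm _ _ (hp _ hr _) (hp _ hs _)

/-- product and inverse of indices -/
def gm (k k' : D8) : D8 := (if k.2 = 0 then k.1 + k'.1 else k.1 - k'.1, k.2 + k'.2)
def gi (k : D8) : D8 := (if k.2 = 0 then -k.1 else k.1, k.2)

theorem mt_gm : ∀ k k' : D8, mt (gm k k') =
    ((mt k).1 * (mt k').1 + (mt k).2.1 * (mt k').2.2.1, (mt k).1 * (mt k').2.1 + (mt k).2.1 * (mt k').2.2.2,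
      (mt k).2.2.1 * (mt k').1 + (mt k).2.2.2 * (mt k').2.2.1,
      (mt k).2.2.1 * (mt k').2.1 + (mt k).2.2.2 * (mt k').2.2.2) := by decide

theorem gp_gm (k k' : D8) : gp (gm k k') = gp k * gp k' := by
  ext x <;> simp only [Equiv.Perm.mul_apply, gp_apply, mt_gm] <;> ring

theorem gi_gm : ∀ k : D8, gm (gi k) k = (0, 0) := by decide

theorem gp_gi (k : D8) : gp (gi k) = (gp k)⁻¹ :=
  eq_inv_of_mul_eq_one_left (by rw [← gp_gm, gi_gm, gp_one])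

theorem gp_symm (k : D8) : (gp k).symm = gp (gi k) := (gp_gi k).symm



theorem gp_sub (k : D8) (x y : Pt) : gp k (x - y) = gp k x - gp k y := by
  simp only [gp_apply]; ext <;> simp <;> ring

theorem gp_mem_bl (k : D8) {x : Pt} {R : ℕ} : gp k x ∈ bl 0 R ↔ x ∈ bl 0 R := by
  rcases gp_cases k with h | h | h | h | h | h | h | h <;>
    simp only [h, mem_bl, Prod.fst_zero, Prod.snd_zero] <;> omega


theorem gp_mem_an (k : D8) {x : Pt} {c R : ℕ} : gp k x ∈ an 0 c R ↔ x ∈ an 0 c R := by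
  rw [Geo.mem_an, Geo.mem_an, gp_mem_bl, gp_mem_bl]



/-- a set invariant under the group -/
def Iv (U : Finset Pt) : Prop := ∀ k x, gp k x ∈ U ↔ x ∈ U

theorem iv_bl (R : ℕ) : Iv (bl 0 R) := fun k _ => gp_mem_bl k
theorem iv_an (c R : ℕ) : Iv (an 0 c R) := fun k _ => gp_mem_an k

theorem Iv.map {U : Finset Pt} (h : Iv U) (k : D8) : U.map (gp k).toEmbedding = U := by
  ext x; rw [mem_map_equiv, gp_symm, h]

theorem Iv.sum {U : Finset Pt} (h : Iv U) (k : D8) (f : Pt → ℝ) : ∑ x ∈ U, f (gp k x) = ∑ x ∈ U, f x := by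
  conv_rhs => rw [← h.map k, sum_map]
  rfl

/-- field `map_an` -/
theorem map_an (k : D8) (c R : ℕ) : (an 0 c R).map (gp k).toEmbedding = an 0 c R ∧
    (bl 0 R).map (gp k).toEmbedding = bl 0 R := ⟨(iv_an c R).map k, (iv_bl R).map k⟩

theorem gp_mem_J {Λ : Lat} (hΛ : Λ.Ok) (k : D8) {y : Pt} : gp k y ∈ Λ.J ↔ y ∈ Λ.J := by
  have key : ∀ (k : D8) (y : Pt), y ∈ Λ.J → gp k y ∈ Λ.J := fun k =>
    gp_ind (P := fun φ => ∀ y ∈ Λ.J, φ y ∈ Λ.J) (fun _ h => h)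
      (fun _ h => by rw [rot_apply]; exact hΛ.rot h) (fun _ h => by rw [swp_apply]; exact hΛ.swap h)
      (fun _ _ h h' y hy => h _ (h' y hy)) k
  refine ⟨fun h => ?_, key k y⟩
  have := key (gi k) _ h
  rwa [← gp_symm, Equiv.symm_apply_apply] at this

/-- field `sym` -/
theorem sym (k : D8) (Λ : Lat) (hΛ : Λ.Ok) : Λ.Sym (gp k) := fun x y => by
  rw [← gp_sub, gp_mem_J hΛ]



/-! ## The action on configurations -/





















/-! ## Scales -/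

variable {G : Gm} {W : ℝ}

theorem rho_pos (G : Gm) : 0 < G.rho := Nat.two_pow_pos _

theorem r_R (h : G.Ok W) : 1024 * G.r ≤ G.R := by
  have h1 : (1024 : ℝ) * G.r ≤ W * G.r := mul_le_mul_of_nonneg_right h.hW (Nat.cast_nonneg _)
  exact_mod_cast h1.trans h.lo

/-- field `rho_le` -/
theorem rho_le (h : G.Ok W) : 32 * G.rho ≤ G.R := by
  have h1 := r_R h
  have h2 := h.hr
  have : G.rho ≤ G.R / 32 := Nat.pow_log_le_self 2 (by omega)
  omega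

theorem lt_rho (G : Gm) : G.R < 64 * G.rho := by
  have : G.R / 32 < 2 ^ (G.p + 1) := Nat.lt_pow_succ_log_self one_lt_two _
  rw [pow_succ] at this
  unfold Gm.rho
  omega

/-- field `le_rho` -/
theorem le_rho (G : Gm) : G.R ≤ 64 * G.rho := (lt_rho G).le

/-- field `r_le` -/
theorem r_le (h : G.Ok W) : 16 * G.r ≤ G.rho := by
  have := r_R h
  have := lt_rho G
  omega



/-- all the inequalities between the scales, for `omega` -/
theorem scales (h : G.Ok W) : 2 * G.c ≤ G.r ∧ 64 ≤ G.r ∧ 16 * G.r ≤ G.rho ∧ 32 * G.rho ≤ G.R ∧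
    G.R < 64 * G.rho ∧ 1024 * G.r ≤ G.R ∧ 2 * G.R ≤ G.R₂ :=
  ⟨h.hc, h.hr, r_le h, rho_le h, lt_rho G, r_R h, h.out⟩

theorem rho_eq {q : ℕ} (hq : q ≤ G.p) : G.rho = 2 ^ q * 2 ^ (G.p - q) := by
  rw [← pow_add, Nat.add_sub_cancel' hq]; rfl





/-! ## The ring -/

theorem mem_Ga {x : Pt} : x ∈ G.Ga ↔
    (-(2 * G.rho : ℤ) ≤ x.1 ∧ x.1 < 2 * G.rho ∧ -(2 * G.rho : ℤ) ≤ x.2 ∧ x.2 < 2 * G.rho) ∧
      ¬ (-(G.rho : ℤ) ≤ x.1 ∧ x.1 < G.rho ∧ -(G.rho : ℤ) ≤ x.2 ∧ x.2 < G.rho) := by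
  simp only [Gm.Ga, mem_sdiff, mem_sq]; push_cast; omega

/-- field `Ga_sub` -/
theorem Ga_sub (G : Gm) : G.Ga ⊆ an 0 (G.rho - 1) (2 * G.rho) := fun x hx => by
  have := rho_pos G
  rw [mem_Ga] at hx
  simp only [Geo.mem_an, mem_bl, Prod.fst_zero, Prod.snd_zero]; omega

/-- field `sub_Ga` -/
theorem sub_Ga (G : Gm) : an 0 G.rho (2 * G.rho - 1) ⊆ G.Ga := fun x hx => by
  have := rho_pos G
  rw [mem_Ga]
  simp only [Geo.mem_an, mem_bl, Prod.fst_zero, Prod.snd_zero] at hx; omega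

/-- field `card_Ga` -/
theorem card_Ga (G : Gm) : G.Ga.card = 12 * G.rho ^ 2 := by
  rw [Gm.Ga, card_sdiff_of_subset (sq_subset_sq (by simp only; omega) (by simp only; omega)
    (by simp only; push_cast; omega) (by simp only; push_cast; omega)), card_sq, card_sq]
  have : (4 * G.rho) ^ 2 = 12 * G.rho ^ 2 + (2 * G.rho) ^ 2 := by ring
  omega


/-- the corner of the cell of side `2 ^ q` that contains `x` -/
def cn (q : ℕ) (x : Pt) : Pt := tile 0 (2 ^ q) (tileOf 0 (2 ^ q) x)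

theorem mem_cn (q : ℕ) (x : Pt) : x ∈ sq (cn q x) (2 ^ q) := (mem_tile_iff (Nat.two_pow_pos q)).2 rfl

theorem mem_cor {q : ℕ} {i : Pt} : i ∈ G.cor q ↔ i ∈ G.Ga ∧ (2 ^ q : ℤ) ∣ i.1 ∧ (2 ^ q : ℤ) ∣ i.2 :=
  mem_filter

theorem cn_dvd (q : ℕ) (x : Pt) : (2 ^ q : ℤ) ∣ (cn q x).1 ∧ (2 ^ q : ℤ) ∣ (cn q x).2 := by
  simp [cn, tile]

theorem cn_eq {q : ℕ} {i x : Pt} (h1 : (2 ^ q : ℤ) ∣ i.1) (h2 : (2 ^ q : ℤ) ∣ i.2)
    (hx : x ∈ sq i (2 ^ q)) : cn q x = i := by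
  obtain ⟨a, ha⟩ := h1
  obtain ⟨b, hb⟩ := h2
  have e : i = tile 0 (2 ^ q) (a, b) := by ext <;> simp [tile, ha, hb]
  rw [e] at hx ⊢
  rw [cn, (mem_tile_iff (Nat.two_pow_pos q)).1 hx]

theorem cn_mem_Ga {q : ℕ} (hq : q ≤ G.p) {x : Pt} : cn q x ∈ G.Ga ↔ x ∈ G.Ga := by
  have h0 : (0 : ℤ) < 2 ^ q := by positivity
  have e : (G.rho : ℤ) = 2 ^ q * 2 ^ (G.p - q) := by exact_mod_cast rho_eq hq
  generalize (2 : ℤ) ^ (G.p - q) = m at e
  have lo : ∀ u c : ℤ, 2 ^ q * c ≤ 2 ^ q * (u / 2 ^ q) ↔ 2 ^ q * c ≤ u := fun u c => by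
    rw [mul_le_mul_iff_right₀ h0, Int.le_ediv_iff_mul_le h0, mul_comm]
  have hi : ∀ u c : ℤ, 2 ^ q * (u / 2 ^ q) < 2 ^ q * c ↔ u < 2 ^ q * c := fun u c => by
    rw [← not_le, lo, not_le]
  have e1 : -(2 * (2 ^ q * m)) = 2 ^ q * (-(2 * m)) := by ring
  have e2 : 2 * (2 ^ q * m) = 2 ^ q * (2 * m) := by ring
  have e3 : -(2 ^ q * m) = 2 ^ q * (-m) := by ring
  rw [mem_Ga, mem_Ga, e, e1, e2, e3]
  simp only [cn, tile, tileOf, Prod.fst_zero, Prod.snd_zero, zero_add, sub_zero, Nat.cast_pow,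
    Nat.cast_ofNat, lo, hi]

theorem cn_mem_cor {q : ℕ} (hq : q ≤ G.p) {x : Pt} : cn q x ∈ G.cor q ↔ x ∈ G.Ga := by
  rw [mem_cor, cn_mem_Ga hq]; exact and_iff_left (cn_dvd q x)

theorem cel_subset {q : ℕ} (hq : q ≤ G.p) {i : Pt} (hi : i ∈ G.cor q) : sq i (2 ^ q) ⊆ G.Ga :=
  fun x hx => by
    obtain ⟨-, h1, h2⟩ := mem_cor.1 hi
    rwa [← cn_mem_cor hq, cn_eq h1 h2 hx]

theorem cel_union {q : ℕ} (hq : q ≤ G.p) : (G.cor q).biUnion (fun i => sq i (2 ^ q)) = G.Ga := by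
  ext x
  rw [mem_biUnion]
  exact ⟨fun ⟨i, hi, hx⟩ => cel_subset hq hi hx, fun hx => ⟨_, (cn_mem_cor hq).2 hx, mem_cn q x⟩⟩

theorem cel_disjoint (G : Gm) (q : ℕ) : (G.cor q : Set Pt).PairwiseDisjoint fun i => sq i (2 ^ q) :=
  fun _ hi _ hj hij => disjoint_left.2 fun _ hx hx' => hij <|
    (cn_eq (mem_cor.1 hi).2.1 (mem_cor.1 hi).2.2 hx).symm.trans
      (cn_eq (mem_cor.1 hj).2.1 (mem_cor.1 hj).2.2 hx')

theorem card_cor {q : ℕ} (hq : q ≤ G.p) : (G.cor q).card = 12 * 4 ^ (G.p - q) := by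
  have h1 := card_Ga G
  rw [← cel_union hq, card_biUnion (cel_disjoint G q), rho_eq hq] at h1
  simp only [card_sq, sum_const, smul_eq_mul] at h1
  have h2 : (4 : ℕ) ^ (G.p - q) = (2 ^ (G.p - q)) ^ 2 := by rw [← pow_mul, mul_comm, pow_mul]; norm_num
  refine Nat.eq_of_mul_eq_mul_right (m := (2 ^ q) ^ 2) (by positivity) ?_
  rw [h1, h2]; ring

/-- field `cells` -/
theorem cells (G : Gm) : ∀ q ≤ G.p, (G.cor q).biUnion (fun i => sq i (2 ^ q)) = G.Ga ∧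
    ((G.cor q : Set Pt).PairwiseDisjoint fun i => sq i (2 ^ q)) ∧
      (G.cor q).card = 12 * 4 ^ (G.p - q) :=
  fun q hq => ⟨cel_union hq, cel_disjoint G q, card_cor hq⟩








/-! ## The pieces of the annulus -/

theorem mem_an0 {x : Pt} {r R : ℕ} : x ∈ an 0 r R ↔
    (-(R : ℤ) ≤ x.1 ∧ x.1 ≤ R ∧ -(R : ℤ) ≤ x.2 ∧ x.2 ≤ R) ∧
      ¬ (-(r : ℤ) ≤ x.1 ∧ x.1 ≤ r ∧ -(r : ℤ) ≤ x.2 ∧ x.2 ≤ r) := by
  simp only [Geo.mem_an, mem_bl, Prod.fst_zero, Prod.snd_zero]; omega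










theorem Ga_sub_mid (G : Gm) : G.Ga ⊆ G.mid :=
  (Ga_sub G).trans (Geo.an_mono 0 (by have := rho_pos G; omega) (by omega))
theorem mid_sub_A (h : G.Ok W) : G.mid ⊆ G.A :=
  Geo.an_mono 0 (by have := scales h; omega) (by have := scales h; omega)
theorem Ga_sub_A (h : G.Ok W) : G.Ga ⊆ G.A := (Ga_sub_mid G).trans (mid_sub_A h)

theorem card_mid (G : Gm) : G.mid.card ≤ 81 * G.rho ^ 2 := by
  have := rho_pos G
  refine (card_le_card (Geo.an_subset_bl _ _ _)).trans ?_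
  rw [card_bl]
  calc (2 * (4 * G.rho) + 1) ^ 2 ≤ (9 * G.rho) ^ 2 := Nat.pow_le_pow_left (by omega) 2
    _ = _ := by ring



/-! ## Data -/











/-! ## Edges -/

theorem mem_nJp {d : Pt} : d ∈ Pot.nL.Jp ↔ d = (1, 0) ∨ d = (0, 1) := by
  rw [Pot.nL_Jp, mem_insert, mem_singleton]

theorem nJp_iff {e : Pt × Pt} : e.2 - e.1 ∈ Pot.nL.Jp ↔
    (e.2.1 = e.1.1 + 1 ∧ e.2.2 = e.1.2) ∨ (e.2.1 = e.1.1 ∧ e.2.2 = e.1.2 + 1) := by
  simp only [mem_nJp, Prod.ext_iff, Prod.fst_sub, Prod.snd_sub]; omega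



theorem edT_an {Λ : Lat} (z : Pt) {r R r' R' : ℕ} (h : r' + Λ.rg ≤ r) (h' : R + Λ.rg ≤ R') :
    Λ.edT (an z r R) ⊆ Λ.edI (an z r' R') :=
  Lat.edT_subset_edI fun x hx y hy => by
    simp only [Geo.mem_an, mem_bl] at *; omega



theorem nL_edT_A (h : G.Ok W) : Pot.nL.edT G.A ⊆ Pot.nL.edI G.Om :=
  edT_an 0 (by have := scales h; rw [Pot.nL_rg]; omega) (by have := scales h; rw [Pot.nL_rg]; omega)













end Crest.Agent.T145.Kr.Geo87
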