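import Crest.Agent.T145.KrDef_77

/-!
# Row 145, module KERNEL (helper44): `SwStmt`, `QpStmt`
-/

set_option autoImplicit false

namespace Crest.Agent.T145.Kr

open Finset Real Pot

namespace Sw44

theorem coD (D : Finset Pt) : Co D (eD nL D) := co_eD nL_ok D

theorem xg_eq (D : Finset Pt) (f : Pt → ℝ) (x : Pt) : xg D f x = ∑ e ∈ nL.edT D,
    (gr D (eD nL D) f e.2 - gr D (eD nL D) f e.1) * (dl x e.2 - dl x e.1) := edF_apply _ _ _

theorem xg_zero {D : Finset Pt} (f : Pt → ℝ) {x : Pt} (h : ∀ e ∈ nL.edT D, e.1 ≠ x ∧ e.2 ≠ x) :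
    xg D f x = 0 := by
  rw [xg_eq]
  exact sum_eq_zero fun e he => by
    rw [show dl x e.1 = 0 from Pi.single_eq_of_ne (h e he).1 _,
      show dl x e.2 = 0 from Pi.single_eq_of_ne (h e he).2 _, sub_self, mul_zero]

theorem xg_mem {D : Finset Pt} (f : Pt → ℝ) {x : Pt} (hx : x ∈ D) : xg D f x = f x :=
  (coD D).op_gr f hx

theorem sw_mem {D : Finset Pt} (f : Pt → ℝ) {x : Pt} (hx : x ∈ D) : sw D f x = 0 := by
  rw [sw, Pi.sub_apply, xg_mem f hx, sub_self]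

theorem xg_sup {D U : Finset Pt} (h : nL.edT D ⊆ nL.edI U) (f : Pt → ℝ) : Pot.Sup U (xg D f) :=
  fun _ hx => xg_zero f fun _ he =>
    ⟨fun h1 => hx (h1 ▸ (Lat.mem_edI.1 (h he)).2.1), fun h1 => hx (h1 ▸ (Lat.mem_edI.1 (h he)).2.2)⟩

theorem xg_sum {D U : Finset Pt} (h : nL.edT D ⊆ nL.edI U) (f : Pt → ℝ) :
    ∑ x ∈ U, xg D f x = 0 := by
  have h1 := ip_op U (eD nL D) (gr D (eD nL D) f) (sup_on U 1)
  rw [eD, edF_apply, sum_eq_zero fun e he => by
    rw [on_of_mem (Lat.mem_edI.1 (h he)).2.1, on_of_mem (Lat.mem_edI.1 (h he)).2.2]; simp] at h1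
  rw [← h1]
  exact sum_congr rfl fun x hx => by rw [on_of_mem hx, Pi.one_apply, mul_one]; rfl

theorem xg_f2 (D : Finset Pt) (f : Pt → ℝ) : F2 (nL.edT D) (xg D f) (GD nL D f f) :=
  ⟨_, op_edF_eq _ _, (Co.current (coD D) f).2.le⟩

theorem pr_op (B : Bf Pt) (u : Pt → ℝ) (s : Cfg Pt) : pr (op B u) s = B u (cu s) := by
  rw [pr_eq_sum]
  exact ip_op s.support B u (v := cu s) fun x hx => by
    simp [cu, Finsupp.notMem_support_iff.1 hx]

theorem pr_xg (D : Finset Pt) (f : Pt → ℝ) (s : Cfg Pt) :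
    pr (xg D f) s = eD nL D (gr D (eD nL D) f) (cu s) := pr_op _ _ _

theorem xg_add (D : Finset Pt) (f f' : Pt → ℝ) : xg D (f + f') = xg D f + xg D f' := by
  rw [xg, (coD D).gr_add, op_add]; rfl

theorem xg_sub (D : Finset Pt) (f f' : Pt → ℝ) : xg D (f - f') = xg D f - xg D f' := by
  rw [xg, (coD D).gr_sub, op_sub]; rfl

theorem xg_smul (D : Finset Pt) (c : ℝ) (f : Pt → ℝ) : xg D (c • f) = c • xg D f := by
  rw [xg, (coD D).gr_smul, op_smul]; rfl



theorem sw_smul (D : Finset Pt) (c : ℝ) (f : Pt → ℝ) : sw D (c • f) = c • sw D f := by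
  simp only [sw, xg_smul, smul_sub]

theorem op_of_sup {Λ : Lat} (h : Λ.Ok) {D D' : Finset Pt} (hD : D ⊆ D') {u : Pt → ℝ}
    (hu : Pot.Sup D u) : op (eD Λ D) u = op (eD Λ D') u := by
  funext x
  rw [op, op, (sy_eD D).symm, (sy_eD D').symm, eD_of_sup h hD _ hu]

theorem xg_eq' {D D' : Finset Pt} (hD : D ⊆ D') (f : Pt → ℝ) :
    xg D f = op (eD nL D') (gr D (eD nL D) f) := op_of_sup nL_ok hD ((coD D).gr_sup f)

theorem xg_xg {D D' : Finset Pt} (hD : D ⊆ D') (f : Pt → ℝ) : xg D' (xg D f) = xg D f := by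
  rw [xg_eq' hD, xg, (coD D').gr_op (((coD D).gr_sup f).mono hD)]

theorem GD_split {D D' : Finset Pt} (hD : D ⊆ D') (f : Pt → ℝ) :
    GD nL D' f f = GD nL D f f + GD nL D' (sw D f) (sw D f) := by
  have hu := (coD D).gr_sup f
  have h1 : G D' (eD nL D') (xg D f) (xg D f) = GD nL D f f := by
    rw [xg_eq' hD, (coD D').G_op_op (hu.mono hD), eD_of_sup nL_ok hD _ hu, GD, (coD D).G_eq]
  have h2 : G D' (eD nL D') (sw D f) (xg D f) = 0 := by
    rw [xg_eq' hD, (coD D').G_op _ (hu.mono hD), ip_of_sup hD _ hu]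
    exact sum_eq_zero fun x hx => by rw [sw_mem f hx, zero_mul]
  have h3 := (coD D').sy_GF.sq_add (sw D f) (xg D f)
  rw [show sw D f + xg D f = f from sub_add_cancel _ _] at h3
  simp only [Co.GF_apply] at h3
  rw [h1, h2] at h3
  simp only [GD] at h3 ⊢
  linarith

section sym
variable {Λ : Lat} {φ : Pt ≃ Pt}

theorem eD_map (hΛ : Λ.Ok) (h : Λ.Sym φ) (D : Finset Pt) (u v : Pt → ℝ) :
    eD Λ (D.map φ.toEmbedding) u v = eD Λ D (u ∘ φ) (v ∘ φ) := by
  rw [eD, eD, edF_apply, edF_apply, h.edT_map hΛ, sum_map]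
  refine sum_congr rfl fun e _ => ?_
  rcases ori_cases φ e with h1 | h1 <;> simp only [Equiv.coe_toEmbedding, h1, Function.comp]
  ring


theorem ip_map (φ : Pt ≃ Pt) (D : Finset Pt) (u v : Pt → ℝ) :
    Pot.ip (D.map φ.toEmbedding) u v = Pot.ip D (u ∘ φ) (v ∘ φ) := by
  rw [Pot.ip, sum_map]; rfl

theorem gr_map (hΛ : Λ.Ok) (h : Λ.Sym φ) (D : Finset Pt) (f : Pt → ℝ) :
    gr (D.map φ.toEmbedding) (eD Λ (D.map φ.toEmbedding)) f ∘ φ = gr D (eD Λ D) (f ∘ φ) := by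
  have hc := co_eD hΛ (D.map φ.toEmbedding)
  refine ((co_eD hΛ D).gr_unique (fun x hx => hc.gr_sup f _ (by simpa using hx)) fun v hv => ?_).symm
  have e : v = (v ∘ φ.symm) ∘ φ := by funext x; simp
  have h1 := hc.gr_spec f (v := v ∘ φ.symm) fun x hx => hv _ (by rwa [mem_map_equiv] at hx)
  rwa [eD_map hΛ h, ip_map, ← e] at h1

theorem op_map (hΛ : Λ.Ok) (h : Λ.Sym φ) (D : Finset Pt) (u : Pt → ℝ) :
    op (eD Λ (D.map φ.toEmbedding)) u ∘ φ = op (eD Λ D) (u ∘ φ) := by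
  funext x
  have e : dl (φ x) ∘ φ = dl x := by funext y; simp [Pi.single_apply]
  simp only [Function.comp_apply, op]
  rw [eD_map hΛ h, e]

theorem GD_map (hΛ : Λ.Ok) (h : Λ.Sym φ) (D : Finset Pt) (f g : Pt → ℝ) :
    GD Λ (D.map φ.toEmbedding) f g = GD Λ D (f ∘ φ) (g ∘ φ) := by
  rw [GD, GD, G, G, ip_map, gr_map hΛ h]

theorem xg_map (h : nL.Sym φ) (D : Finset Pt) (f : Pt → ℝ) :
    xg (D.map φ.toEmbedding) f ∘ φ = xg D (f ∘ φ) := by
  rw [xg, xg, op_map nL_ok h, gr_map nL_ok h]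


end sym

theorem pr_out {D : Finset Pt} {g : Pt → ℝ} (hg : ∀ x ∈ D, g x = 0) : Out D fun s => pr g s := by
  intro s t h
  rw [← sub_eq_zero, ← map_sub, pr_eq_sum]
  refine sum_eq_zero fun x _ => ?_
  by_cases hx : x ∈ D
  · rw [hg x hx, zero_mul]
  · simp [h x hx]

theorem nL_edT {Λ : Lat} (h : Λ.Ok) {D U : Finset Pt} (hU : Λ.edT D ⊆ Λ.edI U) :
    nL.edT D ⊆ nL.edI U := fun e he => by
  rw [Lat.mem_edT] at he
  exact Lat.mem_edI.2 ⟨he.1, (Lat.mem_edI.1 (hU (Lat.mem_edT.2 ⟨nn_subset h he.1, he.2⟩))).2⟩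

theorem depG_xg {D U : Finset Pt} (h : nL.edT D ⊆ nL.edI U) (f : Pt → ℝ) :
    DepG U fun s => pr (xg D f) s := DepG.pr (xg_sup h f) (xg_sum h f)

theorem depG_D {Λ : Lat} (h : Λ.Ok) {D U : Finset Pt} (hU : Λ.edT D ⊆ Λ.edI U) {F : Cfg Pt → ℝ}
    (hF : DepG U F) : DepG (U \ D) fun s => Ex ((Λ.D D).W s) F := by
  refine (Mdl.cE_depG (m := Λ.D D) (B := D) (fun _ _ k => (h.fam.pos k).ne') (fun _ _ _ _ => rfl)
    hF).mono (union_subset (fun x hx => ?_) Subset.rfl)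
  obtain ⟨h1, e, he, h2⟩ := Mdl.mem_bd.1 hx
  have h3 := (Lat.mem_edI.1 (hU he)).2
  exact mem_sdiff.2 ⟨h2.elim (fun h => h.1 ▸ h3.1) fun h => h.1 ▸ h3.2, h1⟩

end Sw44

open Sw44

theorem swStmt : SwStmt := by
  intro D f
  refine ⟨fun x hx => ⟨xg_mem f hx, sw_mem f hx⟩, fun x hx h => xg_zero f fun e he => ?_,
    fun U hU _ => ⟨xg_sup hU f, xg_sum hU f, xg_f2 D f⟩, fun hf s => ?_,
    fun f' c => ⟨xg_add D f f', xg_smul D c f⟩, fun D' hD => ⟨?_, fun _ => GD_split hD f⟩,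
    fun φ h => ⟨xg_map h D f, GD_map nL_ok h D f f⟩⟩
  · rw [Lat.mem_edT] at he
    have hJ := (Lat.mem_Jp.1 he.1).1
    constructor <;> rintro rfl
    · exact h _ hJ (by simpa using he.2.resolve_left hx)
    · exact h _ (nL_ok.neg hJ) (by simpa using he.2.resolve_right hx)
  · rw [ip_eq, (coD D).ip_hx, sw, pr_sub, AddMonoidHom.sub_apply, pr_xg, pr_of_fsupp f s hf]
    rfl
  · rw [sw, sw, xg_sub, xg_xg hD, sw]; abel

theorem qpStmt : QpStmt := by
  intro Λ D f a h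
  refine ⟨fun θ s hθ => ?_, fun s => ⟨add_nonneg (abs_nonneg _) (abs_nonneg _), ?_⟩, fun U hU => ?_⟩
  · have hW := h.wt_D D s
    set c := pr (sw D f) s + θ s with hc
    have e : Ex ((Λ.D D).W s) (fun t => cos (pr f t + θ t)) =
        Ex ((Λ.D D).W s) (fun t => cos (pr (xg D f) t)) * cos c -
          Ex ((Λ.D D).W s) (fun t => sin (pr (xg D f) t)) * sin c := by
      rw [← Ex_mul_const, ← Ex_mul_const, ← Ex_sub
        ((hW.ig_bdd fun _ => abs_cos_le_one _).mul_const _)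
        ((hW.ig_bdd fun _ => abs_sin_le_one _).mul_const _)]
      refine Ex_congr fun t ht => ?_
      have h1 : ∀ x, x ∉ D → t x = s x := Md.W_off ht
      have h2 : pr (sw D f) t = pr (sw D f) s := pr_out (fun x hx => sw_mem f hx) t s h1
      rw [← cos_add, hc, ← hθ t s h1, ← h2, sw, pr_sub, AddMonoidHom.sub_apply]
      congr 1; ring
    rw [e, qd]
    set C := Ex ((Λ.D D).W s) (fun t => cos (pr (xg D f) t))
    set S := Ex ((Λ.D D).W s) (fun t => sin (pr (xg D f) t))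
    rw [show C * cos c - S * sin c - a * cos c = (C - a) * cos c - S * sin c by ring]
    refine (abs_sub _ _).trans (add_le_add ?_ ?_) <;> rw [abs_mul]
    · exact mul_le_of_le_one_right (abs_nonneg _) (abs_cos_le_one _)
    · exact mul_le_of_le_one_right (abs_nonneg _) (abs_sin_le_one _)
  · have hW := h.wt_D D s
    have h1 := hW.abs_ex_le (F := fun t => cos (pr (xg D f) t)) fun _ _ => abs_cos_le_one _
    have h2 := hW.abs_ex_le (F := fun t => sin (pr (xg D f) t)) fun _ _ => abs_sin_le_one _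
    rw [qd]
    linarith [abs_sub (Ex ((Λ.D D).W s) fun t => cos (pr (xg D f) t)) a]
  · have h1 := depG_xg (nL_edT h hU) f
    exact (depG_D h hU (h1.comp cos)).comp₂ (depG_D h hU (h1.comp sin))
      fun x y => |x - a| + |y|

end Crest.Agent.T145.Kr
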