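import Crest.Agent.T145.KrAlgA_91
import Crest.Agent.T145.KrGeo_87
import Crest.Agent.T145.KrSw_44
import Crest.Agent.T145.KrHsy_11
import Crest.Agent.T145.NcGeo_51
import Crest.Agent.T145.Route_51

-- ▼ part T145/KrAlg_91
section

/-!
# Row 145, module KERNEL (helper91): assembly of `Gm.Alg`
-/

set_option autoImplicit false

namespace Crest.Agent.T145.Kr

open A91

theorem algStmt (hS : SwStmt) : AlgStmt := fun G _ h =>
  { r_le := Geo87.r_le h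
    rho_le := Geo87.rho_le h
    le_rho := Geo87.le_rho G
    Ga_sub := Geo87.Ga_sub G
    sub_Ga := Geo87.sub_Ga G
    card_Ga := Geo87.card_Ga G
    cells := Geo87.cells G
    coA := co_A G
    coD := co_D G
    cp_pos := (co_D G).cap_pos (sub h) ⟨0, self_mem_bl _ _⟩
    eq_sup := eq_sup h
    eq_nonneg := (co_D G).eqm_nonneg (Pot.mk_eD _) (sub h)
    eq_sum := eq_sum h
    te_sup := sw_sup hS (eq_supD h)
    te_sum := te_sum hS h
    hm_sup := sw_sup hS (Pot.sup_dl (self_mem_bl _ _))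
    hm_sum := hm_sum hS h
    om_mem := om_mem G
    ma_hm := fun _ => (co_D G).ex_hm _
    mb_hm := fun _ => (co_D G).exo_hm _
    hx_dat := hx_dat h
    k1 := k1 hS h
    y_in := y_in hS h
    y_out := y_out hS h
    y_neg := y_neg G
    ga_eq := fun k => pr_inv ((q_gp k).eq G)
    ga_te := fun k => pr_inv ((q_gp k).te G hS)
    ga_hm := fun k => pr_inv (by rw [hm, (q_gp k).sw hS, (q_gp k).dl])
    ga_y := fun k => (q_gp k).y0 G hS
    ga_nm := fun k a => ⟨by rw [← (q_gp k).ma G a, (q_gp k).nm, ga_eq],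
      by rw [← (q_gp k).mb G a, (q_gp k).nm, ga_eq]⟩
    rot_ch := rot_ch G
    swp_ch := swp_ch G
    rot_dp := rot_dp hS _
    swp_dp := swp_dp hS _
    map_an := Geo87.map_an
    sym := Geo87.sym }

theorem algStmt' : AlgStmt := algStmt swStmt

end Crest.Agent.T145.Kr
end

-- ▼ part T145/KrOut_11

/-!
# Row 145, module KERNEL: the output in the norm, K-ANY, K-ODD, K-VEC, K-EVEN (helper11)
-/

set_option autoImplicit false

namespace Crest.Agent.T145.Kr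

open Finset Real

namespace O11

/-! ## generic facts -/
section gen
variable {P : Cfg Pt → ℝ} {X Y f : Cfg Pt → ℝ} {B C a : ℝ}

theorem abs_mul_le (hP : Cen P) (hX : Tame X) (hf : ∀ s, |f s| ≤ B) (h : Ex P (fun s => |X s|) ≤ a) :
    |Ex P fun s => f s * X s| ≤ B * a := by
  have hB : 0 ≤ B := (abs_nonneg _).trans (hf 0)
  refine (abs_Ex_le hP.nonneg (hP.ig ((Tame.bdd hf).mul hX))).trans ?_
  refine (Ex_mono hP.nonneg (hP.ig ((Tame.bdd hf).mul hX).abs) (hP.ig (hX.abs.const_mul B))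
    fun s => ?_).trans ?_
  · rw [abs_mul]; exact mul_le_mul_of_nonneg_right (hf s) (abs_nonneg _)
  · rw [Ex_const_mul]; exact mul_le_mul_of_nonneg_left h hB

theorem abs_bdd (hP : Cen P) (hf : ∀ s, |f s| ≤ B) (hX : ∀ s, |X s| ≤ 1) :
    |Ex P fun s => f s * X s| ≤ B :=
  hP.wt.abs_ex_le fun s _ => by
    rw [abs_mul]; exact (mul_le_mul (hf s) (hX s) (abs_nonneg _) ((abs_nonneg _).trans (hf s))).trans
      (mul_one B).le

theorem abs2 (hP : Cen P) (hX : Tame X) (hY : Tame Y) (h : Ex P (fun s => X s ^ 2) ≤ a)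
    (h' : Ex P (fun s => Y s ^ 2) ≤ a) : Ex P (fun s => |X s * Y s|) ≤ a := by
  have := Ex_mono hP.nonneg (hP.ig (hX.mul hY).abs)
    (hP.ig (((hX.pow 2).add (hY.pow 2)).div_const 2)) fun s => by
      rw [abs_le]; constructor <;> nlinarith [sq_nonneg (X s + Y s), sq_nonneg (X s - Y s)]
  rw [Ex_div_const, Ex_add (hP.ig (hX.pow 2)) (hP.ig (hY.pow 2))] at this
  linarith

theorem abs1 (hP : Cen P) (hX : Tame X) (hC : 1 ≤ C) (ha : 0 < a)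
    (h : Ex P (fun s => X s ^ 2) ≤ C * a ^ 2) : Ex P (fun s => |X s|) ≤ C * a := by
  have := abs2 hP hX (Tame.const a) h (by rw [hP.wt.ex_const]; nlinarith [sq_nonneg a])
  simp only [abs_mul, abs_of_pos ha, Ex_mul_const] at this
  nlinarith

end gen

theorem pr_shift {S : Finset Pt} {f : Pt → ℝ} (hf : Sup S f) {s s' : Cfg Pt} {k : ℤ}
    (e : ∀ x ∈ S, s' x = s x + k) : pr f s' = pr f s + (∑ x ∈ S, f x) * k := by
  simp only [pr_of_fsupp f _ hf]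
  rw [Finset.sum_mul, ← Finset.sum_add_distrib]
  exact Finset.sum_congr rfl fun x hx => by rw [e x hx]; push_cast; ring

theorem sum_sup {S U : Finset Pt} {f : Pt → ℝ} (hS : Sup S f) (hU : Sup U f) :
    ∑ x ∈ S, f x = ∑ x ∈ U, f x :=
  (sum_subset (subset_union_left (s₂ := U)) fun x _ hx => hS x hx).trans
    (sum_subset subset_union_right fun x _ hx => hU x hx).symm

theorem depG_sn {S : Finset Pt} {f : Pt → ℝ} (hf : Sup S f) (h : ∑ x ∈ S, f x = 1) : DepG S (sn f) :=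
  fun s s' k e => by
    rw [sn, sn, pr_shift hf e, h, show 2 * π * (pr f s + 1 * (k : ℝ)) = 2 * π * pr f s + k * (2 * π) by ring,
      sin_add_int_mul_two_pi]

theorem depG_cs {S : Finset Pt} {f : Pt → ℝ} (hf : Sup S f) (h : ∑ x ∈ S, f x = 1) : DepG S (cs f) :=
  fun s s' k e => by
    rw [cs, cs, pr_shift hf e, h, show 2 * π * (pr f s + 1 * (k : ℝ)) = 2 * π * pr f s + k * (2 * π) by ring,
      cos_add_int_mul_two_pi]

theorem depG_f2 {S : Finset Pt} {f : Pt → ℝ} {ed : Finset (Pt × Pt)} {n : ℝ} (hf : Sup S f)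
    (h : F2 ed f n) : DepG S fun s => pr f s := by
  obtain ⟨φ, rfl, -⟩ := h
  exact DepG.pr hf ((sum_sup hf (sup_dv φ (ends_mem ed))).trans (sum_dv φ (ends_mem ed)))

theorem nl_sub {Λ : Lat} (hΛ : Λ.Ok) {U U' : Finset Pt} (h : U ⊆ U') : Pot.nL.edI U ⊆ Λ.edI U' :=
  fun e he => by
    rw [Lat.mem_edI] at he ⊢
    refine ⟨?_, h he.2.1, h he.2.2⟩
    have := he.1
    rw [Pot.nL, xyL_Jp, mem_insert, mem_singleton] at this
    rcases this with h | h <;> rw [h]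
    exacts [hΛ.e1, hΛ.e2]


/-! ## the context -/

/-- everything at fixed parameters; `x = W ^ (ε / 4)`, `v = 1 / W` -/
structure Cx (Λ : Lat) (G : Gm) (g W ε C x v : ℝ) : Prop where
  ok : Λ.Ok
  gk : G.Ok W
  alg : G.Alg
  C1 : 1 ≤ C
  hx : 1000 * C ^ 2 ≤ x
  v0 : 0 < v
  v1 : v ≤ 1
  rv : (G.r : ℝ) * (1 / G.R) ≤ v
  pw : ∀ (n k : ℕ) (y : ℝ), y = -(n : ℝ) + k / 4 * ε → W ^ y = x ^ k * v ^ n
  lam : G.lam g ≤ W ^ (-2 + 5 / 4 * ε)
  hol : ∀ (F φ : Cfg Pt → ℝ) (N B : ℝ), DepG G.In F → (∀ s, |F s| ≤ N) → DepG G.Ou φ →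
    (∀ s, |φ s| ≤ B) → G.Hol Λ g W ε F φ (N * B)
  dy : ∀ i, DepG (Nc.an 0 (G.r - 1) G.R₂) (G.yi g i)
  dd : ∀ i, DepG G.Ou (G.di i)
  my : ∀ i, G.EA Λ (fun s => G.yi g i s ^ 2) ≤ C * (G.r : ℝ) ^ 2
  mA : ∀ i, G.EA Λ (fun s => G.di i s ^ 2) ≤ C * (1 / G.R : ℝ) ^ 2
  mE : ∀ i, G.E Λ (fun s => G.di i s ^ 2) ≤ C * (1 / G.R : ℝ) ^ 2

theorem r_lt {G : Gm} {W : ℝ} (h : G.Ok W) : 1024 * G.r ≤ G.R := by
  have h1 : (1024 : ℝ) * G.r ≤ G.R := (mul_le_mul_of_nonneg_right h.hW (Nat.cast_nonneg _)).trans h.lo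
  exact_mod_cast h1

theorem cn_Om {Λ : Lat} (hΛ : Λ.Ok) {G : Gm} {W : ℝ} (h : G.Ok W) : Nc.Cn (Λ.N G.Om) G.Om :=
  (Nc.Geo.inL_N subset_rfl).cn (Nc.Geo.cnL_an hΛ 0 (by have := r_lt h; have := h.hc; have := h.hr; have := h.out; omega))

theorem ne_Om {G : Gm} {W : ℝ} (h : G.Ok W) : G.Om.Nonempty :=
  Nc.Geo.an_nonempty 0 (by have := r_lt h; have := h.hc; have := h.hr; have := h.out; omega)

theorem lift (hH : HolStmt) (h3 : K3Stmt) (hM : MomStmt) (hA : AlgStmt)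
    {P : Lat → ℝ → ℝ → ℝ → Gm → Prop}
    (hP : ∀ Λ G g W ε C x v, Cx Λ G g W ε C x v → P Λ g W ε G) : SoftW P := by
  intro F θ₀ ε h0 hε hε'
  obtain ⟨W₁, hW₁⟩ := hH F θ₀ ε h0 hε hε'
  obtain ⟨C₃, hC₃, h3⟩ := h3
  obtain ⟨Cm, hCm, hM⟩ := hM F 1
  set C := 1 + 4 * (Cm * C₃) with hC
  have hp : 0 < Cm * C₃ := mul_pos hCm hC₃
  refine ⟨max W₁ ((1000 * C ^ 2) ^ (4 / ε)), fun W hW K hK => ?_⟩
  obtain ⟨δ, hδ, h⟩ := hW₁ W ((le_max_left _ _).trans hW) K hK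
  refine ⟨δ, hδ, fun Λ hΛ l L hw G hG hL hg => ?_⟩
  obtain ⟨hl, hol⟩ := h Λ hΛ l L hw G hG hL hg
  have ok : Λ.Ok := ⟨hΛ.1 ▸ F.adm, F.pos.trans_le hΛ.2.2.1⟩
  have hW0 : 0 < W := by linarith [hG.hW]
  have hr := r_lt hG
  have hr64 := hG.hr
  have hc := hG.hc
  have ho := hG.out
  have hr0 : (0 : ℝ) < G.r := by exact_mod_cast (by omega : 0 < G.r)
  have hR0 : (0 : ℝ) < G.R := by exact_mod_cast (by omega : 0 < G.R)
  have hg2 : 1 / 2 ≤ Λ.gN l := by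
    by_contra hn
    nlinarith [pi_lt_d2, pi_pos, not_le.1 hn]
  obtain ⟨-, hk, -⟩ := h3 G W hG
  have mom : ∀ (m : Mdl Pt) (U U' : Finset Pt) (f : Pt → ℝ) (n : ℝ), m.Ctr → m.Anch → U ⊆ U' →
      Λ.edI U' ⊆ m.ed → (∀ e, m.w e = Λ.w) → 0 < n → F2 (Pot.nL.edI U) f n →
      Ex (m.W 0) (fun s => pr f s ^ 2) ≤ Cm * n := fun m U U' f n h1 h2 h3 h4 h5 h6 h7 => by
    simpa using (hM Λ hΛ m _ Unit univ (fun _ => f) n h1 h2 ((nl_sub ok h3).trans h4) (fun e _ => h5 e) h6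
      fun _ _ => h7).1 () (mem_univ _)
  obtain ⟨r₀, hr₀, e₀⟩ := Nc.rs_spec (ne_Om hG)
  have momA : ∀ (U : Finset Pt) (f : Pt → ℝ) (n : ℝ), U ⊆ G.Om → 0 < n → F2 (Pot.nL.edI U) f n →
      G.EA Λ (fun s => pr f s ^ 2) ≤ Cm * n := fun U f n h1 h2 h3 =>
    mom (Nc.pn (Λ.N G.Om) G.Om (Nc.rs G.Om)) U G.Om f n (Nc.pn_ctr (ok.ctr_N _).1 _ _)
      (Nc.pn_anch (cn_Om ok hG) hr₀ (by rw [e₀]; exact mem_singleton_self _)) h1
      (Lat.inn_edI subset_rfl).ge (fun _ => rfl) h2 h3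
  have hd : Cm * (C₃ / (G.R : ℝ) ^ 2) ≤ C * (1 / G.R : ℝ) ^ 2 := by
    rw [one_div, inv_pow, div_eq_mul_inv, ← mul_assoc]
    exact mul_le_mul_of_nonneg_right (by linarith) (by positivity)
  refine hP Λ G _ W ε C (W ^ (ε / 4)) W⁻¹ ⟨ok, hG, hA G W hG, by linarith, ?_, inv_pos.2 hW0,
    inv_le_one_of_one_le₀ (by linarith [hG.hW]), ?_, fun n k y hy => ?_, hl, hol, fun i => ?_,
    fun i => ?_, fun i => ?_, fun i => ?_, fun i => ?_⟩
  · calc 1000 * C ^ 2 = ((1000 * C ^ 2) ^ (4 / ε)) ^ (ε / 4) := by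
          rw [← rpow_mul (by positivity), show 4 / ε * (ε / 4) = 1 by field_simp, rpow_one]
      _ ≤ W ^ (ε / 4) := rpow_le_rpow (by positivity) ((le_max_right _ _).trans hW) (by positivity)
  · rw [mul_one_div, div_le_iff₀ hR0, inv_mul_eq_div, le_div_iff₀ hW0, mul_comm]; exact hG.lo
  · rw [hy, add_comm, rpow_add hW0, rpow_neg hW0.le, rpow_natCast, inv_pow, ← rpow_natCast (W ^ (ε / 4)),
      ← rpow_mul hW0.le]
    congr 2; ring
  · exact ((depG_f2 (hk i).1.1 (hk i).1.2).comp (· / Λ.gN l)).mono (Nc.Geo.an_mono 0 le_rfl (by omega))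
  · exact (depG_f2 (hk i).2.1 (hk i).2.2).mono (Nc.Geo.an_mono 0 le_rfl (by omega))
  · have := momA _ _ _ (Nc.Geo.an_mono 0 (by omega) (by omega)) (by positivity) (hk i).1.2
    have e : G.EA Λ (fun s => G.yi (Λ.gN l) i s ^ 2) =
        G.EA Λ (fun s => pr (G.ch (co i)) s ^ 2) / Λ.gN l ^ 2 := by
      simp only [Gm.yi, div_pow]; exact Ex_div_const _ _ _
    rw [e, div_le_iff₀ (by positivity)]
    refine this.trans ?_
    have : 1 / 4 ≤ Λ.gN l ^ 2 := by nlinarith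
    have h2 : 0 < (G.r : ℝ) ^ 2 := by positivity
    nlinarith [mul_le_mul_of_nonneg_left this (by positivity : 0 ≤ C * (G.r : ℝ) ^ 2), mul_pos hp h2]
  · exact (momA _ _ _ (Nc.Geo.an_mono 0 (by omega) ho) (by positivity) (hk i).2.2).trans hd
  · exact (mom (Λ.Nr (bl 0 G.R₂) 0) _ (bl 0 G.R₂) _ _ (ok.ctr_Nr _ _) (ok.anch_Nr_bl (self_mem_bl _ _))
      ((Nc.Geo.an_subset_bl 0 _ _).trans (bl_mono 0 ho)) subset_rfl (fun _ => rfl) (by positivity)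
      (hk i).2.2).trans hd

/-! ## consequences of the context -/

variable {Λ : Lat} {G : Gm} {g W ε C x v : ℝ} {F φ f : Cfg Pt → ℝ}

/-- the two weights -/
noncomputable abbrev PE (Λ : Lat) (G : Gm) : Cfg Pt → ℝ := (Λ.Nr (bl 0 G.R₂) 0).W 0
noncomputable abbrev PA (Λ : Lat) (G : Gm) : Cfg Pt → ℝ := Nc.rW (Λ.N G.Om) G.Om

theorem E_eq (F : Cfg Pt → ℝ) : G.E Λ F = Ex (PE Λ G) F := rfl
theorem EA_eq (F : Cfg Pt → ℝ) : G.EA Λ F = Ex (PA Λ G) F := rfl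

theorem tame_y (i : Fin 2) : Tame (G.yi g i) := (Tame.hom _).div_const g
theorem tame_d (i : Fin 2) : Tame (G.di i) := Tame.hom _
theorem abs_sn (f : Pt → ℝ) (s : Cfg Pt) : |sn f s| ≤ 1 := abs_sin_le_one _
theorem abs_cs (f : Pt → ℝ) (s : Cfg Pt) : |cs f s| ≤ 1 := abs_cos_le_one _
theorem abs_mul_one {a b : Cfg Pt → ℝ} (ha : ∀ s, |a s| ≤ 1) (hb : ∀ s, |b s| ≤ 1) (s : Cfg Pt) :
    |a s * b s| ≤ 1 := by
  rw [abs_mul]; exact mul_le_one₀ (ha s) (abs_nonneg _) (hb s)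

namespace Cx
variable (h : Cx Λ G g W ε C x v)
include h

theorem cE : Cen (PE Λ G) := h.ok.cen_Nr_bl (self_mem_bl _ _)
theorem cA : Cen (PA Λ G) := Nc.rW_cen (h.ok.ctr_N _).1 (cn_Om h.ok h.gk) (ne_Om h.gk)
theorem r0 : (0 : ℝ) < G.r := by have := h.gk.hr; exact_mod_cast (by omega : 0 < G.r)
theorem R0 : (0 : ℝ) < 1 / G.R := by
  have := h.gk.hr; have := r_lt h.gk
  exact one_div_pos.2 (by exact_mod_cast (by omega : 0 < G.R))
theorem x1 : 1000 ≤ x := by nlinarith [h.C1, h.hx]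
theorem Ou_sub : G.Ou ⊆ Nc.an 0 (G.r - 1) G.R₂ :=
  Nc.Geo.an_mono 0 (by have := r_lt h.gk; omega) le_rfl
theorem rim_sub : Nc.an 0 (G.r - 1) G.r ⊆ Nc.an 0 (G.r - 1) G.R₂ :=
  Nc.Geo.an_mono 0 le_rfl (by have := r_lt h.gk; have := h.gk.out; omega)
theorem eq_sum : ∑ y ∈ Nc.an 0 (G.r - 1) G.r, G.eq y = 1 :=
  (sum_sup h.alg.eq_sup fun y hy => h.alg.eq_sup y fun h' => hy (Nc.Geo.an_mono 0
    (by have := h.gk.hc; have := h.gk.hr; omega) le_rfl h')).trans h.alg.eq_sum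
theorem hm_sup : Sup G.Ou (hm 0 G.R) := fun y hy => h.alg.hm_sup y fun h' => hy (Nc.Geo.an_mono 0
    le_rfl (by have := h.gk.out; have := h.gk.hr; have := r_lt h.gk; omega) h')
theorem d_sne : DepG (Nc.an 0 (G.r - 1) G.R₂) (sn G.eq) := (depG_sn h.alg.eq_sup h.eq_sum).mono h.rim_sub
theorem d_cse : DepG (Nc.an 0 (G.r - 1) G.R₂) (cs G.eq) := (depG_cs h.alg.eq_sup h.eq_sum).mono h.rim_sub
theorem d_snh : DepG G.Ou (sn (hm 0 G.R)) := depG_sn h.hm_sup h.alg.hm_sum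
theorem d_csh : DepG G.Ou (cs (hm 0 G.R)) := depG_cs h.hm_sup h.alg.hm_sum
theorem lam' : |G.lam g| ≤ x ^ 5 * v ^ 2 := by
  rw [abs_of_pos (show 0 < G.lam g from exp_pos _), ← h.pw 2 5 (-2 + 5 / 4 * ε) (by push_cast; ring)]; exact h.lam
theorem y1 (i : Fin 2) : Ex (PA Λ G) (fun s => |G.yi g i s|) ≤ C * G.r :=
  abs1 h.cA (tame_y i) h.C1 h.r0 (h.my i)
theorem y2 (i j : Fin 2) : Ex (PA Λ G) (fun s => |G.yi g i s * G.yi g j s|) ≤ C * (G.r : ℝ) ^ 2 :=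
  abs2 h.cA (tame_y i) (tame_y j) (h.my i) (h.my j)
theorem d2 (i j : Fin 2) (hφ : ∀ s, |φ s| ≤ 1) :
    |G.EA Λ fun s => G.di i s * G.di j s * φ s| ≤ C * (1 / G.R : ℝ) ^ 2 := by
  have := abs_mul_le h.cA ((tame_d (G := G) i).mul (tame_d j)) hφ
    (abs2 h.cA (tame_d i) (tame_d j) (h.mA i) (h.mA j))
  rw [one_mul] at this
  simpa only [mul_comm (φ _), EA_eq] using this
theorem d2' (i j : Fin 2) : |G.EA Λ fun s => G.di i s * G.di j s| ≤ C * (1 / G.R : ℝ) ^ 2 := by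
  simpa only [mul_one] using h.d2 (φ := fun _ => 1) i j fun _ => abs_one.le

/-- the crude bound in the even sector -/
theorem even_le {B : ℝ} (hf : DepG G.In f) (hb : ∀ s, |f s| ≤ B) (he : EvenF f) (h0 : G.EA Λ f = 0)
    (hφ : DepG G.Ou φ) (h1 : ∀ s, |φ s| ≤ 1) :
    |G.EA Λ fun s => f s * φ s| ≤ 9 * C ^ 2 * x ^ 10 * v ^ 2 * B := by
  have hB : 0 ≤ B := (abs_nonneg _).trans (hb 0)
  have a := (h.hol f φ B 1 hf hb hφ h1).even he h0
  rw [h.pw 3 10 _ (by push_cast; ring), mul_one] at a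
  have hC := h.C1
  have hx := h.x1
  have hv := h.v0
  have a1 : |2 * G.lam g * G.EA Λ (fun s => f s * cs G.eq s) *
      (G.EA Λ (fun s => cs (hm 0 G.R) s * φ s) - G.EA Λ (cs (hm 0 G.R)) * G.EA Λ φ)| ≤
      2 * (x ^ 5 * v ^ 2) * B * (1 + 1 * 1) := by
    rw [abs_mul, abs_mul, abs_mul, abs_two]
    gcongr
    · exact h.lam'
    · exact abs_bdd h.cA hb (abs_cs _)
    · refine (abs_sub _ _).trans (add_le_add (abs_bdd h.cA (abs_cs _) h1) ?_)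
      rw [abs_mul]
      gcongr
      exacts [h.cA.wt.abs_ex_le fun s _ => abs_cs _ s, h.cA.wt.abs_ex_le fun s _ => h1 s]
  have a2 : ∀ i j, |G.EA Λ (fun s => f s * (G.yi g i s * G.yi g j s)) / 2 *
      (G.EA Λ (fun s => G.di i s * G.di j s * φ s) - G.EA Λ (fun s => G.di i s * G.di j s) * G.EA Λ φ)| ≤
      C ^ 2 * v ^ 2 * B := fun i j => by
    rw [abs_mul, abs_div, abs_two]
    calc _ ≤ B * (C * (G.r : ℝ) ^ 2) / 2 * (C * (1 / G.R : ℝ) ^ 2 + C * (1 / G.R : ℝ) ^ 2 * 1) := by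
          gcongr
          · exact abs_mul_le h.cA ((tame_y i).mul (tame_y j)) hb (h.y2 i j)
          · refine (abs_sub _ _).trans (add_le_add (h.d2 i j h1) ?_)
            rw [abs_mul]
            gcongr
            exacts [h.d2' i j, h.cA.wt.abs_ex_le fun s _ => h1 s]
      _ = C ^ 2 * ((G.r : ℝ) * (1 / G.R)) ^ 2 * B := by ring
      _ ≤ _ := by have := h.rv; have := h.r0; have := h.R0; gcongr
  simp only [Fin.sum_univ_two] at a
  have p1 : x ^ 5 * v ^ 2 * B ≤ C ^ 2 * x ^ 10 * v ^ 2 * B := by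
    gcongr
    calc x ^ 5 ≤ x ^ 10 := pow_le_pow_right₀ (by linarith) (by norm_num)
      _ ≤ _ := le_mul_of_one_le_left (by positivity) (one_le_pow₀ hC)
  have p2 : C ^ 2 * v ^ 2 * B ≤ C ^ 2 * x ^ 10 * v ^ 2 * B := by
    gcongr
    exact le_mul_of_one_le_right (by positivity) (one_le_pow₀ (by linarith))
  have p3 : x ^ 10 * v ^ 3 * B ≤ C ^ 2 * x ^ 10 * v ^ 2 * B := by
    refine mul_le_mul_of_nonneg_right (mul_le_mul ?_ (pow_le_pow_of_le_one hv.le h.v1 (by norm_num))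
      (by positivity) (by positivity)) hB
    exact le_mul_of_one_le_left (by positivity) (one_le_pow₀ hC)
  have := abs_le.1 a
  have := abs_le.1 a1
  have := abs_le.1 (a2 0 0)
  have := abs_le.1 (a2 0 1)
  have := abs_le.1 (a2 1 0)
  have := abs_le.1 (a2 1 1)
  rw [abs_le]
  constructor <;> linarith

end Cx

/-- the centred collar function of `F` -/
structure Pk (Λ : Lat) (G : Gm) (x v : ℝ) (F : Cfg Pt → ℝ) (κ : ℝ) (f : Cfg Pt → ℝ) : Prop where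
  k0 : 0 < κ
  k1 : κ ≤ 1
  n0 : 0 ≤ G.N₁ Λ F
  dep : DepG G.In f
  bd : ∀ s, |f s| ≤ 12 * G.N₁ Λ F
  mean : G.EA Λ f = 0
  cov : ∀ Φ, DepG (Nc.an 0 (G.r - 1) G.R₂) Φ → Tame Φ → G.C Λ F Φ = κ * G.EA Λ fun s => f s * Φ s
  odd : OddF F → OddF f
  even : EvenF F → EvenF f
  d4 : D4 0 F → D4 0 f
  e1 : ∀ Φ : Cfg Pt → ℝ, (∀ s, |Φ s| ≤ 1) → |G.E Λ fun s => F s * Φ s| ≤ 2 * G.N₁ Λ F
  dual : ∀ (X : Cfg Pt → ℝ) (b : ℝ), DepG G.Ou X → Tame X →
    (∀ φ, DepG G.Ou φ → (∀ s, |φ s| ≤ 1) → G.C Λ F φ - G.E Λ (fun s => X s * φ s) ≤ b) →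
    G.N₂ Λ (fun s => G.T Λ F s - G.E Λ F - X s) ≤ b
  c0 : ∀ φ, DepG G.Ou φ → (∀ s, |φ s| ≤ 1) → |G.E Λ φ - G.EA Λ φ| ≤ 4 * (x ^ 6 * v)
  c1 : ∀ φ, DepG G.Ou φ → (∀ s, |φ s| ≤ 1) → ∀ i,
    |G.E Λ (fun s => G.di i s * φ s) - G.EA Λ fun s => G.di i s * φ s| ≤ 4 * (x ^ 8 * v) * (1 / G.R)
  c2 : ∀ φ, DepG G.Ou φ → (∀ s, |φ s| ≤ 1) → ∀ i j,
    |G.E Λ (fun s => G.di i s * G.di j s * φ s) - G.EA Λ fun s => G.di i s * G.di j s * φ s| ≤
      4 * (x ^ 8 * v) * (1 / G.R) ^ 2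

theorem Cx.pk (h : Cx Λ G g W ε C x v) (hT : TrfStmt) (hF : G.Adm Λ F) : ∃ κ f, Pk Λ G x v F κ f := by
  have c1 : Cen ((Λ.Nr (bl 0 G.c) 0).W 0) := h.ok.cen_Nr_bl (self_mem_bl _ _)
  have h1 : G.Adm Λ fun _ => 1 :=
    ⟨hF.ex.imp fun _ a => ⟨a.1, a.2.1, DepG.const _ _⟩, hF.gap, hF.gam, c1.wt.ig_const 1⟩
  obtain ⟨κ, til, k0, k1, H⟩ := hT Λ G W h.ok h.gk h1
  obtain ⟨td, tb, n2, tod, te, t4, tΦ, Td, Ti, TE⟩ := H F hF
  obtain ⟨ud, ub, -, -, ue, u4, uΦ, -⟩ := H _ h1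
  have N1 : G.N₁ Λ (fun _ => 1) = 1 := by
    simp only [Gm.N₁, Nc.Nm, abs_one]; exact c1.wt.ex_const 1
  rw [N1, mul_one] at ub
  simp only [one_mul] at uΦ
  have cE := h.cE
  have cA := h.cA
  have n0 : 0 ≤ G.N₁ Λ F := by linarith [abs_nonneg (til F 0), tb 0]
  have iF : Ig (PE Λ G) F := Ig.congr (tΦ _ (DepG.const _ 1) (Tame.const 1)).1 fun _ _ => mul_one _
  have e1 : ∀ Φ : Cfg Pt → ℝ, (∀ s, |Φ s| ≤ 1) → |G.E Λ fun s => F s * Φ s| ≤ 2 * G.N₁ Λ F :=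
    fun Φ hΦ => (abs_Ex_le cE.nonneg (iF.mul_bdd cE.nonneg hΦ)).trans <|
      (Ex_mono cE.nonneg ((iF.mul_bdd cE.nonneg hΦ).abs cE.nonneg) (iF.abs cE.nonneg) fun s => by
        rw [abs_mul]; exact mul_le_of_le_one_right (abs_nonneg _) (hΦ s)).trans n2
  have eF : |G.E Λ F| ≤ 2 * G.N₁ Λ F := by simpa only [mul_one] using e1 _ fun _ => abs_one.le
  have u1 : κ * G.EA Λ (til fun _ => 1) = 1 := by
    have := (uΦ _ (DepG.const _ 1) (Tame.const 1)).2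
    simp only [mul_one] at this
    rw [← this]; exact cE.wt.ex_const 1
  have cov : ∀ Φ, DepG (Nc.an 0 (G.r - 1) G.R₂) Φ → Tame Φ → G.C Λ F Φ =
      κ * G.EA Λ fun s => (til F s - G.E Λ F * til (fun _ => 1) s) * Φ s := fun Φ d t => by
    simp only [sub_mul, mul_assoc]
    rw [EA_eq, Ex_sub (cA.ig ((Tame.bdd tb).mul t)) (cA.ig (((Tame.bdd ub).mul t).const_mul _)),
      Ex_const_mul, Gm.C, (tΦ Φ d t).2, (uΦ Φ d t).2, EA_eq, EA_eq]
    ring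
  have cmp : ∀ (Φ : Cfg Pt → ℝ) (b : ℝ), DepG G.Ou Φ → Tame Φ →
      |G.EA Λ (fun s => til (fun _ => 1) s * Φ s) - G.EA Λ (til fun _ => 1) * G.EA Λ Φ| ≤ b →
      |G.E Λ Φ - G.EA Λ Φ| ≤ b := fun Φ b d t hb => by
    have e : G.E Λ Φ - G.EA Λ Φ = κ * (G.EA Λ (fun s => til (fun _ => 1) s * Φ s) -
        G.EA Λ (til fun _ => 1) * G.EA Λ Φ) := by
      rw [mul_sub, ← mul_assoc, u1, one_mul, ← (uΦ Φ (d.mono h.Ou_sub) t).2]
    rw [e, abs_mul, abs_of_pos k0]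
    exact (mul_le_of_le_one_left (abs_nonneg _) k1).trans hb
  refine ⟨κ, fun s => til F s - G.E Λ F * til (fun _ => 1) s, k0, k1, n0,
    td.sub ((DepG.const _ _).mul ud), fun s => ?_, ?_, cov, fun ho s => ?_, fun he s => ?_,
    fun h4 s => ?_, e1, fun X b dX tX hb => ?_, fun φ d b => ?_, fun φ d b i => ?_, fun φ d b i j => ?_⟩
  · refine (abs_sub _ _).trans ?_
    rw [abs_mul]
    nlinarith [tb s, mul_le_mul eF (ub s) (abs_nonneg _) (by linarith)]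
  · have := cov _ (DepG.const _ 1) (Tame.const 1)
    simp only [mul_one, Gm.C] at this
    rw [show G.E Λ (fun _ => 1) = 1 from cE.wt.ex_const 1, mul_one, sub_self] at this
    exact (mul_eq_zero.1 this.symm).resolve_left k0.ne'
  · simp only [show G.E Λ F = 0 from cE.ex_odd ho, zero_mul, sub_zero]; exact tod ho s
  · simp only [te he s, ue (fun _ => rfl) s]
  · simp only [(t4 h4 s).1, (t4 h4 s).2, (u4 (fun _ => ⟨rfl, rfl⟩) s).1, (u4 (fun _ => ⟨rfl, rfl⟩) s).2,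
      and_self]
  · set Y := fun s => G.T Λ F s - G.E Λ F - X s with hY
    have dY : DepG G.Ou Y := (Td.sub (DepG.const _ _)).sub dX
    have b1 : ∀ s, |(SignType.sign (Y s) : ℝ)| ≤ 1 := fun s => by
      rcases SignType.trichotomy (SignType.sign (Y s)) with e | e | e <;> simp [e]
    have dφ : DepG G.Ou fun s => (SignType.sign (Y s) : ℝ) := dY.comp fun y => (SignType.sign y : ℝ)
    refine le_trans (le_of_eq ?_) (hb _ dφ b1)
    have i1 : Ig (PE Λ G) fun s => G.T Λ F s * (SignType.sign (Y s) : ℝ) := Ig.mul_bdd cE.nonneg Ti b1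
    have i2 := cE.ig ((Tame.bdd b1).const_mul (G.E Λ F))
    rw [Gm.C, ← TE _ dφ b1, E_eq, E_eq fun s => X s * _, E_eq fun s => (SignType.sign (Y s) : ℝ),
      ← Ex_const_mul, ← Ex_sub i1 i2, ← Ex_sub (i1.sub i2) (cE.ig (tX.mul (Tame.bdd b1)))]
    refine congrArg (Ex (PE Λ G)) (funext fun s => ?_)
    rw [← self_mul_sign (Y s)]
    simp only [hY]; ring
  · have := (h.hol _ φ 4 1 ud ub d b).any
    rw [h.pw 1 6 _ (by push_cast; ring)] at this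
    exact cmp φ _ d (Tame.bdd b) (this.trans_eq (by ring))
  · have := (h.hol _ φ 4 1 ud ub d b).anyd i
    rw [h.pw 1 8 _ (by push_cast; ring)] at this
    exact cmp _ _ ((h.dd i).mul d) ((tame_d i).mul (Tame.bdd b)) (this.trans_eq (by ring))
  · have := (h.hol _ φ 4 1 ud ub d b).anydd i j
    rw [h.pw 1 8 _ (by push_cast; ring)] at this
    exact cmp _ _ (((h.dd i).mul (h.dd j)).mul d) (((tame_d i).mul (tame_d j)).mul (Tame.bdd b))
      (this.trans_eq (by ring))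

namespace Pk
variable {κ : ℝ} (h : Cx Λ G g W ε C x v) (p : Pk Λ G x v F κ f)
include p

theorem kap {a b : ℝ} (h : |a| ≤ b) : |κ * a| ≤ b := by
  rw [abs_mul, abs_of_pos p.k0]; exact (mul_le_of_le_one_left (abs_nonneg _) p.k1).trans h

theorem dual0 {b : ℝ} (hb : ∀ φ, DepG G.Ou φ → (∀ s, |φ s| ≤ 1) → G.C Λ F φ ≤ b) :
    G.N₂ Λ (fun s => G.T Λ F s - G.E Λ F) ≤ b := by
  simpa only [sub_zero] using p.dual (fun _ => 0) b (DepG.const _ _) (Tame.const _) fun φ d b1 => by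
    simpa only [zero_mul, E_eq, Ex_def, mul_zero, tsum_zero, zero_div, sub_zero] using hb φ d b1

include h

theorem cov' (d : DepG G.Ou φ) (b : ∀ s, |φ s| ≤ 1) : G.C Λ F φ = κ * G.EA Λ fun s => f s * φ s :=
  p.cov φ (d.mono h.Ou_sub) (Tame.bdd b)



theorem cyy (i j : Fin 2) : G.C Λ F (fun t => G.yi g i t * G.yi g j t) =
    κ * G.EA Λ fun s => f s * (G.yi g i s * G.yi g j s) :=
  p.cov _ ((h.dy i).mul (h.dy j)) ((tame_y i).mul (tame_y j))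

theorem by2 (i j : Fin 2) :
    |G.C Λ F fun t => G.yi g i t * G.yi g j t| ≤ 12 * G.N₁ Λ F * (C * (G.r : ℝ) ^ 2) := by
  rw [p.cyy h]; exact p.kap (abs_mul_le h.cA ((tame_y i).mul (tame_y j)) p.bd (h.y2 i j))

theorem any : G.N₂ Λ (fun s => G.T Λ F s - G.E Λ F) ≤ W ^ (-1 + 2 * ε) * G.N₁ Λ F := by
  refine p.dual0 fun φ d b => ?_
  have a := (h.hol f φ _ 1 p.dep p.bd d b).any
  rw [p.mean, zero_mul, sub_zero, h.pw 1 6 _ (by push_cast; ring)] at a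
  rw [p.cov' h d b, h.pw 1 8 _ (by push_cast; ring)]
  refine (le_abs_self _).trans ((p.kap a).trans ?_)
  have := h.x1
  have := mul_nonneg (mul_nonneg (by positivity : 0 ≤ x ^ 6) h.v0.le) p.n0
  nlinarith [mul_le_mul_of_nonneg_left (by nlinarith : 12 ≤ x ^ 2) this]

theorem kodd (ho : OddF F) (h4 : D4 0 F) :
    G.N₂ Λ (fun s => G.T Λ F s - 2 * G.lam g * G.E Λ (fun t => F t * sn G.eq t) * sn (hm 0 G.R) s) ≤
      W ^ (-3 + 3 * ε) * G.N₁ Λ F := by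
  have e0 : G.E Λ F = 0 := h.cE.ex_odd ho
  have ea : G.E Λ (fun t => F t * sn G.eq t) = κ * G.EA Λ fun s => f s * sn G.eq s := by
    rw [← p.cov _ h.d_sne (Tame.bdd (abs_sn _)), Gm.C, e0, zero_mul, sub_zero]
  have := p.dual (fun s => 2 * G.lam g * G.E Λ (fun t => F t * sn G.eq t) * sn (hm 0 G.R) s)
    (W ^ (-3 + 3 * ε) * G.N₁ Λ F) ((DepG.const _ _).mul h.d_snh) ((Tame.bdd (abs_sn _)).const_mul _)
    fun φ d b => ?_
  · simpa only [e0, sub_zero] using this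
  have a := (h.hol f φ _ 1 p.dep p.bd d b).odd (p.odd ho) (p.d4 h4)
  have c := p.c0 _ (h.d_snh.mul d) (abs_mul_one (abs_sn _) b)
  rw [h.pw 3 10 _ (by push_cast; ring)] at a
  have hx := h.x1
  have hv := h.v0
  have n0 := p.n0
  have q : |2 * G.lam g * G.E Λ (fun t => F t * sn G.eq t) *
      (G.E Λ (fun s => sn (hm 0 G.R) s * φ s) - G.EA Λ fun s => sn (hm 0 G.R) s * φ s)| ≤
      2 * (x ^ 5 * v ^ 2) * (2 * G.N₁ Λ F) * (4 * (x ^ 6 * v)) := by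
    rw [abs_mul, abs_mul, abs_mul, abs_two]
    gcongr
    exacts [h.lam', p.e1 _ (abs_sn _)]
  simp only [mul_assoc _ (sn _ _)]
  rw [p.cov' h d b, h.pw 3 12 _ (by push_cast; ring), E_eq fun s => _ * (sn _ s * φ s), Ex_const_mul, ← E_eq]
  have a' := abs_le.1 (p.kap a)
  have q' := abs_le.1 q
  rw [ea] at q' ⊢
  have u : 0 ≤ x ^ 10 * v ^ 3 * G.N₁ Λ F := by positivity
  nlinarith [mul_le_mul_of_nonneg_left (by nlinarith : 12 + 16 * x ≤ x ^ 2) u]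


theorem crude (he : EvenF F) :
    G.N₂ Λ (fun s => G.T Λ F s - G.E Λ F) ≤ W ^ (-2 + 3 * ε) * G.N₁ Λ F := by
  refine p.dual0 fun φ d b => ?_
  rw [p.cov' h d b, h.pw 2 12 _ (by push_cast; ring)]
  refine (le_abs_self _).trans ((p.kap (h.even_le p.dep p.bd (p.even he) p.mean d b)).trans ?_)
  have hx := h.x1
  have hv := h.v0
  have n0 := p.n0
  have u : 0 ≤ x ^ 10 * v ^ 2 * G.N₁ Λ F := by positivity
  nlinarith [mul_le_mul_of_nonneg_left (by nlinarith [h.hx] : 108 * C ^ 2 ≤ x ^ 2) u]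

theorem sharp (he : EvenF F) : G.N₂ Λ (fun s => G.T Λ F s - G.E Λ F -
      2 * G.lam g * G.C Λ F (cs G.eq) * (cs (hm 0 G.R) s - G.E Λ (cs (hm 0 G.R))) -
      ∑ i, ∑ j, G.C Λ F (fun t => G.yi g i t * G.yi g j t) / 2 *
        (G.di i s * G.di j s - G.E Λ fun t => G.di i t * G.di j t)) ≤ W ^ (-3 + 3 * ε) * G.N₁ Λ F := by
  have cE := h.cE
  have cA := h.cA
  have tc : Tame (cs (hm 0 G.R)) := Tame.bdd (abs_cs _)
  have tdd : ∀ i j, Tame fun s => G.di i s * G.di j s := fun i j => (tame_d i).mul (tame_d j)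
  simp only [sub_sub (G.T Λ F _ - G.E Λ F)]
  refine p.dual _ _ (((DepG.const _ _).mul (h.d_csh.sub (DepG.const _ _))).add
    (DepG.sum fun i _ => DepG.sum fun j _ => (DepG.const _ _).mul
      (((h.dd i).mul (h.dd j)).sub (DepG.const _ _))))
    (((tc.sub (Tame.const _)).const_mul _).add (Tame.sum _ fun i _ => Tame.sum _ fun j _ =>
      ((tdd i j).sub (Tame.const _)).const_mul _)) fun φ d b => ?_
  have tφ := Tame.bdd b
  have ex : ∀ (a : ℝ) (X : Cfg Pt → ℝ), Tame X → G.E Λ (fun s => a * (X s - G.E Λ X) * φ s) =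
      a * (G.E Λ (fun s => X s * φ s) - G.E Λ X * G.E Λ φ) := fun a X t => by
    simp only [mul_assoc, sub_mul]
    rw [E_eq, Ex_const_mul, Ex_sub (cE.ig (t.mul tφ)) (cE.ig (tφ.const_mul _)), Ex_const_mul]
    rfl
  have ig : ∀ (a c : ℝ) (X : Cfg Pt → ℝ), Tame X → Ig (PE Λ G) fun s => a * (X s - c) * φ s :=
    fun a c X t => cE.ig (((t.sub (Tame.const _)).const_mul _).mul tφ)
  have a := (h.hol f φ _ 1 p.dep p.bd d b).even (p.even he) p.mean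
  have hx := h.x1
  have hv := h.v0
  have hC := h.C1
  have n0 := p.n0
  have r0 := h.r0
  have R0 := h.R0
  have c0 := p.c0 φ d b
  have bE : |G.E Λ φ| ≤ 1 := cE.wt.abs_ex_le fun s _ => b s
  have two : ∀ {A B A' B' a a' : ℝ}, |A - A'| ≤ a → |B - B'| ≤ a → |B'| ≤ a' →
      |A - B * G.E Λ φ - (A' - B' * G.EA Λ φ)| ≤ a + a * 1 + a' * (4 * (x ^ 6 * v)) :=
    fun {A B A' B' a a'} h1 h2 h3 => by
      rw [show A - B * G.E Λ φ - (A' - B' * G.EA Λ φ) =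
        A - A' - (B - B') * G.E Λ φ - B' * (G.E Λ φ - G.EA Λ φ) by ring]
      refine (abs_sub _ _).trans (add_le_add ((abs_sub _ _).trans (add_le_add h1 ?_)) ?_) <;> rw [abs_mul]
      · exact mul_le_mul h2 bE (abs_nonneg _) ((abs_nonneg _).trans h1)
      · exact mul_le_mul h3 c0 (abs_nonneg _) ((abs_nonneg _).trans h3)
  have ec := p.cov _ h.d_cse (Tame.bdd (abs_cs _))
  have q : |2 * G.lam g * G.C Λ F (cs G.eq) *
      (G.E Λ (fun s => cs (hm 0 G.R) s * φ s) - G.E Λ (cs (hm 0 G.R)) * G.E Λ φ -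
        (G.EA Λ (fun s => cs (hm 0 G.R) s * φ s) - G.EA Λ (cs (hm 0 G.R)) * G.EA Λ φ))| ≤
      2 * (x ^ 5 * v ^ 2) * (12 * G.N₁ Λ F) * (4 * (x ^ 6 * v) + 4 * (x ^ 6 * v) * 1 + 1 * (4 * (x ^ 6 * v))) := by
    rw [abs_mul, abs_mul, abs_mul, abs_two]
    gcongr
    · exact h.lam'
    · rw [ec]; exact p.kap (abs_bdd cA p.bd (abs_cs _))
    · exact two (p.c0 _ (h.d_csh.mul d) (abs_mul_one (abs_cs _) b)) (p.c0 _ h.d_csh (abs_cs _))
        (cA.wt.abs_ex_le fun s _ => abs_cs _ s)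
  have q2 : ∀ i j, |G.C Λ F (fun t => G.yi g i t * G.yi g j t) / 2 *
      (G.E Λ (fun s => G.di i s * G.di j s * φ s) - G.E Λ (fun s => G.di i s * G.di j s) * G.E Λ φ -
        (G.EA Λ (fun s => G.di i s * G.di j s * φ s) -
          G.EA Λ (fun s => G.di i s * G.di j s) * G.EA Λ φ))| ≤
      72 * C ^ 2 * (x ^ 10 * v ^ 3 * G.N₁ Λ F) := fun i j => by
    have c2 := p.c2 _ (DepG.const _ 1) (fun _ => abs_one.le) i j
    simp only [mul_one] at c2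
    rw [abs_mul, abs_div, abs_two]
    calc _ ≤ 12 * G.N₁ Λ F * (C * (G.r : ℝ) ^ 2) / 2 * (4 * (x ^ 8 * v) * (1 / G.R) ^ 2 +
            4 * (x ^ 8 * v) * (1 / G.R) ^ 2 * 1 + C * (1 / G.R) ^ 2 * (4 * (x ^ 6 * v))) := by
          gcongr
          exacts [p.by2 h i j, two (p.c2 φ d b i j) c2 (h.d2' i j)]
      _ = 24 * C * ((2 * 1 * x ^ 8 + C * x ^ 6) * (v * (G.r * (1 / G.R)) ^ 2) * G.N₁ Λ F) := by ring
      _ ≤ 24 * C * ((2 * C * x ^ 10 + C * x ^ 10) * (v * v ^ 2) * G.N₁ Λ F) := by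
          gcongr
          exacts [by linarith, by norm_num, by linarith, by norm_num, h.rv]
      _ = _ := by ring
  rw [h.pw 3 10 _ (by push_cast; ring)] at a
  simp only [Fin.sum_univ_two, add_mul] at a ⊢
  rw [p.cov' h d b, h.pw 3 12 _ (by push_cast; ring), E_eq fun s => _ + _,
    Ex_add (ig _ _ _ tc) (((ig _ _ _ (tdd 0 0)).add (ig _ _ _ (tdd 0 1))).add
      ((ig _ _ _ (tdd 1 0)).add (ig _ _ _ (tdd 1 1)))),
    Ex_add ((ig _ _ _ (tdd 0 0)).add (ig _ _ _ (tdd 0 1))) ((ig _ _ _ (tdd 1 0)).add (ig _ _ _ (tdd 1 1))),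
    Ex_add (ig _ _ _ (tdd 0 0)) (ig _ _ _ (tdd 0 1)), Ex_add (ig _ _ _ (tdd 1 0)) (ig _ _ _ (tdd 1 1))]
  simp only [← E_eq]
  rw [ex _ _ tc, ex _ _ (tdd 0 0), ex _ _ (tdd 0 1), ex _ _ (tdd 1 0), ex _ _ (tdd 1 1)]
  have a' := abs_le.1 (p.kap a)
  have q' := abs_le.1 q
  have q00 := abs_le.1 (q2 0 0)
  have q01 := abs_le.1 (q2 0 1)
  have q10 := abs_le.1 (q2 1 0)
  have q11 := abs_le.1 (q2 1 1)
  simp only [ec, p.cyy h] at q' q00 q01 q10 q11 ⊢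
  have u : 0 ≤ x ^ 10 * v ^ 3 * G.N₁ Λ F := by positivity
  have := mul_le_mul_of_nonneg_left (by nlinarith [h.hx] : 12 + 288 * x + 288 * C ^ 2 ≤ x ^ 2) u
  linarith

end Pk

theorem Cx.x4 (h : Cx Λ G g W ε C x v) : 12 * C ≤ W ^ ε := by
  have := h.pw 0 4 ε (by push_cast; ring)
  have hx := h.x1
  rw [this, pow_zero, mul_one]
  calc 12 * C ≤ x := by nlinarith [h.hx, h.C1]
    _ ≤ x ^ 4 := le_self_pow₀ (by linarith) (by norm_num)

theorem Cx.yrot (h : Cx Λ G g W ε C x v) (s : Cfg Pt) :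
    G.yi g 0 (mapH (rotZ 0) s) = -G.yi g 1 s ∧ G.yi g 1 (mapH (rotZ 0) s) = G.yi g 0 s := by
  have a : (fun y => G.ch (co 0) (rotZ 0 y)) = -G.ch (co 1) := h.alg.rot_ch.1
  have b : (fun y => G.ch (co 1) (rotZ 0 y)) = G.ch (co 0) := h.alg.rot_ch.2
  simp only [Gm.yi, pr_mapH, a, b, pr_neg, AddMonoidHom.neg_apply, neg_div, and_self]

theorem Cx.Crot (h : Cx Λ G g W ε C x v) (h4 : D4 0 F) (X : Cfg Pt → ℝ) :
    G.C Λ F (fun s => X (mapH (rotZ 0) s)) = G.C Λ F X := by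
  have e := Om.EN_map h.ok (Om.sym_rot h.ok 0) (Om.map_bl_rot 0 G.R₂) (Om.rotZ_self 0)
  have e2 := e fun s => F s * X s
  simp only [(h4 _).1] at e2
  simp only [Gm.C, Gm.E, e X, e2]

end O11

open O11

variable (hH : HolStmt) (hT : TrfStmt) (h3 : K3Stmt) (hM : MomStmt) (hA : AlgStmt)
include hH hT h3 hM hA


theorem kOddStmt : KOddStmt := lift hH h3 hM hA fun _ _ _ _ _ _ _ _ h => ⟨h.lam, fun _ hF ho h4 =>
  let ⟨_, _, p⟩ := h.pk hT hF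
  ⟨p.e1 _ (abs_sn _), p.kodd h ho h4⟩⟩


theorem kEvenStmt : KEvenStmt := lift hH h3 hM hA fun Λ G g W ε C x v h => ⟨h.lam, fun F hF he => by
  obtain ⟨κ, f, p⟩ := h.pk hT hF
  have := h.x4
  have hC := h.C1
  refine ⟨p.crude h he, ?_, fun i j => ⟨(p.by2 h i j).trans ?_,
    (abs2 h.cE (tame_d i) (tame_d j) (h.mE i) (h.mE j)).trans ?_⟩, fun h4 => ⟨?_, ?_⟩, p.sharp h he⟩
  · have a := p.e1 _ (abs_cs G.eq)
    have b := p.e1 _ fun _ => abs_one.le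
    have c : |G.E Λ (cs G.eq)| ≤ 1 := h.cE.wt.abs_ex_le fun s _ => abs_cs _ s
    simp only [mul_one] at b
    refine (abs_sub _ _).trans ?_
    rw [abs_mul]
    nlinarith [mul_le_mul b c (abs_nonneg _) (by linarith [p.n0])]
  · nlinarith [mul_le_mul_of_nonneg_right this (mul_nonneg (sq_nonneg (G.r : ℝ)) p.n0)]
  · rw [div_eq_mul_one_div (W ^ ε), ← one_div_pow]
    exact mul_le_mul_of_nonneg_right (by linarith) (sq_nonneg _)
  · have := h.Crot h4 fun t => G.yi g 0 t * G.yi g 1 t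
    simp only [(h.yrot _).1, (h.yrot _).2, neg_mul, mul_comm (G.yi g 1 _), Gm.C, mul_neg, E_eq,
      Ex_neg] at this ⊢
    linarith
  · have := h.Crot h4 fun t => G.yi g 1 t * G.yi g 1 t
    simpa only [(h.yrot _).2] using this⟩

end Crest.Agent.T145.Kr
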