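import Crest.Agent.T145.FlBas_4
import Crest.Agent.T145.KrSw_44
import Crest.Agent.T145.XiC_22
import Crest.Agent.T145.Soft_23
import Crest.Agent.T145.FlA_51
import Crest.Agent.T145.KrOut_11_Mg
import Crest.Agent.T145.FlKb_14
import Crest.Agent.T145.FlDef2_82

-- ▼ part T145/FlLow_11
section

/-!
# Row 145, odd flow: the soft lower bound `E (S_a S_b) ≥ c (b / a) ^ (-π g)` from (Q) (helper11)
-/

set_option autoImplicit false

namespace Crest.Agent.T145.Fl.L11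

open Finset Pot Xi Real

/-! ## Green forms of the smeared charges -/

theorem op_A0 {D : Finset Pt} {x : Pt} (hx : x ∈ D) (u : Pt → ℝ) : op (eD nL D) u x = A0 u x := by
  rw [op_eD nL_ok hx, A0_apply, nL_J]; rfl

theorem gr_A0 {D : Finset Pt} {u : Pt → ℝ} (hu : Pot.Sup D u) : gr D (eD nL D) (A0 u) = u :=
  (Kr.Sw44.coD D).gr_unique' hu fun _ hx => op_A0 hx u

theorem xg_A0 {D : Finset Pt} {u : Pt → ℝ} (hu : Pot.Sup D u) : Kr.xg D (A0 u) = A0 u := by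
  funext x
  rw [Kr.xg, gr_A0 hu, Kr.Sw44.op_of_sup nL_ok (subset_insert x D) hu, op_A0 (mem_insert_self x D)]

theorem sw_A0 {D : Finset Pt} {u : Pt → ℝ} (hu : Pot.Sup D u) : Kr.sw D (A0 u) = 0 := by
  rw [Kr.sw, xg_A0 hu, sub_self]

theorem GD_A0 {D : Finset Pt} (f : Pt → ℝ) {u : Pt → ℝ} (hu : Pot.Sup D u) :
    GD nL D f (A0 u) = ∑ x ∈ D, f x * u x := by
  rw [GD, G, gr_A0 hu]; rfl

theorem xi_eq (r : ℝ) : xi r = dl (0 : Pt) + A0 (Phi r) := funext (xi_apply r)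

theorem GD_xi {n : ℕ} {a b : ℝ} (ha : 0 < a) (hb : 0 < b) (h1 : 2 * a ≤ n) (h2 : 2 * b ≤ n) :
    GD nL (bl 0 n) (xi a) (xi b) =
      GD nL (bl 0 n) (dl 0) (dl 0) - cr a + ∑ x ∈ bl 0 n, Phi b x * xi a x := by
  have co := Kr.Sw44.coD (bl 0 n)
  have e1 : GD nL (bl 0 n) (xi a) (xi b) = GD nL (bl 0 n) (xi a) (dl 0) + GD nL (bl 0 n) (xi a) (A0 (Phi b)) := by
    conv_lhs => rw [xi_eq b]
    exact co.G_add_right _ _ _
  have e2 : GD nL (bl 0 n) (xi a) (dl 0) =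
      GD nL (bl 0 n) (dl 0) (dl 0) + GD nL (bl 0 n) (dl 0) (A0 (Phi a)) := by
    rw [GD, co.G_comm, xi_eq a]
    exact co.G_add_right _ _ _
  rw [e1, e2, GD_A0 _ (sup_Phi ha (by linarith)), GD_A0 _ (sup_Phi hb (by linarith))]
  have e3 : ∑ x ∈ bl 0 n, dl (0 : Pt) x * Phi a x = -cr a := by
    rw [← Phi_zero ha]; exact ip_dl (self_mem_bl _ _) _
  rw [e3]
  simp only [mul_comm (xi a _)]
  ring

theorem GD_self {n : ℕ} {a : ℝ} (ha : 0 < a) (h : 2 * a ≤ n) :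
    GD nL (bl 0 n) (xi a) (xi a) = GD nL (bl 0 n) (dl 0) (dl 0) - cr a - er a := by
  rw [GD_xi ha ha h h, er_eq ha (bl_mono 0 (Nat.ceil_le.2 h))]; ring

theorem GD_two {n : ℕ} {a b : ℝ} (ha : 0 < a) (hab : 2 * a + 1 ≤ b) (h : 2 * b ≤ n) :
    GD nL (bl 0 n) (xi a) (xi b) = GD nL (bl 0 n) (dl 0) (dl 0) - cr b := by
  have hb : 0 < b := by linarith
  have hk : 2 * a ≤ (⌈2 * a⌉₊ : ℕ) := Nat.le_ceil _
  have hk' : ((⌈2 * a⌉₊ : ℕ) : ℝ) ≤ b := (Nat.ceil_lt_add_one (by linarith)).le.trans hab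
  rw [GD_xi ha hb (by linarith) h, ← sum_subset (bl_mono 0 (Nat.ceil_le.2 (by linarith : 2 * a ≤ n)))
    fun x _ hx => by rw [sup_xi ha hk x hx, mul_zero],
    sum_congr rfl fun x hx => by rw [Phi_in hb hk' hx, sub_mul]]
  have := pk_pair ha hk 0
  simp only [sub_zero] at this
  rw [sum_sub_distrib, this, ← mul_sum, sum_xi ha hk, psi_in ha (n := 0) (by simpa using ha.le) (self_mem_bl _ _)]
  ring

theorem le_G00 : ∃ C : ℝ, 0 ≤ C ∧ ∀ (n : ℕ) (b : ℝ), 0 < b → 1 ≤ n →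
    cr b + log (n / b) / (2 * π) - C / n ≤ GD nL (bl 0 n) (dl 0) (dl 0) := by
  obtain ⟨C, hC, h⟩ := pk_sub_cr
  refine ⟨C, hC, fun n b hb hn => ?_⟩
  have hn' : (0 : ℝ) < n := by exact_mod_cast hn
  have := le_GD_dl (D := bl 0 n) (self_mem_bl 0 n) 0 (M := cr b + log (n / b) / (2 * π) - C / n)
    fun w _ e _ hw => by
      have h1 := le_eu_of_not_bl hw
      have h0 : w + e - 0 ≠ 0 := fun h0 => hw (by rw [sub_zero] at h0; rw [h0]; exact self_mem_bl _ _)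
      have h2 := (abs_le.1 (h b hb _ h0)).1
      have h3 : log (n / b) / (2 * π) ≤ log (eu (w + e - 0) / b) / (2 * π) := by
        gcongr; linarith
      have h4 : C / eu (w + e - 0) ≤ C / n := by gcongr; linarith
      linarith
  rwa [sub_zero, pk_zero, sub_zero] at this

/-! ## (Q) for a charge in an ambient model -/

theorem chq (hQ : Kr.QStmt) : Soft fun Λ K ε _ l L => ∀ (n : ℕ) (m : Mdl Pt) (f : Pt → ℝ),
    Nc.Amb Λ m (bl 0 n) → (n : ℝ) ≤ K * L → (∀ x, |f x| ≤ K / (L : ℝ) ^ 2) →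
    |Ex (m.W 0) (fun s => cos (pr f s)) - exp (-(Λ.gN l * GD nL (bl 0 n) f f) / 2) *
      Ex (m.W 0) fun s => cos (pr (Kr.sw (bl 0 n) f) s)| ≤ ε := by
  refine hQ.mono fun Λ K ε δ l L hΛ hK _ _ h n m f hm hn hf => ?_
  have q := (h (bl 0 n) f ⟨0, L, bl_mono 0 (Nat.le_floor hn),
    le_mul_of_one_le_left (Nat.cast_nonneg _) hK, ext_bl 0 n L⟩ fun x _ => hf x).1 m hm
  set a := exp (-(Λ.gN l * GD nL (bl 0 n) f f) / 2)
  obtain ⟨p1, p2, -⟩ := Kr.qpStmt Λ (bl 0 n) f a hΛ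
  have hW : Wt (m.W 0) := (hm.ctr.cen hm.anch).wt
  obtain ⟨i1, e1⟩ := hm.near.dlr hΛ hm.ctr.1 hm.sub hW (hW.ig_bdd fun s => abs_cos_le_one (pr f s))
  have i2 := (hW.ig_bdd fun s => abs_cos_le_one (pr (Kr.sw (bl 0 n) f) s)).const_mul a
  rw [e1, ← Ex_const_mul, ← Ex_sub i1 i2]
  refine (abs_Ex_le hW.nonneg (i1.sub i2)).trans ((Ex_mono hW.nonneg ((i1.sub i2).abs hW.nonneg)
    (hW.ig_bdd fun s => (abs_of_nonneg (p2 s).1).trans_le (p2 s).2) fun s => ?_).trans q)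
  simpa only [add_zero] using p1 (fun _ => 0) s (Out.const _ _)

theorem sn_sn (a b : ℝ) (s : Cfg Pt) : Sn a s * Sn b s =
    (cos (pr ((2 * π) • (xi b - xi a)) s) - cos (pr ((2 * π) • (xi a + xi b)) s)) / 2 := by
  simp only [Sn, pr_smul, pr_sub, pr_add, AddMonoidHom.smul_apply, AddMonoidHom.sub_apply,
    AddMonoidHom.add_apply, smul_eq_mul, mul_sub, mul_add, cos_sub, cos_add]
  ring

/-- LOW -/
theorem low (hQ : Kr.QStmt) : ∃ c₀ C₀ : ℝ, 0 < c₀ ∧ Soft fun Λ K ε _ l L =>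
    ∀ (a b : ℝ) (n : ℕ) (m : Mdl Pt), Nc.Amb Λ m (bl 0 n) → C₀ ≤ a → 2 * a + 1 ≤ b → (n : ℝ) = 2 * b →
      (L : ℝ) ≤ K * a → (n : ℝ) ≤ K * L → 1 / 2 ≤ Λ.gN l → Λ.gN l ≤ 1 →
      c₀ * (b / a) ^ (-(π * Λ.gN l)) - ε ≤ Ex (m.W 0) fun s => Sn a s * Sn b s := by
  obtain ⟨C, hC, hG⟩ := le_G00
  obtain ⟨Ce, hCe, he⟩ := abs_er_le
  obtain ⟨Cx, hCx, hx⟩ := abs_xi_le
  refine ⟨exp (-(4 * π ^ 2 * Ce)) / 4, 1 + 10 * C, by positivity, fun F θ₀ K ε h0 hK hε => ?_⟩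
  obtain ⟨δ, hδ, H⟩ := chq hQ F θ₀ (K + 4 * π * Cx * K ^ 2) ε h0
    (hK.trans (le_add_of_nonneg_right (by positivity))) hε
  refine ⟨δ, hδ, fun Λ hΛ l L hw a b n m hm ha hab hn hL hn' g1 g2 => ?_⟩
  set g := Λ.gN l
  have hL0 : (0 : ℝ) < L := hw.L_pos'
  have a1 : 1 ≤ a := by linarith
  have a0 : 0 < a := by linarith
  have b0 : 0 < b := by linarith
  have hf : ∀ x, 2 * π * (|xi a x| + |xi b x|) ≤ (K + 4 * π * Cx * K ^ 2) / (L : ℝ) ^ 2 := fun x => by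
    have h1 : Cx / b ^ 2 ≤ Cx / a ^ 2 := by gcongr; linarith
    have h2 : Cx / a ^ 2 ≤ Cx * K ^ 2 / (L : ℝ) ^ 2 := by
      rw [div_le_div_iff₀ (by positivity) (by positivity), mul_assoc, ← mul_pow]
      gcongr
    calc _ ≤ 2 * π * (Cx * K ^ 2 / (L : ℝ) ^ 2 + Cx * K ^ 2 / (L : ℝ) ^ 2) := by
          gcongr
          exacts [(hx a a1 x).trans h2, (hx b (by linarith) x).trans (h1.trans h2)]
      _ = 4 * π * Cx * K ^ 2 / (L : ℝ) ^ 2 := by ring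
      _ ≤ _ := by gcongr; linarith
  have hn2 : (n : ℝ) ≤ (K + 4 * π * Cx * K ^ 2) * L :=
    hn'.trans (by gcongr; exact le_add_of_nonneg_right (by positivity))
  have q1 := H Λ hΛ l L hw n m ((2 * π) • (xi b - xi a)) hm hn2 fun x => le_trans (by
    rw [Pi.smul_apply, smul_eq_mul, abs_mul, abs_of_pos two_pi_pos, add_comm]
    gcongr; exact abs_sub _ _) (hf x)
  have q2 := H Λ hΛ l L hw n m ((2 * π) • (xi a + xi b)) hm hn2 fun x => le_trans (by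
    rw [Pi.smul_apply, smul_eq_mul, abs_mul, abs_of_pos two_pi_pos]
    gcongr; exact abs_add_le _ _) (hf x)
  have hW : Wt (m.W 0) := (hm.ctr.cen hm.anch).wt
  have co := Kr.Sw44.coD (bl 0 n)
  have s1 : Kr.sw (bl 0 n) ((2 * π) • (xi b - xi a)) = 0 := by
    rw [Kr.Sw44.sw_smul, xi_sub, sw_A0 ((sup_Phi b0 (by linarith)).sub (sup_Phi a0 (by linarith))), smul_zero]
  have gaa := GD_self (n := n) a0 (by linarith)
  have gbb := GD_self (n := n) b0 (by linarith)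
  have gab := GD_two (n := n) a0 hab (by linarith)
  have gba : GD nL (bl 0 n) (xi b) (xi a) = _ := (co.G_comm _ _).trans gab
  have v1 : GD nL (bl 0 n) ((2 * π) • (xi b - xi a)) ((2 * π) • (xi b - xi a)) =
      (2 * π) ^ 2 * (log (b / a) / (2 * π) - er a - er b) := by
    simp only [GD] at gaa gbb gab gba ⊢
    rw [co.G_smul, G_sub_left, co.G_sub_right, co.G_sub_right, gaa, gbb, gab, gba, ← cr_sub a0 b0]; ring
  have v2 : GD nL (bl 0 n) ((2 * π) • (xi a + xi b)) ((2 * π) • (xi a + xi b)) =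
      (2 * π) ^ 2 * (log (b / a) / (2 * π) - er a - er b + 4 * (GD nL (bl 0 n) (dl 0) (dl 0) - cr b)) := by
    simp only [GD] at gaa gbb gab gba ⊢
    rw [co.G_smul, G_add_left, co.G_add_right, co.G_add_right, gaa, gbb, gab, gba, ← cr_sub a0 b0]; ring
  rw [s1, v1] at q1
  simp only [pr_zero, AddMonoidHom.zero_apply, cos_zero, hW.ex_const, mul_one] at q1
  rw [v2] at q2
  set A := exp (-(g * ((2 * π) ^ 2 * (log (b / a) / (2 * π) - er a - er b))) / 2) with hA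
  have hA0 : 0 < A := exp_pos _
  have g0 := hG n b b0 (by exact_mod_cast (by linarith : (1 : ℝ) ≤ n))
  rw [show (n : ℝ) / b = 2 by rw [hn]; field_simp] at g0
  have l2 := log_two_gt_d9
  have l2' := log_two_lt_d9
  have p3 := pi_gt_three
  have p4 := pi_lt_four
  have k1 : 1 / 20 ≤ GD nL (bl 0 n) (dl 0) (dl 0) - cr b := by
    have h1 : C / n ≤ 1 / 40 := by
      rw [div_le_div_iff₀ (by linarith) (by norm_num)]; linarith
    have h2 : 3 / 40 ≤ log 2 / (2 * π) := by rw [le_div_iff₀ two_pi_pos]; linarith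
    linarith
  have k2 : exp (-(g * ((2 * π) ^ 2 * (log (b / a) / (2 * π) - er a - er b +
      4 * (GD nL (bl 0 n) (dl 0) (dl 0) - cr b)))) / 2) ≤ A / 2 := by
    rw [hA, le_div_iff₀ two_pos, ← exp_log two_pos, ← exp_add, exp_log two_pos]
    refine exp_le_exp.2 ?_
    have : 1 / 2 * (36 * (1 / 20)) ≤ g * ((2 * π) ^ 2 * (GD nL (bl 0 n) (dl 0) (dl 0) - cr b)) := by
      gcongr; nlinarith
    nlinarith
  have k3 : exp (-(4 * π ^ 2 * Ce)) * (b / a) ^ (-(π * g)) ≤ A := by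
    rw [hA, rpow_def_of_pos (div_pos b0 a0), ← exp_add]
    refine exp_le_exp.2 ?_
    have e1 := (abs_le.1 (he a a1)).1
    have e2 := (abs_le.1 (he b (by linarith))).1
    have e3 : -(g * ((2 * π) ^ 2 * (log (b / a) / (2 * π) - er a - er b))) / 2 =
        log (b / a) * -(π * g) + 2 * π ^ 2 * (g * (er a + er b)) := by field_simp; ring
    have e4 : -(2 * Ce) ≤ g * (er a + er b) := by nlinarith
    rw [e3]
    nlinarith [mul_le_mul_of_nonneg_left e4 (by positivity : 0 ≤ 2 * π ^ 2)]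
  have c1 := abs_le.1 (hW.abs_ex_le (C := 1) fun s _ =>
    abs_cos_le_one (pr (Kr.sw (bl 0 n) ((2 * π) • (xi a + xi b))) s))
  simp only [sn_sn]
  rw [Ex_div_const, Ex_sub (hW.ig_bdd fun s => abs_cos_le_one _) (hW.ig_bdd fun s => abs_cos_le_one _)]
  have q1' := (abs_le.1 q1).1
  have q2' := (abs_le.1 q2).2
  nlinarith [mul_le_mul_of_nonneg_left c1.2 (exp_pos (-(g * ((2 * π) ^ 2 * (log (b / a) / (2 * π) - er a - er b +
      4 * (GD nL (bl 0 n) (dl 0) (dl 0) - cr b)))) / 2)).le]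

end Crest.Agent.T145.Fl.L11
end

-- ▼ part T145/FlKs_11

/-!
# Row 145, odd flow: the soft inputs `Ks`, `low₁`, `low₂` of `Fl.Pack` from the kernel module (helper11)
-/

set_option autoImplicit false

namespace Crest.Agent.T145.Fl.L11

open Finset Real Filter

theorem ev_rp {a : ℝ} (ha : 0 < a) (c : ℝ) : ∀ᶠ W : ℕ in atTop, c ≤ (W : ℝ) ^ a :=
  ((tendsto_rpow_atTop ha).comp tendsto_natCast_atTop_atTop).eventually_ge_atTop c

theorem num {c₀ W e t : ℝ} {j : ℕ} (hc : 0 < c₀) (hW : 1 ≤ W) (he : e ≤ 1) (h : 1024 / c₀ ≤ W ^ (e / 2))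
    (hj : j ≤ 2) (ht : t ≤ 2 + e / 4) (he0 : 0 ≤ e) :
    W ^ (-(2 * j : ℝ) - e) ≤ c₀ * (8 * W ^ j) ^ (-t) - W ^ (-4 - e) := by
  have W0 : 0 < W := by linarith
  have hj' : (j : ℝ) ≤ 2 := by exact_mod_cast hj
  have h1 : W ^ (-4 - e) ≤ W ^ (-(2 * j : ℝ) - e) := rpow_le_rpow_of_exponent_le hW (by linarith)
  have h2 : (1 / 512 : ℝ) ≤ 8 ^ (-t) := by
    rw [show (1 / 512 : ℝ) = 8 ^ (-(3 : ℕ) : ℝ) by rw [rpow_neg (by norm_num), rpow_natCast]; norm_num]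
    exact rpow_le_rpow_of_exponent_le (by norm_num) (by push_cast; linarith)
  have h3 : W ^ (e / 2) * W ^ (-(2 * j : ℝ) - e) ≤ (W ^ j) ^ (-t) := by
    rw [← rpow_add W0, ← rpow_natCast, ← rpow_mul W0.le]
    exact rpow_le_rpow_of_exponent_le hW (by nlinarith [Nat.cast_nonneg (α := ℝ) j])
  have h4 : 0 < W ^ (-(2 * j : ℝ) - e) := by positivity
  rw [mul_rpow (by norm_num) (by positivity)]
  rw [div_le_iff₀ hc] at h
  have h5 : c₀ * (1 / 512 * (W ^ (e / 2) * W ^ (-(2 * j : ℝ) - e))) ≤ c₀ * (8 ^ (-t) * (W ^ j) ^ (-t)) := by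
    gcongr
  nlinarith [mul_le_mul_of_nonneg_right h h4.le]

theorem g_rng {g η : ℝ} (h : |π * g - 2| ≤ η) (hη : η ≤ 1 / 4) : 1 / 2 ≤ g ∧ g ≤ 1 := by
  have := abs_le.1 h
  constructor <;> by_contra hn <;> nlinarith [pi_lt_d2, pi_gt_three, not_le.1 hn]

/-- LOW at the scales of the cone, free exponent -/
theorem lowP (hQ : Kr.QStmt) (F : Fa) {θ₀ e : ℝ} (h0 : 0 < θ₀) (he : 0 < e) (he1 : e ≤ 1) :
    ∃ C₀ : ℕ, ∀ᶠ W : ℕ in atTop, ∃ δ : ℝ, 0 < δ ∧ ∀ Λ, F.Mem Λ → ∀ l L, Λ.Win θ₀ δ l L →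
      |π * Λ.gN l - 2| ≤ e / 4 → ∀ r : ℕ, C₀ ≤ r → W * r ≤ L → L ≤ 2 * (W * r) → ∀ m,
      (Nc.Amb Λ m (bl 0 (4 * (W * r))) →
        (W : ℝ) ^ (-2 - e) ≤ Ex (m.W 0) fun s => Sn (r / 4) s * Sn (2 * (W * r)) s) ∧
      (Nc.Amb Λ m (bl 0 (4 * (W * (W * r)))) →
        (W : ℝ) ^ (-4 - e) ≤ Ex (m.W 0) fun s => Sn (r / 4) s * Sn (2 * (W * (W * r))) s) := by
  obtain ⟨c₀, C₀, hc, H⟩ := low hQ
  refine ⟨⌈4 * C₀⌉₊ + 1, ?_⟩
  filter_upwards [ev_rp (half_pos he) (1024 / c₀), eventually_ge_atTop 1] with W hW hW1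
  have W1 : (1 : ℝ) ≤ W := by exact_mod_cast hW1
  obtain ⟨δ, hδ, h⟩ := H F θ₀ (8 * W) ((W : ℝ) ^ (-4 - e)) h0 (by linarith) (by positivity)
  refine ⟨δ, hδ, fun Λ hΛ l L hw hg r hr h1 h2 m => ?_⟩
  obtain ⟨g1, g2⟩ := g_rng hg (by linarith)
  have r1 : (1 : ℝ) ≤ r := by exact_mod_cast (by omega : 1 ≤ r)
  have rC : C₀ ≤ (r : ℝ) / 4 := by
    have : ((⌈4 * C₀⌉₊ : ℕ) : ℝ) ≤ r := by exact_mod_cast (by omega : ⌈4 * C₀⌉₊ ≤ r)
    linarith [Nat.le_ceil (4 * C₀)]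
  have h1' : (W : ℝ) * r ≤ L := by exact_mod_cast h1
  have h2' : (L : ℝ) ≤ 2 * (W * r) := by exact_mod_cast h2
  have a1 : (r : ℝ) ≤ W * r := le_mul_of_one_le_left (by linarith) W1
  have a2 : (W : ℝ) * r ≤ W * (W * r) := le_mul_of_one_le_left (by positivity) W1
  have a3 : (W : ℝ) * (W * r) ≤ W * L := by gcongr
  have t := (abs_le.1 hg).2
  refine ⟨fun hm => ?_, fun hm => ?_⟩
  · have := h Λ hΛ l L hw (r / 4) (2 * (W * r)) _ m hm rC (by linarith) (by push_cast; ring) (by linarith)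
      (by push_cast; nlinarith) g1 g2
    rw [show 2 * ((W : ℝ) * r) / (r / 4) = 8 * W ^ 1 by field_simp; ring] at this
    exact le_trans (by simpa using num hc W1 he1 hW one_le_two (by linarith) he.le) this
  · have := h Λ hΛ l L hw (r / 4) (2 * (W * (W * r))) _ m hm rC (by linarith) (by push_cast; ring)
      (by linarith) (by push_cast; nlinarith) g1 g2
    rw [show 2 * ((W : ℝ) * (W * r)) / (r / 4) = 8 * W ^ 2 by field_simp; ring] at this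
    refine le_trans ?_ this
    have := num hc W1 he1 hW le_rfl (show π * Λ.gN l ≤ _ by linarith) he.le
    rwa [show -(2 * ((2 : ℕ) : ℝ)) = -4 by norm_num] at this

variable {Λ : Lat}

theorem St_St (hΛ : Λ.Ok) {z : Pt} {r R : ℕ} (h : r ≤ R) {F : Cfg Pt → ℝ} (hF : Tame F) :
    Nc.St Λ z R (Nc.St Λ z r F) = Nc.St Λ z R F := by
  funext s
  rw [FlF4.St_cE hΛ (m := Λ.D (bl z R)) ⟨hΛ.ctr_D _, hΛ.anch_D _, bl_mono z h, Lat.near_D (bl_mono z h)⟩ F]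
  exact (Mdl.cE_cE (m := Λ.D (bl z R)) (bl_mono z h) (hΛ.wt_D _ s) ((hΛ.se_D _ s).ig hF)).2

/-- the condenser of one cone step -/
def gm (Λ : Lat) (w W r : ℕ) : Kr.Gm := ⟨w * r, w * (w * r) + Λ.rg, W * r, w * (W * r)⟩

theorem adm (hΛ : Λ.Ok) {w r₀ L r : ℕ} (W : ℕ) (hG : Nc.Gd Λ (1 / 400) w r₀ L) (hw : 4 ≤ w) (h0 : r₀ ≤ r)
    (hL : w * r ≤ L) {F : Cfg Pt → ℝ} (hF : Ins 0 r F) : (gm Λ w W r).Adm Λ (Nc.St Λ 0 r F) := by
  have h1 := hG.2.1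
  have h2 : 4 * r ≤ w * r := Nat.mul_le_mul_right _ hw
  have h3 : 4 * (w * r) ≤ w * (w * r) := Nat.mul_le_mul_right _ hw
  refine ⟨⟨r, show _ ≤ w * r by omega, (hG.2.2 r h0 (by omega)).trans (by norm_num),
    FlF4.depG_St hΛ (hF.1.mono (bl_mono 0 (by omega))) le_rfl⟩, show w * r + _ ≤ w * (w * r) + _ by omega,
    ?_, FlF4.In_St hΛ (hF.1.mono (bl_mono 0 (show r ≤ w * r by omega))) (show _ ≤ w * r by omega)
      (FlF4.In_tame hΛ _ _ hF.2)⟩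
  show Nc.gam Λ (w * r) (w * (w * r) + Λ.rg - Λ.rg) ≤ 2
  rw [Nat.add_sub_cancel]
  exact (hG.2.2 _ (by omega) hL).trans (by norm_num)

theorem ks_core (hΛ : Λ.Ok) {w r₀ L r W : ℕ} (hG : Nc.Gd Λ (1 / 400) w r₀ L) (hw : 4 ≤ w) (h0 : r₀ ≤ r)
    (hW : 1 ≤ W) (hL : w * (W * r) ≤ L) {A B b lam : ℝ} {σ τ : Cfg Pt → ℝ} (hA : 0 ≤ A) (hb : 0 < b)
    (hτ : ∀ s, |τ s| ≤ 1) (dτ : DepG (bl 0 (W * r + 1)) τ) (hl : |lam| ≤ B) (hAb : 4 * A ≤ b)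
    (hK : ∀ F, (gm Λ w W r).Adm Λ F → OddF F → D4 0 F →
      |(gm Λ w W r).E Λ fun t => F t * σ t| ≤ 2 * (gm Λ w W r).N₁ Λ F ∧
      (gm Λ w W r).N₂ Λ (fun s => (gm Λ w W r).T Λ F s -
        2 * lam * (gm Λ w W r).E Λ (fun t => F t * σ t) * τ s) ≤ A * (gm Λ w W r).N₁ Λ F)
    (hlo : b ≤ Ex ((Λ.D (bl 0 (w * (W * r)))).W 0) fun s => Sn (r / 4) s * Sn (2 * (W * r)) s)
    {F : Cfg Pt → ℝ} (hF : Ins 0 r F) (ho : OddF F) (h4 : D4 0 F) :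
    nu Λ w 0 (W * r) F ≤ (A + 4 * B) * nu Λ w 0 r F ∧
      ∃ c : ℝ, nu Λ w 0 (W * r) (fun s => F s - c * Sn (r / 4) s) ≤ A * (1 + 8 * B / b) * nu Λ w 0 r F := by
  have h1 := hG.2.1
  have rg1 := hΛ.one_le_rg
  have h2 : r ≤ W * r := Nat.le_mul_of_pos_left _ hW
  have h3 : 4 * (W * r) ≤ w * (W * r) := Nat.mul_le_mul_right _ hw
  have h5 : w * r ≤ w * (W * r) := Nat.mul_le_mul_left _ h2
  have hB : 0 ≤ B := (abs_nonneg _).trans hl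
  have cE : Cen ((Λ.Nr (bl 0 (w * (W * r))) 0).W 0) := hΛ.cen_Nr_bl (self_mem_bl _ _)
  have key : ∀ H, Ins 0 r H → OddF H → D4 0 H → ∃ a : ℝ, |a| ≤ 4 * B * nu Λ w 0 r H ∧
      Nc.In Λ 0 (w * (W * r)) (fun s => Nc.St Λ 0 (W * r) H s - a * τ s) ∧
      Nc.Nm Λ 0 (w * (W * r)) (fun s => Nc.St Λ 0 (W * r) H s - a * τ s) ≤ A * nu Λ w 0 r H :=
    fun H hH ho h4 => by
      obtain ⟨k1, k2⟩ := hK _ (adm hΛ W hG hw h0 (by omega) hH) (Om.odd_St ho 0 r) (Om.d4_St hΛ h4 r)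
      refine ⟨_, ?_, Ig.sub (FlF4.In_St hΛ (hH.1.mono (bl_mono 0 (by omega))) (by omega)
        (FlF4.In_tame hΛ _ _ hH.2)) (cE.ig ((Tame.bdd hτ).const_mul _)), by
          simpa only [Kr.Gm.T, Kr.Gm.N₂, Kr.Gm.N₁, nu, gm, St_St hΛ h2 hH.2] using k2⟩
      rw [abs_mul, abs_mul, abs_two]
      calc _ ≤ 2 * B * (2 * nu Λ w 0 r H) := by gcongr; exact k1
        _ = _ := by ring
  have iS : Ins 0 r (Sn (r / 4)) := ins_Sn4 (by omega)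
  obtain ⟨a, a1, a2, a3⟩ := key F hF ho h4
  obtain ⟨a', -, b2, b3⟩ := key _ iS (odd_Sn _) (d4_Sn _)
  have n0 := A51.nu_nonneg hΛ w 0 r F
  have nS : A * nu Λ w 0 r (Sn (r / 4)) ≤ A :=
    mul_le_of_le_one_right hA (FlF4.nu_le_of_bdd hΛ _ _ _ (abs_Sn_le _))
  have lo : b / 2 ≤ |a'| := by
    have hm : Nc.Amb Λ (Λ.D (bl 0 (w * (W * r)))) (bl 0 (w * (W * r))) :=
      ⟨hΛ.ctr_D _, hΛ.anch_D _, subset_rfl, Lat.near_D subset_rfl⟩
    have cD := hΛ.cen_D (bl 0 (w * (W * r)))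
    obtain ⟨i1, d1⟩ := (FlF4.ld1 Λ hΛ).1 Unit _ {()} (fun _ => 0) (fun _ => W * r) (fun _ => w * (W * r))
      (fun _ s => Nc.St Λ 0 (W * r) (Sn (r / 4)) s - a' * τ s) (by simp) hm.ctr hm.anch fun _ _ =>
        ⟨hm, by omega, (FlF4.depG_St hΛ (iS.1.mono (bl_mono 0 (by omega))) le_rfl).sub
          ((DepG.const _ _).mul (dτ.mono (bl_mono 0 (by omega)))), b2⟩
    simp only [prod_singleton] at i1 d1
    have g2 : Nc.gam Λ (W * r) (w * (W * r)) ≤ 2 := (hG.2.2 _ (by omega) (by omega)).trans (by norm_num)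
    have d2 := d1.trans (mul_le_mul g2 (b3.trans nS) (Ex_nonneg cE.nonneg fun _ _ => abs_nonneg _) two_pos.le)
    have r1 : (1 : ℝ) ≤ (W * r : ℕ) := by exact_mod_cast (by omega : 1 ≤ W * r)
    have oS : Out (bl 0 (W * r)) (Sn (2 * (W * r))) := by
      push_cast at r1; exact out_Sn (by linarith) (by push_cast; linarith)
    simp only [mul_comm (Sn (r / 4) _)] at hlo
    rw [A51.ex_St hΛ (FlF4.amb_mono hm (bl_mono 0 (by omega))) oS (cD.ig ((tame_Sn _).mul (tame_Sn _)))] at hlo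
    have i2 := cD.ig (Tame.const |a'|)
    have := Ex_mono cD.nonneg (cD.ig ((tame_Sn (2 * (W * r))).mul (Tame.bdd fun s =>
      (hΛ.wt_D (bl 0 (W * r)) s).abs_ex_le fun t _ => abs_Sn_le (r / 4) t)))
      ((i1.abs cD.nonneg).add i2) fun s => by
        refine (le_abs_self _).trans ?_
        rw [abs_mul]
        refine (mul_le_of_le_one_left (abs_nonneg _) (abs_Sn_le _ s)).trans ?_
        have := abs_add_le (Nc.St Λ 0 (W * r) (Sn (r / 4)) s - a' * τ s) (a' * τ s)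
        rw [sub_add_cancel, abs_mul a'] at this
        exact this.trans (add_le_add le_rfl (mul_le_of_le_one_right (abs_nonneg _) (hτ s)))
    rw [Ex_add (i1.abs cD.nonneg) i2, cD.wt.ex_const] at this
    have := hlo.trans this
    linarith
  have a0 : a' ≠ 0 := fun h => by rw [h, abs_zero] at lo; linarith
  have tri : ∀ {X Y Z : Cfg Pt → ℝ} (c : ℝ), Nc.In Λ 0 (w * (W * r)) X → Nc.In Λ 0 (w * (W * r)) Y →
      (∀ s, Z s = X s + c * Y s) → Nc.Nm Λ 0 (w * (W * r)) Z ≤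
        Nc.Nm Λ 0 (w * (W * r)) X + |c| * Nc.Nm Λ 0 (w * (W * r)) Y := fun {X Y Z} c hX hY e => by
    simp only [Nc.Nm, Nc.EN, e]
    rw [← Ex_const_mul, ← Ex_add (hX.abs cE.nonneg) ((hY.abs cE.nonneg).const_mul _)]
    exact Ex_mono cE.nonneg ((hX.add (hY.const_mul c)).abs cE.nonneg)
      ((hX.abs cE.nonneg).add ((hY.abs cE.nonneg).const_mul _)) fun s => by
        rw [← abs_mul]; exact abs_add_le _ _
  refine ⟨(tri a a2 (cE.ig (Tame.bdd hτ)) fun s => (sub_add_cancel _ _).symm).trans ?_, a / a', ?_⟩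
  · have : Nc.Nm Λ 0 (w * (W * r)) τ ≤ 1 :=
      cE.wt.ex_le (cE.ig (Tame.bdd hτ).abs) fun s _ => hτ s
    nlinarith [mul_le_of_le_one_right (abs_nonneg a) this]
  · rw [nu, FlF4.St_sub hΛ hF.2 (iS.2.const_mul _), FlF4.St_smul]
    refine (tri (-(a / a')) a2 b2 fun s => by field_simp; ring).trans ?_
    have : |-(a / a')| ≤ 8 * B / b * nu Λ w 0 r F := by
      rw [abs_neg, abs_div, div_le_iff₀ (abs_pos.2 a0)]
      calc |a| ≤ 8 * B / b * nu Λ w 0 r F * (b / 2) := a1.trans_eq (by field_simp; ring)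
        _ ≤ _ := by gcongr
    nlinarith [mul_le_mul this (b3.trans nS) (Ex_nonneg cE.nonneg fun _ _ => abs_nonneg _) (by positivity)]

theorem ab {W c c' s t ε : ℝ} (hW : 1 ≤ W) (hx : c ≤ W ^ ε) (hc : c' ≤ c) (h : s + ε ≤ t) :
    c' * W ^ s ≤ W ^ t :=
  calc c' * W ^ s ≤ W ^ ε * W ^ s := mul_le_mul_of_nonneg_right (hc.trans hx) (by positivity)
    _ = W ^ (s + ε) := by rw [← rpow_add (by linarith), add_comm]
    _ ≤ _ := rpow_le_rpow_of_exponent_le hW h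

theorem dvp {W ω s : ℝ} {n : ℕ} (hW : 0 < W) (hω : 1 ≤ ω) (h : -s ≤ n) : (W / ω) ^ s ≤ ω ^ n * W ^ s := by
  rw [div_rpow hW.le (by linarith), div_eq_mul_inv, ← rpow_neg (by linarith), mul_comm, ← rpow_natCast]
  exact mul_le_mul_of_nonneg_right (rpow_le_rpow_of_exponent_le hω h) (by positivity)

/-- KS at one scale -/
theorem ksP (hK : Kr.KOddStmt) (hQ : Kr.QStmt) (F : Fa) {θ₀ : ℝ} (h0 : 0 < θ₀) {w : ℕ} (hw : 4 ≤ w) :
    ∃ C₀ : ℕ, ∀ᶠ W : ℕ in atTop, ∃ δ : ℝ, 0 < δ ∧ ∀ Λ, F.Mem Λ → ∀ l L', Λ.Win θ₀ δ l L' →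
      |π * Λ.gN l - 2| ≤ ew w / 200 → ∀ r₀ L r : ℕ, Nc.Gd Λ (1 / 400) w r₀ L → r₀ ≤ r → C₀ ≤ r →
      w * (W * r) ≤ L → W * r ≤ L' → L' ≤ 2 * (W * r) → Ks w W Λ r := by
  have e0 := Kb14.ew_pos (show 1 ≤ w by omega)
  have e1 := Kb14.ew_le (show 1 ≤ w by omega)
  obtain ⟨ε, hε⟩ : ∃ ε, ε = ew w / 200 := ⟨_, rfl⟩
  obtain ⟨ω, hω⟩ : ∃ ω : ℝ, ω = w ^ 2 + 1 := ⟨_, rfl⟩
  have w4 : (4 : ℝ) ≤ w := by exact_mod_cast hw
  have ω1 : 1 ≤ ω := by nlinarith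
  have ε0 : 0 < ε := by linarith
  obtain ⟨C₀, h₁⟩ := lowP hQ F h0 (show 0 < 5 * ε by linarith) (by linarith)
  obtain ⟨W₁, h₂⟩ := hK F θ₀ ε h0 ε0 (by linarith)
  refine ⟨max C₀ 64, ?_⟩
  filter_upwards [h₁, ev_rp ε0 (9 * ω ^ 5), ev_rp one_pos (max W₁ 1024 * ω)] with W h₁ hx hW
  rw [rpow_one, ← le_div_iff₀ (by linarith)] at hW
  obtain ⟨δ₁, d1, h₁⟩ := h₁
  obtain ⟨δ₂, d2, h₂⟩ := h₂ _ ((le_max_left _ _).trans hW) 2 one_le_two
  have k1 := (le_max_right _ _).trans hW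
  have W1 : (1 : ℝ) ≤ W := by rw [le_div_iff₀ (by linarith)] at k1; linarith
  have W1' : 1 ≤ W := by exact_mod_cast W1
  refine ⟨min δ₁ δ₂, lt_min d1 d2, fun Λ hΛ l L' hw' hg r₀ L r hG a1 a2 a3 a4 a5 H hH ho h4 => ?_⟩
  have g1 := hG.2.1
  have b1 : 4 * r ≤ w * r := Nat.mul_le_mul_right _ hw
  have b2 : 4 * (w * r) ≤ w * (w * r) := Nat.mul_le_mul_right _ hw
  have b3 : 4 * (W * r) ≤ w * (W * r) := Nat.mul_le_mul_right _ hw
  have r64 := (le_max_right _ _).trans a2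
  have rg : (Λ.rg : ℝ) ≤ r := by exact_mod_cast (by omega : Λ.rg ≤ r)
  have r0 : (0 : ℝ) ≤ r := r.cast_nonneg
  have ok : (gm Λ w W r).Ok (W / ω) := by
    refine ⟨k1, show 2 * (w * r) ≤ w * (w * r) + _ by omega, show 64 ≤ w * (w * r) + _ by omega, ?_, ?_,
      show 2 * (W * r) ≤ w * (W * r) by omega⟩ <;> simp only [gm] <;> push_cast
    · rw [div_mul_eq_mul_div, div_le_iff₀ (by linarith), mul_assoc]
      gcongr; nlinarith
    · rw [mul_assoc, div_mul_eq_mul_div, ← mul_div_assoc, le_div_iff₀ (by linarith), mul_assoc, mul_left_comm 2]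
      refine mul_le_mul_of_nonneg_left ?_ W.cast_nonneg
      nlinarith [mul_nonneg r0 (show (0 : ℝ) ≤ w ^ 2 - 1 by nlinarith), Λ.rg.cast_nonneg (α := ℝ)]
  obtain ⟨l1, l2⟩ := h₂ Λ hΛ l L' (hw'.mono_d (min_le_right _ _)) _ ok
    ⟨a4, by simp only [gm]; exact_mod_cast a5⟩ (by linarith [(abs_le.1 hg).1])
  have al := Kr.algStmt' _ _ ok
  have hs : Sup (bl 0 (W * r + 1)) (Kr.hm 0 (W * r)) := fun x hx => al.hm_sup x fun h => hx (mem_sdiff.1 h).1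
  have hs' : Sup (gm Λ w W r).Ou (Kr.hm 0 (W * r)) := fun x hx => al.hm_sup x fun h => hx
    (mem_sdiff.2 ⟨bl_mono 0 (show W * r + 1 ≤ w * (W * r) by nlinarith) (mem_sdiff.1 h).1, (mem_sdiff.1 h).2⟩)
  have W0 : (0 : ℝ) < W := by linarith
  have p1 : ω ^ 2 ≤ ω ^ 5 := pow_le_pow_right₀ ω1 (by norm_num)
  have p2 : ω ^ 3 ≤ ω ^ 5 := pow_le_pow_right₀ ω1 (by norm_num)
  have p0 : 1 ≤ ω ^ 2 := one_le_pow₀ ω1
  obtain ⟨c1, c, c2⟩ := ks_core hΛ.ok hG hw a1 W1' a3 (A := ω ^ 3 * W ^ (-3 + 3 * ε))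
    (B := ω ^ 2 * W ^ (-2 + 5 / 4 * ε)) (b := W ^ (-2 - 5 * ε)) (lam := (gm Λ w W r).lam (Λ.gN l))
    (by positivity) (by positivity) (Kr.O11.abs_sn _)
    (Kr.O11.depG_sn hs ((Kr.O11.sum_sup hs hs').trans al.hm_sum))
    ((abs_of_pos (exp_pos _)).trans_le (l1.trans (dvp W0 ω1 (by push_cast; linarith))))
    (by rw [← mul_assoc]; exact ab W1 hx (by linarith) (by linarith))
    (fun F a b c => ⟨(l2 F a b c).1, (l2 F a b c).2.trans (mul_le_mul_of_nonneg_right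
      (dvp W0 ω1 (by push_cast; linarith))
      (Ex_nonneg (hΛ.ok.cen_Nr_bl (self_mem_bl _ _)).nonneg fun _ _ => abs_nonneg _))⟩)
    ((h₁ Λ hΛ l L' (hw'.mono_d (min_le_left _ _)) (by linarith) r ((le_max_left _ _).trans a2) a4 a5 _).1
      ⟨hΛ.ok.ctr_D _, hΛ.ok.anch_D _, bl_mono 0 b3, Lat.near_D (bl_mono 0 b3)⟩) hH ho h4
  have n0 := A51.nu_nonneg hΛ.ok w 0 r H
  refine ⟨c1.trans (mul_le_mul_of_nonneg_right ?_ n0), c, c2.trans (mul_le_mul_of_nonneg_right ?_ n0)⟩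
  · have q1 : (W : ℝ) ^ (-3 + 3 * ε) ≤ W ^ (-2 + 5 / 4 * ε) := rpow_le_rpow_of_exponent_le W1 (by linarith)
    refine le_trans ?_ (ab (s := -2 + 5 / 4 * ε) W1 hx (show ω ^ 3 + 4 * ω ^ 2 ≤ _ by linarith) (by linarith))
    nlinarith [mul_le_mul_of_nonneg_left q1 (show 0 ≤ ω ^ 3 by positivity)]
  · have q1 : 1 ≤ (W : ℝ) ^ (25 / 4 * ε) := one_le_rpow W1 (by linarith)
    rw [mul_div_assoc, mul_div_assoc, ← rpow_sub W0, show -2 + 5 / 4 * ε - (-2 - 5 * ε) = 25 / 4 * ε by ring]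
    refine le_trans ?_ (ab (s := -3 + 3 * ε + 25 / 4 * ε) W1 hx le_rfl (by linarith))
    rw [rpow_add W0 (-3 + 3 * ε)]
    calc _ ≤ ω ^ 3 * W ^ (-3 + 3 * ε) * (9 * (ω ^ 2 * W ^ (25 / 4 * ε))) := by
          gcongr; nlinarith [one_le_mul_of_one_le_of_one_le p0 q1]
      _ = _ := by ring

theorem dyad {n : ℕ} (hn : 1 ≤ n) : ∃ j, n ≤ 2 ^ j ∧ 2 ^ j ≤ 2 * n :=
  ⟨Nat.log 2 n + 1, (Nat.lt_pow_succ_log_self one_lt_two n).le, by
    rw [pow_succ, mul_comm]; exact Nat.mul_le_mul_left 2 (Nat.pow_log_le_self 2 (by omega))⟩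


end Crest.Agent.T145.Fl.L11

namespace Crest.Agent.T145.Fl

open Finset Real Filter L11

/-- KS in a window -/
theorem ksWStmt (hK : Kr.KOddStmt) (hQ : Kr.QStmt) (hT : T1mStmt) : KsWStmt := fun p θ₀ h0 => by
  by_cases hw : 4 ≤ p.w
  swap
  · exact ⟨0, fun _ _ => ⟨1, 0, one_pos, fun _ => ⟨0, fun _ _ _ h => absurd h.w4 hw⟩⟩⟩
  have e0 := Kb14.ew_pos (show 1 ≤ p.w by omega)
  obtain ⟨C₁, h₁⟩ := ksP hK hQ p.F (half_pos h0) hw
  obtain ⟨W₀, H⟩ := eventually_atTop.1 (h₁.and (eventually_ge_atTop 1))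
  refine ⟨W₀, fun W hW => ?_⟩
  obtain ⟨⟨δ₁, d, h₁⟩, W1⟩ := H W hW
  obtain ⟨δ, ⟨⟨k1, k2⟩, k3⟩, d0⟩ := ((((ev_subwin hT p.F h0 d 0).and (ev_le d)).and
    (ev_le (show 0 < ew p.w / 800 by linarith))).and self_mem_nhdsWithin).exists
  refine ⟨δ, 0, d0, fun l => ⟨max C₁ (⌈l / δ₁⌉₊ + 1), fun Λ N L hG hC hL r a b c => ?_⟩⟩
  have b3 : 4 * (W * r) ≤ p.w * (W * r) := Nat.mul_le_mul_right _ hw
  have b4 : r ≤ W * r := Nat.le_mul_of_pos_left _ W1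
  obtain ⟨j, j1, j2⟩ := dyad (show 1 ≤ W * r by omega)
  refine h₁ Λ hG.mem l _ (k1 Λ hG.mem l _ hC.1 j (by omega) (Or.inr ⟨hC.1.2.1.1.trans (by gcongr), ?_⟩)) ?_
    _ _ r hG.gd a (by omega) c j1 j2
  · rw [mul_comm, ← div_le_iff₀ d]
    exact (Nat.le_ceil _).trans (by exact_mod_cast (by omega : _ ≤ 2 ^ j))
  · rw [show π * Λ.gN l - 2 = π * (Λ.gN l - 2 / π) by field_simp, abs_mul, abs_of_pos pi_pos]
    nlinarith [hC.2, pi_lt_four, abs_nonneg (Λ.gN l - 2 / π)]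

end Crest.Agent.T145.Fl
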