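import Crest.Agent.T145.MidA_76
import Crest.Agent.T145.MidDef2_76
import Crest.Agent.T145.Soft_23
import Crest.Agent.T145.MidMo_32
import Crest.Agent.T145.RJ_57
import Crest.Agent.T145.BrB_73
import Crest.Agent.T145.FlDef2_82
import Crest.Agent.T145.FlBas_4
import Crest.Agent.T145.FlBare_80
import Crest.Agent.T145.FlSw_22
import Crest.Agent.T145.MidVg_19

-- ▼ part T145/MidB_76
section

/-!
# Row 145: limit orbits at and above the threshold; the infinite slope (helper76)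
-/

set_option autoImplicit false

namespace Crest.Agent.T145.Mid

open Finset Filter Topology Real

variable {F : Fa} {φ : Fw} {P : Par} {Λ : Lat}

theorem ev_mem (hΛ : F.Mem Λ) (h2 : Λ.τ < F.τ₂) : ∀ᶠ τ in 𝓝[≥] Λ.τ, F.Mem (Λ.at' τ) := by
  filter_upwards [self_mem_nhdsWithin, mem_nhdsWithin_of_mem_nhds (Iio_mem_nhds h2)] with τ h1 h3
  exact hΛ.at' (hΛ.le_tau.trans h1) (le_of_lt h3)

/-- windows above a rough point -/
theorem ev_win (hm : T1mStmt) (hd : T1dStmt) (hΛ : F.Mem Λ) (h2 : Λ.τ < F.τ₂) (hg : 2 / π ≤ Λ.gI)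
    {δ : ℝ} (hδ : 0 < δ) : ∀ᶠ l : ℕ in atTop, ∀ᶠ τ in 𝓝[≥] Λ.τ,
      |(Λ.at' τ).gN l - Λ.gI| ≤ δ ∧ (∀ L, l ≤ L → Λ.gI - δ ≤ (Λ.at' τ).gN L) ∧
      ∀ j, (l : ℝ) ≤ δ * ((2 ^ j : ℕ) : ℝ) → (Λ.at' τ).Win (th F) δ l (2 ^ j) := by
  obtain ⟨δ₁, h1, hw⟩ := exists_of_ev (win_of F hδ)
  obtain ⟨δ₂, h0, a1, a2, a3⟩ := exists_of_ev ((ev_mul_le 2 h1).and ((ev_le hδ).and
    (ev_le (show 0 < 1 / π by positivity))))
  obtain ⟨l₀, hl₀⟩ := (ev_l hm hd hΛ.ok h0).exists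
  filter_upwards [ev_l hm hd hΛ.ok h0, ev_one_le hδ,
    tendsto_natCast_atTop_atTop.eventually_ge_atTop (δ * l₀), eventually_ge_atTop l₀] with l b1 b2 b3 b4
  filter_upwards [ev_mem hΛ h2, self_mem_nhdsWithin, mem_nhdsWithin_of_mem_nhds b1.2] with τ c1 c2 c3
  have c3 : |(Λ.at' τ).gN l - Λ.gI| ≤ δ₂ := c3
  have low : ∀ L, l₀ ≤ L → Λ.gI - δ₂ ≤ (Λ.at' τ).gN L := fun L hL => by
    have := gN_mono hd hΛ.ok L hΛ.tau_pos c2
    have e : (Λ.at' Λ.τ).gN L = Λ.gN L := rfl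
    linarith [(abs_le.1 (hl₀.1 L hL)).1]
  refine ⟨c3.trans a2, fun L hL => by linarith [low L (b4.trans hL)], fun j hj => ?_⟩
  have : l₀ ≤ 2 ^ (j + 1) := by
    have d1 : (l₀ : ℝ) ≤ ((2 ^ j : ℕ) : ℝ) := le_of_mul_le_mul_left (b3.trans hj) hδ
    have d2 : l₀ ≤ 2 ^ j := by exact_mod_cast d1
    exact d2.trans (Nat.pow_le_pow_right two_pos (by omega))
  have d3 := low _ this
  have e : 2 / π = 2 * (1 / π) := by ring
  exact hw _ c1 l j ⟨b2, hj⟩ (by linarith) (by linarith [(abs_le.1 c3).2])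

theorem ev_cw (hm : T1mStmt) (hd : T1dStmt) (F : Fa) {δ : ℝ} (hδ : 0 < δ) : ∃ δ', 0 < δ' ∧
    ∀ Λ, F.Mem Λ → Λ.τ < F.τ₂ → 2 / π ≤ Λ.gI → Λ.gI ≤ 2 / π + δ' → ∀ᶠ l : ℕ in atTop,
      ∀ᶠ τ in 𝓝[≥] Λ.τ, ∀ᶠ N in atTop, Cw (th F) δ (Λ.at' τ) l N := by
  obtain ⟨δ₁, h1, hw⟩ := exists_of_ev (cw_of F hδ)
  refine ⟨δ₁ / 2, half_pos h1, fun Λ hΛ h2 g1 g2 => ?_⟩
  filter_upwards [ev_win hm hd hΛ h2 g1 (half_pos h1), ev_one_le hδ] with l b1 b2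
  filter_upwards [ev_mem hΛ h2, b1] with τ c1 c2
  filter_upwards [ev_le_pow hδ l, tendsto_two_pow.eventually_ge_atTop l] with N d1 d2
  have d3 := c2.2.1 (2 ^ (N + 1)) (d2.trans (Nat.pow_le_pow_right two_pos (by omega)))
  have d4 := abs_le.1 c2.1
  exact hw _ c1 l N ⟨b2, d1⟩ (abs_le.2 ⟨by linarith, by linarith⟩) (by linarith)

/-- the flow variable converges to the limiting stiffness -/
theorem lim_x (hm : T1mStmt) (hd : T1dStmt) (hX : VxStmt) (hD : DnStmt) (O : Odd F (th F) φ P) :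
    ∃ δ', 0 < δ' ∧ ∀ Λ, F.Mem Λ → Λ.τ < F.τ₂ → 2 / π ≤ Λ.gI → Λ.gI ≤ 2 / π + δ' →
      Tendsto (xI φ Λ) atTop (𝓝 (φ.κ * (Λ.gI - 2 / π))) := by
  obtain ⟨δ', h0, hc⟩ := ev_cw hm hd F P.δ0
  refine ⟨δ', h0, fun Λ hΛ h2 g1 g2 => KT.tendsto_of_abs fun ε hε => ?_⟩
  have hκ := O.κ_pos
  obtain ⟨δ₃, h3, hl⟩ := link hX hD O (th_pos hΛ) (half_pos hε)
  obtain ⟨l, ⟨b1, b2⟩, b3⟩ := (((hc Λ hΛ h2 g1 g2).and (ev_win hm hd hΛ h2 g1 h3)).and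
    (ev_l hm hd hΛ.ok (show 0 < ε / 2 / φ.κ by positivity))).exists
  have b1 := b1.self_of_nhdsWithin Set.self_mem_Ici
  have b2 := (b2.self_of_nhdsWithin Set.self_mem_Ici).2.2
  obtain ⟨m, a1, hl⟩ := hl l
  obtain ⟨a2, B, ht⟩ := lim O l
  filter_upwards [eventually_ge_atTop a1, eventually_ge_atTop a2] with k k1 k2
  have c1 : |xI φ Λ k - φ.κ * (Λ.gN l - 2 / π)| ≤ ε / 2 :=
    le_of_tendsto ((ht Λ hΛ b1 k k2).1.sub_const _).abs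
      (((ev_V hΛ b1 k).and (eventually_ge_atTop _)).mono fun N hN =>
        (hl Λ N k hN.1 k1 hN.2 fun j hj _ => b2 j hj).1)
  have c2 : |φ.κ * (Λ.gN l - Λ.gI)| ≤ ε / 2 := by
    rw [abs_mul, abs_of_pos hκ, ← le_div_iff₀' hκ]; exact b3.1 l le_rfl
  have c3 := abs_le.1 c1
  have c4 := abs_le.1 c2
  rw [abs_le]; constructor <;> nlinarith

/-- the data of an infinite orbit -/
structure Inf (F : Fa) (φ : Fw) (P : Par) (ε : ℝ) (l a : ℕ) (Λ : Lat) : Prop where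
  mem : F.Mem Λ
  cw : ∀ᶠ N in atTop, Cw (th F) P.δ Λ l N
  small : ∀ k, a ≤ k → ∀ᶠ N in atTop, φ.η Λ N k ≤ ε
  tx : ∀ k, a ≤ k → Tendsto (fun N => φ.x Λ N k) atTop (𝓝 (xI φ Λ k))
  ty : ∀ k, a ≤ k → Tendsto (fun N => φ.y Λ N k) atTop (𝓝 (yI φ Λ k))
  step : ∀ k, a ≤ k → KT.Step P.C P.d (xI φ Λ) (yI φ Λ) k ∧ |xI φ Λ k| + yI φ Λ k ≤ ε
  lim : Tendsto (xI φ Λ) atTop (𝓝 (φ.κ * (Λ.gI - 2 / π)))
  ge : 2 / π ≤ Λ.gI

theorem Inf.mono {ε : ℝ} {l a a' : ℕ} (h : Inf F φ P ε l a Λ) (ha : a ≤ a') : Inf F φ P ε l a' Λ :=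
  ⟨h.mem, h.cw, fun k hk => h.small k (ha.trans hk), fun k hk => h.tx k (ha.trans hk),
    fun k hk => h.ty k (ha.trans hk), fun k hk => h.step k (ha.trans hk), h.lim, h.ge⟩

/-- orbits at and above the threshold -/
theorem crit_orbit (hm : T1mStmt) (hd : T1dStmt) (hX : VxStmt) (hD : DnStmt) (O : Odd F (th F) φ P)
    (hΛ : F.Mem Λ) (h2 : Λ.τ < F.τ₂) (hc : Λ.Crit) {ε : ℝ} (hε : 0 < ε) (hε0 : ε ≤ P.ε₀) :
    ∀ᶠ l : ℕ in atTop, ∃ a, ∀ᶠ τ in 𝓝[≥] Λ.τ, Inf F φ P ε l a (Λ.at' τ) := by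
  have hκ := O.κ_pos
  obtain ⟨δ₁, h1, hw⟩ := ev_cw hm hd F P.δ0
  obtain ⟨δ₂, h2', hx⟩ := lim_x hm hd hX hD O
  obtain ⟨δ₃, h3, hl⟩ := link hX hD O (th_pos hΛ) (show 0 < ε / 3 by linarith)
  have g1 : 2 / π ≤ Λ.gI := hc.2.1.ge
  filter_upwards [hw Λ hΛ h2 g1 (by linarith [hc.2.1]), ev_win hm hd hΛ h2 g1 h3,
    ev_win hm hd hΛ h2 g1 (show 0 < ε / 3 / φ.κ by positivity)] with l b1 b2 b3
  obtain ⟨m, a1, hl⟩ := hl l
  obtain ⟨a2, B, ht⟩ := lim O l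
  obtain ⟨a3, h13, hs⟩ := lim_step O l a1
  refine ⟨max a2 a3, ?_⟩
  have u := (hm.1 Λ hΛ.ok).2.2.2.2.1 Λ.τ hΛ.tau_pos (2 / π + δ₂)
    (show Λ.gI < _ by linarith [hc.2.1])
  have u' := u.filter_mono (nhdsWithin_mono _ (show Set.Ici Λ.τ ⊆ Set.Ioi 0 from
    fun τ hτ => hΛ.tau_pos.trans_le hτ))
  filter_upwards [ev_mem hΛ h2, b1, b2, b3, u', self_mem_nhdsWithin,
    mem_nhdsWithin_of_mem_nhds (Iio_mem_nhds h2)] with τ c1 c2 c3 c4 c5 c6 c7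
  have g2 : 2 / π ≤ (Λ.at' τ).gI :=
    g1.trans ((hm.1 Λ hΛ.ok).2.2.2.1 hΛ.tau_pos (hΛ.tau_pos.trans_le c6) c6)
  have sm : ∀ k, a1 ≤ k → ∀ᶠ N in atTop, φ.η (Λ.at' τ) N k ≤ ε := fun k hk =>
    ((ev_V c1 c2 k).and (eventually_ge_atTop _)).mono fun N hN => by
      obtain ⟨d1, -, d2⟩ := hl _ N k hN.1 hk hN.2 fun j hj _ => c3.2.2 j hj
      have d3 : |φ.κ * ((Λ.at' τ).gN l - 2 / π)| ≤ ε / 3 := by
        rw [abs_mul, abs_of_pos hκ, ← le_div_iff₀' hκ, ← hc.2.1]; exact c4.1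
      have := abs_add_le (φ.x (Λ.at' τ) N k - φ.κ * ((Λ.at' τ).gN l - 2 / π))
        (φ.κ * ((Λ.at' τ).gN l - 2 / π))
      rw [sub_add_cancel] at this
      unfold Fw.η; linarith
  exact ⟨c1, c2, fun k hk => sm k (h13.trans (le_of_max_le_right hk)),
    fun k hk => (ht _ c1 c2 k (le_of_max_le_left hk)).1,
    fun k hk => (ht _ c1 c2 k (le_of_max_le_left hk)).2.1,
    fun k hk => hs _ c1 c2 ε hε0 sm k (le_of_max_le_right hk), hx _ c1 c7 g2 c5.le, g2⟩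

variable {ε : ℝ} {l a : ℕ}

theorem Inf.y_le (h : Inf F φ P ε l a Λ) (hε : KT.om P.C P.d ε ≤ 1 / 100) {j k : ℕ} (hj : a ≤ j)
    (hk : j ≤ k) : yI φ Λ j ≤ yI φ Λ k * (5 / 4) ^ (k - j) := by
  induction k, hk using Nat.le_induction with
  | base => simp
  | succ k hk ih =>
    obtain ⟨s, hs⟩ := h.step k (hj.trans hk)
    have h1 := (abs_le.1 (KT.St.abs_dy s (s.w_le P.C0 P.d0.le hs) hε)).1
    have h2 : |xI φ Λ k| + yI φ Λ k ≤ 1 / 100 :=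
      hs.trans ((KT.le_om P.C0 (s.eta_pos.le.trans hs)).trans hε)
    have h3 : 0 < yI φ Λ k := s.pos
    have h4 : yI φ Λ k ≤ yI φ Λ (k + 1) * (5 / 4) := by nlinarith
    rw [Nat.succ_sub hk, pow_succ', ← mul_assoc]
    exact ih.trans (by gcongr)

theorem Inf.x_nonneg (h : Inf F φ P ε l a Λ) (O : Odd F (th F) φ P) (hε : KT.om P.C P.d ε ≤ 1 / 100)
    (j : ℕ) (hj : a ≤ j) : 0 ≤ xI φ Λ j :=
  (mul_nonneg O.κ_pos.le (sub_nonneg.2 h.ge)).trans (le_of_tendsto h.lim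
    ((eventually_ge_atTop j).mono fun _ hn =>
      (KT.drift P.C0 P.d0.le hε hn fun k h1 _ => h.step k (hj.trans h1)).1))

theorem Inf.y_small (h : Inf F φ P ε l a Λ) (O : Odd F (th F) φ P) (hε : KT.om P.C P.d ε ≤ 1 / 100)
    {k : ℕ} (hk : 2 * a + 1 ≤ k) : yI φ Λ k ≤ 5 / 2 / k := by
  have h1 := KT.rough_y P.C0 P.d0.le hε h.step (h.x_nonneg O hε) k (by omega)
  have h2 : (2 * a + 1 : ℝ) ≤ k := by exact_mod_cast hk
  have h3 : 0 < yI φ Λ k := (h.step k (by omega)).1.pos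
  have h4 : (0 : ℝ) ≤ a := Nat.cast_nonneg a
  rw [le_div_iff₀ (by linarith)]
  nlinarith

/-- the limit orbit against the torus variance -/
theorem inf_vt (hX : VxStmt) (O : Odd F (th F) φ P) (hε : KT.om P.C P.d ε ≤ 1 / 100) (l a : ℕ) :
    ∃ (a₁ : ℕ) (C₁ : ℝ), 0 ≤ C₁ ∧ ∀ Λ, Inf F φ P ε l a Λ → ∀ k, a₁ ≤ k → ∀ᶠ N in atTop,
      |φ.κ * (Vt Λ (16 * 2 ^ N) (φ.r k) - 2 / π) - xI φ Λ k| ≤ C₁ / (k : ℝ) ^ 2 := by
  obtain ⟨C, hC, hX⟩ := hX F (th F) φ P O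
  obtain ⟨B₁, -, hX⟩ := hX l
  obtain ⟨a1, B, hB, hX⟩ := hX a
  have t1 := (tendsto_pow_const_mul_const_pow_of_abs_lt_one 2
    (show |max P.θ (1 / 2)| < 1 by rw [abs_of_nonneg P.max0]; exact P.max1)).const_mul B
  rw [mul_zero] at t1
  obtain ⟨a2, h2⟩ := eventually_atTop.1 (t1.eventually (ge_mem_nhds one_pos))
  refine ⟨max (2 * a + 1) (max a1 a2), C * 25 * 257 + 3, by positivity, fun Λ h k hk => ?_⟩
  simp only [max_le_iff] at hk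
  have k0 : (0 : ℝ) < k := by exact_mod_cast (show 0 < k by omega)
  have y0 : 0 < yI φ Λ k := (h.step k (by omega)).1.pos
  have hy : ∀ᶠ N in atTop, ∀ j ∈ Icc a k, |φ.y Λ N j| ≤ 2 * yI φ Λ k * (5 / 4) ^ (k - j) :=
    (eventually_all_finset _).2 fun j hj => by
      have j0 : 0 < yI φ Λ j := (h.step j (mem_Icc.1 hj).1).1.pos
      refine (h.ty j (mem_Icc.1 hj).1).abs.eventually (ge_mem_nhds ?_)
      rw [abs_of_pos j0]
      linarith [h.y_le hε (mem_Icc.1 hj).1 (mem_Icc.1 hj).2]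
  filter_upwards [ev_V h.mem h.cw k, hy, (tendsto_sub_atTop (φ.w * k)).eventually
    (ev_pow_le P.θ0.le P.θ1 B₁ (show 0 < 1 / (k : ℝ) ^ 2 by positivity)),
    KT.ev_abs (h.tx k (by omega)) (show 0 < 1 / (k : ℝ) ^ 2 by positivity)] with N hV n1 n2 n3
  have x1 := hX Λ N k hV hk.2.1 _ (fun j j1 j2 => n1 j (mem_Icc.2 ⟨j1, j2⟩)) (φ.r k) (16 * 2 ^ N)
    le_rfl (r_le hV.le) le_rfl
  have x2 := mul_le_mul_of_nonneg_left (fac_le hV.le) (show 0 ≤ C * (2 * yI φ Λ k) ^ 2 by positivity)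
  have x3 : (2 * yI φ Λ k) ^ 2 ≤ 25 * (1 / (k : ℝ) ^ 2) := by
    have := h.y_small O hε hk.1
    calc _ ≤ (2 * (5 / 2 / (k : ℝ))) ^ 2 := by gcongr
      _ = _ := by ring
  have x4 : B * max P.θ (1 / 2) ^ k ≤ 1 / (k : ℝ) ^ 2 := by
    rw [le_div_iff₀ (by positivity)]; linarith [h2 k hk.2.2]
  have x5 := mul_le_mul_of_nonneg_left x3 hC
  have e : (C * 25 * 257 + 3) / (k : ℝ) ^ 2 =
    C * (25 * (1 / (k : ℝ) ^ 2)) * 257 + 3 * (1 / (k : ℝ) ^ 2) := by ring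
  linarith [abs_sub_le (φ.κ * (Vt Λ (16 * 2 ^ N) (φ.r k) - 2 / π)) (φ.x Λ N k) (xI φ Λ k)]

theorem exists_eps (P : Par) : ∃ ε, 0 < ε ∧ ε ≤ P.ε₀ ∧ KT.om P.C P.d ε ≤ 1 / 1000 := by
  obtain ⟨ε, h0, h⟩ := KT.exists_om_le P.C P.d0 (show (0 : ℝ) < 1 / 1000 by norm_num)
  exact ⟨min ε P.ε₀, lt_min h0 P.ε0, min_le_right _ _, h _ (lt_min h0 P.ε0).le (min_le_left _ _)⟩

theorem lt_fa2 (h : Λ.Ok) : Λ.τ < (Λ.fa2 h).τ₂ := by
  have := h.2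
  change Λ.τ < 2 * Λ.τ
  linarith

/-- (P2) -/
theorem slopeStmt (hO : OddStmt) (hm : T1mStmt) (hd : T1dStmt) (hX : VxStmt) (hD : DnStmt)
    (hM : MoStmt) : Top.SlopeStmt := by
  intro Λ _ hc
  have hΛ := Lat.mem_fa2 hc.1
  set F := Λ.fa2 hc.1
  have h2 : Λ.τ < F.τ₂ := lt_fa2 hc.1
  obtain ⟨φ, P, O⟩ := hO F (th F) (th_pos hΛ)
  have hκ := O.κ_pos
  have τ0 := hΛ.tau_pos
  have τ2 := hΛ.tau2_pos
  obtain ⟨ε, e0, e1, e2⟩ := exists_eps P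
  have e3 : KT.om P.C P.d ε ≤ 1 / 100 := e2.trans (by norm_num)
  obtain ⟨l, a, hI⟩ := (crit_orbit hm hd hX hD O hΛ h2 hc e0 e1).exists
  have I0 : Inf F φ P ε l a Λ := hI.self_of_nhdsWithin Set.self_mem_Ici
  have x0 : Tendsto (xI φ Λ) atTop (𝓝 0) := by simpa [hc.2.1] using I0.lim
  obtain ⟨a1, C₁, hC₁, hv⟩ := inf_vt hX O e3 l a
  have t1 : Tendsto (fun k : ℕ => C₁ / (k : ℝ) ^ 2) atTop (𝓝 0) :=
    tendsto_const_nhds.div_atTop ((tendsto_pow_atTop two_ne_zero).comp tendsto_natCast_atTop_atTop)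
  obtain ⟨a2, h3⟩ := eventually_atTop.1 (t1.eventually
    (ge_mem_nhds (show 0 < φ.κ * (1 / π) by positivity)))
  have t2 : Tendsto (fun μ : ℝ => Λ.τ + μ) (𝓝[>] 0) (𝓝[≥] Λ.τ) := by
    refine tendsto_nhdsWithin_iff.2 ⟨?_, eventually_mem_nhdsWithin.mono fun μ hμ => ?_⟩
    · simpa using (tendsto_const_nhds (x := Λ.τ)).add (tendsto_id.mono_left
        (nhdsWithin_le_nhds (a := (0 : ℝ)) (s := Set.Ioi 0)))
    · exact Set.mem_Ici.2 (le_add_of_nonneg_right (Set.mem_Ioi.1 hμ).le)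
  set b := max (max a 1) (max a1 a2) with hb
  have key := KT.slope (c := φ.κ * (1 / π) ^ 2 / (Λ.τ * F.τ₂)) (C₁ := 2 * C₁) (a := b)
    (X := fun μ => xI φ (Λ.at' (Λ.τ + μ))) (Y := fun μ => yI φ (Λ.at' (Λ.τ + μ)))
    (L := fun μ => φ.κ * ((Λ.at' (Λ.τ + μ)).gI - 2 / π)) P.C0 P.d0 P.d1 e2 (by positivity)
    (I0.mono (by omega)).step x0 ?_
  · have t3 : Tendsto (fun τ : ℝ => τ - Λ.τ) (𝓝[>] Λ.τ) (𝓝[>] 0) := by
      refine tendsto_nhdsWithin_iff.2 ⟨?_, eventually_mem_nhdsWithin.mono fun τ hτ => ?_⟩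
      · simpa using (tendsto_id.mono_left (nhdsWithin_le_nhds (a := Λ.τ)
          (s := Set.Ioi Λ.τ))).sub_const Λ.τ
      · exact sub_pos.2 (show Λ.τ < τ from hτ)
    refine ((key.comp t3).atTop_div_const hκ).congr fun τ => ?_
    simp only [Function.comp, add_sub_cancel]
    field_simp
  filter_upwards [t2.eventually hI, self_mem_nhdsWithin] with μ I μ0
  have μ0 : 0 < μ := μ0
  refine ⟨(I.mono (by omega)).step, I.lim, fun k hk => ?_⟩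
  obtain ⟨N, ⟨n1, n2⟩, n3, n4⟩ := (((hv Λ I0 k (by omega)).and (hv _ I k (by omega))).and
    ((eventually_ge_atTop (φ.w * k)).and
      (tendsto_two_pow.eventually_ge_atTop (2 * Λ.rg + 8)))).exists
  have m1 := hM Λ (Λ.τ + μ) (16 * 2 ^ N) (φ.r k) hc.1 (by linarith) Nat.one_le_two_pow (r_le n3)
    (by have : 0 < 2 ^ N := by positivity
        omega)
  have n1 := abs_le.1 n1
  have n2 := abs_le.1 n2
  have v1 : 1 / π ≤ Vt Λ (16 * 2 ^ N) (φ.r k) := by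
    have := I0.x_nonneg O e3 k (by omega)
    have := h3 k (by omega)
    have e : 2 / π = 2 * (1 / π) := by ring
    rw [e] at n1
    refine le_of_mul_le_mul_left ?_ hκ
    linarith
  have v2 : μ / (Λ.τ * F.τ₂) ≤ Λ.τ⁻¹ - (Λ.τ + μ)⁻¹ := by
    have : Λ.τ + μ ≤ F.τ₂ := I.mem.tau_le
    rw [inv_sub_inv τ0.ne' (by positivity), add_sub_cancel_left]
    gcongr
  have v3 : (1 / π) ^ 2 * (μ / (Λ.τ * F.τ₂)) ≤
      Vt Λ (16 * 2 ^ N) (φ.r k) ^ 2 * (Λ.τ⁻¹ - (Λ.τ + μ)⁻¹) := by gcongr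
  have v4 := mul_le_mul_of_nonneg_left (v3.trans m1) hκ.le
  have k1 : (1 : ℝ) ≤ k := by exact_mod_cast (show 1 ≤ k by omega)
  have v5 : C₁ / (k : ℝ) ^ 2 ≤ C₁ * (k : ℝ) ^ (-1 - P.d) := by
    rw [div_eq_mul_inv, ← Real.rpow_natCast, ← Real.rpow_neg (by linarith)]
    exact mul_le_mul_of_nonneg_left (Real.rpow_le_rpow_of_exponent_le k1
      (by push_cast; linarith [P.d1])) hC₁
  have e : φ.κ * (1 / π) ^ 2 / (Λ.τ * F.τ₂) * μ = φ.κ * ((1 / π) ^ 2 * (μ / (Λ.τ * F.τ₂))) := by ring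
  rw [e]
  nlinarith

end Crest.Agent.T145.Mid
end

-- ▼ part T145/MidVx_81
section

/-!
# Row 145: the flow variable `x` is the normalised variance, `VxStmt` (helper81)
-/

set_option autoImplicit false

namespace Crest.Agent.T145.Mid

open Finset

namespace Vx81

/-- the sup norm as a natural number -/
def tn (x : Pt) : ℕ := max x.1.natAbs x.2.natAbs

theorem sn_eq (x : Pt) : sn x = tn x := by
  simp only [sn, tn, Nat.cast_max, Nat.cast_natAbs, Int.cast_abs]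

theorem mem_bl_tn {x : Pt} {R : ℕ} : x ∈ bl 0 R ↔ tn x ≤ R := by
  simp only [mem_bl, tn, Prod.fst_zero, Prod.snd_zero]; omega

theorem tn_le {x : Pt} {n : ℕ} (h : x ∈ Qd n) : 2 * tn x ≤ n := by
  simp only [Qd, mem_sq, tn] at h ⊢; omega

theorem card_le {R : ℕ} (h : 1 ≤ R) : ((bl (0 : Pt) R).card : ℝ) ≤ 9 * (R : ℝ) ^ 2 := by
  have : (1 : ℝ) ≤ R := by exact_mod_cast h
  rw [card_bl]; push_cast; nlinarith

theorem sum_succ (g : ℕ → ℝ) (R : ℕ) :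
    ∑ x ∈ bl 0 (R + 1), g (tn x) = ∑ x ∈ bl 0 R, g (tn x) + 8 * (R + 1) * g (R + 1) := by
  have h := bl_mono (0 : Pt) (Nat.le_add_right R 1)
  have c := card_sdiff_add_card_eq_card h
  rw [card_bl, card_bl] at c
  have c' : (bl (0 : Pt) (R + 1) \ bl 0 R).card = 8 * (R + 1) := by nlinarith
  rw [← sum_sdiff h, add_comm, sum_congr (s₁ := bl 0 (R + 1) \ bl 0 R) rfl (g := fun _ => g (R + 1))
    fun x hx => by simp only [mem_sdiff, mem_bl_tn] at hx; congr 1; omega, sum_const, c']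
  simp

theorem shell {ρ : ℝ} (hρ : 0 < ρ) (R : ℕ) :
    ∑ x ∈ bl 0 R, min (tn x : ℝ) ρ ^ 2 / (tn x : ℝ) ^ 3 ≤ 32 * ρ * R / (R + ρ) := by
  induction R with
  | zero =>
    refine (sum_eq_zero fun x hx => ?_).trans_le (by simp)
    rw [Nat.le_zero.1 (mem_bl_tn.1 hx)]; simp
  | succ R ih =>
    rw [sum_succ (fun t => min (t : ℝ) ρ ^ 2 / (t : ℝ) ^ 3)]
    push_cast
    have R0 : (0 : ℝ) ≤ R := Nat.cast_nonneg R
    have m0 : 0 ≤ min ((R : ℝ) + 1) ρ := le_min (by linarith) hρ.le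
    have h1 : min ((R : ℝ) + 1) ρ * (R + 1 + ρ) ≤ 2 * (R + 1) * ρ := by
      nlinarith [mul_le_mul_of_nonneg_right (min_le_left ((R : ℝ) + 1) ρ) hρ.le,
        mul_le_mul_of_nonneg_right (min_le_right ((R : ℝ) + 1) ρ) (by linarith : (0 : ℝ) ≤ R + 1)]
    have h2 : 8 * ((R : ℝ) + 1) * (min ((R : ℝ) + 1) ρ ^ 2 / (R + 1) ^ 3) ≤
        32 * ρ ^ 2 / ((R + ρ) * (R + 1 + ρ)) := by
      have h3 := pow_le_pow_left₀ (by positivity) h1 2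
      calc _ = 8 * (min ((R : ℝ) + 1) ρ * (R + 1 + ρ)) ^ 2 / ((R + 1) ^ 2 * (R + 1 + ρ) ^ 2) := by
            field_simp
        _ ≤ 8 * (2 * (R + 1) * ρ) ^ 2 / ((R + 1) ^ 2 * (R + 1 + ρ) ^ 2) := by gcongr
        _ = 32 * ρ ^ 2 / ((R + 1 + ρ) * (R + 1 + ρ)) := by field_simp; ring
        _ ≤ _ := by gcongr; linarith
    have h4 : 32 * ρ * ((R : ℝ) + 1) / (R + 1 + ρ) =
        32 * ρ * R / (R + ρ) + 32 * ρ ^ 2 / ((R + ρ) * (R + 1 + ρ)) := by field_simp; ring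
    linarith

theorem shell' {ρ : ℝ} (hρ : 0 < ρ) (R : ℕ) :
    ∑ x ∈ bl 0 R, min (tn x : ℝ) ρ ^ 2 / (tn x : ℝ) ^ 3 ≤ 32 * ρ := by
  refine (shell hρ R).trans ?_
  rw [div_le_iff₀ (by positivity)]
  nlinarith [mul_pos hρ hρ]

/-- the hypotheses of the summation -/
structure Hy (G : Pt → ℝ) (y : ℕ → ℝ) (r : ℕ → ℕ) (C₀ D Y : ℝ) (S W M n a k : ℕ) : Prop where
  h0 : ∀ x, |G x| ≤ C₀
  D0 : 0 ≤ D
  hr : ∀ j, r (j + 1) = W * r j
  hW : 2 ≤ W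
  r1 : ∀ j, 1 ≤ r j
  hS : 1 ≤ S
  ak : a ≤ k
  hM : ∀ j, j ≤ k → S * r j ≤ M
  hn : 2 * M ≤ n
  hy : ∀ j, a ≤ j → j ≤ k → |y j| ≤ Y * (5 / 4) ^ (k - j)
  hK : ∀ j, a ≤ j → j ≤ k → ∀ x, 2 * tn x ≤ n → S * r j < tn x →
    |G x| ≤ D * y j ^ 2 / (r j * ((min (tn x) M : ℕ) : ℝ) ^ 3)

variable {G : Pt → ℝ} {y : ℕ → ℝ} {r : ℕ → ℕ} {C₀ D Y : ℝ} {S W M n a k : ℕ}

theorem Hy.ysq (h : Hy G y r C₀ D Y S W M n a k) {j : ℕ} (h1 : a ≤ j) (h2 : j ≤ k) :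
    y j ^ 2 ≤ Y ^ 2 * (25 / 16) ^ (k - j) := by
  have := pow_le_pow_left₀ (abs_nonneg _) (h.hy j h1 h2) 2
  rwa [sq_abs, mul_pow, ← pow_mul, mul_comm (k - j), pow_mul, show ((5 : ℝ) / 4) ^ 2 = 25 / 16 by norm_num]
    at this

theorem Hy.inner (h : Hy G y r C₀ D Y S W M n a k) (j : ℕ) (h1 : a ≤ j) : j ≤ k →
    ∑ x ∈ bl 0 (S * r j), |G x| * (tn x : ℝ) ^ 3 ≤ 9 * C₀ * ((S * r a : ℕ) : ℝ) ^ 5 +
      36 * D * S ^ 2 * W ^ 2 * Y ^ 2 * (25 / 16) ^ (k - j) * r j := by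
  have D0 := h.D0
  have C0 : 0 ≤ C₀ := (abs_nonneg _).trans (h.h0 0)
  induction j, h1 using Nat.le_induction with
  | base =>
    intro _
    have := sum_le_card_nsmul (bl 0 (S * r a)) (fun x => |G x| * (tn x : ℝ) ^ 3)
      (C₀ * ((S * r a : ℕ) : ℝ) ^ 3) fun x hx => mul_le_mul (h.h0 x)
        (pow_le_pow_left₀ (Nat.cast_nonneg _) (by exact_mod_cast mem_bl_tn.1 hx) 3) (by positivity) C0
    rw [nsmul_eq_mul] at this
    refine (this.trans (mul_le_mul_of_nonneg_right (card_le (Nat.mul_pos h.hS (h.r1 a)))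
      (by positivity))).trans (le_add_of_le_of_nonneg (le_of_eq (by ring)) (by positivity))
  | succ j h1 ih =>
    intro h2
    have ih := ih (by omega)
    have hr : (1 : ℝ) ≤ r j := by exact_mod_cast h.r1 j
    have hW : (2 : ℝ) ≤ W := by exact_mod_cast h.hW
    have sub : bl (0 : Pt) (S * r j) ⊆ bl 0 (S * r (j + 1)) :=
      bl_mono _ (Nat.mul_le_mul_left _ (by rw [h.hr]; exact Nat.le_mul_of_pos_left _ (by have := h.hW; omega)))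
    have b := sum_le_card_nsmul (bl 0 (S * r (j + 1)) \ bl 0 (S * r j)) (fun x => |G x| * (tn x : ℝ) ^ 3)
      (D * y j ^ 2 / r j) fun x hx => by
        simp only [mem_sdiff, mem_bl_tn, not_le] at hx
        have e := h.hM _ h2
        have k1 := h.hK j h1 (by omega) x (by have := h.hn; omega) hx.2
        have t0 : (0 : ℝ) < tn x := by exact_mod_cast (by omega : 0 < tn x)
        rw [min_eq_left (by omega)] at k1
        refine (mul_le_mul_of_nonneg_right k1 (by positivity)).trans (le_of_eq ?_)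
        field_simp
    rw [nsmul_eq_mul] at b
    have c : ((bl (0 : Pt) (S * r (j + 1)) \ bl 0 (S * r j)).card : ℝ) ≤ 9 * (S * (W * r j)) ^ 2 := by
      refine le_trans (by exact_mod_cast card_le_card sdiff_subset)
        ((card_le (Nat.mul_pos h.hS (h.r1 (j + 1)))).trans (le_of_eq ?_))
      rw [h.hr]; push_cast; ring
    have ys := h.ysq h1 (by omega : j ≤ k)
    have e : k - j = k - (j + 1) + 1 := by omega
    rw [e, pow_succ (25 / 16 : ℝ)] at ys ih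
    have b2 : 9 * ((S : ℝ) * (W * r j)) ^ 2 * (D * y j ^ 2 / r j) ≤
        9 * D * S ^ 2 * W ^ 2 * (Y ^ 2 * ((25 / 16) ^ (k - (j + 1)) * (25 / 16))) * r j := by
      refine le_of_eq_of_le (b := 9 * D * S ^ 2 * W ^ 2 * y j ^ 2 * r j) (by field_simp) ?_
      gcongr
    have b3 := (b.trans (mul_le_mul_of_nonneg_right c (by positivity))).trans b2
    rw [← sum_sdiff sub, h.hr]
    push_cast at ih ⊢
    have p0 : 0 ≤ D * S ^ 2 * W ^ 2 * Y ^ 2 * (25 / 16) ^ (k - (j + 1)) * r j := by positivity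
    rw [h.hr] at b3
    linarith [mul_le_mul_of_nonneg_left hW p0]

theorem Hy.outer (h : Hy G y r C₀ D Y S W M n a k) {ρ : ℝ} (hρ : 0 < ρ) :
    ∑ x ∈ Qd n \ bl 0 (S * r k), |G x| * min (tn x : ℝ) ρ ^ 2 ≤
      D * Y ^ 2 / r k * (32 * ρ + ρ ^ 2 * (n : ℝ) ^ 2 / (M : ℝ) ^ 3) := by
  have D0 := h.D0
  have hr : (0 : ℝ) < r k := by exact_mod_cast h.r1 k
  have M0 : 0 < M := (Nat.mul_pos h.hS (h.r1 k)).trans_le (h.hM k le_rfl)
  have M0' : (0 : ℝ) < M := by exact_mod_cast M0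
  have ys := h.ysq h.ak le_rfl
  rw [Nat.sub_self, pow_zero, mul_one] at ys
  calc _ ≤ ∑ x ∈ Qd n \ bl 0 (S * r k),
        D * Y ^ 2 / r k * (min (tn x : ℝ) ρ ^ 2 / (tn x : ℝ) ^ 3 + ρ ^ 2 / (M : ℝ) ^ 3) := by
        refine sum_le_sum fun x hx => ?_
        simp only [mem_sdiff, mem_bl_tn, not_le] at hx
        have k1 := h.hK k h.ak le_rfl x (tn_le hx.1) hx.2
        have t0 : (0 : ℝ) < tn x := by exact_mod_cast (by omega : 0 < tn x)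
        have m0 : 0 ≤ min (tn x : ℝ) ρ := le_min t0.le hρ.le
        refine (mul_le_mul_of_nonneg_right k1 (by positivity)).trans ?_
        rcases le_total (tn x) M with e | e
        · rw [min_eq_left e]
          calc _ = D * y k ^ 2 / r k * (min (tn x : ℝ) ρ ^ 2 / (tn x : ℝ) ^ 3 + 0) := by field_simp; ring
            _ ≤ _ := by gcongr; positivity
        · rw [min_eq_right e]
          calc _ = D * y k ^ 2 / r k * (0 + min (tn x : ℝ) ρ ^ 2 / (M : ℝ) ^ 3) := by field_simp; ring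
            _ ≤ _ := by gcongr; exacts [by positivity, min_le_right _ _]
    _ ≤ ∑ x ∈ Qd n,
        D * Y ^ 2 / r k * (min (tn x : ℝ) ρ ^ 2 / (tn x : ℝ) ^ 3 + ρ ^ 2 / (M : ℝ) ^ 3) :=
        sum_le_sum_of_subset_of_nonneg sdiff_subset fun x _ _ => by positivity
    _ ≤ _ := by
        rw [← mul_sum, sum_add_distrib, sum_const, Qd, card_sq, nsmul_eq_mul]
        refine mul_le_mul_of_nonneg_left (add_le_add ?_ (le_of_eq (by push_cast; ring))) (by positivity)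
        refine le_trans (sum_le_sum_of_subset_of_nonneg (fun x hx => ?_) fun x _ _ => by positivity)
          (shell' hρ n)
        exact mem_bl_tn.2 (by have := tn_le hx; omega)

theorem Hy.all (h : Hy G y r C₀ D Y S W M n a k) {ρ : ℕ} (hρ : r k ≤ ρ) :
    ∑ x ∈ bl 0 (r k), |G x| * sn x ^ 3 / ρ + ∑ x ∈ Qd n \ bl 0 (r k), |G x| * min (sn x) ρ ^ 2 ≤
      18 * C₀ * ((S * r a : ℕ) : ℝ) ^ 5 / r k +
        D * (72 * S ^ 2 * W ^ 2 + 32) * Y ^ 2 * (ρ / r k * (1 + ρ * (n : ℝ) ^ 2 / (M : ℝ) ^ 3)) := by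
  have D0 := h.D0
  have hr : (0 : ℝ) < r k := by exact_mod_cast h.r1 k
  have hρ' : (r k : ℝ) ≤ ρ := by exact_mod_cast hρ
  have i1 := h.inner k h.ak le_rfl
  rw [Nat.sub_self, pow_zero, mul_one] at i1
  have i2 := h.outer (hr.trans_le hρ')
  set I := ∑ x ∈ bl 0 (S * r k), |G x| * (tn x : ℝ) ^ 3 with hI
  have e : I / r k = ∑ x ∈ bl 0 (S * r k), |G x| * (tn x : ℝ) ^ 3 / r k := sum_div _ _ _
  simp only [sn_eq]
  have a1 : ∑ x ∈ bl 0 (r k), |G x| * (tn x : ℝ) ^ 3 / ρ ≤ I / r k := by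
    rw [e]
    refine (sum_le_sum fun x _ => ?_).trans (sum_le_sum_of_subset_of_nonneg
      (bl_mono _ (Nat.le_mul_of_pos_left _ h.hS)) fun x _ _ => by positivity)
    gcongr
  have a2 : ∑ x ∈ Qd n \ bl 0 (r k), |G x| * min (tn x : ℝ) ρ ^ 2 ≤
      I / r k + ∑ x ∈ Qd n \ bl 0 (S * r k), |G x| * min (tn x : ℝ) ρ ^ 2 := by
    rw [← sum_inter_add_sum_sdiff _ (bl 0 (S * r k)), e]
    refine add_le_add ((sum_le_sum fun x hx => ?_).trans (sum_le_sum_of_subset_of_nonneg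
      inter_subset_right fun x _ _ => by positivity)) (sum_le_sum_of_subset_of_nonneg
      (sdiff_subset_sdiff sdiff_subset Subset.rfl) fun x _ _ => by positivity)
    simp only [mem_inter, mem_sdiff, mem_bl_tn, not_le] at hx
    have t1 : (r k : ℝ) ≤ tn x := by exact_mod_cast hx.1.2.le
    rw [mul_div_assoc]
    refine mul_le_mul_of_nonneg_left ((pow_le_pow_left₀ (le_min (by positivity) (by positivity))
      (min_le_left _ _) 2).trans ?_) (abs_nonneg _)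
    rw [le_div_iff₀ hr, pow_succ _ 2]
    exact mul_le_mul_of_nonneg_left t1 (by positivity)
  have a3 : I / r k ≤ 9 * C₀ * ((S * r a : ℕ) : ℝ) ^ 5 / r k + 36 * D * S ^ 2 * W ^ 2 * Y ^ 2 :=
    (div_le_div_of_nonneg_right i1 hr.le).trans (le_of_eq (by field_simp))
  have q1 : 1 ≤ (ρ : ℝ) / r k := (one_le_div hr).2 hρ'
  have q0 : 0 ≤ ρ * (n : ℝ) ^ 2 / (M : ℝ) ^ 3 := by positivity
  have a4 : D * Y ^ 2 / r k * (32 * ρ + ρ ^ 2 * (n : ℝ) ^ 2 / (M : ℝ) ^ 3) =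
      D * Y ^ 2 * (ρ / r k * (32 + ρ * (n : ℝ) ^ 2 / (M : ℝ) ^ 3)) := by ring
  set u := (ρ : ℝ) / r k
  set v := ρ * (n : ℝ) ^ 2 / (M : ℝ) ^ 3
  have a5 : 72 * D * S ^ 2 * W ^ 2 * Y ^ 2 * 1 ≤ 72 * D * S ^ 2 * W ^ 2 * Y ^ 2 * (u * (1 + v)) :=
    mul_le_mul_of_nonneg_left (by nlinarith) (by positivity)
  have a6 : D * Y ^ 2 * (u * (32 + v)) ≤ D * Y ^ 2 * (32 * (u * (1 + v))) :=
    mul_le_mul_of_nonneg_left (by nlinarith) (by positivity)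
  have a7 : 18 * C₀ * ((S * r a : ℕ) : ℝ) ^ 5 / r k = 2 * (9 * C₀ * ((S * r a : ℕ) : ℝ) ^ 5 / r k) := by
    ring
  linarith

variable {F : Fa} {θ₀ : ℝ} {φ : Fw} {P : Par} {Λ : Lat} {l N j : ℕ}

theorem V_mono (h : φ.V F θ₀ P Λ l N k) (hj : j ≤ k) : φ.V F θ₀ P Λ l N j :=
  ⟨h.1, h.2.1, le_trans (by gcongr) h.2.2⟩

theorem rg_lt (w1 : 1 ≤ φ.w) (h : φ.V F θ₀ P Λ l N j) (hj : F.base.rg ≤ j) : Λ.rg + 2 ≤ 2 ^ N := by
  have h1 := Nat.lt_two_pow_self (n := N)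
  have h2 := h.2.2
  have h3 := Nat.mul_le_mul_right (j + 1) w1
  rw [h.1.rg_eq]; omega

theorem Sr_le (w1 : 1 ≤ φ.w) (h : φ.V F θ₀ P Λ l N j) : 2 ^ (P.s + 1) * φ.r j ≤ 2 ^ N := by
  rw [Fw.r, ← pow_add]
  refine Nat.pow_le_pow_right two_pos ?_
  have h2 := h.2.2
  rw [mul_add, mul_one] at h2; omega

/-- the pointwise bound on the two-point function on the torus -/
theorem pt (h : Odd F θ₀ φ P) (l : ℕ) : ∃ a₁, ∀ Λ N j n x, φ.V F θ₀ P Λ l N j → a₁ ≤ j →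
    16 * 2 ^ N ≤ n → 2 * tn x ≤ n → 2 ^ (P.s + 1) * φ.r j < tn x →
    |Om.K Λ n x| ≤ P.C * (2 * 2 ^ (P.s + 1)) ^ 3 * φ.y Λ N j ^ 2 /
      (φ.r j * ((min (tn x) (2 ^ N) : ℕ) : ℝ) ^ 3) := by
  obtain ⟨a₁, H⟩ := h.kb l
  refine ⟨max a₁ F.base.rg, fun Λ N j n x hV hj hn hx ht => ?_⟩
  have hΛ := hV.1.ok
  have rg := rg_lt h.w1 hV ((le_max_right _ _).trans hj)
  have e3 := Sr_le h.w1 hV
  have H := H Λ N j hV ((le_max_left _ _).trans hj)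
  have r1 : 1 ≤ φ.r j := Nat.one_le_two_pow
  have C0 := P.C0
  generalize 2 ^ N = M at *
  generalize φ.r j = q at *
  have e5 : 2 ^ (P.s + 1) = 2 * 2 ^ P.s := pow_succ' _ _
  have e6 : (2 : ℝ) ^ (P.s + 1) = ((2 * 2 ^ P.s : ℕ) : ℝ) := by push_cast; ring
  rw [e5] at e3 ht
  rw [e6]
  have T0 : 0 < 2 ^ P.s := by positivity
  generalize 2 ^ P.s = T at *
  set u := min (tn x) (2 * M + 1) with hu
  set r' := (u - 1) / (2 * T) with hr'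
  have e1 : 2 * T * r' ≤ u - 1 := Nat.mul_div_le _ _
  have e2 : u - 1 < 2 * T * (r' + 1) := Nat.lt_mul_div_succ _ (by omega)
  have e4 : q ≤ r' := (Nat.le_div_iff_mul_le (by omega)).2 (by rw [mul_comm]; omega)
  have e7 : min (tn x) M ≤ 2 * (2 * T) * r' := by
    have : 2 * T * (r' + 1) ≤ 2 * T * (2 * r') := Nat.mul_le_mul_left _ (by omega)
    have : 2 * T * (2 * r') = 2 * (2 * T) * r' := by ring
    omega
  rw [mul_assoc] at e1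
  have e8 : 0 < T * r' := Nat.mul_pos T0 (by omega)
  generalize hc : T * r' = c at *
  have tx : tn x = max x.1.natAbs x.2.natAbs := rfl
  set b : Pt := (min 0 x.1 - (M + Λ.rg + 1 : ℕ), min 0 x.2 - (M + Λ.rg + 1 : ℕ)) with hb
  have sub : ∀ z, z = 0 ∨ z = x → bl z (M + Λ.rg) ⊆ sq b n := fun z hz y hy => by
    rcases hz with rfl | rfl <;> simp only [hb, mem_bl, mem_sq, Prod.fst_zero, Prod.snd_zero] at hy ⊢ <;>
      omega
  have amb : ∀ z, z = 0 ∨ z = x → Nc.Amb Λ (Om.Tc Λ n b) (bl z c) := fun z hz =>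
    Om.amb_Tc hΛ fun y hy => (bl_subset_bl hy (by omega)).trans (sub z hz)
  have k1 := H r' (Om.Tc Λ n b) 0 x e4 (by omega) (hc ▸ amb 0 (Or.inl rfl)) (hc ▸ amb x (Or.inr rfl))
    (hc ▸ disjoint_left.2 fun y h1 h2 => by
      simp only [mem_bl, Prod.fst_zero, Prod.snd_zero] at h1 h2; omega)
  rw [← (Om.om_Tc hΛ (by omega) (Om.depG_JJ 0 x) (union_subset
    ((bl_mono _ (by omega)).trans (sub 0 (Or.inl rfl)))
    ((bl_mono _ (by omega)).trans (sub x (Or.inr rfl))))).2] at k1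
  refine k1.trans ?_
  have q0 : (0 : ℝ) < q := by exact_mod_cast r1
  have r0 : (0 : ℝ) < r' := by exact_mod_cast (by omega : 0 < r')
  have m0 : (0 : ℝ) < ((min (tn x) M : ℕ) : ℝ) := by exact_mod_cast (by omega : 0 < min (tn x) M)
  have e9 : ((min (tn x) M : ℕ) : ℝ) ≤ 2 * ((2 * T : ℕ) : ℝ) * r' := by exact_mod_cast e7
  have T1 : (0 : ℝ) < ((2 * T : ℕ) : ℝ) := by exact_mod_cast (by omega : 0 < 2 * T)
  calc _ = P.C * (2 * ((2 * T : ℕ) : ℝ)) ^ 3 * φ.y Λ N j ^ 2 /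
        (q * (2 * ((2 * T : ℕ) : ℝ) * r') ^ 3) := by field_simp
    _ ≤ _ := by gcongr

end Vx81

open Vx81 in
theorem vxStmt (hG : VgStmt) : VxStmt := fun F θ₀ φ P h => by
  obtain ⟨C₀, C0, hC⟩ := hG F
  have κ0 : 0 ≤ φ.κ := mul_nonneg Real.pi_pos.le (Real.log_nonneg (one_le_pow₀ one_le_two))
  have P0 := P.C0
  set D : ℝ := P.C * (2 * 2 ^ (P.s + 1)) ^ 3 with hD
  set E : ℝ := D * (72 * ((2 ^ (P.s + 1) : ℕ) : ℝ) ^ 2 * ((2 ^ φ.w : ℕ) : ℝ) ^ 2 + 32) with hE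
  have D0 : 0 ≤ D := by positivity
  refine ⟨P.C + φ.κ * C₀ * E, by positivity, fun l => ?_⟩
  obtain ⟨a₁, H1⟩ := pt h l
  obtain ⟨a₂, B, H2⟩ := h.gj l
  refine ⟨|B|, abs_nonneg B, fun a => ?_⟩
  set a' := max a a₁ with ha'
  set A : ℝ := 18 * C₀ * ((2 ^ (P.s + 1) * φ.r a' : ℕ) : ℝ) ^ 5 with hA
  have A0 : 0 ≤ A := by positivity
  refine ⟨max (max a' a₂) F.base.rg, |B| + φ.κ * C₀ * A, by positivity,
    fun Λ N k hV hk Y hY ρ n hρ hn hN => ?_⟩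
  have hΛ := hV.1.ok
  have rg := rg_lt h.w1 hV ((le_max_right _ _).trans hk)
  have k1 : a' ≤ k := ((le_max_left _ _).trans (le_max_left _ _)).trans hk
  have k2 : a₂ ≤ k := ((le_max_right _ _).trans (le_max_left _ _)).trans hk
  have r1 : ∀ j, 1 ≤ φ.r j := fun _ => Nat.one_le_two_pow
  have hr : ∀ j, φ.r (j + 1) = 2 ^ φ.w * φ.r j := fun j => by rw [Fw.r, Fw.r, ← pow_add]; ring_nf
  have hW : 2 ≤ 2 ^ φ.w := Nat.le_self_pow (by have := h.w1; omega) 2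
  obtain ⟨g1, g2⟩ := hC Λ hV.1 n (by omega)
  have g2 := g2 ρ (φ.r k) (r1 k) hρ hn
  have hy : Hy (Om.K Λ n) (φ.y Λ N) φ.r C₀ D Y (2 ^ (P.s + 1)) (2 ^ φ.w) (2 ^ N) n a' k :=
    ⟨g1, D0, hr, hW, r1, Nat.one_le_two_pow, k1, fun j hj => Sr_le h.w1 (V_mono hV hj), by omega,
      fun j h1 h2 => hY j ((le_max_left _ _).trans h1) h2,
      fun j h1 h2 x h3 h4 => H1 Λ N j n x (V_mono hV h2) ((le_max_right _ _).trans h1) hN h3 h4⟩
  have g3 := (g2.trans (mul_le_mul_of_nonneg_left (hy.all hρ) C0))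
  have g4 := H2 Λ N k hV k2 (φ.r k) (Om.Tb Λ n 0) 0 le_rfl
    (by rw [hr]; exact Nat.le_mul_of_pos_left _ (by omega)) (Om.amb_Tb hΛ 0 (by omega))
  have ys := hy.ysq k1 le_rfl
  rw [Nat.sub_self, pow_zero, mul_one] at ys
  have rk : (0 : ℝ) < φ.r k := by exact_mod_cast r1 k
  have q1 : 1 ≤ (ρ : ℝ) / φ.r k := (one_le_div rk).2 (by exact_mod_cast hρ)
  have q0 : 0 ≤ ρ * (n : ℝ) ^ 2 / (2 ^ N) ^ 3 := by positivity
  rw [← hA, ← hE, Nat.cast_pow, Nat.cast_ofNat] at g3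
  set u := (ρ : ℝ) / φ.r k * (1 + ρ * (n : ℝ) ^ 2 / (2 ^ N) ^ 3) with hu
  have u1 : 1 ≤ u := by rw [hu]; nlinarith
  have θ0 := P.θ0
  have t2 : P.θ ^ k ≤ max P.θ (1 / 2) ^ k := pow_le_pow_left₀ θ0.le (le_max_left _ _) _
  have t3 : A / φ.r k ≤ A * max P.θ (1 / 2) ^ k := by
    rw [div_eq_mul_inv]
    refine mul_le_mul_of_nonneg_left (le_trans ?_
      (pow_le_pow_left₀ (by norm_num) (le_max_right _ _) k)) A0
    rw [one_div, inv_pow]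
    refine inv_anti₀ (by positivity) ?_
    have : 2 ^ k ≤ φ.r k := Nat.pow_le_pow_right two_pos (Nat.le_mul_of_pos_left _ h.w1)
    exact_mod_cast this
  have e : φ.κ * (Vt Λ n ρ - 2 / Real.pi) - φ.x Λ N k =
      (φ.κ * (gJ ((Om.Tb Λ n 0).W 0) 0 (φ.r k) - 2 / Real.pi) - φ.x Λ N k) +
        φ.κ * (Vt Λ n ρ - gJ ((Om.Tb Λ n 0).W 0) 0 (φ.r k)) := by ring
  have b1 : B * (P.θ ^ (N - φ.w * k) + P.θ ^ k) ≤
      |B| * (P.θ ^ (N - φ.w * k) + max P.θ (1 / 2) ^ k) :=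
    mul_le_mul (le_abs_self B) (add_le_add le_rfl t2) (by positivity) (abs_nonneg B)
  have b2 : P.C * φ.y Λ N k ^ 2 ≤ P.C * (Y ^ 2 * u) :=
    mul_le_mul_of_nonneg_left (ys.trans (le_mul_of_one_le_right (sq_nonneg Y) u1)) P0
  have b3 := mul_le_mul_of_nonneg_left g3 κ0
  have b4 := mul_le_mul_of_nonneg_left t3 (mul_nonneg κ0 C0)
  rw [e]
  refine (abs_add_le _ _).trans ?_
  rw [abs_mul, abs_of_nonneg κ0]
  linarith

end Crest.Agent.T145.Mid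
end

-- ▼ part T145/MidUp_74
section

/-!
# Row 145: MID UP and DN, the link between the torus variance and the box stiffness (helper74)
-/

set_option autoImplicit false

namespace Crest.Agent.T145.Mid

open Finset Filter Topology

namespace Up74

theorem vr_near {L : Type*} [AddCommGroup L] {W : L → ℝ} (h : Cen W) (f g : L →+ ℝ) {e : ℝ}
    (he : 0 < e) : |Vr W (f - g) (f - g) - Vr W f f| ≤ e * Vr W f f + (1 + e⁻¹) * Vr W g g := by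
  have h1 := h.abs_vr_le f g
  have a0 := h.vr_nonneg f
  have b0 := h.vr_nonneg g
  have h2 : 2 * (√(Vr W f f) * √(Vr W g g)) ≤ e * Vr W f f + e⁻¹ * Vr W g g := by
    have h3 := mul_nonneg (inv_pos.2 he).le (sq_nonneg (e * √(Vr W f f) - √(Vr W g g)))
    have e1 : e⁻¹ * (e * √(Vr W f f) - √(Vr W g g)) ^ 2 = e * √(Vr W f f) ^ 2 +
        e⁻¹ * √(Vr W g g) ^ 2 - 2 * (√(Vr W f f) * √(Vr W g g)) := by field_simp; ring
    rw [e1, Real.sq_sqrt a0, Real.sq_sqrt b0] at h3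
    linarith
  rw [h.vr_sub, abs_le] at *
  constructor <;> linarith [h1.1, h1.2]

theorem amb_of {Λ : Lat} {m : Mdl Pt} {D : Finset Pt} (h : Nc.Amb Λ m D) : Λ.Amb m D := by
  have hE : ∀ e ∈ Λ.edI D, e ∈ m.ed := fun e he =>
    (h.near.1 e (Or.inl (Lat.mem_edI.1 he).2.1)).2 (Lat.mem_edI.1 he).1
  exact ⟨h.ctr, h.anch, hE, fun e he => h.near.2.1 e (hE e he) (Or.inl (Lat.mem_edI.1 he).2.1)⟩

theorem Au_nn {u : Pt → ℝ} {ρ : ℕ} (hρ : 1 ≤ ρ) (hu : Sup (bl 0 (2 * ρ)) u) :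
    nnL.Au (bl 0 (3 * ρ)) u = A0 u := by
  obtain ⟨k, hk⟩ : ∃ k, 3 * ρ = k + 1 := ⟨3 * ρ - 1, by omega⟩
  rw [hk, Mo32.A0_dv (R := k) fun x hx => hu x fun h => hx (bl_mono _ (by omega) h)]
  simp only [Lat.Au, nnL, div_one]

theorem En_nn {u : Pt → ℝ} {ρ : ℕ} (hρ : 1 ≤ ρ) (hu : Sup (bl 0 (2 * ρ)) u) :
    nnL.En (bl 0 (3 * ρ)) u u = nnL.En (bl 0 (2 * ρ + 1)) u u := by
  refine Lat.En_subset (bl_mono _ (by omega)) (fun e he hn => ?_) u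
  obtain ⟨h1, -, -⟩ := Lat.mem_edI.1 he
  rw [Lat.mem_edI, not_and] at hn
  have h2 := hn h1
  rw [RJ57.nn_Jp, mem_insert, mem_singleton, Prod.ext_iff, Prod.ext_iff] at h1
  simp only [Prod.fst_sub, Prod.snd_sub] at h1
  rw [mem_bl, mem_bl] at h2
  rw [hu e.1, hu e.2] <;> rw [mem_bl] <;> simp only [Prod.fst_zero, Prod.snd_zero] at h2 ⊢ <;>
    push_cast at h2 ⊢ <;> omega

theorem size {ρ : ℝ} (hρ : 1 ≤ ρ) {n : ℝ} (h0 : 0 ≤ n) (hn : n ≤ 7 * ρ) :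
    n * n / ρ ^ 3 + (n + n) / ρ ^ 2 ≤ 63 / ρ ∧ n * n / ρ ^ 4 + (n + n) / ρ ^ 2 ≤ 63 / ρ := by
  have h1 : n * n / ρ ^ 3 ≤ 49 / ρ := by
    rw [div_le_div_iff₀ (by positivity) (by positivity)]
    nlinarith [mul_le_mul hn hn h0 (by positivity), mul_nonneg h0 h0]
  have h2 : (n + n) / ρ ^ 2 ≤ 14 / ρ := by
    rw [div_le_div_iff₀ (by positivity) (by positivity)]; nlinarith
  have h3 : n * n / ρ ^ 4 ≤ n * n / ρ ^ 3 :=
    div_le_div_of_nonneg_left (mul_nonneg h0 h0) (by positivity) (pow_le_pow_right₀ hρ (by norm_num))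
  have e : 63 / ρ = 49 / ρ + 14 / ρ := by ring
  constructor <;> linarith

/-- what both links use -/
structure Cmp (Λ : Lat) (ρ n : ℕ) (η : ℝ) : Prop where
  amb : Nc.Amb Λ (Om.Tb Λ n 0) (bl 0 (3 * ρ))
  vr : |Λ.e0 ^ 2 * (Vt Λ n ρ * Ec ρ) - Vr ((Om.Tb Λ n 0).W 0) (pr (Λ.Au (bl 0 (3 * ρ)) (Xi.chi ρ)))
    (pr (Λ.Au (bl 0 (3 * ρ)) (Xi.chi ρ)))| ≤ η
  en : |Λ.En (bl 0 (3 * ρ)) (Xi.chi ρ) (Xi.chi ρ) - Λ.e0 * Ec ρ| ≤ η

theorem cmp (hC : ChiStmt) (F : Fa) {η : ℝ} (hη : 0 < η) : ∃ c : ℝ, ∀ Λ, F.Mem Λ → ∀ ρ n : ℕ,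
    c ≤ ρ → 16 * ρ ≤ n → Cmp Λ ρ n η := by
  obtain ⟨C, hC1, hC⟩ := hC
  obtain ⟨C₀, hR⟩ := rjStmt F
  obtain ⟨T, hT1, hT⟩ := F.exists_bound
  set B : ℝ := T * C + η with hB
  have B0 : 0 < B := by positivity
  set e : ℝ := η / (2 * B) with he
  have e0 : 0 < e := by positivity
  set σ : ℝ := min η (η / (2 * (1 + e⁻¹) * T)) with hσ
  have σ0 : 0 < σ := by positivity
  refine ⟨max T (|C₀| * C ^ 2 * 63 / σ), fun Λ hΛ ρ n hρ hn => ?_⟩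
  obtain ⟨t1, -, t3, -, -, t6, -, -⟩ := hT Λ hΛ
  have ok := hΛ.ok
  have ρ1 : (1 : ℝ) ≤ ρ := hT1.trans ((le_max_left _ _).trans hρ)
  have ρ1' : 1 ≤ ρ := by exact_mod_cast ρ1
  have hrg : Λ.rg ≤ ρ := by exact_mod_cast t6.trans ((le_max_left _ _).trans hρ)
  obtain ⟨s1, s2, s3, s4⟩ := hC ρ ρ1'
  have amb : Nc.Amb Λ (Om.Tb Λ n 0) (bl 0 (3 * ρ)) := Om.amb_Tb ok 0 (by omega)
  have A := amb_of amb
  obtain ⟨r1, r2, -, -⟩ := (hR Λ hΛ ((0 : Pt).1 - (3 * ρ : ℕ), (0 : Pt).2 - (3 * ρ : ℕ)) (2 * (3 * ρ) + 1)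
    (2 * (3 * ρ) + 1)).2 _ _ C ρ ρ1 s1 s1
  have eD : rc ((0 : Pt).1 - (3 * ρ : ℕ), (0 : Pt).2 - (3 * ρ : ℕ)) (2 * (3 * ρ) + 1) (2 * (3 * ρ) + 1) =
      bl 0 (3 * ρ) := (bl_eq_sq 0 _).symm
  rw [eD, Au_nn ρ1' s2] at r1
  rw [eD, En_nn ρ1' s2] at r2
  obtain ⟨z1, z2⟩ := size ρ1 (n := ((2 * (3 * ρ) + 1 : ℕ) : ℝ)) (Nat.cast_nonneg _) (by push_cast; linarith)
  have sm : ∀ x : ℝ, 0 ≤ x → x ≤ 63 / ρ → C₀ * C ^ 2 * x ≤ σ := fun x h0 hx => by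
    have h1 : |C₀| * C ^ 2 * 63 / σ ≤ ρ := (le_max_right _ _).trans hρ
    rw [div_le_iff₀ σ0] at h1
    calc C₀ * C ^ 2 * x ≤ |C₀| * C ^ 2 * (63 / ρ) := by gcongr; exact le_abs_self _
      _ ≤ σ := by rw [← mul_div_assoc, div_le_iff₀ (by linarith)]; linarith
  have en : |Λ.En (bl 0 (3 * ρ)) (Xi.chi ρ) (Xi.chi ρ) - Λ.e0 * Ec ρ| ≤ η :=
    r2.trans ((sm _ (by positivity) z1).trans (min_le_left _ _))
  refine ⟨amb, ?_, en⟩
  have v1 := A.vr_le ok (RJ57.f2_mono r1 (sm _ (by positivity) z2))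
  have v2 := A.vr_Au ok (Xi.chi ρ)
  have v3 := vr_near A.cen (pr (Λ.Au (bl 0 (3 * ρ)) (Xi.chi ρ)))
    (pr (Λ.Au (bl 0 (3 * ρ)) (Xi.chi ρ) - Λ.e0 • A0 (Xi.chi ρ))) e0
  rw [← pr_sub, sub_sub_cancel, pr_smul, Vr_smul_smul] at v3
  rw [Vt, div_mul_cancel₀ _ (by linarith)]
  refine v3.trans ?_
  have b1 : Λ.En (bl 0 (3 * ρ)) (Xi.chi ρ) (Xi.chi ρ) ≤ B := by
    have := mul_le_mul t3 s4 (by linarith) (by linarith)
    linarith [(abs_le.1 en).2]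
  have b2 : e * B = η / 2 := by rw [he]; field_simp
  have b3 : (1 + e⁻¹) * (T * σ) ≤ η / 2 := by
    have h1 : σ ≤ η / (2 * (1 + e⁻¹) * T) := min_le_right _ _
    rw [le_div_iff₀ (by positivity)] at h1
    linarith
  have b4 := mul_le_mul_of_nonneg_left (v2.trans b1) e0.le
  have b5 := mul_le_mul_of_nonneg_left (v1.trans (mul_le_mul_of_nonneg_right t1 σ0.le))
    (show 0 ≤ 1 + e⁻¹ by positivity)
  linarith

/-- division by `e₀² E` -/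
theorem fin {c E T V g x : ℝ} (c0 : 0 < c) (hT : 1 / c ≤ T) (hE : 1 ≤ E) (x0 : 0 ≤ x)
    (h : c ^ 2 * (V * E) - g * c * (c * E) ≤ x) : V - g ≤ T ^ 2 * x := by
  rw [div_le_iff₀ c0] at hT
  have h1 : 1 ≤ (T * c) ^ 2 := one_le_pow₀ hT
  by_contra hn
  push Not at hn
  have h2 : T ^ 2 * x * (c ^ 2 * E) < (V - g) * (c ^ 2 * E) := mul_lt_mul_of_pos_right hn (by positivity)
  have h3 : x * 1 ≤ x * ((T * c) ^ 2 * E) :=
    mul_le_mul_of_nonneg_left (one_le_mul_of_one_le_of_one_le h1 hE) x0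
  nlinarith

end Up74

open Up74

/-- UP -/
theorem upStmt (hC : ChiStmt) (hx : T1xStmt) (ha : T1aStmt) : UpStmt := by
  intro F ε hε
  obtain ⟨T, hT1, hT⟩ := F.exists_bound
  obtain ⟨_, ha⟩ := ha F
  set η : ℝ := ε / (4 * T ^ 2) with hη
  have η0 : 0 < η := by positivity
  obtain ⟨c, hc⟩ := cmp hC F η0
  obtain ⟨C, hC1, hC⟩ := hC
  refine exists_of_ev ?_
  filter_upwards [ev_sep_mem (hx F (max C (4 * 7 ^ 2)) η η0), ev_large' c] with δ h1 h2 Λ hΛ l ρ n hs hn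
  have ok := hΛ.ok
  have k := hc Λ hΛ ρ n (h2 l ρ hs).2.2 hn
  have ρ1 := hs.one_le_L
  have ρ0 : (0 : ℝ) ≤ ρ := Nat.cast_nonneg _
  obtain ⟨s1, -, s3, -⟩ := hC ρ ρ1
  obtain ⟨a0, a1, -⟩ := ha Λ hΛ l hs.one_le_l
  have reg : Reg (bl 0 (3 * ρ)) (max C (4 * 7 ^ 2)) l ρ := by
    have h3 : ((2 * (3 * ρ) + 1 : ℕ) : ℝ) ≤ 7 * ρ := by exact_mod_cast (by omega)
    have h := brStmt.2.2.2.2.2.1 ((0 : Pt).1 - (3 * ρ : ℕ), (0 : Pt).2 - (3 * ρ : ℕ)) _ _ l ρ 7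
      (by norm_num) h3 h3
    have h4 := le_max_right C (4 * 7 ^ 2)
    rw [bl_eq_sq]
    exact ⟨h.1.trans (by gcongr), h.2.trans (by gcongr)⟩
  have h4 := le_max_left C (4 * 7 ^ 2)
  have h3 := h1 Λ hΛ l ρ hs _ _ (Xi.chi ρ) (fun _ => 0) (amb_of k.amb) reg
    ⟨fun i x => (s1.1 i x).trans (by gcongr), fun i j x => (s1.2 i j x).trans (by gcongr)⟩
    fun e _ => by rw [abs_zero]; positivity
  have e0 : dv (Λ.edI (bl 0 (3 * ρ))) (fun _ => (0 : ℝ)) = 0 := by funext x; simp [dv]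
  rw [e0, pr_zero, add_zero] at h3
  simp only [zero_mul, sum_const_zero, mul_zero, add_zero, ne_eq, OfNat.ofNat_ne_zero,
    not_false_eq_true, zero_pow] at h3
  have h5 := ((amb_of k.amb).cen.vr_le_M _).trans h3
  have h6 := mul_le_mul_of_nonneg_left (abs_le.1 k.en).2 a0
  have h7 := mul_le_of_le_one_left η0.le a1
  have h8 := fin (V := Vt Λ n ρ) (g := Λ.gN l) (x := 4 * η) ok.e0_pos (hT Λ hΛ).2.2.2.1 s3 (by positivity)
    (by rw [ok.gN_mul]; nlinarith [(abs_le.1 k.vr).2])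
  have h9 : T ^ 2 * (4 * η) = ε := by rw [hη]; field_simp
  linarith

/-- DN -/
theorem dnStmt (hC : ChiStmt) (hD : DlgStmt) (ha : T1aStmt) : DnStmt := by
  refine Soft.of_ev fun F θ₀ K ε hθ _ hε => ?_
  obtain ⟨T, hT1, hT⟩ := F.exists_bound
  obtain ⟨_, ha⟩ := ha F
  set η : ℝ := ε / (3 * T ^ 2) with hη
  have η0 : 0 < η := by positivity
  obtain ⟨c, hc⟩ := cmp hC F η0
  obtain ⟨C, hC1, hC⟩ := hC
  have hK : (1 : ℝ) ≤ max C 2 := hC1.trans (le_max_left _ _)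
  filter_upwards [Soft.ev hD F hθ hK η0, ev_large' c] with δ h1 h2 Λ hΛ l ρ hw n hn
  have ok := hΛ.ok
  have k := hc Λ hΛ ρ n (h2 l ρ hw.sep).2.2 hn
  have ρ1 := hw.one_le_L
  have ρ0 : (0 : ℝ) ≤ ρ := Nat.cast_nonneg _
  obtain ⟨s1, s2, s3, -⟩ := hC ρ ρ1
  obtain ⟨a0, a1, -⟩ := ha Λ hΛ l hw.one_le_l
  have h4 := le_max_left C 2
  have h3 := (h1 Λ hΛ l ρ hw _ _ 0 (Xi.chi ρ) (amb_of k.amb)
    (k.amb.near.loc ok k.amb.ctr k.amb.anch k.amb.sub)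
    ⟨fun i x => (s1.1 i x).trans (by gcongr), fun i j x => (s1.2 i j x).trans (by gcongr)⟩
    fun x hx => by
      have h5 : x ∈ bl 0 (2 * ρ) := by by_contra h; exact hx (s2 x h)
      have h6 : 2 * ρ ≤ ⌊max C 2 * (ρ : ℝ)⌋₊ := Nat.le_floor (by
        push_cast; exact mul_le_mul_of_nonneg_right (le_max_right _ _) ρ0)
      have h7 : ⌊(ρ : ℝ) / max C 2⌋₊ ≤ ρ := Nat.floor_le_of_le (div_le_self ρ0 hK)
      exact ⟨bl_mono _ h6 h5, bl_subset_bl h5 (by omega)⟩).1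
  have h6 : |Λ.tN l * (Λ.En (bl 0 (3 * ρ)) (Xi.chi ρ) (Xi.chi ρ) - Λ.e0 * Ec ρ)| ≤ η := by
    rw [abs_mul, abs_of_nonneg a0]
    exact (mul_le_of_le_one_left (abs_nonneg _) a1).trans k.en
  have h9 : T ^ 2 * (3 * η) = ε := by rw [hη]; field_simp
  have v := abs_le.1 k.vr
  rw [abs_le] at h3 h6
  have h7 := fin (V := Vt Λ n ρ) (g := Λ.gN l) (x := 3 * η) ok.e0_pos (hT Λ hΛ).2.2.2.1 s3 (by positivity)
    (by rw [ok.gN_mul]; linarith [v.2, h3.2, h6.2])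
  have h8 := fin (V := -Vt Λ n ρ) (g := -Λ.gN l) (x := 3 * η) ok.e0_pos (hT Λ hΛ).2.2.2.1 s3
    (by positivity) (by rw [neg_mul (Λ.gN l), ok.gN_mul]; linarith [v.1, h3.1, h6.1])
  rw [abs_le]; constructor <;> linarith

end Crest.Agent.T145.Mid
end

-- ▼ part T145/FlLink_65

/-!
# Row 145, odd flow: the running stiffness is the stiffness of the window (`LinkStmt`) (helper65)
-/

set_option autoImplicit false

namespace Crest.Agent.T145.Fl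

open Finset Pot Xi Real

namespace L65

theorem log_sub_le {a b m : ℝ} (hm : 0 < m) (ha : m ≤ a) (hb : m ≤ b) : log a - log b ≤ |a - b| / m := by
  have hb0 : 0 < b := hm.trans_le hb
  rw [← log_div (hm.trans_le ha).ne' hb0.ne']
  refine (log_le_sub_one_of_pos (div_pos (hm.trans_le ha) hb0)).trans ?_
  rw [div_sub_one hb0.ne']
  exact (div_le_div_of_nonneg_right (le_abs_self _) hb0.le).trans
    (div_le_div_of_nonneg_left (abs_nonneg _) hm hb)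

theorem cmp {a b P x ε η ε' : ℝ} (hx : 0 < x) (hb : x ≤ exp b) (hb1 : exp b ≤ 1)
    (h1 : |P - exp a| ≤ η * max 1 (exp a)) (h2 : |P - exp b| ≤ ε') (hη0 : 0 ≤ η) (hη : η ≤ 1 / 2)
    (hε' : ε' ≤ 1) (h3 : 4 * η + ε' ≤ x * min 1 ε / 2) : |a - b| ≤ ε := by
  have m1 := min_le_left 1 ε
  have m2 := min_le_right 1 ε
  obtain ⟨p1, p2⟩ := abs_le.1 h1
  obtain ⟨q1, q2⟩ := abs_le.1 h2
  have h4 : max 1 (exp a) ≤ 4 := by
    rcases le_total 1 (exp a) with h | h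
    · rw [max_eq_right h] at p1 ⊢
      nlinarith [exp_pos a]
    · rw [max_eq_left h]; norm_num
  have h5 := mul_le_mul_of_nonneg_left h4 hη0
  have h6 : |exp a - exp b| ≤ x * min 1 ε / 2 := abs_le.2 ⟨by linarith, by linarith⟩
  have h7 : x / 2 ≤ exp a := by nlinarith [(abs_le.1 h6).1]
  have h8 : |exp a - exp b| / (x / 2) ≤ ε := by
    rw [div_le_iff₀ (half_pos hx)]; nlinarith
  have h9 := log_sub_le (half_pos hx) h7 (by linarith : x / 2 ≤ exp b)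
  have h10 := log_sub_le (half_pos hx) (by linarith : x / 2 ≤ exp b) h7
  rw [log_exp, log_exp] at h9 h10
  rw [abs_sub_comm] at h10
  exact abs_le.2 ⟨by linarith, by linarith⟩

theorem E0_chi {ρ : ℕ} (hρ : 1 ≤ ρ) : E0 (bl 0 (2 * ρ)) (Xi.chi ρ) = Mid.Ec ρ := by
  have h0 : (0 : ℝ) < ρ := by exact_mod_cast hρ
  have h : Pot.Sup (bl 0 (2 * ρ)) (Xi.chi ρ) := sup_chi h0 (by push_cast; linarith)
  rw [B80.E0_ed h (B80.gb_bl h), Mid.Ec, Lat.En]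
  simp [nnL, pow_two]

theorem E0_smul (D : Finset Pt) (c : ℝ) (v : Pt → ℝ) : E0 D (c • v) = c ^ 2 * E0 D v := by
  rw [E0, E0, A0_smul, mul_sum]
  exact sum_congr rfl fun x _ => by simp only [Pi.smul_apply, smul_eq_mul]; ring

end L65

open L65

set_option maxHeartbeats 800000 in
theorem linkStmt (hN : NeuStmt) (hS : SgStmt) (hT : T1aStmt) : LinkStmt := by
  intro p θ₀ ε hθ hε
  obtain ⟨Cn, hCn0, hCn⟩ := hN p
  obtain ⟨σ, hσ, hχ⟩ := sm_chi 3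
  obtain ⟨CE, hCE1, hCE⟩ := Mid.chiStmt
  obtain ⟨_, hT⟩ := hT p.F
  have hπ := pi_gt_three
  set x := exp (-2 * π ^ 2 * |p.F.τ₂| * CE) with hx
  have hx0 : 0 < x := exp_pos _
  set t := x * min 1 ε / 2 with ht
  have ht0 : 0 < t := by have := lt_min one_pos hε; positivity
  obtain ⟨δ, hδ, hS⟩ := hS p.F θ₀ (1 + 16 * π * σ + 4 * π ^ 2 * CE) (min (t / 2) 1) hθ
    (by nlinarith [mul_nonneg pi_pos.le hσ, mul_nonneg (sq_nonneg π) (zero_le_one.trans hCE1)])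
    (lt_min (half_pos ht0) one_pos)
  set A := Cn * (1 + σ) ^ 3 * 3 ^ 5 with hA
  have hA0 : 0 ≤ A := by positivity
  have hw : (0 : ℝ) ≤ p.w := Nat.cast_nonneg _
  have hq : 0 ≤ A * (8 / t) := by positivity
  refine ⟨p.w + 3 + A * (8 / t) + 2 * A, δ, by positivity, hδ, fun l => ?_⟩
  obtain ⟨r₁, hS⟩ := hS l
  refine ⟨max r₁ (⌈Cn⌉₊ + 1), fun Λ ω L N' N hE hW hL R Y hM hY hr hR => ?_⟩
  have hR1 := hM.1
  have hY0 : 0 < Y := (rpow_pos_of_pos (by linarith) _).trans_le hM.2.1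
  set ρ := ⌊R⌋₊ with hρ
  have hρr : max r₁ (⌈Cn⌉₊ + 1) ≤ ρ := Nat.le_floor hr
  have hρ1 : 1 ≤ ρ := by omega
  have hρ1' : (1 : ℝ) ≤ ρ := by exact_mod_cast hρ1
  have hρR : (ρ : ℝ) ≤ R := Nat.floor_le (by linarith)
  have hRρ : R < ρ + 1 := Nat.lt_floor_add_one R
  have hCρ : Cn ≤ ρ := (Nat.le_ceil Cn).trans (by exact_mod_cast (by omega : ⌈Cn⌉₊ ≤ ρ))
  have hRL : (p.w + 3) * R ≤ L := le_trans (by nlinarith) hR
  have hfit : 2 * ρ + 1 + p.w * ρ ≤ L := by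
    have : ((2 * ρ + 1 + p.w * ρ : ℕ) : ℝ) ≤ L := by push_cast; nlinarith
    exact_mod_cast this
  have hle := hE.le
  have hv : Pot.Sup (bl 0 (2 * ρ)) (Xi.chi ρ) := sup_chi (by linarith) (by push_cast; linarith)
  obtain ⟨-, -, e1, e2⟩ := hCE ρ hρ1
  have n1 := hCn Λ ω L N' hE R Y 3 hM (by nlinarith) (by norm_num) (by nlinarith) ρ (2 * ρ) σ (Xi.chi ρ)
    hCρ (by linarith) (by linarith) (by push_cast; linarith) (by omega) (by omega) hv (hχ ρ (by linarith))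
  obtain ⟨m, hm⟩ := hE.amb 0
  have hm' : Nc.Amb Λ m (bl 0 (2 * ρ + 1)) :=
    ⟨hm.1.ctr, hm.1.anch, (bl_mono _ (by omega)).trans hm.1.sub, hm.1.near.mono (bl_mono _ (by omega))⟩
  have s1 := (hS Λ N hE.mem hW 0 (2 * ρ) ((2 * π) • Xi.chi ρ) m (by omega) (by omega)
    (fun y hy => by rw [Pi.smul_apply, hv y hy, smul_zero]) (fun y => ?_) ?_ hm').1.2.2
  · have eP : ω (cp (A0 (Xi.chi ρ)) 0) = Ph (m.W 0) (pr (A0 ((2 * π) • Xi.chi ρ))) := by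
      rw [hm.2 _ (depG_cp (chq_A0 hv (by omega)) 0), A0_smul, pr_smul, Ph]
      congr 1
      funext s
      simp [cp]
    rw [← eP, E0_smul, E0_chi hρ1] at s1
    rw [E0_chi hρ1] at n1
    obtain ⟨g0, g1, -⟩ := hT Λ hE.mem l hW.one_le_l
    have he := hE.mem.e0_pos
    have g2 : 0 ≤ Λ.gN l := div_nonneg g0 he.le
    have g3 : Λ.gN l ≤ |p.F.τ₂| :=
      ((div_le_div_of_nonneg_right g1 he.le).trans hE.mem.inv_e0_le).trans (le_abs_self _)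
    have hp : 0 < π ^ 2 := by positivity
    have hgE : Λ.gN l * Mid.Ec ρ ≤ |p.F.τ₂| * CE := mul_le_mul g3 e2 (by linarith) (abs_nonneg _)
    have hgE0 : 0 ≤ Λ.gN l * Mid.Ec ρ := mul_nonneg g2 (by linarith)
    have hAY : A * Y ≤ t / 8 := by
      have h1 : A * (8 / t) * Y ≤ 1 := le_trans (by nlinarith) hY
      have h2 : A * Y = A * (8 / t) * Y * (t / 8) := by field_simp
      rw [h2]
      exact mul_le_of_le_one_left (by positivity) h1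
    have key := cmp hx0 (exp_le_exp.2 (by nlinarith)) (exp_le_one_iff.2 (by nlinarith)) n1 s1
      (by positivity) (by nlinarith) (min_le_right _ _) (by linarith [min_le_left (t / 2) 1])
    rw [show -2 * π ^ 2 * gk ω R * Mid.Ec ρ - -(Λ.gN l * ((2 * π) ^ 2 * Mid.Ec ρ)) / 2 =
      -(2 * π ^ 2 * Mid.Ec ρ) * (gk ω R - Λ.gN l) by ring, abs_mul, abs_neg,
      abs_of_nonneg (by positivity)] at key
    exact (le_mul_of_one_le_left (abs_nonneg _) (by nlinarith)).trans key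
  · have h1 : |A0 (Xi.chi ρ) y| ≤ 2 * (σ / (ρ : ℝ) ^ 2) := Sw22.abs_A0_two fun e he e' he' =>
      hχ ρ (by linarith) [e, e'] (by simp) (by simp [he, he']) y trivial
    rw [A0_smul, Pi.smul_apply, smul_eq_mul, abs_mul, abs_of_pos (by positivity : 0 < 2 * π)]
    push_cast
    calc 2 * π * |A0 (Xi.chi ρ) y| ≤ 2 * π * (2 * (σ / (ρ : ℝ) ^ 2)) := by gcongr
      _ = 16 * π * σ / (2 * (ρ : ℝ)) ^ 2 := by field_simp; ring
      _ ≤ _ := by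
        gcongr
        nlinarith [mul_nonneg (sq_nonneg π) (zero_le_one.trans hCE1)]
  · rw [E0_smul, E0_chi hρ1]
    nlinarith [mul_nonneg pi_pos.le hσ, mul_le_mul_of_nonneg_left e2 (sq_nonneg π)]

end Crest.Agent.T145.Fl
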