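import Crest.Agent.T145.PotL_17

/-!
# Row 145: differences of the lattice logarithm (helper22): `lgStmt : LgStmt`
General tool: differences of (real parts of) holomorphic functions by Cauchy estimates.
-/

set_option autoImplicit false

namespace Crest.Agent.T145.Pot

open Finset Metric

namespace Lg22

/-- a lattice point as a complex number -/
noncomputable def cz (z : Pt) : ℂ := ⟨z.1, z.2⟩

theorem norm_cz (z : Pt) : ‖cz z‖ = eu z := by
  rw [Complex.norm_eq_sqrt_sq_add_sq]; rfl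

theorem cz_add (z w : Pt) : cz (z + w) = cz z + cz w := by
  apply Complex.ext <;> simp [cz]

@[simp] theorem cz_zero : cz 0 = 0 := by
  apply Complex.ext <;> simp [cz]

/-- iterated complex differences -/
noncomputable def cdifs : List Pt → (ℂ → ℂ) → ℂ → ℂ
  | [], F => F
  | y :: ys, F => fun w => cdifs ys F (w + cz y) - cdifs ys F w

/-- one difference of a bounded holomorphic function -/
theorem holo_step {F : ℂ → ℂ} {R ρ M : ℝ} (hρ : 0 < ρ) (hF : DifferentiableOn ℂ F (ball 0 R))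
    (hM : ∀ w ∈ ball (0 : ℂ) R, ‖F w‖ ≤ M) {y w : ℂ} (hy : ‖y‖ ≤ 1) (hw : ‖w‖ < R - (1 + ρ)) :
    ‖F (w + y) - F w‖ ≤ M / ρ := by
  have hsub : ∀ x ∈ ball (0 : ℂ) (R - ρ), closedBall x ρ ⊆ ball (0 : ℂ) R := fun x hx v hv => by
    rw [mem_ball_zero_iff] at hx ⊢
    rw [mem_closedBall, dist_eq_norm] at hv
    calc ‖v‖ = ‖(v - x) + x‖ := by ring_nf
      _ ≤ ‖v - x‖ + ‖x‖ := norm_add_le _ _
      _ < R := by linarith
  have h1 : w ∈ ball (0 : ℂ) (R - ρ) := by rw [mem_ball_zero_iff]; linarith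
  have h2 : w + y ∈ ball (0 : ℂ) (R - ρ) := by
    rw [mem_ball_zero_iff]; linarith [norm_add_le w y]
  have hM0 : 0 ≤ M := (norm_nonneg _).trans (hM w (hsub w h1 (mem_closedBall_self hρ.le)))
  have := (convex_ball (0 : ℂ) (R - ρ)).norm_image_sub_le_of_norm_deriv_le (𝕜 := ℂ) (f := F)
    (C := M / ρ) (fun x hx => hF.differentiableAt
      (isOpen_ball.mem_nhds (hsub x hx (mem_closedBall_self hρ.le))))
    (fun x hx => Complex.norm_deriv_le_of_forall_mem_sphere_norm_le hρ
      (hF.diffContOnCl_ball (hsub x hx))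
      fun v hv => hM v (hsub x hx (sphere_subset_closedBall hv))) h1 h2
  rw [add_sub_cancel_left] at this
  exact this.trans (mul_le_of_le_one_right (by positivity) hy)

/-- iterated differences of a bounded holomorphic function -/
theorem holo_difs {F : ℂ → ℂ} {R ρ M : ℝ} (hρ : 0 < ρ) (hF : DifferentiableOn ℂ F (ball 0 R))
    (hM : ∀ w ∈ ball (0 : ℂ) R, ‖F w‖ ≤ M) (ys : List Pt) (hys : ∀ y ∈ ys, eu y ≤ 1) :
    DifferentiableOn ℂ (cdifs ys F) (ball 0 (R - ys.length * (1 + ρ))) ∧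
      ∀ w ∈ ball (0 : ℂ) (R - ys.length * (1 + ρ)), ‖cdifs ys F w‖ ≤ M / ρ ^ ys.length := by
  induction ys with
  | nil => simpa [cdifs, -mem_ball] using And.intro hF hM
  | cons y ys ih =>
    obtain ⟨h1, h2⟩ := ih fun v hv => hys v (List.mem_cons_of_mem _ hv)
    have hy : ‖cz y‖ ≤ 1 := by rw [norm_cz]; exact hys y List.mem_cons_self
    have he : R - ((y :: ys).length : ℕ) * (1 + ρ) = R - ys.length * (1 + ρ) - (1 + ρ) := by
      simp only [List.length_cons]; push_cast; ring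
    rw [he]
    refine ⟨DifferentiableOn.sub (h1.comp (by fun_prop) fun w hw => ?_)
      (h1.mono (ball_subset_ball (by linarith))), fun w hw => ?_⟩
    · rw [mem_ball_zero_iff] at hw ⊢
      linarith [norm_add_le w (cz y)]
    · have := holo_step hρ h1 h2 hy (mem_ball_zero_iff.1 hw)
      rw [List.length_cons, pow_succ, ← div_div]
      exact this

theorem difs_eq_re {F : ℂ → ℂ} {R : ℝ} {u : Pt → ℝ} {z : Pt}
    (h : ∀ w : Pt, eu w < R → u (z + w) = (F (cz w)).re) (ys : List Pt) (hys : ∀ y ∈ ys, eu y ≤ 1) :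
    ∀ w : Pt, eu w + ys.length < R → difs ys u (z + w) = (cdifs ys F (cz w)).re := by
  induction ys with
  | nil => intro w hw; exact h w (by simpa using hw)
  | cons y ys ih =>
    intro w hw
    have ih' := ih fun v hv => hys v (List.mem_cons_of_mem _ hv)
    have hy := hys y List.mem_cons_self
    simp only [List.length_cons, Nat.cast_add, Nat.cast_one] at hw
    simp only [difs, dif, cdifs, Complex.sub_re]
    rw [add_assoc, ih' (w + y) (by linarith [eu_add_le w y]), ih' w (by linarith), cz_add]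

/-- lattice differences of the real part of a bounded holomorphic function -/
theorem difs_holo {F : ℂ → ℂ} {R ρ M : ℝ} (hρ : 0 < ρ) (hF : DifferentiableOn ℂ F (ball 0 R))
    (hM : ∀ w ∈ ball (0 : ℂ) R, ‖F w‖ ≤ M) {u : Pt → ℝ} {z : Pt}
    (h : ∀ w : Pt, eu w < R → u (z + w) = (F (cz w)).re) (ys : List Pt) (hys : ∀ y ∈ ys, eu y ≤ 1)
    (hR : ys.length * (1 + ρ) < R) : |difs ys u z| ≤ M / ρ ^ ys.length := by
  have h1 := difs_eq_re h ys hys 0 (by
    have : (0 : ℝ) ≤ ys.length * ρ := by positivity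
    simp only [eu_zero]; linarith)
  rw [add_zero, cz_zero] at h1
  rw [h1]
  exact (Complex.abs_re_le_norm _).trans
    ((holo_difs hρ hF hM ys hys).2 0 (mem_ball_self (by linarith)))

/-- crude bound -/
theorem difs_crude {u : Pt → ℝ} {R M : ℝ} (h : ∀ w, eu w ≤ R → |u w| ≤ M) (ys : List Pt)
    (hys : ∀ y ∈ ys, eu y ≤ 1) : ∀ z, eu z + ys.length ≤ R → |difs ys u z| ≤ 2 ^ ys.length * M := by
  induction ys with
  | nil => intro z hz; simpa [difs] using h z (by simpa using hz)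
  | cons y ys ih =>
    intro z hz
    have ih' := ih fun v hv => hys v (List.mem_cons_of_mem _ hv)
    have hy := hys y List.mem_cons_self
    simp only [List.length_cons, Nat.cast_add, Nat.cast_one] at hz
    have h1 := ih' (z + y) (by linarith [eu_add_le z y])
    have h2 := ih' z (by linarith)
    simp only [difs, dif, List.length_cons, pow_succ]
    linarith [abs_sub (difs ys u (z + y)) (difs ys u z)]

theorem difs_const (c : ℝ) (y : Pt) (ys : List Pt) : difs (y :: ys) (fun _ => c) = 0 := by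
  induction ys generalizing y with
  | nil => funext z; simp [difs, dif]
  | cons y' ys ih => funext z; rw [difs, ih]; simp [dif]

/-- from a bound far away and a crude bound near the origin to a global bound -/
theorem glue {u : Pt → ℝ} {k n : ℕ} {R A : ℝ} (hR : 1 ≤ R) (hA : 0 ≤ A)
    (h0 : ∀ S : ℝ, ∃ M, ∀ w, eu w ≤ S → |u w| ≤ M)
    (h1 : ∀ ys : List Pt, ys.length = k → (∀ y ∈ ys, y ∈ nn) → ∀ z, R ≤ eu z →
      |difs ys u z| ≤ A / eu z ^ n) :
    ∃ C : ℝ, ∀ ys : List Pt, ys.length = k → (∀ y ∈ ys, y ∈ nn) →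
      ∀ z, |difs ys u z| ≤ C / (1 + eu z) ^ n := by
  obtain ⟨M, hM⟩ := h0 (R + k)
  have hM0 : 0 ≤ M := (abs_nonneg _).trans (hM 0 (by simp only [eu_zero]; positivity))
  refine ⟨2 ^ n * A + 2 ^ k * M * (1 + R) ^ n, fun ys hk hys z => ?_⟩
  have hz := eu_nonneg z
  rw [le_div_iff₀ (by positivity)]
  rcases le_total R (eu z) with h | h
  · have h2 := h1 ys hk hys z h
    rw [le_div_iff₀ (pow_pos (by linarith) n)] at h2
    have h3 : (1 + eu z) ^ n ≤ 2 ^ n * eu z ^ n := by
      rw [← mul_pow]; exact pow_le_pow_left₀ (by positivity) (by linarith) n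
    have h4 : 0 ≤ 2 ^ k * M * (1 + R) ^ n := by positivity
    calc |difs ys u z| * (1 + eu z) ^ n ≤ |difs ys u z| * (2 ^ n * eu z ^ n) :=
          mul_le_mul_of_nonneg_left h3 (abs_nonneg _)
      _ = 2 ^ n * (|difs ys u z| * eu z ^ n) := by ring
      _ ≤ 2 ^ n * A := by gcongr
      _ ≤ _ := by linarith
  · have h2 := difs_crude hM ys (fun y hy => (eu_nn (hys y hy)).le) z (by rw [hk]; linarith)
    rw [hk] at h2
    have h4 : 0 ≤ 2 ^ n * A := by positivity
    calc |difs ys u z| * (1 + eu z) ^ n ≤ 2 ^ k * M * (1 + R) ^ n :=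
          mul_le_mul h2 (pow_le_pow_left₀ (by positivity) (by linarith) n) (by positivity)
            (by positivity)
      _ ≤ _ := by linarith

theorem abs_lg_le (z : Pt) : |lg z| ≤ eu z := by
  by_cases hz : z = 0
  · simp [hz, lg]
  have h1 := one_le_eu hz
  have h2 := Real.log_nonneg h1
  have h3 := Real.log_le_sub_one_of_pos (by linarith : 0 < eu z)
  rw [lg, abs_of_nonneg (by positivity), div_le_iff₀ (by positivity)]
  nlinarith [Real.pi_gt_three]

theorem cz_ne {z : Pt} (h : 0 < eu z) : cz z ≠ 0 := by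
  rw [← norm_pos_iff, norm_cz]; exact h

/-- the logarithm near `z` -/
theorem lg_add {z w : Pt} (h : eu w < eu z) :
    lg (z + w) - lg z = (Complex.log (1 + cz w / cz z) / (2 * Real.pi)).re := by
  have hz : 0 < eu z := (eu_nonneg w).trans_lt h
  have hz' := cz_ne hz
  have hzw : 0 < eu (z + w) := by
    have := eu_add_le (z + w) (-w)
    rw [add_neg_cancel_right, eu_neg] at this; linarith
  have h1 : (1 + cz w / cz z) = cz (z + w) / cz z := by rw [cz_add]; field_simp
  have h2 : (2 * Real.pi : ℂ) = ((2 * Real.pi : ℝ) : ℂ) := by push_cast; ring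
  rw [h2, Complex.div_ofReal_re, Complex.log_re, h1, norm_div, norm_cz, norm_cz,
    Real.log_div hzw.ne' hz.ne', lg, lg]
  ring

theorem norm_two_pi : ‖(2 * Real.pi : ℂ)‖ = 2 * Real.pi := by
  rw [norm_mul, Complex.norm_real, Real.norm_of_nonneg Real.pi_pos.le]; simp

theorem mem_slit {x : ℂ} (h : ‖x‖ ≤ 1 / 2) : 1 + x ∈ Complex.slitPlane :=
  Complex.mem_slitPlane_of_norm_lt_one (by linarith)

theorem norm_log_div {x : ℂ} (h : ‖x‖ ≤ 1 / 2) : ‖Complex.log (1 + x) / (2 * Real.pi)‖ ≤ ‖x‖ := by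
  rw [norm_div, norm_two_pi, div_le_iff₀ (by positivity)]
  nlinarith [Complex.norm_log_one_add_half_le_self h, Real.pi_gt_three, norm_nonneg x]

/-- choice of the Cauchy radius -/
theorem radius {k : ℕ} {r : ℝ} (h : 4 * (k + 1 : ℝ) ≤ r) :
    0 < r / (4 * (k + 1)) ∧ (k : ℝ) * (1 + r / (4 * (k + 1))) < r / 2 := by
  have hk : (0 : ℝ) ≤ k := Nat.cast_nonneg k
  have h1 : 1 ≤ r / (4 * (k + 1)) := by rw [le_div_iff₀ (by positivity)]; linarith
  have h2 : r / (4 * (k + 1)) * (4 * (k + 1)) = r := div_mul_cancel₀ _ (by positivity)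
  exact ⟨by linarith, by nlinarith⟩

theorem part1 (k : ℕ) : ∃ C : ℝ, ∀ ys : List Pt, ys.length = k + 1 → (∀ y ∈ ys, y ∈ nn) →
    ∀ z, |difs ys lg z| ≤ C / (1 + eu z) ^ (k + 1) := by
  have hk : (0 : ℝ) ≤ k := Nat.cast_nonneg k
  refine glue (R := 4 * (((k + 1 : ℕ) : ℝ) + 1)) (A := (4 * (((k + 1 : ℕ) : ℝ) + 1)) ^ (k + 1))
    (by push_cast; linarith) (by positivity)
    (fun S => ⟨S, fun w hw => (abs_lg_le w).trans hw⟩) fun ys hl hys z hz => ?_
  obtain ⟨h1, h2⟩ := radius hz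
  have hz0 : 0 < eu z := lt_of_lt_of_le (by positivity) hz
  have hb : ∀ w ∈ ball (0 : ℂ) (eu z / 2), ‖w / cz z‖ ≤ 1 / 2 := fun w hw => by
    rw [mem_ball_zero_iff] at hw
    rw [norm_div, norm_cz, div_le_iff₀ hz0]; linarith
  have hd : DifferentiableOn ℂ (fun w => Complex.log (1 + w / cz z) / (2 * Real.pi))
      (ball 0 (eu z / 2)) := fun w hw => by
    have h4 : DifferentiableAt ℂ (fun w => 1 + w / cz z) w := by fun_prop
    exact ((h4.clog (mem_slit (hb w hw))).div_const _).differentiableWithinAt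
  have h3 := difs_holo (M := 1) (u := lg - fun _ => lg z) (z := z) h1 hd
    (fun w hw => (norm_log_div (hb w hw)).trans ((hb w hw).trans (by norm_num)))
    (fun w hw => lg_add (by linarith)) ys (fun y hy => (eu_nn (hys y hy)).le) (by rw [hl]; exact h2)
  obtain ⟨y, ys', rfl⟩ := List.exists_cons_of_length_eq_add_one hl
  rw [difs_sub, difs_const, sub_zero, hl, div_pow, one_div_div] at h3
  exact h3

/-- the lattice Laplacian of the logarithm -/
theorem lap_lg {z : Pt} (h : 1 < eu z) :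
    lap lg z = (Complex.log (1 + -(cz z ^ 4)⁻¹) / (2 * Real.pi)).re := by
  have hz' := cz_ne (by linarith : 0 < eu z)
  have hy : ∀ y ∈ nn, lg (z + y) - lg z = Real.log ‖1 + cz y / cz z‖ / (2 * Real.pi) := fun y hy => by
    have h2 : (2 * Real.pi : ℂ) = ((2 * Real.pi : ℝ) : ℂ) := by push_cast; ring
    rw [lg_add (by rw [eu_nn hy]; exact h), h2, Complex.div_ofReal_re, Complex.log_re]
  have hn : ∀ y ∈ nn, ‖1 + cz y / cz z‖ ≠ 0 := fun y hy => by
    rw [norm_ne_zero_iff]
    refine Complex.slitPlane_ne_zero (Complex.mem_slitPlane_of_norm_lt_one ?_)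
    rw [norm_div, norm_cz, norm_cz, eu_nn hy, div_lt_one (by linarith)]; exact h
  have h2 : (2 * Real.pi : ℂ) = ((2 * Real.pi : ℝ) : ℂ) := by push_cast; ring
  rw [lap, lapJ, sum_congr rfl hy, ← sum_div, ← Real.log_prod hn, ← norm_prod, h2,
    Complex.div_ofReal_re, Complex.log_re]
  congr 3
  rw [nn, prod_insert (by decide), prod_insert (by decide), prod_pair (by decide)]
  have e1 : cz (1, 0) = 1 := by apply Complex.ext <;> simp [cz]
  have e2 : cz (-1, 0) = -1 := by apply Complex.ext <;> simp [cz]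
  have e3 : cz (0, 1) = Complex.I := by apply Complex.ext <;> simp [cz]
  have e4 : cz (0, -1) = -Complex.I := by apply Complex.ext <;> simp [cz]
  rw [e1, e2, e3, e4]
  field_simp
  linear_combination (1 - cz z ^ 2) * Complex.I_sq

theorem abs_lap_lg_le (z : Pt) : |lap lg z| ≤ 8 * (eu z + 1) := by
  have h : ∀ y ∈ nn, |lg (z + y) - lg z| ≤ 2 * (eu z + 1) := fun y hy => by
    have h1 := abs_lg_le (z + y)
    have h2 := eu_add_le z y
    rw [eu_nn hy] at h2
    linarith [abs_sub (lg (z + y)) (lg z), abs_lg_le z]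
  have h4 : nn.card = 4 := by decide
  calc _ ≤ ∑ y ∈ nn, |lg (z + y) - lg z| := abs_sum_le_sum_abs _ _
    _ ≤ nn.card • (2 * (eu z + 1)) := sum_le_card_nsmul _ _ _ h
    _ = _ := by rw [h4, nsmul_eq_mul]; push_cast; ring

theorem part2 (k : ℕ) : ∃ C : ℝ, ∀ ys : List Pt, ys.length = k → (∀ y ∈ ys, y ∈ nn) →
    ∀ z, |difs ys (lap lg) z| ≤ C / (1 + eu z) ^ (k + 4) := by
  have hk : (0 : ℝ) ≤ k := Nat.cast_nonneg k
  refine glue (R := 4 * ((k : ℝ) + 1)) (A := 16 * (4 * ((k : ℝ) + 1)) ^ k)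
    (by linarith) (by positivity)
    (fun S => ⟨8 * (S + 1), fun w hw => (abs_lap_lg_le w).trans (by linarith)⟩)
    fun ys hl hys z hz => ?_
  obtain ⟨h1, h2⟩ := radius hz
  have hz4 : 4 ≤ eu z := by linarith
  have hlo : ∀ w ∈ ball (0 : ℂ) (eu z / 2), eu z / 2 ≤ ‖cz z + w‖ := fun w hw => by
    rw [mem_ball_zero_iff] at hw
    have := norm_sub_le (cz z + w) w
    rw [add_sub_cancel_right, norm_cz] at this; linarith
  have hb : ∀ w ∈ ball (0 : ℂ) (eu z / 2), ‖-((cz z + w) ^ 4)⁻¹‖ ≤ 16 / eu z ^ 4 := fun w hw => by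
    rw [norm_neg, norm_inv, norm_pow]
    calc _ ≤ ((eu z / 2) ^ 4)⁻¹ := inv_anti₀ (by positivity)
          (pow_le_pow_left₀ (by positivity) (hlo w hw) 4)
      _ = _ := by field_simp; norm_num
  have hs : 16 / eu z ^ 4 ≤ 1 / 2 := by
    rw [div_le_iff₀ (by positivity)]
    have := pow_le_pow_left₀ (by norm_num) hz4 4
    linarith
  have hd : DifferentiableOn ℂ (fun w => Complex.log (1 + -((cz z + w) ^ 4)⁻¹) / (2 * Real.pi))
      (ball 0 (eu z / 2)) := fun w hw => by
    have h5 : (cz z + w) ^ 4 ≠ 0 := pow_ne_zero _ (by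
      have := hlo w hw
      rw [← norm_pos_iff]; linarith)
    have h6 : DifferentiableAt ℂ (fun w => (cz z + w) ^ 4) w := by fun_prop
    have h4 : DifferentiableAt ℂ (fun w => 1 + -((cz z + w) ^ 4)⁻¹) w :=
      (differentiableAt_const _).add (h6.inv h5).neg
    exact ((h4.clog (mem_slit ((hb w hw).trans hs))).div_const _).differentiableWithinAt
  have h3 := difs_holo (M := 16 / eu z ^ 4) (u := lap lg) (z := z) h1 hd
    (fun w hw => (norm_log_div ((hb w hw).trans hs)).trans (hb w hw))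
    (fun w hw => by
      have := hlo (cz w) (by rw [mem_ball_zero_iff, norm_cz]; exact hw)
      rw [← cz_add, norm_cz] at this
      rw [lap_lg (by linarith), cz_add])
    ys (fun y hy => (eu_nn (hys y hy)).le) (by rw [hl]; exact h2)
  rw [hl] at h3
  refine h3.trans (le_of_eq ?_)
  rw [div_pow, pow_add]
  field_simp

theorem part3 : ∃ C : ℝ, ∀ y ∈ nn, ∀ z : Pt, z ≠ 0 →
    |dif y lg z - ((y.1 : ℝ) * z.1 + y.2 * z.2) / (2 * Real.pi * eu z ^ 2)| ≤ C / eu z ^ 2 := by
  refine ⟨24, fun y hy z hz => ?_⟩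
  have h1 := one_le_eu hz
  have hpi := Real.pi_gt_three
  have hre : ((y.1 : ℝ) * z.1 + y.2 * z.2) / (2 * Real.pi * eu z ^ 2) =
      (cz y / cz z / (2 * Real.pi)).re := by
    have h2 : (2 * Real.pi : ℂ) = ((2 * Real.pi : ℝ) : ℂ) := by push_cast; ring
    rw [h2, Complex.div_ofReal_re, Complex.div_re, Complex.normSq_eq_norm_sq, norm_cz]
    simp only [cz]
    field_simp
  have hn : ‖cz y / cz z‖ = 1 / eu z := by rw [norm_div, norm_cz, norm_cz, eu_nn hy]
  rw [hre]
  rcases le_total 2 (eu z) with h | h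
  · have h3 : ‖cz y / cz z‖ ≤ 1 / 2 := by rw [hn]; gcongr
    rw [dif, lg_add (by rw [eu_nn hy]; linarith), ← Complex.sub_re, ← sub_div]
    refine (Complex.abs_re_le_norm _).trans ?_
    have h4 := Complex.norm_log_one_add_sub_self_le (z := cz y / cz z) (by linarith)
    have h5 : (1 - ‖cz y / cz z‖)⁻¹ ≤ 2 := by
      rw [inv_le_comm₀ (by linarith) (by norm_num)]; linarith
    have h6 : ‖cz y / cz z‖ ^ 2 * (1 - ‖cz y / cz z‖)⁻¹ / 2 ≤ 1 / eu z ^ 2 := by
      calc _ ≤ ‖cz y / cz z‖ ^ 2 * 2 / 2 := by gcongr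
        _ = _ := by rw [hn]; field_simp
    rw [norm_div, norm_two_pi, div_le_iff₀ (by positivity)]
    have h7 : 0 < 1 / eu z ^ 2 := by positivity
    have h8 : 24 / eu z ^ 2 = 24 * (1 / eu z ^ 2) := by ring
    rw [h8]; nlinarith
  · have h3 : |(cz y / cz z / (2 * Real.pi)).re| ≤ 1 := by
      refine (Complex.abs_re_le_norm _).trans ?_
      rw [norm_div, norm_two_pi, hn, div_le_one (by positivity), div_le_iff₀ (by positivity)]
      nlinarith
    have h4 := abs_lg_le (z + y)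
    have h5 := eu_add_le z y
    rw [eu_nn hy] at h5
    have h6 : |dif y lg z| ≤ 5 := by
      rw [dif]; linarith [abs_sub (lg (z + y)) (lg z), abs_lg_le z]
    rw [le_div_iff₀ (by positivity)]
    have h7 := abs_sub (dif y lg z) (cz y / cz z / (2 * Real.pi)).re
    have h8 : eu z ^ 2 ≤ 4 := by nlinarith
    exact (mul_le_mul (h7.trans (add_le_add h6 h3)) h8 (by positivity) (by norm_num)).trans
      (by norm_num)

end Lg22

theorem lgStmt : LgStmt := ⟨Lg22.part1, Lg22.part2, Lg22.part3⟩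

end Crest.Agent.T145.Pot
private theorem rz_28e8a7ed7e : type_of% @_root_.Crest.Agent.T145.Pot.Lg22.cdifs.eq_def := @_root_.Crest.Agent.T145.Pot.Lg22.cdifs.eq_def -- L29
private theorem rz_2affe8fcda : type_of% @_root_.Crest.Agent.T145.Pot.Lg22.cdifs.eq_1 := @_root_.Crest.Agent.T145.Pot.Lg22.cdifs.eq_1 -- L29
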