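import Crest.Agent.T145.PotC_17
import Crest.Agent.T145.PotPk_15
import Crest.Agent.T145.PotHa_91
import Crest.Agent.T145.PotLg_22
import Crest.Agent.T145.Sc_97

/-!
# Row 145: the smeared unit charge `ξ_r = δ₀ + A₀ Φ_r`, `Φ_r = χ_r (a - c_r)` (helper22)
-/

set_option autoImplicit false

namespace Crest.Agent.T145.Xi

open Finset Pot

/-! ## `A₀`, `J_z`, summation by parts -/

theorem A0_eq (u : Pt → ℝ) : A0 u = -lap u := by
  funext ⟨a, b⟩
  simp only [A0, lap_apply, Pi.neg_apply, Prod.mk_add_mk, add_zero, ← sub_eq_add_neg]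
  ring

theorem A0_apply (u : Pt → ℝ) (z : Pt) : A0 u z = -lap u z := by rw [A0_eq]; rfl

theorem Jz_eq (z : Pt) (s : Cfg Pt) : Jz z s = A0 (fun x => (s x : ℝ)) z := rfl

theorem A0_add (u v : Pt → ℝ) : A0 (u + v) = A0 u + A0 v := by funext z; simp [A0]; ring
theorem A0_sub (u v : Pt → ℝ) : A0 (u - v) = A0 u - A0 v := by funext z; simp [A0]; ring
theorem A0_neg (u : Pt → ℝ) : A0 (-u) = -A0 u := by funext z; simp [A0]; ring
theorem A0_smul (c : ℝ) (u : Pt → ℝ) : A0 (c • u) = c • A0 u := by funext z; simp [A0]; ring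
theorem A0_const (c : ℝ) : A0 (fun _ => c) = 0 := by funext z; simp [A0]; ring
theorem A0_add_const (u : Pt → ℝ) (c : ℝ) : A0 (fun x => u x + c) = A0 u := by
  funext z; simp [A0]; ring
theorem A0_sub_const (u : Pt → ℝ) (c : ℝ) : A0 (fun x => u x - c) = A0 u := by
  funext z; simp [A0]; ring
theorem A0_shift (u : Pt → ℝ) (y z : Pt) : A0 (fun w => u (w - y)) z = A0 u (z - y) := by
  simp only [A0, add_sub_right_comm]

theorem A0_congr {u v : Pt → ℝ} {z : Pt} (h : ∀ w ∈ bl z 1, u w = v w) : A0 u z = A0 v z := by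
  simp only [A0]
  rw [h z (self_mem_bl _ _), h _ (add_nn_mem_bl (by decide) z), h _ (add_nn_mem_bl (by decide) z),
    h _ (add_nn_mem_bl (by decide) z), h _ (add_nn_mem_bl (by decide) z)]

theorem dl_apply (y z : Pt) : dl y z = if z = y then 1 else 0 := Pi.single_apply _ _ _

theorem abs_dl_le (y z : Pt) : |dl y z| ≤ 1 := by rw [dl_apply]; split_ifs <;> simp

theorem A0_pk (z : Pt) : A0 pk z = -dl (0 : Pt) z := by
  rw [A0_apply, lap_pk, dl_apply]

theorem A0_pk_sub (y z : Pt) : A0 (fun w => pk (w - y)) z = -dl y z := by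
  rw [A0_apply, lap_pk_sub]

theorem mem_bl_one_of {c z w : Pt} {n : ℕ} (hz : z ∉ bl c (n + 1)) (hw : w ∈ bl z 1) : w ∉ bl c n :=
  fun h => hz (bl_subset_bl (d := n) (r := 1) h (by omega) (mem_bl_comm.1 hw))

theorem sup_A0 {u : Pt → ℝ} {c : Pt} {n : ℕ} (h : Pot.Sup (bl c n) u) :
    Pot.Sup (bl c (n + 1)) (A0 u) := fun z hz => by
  rw [A0_congr (v := fun _ => 0) fun w hw => h w (mem_bl_one_of hz hw), A0_const]; rfl

/-- Green's identity: `v` supported in `D`, `D'` contains the unit neighbourhood of `D` -/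
theorem green0 {D D' : Finset Pt} (hD : ∀ x ∈ D, bl x 1 ⊆ D') (u : Pt → ℝ) {v : Pt → ℝ}
    (hv : Pot.Sup D v) : ∑ x ∈ D, A0 u x * v x = ∑ x ∈ D', u x * A0 v x := by
  have := green nL_ok (D := D) (D' := D') (by simpa [nL_rg] using hD) u hv
  simp only [A0_apply, neg_mul, mul_neg, sum_neg_distrib, lap]
  rw [nL_J] at this
  rw [this]

theorem bl_one_sub {c : Pt} {n N : ℕ} (h : n + 1 ≤ N) : ∀ x ∈ bl c n, bl x 1 ⊆ bl c N :=
  fun _ hx => bl_subset_bl hx (by omega)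

/-- Green's identity on a ball -/
theorem green_bl {c : Pt} {n N : ℕ} (h : n + 1 ≤ N) (u : Pt → ℝ) {v : Pt → ℝ}
    (hv : Pot.Sup (bl c n) v) : ∑ x ∈ bl c N, A0 u x * v x = ∑ x ∈ bl c N, u x * A0 v x := by
  rw [← green0 (bl_one_sub h) u hv]
  exact (sum_subset (bl_mono c (by omega)) fun x _ hx => by rw [hv x hx, mul_zero]).symm

theorem sum_A0 {c : Pt} {n N : ℕ} (h : n + 1 ≤ N) {v : Pt → ℝ} (hv : Pot.Sup (bl c n) v) :
    ∑ x ∈ bl c N, A0 v x = 0 := by
  have := green_bl h (fun _ => 1) hv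
  simpa [A0_const] using this.symm

/-- `(A₀ u, s) = ∑ u_z J_z` -/
theorem pr_A0 {D : Finset Pt} {u : Pt → ℝ} (hu : Pot.Sup D u) (s : Cfg Pt) :
    pr (A0 u) s = ∑ z ∈ D, u z * Jz z s := by
  obtain ⟨n, hn⟩ := exists_subset_bl D 0
  have hu' : Pot.Sup (bl 0 n) u := hu.mono hn
  rw [pr_of_fsupp _ s (sup_A0 hu'), sum_subset hn fun x _ hx => by rw [hu x hx, zero_mul]]
  have := green0 (bl_one_sub (c := 0) (n := n) le_rfl) (fun x => (s x : ℝ)) hu'
  simp only [Jz_eq, mul_comm (u _), this, mul_comm (A0 u _)]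

theorem Jz_eq_pr (z : Pt) (s : Cfg Pt) : Jz z s = pr (A0 (dl z)) s := by
  rw [pr_A0 (D := {z}) (sup_dl (mem_singleton_self z))]; simp


/-! ## the potential kernel -/

theorem pkD : PkDStmt := pkDStmt pkStmt lgStmt (harmStmt pkStmt)

theorem pk_zero : pk 0 = 0 := R165.Pkx583.pk_zero
theorem pk_swap (z : Pt) : pk z.swap = pk z := R165.Pkx583.pk_comm z.2 z.1
theorem pk_neg_fst (z : Pt) : pk (-z.1, z.2) = pk z := R165.Pkx583.pk_neg_fst z.1 z.2
theorem pk_neg (z : Pt) : pk (-z) = pk z := R165.Pkx583.pk_neg z.1 z.2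

/-- the constant of the potential kernel -/
noncomputable def kap : ℝ := pkStmt.2.choose

theorem kap_spec : ∃ C : ℝ, 0 ≤ C ∧ ∀ z : Pt, z ≠ 0 → |pk z - lg z - kap| ≤ C / eu z := by
  obtain ⟨C, hC⟩ := pkStmt.2.choose_spec
  refine ⟨C, ?_, hC⟩
  have := (abs_nonneg _).trans (hC (1, 0) (by decide))
  rwa [eu_nn (by decide), div_one] at this

/-- `c_r` -/
noncomputable def cr (r : ℝ) : ℝ := Real.log r / (2 * Real.pi) + kap

theorem cr_sub {r r' : ℝ} (h : 0 < r) (h' : 0 < r') :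
    cr r' - cr r = Real.log (r' / r) / (2 * Real.pi) := by
  rw [cr, cr, Real.log_div h'.ne' h.ne']; ring

/-- `a - c_r` against the logarithm -/
theorem pk_sub_cr : ∃ C : ℝ, 0 ≤ C ∧ ∀ r : ℝ, 0 < r → ∀ z : Pt, z ≠ 0 →
    |pk z - cr r - Real.log (eu z / r) / (2 * Real.pi)| ≤ C / eu z := by
  obtain ⟨C, h0, hC⟩ := kap_spec
  refine ⟨C, h0, fun r hr z hz => ?_⟩
  have h1 := one_le_eu hz
  convert hC z hz using 2
  rw [cr, lg, Real.log_div (by linarith) hr.ne']; ring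

theorem abs_log_le {t M : ℝ} (hM : 1 ≤ M) (h1 : M⁻¹ ≤ t) (h2 : t ≤ M) :
    |Real.log t| ≤ Real.log M := by
  have hM0 : 0 < M := by linarith
  have ht : 0 < t := (inv_pos.2 hM0).trans_le h1
  rw [abs_le]
  refine ⟨?_, Real.log_le_log ht h2⟩
  rw [← Real.log_inv]; exact Real.log_le_log (inv_pos.2 hM0) h1

/-- the annulus `r / M ≤ |z| ≤ M r` -/
def An (M r : ℝ) : Set Pt := {z | r / M ≤ eu z ∧ eu z ≤ M * r}

/-- `a - c_r` is smooth at scale `r` on annuli -/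
theorem sm_pk (k : ℕ) {M : ℝ} (hM : 1 ≤ M) : ∃ C : ℝ, 0 ≤ C ∧ ∀ r : ℝ, 0 < r →
    Sm k (An M r) C r fun z => pk z - cr r := by
  obtain ⟨C0, h0, hC0⟩ := pk_sub_cr
  choose C1 hC1 using pkD
  have hM0 : 0 < M := by linarith
  have hlM := Real.log_nonneg hM
  refine ⟨C0 + Real.log M + ∑ j ∈ range k, |C1 j| * M ^ (j + 1), by positivity,
    fun r hr ys h1 h2 z hz => ?_⟩
  have hs : 0 ≤ ∑ j ∈ range k, |C1 j| * M ^ (j + 1) := by positivity
  have hz0 : 0 < eu z := lt_of_lt_of_le (by positivity) hz.1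
  cases ys with
  | nil =>
    have hz' : z ≠ 0 := fun h => by simp [h] at hz0
    have h3 := hC0 r hr z hz'
    have h4 : C0 / eu z ≤ C0 := div_le_self h0 (one_le_eu hz')
    have h5 : |Real.log (eu z / r)| ≤ Real.log M := abs_log_le hM
      (by rw [le_div_iff₀ hr, inv_mul_eq_div]; exact hz.1) (by rw [div_le_iff₀ hr]; exact hz.2)
    have h6 : |Real.log (eu z / r) / (2 * Real.pi)| ≤ Real.log M := by
      rw [abs_div, abs_of_pos (by positivity : 0 < 2 * Real.pi)]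
      exact (div_le_self (abs_nonneg _) (by linarith [Real.pi_gt_three])).trans h5
    simp only [difs, List.length_nil, pow_zero, div_one]
    have := abs_add_le (pk z - cr r - Real.log (eu z / r) / (2 * Real.pi))
      (Real.log (eu z / r) / (2 * Real.pi))
    rw [sub_add_cancel] at this
    linarith
  | cons y ys =>
    have h3 : (fun z => pk z - cr r) = pk - fun _ => cr r := rfl
    rw [h3, difs_sub, Pi.sub_apply, difs_const, sub_zero]
    have h4 := (hC1 ys.length (y :: ys) rfl h2 z).1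
    have h5 : |C1 ys.length| * M ^ (ys.length + 1) ≤ ∑ j ∈ range k, |C1 j| * M ^ (j + 1) :=
      single_le_sum (f := fun j => |C1 j| * M ^ (j + 1)) (fun _ _ => by positivity)
        (mem_range.2 (by simpa using h1))
    have h6 : r / M ≤ 1 + eu z := by linarith [hz.1]
    calc _ ≤ |C1 ys.length| / (1 + eu z) ^ (ys.length + 1) :=
          h4.trans (by gcongr; exact le_abs_self _)
      _ ≤ |C1 ys.length| / (r / M) ^ (ys.length + 1) := by gcongr
      _ = |C1 ys.length| * M ^ (ys.length + 1) / r ^ (ys.length + 1) := by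
          rw [div_pow]; field_simp
      _ ≤ _ := by rw [List.length_cons]; gcongr; linarith

/-! ## the smeared charge -/

/-- the cut-off: `1` on `|x|_∞ ≤ r`, `0` on `|x|_∞ ≥ 2 r` -/
noncomputable def chi (r : ℝ) : Pt → ℝ := cut 0 r (2 * r)

/-- `Φ_r` -/
noncomputable def Phi (r : ℝ) (x : Pt) : ℝ := chi r x * (pk x - cr r)

/-- `ξ_r` -/
noncomputable def xi (r : ℝ) : Pt → ℝ := dl 0 + A0 (Phi r)

/-- `e_r` (meaningful for `2 r ≤ N`) -/
noncomputable def er (r : ℝ) : ℝ := -∑ x ∈ bl 0 ⌈2 * r⌉₊, Phi r x * xi r x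

section basic
variable {r : ℝ}

theorem chi_one (hr : 0 < r) {n : ℕ} (hn : (n : ℝ) ≤ r) {x : Pt} (hx : x ∈ bl 0 n) : chi r x = 1 :=
  cut_one (by linarith) hn hx
theorem sup_chi (hr : 0 < r) {n : ℕ} (hn : 2 * r ≤ n + 1) : Pot.Sup (bl 0 n) (chi r) :=
  sup_cut 0 (by linarith) hn
theorem chi_nonneg (r : ℝ) (x : Pt) : 0 ≤ chi r x := cut_nonneg _ _ _ _
theorem chi_le_one (r : ℝ) (x : Pt) : chi r x ≤ 1 := cut_le_one _ _ _ _
theorem abs_chi_le (r : ℝ) (x : Pt) : |chi r x| ≤ 1 := abs_cut_le _ _ _ _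
theorem chi_swap (r : ℝ) (x : Pt) : chi r x.swap = chi r x := cut_swap _ _ _
theorem chi_neg_fst (r : ℝ) (x : Pt) : chi r (-x.1, x.2) = chi r x := cut_neg_fst _ _ _

/-- scaling form of the cut-off -/
theorem chi_eq (hr : 0 < r) (x : Pt) : chi r x = cut1 1 2 (x.1 / r) * cut1 1 2 (x.2 / r) := by
  have h : ∀ t : ℝ, cut1 r (2 * r) t = cut1 1 2 (t / r) := fun t => by
    simp only [cut1]
    congr 2 <;> field_simp
  simp [chi, cut, h]

theorem chi_one_of_eu (hr : 0 < r) {x : Pt} (hx : eu x ≤ r) : chi r x = 1 := by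
  rw [chi, cut, cut1_one (by linarith), cut1_one (by linarith), one_mul]
  · simpa using (abs_snd_le_eu x).trans hx
  · simpa using (abs_fst_le_eu x).trans hx

theorem eu_le_of_chi (hr : 0 < r) {x : Pt} (hx : chi r x ≠ 0) : eu x ≤ 4 * r := by
  rw [chi, cut, mul_ne_zero_iff] at hx
  have h1 : |(x.1 : ℝ)| ≤ 2 * r := by
    by_contra h; exact hx.1 (cut1_zero (by linarith) (by simpa using (not_le.1 h).le))
  have h2 : |(x.2 : ℝ)| ≤ 2 * r := by
    by_contra h; exact hx.2 (cut1_zero (by linarith) (by simpa using (not_le.1 h).le))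
  linarith [eu_le_add x]

theorem sm_chi (k : ℕ) : ∃ C : ℝ, 0 ≤ C ∧ ∀ r : ℝ, 0 < r → Sm k Set.univ C r (chi r) := by
  obtain ⟨C, h0, hC⟩ := sm_cut k
  refine ⟨C, h0, fun r hr => ?_⟩
  have := hC 0 r (2 * r) (by linarith)
  rwa [show 2 * r - r = r by ring] at this

theorem Phi_in (hr : 0 < r) {n : ℕ} (hn : (n : ℝ) ≤ r) {x : Pt} (hx : x ∈ bl 0 n) :
    Phi r x = pk x - cr r := by rw [Phi, chi_one hr hn hx, one_mul]
theorem Phi_of_eu (hr : 0 < r) {x : Pt} (hx : eu x ≤ r) : Phi r x = pk x - cr r := by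
  rw [Phi, chi_one_of_eu hr hx, one_mul]
theorem Phi_zero (hr : 0 < r) : Phi r 0 = -cr r := by
  rw [Phi_of_eu hr (by simpa using hr.le), pk_zero, zero_sub]
theorem sup_Phi (hr : 0 < r) {n : ℕ} (hn : 2 * r ≤ n + 1) : Pot.Sup (bl 0 n) (Phi r) :=
  fun x hx => by rw [Phi, sup_chi hr hn x hx, zero_mul]
theorem Phi_swap (r : ℝ) (x : Pt) : Phi r x.swap = Phi r x := by rw [Phi, Phi, chi_swap, pk_swap]
theorem Phi_neg_fst (r : ℝ) (x : Pt) : Phi r (-x.1, x.2) = Phi r x := by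
  rw [Phi, Phi, chi_neg_fst, pk_neg_fst]

theorem A0_swap {u : Pt → ℝ} (h : ∀ x, u x.swap = u x) (x : Pt) : A0 u x.swap = A0 u x := by
  obtain ⟨a, b⟩ := x
  simp only [A0, Prod.swap_prod_mk, Prod.mk_add_mk]
  rw [← h (b, a), ← h (b + 1, a + 0), ← h (b + -1, a + 0), ← h (b + 0, a + 1), ← h (b + 0, a + -1)]
  simp only [Prod.swap_prod_mk]; ring
theorem A0_neg_fst {u : Pt → ℝ} (h : ∀ x : Pt, u (-x.1, x.2) = u x) (x : Pt) :
    A0 u (-x.1, x.2) = A0 u x := by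
  obtain ⟨a, b⟩ := x
  simp only [A0, Prod.mk_add_mk]
  rw [← h (a, b), ← h (a + 1, b + 0), ← h (a + -1, b + 0), ← h (a + 0, b + 1), ← h (a + 0, b + -1)]
  simp only [neg_add, neg_neg, neg_zero]; ring

theorem xi_apply (r : ℝ) (x : Pt) : xi r x = dl (0 : Pt) x + A0 (Phi r) x := rfl

theorem xi_swap (r : ℝ) (x : Pt) : xi r x.swap = xi r x := by
  rw [xi_apply, xi_apply, A0_swap (Phi_swap r)]
  simp [Pi.single_apply, Prod.ext_iff, and_comm]
theorem xi_neg_fst (r : ℝ) (x : Pt) : xi r (-x.1, x.2) = xi r x := by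
  rw [xi_apply, xi_apply, A0_neg_fst (Phi_neg_fst r)]
  simp [Pi.single_apply, Prod.ext_iff]
theorem xi_neg_snd (r : ℝ) (x : Pt) : xi r (x.1, -x.2) = xi r x := by
  rw [← xi_swap r x, ← xi_neg_fst r x.swap, ← xi_swap]; rfl
theorem xi_neg (r : ℝ) (x : Pt) : xi r (-x) = xi r x := by
  rw [← xi_neg_fst r x, ← xi_neg_snd r (-x.1, x.2)]; rfl

/-- a function invariant under the two generators is invariant under `rotZ 0`, `swpZ 0` -/
theorem d4_of {u : Pt → ℝ} (h1 : ∀ x, u x.swap = u x) (h2 : ∀ x : Pt, u (-x.1, x.2) = u x) (z x : Pt) :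
    u (rotZ z x - z) = u (x - z) ∧ u (swpZ z x - z) = u (x - z) := by
  constructor
  · rw [← h1 (x - z), ← h2 (x - z).swap]; congr 1; ext <;> simp [rotZ]
  · rw [← h1 (x - z)]; congr 1; ext <;> simp [swpZ]

/-- the pairing with a symmetric density centred at `z` is `D4` invariant about `z` -/
theorem d4_pr {u : Pt → ℝ} (h1 : ∀ x, u x.swap = u x) (h2 : ∀ x : Pt, u (-x.1, x.2) = u x) (z : Pt)
    (g : ℝ → ℝ) : D4 z fun s => g (pr (fun x => u (x - z)) s) := fun s => by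
  simp only [pr_mapH, (d4_of h1 h2 z _).1, (d4_of h1 h2 z _).2, and_self]

theorem xi_in (hr : 0 < r) {n : ℕ} (hn : (n : ℝ) + 1 ≤ r) {x : Pt} (hx : x ∈ bl 0 n) : xi r x = 0 := by
  rw [xi_apply, A0_congr (v := fun w => pk w - cr r) fun w hw =>
    Phi_in hr (n := n + 1) (by push_cast; exact hn) (bl_one_sub le_rfl x hx hw), A0_sub_const, A0_pk,
    add_neg_cancel]

theorem xi_of_eu (hr : 0 < r) {x : Pt} (hx : eu x + 2 ≤ r) : xi r x = 0 := by
  rw [xi_apply, A0_congr (v := fun w => pk w - cr r) fun w hw => Phi_of_eu hr (by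
    have h1 := eu_le_of_bl hw
    have h2 := eu_add_le (w - x) x
    rw [sub_add_cancel] at h2
    push_cast at h1; linarith), A0_sub_const, A0_pk, add_neg_cancel]

theorem sup_xi (hr : 0 < r) {n : ℕ} (hn : 2 * r ≤ n) : Pot.Sup (bl 0 n) (xi r) := fun x hx => by
  have h1 : 1 ≤ n := by
    have : (0 : ℝ) < n := by linarith
    exact_mod_cast this
  obtain ⟨m, rfl⟩ : ∃ m, n = m + 1 := ⟨n - 1, by omega⟩
  rw [xi_apply, sup_A0 (sup_Phi hr (by exact_mod_cast hn)) x hx,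
    sup_dl (self_mem_bl (0 : Pt) (m + 1)) x hx, add_zero]

theorem sum_xi (hr : 0 < r) {n : ℕ} (hn : 2 * r ≤ n) : ∑ x ∈ bl 0 n, xi r x = 1 := by
  have h1 : 1 ≤ n := by
    have : (0 : ℝ) < n := by linarith
    exact_mod_cast this
  obtain ⟨m, rfl⟩ : ∃ m, n = m + 1 := ⟨n - 1, by omega⟩
  simp only [xi_apply, sum_add_distrib, sum_A0 le_rfl (sup_Phi hr (by exact_mod_cast hn)), add_zero]
  simp [Pi.single_apply, self_mem_bl]


theorem xi_sub (r r' : ℝ) : xi r' - xi r = A0 (Phi r' - Phi r) := by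
  rw [xi, xi, A0_sub]; abel

end basic

/-- sup bound on `Φ_r` -/
theorem abs_Phi_le : ∃ C : ℝ, 0 ≤ C ∧ ∀ r : ℝ, 1 ≤ r → ∀ x : Pt,
    |Phi r x| ≤ C + Real.log (8 * r / (1 + eu x)) ∨ Phi r x = 0 := by
  obtain ⟨C, h0, hC⟩ := pk_sub_cr
  refine ⟨C + |kap| + 3, by positivity, fun r hr x => ?_⟩
  have hr0 : 0 < r := by linarith
  have hpi := Real.pi_gt_three
  by_cases hx : chi r x = 0
  · right; rw [Phi, hx, zero_mul]
  left
  have h4 := eu_le_of_chi hr0 hx
  have h1 : |Phi r x| ≤ |pk x - cr r| := by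
    rw [Phi, abs_mul]; exact mul_le_of_le_one_left (abs_nonneg _) (abs_chi_le r x)
  have hk := abs_nonneg kap
  refine h1.trans ?_
  by_cases hx0 : x = 0
  · have h2 : Real.log r ≤ Real.log (8 * r) := Real.log_le_log hr0 (by linarith)
    have h3 := Real.log_nonneg hr
    rw [hx0, pk_zero, zero_sub, abs_neg, cr, eu_zero, add_zero, div_one]
    have h5 : Real.log r / (2 * Real.pi) ≤ Real.log r := div_le_self h3 (by linarith)
    have h6 := abs_add_le (Real.log r / (2 * Real.pi)) kap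
    rw [abs_of_nonneg (by positivity : 0 ≤ Real.log r / (2 * Real.pi))] at h6
    linarith
  have h2 := one_le_eu hx0
  have h3 := hC r hr0 x hx0
  have h5 : C / eu x ≤ C := div_le_self h0 h2
  have h6 : 1 ≤ 8 * r / (1 + eu x) := by rw [le_div_iff₀ (by linarith)]; linarith
  have h7 := Real.log_nonneg h6
  have h8 : |Real.log (eu x / r)| ≤ 3 + Real.log (8 * r / (1 + eu x)) := by
    rw [abs_le]; constructor
    · have : Real.log (r / eu x) ≤ Real.log (8 * r / (1 + eu x)) :=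
        Real.log_le_log (by positivity) (by
          rw [div_le_div_iff₀ (by linarith) (by linarith)]; nlinarith)
      rw [← inv_div, Real.log_inv] at this; linarith
    · have := Real.log_le_sub_one_of_pos (show 0 < eu x / r by positivity)
      have : eu x / r ≤ 4 := by rw [div_le_iff₀ hr0]; linarith
      linarith
  have h9 : |Real.log (eu x / r) / (2 * Real.pi)| ≤ 3 + Real.log (8 * r / (1 + eu x)) := by
    rw [abs_div, abs_of_pos (by positivity : 0 < 2 * Real.pi)]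
    exact (div_le_self (abs_nonneg _) (by linarith)).trans h8
  have := abs_add_le (pk x - cr r - Real.log (eu x / r) / (2 * Real.pi))
    (Real.log (eu x / r) / (2 * Real.pi))
  rw [sub_add_cancel] at this
  linarith

theorem eu_near {z w : Pt} {k : ℕ} (hw : w ∈ bl z k) : eu w ≤ eu z + 2 * k ∧ eu z ≤ eu w + 2 * k := by
  have h1 := eu_le_of_bl hw
  have h2 := eu_add_le (w - z) z
  have h3 := eu_add_le (z - w) w
  rw [sub_add_cancel] at h2 h3
  rw [eu_sub_comm] at h3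
  constructor <;> linarith

theorem Sm.zero' (k : ℕ) (S : Set Pt) {C ℓ : ℝ} (hC : 0 ≤ C) (hℓ : 0 < ℓ) :
    Sm k S C ℓ fun _ => 0 :=
  (Sm.const k S hℓ 0).mono le_rfl Set.Subset.rfl (by simpa using hC) hℓ

theorem Sm.union {k : ℕ} {S S' : Set Pt} {C ℓ : ℝ} {u : Pt → ℝ} (h : Sm k S C ℓ u)
    (h' : Sm k S' C ℓ u) : Sm k (S ∪ S') C ℓ u := fun ys h1 h2 z hz =>
  hz.elim (h ys h1 h2 z) (h' ys h1 h2 z)

/-- `Φ_r` is smooth at scale `r` away from the origin -/
theorem sm_Phi (k : ℕ) {M : ℝ} (hM : 1 ≤ M) : ∃ C : ℝ, 0 ≤ C ∧ ∀ r : ℝ, 4 * M * k < r →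
    Sm k {z | r / M ≤ eu z} C r (Phi r) := by
  obtain ⟨C1, h1, hC1⟩ := sm_chi k
  obtain ⟨C2, h2, hC2⟩ := sm_pk k (M := 2 * M + 4) (by linarith)
  refine ⟨2 ^ k * C1 * C2, by positivity, fun r hr => ?_⟩
  have hk : (0 : ℝ) ≤ k := Nat.cast_nonneg k
  have hM0 : 0 < M := by linarith
  have hr0 : 0 < r := lt_of_le_of_lt (by positivity) hr
  have hkr : 4 * k ≤ r := by nlinarith
  have ha : Sm k {z | r / M ≤ eu z ∧ eu z ≤ 4 * r + 2 * k} (2 ^ k * C1 * C2) r (Phi r) :=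
    ((hC1 r hr0).mono le_rfl (Set.subset_univ _) le_rfl hr0).mul hr0 (hC2 r hr0) fun z hz w hw => by
      obtain ⟨h3, h4⟩ := eu_near hw
      refine ⟨?_, by nlinarith [hz.2]⟩
      have h5 : r / (2 * M + 4) ≤ r / (2 * M) := by gcongr; linarith
      have h6 : r / M = 2 * (r / (2 * M)) := by field_simp
      have h7 : 2 * k ≤ r / (2 * M) := by rw [le_div_iff₀ (by positivity)]; nlinarith
      linarith [hz.1]
  have hb : Sm k {z | 4 * r + 2 * k < eu z} (2 ^ k * C1 * C2) r (Phi r) :=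
    (Sm.zero' k _ (by positivity) hr0).congr fun z hz w hw => by
      by_contra h
      have h3 : chi r w ≠ 0 := fun h' => h (by rw [Phi, h', zero_mul])
      linarith [eu_le_of_chi hr0 h3, (eu_near hw).2, show 4 * r + 2 * k < eu z from hz]
  exact (Sm.union ha hb).mono le_rfl (fun z hz => by
    by_cases h : eu z ≤ 4 * r + 2 * k
    · exact Or.inl ⟨hz, h⟩
    · exact Or.inr (not_le.1 h)) le_rfl hr0

/-- crude smoothness from a sup bound -/
theorem Sm.of_bdd {k : ℕ} {u : Pt → ℝ} {B ℓ L : ℝ} (h : ∀ x, |u x| ≤ B) (h0 : 0 < ℓ) (hL : ℓ ≤ L)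
    (h1 : 1 ≤ L) : Sm k Set.univ (2 ^ k * B * L ^ k) ℓ u := fun ys hk hys z _ => by
  have hB : 0 ≤ B := (abs_nonneg _).trans (h z)
  have h2 := Lg22.difs_crude (R := eu z + ys.length) (fun w _ => h w) ys
    (fun y hy => (eu_nn (hys y hy)).le) z le_rfl
  rw [le_div_iff₀ (by positivity)]
  calc _ ≤ 2 ^ ys.length * B * L ^ ys.length := by gcongr
    _ ≤ _ := by gcongr; norm_num

theorem abs_A0_le {u : Pt → ℝ} {B : ℝ} (h : ∀ x, |u x| ≤ B) (z : Pt) : |A0 u z| ≤ 8 * B := by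
  have h1 := fun x => abs_le.1 (h x)
  rw [A0, abs_le]
  constructor <;> linarith [h1 z, h1 (z + (1, 0)), h1 (z + (-1, 0)), h1 (z + (0, 1)), h1 (z + (0, -1))]

theorem abs_Phi_le' : ∃ C : ℝ, 0 ≤ C ∧ ∀ r : ℝ, 1 ≤ r → ∀ x : Pt, |Phi r x| ≤ C + Real.log r := by
  obtain ⟨C, h0, hC⟩ := abs_Phi_le
  refine ⟨C + 7, by positivity, fun r hr x => ?_⟩
  have h1 := Real.log_nonneg hr
  rcases hC r hr x with h | h
  · have h2 := eu_nonneg x
    have h3 : Real.log (8 * r / (1 + eu x)) ≤ Real.log (8 * r) :=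
      Real.log_le_log (by positivity) (div_le_self (by linarith) (by linarith))
    rw [Real.log_mul (by norm_num) (by linarith)] at h3
    linarith [Real.log_le_sub_one_of_pos (show (0 : ℝ) < 8 by norm_num)]
  · rw [h, abs_zero]; positivity

/-- `ξ_r` is smooth at scale `r`, of size `r⁻²` -/
theorem sm_xi (k : ℕ) : ∃ C : ℝ, 0 ≤ C ∧ ∀ r : ℝ, 1 ≤ r → Sm k Set.univ (C / r ^ 2) r (xi r) := by
  obtain ⟨C1, h1, hC1⟩ := sm_Phi (k + 2) (M := 4) (by norm_num)
  obtain ⟨C2, h2, hC2⟩ := abs_Phi_le'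
  set L : ℝ := 16 * (k + 2) with hL
  have hk : (0 : ℝ) ≤ k := Nat.cast_nonneg k
  have hL1 : 1 ≤ L := by linarith
  refine ⟨2 * C1 + 2 ^ k * (1 + 8 * (C2 + L)) * L ^ k * L ^ 2, by positivity, fun r hr => ?_⟩
  have hr0 : 0 < r := by linarith
  rcases le_or_gt r L with h | h
  · have h3 : ∀ x, |xi r x| ≤ 1 + 8 * (C2 + L) := fun x => by
      have h4 := abs_dl_le 0 x
      have h5 := abs_A0_le (u := Phi r) (B := C2 + L)
        (fun x => (hC2 r hr x).trans (by linarith [Real.log_le_sub_one_of_pos hr0])) x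
      rw [xi_apply]; linarith [abs_add_le (dl (0 : Pt) x) (A0 (Phi r) x)]
    refine (Sm.of_bdd h3 hr0 h hL1).mono le_rfl Set.Subset.rfl ?_ hr0
    rw [le_div_iff₀ (by positivity)]
    have : 2 ^ k * (1 + 8 * (C2 + L)) * L ^ k * r ^ 2 ≤ 2 ^ k * (1 + 8 * (C2 + L)) * L ^ k * L ^ 2 := by
      gcongr
    linarith
  · have h3 := hC1 r (by push_cast; linarith)
    have h4 : Sm k {z | r / 2 ≤ eu z} (2 * (C1 / r ^ 2)) r (lap (Phi r)) := h3.lap' fun z hz w hw => by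
      have := (eu_near hw).2
      change r / 2 ≤ eu z at hz
      change r / 4 ≤ eu w
      push_cast at this; linarith
    have hC : 2 * (C1 / r ^ 2) ≤ (2 * C1 + 2 ^ k * (1 + 8 * (C2 + L)) * L ^ k * L ^ 2) / r ^ 2 := by
      rw [← mul_div_assoc]; gcongr; exact le_add_of_nonneg_right (by positivity)
    have ha : Sm k {z | r / 2 ≤ eu z} (2 * (C1 / r ^ 2)) r (xi r) := by
      have h5 := h4.smul (-1)
      rw [abs_neg, abs_one, one_mul] at h5
      refine h5.congr fun z hz w hw => ?_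
      have h6 : w ≠ 0 := fun h0 => by
        have := (eu_near hw).2
        change r / 2 ≤ eu z at hz
        rw [h0, eu_zero] at this; linarith
      rw [xi_apply, A0_apply, dl_apply, if_neg h6]; simp
    have hb : Sm k {z | eu z < r / 2} (2 * (C1 / r ^ 2)) r (xi r) :=
      (Sm.zero' k _ (by positivity) hr0).congr fun z hz w hw => xi_of_eu hr0 (by
        have := (eu_near hw).1
        change eu z < r / 2 at hz
        linarith)
    exact (Sm.union ha hb).mono le_rfl (fun z _ => (le_or_gt (r / 2) (eu z)).imp id id) hC hr0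

theorem abs_xi_le : ∃ C : ℝ, 0 ≤ C ∧ ∀ r : ℝ, 1 ≤ r → ∀ x, |xi r x| ≤ C / r ^ 2 := by
  obtain ⟨C, h0, hC⟩ := sm_xi 0
  exact ⟨C, h0, fun r hr x => (hC r hr).zero trivial⟩

theorem card_bl_ceil {r : ℝ} (hr : 1 ≤ r) : ((bl (0 : Pt) ⌈2 * r⌉₊).card : ℝ) ≤ 49 * r ^ 2 := by
  have h1 := (Nat.ceil_lt_add_one (show 0 ≤ 2 * r by linarith)).le
  have h0 : (0 : ℝ) ≤ ⌈2 * r⌉₊ := Nat.cast_nonneg _
  rw [card_bl]; push_cast; nlinarith

theorem sum_abs_xi : ∃ C : ℝ, 0 ≤ C ∧ ∀ r : ℝ, 1 ≤ r → ∀ D : Finset Pt, ∑ x ∈ D, |xi r x| ≤ C := by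
  obtain ⟨C, h0, hC⟩ := abs_xi_le
  refine ⟨49 * C, by positivity, fun r hr D => ?_⟩
  have hr0 : 0 < r := by linarith
  calc _ = ∑ x ∈ D.filter (· ∈ bl 0 ⌈2 * r⌉₊), |xi r x| := (sum_filter_of_ne fun x _ h => by
        by_contra h'; exact h (by rw [sup_xi hr0 (Nat.le_ceil _) x h', abs_zero])).symm
    _ ≤ ∑ x ∈ bl 0 ⌈2 * r⌉₊, |xi r x| := sum_le_sum_of_subset_of_nonneg
        (fun x hx => (mem_filter.1 hx).2) fun _ _ _ => abs_nonneg _
    _ ≤ (bl (0 : Pt) ⌈2 * r⌉₊).card • (C / r ^ 2) := sum_le_card_nsmul _ _ _ fun x _ => hC r hr x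
    _ ≤ 49 * r ^ 2 * (C / r ^ 2) := by rw [nsmul_eq_mul]; gcongr; exact card_bl_ceil hr
    _ = _ := by field_simp

theorem er_eq {r : ℝ} (hr : 0 < r) {D : Finset Pt} (hD : bl 0 ⌈2 * r⌉₊ ⊆ D) :
    ∑ x ∈ D, Phi r x * xi r x = -er r := by
  rw [er, neg_neg]
  exact (sum_subset hD fun x _ hx => by rw [sup_xi hr (Nat.le_ceil _) x hx, mul_zero]).symm

/-- `e_r` is bounded -/
theorem abs_er_le : ∃ C : ℝ, 0 ≤ C ∧ ∀ r : ℝ, 1 ≤ r → |er r| ≤ C := by
  obtain ⟨C1, h1, hC1⟩ := sum_abs_xi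
  obtain ⟨C2, h2, hC2⟩ := abs_Phi_le
  refine ⟨(C2 + 24) * C1, by positivity, fun r hr => ?_⟩
  have hr0 : 0 < r := by linarith
  rw [er, abs_neg]
  refine (abs_sum_le_sum_abs _ _).trans ((sum_le_sum fun x _ => ?_).trans
    ((mul_sum _ _ _).symm.le.trans (mul_le_mul_of_nonneg_left (hC1 r hr (bl 0 ⌈2 * r⌉₊))
      (by positivity))))
  rw [abs_mul]
  by_cases hx : xi r x = 0
  · simp [hx]
  refine mul_le_mul_of_nonneg_right ?_ (abs_nonneg _)
  have h3 : r < eu x + 2 := by by_contra h; exact hx (xi_of_eu hr0 (not_lt.1 h))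
  have h4 := eu_nonneg x
  rcases hC2 r hr x with h | h
  · have h5 := Real.log_le_sub_one_of_pos (show 0 < 8 * r / (1 + eu x) by positivity)
    have h6 : 8 * r / (1 + eu x) ≤ 16 := by rw [div_le_iff₀ (by positivity)]; linarith
    linarith
  · rw [h, abs_zero]; positivity

/-! ## moving the charge from scale `r` to scale `r'` -/

/-- the transport potential: `0` near the origin, constant far away, `A₀ w = ξ_{r'} - ξ_r` -/
noncomputable def wt (r r' : ℝ) (x : Pt) : ℝ := Phi r' x - Phi r x + (cr r' - cr r)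

theorem A0_wt (r r' : ℝ) : A0 (wt r r') = xi r' - xi r := by
  rw [xi_sub, ← A0_add_const (Phi r' - Phi r) (cr r' - cr r)]; rfl

theorem wt_in {r r' : ℝ} (hr : 0 < r) (h : r ≤ r') {n : ℕ} (hn : (n : ℝ) ≤ r) {x : Pt}
    (hx : x ∈ bl 0 n) : wt r r' x = 0 := by
  rw [wt, Phi_in hr hn hx, Phi_in (by linarith) (hn.trans h) hx]; ring

theorem wt_out {r r' : ℝ} (hr : 0 < r) (h : r ≤ r') {n : ℕ} (hn : 2 * r' ≤ n + 1) {x : Pt}
    (hx : x ∉ bl 0 n) : wt r r' x = Real.log (r' / r) / (2 * Real.pi) := by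
  rw [wt, sup_Phi hr (by linarith) x hx, sup_Phi (by linarith) hn x hx, cr_sub hr (by linarith)]; ring


/-- cross pairings -/
theorem cross {r r' : ℝ} (hr : 0 < r) (hr' : 0 < r') {n : ℕ} (hn : 2 * r ≤ n) (hn' : 2 * r' ≤ n) :
    ∑ x ∈ bl 0 n, Phi r' x * xi r x - ∑ x ∈ bl 0 n, Phi r x * xi r' x = cr r - cr r' := by
  have h1 : 1 ≤ n := by
    have : (0 : ℝ) < n := by linarith
    exact_mod_cast this
  obtain ⟨m, rfl⟩ : ∃ m, n = m + 1 := ⟨n - 1, by omega⟩
  have h2 := green_bl (c := 0) le_rfl (Phi r') (sup_Phi hr (n := m) (by exact_mod_cast hn))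
  have h3 : ∀ u : Pt → ℝ, ∑ x ∈ bl 0 (m + 1), u x * dl (0 : Pt) x = u 0 := fun u =>
    ip_dl' (self_mem_bl _ _) u
  simp only [xi_apply, mul_add, sum_add_distrib, h3, ← h2, Phi_zero hr, Phi_zero hr',
    mul_comm (A0 _ _)]
  ring

/-- the exact algebra of one step: `(w, ξ_r + ξ_{r'}) = e_r - e_{r'} + log (r' / r) / 2π` -/
theorem wt_pair {r r' : ℝ} (hr : 0 < r) (hr' : 0 < r') {n : ℕ} (hn : ⌈2 * r⌉₊ ≤ n)
    (hn' : ⌈2 * r'⌉₊ ≤ n) : ∑ x ∈ bl 0 n, wt r r' x * (xi r x + xi r' x) =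
      er r - er r' + Real.log (r' / r) / (2 * Real.pi) := by
  have h1 : 2 * r ≤ n := Nat.ceil_le.1 hn
  have h2 : 2 * r' ≤ n := Nat.ceil_le.1 hn'
  have h3 := cross hr hr' h1 h2
  have h4 := er_eq hr (bl_mono 0 hn)
  have h5 := er_eq hr' (bl_mono 0 hn')
  have h6 : ∀ x, wt r r' x * (xi r x + xi r' x) = Phi r' x * xi r x - Phi r x * xi r' x +
      Phi r' x * xi r' x - Phi r x * xi r x + (cr r' - cr r) * xi r x + (cr r' - cr r) * xi r' x :=
    fun x => by rw [wt]; ring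
  simp only [h6, sum_add_distrib, sum_sub_distrib, ← mul_sum, sum_xi hr h1, sum_xi hr' h2]
  rw [← cr_sub hr hr']
  linarith

/-- `w` is smooth at scale `r` when `r' / r ≤ M` -/
theorem sm_wt (k : ℕ) {M : ℝ} (hM : 1 ≤ M) : ∃ C : ℝ, 0 ≤ C ∧ ∀ r r' : ℝ, 8 * M * k < r → r ≤ r' →
    r' ≤ M * r → Sm k Set.univ C r (wt r r') := by
  obtain ⟨C1, h1, hC1⟩ := sm_Phi k (M := 2 * M) (by linarith)
  have hlM := Real.log_nonneg hM
  refine ⟨C1 + C1 + Real.log M, by positivity, fun r r' hr h h' => ?_⟩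
  have hk : (0 : ℝ) ≤ k := Nat.cast_nonneg k
  have hr0 : 0 < r := lt_of_le_of_lt (by positivity) hr
  have hr0' : 0 < r' := by linarith
  have hkr : 8 * k ≤ r := by nlinarith
  have hc : |cr r' - cr r| ≤ Real.log M := by
    have h2 : 1 ≤ r' / r := by rw [le_div_iff₀ hr0]; linarith
    have h3 := Real.log_nonneg h2
    rw [cr_sub hr0 hr0', abs_of_nonneg (by positivity)]
    exact (div_le_self h3 (by linarith [Real.pi_gt_three])).trans
      (Real.log_le_log (by positivity) (by rw [div_le_iff₀ hr0]; exact h'))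
  have ha : Sm k {z | r / 2 ≤ eu z} (C1 + C1 + Real.log M) r (wt r r') := by
    have h2 := ((hC1 r' (by linarith)).scale hr0 h).mono le_rfl (S' := {z | r / 2 ≤ eu z})
      (fun z hz => le_trans (show r' / (2 * M) ≤ r / 2 by
        rw [div_le_div_iff₀ (by positivity) (by norm_num)]; linarith) hz)
      le_rfl hr0
    have h3 := (hC1 r (by linarith)).mono le_rfl (S' := {z | r / 2 ≤ eu z})
      (fun z hz => le_trans (show r / (2 * M) ≤ r / 2 by gcongr; linarith) hz) le_rfl hr0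
    exact ((h2.sub h3).add (Sm.const k _ hr0 (cr r' - cr r))).mono le_rfl Set.Subset.rfl
      (by linarith) hr0
  have hb : Sm k {z | eu z < r / 2} (C1 + C1 + Real.log M) r (wt r r') :=
    (Sm.zero' k _ (by positivity) hr0).congr fun z hz w hw => by
      have := (eu_near hw).1
      change eu z < r / 2 at hz
      rw [wt, Phi_of_eu hr0 (by linarith), Phi_of_eu hr0' (by linarith)]; ring
  exact (Sm.union ha hb).mono le_rfl (fun z _ => (le_or_gt (r / 2) (eu z)).imp id id) le_rfl hr0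

end Crest.Agent.T145.Xi
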