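import Mathlib
import Crest.Agent.T145.FlFus_4
import Crest.Agent.T145.FlDef_82
import Crest.Agent.T145.XiB_22

-- ▼ part T145/FlLocA_94
section

/-!
# Row 145 (helper94): the local expansion LOC, abstract form (outside-in double telescoping)

`P j = Ψ (U_{≥ j})`, `D l j = ∂_l Ψ (U_{≥ j})`, `X l j` = the piece of the slot `l` at level `j`.
`nf` is the final seminorm (ambient expectation, with any outside factor), `ν j` the norm at level `j`.
-/

set_option autoImplicit false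

noncomputable section

namespace Crest.Agent.T145.F94

open Finset

/-- a seminorm on a subalgebra-like class -/
structure Sn {E : Type*} [CommRing E] [Algebra ℝ E] (I : E → Prop) (N : E → ℝ) : Prop where
  zero : I 0
  add : ∀ H G, I H → I G → I (H + G)
  smul : ∀ (c : ℝ) H, I H → I (c • H)
  N_add : ∀ H G, I H → I G → N (H + G) ≤ N H + N G
  N_smul : ∀ (c : ℝ) H, I H → N (c • H) ≤ |c| * N H

namespace Sn
variable {E : Type*} [CommRing E] [Algebra ℝ E] {I : E → Prop} {N : E → ℝ} (h : Sn I N)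
include h

theorem neg {H : E} (hH : I H) : I (-H) := by simpa using h.smul (-1) H hH
theorem sub {H G : E} (hH : I H) (hG : I G) : I (H - G) := by
  rw [sub_eq_add_neg]; exact h.add _ _ hH (h.neg hG)
theorem sum {ι : Type*} (T : Finset ι) {H : ι → E} (hH : ∀ i ∈ T, I (H i)) : I (∑ i ∈ T, H i) :=
  sum_induction H I (fun _ _ => h.add _ _) h.zero hH
theorem N_neg {H : E} (hH : I H) : N (-H) ≤ N H := by simpa using h.N_smul (-1) H hH
theorem N_zero : N 0 ≤ 0 := by simpa using h.N_smul 0 0 h.zero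
theorem N_sub {H G : E} (hH : I H) (hG : I G) : N (H - G) ≤ N H + N G := by
  rw [sub_eq_add_neg]
  exact (h.N_add _ _ hH (h.neg hG)).trans (by gcongr; exact h.N_neg hG)

theorem N_sum {ι : Type*} (T : Finset ι) {H : ι → E} (hH : ∀ i ∈ T, I (H i)) :
    N (∑ i ∈ T, H i) ≤ ∑ i ∈ T, N (H i) := by
  classical
  induction T using Finset.induction_on with
  | empty => simpa using h.N_zero
  | insert a T ha ih =>
    rw [sum_insert ha, sum_insert ha]
    have h1 := fun i hi => hH i (mem_insert_of_mem hi)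
    exact (h.N_add _ _ (hH a (mem_insert_self _ _)) (h.sum T h1)).trans (by gcongr; exact ih h1)

theorem N_sum_le {ι : Type*} (T : Finset ι) {H : ι → E} {a : ι → ℝ} (hH : ∀ i ∈ T, I (H i))
    (ha : ∀ i ∈ T, N (H i) ≤ a i) : N (∑ i ∈ T, H i) ≤ ∑ i ∈ T, a i :=
  (h.N_sum T hH).trans (sum_le_sum ha)

end Sn

theorem tel_Ico {E : Type*} [AddCommGroup E] (D : ℕ → E) {a b : ℕ} (hab : a ≤ b) :
    D a = D b + ∑ i ∈ Ico a b, (D i - D (i + 1)) := by
  induction b, hab using Nat.le_induction with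
  | base => simp
  | succ b hb ih => rw [sum_Ico_succ_top hb]; conv_lhs => rw [ih]
                    abel

/-- LOC.  `g l j i` bounds the final norm of `(F X_j - m_j) (D_i - D_{i+1})`, `g₀ l j` that of
`(F X_j - m_j) D_K`, `a j` that of `F` times the Taylor remainder, `e l i` that of `D_i - D_{i+1}`. -/
theorem loc {E ι : Type*} [CommRing E] [Algebra ℝ E] [Fintype ι] {I : E → Prop} {nf : E → ℝ}
    (h : Sn I nf) (F : E) (P : ℕ → E) (D X : ι → ℕ → E) (m : ι → ℕ → ℝ) {J K : ℕ} (hJ : J + 1 ≤ K)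
    (a : ℕ → ℝ) (e g₀ : ι → ℕ → ℝ) (g : ι → ℕ → ℕ → ℝ)
    (ha : ∀ j < J, I (F * (P j - P (j + 1) - ∑ l, D l (j + 2) * X l j)) ∧
      nf (F * (P j - P (j + 1) - ∑ l, D l (j + 2) * X l j)) ≤ a j)
    (he : ∀ l, ∀ i ≤ J, I (D l i - D l (i + 1)) ∧ nf (D l i - D l (i + 1)) ≤ e l i)
    (hg₀ : ∀ l, ∀ j < J, I ((F * X l j - algebraMap ℝ E (m l j)) * D l K) ∧
      nf ((F * X l j - algebraMap ℝ E (m l j)) * D l K) ≤ g₀ l j)
    (hg : ∀ l, ∀ j < J, ∀ i ∈ Ico (j + 2) K,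
      I ((F * X l j - algebraMap ℝ E (m l j)) * (D l i - D l (i + 1))) ∧
      nf ((F * X l j - algebraMap ℝ E (m l j)) * (D l i - D l (i + 1))) ≤ g l j i) :
    I (F * P 0 - F * P J - ∑ l, (∑ j ∈ range J, m l j) • D l 0) ∧
    nf (F * P 0 - F * P J - ∑ l, (∑ j ∈ range J, m l j) • D l 0) ≤
      ∑ j ∈ range J, (a j + ∑ l, ((g₀ l j + ∑ i ∈ Ico (j + 2) K, g l j i) +
        |m l j| * ∑ i ∈ range (j + 2), e l i)) := by
  set G : ι → ℕ → E := fun l j => F * X l j - algebraMap ℝ E (m l j) with hG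
  set T : ℕ → E := fun j => F * (P j - P (j + 1) - ∑ l, D l (j + 2) * X l j) +
    ∑ l, ((G l j * D l K + ∑ i ∈ Ico (j + 2) K, G l j * (D l i - D l (i + 1))) -
      m l j • ∑ i ∈ range (j + 2), (D l i - D l (i + 1))) with hT
  have eT : ∀ j < J, T j = F * (P j - P (j + 1)) - ∑ l, m l j • D l 0 := by
    intro j hj
    have e1 : ∀ l, G l j * D l K + ∑ i ∈ Ico (j + 2) K, G l j * (D l i - D l (i + 1)) =
        G l j * D l (j + 2) := fun l => by
      rw [← mul_sum, ← mul_add, ← tel_Ico (D l) (show j + 2 ≤ K by omega)]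
    have e2 : ∀ l, ∑ i ∈ range (j + 2), (D l i - D l (i + 1)) = D l 0 - D l (j + 2) := fun l => by
      rw [range_eq_Ico, tel_Ico (D l) (Nat.zero_le (j + 2))]; abel
    simp only [hT, e1, e2]
    simp only [hG]
    rw [mul_sub F (P j - P (j + 1)), mul_sum, sub_add, ← sum_sub_distrib]
    congr 1
    refine sum_congr rfl fun l _ => ?_
    simp only [Algebra.smul_def]; ring
  have e : F * P 0 - F * P J - ∑ l, (∑ j ∈ range J, m l j) • D l 0 = ∑ j ∈ range J, T j := by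
    rw [sum_congr rfl fun j hj => eT j (mem_range.1 hj), sum_sub_distrib, ← mul_sum, sum_comm,
      range_eq_Ico, tel_Ico P (Nat.zero_le J)]
    simp only [← sum_smul]
    rw [← tel_Ico P (Nat.zero_le J)]
    congr 1
    rw [← mul_sub]; congr 1
    conv_lhs => rw [tel_Ico P (Nat.zero_le J)]
    abel
  have iA : ∀ l, ∀ j < J, I (G l j * D l K + ∑ i ∈ Ico (j + 2) K, G l j * (D l i - D l (i + 1))) :=
    fun l j hj => h.add _ _ (hg₀ l j hj).1 (h.sum _ fun i hi => (hg l j hj i hi).1)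
  have iB : ∀ l, ∀ j < J, I (∑ i ∈ range (j + 2), (D l i - D l (i + 1))) :=
    fun l j hj => h.sum _ fun i hi => (he l i (by have := mem_range.1 hi; omega)).1
  have iC : ∀ l, ∀ j < J, I ((G l j * D l K + ∑ i ∈ Ico (j + 2) K, G l j * (D l i - D l (i + 1))) -
      m l j • ∑ i ∈ range (j + 2), (D l i - D l (i + 1))) :=
    fun l j hj => h.sub (iA l j hj) (h.smul _ _ (iB l j hj))
  have iT : ∀ j ∈ range J, I (T j) := fun j hj =>
    h.add _ _ (ha j (mem_range.1 hj)).1 (h.sum _ fun l _ => iC l j (mem_range.1 hj))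
  rw [e]
  refine ⟨h.sum _ iT, h.N_sum_le _ iT fun j hj => ?_⟩
  have hj := mem_range.1 hj
  refine (h.N_add _ _ (ha j hj).1 (h.sum _ fun l _ => iC l j hj)).trans (add_le_add (ha j hj).2 ?_)
  refine h.N_sum_le _ (fun l _ => iC l j hj) fun l _ => ?_
  refine (h.N_sub (iA l j hj) (h.smul _ _ (iB l j hj))).trans (add_le_add ?_ ?_)
  · exact (h.N_add _ _ (hg₀ l j hj).1 (h.sum _ fun i hi => (hg l j hj i hi).1)).trans
      (add_le_add (hg₀ l j hj).2
        (h.N_sum_le _ (fun i hi => (hg l j hj i hi).1) fun i hi => (hg l j hj i hi).2))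
  · refine (h.N_smul _ _ (iB l j hj)).trans (mul_le_mul_of_nonneg_left ?_ (abs_nonneg _))
    exact h.N_sum_le _ (fun i hi => (he l i (by have := mem_range.1 hi; omega)).1)
      fun i hi => (he l i (by have := mem_range.1 hi; omega)).2

end Crest.Agent.T145.F94
end
end

-- ▼ part T145/FlLocB_94
section

/-!
# Row 145 (helper94): the local expansion LOC on the lattice, abstract levels

Levels: `a j` (insertion radius), `w a j` (norm radius), moments are read off `bl z (w² a j)`.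
-/

set_option autoImplicit false

noncomputable section

namespace Crest.Agent.T145.F94

open Finset Nc FlF4

variable {Λ : Lat} {m : Mdl Pt} {z : Pt} {F G Y Z : Cfg Pt → ℝ} {D : Finset Pt}

/-- an outside factor of size `N` -/
def Dm (Λ : Lat) (m : Mdl Pt) (z : Pt) (ρ C : ℕ) (G : Cfg Pt → ℝ) (N : ℝ) : Prop :=
  Out (bl z ρ) G ∧ ∀ Y : Cfg Pt → ℝ, DepG (bl z ρ) Y → In Λ z C Y →
    Ig (m.W 0) (fun s => Y s * G s) ∧ Ex (m.W 0) (fun s => |Y s * G s|) ≤ N * Nm Λ z C Y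

/-- the free box itself -/
theorem dm_bx {ρ C : ℕ} (h : ρ ≤ C) : Dm Λ (bx Λ z C) z ρ C (fun _ => 1) 1 :=
  ⟨Out.const _ _, fun Y hY hI => by
    have hd := hY.mono (bl_mono z h)
    simp only [mul_one, one_mul]
    exact ⟨(In_bx hd).1 hI, (Nm_bx hd).ge⟩⟩


/-- domination -/
theorem Dm.dom {ρ C : ℕ} {N : ℝ} (hD : Dm Λ m z ρ C G N) (hm : Amb Λ m (bl z ρ))
    (hY : DepG (bl z ρ) Y) (hI : In Λ z C Y) (hZ : ∀ s, |Z s| ≤ |Y s|) :
    Ig (m.W 0) (fun s => Z s * G s) ∧ nc m (bl z ρ) (fun s => Z s * G s) ≤ N * Nm Λ z C Y := by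
  have h := hD.2 Y hY hI
  have h1 := nc_le_ex hm.ctr hm.anch hm.sub (H := fun s => Z s * G s)
    (h.1.abs (hm.ctr.wt hm.anch 0).nonneg) fun s _ => by
      rw [abs_mul, abs_mul]; exact mul_le_mul_of_nonneg_right (hZ s) (abs_nonneg _)
  exact ⟨h1.1, h1.2.trans h.2⟩

/-- one insertion, one moment, in the free box -/
theorem box1 (hΛ : Λ.Ok) {q r c R C : ℕ} {y : ℝ} (h : Ir Λ z q r c F) (hR : c + 2 * Λ.rg ≤ R)
    (hC : R + 2 * Λ.rg ≤ C) (hY : Bd Λ D Y y) (h0 : ∀ s, 0 ≤ Y s) (hDC : D ⊆ bl z C)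
    (hd : Disjoint (bl z c) D) (hO : Out (bl z R) Y) (hYd : DepG (bl z C) Y) :
    In Λ z C (fun s => F s * Y s) ∧
      Nm Λ z C (fun s => F s * Y s) ≤ gam Λ r c * gam Λ c R * Nm Λ z c F * y := by
  have h1 := h.rc
  have hd' : DepG (bl z C) fun s => F s * Y s := (h.dep.mono (bl_mono z (by omega))).mul hYd
  rw [In_bx hd', Nm_bx hd']
  simpa using holes ({()} : Finset Unit) (z := fun _ => z) (q := fun _ => q) (r := fun _ => r)
    (c := fun _ => c) (R := fun _ => R) (F := fun _ => F) hΛ hY h0 ((lat_bx hΛ z C).mono hDC)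
    (fun _ _ _ _ h => absurd rfl h) fun _ _ => ⟨h, hR, amb_bx hΛ (by omega), hO, hd⟩

theorem Dm.rep (hΛ : Λ.Ok) {ρ C q r c : ℕ} {N t : ℝ} (hD : Dm Λ m z ρ C G N) (hm : Amb Λ m (bl z ρ))
    (h : Ir Λ z q r c F) (hρ : q ≤ ρ) (hZo : Out (bl z q) Z)
    (key : ∀ H : Cfg Pt → ℝ, Ir Λ z q r c H → Ig (m.W 0) (fun s => H s * Z s * G s) ∧
      nc m (bl z ρ) (fun s => H s * Z s * G s) ≤ t * Nm Λ z c H) :
    Ig (m.W 0) (fun s => F s * Z s * G s) ∧
      nc m (bl z ρ) (fun s => F s * Z s * G s) ≤ t * nu Λ z q c F := by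
  have h1 := (key F h).1
  refine ⟨h1, le_trans (le_of_eq ?_) (key _ (h.St hΛ)).2⟩
  have hqρ : bl z q ⊆ bl z ρ := bl_mono z hρ
  have hO' : Out (bl z q) fun s => Z s * G s := hZo.mul (hD.1.mono hqρ)
  rw [← nc_cE hm.ctr hm.anch hm.sub hqρ h1, St_cE hΛ (amb_mono hm hqρ)]
  congr 1
  funext s
  simp only [mul_assoc]
  rw [Mdl.cE_mul_out hO']

/-- fusion in the final norm -/
theorem Dm.fus (hΛ : Λ.Ok) {ρ C q r c R : ℕ} {N y : ℝ} (hD : Dm Λ m z ρ C G N) (hN : 0 ≤ N)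
    (hm : Amb Λ m (bl z ρ)) (h : Ir Λ z q r c F) (hR : c + 2 * Λ.rg ≤ R) (hC : R + 2 * Λ.rg ≤ C)
    (hρ : r + Λ.rg ≤ ρ) (hρC : ρ ≤ C) (hY : Bd Λ D Y y) (hDC : D ⊆ bl z C)
    (hd : Disjoint (bl z c) D) (hO : Out (bl z R) Y) (hYd : DepG (bl z ρ) Y)
    (hZo : Out (bl z q) Z) (hZ : ∀ s, |Z s| ≤ Y s) :
    Ig (m.W 0) (fun s => F s * Z s * G s) ∧ nc m (bl z ρ) (fun s => F s * Z s * G s) ≤
      N * (gam Λ r c * gam Λ c R * y) * nu Λ z q c F := by
  have h0 : ∀ s, 0 ≤ Y s := fun s => (abs_nonneg _).trans (hZ s)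
  have hq := h.qr
  refine hD.rep hΛ hm h (by omega) hZo fun H hH => ?_
  have h1 := box1 hΛ hH hR hC hY h0 hDC hd hO (hYd.mono (bl_mono z hρC))
  have h2 := hD.dom hm ((hH.dep.mono (bl_mono z hρ)).mul hYd) h1.1 (Z := fun s => H s * Z s)
    fun s => by
      rw [abs_mul, abs_mul, abs_of_nonneg (h0 s)]
      exact mul_le_mul_of_nonneg_left (hZ s) (abs_nonneg _)
  exact ⟨h2.1, h2.2.trans ((mul_le_mul_of_nonneg_left h1.2 hN).trans_eq (by ring))⟩

/-- a bounded multiplier -/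
theorem Dm.fus0 (hΛ : Λ.Ok) {ρ C q r c : ℕ} {N : ℝ} (hD : Dm Λ m z ρ C G N) (hN : 0 ≤ N)
    (hm : Amb Λ m (bl z ρ)) (h : Ir Λ z q r c F) (hC : c ≤ C) (hρ : r + Λ.rg ≤ ρ)
    (hZo : Out (bl z q) Z) (hZ : ∀ s, |Z s| ≤ 1) :
    Ig (m.W 0) (fun s => F s * Z s * G s) ∧ nc m (bl z ρ) (fun s => F s * Z s * G s) ≤
      N * gam Λ r c * nu Λ z q c F := by
  have hq := h.qr
  refine hD.rep hΛ hm h (by omega) hZo fun H hH => ?_
  have h1 := Dc15.nm_le d1Stmt lgeo hΛ hH.rc hC hH.dep hH.ig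
  have h2 := hD.dom hm (hH.dep.mono (bl_mono z hρ)) h1.1 (Z := fun s => H s * Z s) fun s => by
    rw [abs_mul]; exact mul_le_of_le_one_right (abs_nonneg _) (hZ s)
  exact ⟨h2.1, h2.2.trans ((mul_le_mul_of_nonneg_left h1.2 hN).trans_eq (by ring))⟩

/-- Cauchy–Schwarz in the final norm -/
theorem Dm.cs (hΛ : Λ.Ok) {ρ C : ℕ} {N y n : ℝ} (hD : Dm Λ m z ρ C G N) (hN : 0 ≤ N)
    (hm : Amb Λ m (bl z ρ)) (hρC : ρ ≤ C) (hT : Tame F) (hF : DepG (bl z ρ) F) (hn : 0 ≤ n)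
    (h0 : Nm Λ z C (fun s => F s ^ 2) ≤ n ^ 2) (hy : 0 ≤ y)
    (hY : Bd Λ (bl z C) (fun s => Y s ^ 2) (y ^ 2)) (hYd : DepG (bl z ρ) Y) (hZ : ∀ s, |Z s| ≤ Y s) :
    Ig (m.W 0) (fun s => F s * Z s * G s) ∧
      nc m (bl z ρ) (fun s => F s * Z s * G s) ≤ N * (n * y) := by
  have hY0 : ∀ s, 0 ≤ Y s := fun s => (abs_nonneg _).trans (hZ s)
  have hd := hF.mul hYd
  have hd' := hd.mono (bl_mono z hρC)
  have hb := lat_bx hΛ z C
  have hW := hb.cen.nonneg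
  have b1 := hY _ hb
  have b2 : Ig ((bx Λ z C).W 0) fun s => F s ^ 2 := hb.cen.ig (hT.pow 2)
  rw [Nm_bx ((hF.mono (bl_mono z hρC)).comp (· ^ 2))] at h0
  simp only [abs_pow] at h0
  have b5 : Ig ((bx Λ z C).W 0) fun s => |F s| ^ 2 := by simpa only [sq_abs] using b2
  have h2 := hD.dom hm hd ((In_bx hd').2 (Ig.mul_of_sq hW b2 b1.1)) (Z := fun s => F s * Z s)
    fun s => by
      rw [abs_mul, abs_mul, abs_of_nonneg (hY0 s)]
      exact mul_le_mul_of_nonneg_left (hZ s) (abs_nonneg _)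
  refine ⟨h2.1, h2.2.trans (mul_le_mul_of_nonneg_left ?_ hN)⟩
  rw [Nm_bx hd']
  simp only [abs_mul, abs_of_nonneg (hY0 _)]
  refine (le_abs_self _).trans ((abs_Ex_mul_le hW b5 b1.1).trans ?_)
  refine (mul_le_mul (Real.sqrt_le_sqrt h0) (Real.sqrt_le_sqrt b1.2) (Real.sqrt_nonneg _)
    (Real.sqrt_nonneg _)).trans_eq ?_
  rw [Real.sqrt_sq hn, Real.sqrt_sq hy]

theorem cos_rem (y x x' : ℝ) :
    |Real.cos (y + x' + x) - Real.cos (y + x') - -Real.sin y * x| ≤ |x| * (|x| + |x'|) := by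
  have h1 : ∀ t, HasDerivAt (fun t => Real.cos (y + x' + t) + Real.sin y * t)
      (Real.sin y - Real.sin (y + x' + t)) t := fun t => by
    have := (((hasDerivAt_id' t).const_add (y + x')).cos).add
      ((hasDerivAt_id' t).const_mul (Real.sin y))
    exact this.congr_deriv (by ring)
  have h2 := Convex.norm_image_sub_le_of_norm_hasDerivWithin_le (s := Set.uIcc 0 x)
    (f := fun t => Real.cos (y + x' + t) + Real.sin y * t) (C := |x| + |x'|)
    (fun t _ => (h1 t).hasDerivWithinAt) (fun t ht => by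
      have h3 := Real.abs_sin_sub_sin_le y (y + x' + t)
      have h4 : |t| ≤ |x| := by
        simpa using Set.abs_sub_left_of_mem_uIcc ht
      rw [show y - (y + x' + t) = -(x' + t) by ring, abs_neg] at h3
      exact h3.trans ((abs_add_le _ _).trans (by linarith))) (convex_uIcc _ _)
    Set.left_mem_uIcc Set.right_mem_uIcc
  simp only [Real.norm_eq_abs, add_zero, mul_zero, sub_zero] at h2
  rw [mul_comm |x|]
  convert h2 using 2; ring

theorem f2_ed {ed ed' : Finset (Pt × Pt)} {f : Pt → ℝ} {n : ℝ} (h : F2 ed f n) (hE : ed ⊆ ed') :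
    F2 ed' f n :=
  let ⟨φ, h1, h2⟩ := h
  ⟨fun e => ind (e ∈ ed) * φ e, by rw [dv_ind hE, h1], by rwa [sum_ind_sq hE]⟩

/-- the levels; `j₀ ≤ 1` is the first level whose piece is read off `bl z (w² a j)` -/
structure Lev (Λ : Lat) (z : Pt) (w : ℕ) (a : ℕ → ℕ) (j₀ K : ℕ) (D : ℕ → Finset Pt) (f : ℕ → Pt → ℝ)
    (x : ℕ → ℝ) : Prop where
  j1 : j₀ ≤ 1
  w2 : 2 ≤ w
  rg : 2 * Λ.rg ≤ a 0
  mono : Monotone a
  ba : ∀ j < K, w * (w * a j) + 2 * Λ.rg ≤ a (j + 2)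
  top : a K + Λ.rg ≤ a (K + 1)
  g1 : ∀ j ≤ K, gam Λ (a j) (w * a j) ≤ 2
  g2 : ∀ j < K, gam Λ (w * a j) (w * (w * a j)) ≤ 2
  sub : ∀ j < K, D j ⊆ bl z (a (j + 2))
  disj : ∀ j, j₀ ≤ j → j < K → Disjoint (bl z (w * (w * a j))) (D j)
  x0 : ∀ j, 0 ≤ x j
  fl : ∀ j < K, F2 (Λ.edI (D j)) (f j) (x j ^ 2)

namespace Lev
variable {w j₀ K : ℕ} {a : ℕ → ℕ} {D : ℕ → Finset Pt} {f : ℕ → Pt → ℝ} {x : ℕ → ℝ}
  (h : Lev Λ z w a j₀ K D f x)
include h

theorem ac (j : ℕ) : a j + 2 * Λ.rg ≤ w * a j ∧ w * a j + 2 * Λ.rg ≤ w * (w * a j) := by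
  have h1 := h.rg.trans (h.mono (Nat.zero_le j))
  have h2 := Nat.mul_le_mul_right (a j) h.w2
  have h3 := Nat.mul_le_mul_right (w * a j) h.w2
  omega

theorem bm {i j : ℕ} (hij : i ≤ j) : bl z (w * (w * a i)) ⊆ bl z (w * (w * a j)) :=
  bl_mono z (Nat.mul_le_mul_left _ (Nat.mul_le_mul_left _ (h.mono hij)))

theorem dep {j k : ℕ} (hj : j < K) (hk : j + 2 ≤ k) : DepG (bl z (a k)) fun s => pr (f j) s :=
  (depG_flow (h.fl j hj)).mono ((h.sub j hj).trans (bl_mono z (h.mono hk)))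

theorem out {i j : ℕ} (hi : j₀ ≤ i) (hij : i ≤ j) (hj : j < K) :
    Out (bl z (w * (w * a i))) fun s => pr (f j) s :=
  (depG_flow (h.fl j hj)).dep.out ((h.disj j (by omega) hj).symm.mono_right (h.bm hij))

/-- fusion at the level `j` against a moment read off `bl z (w² a j)` -/
theorem fus (hΛ : Λ.Ok) {ρ C j k : ℕ} {N y n : ℝ} (hD : Dm Λ m z ρ C G N) (hN : 0 ≤ N)
    (hm : Amb Λ m (bl z ρ)) (hj : j < K) (hjk : j + 2 ≤ k) (hρ : a k ≤ ρ) (hρC : ρ ≤ C)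
    (hT : Tame F) (hF : DepG (bl z (a j)) F) (hn : nu Λ z (a j) (w * a j) F ≤ n)
    (hY : Bd Λ (bl z (a k) \ bl z (w * (w * a j))) Y y) (hO : Out (bl z (w * (w * a j))) Y)
    (hYd : DepG (bl z (a k)) Y) (hZo : Out (bl z (a j)) Z) (hZ : ∀ s, |Z s| ≤ Y s) :
    Ig (m.W 0) (fun s => F s * Z s * G s) ∧
      nc m (bl z ρ) (fun s => F s * Z s * G s) ≤ N * (4 * n * y) := by
  obtain ⟨e1, e2⟩ := h.ac j
  have e3 := h.ba j hj
  have e4 := h.mono hjk
  have := hD.fus hΛ hN hm ⟨le_rfl, e1, hF.mono (bl_mono z (by omega)), In_tame hΛ z _ hT⟩ e2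
    (by omega) (by omega) hρC hY (sdiff_subset.trans (bl_mono z (by omega)))
    (disjoint_sdiff.mono_left (bl_mono z (by omega))) hO (hYd.mono (bl_mono z hρ)) hZo hZ
  refine ⟨this.1, this.2.trans ?_⟩
  have h1 := one_le_gam hΛ e2
  have h3 := mul_le_mul (h.g1 j hj.le) (h.g2 j hj) (by linarith) zero_le_two
  have hy := hY.nonneg hΛ fun s => (abs_nonneg _).trans (hZ s)
  rw [mul_assoc, mul_right_comm 4]
  exact mul_le_mul_of_nonneg_left (mul_le_mul (mul_le_mul_of_nonneg_right (by linarith) hy) hn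
    (nu_nonneg hΛ _ _ _ _) (by positivity)) hN

theorem fl' {i j k : ℕ} (hi : j₀ ≤ i) (hij : i ≤ j) (hj : j < K) (hk : j + 2 ≤ k) :
    F2 (Λ.edI (bl z (a k) \ bl z (w * (w * a i)))) (f j) (x j ^ 2) :=
  f2_ed (h.fl j hj) (Lat.edI_mono (subset_sdiff.2 ⟨(h.sub j hj).trans (bl_mono z (h.mono hk)),
    (h.disj j (by omega) hj).symm.mono_right (h.bm hij)⟩))

theorem fl0 {j k : ℕ} (hj : j < K) (hk : j + 2 ≤ k) : F2 (Λ.edI (bl z (a k))) (f j) (x j ^ 2) :=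
  f2_ed (h.fl j hj) (Lat.edI_mono ((h.sub j hj).trans (bl_mono z (h.mono hk))))

/-- fusion of the micro insertion `F` at the level `j`; below `j₀` it is Cauchy–Schwarz -/
theorem fusF (hΛ : Λ.Ok) {ρ C j k : ℕ} {N y n : ℝ} (hD : Dm Λ m z ρ C G N) (hN : 0 ≤ N)
    (hm : Amb Λ m (bl z ρ)) (hj : j < K) (hjk : j + 2 ≤ k) (hρ : a k ≤ ρ) (hρC : ρ ≤ C)
    (hT : Tame F) (hF : DepG (bl z (a 0)) F) (hn0 : 0 ≤ n)
    (h0 : j < j₀ → ∀ c, a 0 ≤ c → Nm Λ z c (fun s => F s ^ 2) ≤ n ^ 2)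
    (hn : j₀ ≤ j → nu Λ z (a j) (w * a j) F ≤ n)
    (hy : 0 ≤ y) (hY : ∀ U, (∀ i, j ≤ i → i < K → i + 2 ≤ k → F2 (Λ.edI U) (f i) (x i ^ 2)) →
      Bd Λ U (fun s => Y s ^ 2) (y ^ 2)) (hO : j₀ ≤ j → Out (bl z (w * (w * a j))) Y)
    (hYd : DepG (bl z (a k)) Y) (hZo : j₀ ≤ j → Out (bl z (a j)) Z) (hZ : ∀ s, |Z s| ≤ Y s) :
    Ig (m.W 0) (fun s => F s * Z s * G s) ∧
      nc m (bl z ρ) (fun s => F s * Z s * G s) ≤ N * (4 * n * y) := by
  have hY0 : ∀ s, 0 ≤ Y s := fun s => (abs_nonneg _).trans (hZ s)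
  have e0 := h.mono (Nat.zero_le k)
  rcases lt_or_ge j j₀ with h1 | h1
  · have := hD.cs hΛ hN hm hρC hT (hF.mono (bl_mono z (by omega))) hn0 (h0 h1 C (by omega)) hy
      ((hY _ fun i _ hi hk => h.fl0 hi hk).mono (bl_mono z (by omega))) (hYd.mono (bl_mono z hρ)) hZ
    exact ⟨this.1, this.2.trans (mul_le_mul_of_nonneg_left (by nlinarith [mul_nonneg hn0 hy]) hN)⟩
  · have b1 := (hY _ fun i hi hK hk => h.fl' h1 hi hK hk).cs
      (G' := fun _ => 1) (g' := 1) (by simpa using Bd.const Λ _ 1)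
    simp only [mul_one, Real.sqrt_one, Real.sqrt_sq hy, abs_of_nonneg (hY0 _)] at b1
    exact h.fus hΛ hD hN hm hj hjk hρ hρC hT (hF.mono (bl_mono z (h.mono (Nat.zero_le j)))) (hn h1) b1
      (hO h1) hYd (hZo h1) hZ

end Lev

theorem sn_nc (hc : m.Ctr) (ha : m.Anch) {B : Finset Pt} (hB : B ⊆ m.A) (G : Cfg Pt → ℝ) :
    Sn (E := Cfg Pt → ℝ) (fun H => Ig (m.W 0) fun s => H s * G s)
      fun H => nc m B fun s => H s * G s where
  zero := by simpa using (hc.wt ha 0).ig_const 0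
  add H H' h h' := (h.add h').congr fun s _ => by simp [add_mul]
  smul t H h := (h.const_mul t).congr fun s _ => by simp [mul_assoc]
  N_add H H' h h' := by simpa only [Pi.add_apply, add_mul] using nc_add_le hc ha hB h h'
  N_smul t H _ := by simpa only [Pi.smul_apply, smul_eq_mul, mul_assoc] using (nc_smul m B t _).le

theorem bd_a (hΛ : Λ.Ok) {U : Finset Pt} {f f' : Pt → ℝ} {x x' : ℝ} (hx : 0 ≤ x) (hx' : 0 ≤ x')
    (h : F2 (Λ.edI U) f (x ^ 2)) (h' : F2 (Λ.edI U) f' (x' ^ 2)) :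
    Bd Λ U (fun s => (|pr f s| * (|pr f s| + |pr f' s|)) ^ 2) ((cB Λ.τ 4 * (x * (x + x'))) ^ 2) := by
  have hβ := one_le_cB hΛ.pos.le 4
  refine ((((bd_pow₂ hΛ hx h hx' h' 4 0).add ((bd_pow₂ hΛ hx h hx' h' 3 1).smul zero_le_two)).add
    (bd_pow₂ hΛ hx h hx' h' 2 2)).congr fun s => by ring).le ?_
  have : 0 ≤ (x * (x + x')) ^ 2 * cB Λ.τ 4 * (cB Λ.τ 4 - 1) := by
    have := sub_nonneg.2 hβ; positivity
  norm_num; nlinarith

theorem bd_x (hΛ : Λ.Ok) {U : Finset Pt} {f : Pt → ℝ} {x : ℝ} (hx : 0 ≤ x)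
    (h : F2 (Λ.edI U) f (x ^ 2)) : Bd Λ U (fun s => |pr f s|) (cB Λ.τ 4 * x) :=
  (bd_one hΛ hx h).le (mul_le_mul_of_nonneg_right (cB_mono le_rfl (by norm_num)) hx)

theorem bd_x2 (hΛ : Λ.Ok) {U : Finset Pt} {f : Pt → ℝ} {x : ℝ} (hx : 0 ≤ x)
    (h : F2 (Λ.edI U) f (x ^ 2)) : Bd Λ U (fun s => |pr f s| ^ 2) ((cB Λ.τ 4 * x) ^ 2) := by
  have hβ := one_le_cB hΛ.pos.le 4
  refine (bd_pow hΛ hx h 2).le ?_
  rw [mul_pow]
  exact mul_le_mul_of_nonneg_right ((cB_mono (k' := 4) le_rfl (by norm_num)).trans (by nlinarith))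
    (sq_nonneg _)

/-- **LOC** for a phase, abstract levels -/
theorem Lev.loc {w j₀ K J ρ C : ℕ} {a : ℕ → ℕ} {D : ℕ → Finset Pt} {f : ℕ → Pt → ℝ} {x : ℕ → ℝ}
    (h : Lev Λ z w a j₀ K D f x) (hΛ : Λ.Ok) (hJ : J + 1 ≤ K) {N : ℝ} (hD : Dm Λ m z ρ C G N)
    (hN : 0 ≤ N) (hm : Amb Λ m (bl z ρ)) (hρ : a (K + 1) ≤ ρ) (hρC : ρ ≤ C) (hC : w * a K ≤ C)
    {θ : ℕ → Cfg Pt → ℝ} (hθ : ∀ j < K, ∀ s, θ j s = θ (j + 1) s + pr (f j) s)
    (hO : ∀ j, j₀ ≤ j → j ≤ K → Out (bl z (a j)) (θ j)) (hT : Tame F)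
    (hF : DepG (bl z (a 0)) F) {n : ℕ → ℝ} (hn' : ∀ j, 0 ≤ n j)
    (h0 : 0 < j₀ → ∀ c, a 0 ≤ c → Nm Λ z c (fun s => F s ^ 2) ≤ n 0 ^ 2)
    (hn : ∀ j, j₀ ≤ j → j < J → nu Λ z (a j) (w * a j) F ≤ n j) {μ : (Cfg Pt → ℝ) → ℝ}
    {ϱ : ℕ → ℕ → ℝ} (hϱ : ∀ i k, 0 ≤ ϱ i k)
    (hμ : ∀ i ≤ K, ∀ H, Tame H → DepG (bl z (a i)) H → |μ H| ≤ 2 * nu Λ z (a i) (w * a i) H ∧
      ∀ k, i ≤ k → k ≤ K →
        nu Λ z (a k) (w * a k) (fun s => H s - μ H) ≤ ϱ i k * nu Λ z (a i) (w * a i) H) :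
    Ig (m.W 0) (fun s => (F s * Real.cos (θ 0 s) - F s * Real.cos (θ J s) +
      (∑ j ∈ range J, μ fun t => F t * pr (f j) t) * Real.sin (θ 0 s)) * G s) ∧
    nc m (bl z ρ) (fun s => (F s * Real.cos (θ 0 s) - F s * Real.cos (θ J s) +
      (∑ j ∈ range J, μ fun t => F t * pr (f j) t) * Real.sin (θ 0 s)) * G s) ≤
      N * ∑ j ∈ range J, 16 * cB Λ.τ 4 ^ 2 * (n j * x j) *
        (∑ i ∈ range (j + 2), x i + ϱ (j + 2) K + ∑ i ∈ Ico (j + 2) K, ϱ (j + 2) i * x i) := by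
  set β := cB Λ.τ 4 with hβ
  have hβ1 : 1 ≤ β := one_le_cB hΛ.pos.le 4
  have hx := h.x0
  have j1 := h.j1
  have h0' : ∀ j < j₀, ∀ c, a 0 ≤ c → Nm Λ z c (fun s => F s ^ 2) ≤ n j ^ 2 := fun j hj => by
    obtain rfl : j = 0 := by omega
    exact h0 hj
  have tX : ∀ j, Tame fun s => F s * pr (f j) s := fun j => hT.mul (Tame.hom _)
  have dX : ∀ j < J, ∀ i, j + 2 ≤ i → DepG (bl z (a i)) fun s => F s * pr (f j) s :=
    fun j hj i hi => (hF.mono (bl_mono z (h.mono (Nat.zero_le i)))).mul (h.dep (by omega) hi)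
  have ab : ∀ j, bl z (a j) ⊆ bl z (w * (w * a j)) := fun j => bl_mono z (by have := h.ac j; omega)
  -- the norm of `F X_j`
  have hf : ∀ j < J, nu Λ z (a (j + 2)) (w * a (j + 2)) (fun s => F s * pr (f j) s) ≤
      4 * n j * (β * x j) := fun j hj => by
    have e1 := (h.ac (j + 2)).1
    have := (h.fusF hΛ (dm_bx (ρ := a (j + 2)) (C := w * a (j + 2)) (by omega)) zero_le_one
      (amb_bx hΛ (by omega)) (j := j) (by omega) le_rfl le_rfl (by omega) hT hF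
      (hn' j) (h0' j) (fun h1 => hn j h1 hj) (mul_nonneg (by linarith) (hx j))
      (Y := fun s => |pr (f j) s|) (Z := fun s => pr (f j) s)
      (fun U hU => bd_x2 hΛ (hx j) (hU j le_rfl (by omega) le_rfl))
      (fun h1 => (h.out h1 le_rfl (by omega)).comp _) ((h.dep (by omega) le_rfl).comp _)
      (fun h1 => (h.out h1 le_rfl (by omega)).mono (ab j)) fun _ => le_rfl).2
    rw [nu_eq hΛ ((dX j hj _ le_rfl).mono (bl_mono z (by omega))) (by omega)]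
    simpa only [mul_one, one_mul] using this
  have hr : ∀ j < J, ∀ i, j + 2 ≤ i → i ≤ K →
      nu Λ z (a i) (w * a i) (fun s => F s * pr (f j) s - μ fun t => F t * pr (f j) t) ≤
        ϱ (j + 2) i * (4 * n j * (β * x j)) := fun j hj i hi hK =>
    ((hμ _ (by omega) _ (tX j) (dX j hj _ le_rfl)).2 i hi hK).trans
      (mul_le_mul_of_nonneg_left (hf j hj) (hϱ _ _))
  have hsin : ∀ i < K, ∀ s, |-Real.sin (θ i s) - -Real.sin (θ (i + 1) s)| ≤ |pr (f i) s| :=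
    fun i hi s => by
      rw [neg_sub_neg, abs_sub_comm]
      simpa [hθ i hi s] using Real.abs_sin_sub_sin_le (θ i s) (θ (i + 1) s)
  have key := F94.loc (ι := Unit) (sn_nc hm.ctr hm.anch hm.sub G) F (fun j s => Real.cos (θ j s))
    (fun _ j s => -Real.sin (θ j s)) (fun _ j s => pr (f j) s)
    (fun _ j => μ fun t => F t * pr (f j) t) hJ
    (fun j => N * (4 * n j * (β * (x j * (x j + x (j + 1)))))) (fun _ i => N * (β * x i))
    (fun _ j => N * 2 * (ϱ (j + 2) K * (4 * n j * (β * x j))))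
    (fun _ j i => N * (4 * (ϱ (j + 2) i * (4 * n j * (β * x j))) * (β * x i)))
    (fun j hj => by
      have := h.fusF hΛ hD hN hm (j := j) (k := j + 3) (by omega) (by omega)
        ((h.mono (by omega)).trans hρ) hρC hT hF (hn' j) (h0' j)
        (fun h1 => hn j h1 hj) (y := β * (x j * (x j + x (j + 1))))
        (by have := hx j; have := hx (j + 1); positivity)
        (Y := fun s => |pr (f j) s| * (|pr (f j) s| + |pr (f (j + 1)) s|))
        (Z := fun s => Real.cos (θ j s) - Real.cos (θ (j + 1) s) - -Real.sin (θ (j + 2) s) * pr (f j) s)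
        (fun U hU => bd_a hΛ (hx _) (hx _) (hU j le_rfl (by omega) (by omega))
          (hU (j + 1) (by omega) (by omega) le_rfl))
        (fun h1 => (h.out h1 le_rfl (by omega)).comp₂ (h.out h1 (Nat.le_succ j) (by omega))
          fun p q => |p| * (|p| + |q|))
        ((h.dep (by omega) (by omega)).comp₂ (h.dep (j := j + 1) (by omega) le_rfl)
          fun p q => |p| * (|p| + |q|))
        (fun h1 => ((hO j h1 (by omega)).comp₂ ((hO (j + 1) (by omega) (by omega)).mono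
          (bl_mono z (h.mono (by omega)))) fun p q => Real.cos p - Real.cos q).comp₂
          (((hO (j + 2) (by omega) (by omega)).mono (bl_mono z (h.mono (by omega)))).comp₂
            ((h.out h1 le_rfl (by omega)).mono (ab j)) fun p q => -Real.sin p * q) (· - ·))
        fun s => by rw [hθ j (by omega), hθ (j + 1) (by omega)]; exact cos_rem _ _ _
      simpa only [Pi.mul_apply, Pi.sub_apply, univ_unique, sum_singleton] using this)
    (fun _ i hi => by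
      have e1 := h.mono (show i + 2 ≤ K + 1 by omega)
      have d1 : DepG (bl z ρ) fun s => pr (f i) s :=
        (h.dep (by omega) le_rfl).mono (bl_mono z (by omega))
      have := hD.dom hm d1 (In_tame hΛ z C (Tame.hom _)) (hsin i (by omega))
      refine ⟨this.1, this.2.trans (mul_le_mul_of_nonneg_left ?_ hN)⟩
      rw [Nm_bx (d1.mono (bl_mono z hρC))]
      exact (bd_x hΛ (hx i) (h.fl0 (by omega) le_rfl) _
        ((lat_bx hΛ z C).mono (bl_mono z (by omega)))).2)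
    (fun _ j hj => by
      have := hD.fus0 hΛ hN hm ⟨le_rfl, (h.ac K).1, ((dX j hj K (by omega)).sub
        (DepG.const _ (μ fun t => F t * pr (f j) t))).mono (bl_mono z (by omega)),
        In_tame hΛ z _ ((tX j).sub (Tame.const _))⟩ hC (h.top.trans hρ)
        ((hO K (by omega) le_rfl).comp fun p => -Real.sin p)
        fun s => by rw [abs_neg]; exact Real.abs_sin_le_one _
      exact ⟨this.1, this.2.trans (mul_le_mul (mul_le_mul_of_nonneg_left (h.g1 K le_rfl) hN)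
        (hr j hj K (by omega) le_rfl) (nu_nonneg hΛ _ _ _ _) (by positivity))⟩)
    (fun _ j hj i hi => by
      obtain ⟨h1, h2⟩ := mem_Ico.1 hi
      exact h.fus hΛ hD hN hm (j := i) (k := i + 2) h2 le_rfl
        ((h.mono (by omega)).trans hρ) hρC ((tX j).sub (Tame.const _))
        ((dX j hj i h1).sub (DepG.const _ _)) (hr j hj i h1 h2.le)
        (bd_x hΛ (hx i) (h.fl' (by omega) le_rfl h2 le_rfl))
        ((h.out (by omega) le_rfl h2).comp _) ((h.dep h2 le_rfl).comp _)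
        ((hO i (by omega) h2.le).comp₂ ((hO (i + 1) (by omega) h2).mono
          (bl_mono z (h.mono (by omega)))) fun p q => -Real.sin p - -Real.sin q) (hsin i h2))
  simp only [Pi.mul_apply, Pi.sub_apply, univ_unique, sum_singleton, Pi.smul_apply, smul_eq_mul,
    mul_neg, sub_neg_eq_add] at key
  refine ⟨key.1, key.2.trans ?_⟩
  rw [mul_sum]
  refine sum_le_sum fun j hj => ?_
  have hj := mem_range.1 hj
  have m1 := (hμ _ (by omega) _ (tX j) (dX j hj _ le_rfl)).1.trans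
    (mul_le_mul_of_nonneg_left (hf j hj) zero_le_two)
  have s1 : x j + x (j + 1) ≤ ∑ i ∈ range (j + 2), x i := by
    rw [sum_range_succ, sum_range_succ]
    have := sum_nonneg (s := range j) fun i _ => hx i
    linarith
  have s2 : ∑ i ∈ Ico (j + 2) K, N * (4 * (ϱ (j + 2) i * (4 * n j * (β * x j))) * (β * x i)) =
      N * (16 * β ^ 2 * (n j * x j) * ∑ i ∈ Ico (j + 2) K, ϱ (j + 2) i * x i) := by
    simp only [mul_sum]; exact sum_congr rfl fun i _ => by ring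
  rw [s2, ← mul_sum, ← mul_sum]
  set S := ∑ i ∈ range (j + 2), x i
  have hS : 0 ≤ S := sum_nonneg fun i _ => hx i
  have p : 0 ≤ N * (n j * x j) := mul_nonneg hN (mul_nonneg (hn' j) (hx j))
  have t1 := mul_le_mul_of_nonneg_right m1 (show 0 ≤ N * (β * S) by positivity)
  have t2 := mul_le_mul_of_nonneg_left s1 (show 0 ≤ N * (n j * x j) * β by positivity)
  have t3 : 0 ≤ N * (n j * x j) * β * (β - 1) := by have := sub_nonneg.2 hβ1; positivity
  have t4 := mul_nonneg t3 hS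
  have t5 := mul_nonneg t3 (hϱ (j + 2) K)
  have t6 : 0 ≤ N * (n j * x j) * β ^ 2 * S := by positivity
  have t7 : 0 ≤ N * (n j * x j) * β * ϱ (j + 2) K := by have := hϱ (j + 2) K; positivity
  nlinarith

end Crest.Agent.T145.F94
end
end

-- ▼ part T145/FlLocC_94
section

/-!
# Row 145 (helper94): LOC, deterministic part (the grid of levels, flows of the pieces, the sums)
-/

set_option autoImplicit false

noncomputable section

namespace Crest.Agent.T145.F94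

open Finset Pot Xi Fl

/-- the grid -/
theorem grid {w a₀ r : ℕ} {ρ : ℝ} (hw : 2 ≤ w) (ha : 1 ≤ a₀) (h1 : 8 * (w : ℝ) ^ 2 * a₀ ≤ ρ)
    (h2 : 600 * ρ ≤ r) : ∃ (J K : ℕ) (a : ℕ → ℕ) (β : ℕ → ℝ) (s₀ : ℝ), 1 ≤ J ∧ J + 1 ≤ K ∧ a 0 = a₀ ∧
      a (K + 1) = r ∧ Monotone a ∧ β 0 = 0 ∧ β J = ρ ∧ 0 < s₀ ∧ s₀ * r ≤ a₀ ∧
      (∀ j, 1 ≤ j → j < K → (a j : ℝ) = s₀ * (8 * (w : ℝ) ^ 2) ^ j * r ∧
        ((w * (w * a j) + 1 : ℕ) : ℝ) ≤ β j) ∧ (a K : ℝ) + 1 ≤ β K ∧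
      (∀ j, 1 ≤ j → j ≤ K → 2 * β j + 1 ≤ a (j + 1)) ∧
      (∀ j < K, β (j + 1) ≤ (8 * (w : ℝ) ^ 2) ^ 2 * (s₀ * (8 * (w : ℝ) ^ 2) ^ j) * r) ∧
      r ≤ 8 * a K ∧ 2 * a K ≤ r := by
  classical
  set Q : ℕ := 8 * w ^ 2 with hQ
  have hQr : (8 * (w : ℝ) ^ 2) = Q := by rw [hQ]; push_cast; ring
  rw [hQr] at h1 ⊢
  have hw2 : 4 ≤ w * w := Nat.mul_le_mul hw hw
  have hQw : Q = 8 * (w * w) := by rw [hQ]; ring
  have hQ0 : (0 : ℝ) < Q := by exact_mod_cast (by omega : 0 < Q)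
  have hpow : ∀ k, k < Q ^ k := fun k => Nat.lt_pow_self (by omega)
  have hex : ∃ k : ℕ, ρ < (w * w * a₀ * Q ^ (k + 1) + 1 : ℕ) := by
    obtain ⟨k, hk⟩ := exists_nat_gt ρ
    refine ⟨k, hk.trans_le ?_⟩
    have : 1 * Q ^ (k + 1) ≤ w * w * a₀ * Q ^ (k + 1) := Nat.mul_le_mul_right _ (by nlinarith)
    exact_mod_cast (by have := hpow (k + 1); omega)
  obtain ⟨J, hJ1, hJ2⟩ : ∃ J : ℕ, ρ < (w * w * a₀ * Q ^ (J + 1) + 1 : ℕ) ∧
      ((w * w * a₀ * Q ^ J + 1 : ℕ) : ℝ) ≤ ρ := by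
    refine ⟨Nat.find hex, Nat.find_spec hex, ?_⟩
    rcases h : Nat.find hex with _ | k
    · refine le_trans ?_ h1
      exact_mod_cast (by rw [hQw]; nlinarith : w * w * a₀ * Q ^ 0 + 1 ≤ Q * a₀)
    · exact not_lt.1 (Nat.find_min hex (by omega))
  have hd : (0 : ℝ) < (w * w * Q ^ J : ℕ) := by
    have := hpow J
    exact_mod_cast Nat.mul_pos (by omega) (by omega)
  set a₁ := ⌊(ρ - 1) / (w * w * Q ^ J : ℕ)⌋₊ with ha₁
  have b1 : a₀ ≤ a₁ := Nat.le_floor (by rw [le_div_iff₀ hd]; push_cast at hJ2 ⊢; linarith)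
  have hρ1 : 0 ≤ (ρ - 1) / (w * w * Q ^ J : ℕ) := div_nonneg (by
    have : (1 : ℝ) ≤ (w * w * a₀ * Q ^ J + 1 : ℕ) := by exact_mod_cast Nat.le_add_left _ _
    linarith) hd.le
  have b2 : (a₁ : ℝ) ≤ Q * a₀ := (Nat.floor_le hρ1).trans (by
    rw [div_le_iff₀ hd]; push_cast at hJ1 ⊢; rw [pow_succ] at hJ1; linarith)
  have b3 : ((w * (w * (a₁ * Q ^ J)) + 1 : ℕ) : ℝ) ≤ ρ := by
    have := Nat.floor_le hρ1
    rw [← ha₁, le_div_iff₀ hd] at this; push_cast at this ⊢; linarith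
  have b4 : ρ ≤ (2 * (w * (w * (a₁ * Q ^ J))) + 1 : ℕ) := by
    have h3 := (Nat.lt_floor_add_one ((ρ - 1) / (w * w * Q ^ J : ℕ))).le
    have h4 : (1 : ℝ) ≤ a₁ := by exact_mod_cast ha.trans b1
    rw [← ha₁, div_le_iff₀ hd] at h3
    have := mul_le_mul_of_nonneg_right h4 hd.le
    push_cast at h3 this ⊢; linarith
  have hg : ∀ k, 1 ≤ a₁ * Q ^ k := fun k => Nat.mul_pos (by omega) (by have := hpow k; omega)
  have hg' : ∀ k, 4 ≤ w * (w * (a₁ * Q ^ k)) := fun k => by have := hg k; nlinarith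
  have hs : ∀ k, a₁ * Q ^ (k + 1) = 8 * (w * (w * (a₁ * Q ^ k))) := fun k => by rw [pow_succ, hQw]; ring
  have hle : ∀ k, a₁ * Q ^ k ≤ w * (w * (a₁ * Q ^ k)) := fun k => by have := hg k; nlinarith
  have hex2 : ∃ k, r / 4 < 2 * (w * (w * (a₁ * Q ^ (J + 1 + k)))) + 3 := ⟨r, by
    have h3 := hle (J + 1 + r)
    have h4 := hpow (J + 1 + r)
    have : 1 * Q ^ (J + 1 + r) ≤ a₁ * Q ^ (J + 1 + r) := Nat.mul_le_mul_right _ (by omega)
    omega⟩
  obtain ⟨K, hK0, hK1, hK2⟩ : ∃ K, J + 1 ≤ K ∧ r / 4 < 2 * (w * (w * (a₁ * Q ^ K))) + 3 ∧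
      ∀ k, J + 1 ≤ k → k < K → 2 * (w * (w * (a₁ * Q ^ k))) + 3 ≤ r / 4 :=
    ⟨J + 1 + Nat.find hex2, by omega, Nat.find_spec hex2, fun k h3 h4 => by
      obtain ⟨i, rfl⟩ := Nat.exists_eq_add_of_le h3
      exact not_lt.1 (Nat.find_min hex2 (by omega))⟩
  have hρ : (256 : ℝ) / 8 ≤ ρ := by
    have : (32 : ℝ) * 1 ≤ Q * a₀ := by exact_mod_cast Nat.mul_le_mul (by omega) ha
    linarith
  have hr4 : (r : ℝ) ≤ 4 * (r / 4 : ℕ) + 3 := by exact_mod_cast (by omega : r ≤ 4 * (r / 4) + 3)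
  have hr0 : (0 : ℝ) < r := by linarith
  have hr100 : 100 ≤ r := by exact_mod_cast (by linarith : (100 : ℝ) ≤ r)
  set a : ℕ → ℕ := fun j => if j = 0 then a₀ else if j ≤ K then a₁ * Q ^ (j - 1)
    else if j = K + 1 then r / 4 else r with hadef
  set β : ℕ → ℝ := fun j => if j = 0 then 0 else if j = J + 1 then ρ
    else if j ≤ K then (w * (w * a j) + 1 : ℕ) else a j + 1 with hβdef
  have ea : ∀ j, j < K → a (j + 1) = a₁ * Q ^ j := fun j hj => by
    simp only [hadef, Nat.succ_ne_zero, if_false, if_pos (show j + 1 ≤ K from hj), Nat.add_sub_cancel]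
  have eK : a (K + 1) = r / 4 := by simp [hadef]
  have eT : ∀ j, K + 1 < j → a j = r := fun j hj => by
    simp only [hadef, if_neg (show j ≠ 0 by omega), if_neg (show ¬ j ≤ K by omega),
      if_neg (show j ≠ K + 1 by omega)]
  have eβK : β (K + 1) = (r / 4 : ℕ) + 1 := by
    simp only [hβdef, Nat.succ_ne_zero, if_false, if_neg (show K + 1 ≠ J + 1 by omega),
      if_neg (show ¬ K + 1 ≤ K by omega), eK]
  have eβJ : β (J + 1) = ρ := by simp [hβdef]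
  have eβ : ∀ j < K, j ≠ J → β (j + 1) = (w * (w * (a₁ * Q ^ j)) + 1 : ℕ) := fun j hj hne => by
    simp only [hβdef, Nat.succ_ne_zero, if_false, if_neg (show j + 1 ≠ J + 1 by omega),
      if_pos (show j + 1 ≤ K from hj), ea j hj]
  have lo : ∀ j < K, ((w * (w * (a₁ * Q ^ j)) + 1 : ℕ) : ℝ) ≤ β (j + 1) := fun j hj => by
    by_cases h : j = J
    · rw [h, eβJ]; exact b3
    · rw [eβ j hj h]
  have hi : ∀ j < K, β (j + 1) ≤ (2 * (w * (w * (a₁ * Q ^ j))) + 1 : ℕ) := fun j hj => by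
    by_cases h : j = J
    · rw [h, eβJ]; exact b4
    · rw [eβ j hj h]; exact_mod_cast (by omega)
  have two : ∀ j ≤ K, 2 * β (j + 1) + 1 ≤ a (j + 2) := fun j hj => by
    rcases hj.eq_or_lt with rfl | hj
    · rw [eβK, eT _ (by omega)]
      exact_mod_cast (by omega : 2 * (r / 4 + 1) + 1 ≤ r)
    rcases (show j + 1 ≤ K from hj).eq_or_lt with h | h
    · rw [show j + 2 = K + 1 by omega, eK]
      by_cases h' : j = J
      · rw [h', eβJ]; linarith
      · rw [eβ j hj h']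
        exact_mod_cast (by have := hK2 j (by omega) hj; omega :
          2 * (w * (w * (a₁ * Q ^ j)) + 1) + 1 ≤ r / 4)
    · rw [ea (j + 1) h, hs]
      have h3 := hi j hj
      have h4 : (4 : ℝ) ≤ (w * (w * (a₁ * Q ^ j)) : ℕ) := by exact_mod_cast hg' j
      push_cast at h3 h4 ⊢; linarith
  have es : ∀ j, (a₁ : ℝ) / (Q * r) * Q ^ (j + 1) * r = (a₁ * Q ^ j : ℕ) := fun j => by
    push_cast; field_simp; ring
  refine ⟨J + 1, K + 1, a, β, a₁ / (Q * r), by omega, by omega, by simp [hadef], eT _ (by omega),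
    monotone_nat_of_le_succ fun j => ?_, by simp [hβdef], eβJ, ?_, ?_, fun j h3 h4 => ?_, ?_,
    fun j h3 h4 => ?_, fun j hj => ?_, by omega, by omega⟩
  · rcases j with _ | j
    · rw [ea 0 (by omega)]; simpa [hadef] using b1
    rcases lt_or_ge j K with h | h
    · have h3 := lo j h
      have h4 := two j h.le
      have h5 : ((a₁ * Q ^ j : ℕ) : ℝ) ≤ (w * (w * (a₁ * Q ^ j)) : ℕ) := by exact_mod_cast hle j
      have h6 : (0 : ℝ) ≤ (a₁ * Q ^ j : ℕ) := Nat.cast_nonneg _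
      rw [Nat.cast_add, Nat.cast_one] at h3
      rw [ea j h]
      exact_mod_cast (by linarith : ((a₁ * Q ^ j : ℕ) : ℝ) ≤ a (j + 2))
    · rw [eT (j + 1 + 1) (by omega)]
      rcases h.eq_or_lt with rfl | h
      · rw [eK]; omega
      · rw [eT _ (by omega)]
  · have : (0 : ℝ) < a₁ := by exact_mod_cast ha.trans b1
    positivity
  · rw [div_mul_eq_mul_div, div_le_iff₀ (by positivity)]
    nlinarith
  · obtain ⟨j, rfl⟩ : ∃ k, j = k + 1 := ⟨j - 1, by omega⟩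
    rw [ea j (by omega), es]
    exact ⟨rfl, lo j (by omega)⟩
  · rw [eβK, eK]
  · obtain ⟨j, rfl⟩ : ∃ k, j = k + 1 := ⟨j - 1, by omega⟩
    exact two j (by omega)
  · rw [show (Q : ℝ) ^ 2 * (a₁ / (Q * r) * Q ^ j) * r = a₁ / (Q * r) * Q ^ (j + 1 + 1) * r by ring, es,
      hs]
    have h4 := hg' j
    rcases (Nat.lt_succ_iff.1 hj).eq_or_lt with rfl | h
    · rw [eβK]; exact_mod_cast (by omega)
    · exact (hi j h).trans (by exact_mod_cast (by omega))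

/-- the sums over the levels -/
theorem bracket {Q s₀ κ X R : ℝ} {j K : ℕ} (hQ : 2 ≤ Q) (h0 : 0 < s₀) (hκ1 : κ ≤ 1)
    (hX : 0 ≤ X) (hR : 0 ≤ R) (hj : j + 2 ≤ K) (hK : ∀ i < K, s₀ * Q ^ i ≤ 1) {ϱ : ℕ → ℝ}
    (h1 : ϱ K ≤ R * (8 * Q ^ 3 * (s₀ * Q ^ j)) ^ κ)
    (h2 : ∀ i, j + 2 ≤ i → i < K → ϱ i ≤ R * (s₀ * Q ^ (j + 2) / (s₀ * Q ^ i)) ^ κ) :
    ∑ i ∈ range (j + 2), X * (s₀ * Q ^ i) ^ 2 + ϱ K + ∑ i ∈ Ico (j + 2) K, ϱ i * (X * (s₀ * Q ^ i) ^ 2) ≤
      (2 * Q * X + 8 * Q ^ 3 * R + 2 * Q ^ 2 * R * X) * (s₀ * Q ^ j) ^ κ := by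
  have hQ0 : 0 < Q := by linarith
  have hs : ∀ i, 0 < s₀ * Q ^ i := fun i => by positivity
  have geo : ∀ n, ∑ i ∈ range (n + 1), s₀ * Q ^ i ≤ 2 * (s₀ * Q ^ n) := fun n => by
    induction n with
    | zero => simp; linarith
    | succ n ih => rw [sum_range_succ, pow_succ]; nlinarith [hs n]
  have pw : ∀ t : ℝ, 0 < t → t ≤ 1 → t ≤ t ^ κ := fun t ht h => by
    simpa using Real.rpow_le_rpow_of_exponent_ge ht h hκ1
  have up : ∀ t : ℝ, 1 ≤ t → t ^ κ ≤ t := fun t ht => by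
    simpa using Real.rpow_le_rpow_of_exponent_le ht hκ1
  set t := (s₀ * Q ^ j) ^ κ with ht
  have ht0 : 0 ≤ t := by positivity
  have a1 : ∑ i ∈ range (j + 2), X * (s₀ * Q ^ i) ^ 2 ≤ 2 * Q * X * t := by
    refine (sum_le_sum (g := fun i => X * (s₀ * Q ^ i)) fun i hi => ?_).trans ?_
    · have := hK i (by have := mem_range.1 hi; omega)
      exact mul_le_mul_of_nonneg_left (by nlinarith [hs i]) hX
    · rw [← mul_sum]
      have h3 := geo (j + 1)
      have h4 := mul_le_mul_of_nonneg_left (pw _ (hs j) (hK j (by omega))) hQ0.le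
      rw [pow_succ] at h3
      nlinarith
  have a2 : ϱ K ≤ 8 * Q ^ 3 * R * t := by
    rw [Real.mul_rpow (by positivity) (hs j).le] at h1
    have := mul_le_mul_of_nonneg_right (up (8 * Q ^ 3)
      (by linarith [one_le_pow₀ (n := 3) (show 1 ≤ Q by linarith)])) (mul_nonneg hR ht0)
    nlinarith
  have a3 : ∑ i ∈ Ico (j + 2) K, ϱ i * (X * (s₀ * Q ^ i) ^ 2) ≤ 2 * Q ^ 2 * R * X * t := by
    refine (sum_le_sum (g := fun i => Q ^ 2 * R * X * t * (s₀ * Q ^ i)) fun i hi => ?_).trans ?_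
    · obtain ⟨h3, h4⟩ := mem_Ico.1 hi
      have h5 : (s₀ * Q ^ (j + 2) / (s₀ * Q ^ i)) ^ κ * (s₀ * Q ^ i) ≤ Q ^ 2 * t := by
        rw [Real.div_rpow (hs _).le (hs _).le, div_mul_eq_mul_div, div_le_iff₀ (by positivity),
          show s₀ * Q ^ (j + 2) = Q ^ 2 * (s₀ * Q ^ j) by ring, Real.mul_rpow (by positivity) (hs j).le]
        exact mul_le_mul (mul_le_mul_of_nonneg_right (up _ (one_le_pow₀ (by linarith))) ht0)
          (pw _ (hs i) (hK i h4)) (hs i).le (by positivity)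
      calc _ ≤ R * (s₀ * Q ^ (j + 2) / (s₀ * Q ^ i)) ^ κ * (X * (s₀ * Q ^ i) ^ 2) :=
            mul_le_mul_of_nonneg_right (h2 i h3 h4) (by positivity)
        _ = R * X * (s₀ * Q ^ i) * ((s₀ * Q ^ (j + 2) / (s₀ * Q ^ i)) ^ κ * (s₀ * Q ^ i)) := by ring
        _ ≤ R * X * (s₀ * Q ^ i) * (Q ^ 2 * t) := mul_le_mul_of_nonneg_left h5 (by positivity)
        _ = _ := by ring
    · rw [← mul_sum]
      obtain ⟨k, rfl⟩ : ∃ k, K = k + 1 := ⟨K - 1, by omega⟩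
      have h3 : ∑ i ∈ Ico (j + 2) (k + 1), s₀ * Q ^ i ≤ 2 :=
        (sum_le_sum_of_subset_of_nonneg (fun i hi => mem_range.2 (mem_Ico.1 hi).2)
          fun i _ _ => (hs i).le).trans ((geo k).trans (by linarith [hK k (by omega)]))
      nlinarith [mul_le_mul_of_nonneg_left h3 (show 0 ≤ Q ^ 2 * R * X * t by positivity)]
  linarith

theorem geo_rpow {Q s₀ δ : ℝ} {J : ℕ} (hQ : 1 < Q) (h0 : 0 < s₀) (hδ : 0 < δ) (hJ : s₀ * Q ^ J ≤ 1) :
    ∑ j ∈ range J, (s₀ * Q ^ j) ^ δ ≤ 1 / (Q ^ δ - 1) := by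
  have hQ0 : 0 < Q := by linarith
  have hq : 1 < Q ^ δ := Real.one_lt_rpow hQ hδ
  have e : ∀ j : ℕ, (s₀ * Q ^ j) ^ δ = s₀ ^ δ * (Q ^ δ) ^ j := fun j => by
    rw [Real.mul_rpow h0.le (by positivity), ← Real.rpow_natCast, ← Real.rpow_natCast,
      ← Real.rpow_mul hQ0.le, ← Real.rpow_mul hQ0.le, mul_comm δ]
  have h1 : (s₀ * Q ^ J) ^ δ ≤ 1 := Real.rpow_le_one (by positivity) hJ hδ.le
  simp only [e] at h1 ⊢
  rw [← mul_sum, geom_sum_eq hq.ne', ← mul_div_assoc]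
  have : 0 < s₀ ^ δ := by positivity
  exact div_le_div_of_nonneg_right (by linarith) (by linarith)

theorem out_pr {B : Finset Pt} {g : Pt → ℝ} (h : ∀ x ∈ B, g x = 0) : Out B fun s => pr g s :=
  fun s t e => by
    rw [← sub_eq_zero, ← map_sub, pr_congr (g := 0) fun x hx => h x (by_contra fun hx' => hx (by
      rw [Finsupp.sub_apply, e x hx', sub_self]))]
    simp

theorem lc_zero (u : Pt → ℝ) (z : Pt) : lc u z 0 = 0 := by
  funext y; simp [lc, Xi.chi, cut, cut1]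

theorem lc_in {u : Pt → ℝ} {z : Pt} {β : ℝ} {n : ℕ} (h0 : 0 < β) (hn : (n : ℝ) ≤ β) {y : Pt}
    (hy : y ∈ bl z n) : lc u z β y = u y := by
  rw [lc, chi_one h0 hn (Ha91.add_mem_bl.1 (by rwa [add_sub_cancel])), mul_one]

theorem lc_out {u : Pt → ℝ} {z : Pt} {β : ℝ} {n : ℕ} (h0 : 0 ≤ β) (hn : 2 * β ≤ n + 1) {y : Pt}
    (hy : y ∉ bl z n) : lc u z β y = 0 := by
  rcases h0.eq_or_lt with rfl | h0
  · rw [lc_zero]; rfl
  · rw [lc, sup_chi h0 hn _ fun h => hy (by simpa using (Ha91.add_mem_bl (z := z)).2 h), mul_zero]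

theorem dif_lc : ∃ C : ℝ, 0 ≤ C ∧ ∀ (u : Pt → ℝ) (z : Pt) (r : ℕ) (σ β : ℝ), 0 ≤ σ → Qs u z r σ →
    (β = 0 ∨ 1 ≤ β) → 2 * β + 1 ≤ r → ∀ e ∈ nn, ∀ y, |dif e (lc u z β) y| ≤ C * σ * β / (r : ℝ) ^ 2 := by
  obtain ⟨C, h0, hC⟩ := sm_chi 1
  refine ⟨7 + 36 * C, by positivity, fun u z r σ β hσ hu hβ hr e he y => ?_⟩
  rcases hβ with rfl | hβ
  · simp [lc_zero, dif]
  have hβ0 : 0 < β := by linarith
  have hn := Nat.floor_le (show 0 ≤ 2 * β by linarith)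
  have hn' := (Nat.lt_floor_add_one (2 * β)).le
  by_cases hy : y ∈ bl z (⌊2 * β⌋₊ + 1)
  · obtain ⟨h1, h2⟩ := hu y (bl_mono z (by exact_mod_cast (by push_cast; linarith :
      ((⌊2 * β⌋₊ + 1 : ℕ) : ℝ) ≤ r)) hy)
    have h3 := eu_le_of_bl hy
    have h4 := eu_nonneg (y - z)
    push_cast at h3
    have h5 := (hC β hβ0).one le_rfl he (z := y - z) trivial
    have h6 : |dif e u y| ≤ σ * (7 * β) / (r : ℝ) ^ 2 := (h2 e he).trans (by gcongr; linarith)
    have h7 : |u y| ≤ σ * (6 * β) ^ 2 / (r : ℝ) ^ 2 := h1.trans (by gcongr; linarith)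
    rw [show dif e (lc u z β) y = dif e u y * Xi.chi β (y - z + e) + u y * dif e (Xi.chi β) (y - z) by
      simp only [dif, lc, add_sub_right_comm]; ring]
    refine (abs_add_le _ _).trans ?_
    rw [abs_mul, abs_mul]
    refine (add_le_add (mul_le_mul h6 (abs_chi_le _ _) (abs_nonneg _) (by positivity))
      (mul_le_mul h7 h5 (abs_nonneg _) (by positivity))).trans_eq ?_
    field_simp
    ring
  · rw [dif, lc_out hβ0.le hn' (mem_bl_one_of hy (Ha91.nn_bl he y)),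
      lc_out hβ0.le hn' (mem_bl_one_of hy (self_mem_bl _ _)), sub_self, abs_zero]
    positivity

/-- the flow of one piece -/
theorem fl_lc : ∃ C : ℝ, 0 ≤ C ∧ ∀ (Λ : Lat) (u : Pt → ℝ) (z : Pt) (r : ℕ) (σ β β' t x : ℝ), Λ.Ok → 0 ≤ σ →
    Qs u z r σ → (β = 0 ∨ 1 ≤ β) → β ≤ β' → 1 ≤ β' → 2 * β' + 1 ≤ r → C * |t| * σ * (β' / r) ^ 2 ≤ x →
    F2 (Λ.edI (bl z (⌊2 * β'⌋₊ + 1))) (A0 (t • (lc u z β' - lc u z β))) (x ^ 2) ∧
    ∀ b : ℕ, (∀ y ∈ bl z (b + 1), lc u z β' y = lc u z β y) →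
      F2 (Λ.edI (bl z (⌊2 * β'⌋₊ + 1) \ bl z b)) (A0 (t • (lc u z β' - lc u z β))) (x ^ 2) := by
  obtain ⟨C, h0, hC⟩ := dif_lc
  refine ⟨20 * C, by positivity, fun Λ u z r σ β β' t x hΛ hσ hu hβ hββ hβ' hr hx => ?_⟩
  have hn := Nat.floor_le (show 0 ≤ 2 * β' by linarith)
  have hn' := (Nat.lt_floor_add_one (2 * β')).le
  have hβ0 : 0 ≤ β := hβ.elim (fun h => h.ge) fun h => by linarith
  have hout : ∀ y, y ∉ bl z ⌊2 * β'⌋₊ → (t • (lc u z β' - lc u z β)) y = 0 := fun y hy => by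
    simp [lc_out (by linarith) hn' hy, lc_out hβ0 (by linarith) hy]
  have hK : ∀ e ∈ nn, ∀ y, |dif e (t • (lc u z β' - lc u z β)) y| ≤
      |t| * (2 * (C * σ * β' / (r : ℝ) ^ 2)) := fun e he y => by
    rw [show dif e (t • (lc u z β' - lc u z β)) y =
      t * (dif e (lc u z β') y - dif e (lc u z β) y) by simp [dif]; ring, abs_mul]
    refine mul_le_mul_of_nonneg_left ((abs_sub _ _).trans ?_) (abs_nonneg _)
    have h1 := hC u z r σ β' hσ hu (Or.inr hβ') hr e he y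
    have h2 := (hC u z r σ β hσ hu hβ (by linarith) e he y).trans
      (show _ ≤ C * σ * β' / (r : ℝ) ^ 2 by gcongr)
    linarith
  have hle : 2 * (2 * (⌊2 * β'⌋₊ : ℝ) + 3) ^ 2 * (|t| * (2 * (C * σ * β' / (r : ℝ) ^ 2))) ^ 2 ≤ x ^ 2 := by
    refine le_trans ?_ (pow_le_pow_left₀ (by positivity) hx 2)
    have h1 : 2 * (2 * (⌊2 * β'⌋₊ : ℝ) + 3) ^ 2 ≤ (10 * β') ^ 2 := by
      have : (2 * (⌊2 * β'⌋₊ : ℝ) + 3) ^ 2 ≤ (7 * β') ^ 2 :=
        pow_le_pow_left₀ (by positivity) (by linarith) 2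
      nlinarith
    refine (mul_le_mul_of_nonneg_right h1 (sq_nonneg _)).trans_eq ?_
    rw [← mul_pow]; congr 1; ring
  exact ⟨RJ57.f2_mono (f2_A0_bl hΛ hout fun e he y _ => hK e he y) hle, fun b hb =>
    RJ57.f2_mono (f2_A0_an (c' := 0) hΛ (fun y hy => by simp [hb y hy]) hout
      fun e he y _ => hK e he y) hle⟩

end Crest.Agent.T145.F94
end
end

-- ▼ part T145/FlLoc_94

/-!
# Row 145 (helper94): `Fl.locStmt`
-/

set_option autoImplicit false

noncomputable section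

namespace Crest.Agent.T145.F94

open Finset Pot Xi Fl Real

variable {Λ : Lat} {m : Mdl Pt} {z : Pt}

theorem cw_pos {w : ℕ} (hw : 1 ≤ w) : 0 < cw w ∧ cw w ≤ 1 := by
  have h1 : (1 : ℝ) ≤ (w : ℝ) ^ 4 := one_le_pow₀ (by exact_mod_cast hw)
  have h2 := log_pos (show (1 : ℝ) < 2 by norm_num)
  have h3 := log_le_log (show (0 : ℝ) < 2 by norm_num) (show 2 ≤ 4 * (w : ℝ) ^ 4 by linarith)
  exact ⟨div_pos h2 (by linarith), div_le_one_of_le₀ h3 (by linarith)⟩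

theorem gs_ok {p : Par} {L : ℕ} (h : Gs p Λ L) : Λ.Ok := ⟨h.mem.1 ▸ p.F.adm, p.F.pos.trans_le h.mem.2.2.1⟩

theorem gs_gam {p : Par} {L r : ℕ} (h : Gs p Λ L) (h0 : p.r₀ ≤ r) (h1 : r ≤ L) :
    r + 2 * Λ.rg ≤ p.w * r ∧ Nc.gam Λ r (p.w * r) ≤ 2 :=
  ⟨by have := h.gd.2.1; have := Nat.mul_le_mul_right r h.gd.1; omega,
    (h.gd.2.2 r h0 h1).trans (by norm_num)⟩

/-- the flowed far insertions form an outside factor -/
theorem dm_far {p : Par} {L r : ℕ} (h : Gs p Λ L) {U : Finset Pt} {ι : Type} {I : Finset ι} {x : ι → Pt}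
    {rr : ι → ℕ} {H : ι → Cfg Pt → ℝ} (hm : Nc.Amb Λ m U) (hF : Far p L U I x rr H) (h0 : p.r₀ ≤ r)
    (hL : p.w * r ≤ L) (hU : bl z (p.w * r) ⊆ U)
    (hd : ∀ i ∈ I, Disjoint (bl (x i) (p.w * rr i)) (bl z (p.w * r))) :
    (∀ i ∈ I, FlF4.Ir Λ (x i) (rr i) (rr i) (p.w * rr i) (H i)) ∧
    Dm Λ m z r (p.w * r) (fun s => ∏ i ∈ I, Nc.St Λ (x i) (rr i) (H i) s)
      (32 * ∏ i ∈ I, nu Λ p.w (x i) (rr i) (H i)) := by
  have hΛ := gs_ok h
  have hw : ∀ t, t ≤ p.w * t := fun t => Nat.le_mul_of_pos_left _ (by have := h.w4; omega)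
  have g : ∀ i ∈ I, _ := fun i hi => gs_gam h (hF.big i hi).1 ((hw _).trans (hF.big i hi).2)
  have g0 := gs_gam h h0 ((hw _).trans hL)
  have ir : ∀ i ∈ I, FlF4.Ir Λ (x i) (rr i) (rr i) (p.w * rr i) (H i) := fun i hi =>
    ⟨le_rfl, (g i hi).1, (hF.ins i hi).1.mono (bl_mono _ (by omega)),
      FlF4.In_tame hΛ _ _ (hF.ins i hi).2⟩
  refine ⟨ir, Out.prod fun i hi => ((ir i hi).St hΛ).dep.dep.out ((hd i hi).mono
    (bl_mono _ (by have := (g i hi).1; omega)) (bl_mono _ (hw r))), fun Y hY hI => ?_⟩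
  have key := (FlF4.ld1 Λ hΛ).1 (Option ι) m (insertNone I) (fun o => o.elim z x) (fun o => o.elim r rr)
    (fun o => o.elim (p.w * r) fun i => p.w * rr i)
    (fun o => o.elim Y fun i => Nc.St Λ (x i) (rr i) (H i)) (fun i hi j hj hij => by
      rcases i with _ | i <;> rcases j with _ | j
      · exact absurd rfl hij
      · exact (hd j (some_mem_insertNone.1 hj)).symm
      · exact hd i (some_mem_insertNone.1 hi)
      · exact hF.dis i (some_mem_insertNone.1 hi) j (some_mem_insertNone.1 hj) fun e => hij (by rw [e]))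
    hm.ctr hm.anch fun i hi => by
      rcases i with _ | i
      · exact ⟨FlF4.amb_mono hm hU, g0.1, hY.mono (bl_mono _ (Nat.le_add_right _ _)), hI⟩
      · have hi := some_mem_insertNone.1 hi
        exact ⟨FlF4.amb_mono hm (hF.sub i hi), (g i hi).1, ((ir i hi).St hΛ).dep, ((ir i hi).St hΛ).ig⟩
  simp only [prod_insertNone, Option.elim] at key
  refine ⟨key.1, key.2.trans ?_⟩
  have h1 : ∏ i ∈ I, Nc.gam Λ (rr i) (p.w * rr i) *
      Nc.Nm Λ (x i) (p.w * rr i) (Nc.St Λ (x i) (rr i) (H i)) ≤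
        16 * ∏ i ∈ I, nu Λ p.w (x i) (rr i) (H i) := by
    refine (prod_le_prod (g := fun i => 2 * nu Λ p.w (x i) (rr i) (H i)) (fun i hi => mul_nonneg
      (zero_le_one.trans (FlF4.one_le_gam hΛ (g i hi).1)) (Nc.L37.Nm_nonneg hΛ _ _ _)) fun i hi =>
        mul_le_mul_of_nonneg_right (g i hi).2 (Nc.L37.Nm_nonneg hΛ _ _ _)).trans ?_
    rw [prod_mul_distrib, prod_const]
    exact mul_le_mul_of_nonneg_right ((pow_le_pow_right₀ one_le_two hF.card).trans (by norm_num))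
      (prod_nonneg fun i _ => Nc.L37.Nm_nonneg hΛ _ _ _)
  have h2 := Nc.L37.Nm_nonneg hΛ z (p.w * r) Y
  exact (mul_le_mul (mul_le_mul_of_nonneg_right g0.2 h2) h1 (prod_nonneg fun i hi => mul_nonneg
    (zero_le_one.trans (FlF4.one_le_gam hΛ (g i hi).1)) (Nc.L37.Nm_nonneg hΛ _ _ _))
    (by positivity)).trans_eq (by ring)

/-- one term of the final sum -/
theorem term {κ P a r s t : ℝ} (hκ : 0 < κ) (hP : 0 ≤ P) (hs : 0 < s) (hr : 0 < r) (h1 : s * r ≤ a)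
    (h2 : a ≤ r) (h3 : s ≤ t) (h4 : t ≤ 1) :
    P * max (a / r) (r / a) ^ (κ / 100) / a ^ 2 * s ^ 2 * s ^ κ ≤ P * t ^ (κ / 4) / r ^ 2 * s ^ (κ / 4) := by
  have ha : 0 < a := (mul_pos hs hr).trans_le h1
  have ht : 0 < t := hs.trans_le h3
  have e1 : max (a / r) (r / a) ≤ s⁻¹ := max_le
    ((div_le_one_of_le₀ h2 hr.le).trans (one_le_inv₀ hs |>.2 (h3.trans h4)))
    (by rw [div_le_iff₀ ha, inv_mul_eq_div, le_div_iff₀ hs]; linarith)
  have e2 : max (a / r) (r / a) ^ (κ / 100) * s ^ κ ≤ t ^ (κ / 4) * s ^ (κ / 4) := by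
    calc _ ≤ s⁻¹ ^ (κ / 100) * s ^ κ := by gcongr
      _ = s ^ (κ - κ / 100) := by rw [inv_rpow hs.le, rpow_sub hs]; ring
      _ ≤ s ^ (κ / 4 + κ / 4) := rpow_le_rpow_of_exponent_ge hs (h3.trans h4) (by linarith)
      _ ≤ _ := by rw [rpow_add hs]; gcongr
  have e3 : s ^ 2 / a ^ 2 ≤ 1 / r ^ 2 := by
    rw [div_le_div_iff₀ (by positivity) (by positivity), ← mul_pow, one_mul]; gcongr
  calc _ = P * (max (a / r) (r / a) ^ (κ / 100) * s ^ κ * (s ^ 2 / a ^ 2)) := by ring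
    _ ≤ P * (t ^ (κ / 4) * s ^ (κ / 4) * (1 / r ^ 2)) := by gcongr
    _ = _ := by ring

end Crest.Agent.T145.F94

namespace Crest.Agent.T145.Fl

open Finset Pot Xi Real F94

set_option maxHeartbeats 1000000 in
theorem locStmt (hR : RateStmt) : LocStmt := by
  intro p
  obtain ⟨R, hR0, hR⟩ := hR p.w
  obtain ⟨X₀, hX₀, hfl⟩ := fl_lc
  set Q : ℝ := 8 * (p.w : ℝ) ^ 2 with hQ
  set κ := cw p.w with hκdef
  set X := X₀ * |2 * π| * Q ^ 4 with hX
  set β₄ := FlF4.cB p.F.τ₂ 4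
  set B := 2 * Q * X + 8 * Q ^ 3 * R + 2 * Q ^ 2 * R * X with hB
  have hX0 : 0 ≤ X := by positivity
  have hB0 : 0 ≤ B := by positivity
  refine ⟨32 * (16 * β₄ ^ 2 * X * B) * (1 + |1 / (Q ^ (κ / 4) - 1)|), by positivity,
    fun Λ L h m U ι I x rr H z r a₀ ρ σ P P₀ φ F ξ u hm hF hξ0 hL hU hd h0 hI hP hPr hP₀ halt hσ hu hξ
      hρ1 hρ2 => ?_⟩
  have hΛ := gs_ok h
  have w4 := h.w4
  have hrg := h.gd.2.1
  have rg1 := hΛ.one_le_rg
  obtain ⟨hκ, hκ1⟩ := cw_pos (show 1 ≤ p.w by omega)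
  have hw : ∀ t, t ≤ p.w * t := fun t => Nat.le_mul_of_pos_left _ (by omega)
  have hQ2 : 2 ≤ Q := by
    have : (4 : ℝ) ≤ p.w := by exact_mod_cast w4
    rw [hQ]; nlinarith
  obtain ⟨J, K, a, β, s₀, hJ, hJK, a0, aK, am, β0, βJ, hs₀, hs₁, glo, gK, gtwo, ghi, r8, r2⟩ :=
    grid (show 2 ≤ p.w by omega) (show 1 ≤ a₀ by omega) hρ1 hρ2
  rw [← hQ] at glo ghi
  have ar : ∀ j ≤ K + 1, a j ≤ r := fun j hj => aK ▸ am hj
  have al : ∀ j, a₀ ≤ a j := fun j => a0 ▸ am (Nat.zero_le j)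
  have hr : (0 : ℝ) < r := by exact_mod_cast (by have := ar 0 (by omega); omega : 0 < r)
  have hs : ∀ j, 0 < s₀ * Q ^ j := fun j => by positivity
  have aβ : ∀ j, 1 ≤ j → j ≤ K → (a j : ℝ) + 1 ≤ β j := fun j h1 h2 => by
    rcases h2.eq_or_lt with rfl | h2
    · exact gK
    · refine le_trans ?_ (glo j h1 h2).2
      exact_mod_cast Nat.succ_le_succ ((hw _).trans (hw _))
  have β1 : ∀ j, 1 ≤ j → j ≤ K → 1 ≤ β j := fun j h1 h2 => by
    linarith [aβ j h1 h2, (Nat.cast_nonneg (a j) : (0 : ℝ) ≤ _)]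
  have β01 : ∀ j ≤ K, β j = 0 ∨ 1 ≤ β j := fun j hj =>
    (Nat.eq_zero_or_pos j).imp (fun e => by rw [e, β0]) fun h1 => β1 j h1 hj
  have βm : ∀ j < K, β j ≤ β (j + 1) := fun j hj => by
    rcases Nat.eq_zero_or_pos j with rfl | h1
    · linarith [β1 1 le_rfl hj]
    · linarith [gtwo j h1 hj.le, aβ (j + 1) (by omega) hj, β1 j h1 hj.le]
  have βr : ∀ j, 1 ≤ j → j ≤ K → 2 * β j + 1 ≤ r := fun j h1 h2 =>
    (gtwo j h1 h2).trans (by exact_mod_cast ar _ (by omega))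
  have sa : ∀ j < K, s₀ * Q ^ j * r ≤ a j := fun j hj => by
    rcases Nat.eq_zero_or_pos j with rfl | h1
    · simpa [a0] using hs₁
    · exact (glo j h1 hj).1.ge
  have s1 : ∀ j < K, s₀ * Q ^ j ≤ 1 := fun j hj => by
    have : (a j : ℝ) ≤ r := by exact_mod_cast ar j (by omega)
    exact le_of_mul_le_mul_right (by linarith [sa j hj]) hr
  obtain ⟨j₀, j1, hj0, hj1⟩ : ∃ j₀ ≤ 1, (0 < j₀ → ∀ c, a₀ ≤ c → Nc.Nm Λ z c (fun s => F s ^ 2) ≤ P₀ ^ 2) ∧
      (j₀ ≤ 0 → ∀ y ∈ bl z (p.w * (p.w * a₀) + 1), u y = 0) := halt.elim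
    (fun k => ⟨1, le_rfl, fun _ => k, fun e => absurd e (by omega)⟩)
    fun k => ⟨0, by omega, fun e => absurd e (by omega), fun _ y hy => k y (bl_mono z (by
      have := hw (p.w * a₀); have := hw a₀
      rw [show 16 * p.w ^ 2 * a₀ = 16 * (p.w * (p.w * a₀)) by ring]; omega) hy)⟩
  have hfl' := fun j (hj : j < K) => hfl Λ u z r σ (β j) (β (j + 1)) (2 * π) (X * σ * (s₀ * Q ^ j) ^ 2)
    hΛ hσ hu (β01 j hj.le) (βm j hj) (β1 _ (by omega) hj) (βr _ (by omega) hj) (by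
      have h1 : β (j + 1) / r ≤ Q ^ 2 * (s₀ * Q ^ j) := by rw [div_le_iff₀ hr]; exact ghi j hj
      have h2 : 0 ≤ β (j + 1) / r := div_nonneg (by linarith [β1 (j + 1) (by omega) hj]) hr.le
      calc _ ≤ X₀ * |2 * π| * σ * (Q ^ 2 * (s₀ * Q ^ j)) ^ 2 := by gcongr
        _ = _ := by rw [hX]; ring)
  have lev : Lev Λ z p.w a j₀ K (fun j => if j < j₀ then bl z (⌊2 * β (j + 1)⌋₊ + 1)
      else bl z (⌊2 * β (j + 1)⌋₊ + 1) \ bl z (p.w * (p.w * a j)))
      (fun j => A0 ((2 * π) • (lc u z (β (j + 1)) - lc u z (β j)))) fun j => X * σ * (s₀ * Q ^ j) ^ 2 :=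
    have two : ∀ j, 1 ≤ j → j < K → 2 * (p.w * (p.w * a j) + 1) + 1 ≤ a (j + 1) := fun j h1 h2 => by
      have h3 := (glo j h1 h2).2
      have h4 := gtwo j h1 h2.le
      exact_mod_cast (by push_cast at h3 ⊢; linarith :
        ((2 * (p.w * (p.w * a j) + 1) + 1 : ℕ) : ℝ) ≤ a (j + 1))
    { j1 := j1
      w2 := by omega
      rg := by omega
      mono := am
      ba := fun j hj => by
        have h1 := two (max j 1) (le_max_right _ _) (by omega)
        have h2 := am (show max j 1 + 1 ≤ j + 2 by omega)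
        have h3 := Nat.mul_le_mul_left p.w (Nat.mul_le_mul_left p.w (am (le_max_left j 1)))
        have h4 := (al j).trans ((hw _).trans (hw _))
        omega
      top := by have := al K; omega
      g1 := fun j hj => (gs_gam h (h0.trans (al j)) ((ar j (by omega)).trans ((hw r).trans hL))).2
      g2 := fun j hj => (gs_gam h (h0.trans ((al j).trans (hw _)))
        ((Nat.mul_le_mul_left _ (ar j (by omega))).trans hL)).2
      sub := fun j hj => by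
        have h1 : ⌊2 * β (j + 1)⌋₊ + 1 ≤ a (j + 2) := by
          have := Nat.floor_le (show 0 ≤ 2 * β (j + 1) by linarith [β1 (j + 1) (by omega) hj])
          exact_mod_cast (by push_cast; linarith [gtwo (j + 1) (by omega) hj] :
            ((⌊2 * β (j + 1)⌋₊ + 1 : ℕ) : ℝ) ≤ a (j + 2))
        split_ifs
        exacts [bl_mono z h1, sdiff_subset.trans (bl_mono z h1)]
      disj := fun j h1 _ => by rw [if_neg (by omega)]; exact disjoint_sdiff
      x0 := fun j => by positivity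
      fl := fun j hj => by
        split_ifs with h1
        · exact (hfl' j hj).1
        refine (hfl' j hj).2 _ fun y hy => ?_
        rcases Nat.eq_zero_or_pos j with rfl | h2
        · rw [β0, lc_zero, lc, hj1 (by omega) y (a0 ▸ hy), zero_mul]; rfl
        · have h3 := (glo j h2 hj).2
          have h4 := β1 j h2 hj.le
          have h5 := βm j hj
          rw [lc_in (by linarith) h3 hy, lc_in (by linarith) (h3.trans h5) hy] }
  obtain ⟨ir, hD⟩ := dm_far (z := z) h hm hF (h0.trans ((al 0).trans (ar 0 (by omega)))) hL hU hd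
  have hν : 0 ≤ ∏ i ∈ I, nu Λ p.w (x i) (rr i) (H i) := prod_nonneg fun i _ => Nc.L37.Nm_nonneg hΛ _ _ _
  have hmz : ∀ j ≤ K + 1, Nc.Amb Λ m (bl z (p.w * a j)) := fun j hj =>
    FlF4.amb_mono hm ((bl_mono z (Nat.mul_le_mul_left _ (ar j hj))).trans hU)
  have hmr : Nc.Amb Λ m (bl z r) := FlF4.amb_mono hm ((bl_mono z (hw r)).trans hU)
  have hθ : ∀ j s, cp (ξ - A0 (lc u z (β j))) φ s =
      cos (2 * π * pr (ξ - A0 (lc u z (β j))) s + φ) := fun _ _ => rfl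
  have eθ : ∀ j s, 2 * π * pr (ξ - A0 (lc u z (β j))) s + φ =
      2 * π * pr (ξ - A0 (lc u z (β (j + 1)))) s + φ +
        pr (A0 ((2 * π) • (lc u z (β (j + 1)) - lc u z (β j)))) s := fun j s => by
    simp only [A0_smul, A0_sub, pr_smul, pr_sub, AddMonoidHom.sub_apply, AddMonoidHom.smul_apply,
      smul_eq_mul]
    ring
  have key := lev.loc hΛ hJK hD (by positivity) hmr aK.le (hw r)
    (Nat.mul_le_mul_left _ (ar K (by omega)))
    (θ := fun j s => 2 * π * pr (ξ - A0 (lc u z (β j))) s + φ) (fun j _ => eθ j)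
    (fun j h1 h2 => (out_pr fun y hy => by
      have e1 : ξ y = A0 u y := hξ y (bl_mono z (by have := am h2; have := al K; omega) hy)
      rw [Pi.sub_apply, e1, sub_eq_zero]
      refine A0_congr fun v hv => ?_
      have hv' : v ∈ bl z (a j + 1) := bl_subset_bl hy (by omega) hv
      rcases Nat.eq_zero_or_pos j with rfl | h3
      · rw [β0, lc_zero, hj1 h1 v (bl_mono z (by have := hw (p.w * a₀); have := hw a₀; omega) hv')]; rfl
      · exact (lc_in (by linarith [β1 j h3 h2]) (by exact_mod_cast aβ j h3 h2) hv').symm).comp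
        fun t => 2 * π * t + φ) hI.2 (a0 ▸ hI.1)
    (n := fun j => if j < j₀ then P₀ else P * max ((a j : ℝ) / r) (r / a j) ^ (κ / 100) / (a j : ℝ) ^ 2)
    (fun j => by split_ifs <;> positivity)
    (fun h1 c hc => by rw [if_pos h1]; exact hj0 h1 c (a0 ▸ hc))
    (fun j h1 h2 => by
      have h3 : (0 : ℝ) < a j := by exact_mod_cast (by have := al j; omega : 0 < a j)
      rw [if_neg (by omega), le_div_iff₀ (by positivity), mul_comm]
      exact hPr (a j) (al j) ((Nat.mul_le_mul_left _ (ar j (by omega))).trans hL))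
    (μ := Ex (m.W 0)) (ϱ := fun i k => R * ((a i : ℝ) / a k) ^ κ) (fun i k => by positivity)
    fun i hi G hT hG => by
      have g := gs_gam h (h0.trans (al i)) ((ar i (by omega)).trans ((hw r).trans hL))
      have h1 := FlF4.fus0 hΛ subset_rfl ⟨le_rfl, g.1, hG.mono (bl_mono z (by omega)),
        FlF4.In_tame hΛ z _ hT⟩ (hmz i (by omega)) ((bl_mono z (hw _)).trans (hmz i (by omega)).sub)
      rw [FlF4.nc_self hm.ctr hm.anch] at h1
      exact ⟨h1.2.trans (mul_le_mul_of_nonneg_right g.2 (FlF4.nu_nonneg hΛ _ _ _ _)), fun k h2 h3 =>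
        hR p Λ L rfl h m z (a i) (a k) G (h0.trans (al i)) (am h2)
          ((Nat.mul_le_mul_left _ (ar k (by omega))).trans hL) (hmz k (by omega)) ⟨hG, hT⟩⟩
  have hC := hm.ctr.cen hm.anch
  have eμ : ∑ j ∈ range J, Ex (m.W 0) (fun t => F t *
      pr (A0 ((2 * π) • (lc u z (β (j + 1)) - lc u z (β j)))) t) =
        2 * π * Ex (m.W 0) fun s => F s * pr (A0 (lc u z ρ)) s := by
    rw [← Ex_sum _ fun j _ => hC.ig (hI.2.mul (Tame.hom _)), ← Ex_const_mul]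
    refine Ex_congr fun s _ => ?_
    simp only [A0_smul, A0_sub, pr_smul, pr_sub, AddMonoidHom.sub_apply, AddMonoidHom.smul_apply,
      smul_eq_mul, ← mul_sum]
    rw [sum_range_sub fun j => pr (A0 (lc u z (β j))) s, β0, βJ, lc_zero,
      show A0 0 = 0 from A0_const 0, pr_zero, AddMonoidHom.zero_apply]
    ring
  simp only [eμ, β0, βJ, lc_zero, show A0 0 = 0 from A0_const 0, sub_zero] at key
  set M := 2 * π * Ex (m.W 0) fun s => F s * pr (A0 (lc u z ρ)) s with hM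
  have tH : Tame fun s => ∏ i ∈ I, H i s := Tame.prod I fun i hi => (hF.ins i hi).2
  have t1 := hI.2.mul (Tame.cos fun s => 2 * π * pr ξ s + φ)
  have t2 := hI.2.mul (Tame.cos fun s => 2 * π * pr (ξ - A0 (lc u z ρ)) s + φ)
  have t3 := (Tame.sin fun s => 2 * π * pr ξ s + φ).const_mul M
  have rep := FlF4.repl_St I hΛ hm.ctr hm.anch subset_rfl hF.dis (fun i hi => ⟨ir i hi,
    FlF4.amb_mono hm ((bl_mono _ (hw _)).trans (hF.sub i hi)),
    (bl_mono _ (hw _)).trans ((hF.sub i hi).trans hm.sub), by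
      have d1 : Disjoint (bl z r) (bl (x i) (rr i)) :=
        (hd i hi).symm.mono (bl_mono _ (hw _)) (bl_mono _ (hw _))
      have o1 : Out (bl (x i) (rr i)) F :=
        hI.1.dep.out (d1.mono_left (bl_mono z ((al 0).trans (ar 0 (Nat.zero_le _)))))
      have o2 := out_pr (hξ0 i hi)
      have o3 : Out (bl (x i) (rr i)) fun s => pr (ξ - A0 (lc u z ρ)) s := out_pr fun y hy => by
        have h1 := βr J hJ (by omega)
        have h2 := β1 J hJ (by omega)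
        have h3 : 0 < r := by exact_mod_cast hr
        rw [βJ] at h1 h2
        rw [Pi.sub_apply, hξ0 i hi y hy, sup_A0 (c := z) (n := r - 1) (fun v hv => lc_out (by linarith)
          (by rw [Nat.cast_pred h3]; linarith) hv) y fun k =>
            disjoint_left.1 d1 (bl_mono z (Nat.sub_add_cancel h3).le k) hy, sub_self]
      exact ((o1.comp₂ o2 fun a b => a * cos (2 * π * b + φ)).comp₂
        (o1.comp₂ o3 fun a b => a * cos (2 * π * b + φ)) (· - ·)).comp₂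
        (o2.comp fun b => M * sin (2 * π * b + φ)) (· + ·)⟩) (hC.ig (((t1.sub t2).add t3).mul tH))
  have fin := (FlF4.abs_ex_le_nc hm.ctr hm.anch hmr.sub key.1).trans key.2
  rw [← FlF4.nc_self hm.ctr hm.anch, ← rep.2, FlF4.nc_self hm.ctr hm.anch] at fin
  refine le_trans (le_of_eq ?_) (fin.trans ?_)
  · simp only [add_mul, sub_mul]
    rw [Ex_add (hC.ig ((t1.mul tH).sub (t2.mul tH))) (hC.ig (t3.mul tH)),
      Ex_sub (hC.ig (t1.mul tH)) (hC.ig (t2.mul tH)), sub_eq_add_neg _ (M * _), ← mul_neg, ← Ex_neg,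
      ← Ex_const_mul]
    congr 2
    · congr 1 <;> exact Ex_congr fun s _ => by simp only [cp]; ring
    · exact Ex_congr fun s _ => by simp only [cp, ← add_assoc, cos_add_pi_div_two]; ring
  -- the sum
  have hβ : FlF4.cB Λ.τ 4 ^ 2 ≤ β₄ ^ 2 :=
    pow_le_pow_left₀ (FlF4.cB_pos _ _).le (FlF4.cB_mono h.mem.2.2.2 le_rfl) 2
  have hρr : ρ / r ≤ 1 := by rw [div_le_one hr]; linarith [βr J hJ (by omega), β1 J hJ (by omega)]
  have hρ0 : 0 ≤ ρ := by linarith [β1 J hJ (by omega)]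
  set A := P * (ρ / r) ^ (κ / 4) / (r : ℝ) ^ 2 with hA
  set A' := P₀ * ((a₀ : ℝ) / r) ^ (2 + κ / 2) with hA'
  have hA0 : 0 ≤ A := by positivity
  have hA0' : 0 ≤ A' := by positivity
  refine (mul_le_mul_of_nonneg_left (sum_le_sum (g := fun j => 16 * β₄ ^ 2 * X * B * (σ * (1 + σ)) *
    (A * (s₀ * Q ^ j) ^ (κ / 4) + if j = 0 then A' else 0)) fun j hj => ?_) (by positivity)).trans ?_
  · have hj := mem_range.1 hj
    have br := bracket (X := X * σ) (R := R) (j := j) hQ2 hs₀ hκ1 (by positivity) hR0 (by omega) s1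
      (ϱ := fun k => R * ((a (j + 2) : ℝ) / a k) ^ κ) (by
        refine mul_le_mul_of_nonneg_left (rpow_le_rpow (by positivity) ?_ hκ.le) hR0
        have h1 : (r : ℝ) ≤ 8 * a K := by exact_mod_cast r8
        have h2 := ghi (j + 1) (by omega)
        have h3 := aβ (j + 2) (by omega) (by omega)
        rw [div_le_iff₀ (by linarith)]
        have h4 := mul_le_mul_of_nonneg_left h1 (show 0 ≤ Q ^ 3 * (s₀ * Q ^ j) by positivity)
        rw [pow_succ Q j] at h2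
        linarith)
      fun i h1 h2 => by
        rw [(glo (j + 2) (by omega) (by omega)).1, (glo i (by omega) h2).1, mul_div_mul_right _ _ hr.ne']
    have br' : 2 * Q * (X * σ) + 8 * Q ^ 3 * R + 2 * Q ^ 2 * R * (X * σ) ≤ B * (1 + σ) := by
      have : 0 ≤ 2 * Q * X + 8 * Q ^ 3 * R * σ + 2 * Q ^ 2 * R * X := by positivity
      rw [hB]; linarith
    have tm : (if j < j₀ then P₀ else P * max ((a j : ℝ) / r) (r / a j) ^ (κ / 100) / (a j : ℝ) ^ 2) *
        (s₀ * Q ^ j) ^ 2 * (s₀ * Q ^ j) ^ κ ≤ A * (s₀ * Q ^ j) ^ (κ / 4) + if j = 0 then A' else 0 := by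
      by_cases h1 : j < j₀
      · obtain rfl : j = 0 := by omega
        rw [if_pos h1, if_pos rfl, mul_assoc, ← rpow_natCast, ← rpow_add (hs 0)]
        refine le_add_of_nonneg_of_le (by positivity) (mul_le_mul_of_nonneg_left ?_ hP₀)
        refine (rpow_le_rpow_of_exponent_ge (hs 0) (s1 0 (by omega))
          (show 2 + κ / 2 ≤ _ by push_cast; linarith)).trans (rpow_le_rpow (hs 0).le ?_ (by positivity))
        rw [le_div_iff₀ hr]; simpa using hs₁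
      · rw [if_neg h1]
        refine le_add_of_le_of_nonneg (term hκ hP (hs j) hr (sa j (by omega))
          (by exact_mod_cast ar j (by omega)) ?_ hρr) (by split_ifs <;> positivity)
        have h2 : (a j : ℝ) ≤ a J := by exact_mod_cast am hj.le
        rw [le_div_iff₀ hr]
        linarith [sa j (by omega), aβ J hJ (by omega)]
    set n := if j < j₀ then P₀ else P * max ((a j : ℝ) / r) (r / a j) ^ (κ / 100) / (a j : ℝ) ^ 2
    have hn : 0 ≤ n := by simp only [n]; split_ifs <;> positivity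
    calc _ ≤ 16 * β₄ ^ 2 * (n * (X * σ * (s₀ * Q ^ j) ^ 2)) * (B * (1 + σ) * (s₀ * Q ^ j) ^ κ) :=
          mul_le_mul (by gcongr) (br.trans (mul_le_mul_of_nonneg_right br' (by positivity)))
            (by positivity) (by positivity)
      _ = 16 * β₄ ^ 2 * X * B * (σ * (1 + σ)) * (n * (s₀ * Q ^ j) ^ 2 * (s₀ * Q ^ j) ^ κ) := by ring
      _ ≤ _ := mul_le_mul_of_nonneg_left tm (by positivity)
  · rw [← mul_sum, sum_add_distrib, ← mul_sum, sum_ite_eq', if_pos (mem_range.2 (by omega))]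
    have h1 := (geo_rpow (show 1 < Q by linarith) hs₀ (show 0 < κ / 4 by positivity)
      (s1 J (by omega))).trans (le_abs_self _)
    set c := |1 / (Q ^ (κ / 4) - 1)|
    have hc : 0 ≤ c := abs_nonneg _
    have h2 : A * ∑ j ∈ range J, (s₀ * Q ^ j) ^ (κ / 4) + A' ≤ (1 + c) * (A + A') := by
      nlinarith [mul_le_mul_of_nonneg_left h1 hA0, mul_nonneg hc hA0']
    refine (mul_le_mul_of_nonneg_left (mul_le_mul_of_nonneg_left h2 (by positivity))
      (by positivity)).trans_eq ?_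
    ring

end Crest.Agent.T145.Fl
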