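import Crest.Agent.T145.KtH_54

-- ▼ part T145/KtI_54
section

/-!
# Row 145 (helper54): the discrete Kosterlitz-Thouless flow, part I (tools for the family theorem)
-/

set_option autoImplicit false

namespace Crest.Agent.T145.KT

open Filter Topology Finset Asymptotics Real

/-- exit time on a finite horizon -/
theorem exit_hor {C δ ε₀ ε₂ τ : ℝ} (hC : 0 ≤ C) (hδ : 0 < δ) (hε0 : 0 < ε₀) (hε₂ : 0 < ε₂)
    (hε : om C δ ε₀ ≤ 1 / 1000) (hτ : 0 < τ) :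
    ∃ ρ, 0 < ρ ∧ ∀ (x y : ℕ → ℝ) (a K : ℕ) (l : ℝ), a ≤ K →
      (∀ n, a ≤ n → n < K → Step C δ x y n ∧ |x n| + y n ≤ ε₀) → ε₂ ≤ |x K| + y K → 0 < l →
      l ≤ ρ * x a → x a ≤ ρ → om C δ (3 * x a) * x a ^ 2 ≤ ρ * l ^ 2 →
      |y a ^ 2 - x a ^ 2 - l ^ 2| ≤ ρ * l ^ 2 → |l * (K - a) - π| ≤ τ := by
  set ε := min ε₀ (ε₂ / 2) with hεd
  have ε0 : 0 < ε := by positivity
  obtain ⟨ρ₁, hρ₁, h⟩ := exit_time hC hδ ε0 ((om_mono hC hδ.le ε0.le (min_le_left _ _)).trans hε)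
    (half_pos hτ)
  refine ⟨min (min ρ₁ (1 / 1000)) (τ * ε / 8), by positivity, ?_⟩
  set ρ := min (min ρ₁ (1 / 1000)) (τ * ε / 8) with hρ
  have r0 : 0 < ρ := by positivity
  have r1 : ρ ≤ ρ₁ := (min_le_left _ _).trans (min_le_left _ _)
  have r2 : ρ ≤ 1 / 1000 := (min_le_left _ _).trans (min_le_right _ _)
  have r3 : ρ ≤ τ * ε / 8 := min_le_right _ _
  intro x y a K l haK hs hK hl h1 h2 h3 h4
  have hxa : 0 < x a := (mul_pos_iff_of_pos_left r0).1 (hl.trans_le h1)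
  have hεK : ε < |x K| + y K := (min_le_right _ _).trans_lt (by linarith)
  have l2 := sq_nonneg l
  obtain ⟨T, hT, hx, hlT⟩ := h x y a l
    (fun n hn hj => (hs n hn (not_le.1 fun hK' => absurd (hj K haK hK') (not_le.2 hεK))).1) hl
    (h1.trans (by gcongr)) (h2.trans r1) (h3.trans (by gcongr)) (h4.trans (by gcongr))
  have hTK : T ≤ K := not_lt.1 fun hl => absurd (hT.2.1 K haK hl) (not_le.2 hεK)
  have E : Ent C δ ρ l x y a := ⟨hl, by nlinarith, h3, h4⟩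
  have a2 := (abs_le.1 (E.angle hC hδ.le r2 hε0.le hε hT.1 hTK hs)).1
  have b3 := arctan_le_of_neg (show x T < 0 by linarith) hl
  have b5 := neg_pi_div_two_lt_arctan (x K / l)
  have c2 : l / -x T ≤ 3 * τ / 8 := by
    rw [div_le_iff₀ (by linarith)]
    have : l ≤ ρ := by nlinarith
    nlinarith
  have t2 : 0 ≤ l * ((K : ℝ) - T) := mul_nonneg hl.le (sub_nonneg.2 (by exact_mod_cast hTK))
  have d2 : 70 * (ρ + om C δ ε₀) * (l * ((K : ℝ) - T)) ≤ 70 * (2 / 1000) * (l * ((K : ℝ) - T)) := by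
    gcongr; linarith
  have e : l * ((K : ℝ) - a) = l * ((T : ℝ) - a) + l * ((K : ℝ) - T) := by ring
  have := abs_le.1 hlT
  rw [e, abs_le]; constructor <;> linarith

/-- the intermediate window of scales -/
theorem exists_window {κ δ : ℝ} (hκ : 0 < κ) (h : κ < δ) : ∃ N : ℝ → ℕ, Tendsto N (𝓝[>] 0) atTop ∧
    Tendsto (fun μ => μ * (N μ : ℝ) ^ (2 + κ)) (𝓝[>] 0) (𝓝 0) ∧
    Tendsto (fun μ => μ * (N μ : ℝ) ^ (2 + δ)) (𝓝[>] 0) atTop := by
  set σ := 1 / (2 + (κ + δ) / 2) with hσ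
  have σ0 : 0 < σ := by rw [hσ]; apply one_div_pos.2; linarith
  have σ1 : σ * (2 + (κ + δ) / 2) = 1 := one_div_mul_cancel (by linarith)
  have t : ∀ s : ℝ, 0 < s → Tendsto (fun μ : ℝ => μ ^ (-s)) (𝓝[>] 0) atTop := fun s hs =>
    tendsto_rpow_neg_nhdsGT_zero (by linarith)
  refine ⟨fun μ => ⌈μ ^ (-σ)⌉₊, tendsto_nat_ceil_atTop.comp (t σ σ0), ?_, ?_⟩
  · have h0 : 0 < 1 - σ * (2 + κ) := by nlinarith
    have h1 := ((Real.continuous_rpow_const h0.le).tendsto 0).const_mul ((2 : ℝ) ^ (2 + κ))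
    rw [Real.zero_rpow h0.ne', mul_zero] at h1
    refine squeeze_zero' (eventually_mem_nhdsWithin.mono fun μ (hμ : 0 < μ) => by positivity) ?_
      (h1.mono_left nhdsWithin_le_nhds)
    filter_upwards [eventually_mem_nhdsWithin, (t σ σ0).eventually_ge_atTop 1] with μ (hμ : 0 < μ) h2
    have h3 : (⌈μ ^ (-σ)⌉₊ : ℝ) ≤ 2 * μ ^ (-σ) := by
      linarith [Nat.ceil_lt_add_one (show 0 ≤ μ ^ (-σ) by positivity)]
    calc μ * (⌈μ ^ (-σ)⌉₊ : ℝ) ^ (2 + κ) ≤ μ * (2 * μ ^ (-σ)) ^ (2 + κ) := by gcongr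
      _ = _ := by
        rw [Real.mul_rpow (by norm_num) (by positivity), ← Real.rpow_mul hμ.le, sub_eq_add_neg,
          Real.rpow_add hμ, Real.rpow_one, neg_mul]
        ring
  · refine tendsto_atTop_mono' _ ?_ (t (σ * (2 + δ) - 1) (by nlinarith))
    filter_upwards [eventually_mem_nhdsWithin] with μ (hμ : 0 < μ)
    calc μ ^ (-(σ * (2 + δ) - 1)) = μ * (μ ^ (-σ)) ^ (2 + δ) := by
          rw [← Real.rpow_mul hμ.le, neg_sub, sub_eq_add_neg, Real.rpow_add hμ, Real.rpow_one, neg_mul]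
      _ ≤ _ := by gcongr; linarith; exact Nat.le_ceil _

theorem eventually_geom {θ : ℝ} (h0 : 0 ≤ θ) (h1 : θ < 1) (c : ℝ) (r : ℕ) :
    ∀ᶠ n : ℕ in atTop, c * (n : ℝ) ^ r * θ ^ (n / 20 - 1) ≤ 1 / (n : ℝ) ^ 3 := by
  have t1 := (tendsto_pow_const_mul_const_pow_of_abs_lt_one (r + 3)
    (show |θ| < 1 by rwa [abs_of_nonneg h0])).const_mul (|c| * 60 ^ (r + 3))
  rw [mul_zero] at t1
  have t2 : Tendsto (fun n : ℕ => n / 20 - 1) atTop atTop :=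
    tendsto_atTop.2 fun b => (eventually_ge_atTop (20 * (b + 1))).mono fun n hn => by omega
  filter_upwards [t2.eventually (t1.eventually (ge_mem_nhds one_pos)), eventually_ge_atTop 40]
    with n hn hn1
  have n0 : (0 : ℝ) < n := by exact_mod_cast (show 0 < n by omega)
  have h2 : (n : ℝ) ≤ 60 * (n / 20 - 1 : ℕ) := by exact_mod_cast (show n ≤ 60 * (n / 20 - 1) by omega)
  rw [le_div_iff₀ (by positivity)]
  calc c * (n : ℝ) ^ r * θ ^ (n / 20 - 1) * (n : ℝ) ^ 3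
      = c * ((n : ℝ) ^ (r + 3) * θ ^ (n / 20 - 1)) := by ring
    _ ≤ |c| * ((60 * ((n / 20 - 1 : ℕ) : ℝ)) ^ (r + 3) * θ ^ (n / 20 - 1)) := by
        gcongr; exact le_abs_self c
    _ = _ := by ring
    _ ≤ 1 := hn

/-- comparison of a finite-volume orbit with the critical orbit -/
theorem crit_cmp {e x y x' y' E X Y X' Y' t : ℝ} (s : St e x y x' y') (S : St E X Y X' Y')
    (ht : 2 ≤ t) (he : e ≤ 1 / 100) (hE : E ≤ 1 / 100) (h1 : |x - X| ≤ 1 / t ^ 3)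
    (h2 : |x' - X'| ≤ 1 / t ^ 3) (hX : |X| ≤ 3 / 2 / t) (hY : Y ≤ 3 / 2 / t) :
    |x| + y ≤ 4 / t ∧ |x ^ 2 - y ^ 2 - (X ^ 2 - Y ^ 2)| ≤ (4 * e + 4 * E) / t ^ 2 + 6 / t ^ 3 := by
  obtain ⟨u, hu⟩ : ∃ u, u = 1 / t := ⟨_, rfl⟩
  have u0 : 0 < u := by rw [hu]; positivity
  have u1 : u ≤ 1 / 2 := by rw [hu, div_le_iff₀ (by linarith)]; linarith
  have e1 : 1 / t ^ 3 = u ^ 3 := by rw [hu]; ring
  have e2 : 3 / 2 / t = 3 / 2 * u := by rw [hu]; ring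
  have e3 : 4 / t = 4 * u := by rw [hu]; ring
  have e4 : (4 * e + 4 * E) / t ^ 2 + 6 / t ^ 3 = (4 * e + 4 * E) * u ^ 2 + 6 * u ^ 3 := by
    rw [hu]; ring
  rw [e1] at h1 h2
  rw [e2] at hX hY
  rw [e3, e4]
  have a1 := abs_le.1 h1
  have a2 := abs_le.1 h2
  have a3 := abs_le.1 s.hx
  have a4 := abs_le.1 S.hx
  have e0 := s.e_nonneg
  have E0 := S.e_nonneg
  have u2 : 0 < u ^ 2 := by positivity
  have u3 : u ^ 3 ≤ u ^ 2 / 2 := by nlinarith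
  have u4 : u ^ 2 ≤ u / 2 := by nlinarith
  have Y2 : Y ^ 2 ≤ 9 / 4 * u ^ 2 := by nlinarith [S.pos]
  have b1 : e * y ^ 2 ≤ 1 / 100 * y ^ 2 := by gcongr
  have b2 : E * Y ^ 2 ≤ 1 / 100 * Y ^ 2 := by gcongr
  have y2 : y ^ 2 ≤ (2 * u) ^ 2 := by nlinarith
  have y1 : y ≤ 2 * u := (abs_le_of_sq_le_sq' y2 (by positivity)).2
  have x1 : |x| ≤ 2 * u := by
    have := abs_add_le (x - X) X
    rw [sub_add_cancel] at this; linarith
  refine ⟨by linarith, ?_⟩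
  have b3 : e * y ^ 2 ≤ e * (2 * u) ^ 2 := by gcongr
  have b4 : E * Y ^ 2 ≤ E * (4 * u ^ 2) := by gcongr; linarith
  have b5 : |x ^ 2 - X ^ 2| ≤ 4 * u ^ 3 := by
    rw [sq_sub_sq, abs_mul]
    have := abs_add_le x X
    calc _ ≤ 4 * u ^ 3 := mul_le_mul (by linarith) h1 (abs_nonneg _) (by norm_num)
      _ = _ := rfl
  have := abs_le.1 b5
  rw [abs_le]; constructor <;> linarith

/-- Riccati comparison with a relative error in the invariant -/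
theorem ric_close {e x y : ℕ → ℝ} {m N : ℕ} {w κ : ℝ} (hm : 1 ≤ m) (hκ : 0 < κ) (hκ1 : κ ≤ 1)
    (hw : w ≤ κ / 1000) (hw0 : 0 ≤ w) (hxm : |x m - 1 / m| ≤ κ / 50 / m)
    (h : ∀ n, m ≤ n → n < N → St (e n) (x n) (y n) (x (n + 1)) (y (n + 1)) ∧ e n + (|x n| + y n) ≤ w)
    (hD : ∀ n, m ≤ n → n ≤ N → |x n ^ 2 - y n ^ 2| ≤ κ / 800 / (n : ℝ) ^ 2 + w * (|x n| + y n) ^ 2) :
    ∀ n, m ≤ n → n ≤ N → |x n - 1 / n| ≤ κ / 8 / n ∧ y n ≤ (1 + κ / 8) / n := by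
  have rel : ∀ n, m ≤ n → n ≤ N → 0 < x n → |1 / x n - n| ≤ κ / 24 * n →
      |x n ^ 2 - y n ^ 2| ≤ (κ / 200 + 9 / 2 * w) * x n ^ 2 := fun n h1 h2 i1 i2 => by
    have hn0 : (1 : ℝ) ≤ n := by exact_mod_cast hm.trans h1
    have a1 : 1 / x n ≤ 2 * n := by nlinarith [(abs_le.1 i2).2]
    rw [div_le_iff₀ i1] at a1
    have a2 : 1 ≤ (2 * n * x n) ^ 2 := one_le_pow₀ a1
    have a3 : κ / 800 / (n : ℝ) ^ 2 ≤ κ / 200 * x n ^ 2 := by
      rw [div_le_iff₀ (by positivity)]; nlinarith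
    have a4 := hD n h1 h2
    have a5 : (|x n| + y n) ^ 2 ≤ 2 * (x n ^ 2 + y n ^ 2) := by
      nlinarith [sq_abs (x n), sq_nonneg (|x n| - y n)]
    have a6 := mul_le_mul_of_nonneg_left a5 hw0
    have x2 := sq_nonneg (x n)
    have y2 := sq_nonneg (y n)
    have a7 : y n ^ 2 ≤ 5 / 4 * x n ^ 2 := by
      have b1 : w * x n ^ 2 ≤ 1 / 1000 * x n ^ 2 := by gcongr; linarith
      have b2 : w * y n ^ 2 ≤ 1 / 1000 * y n ^ 2 := by gcongr; linarith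
      have b3 : κ / 200 * x n ^ 2 ≤ 1 / 200 * x n ^ 2 := by gcongr
      linarith [(abs_le.1 a4).1]
    have a8 := mul_le_mul_of_nonneg_left a7 hw0
    linarith
  have key : ∀ n, m ≤ n → n ≤ N → 0 < x n ∧ |1 / x n - n| ≤ κ / 24 * n := by
    intro n hn
    induction n, hn using Nat.le_induction with
    | base =>
      intro _
      have m0 : (0 : ℝ) < m := by exact_mod_cast hm
      have a1 : |m * x m - 1| ≤ κ / 50 := by
        rw [show m * x m - 1 = m * (x m - 1 / m) by field_simp, abs_mul, abs_of_pos m0]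
        rwa [le_div_iff₀' m0] at hxm
      have a2 := abs_le.1 a1
      have a3 : 0 < x m := (mul_pos_iff_of_pos_left m0).1 (by linarith)
      refine ⟨a3, ?_⟩
      rw [show 1 / x m - m = -(m * x m - 1) / x m by field_simp; ring, abs_div, abs_neg, abs_of_pos a3,
        div_le_iff₀ a3]
      nlinarith
    | succ n hn ih =>
      intro hN
      obtain ⟨i1, i2⟩ := ih (by omega)
      obtain ⟨s, h1⟩ := h n hn (by omega)
      obtain ⟨r1, r2⟩ := s.ricc i1 h1 (by linarith) (rel n hn (by omega) i1 i2) (by linarith)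
      refine ⟨r1, ?_⟩
      have := abs_le.1 r2
      have := abs_le.1 i2
      push_cast
      rw [abs_le]; constructor <;> linarith
  intro n h1 h2
  obtain ⟨i1, i2⟩ := key n h1 h2
  have n0 : (0 : ℝ) < n := by exact_mod_cast (show 0 < n by omega)
  have a1 : n * x n ≤ 2 := by
    have := (abs_le.1 i2).1
    have a : (n : ℝ) / 2 ≤ 1 / x n := by nlinarith
    rw [le_div_iff₀ i1] at a; linarith
  obtain ⟨c1, c2⟩ := close_of_inv (y := y n) (κ := κ / 24) n0 i1 (by linarith) (by linarith) i2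
    ((rel n h1 h2 i1 i2).trans (by
      rw [le_div_iff₀ (by positivity), mul_assoc, ← mul_pow, mul_comm (x n)]
      have : (n * x n) ^ 2 ≤ 2 ^ 2 := by gcongr
      nlinarith)) le_rfl
  exact ⟨c1.trans (by gcongr; linarith), c2.trans (le_of_eq (by ring))⟩

theorem eta_inv {e x y : ℕ → ℝ} {m n : ℕ} (hmn : m ≤ n)
    (h : ∀ j, m ≤ j → j < n → St (e j) (x j) (y j) (x (j + 1)) (y (j + 1)) ∧
      e j + (|x j| + y j) ≤ 1 / 100) :
    1 / (|x m| + y m) - 3 * ((n : ℝ) - m) ≤ 1 / (|x n| + y n) := by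
  induction n, hmn using Nat.le_induction with
  | base => simp
  | succ n hmn ih =>
    have i := ih fun j h1 h2 => h j h1 (by omega)
    obtain ⟨s, hs⟩ := h n hmn (by omega)
    have h1 := s.eta_le' hs le_rfl
    have p : 0 < |x n| + y n := add_pos_of_nonneg_of_pos (abs_nonneg _) s.pos
    have p' : 0 < |x (n + 1)| + y (n + 1) := add_pos_of_nonneg_of_pos (abs_nonneg _) s.pos'
    have h2 : 1 / (|x n| + y n) - 3 ≤ 1 / (|x (n + 1)| + y (n + 1)) := by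
      refine le_trans ?_ (one_div_le_one_div_of_le p' h1)
      rw [le_div_iff₀ (by positivity)]
      have : (1 / (|x n| + y n) - 3) * ((|x n| + y n) * (1 + 3 * (|x n| + y n))) =
          1 - 9 * (|x n| + y n) ^ 2 := by field_simp; ring
      rw [this]; nlinarith
    push_cast; linarith

theorem Orb.eta_back {C δ θ M B τ ε : ℝ} {a K : ℕ} {x y p q : ℕ → ℝ}
    (O : Orb C δ θ M B τ ε a K x y p q) (hC : 0 ≤ C) (hδ : 0 ≤ δ) (hθ : 0 ≤ θ) (hθ1 : θ ≤ 1)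
    (hτ : 0 ≤ τ) (hε : 0 ≤ ε) (hw : om C δ ε + τ ≤ 1 / 100) (j : ℕ) (j1 : a ≤ j) (j2 : j ≤ K) :
    |x K| + y K ≤ (1 + 3 * ε) ^ (K - j) * (|x j| + y j) := by
  induction j2 using Nat.decreasingInduction with
  | self => simp
  | of_succ i hi ih =>
    have s := O.st i j1 hi
    have p : 0 ≤ |x i| + y i := add_nonneg (abs_nonneg _) s.pos.le
    have k1 := s.eta_le' (er_le hC hδ hθ hθ1 hτ p (O.small i j1 hi.le)) hw
    have k2 : (|x i| + y i) * (1 + 3 * (|x i| + y i)) ≤ (|x i| + y i) * (1 + 3 * ε) := by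
      gcongr; exact O.small i j1 hi.le
    rw [show K - i = K - (i + 1) + 1 by omega, pow_succ, mul_assoc]
    exact (ih (by omega)).trans (by gcongr; linarith)

/-- the horizon error is absorbed when the orbit is not small at the horizon -/
theorem Orb.step {C δ θ M B τ ε ε₂ : ℝ} {a K k : ℕ} {x y p q : ℕ → ℝ}
    (O : Orb C δ θ M B τ ε a K x y p q) (hC : 0 ≤ C) (hδ : 0 ≤ δ) (hδ1 : δ ≤ 1) (hθ : 0 ≤ θ)
    (hτ : 0 ≤ τ) (hε : 0 ≤ ε) (hεθ : 6 * ε ≤ 1 - θ) (hw : om C δ ε + τ ≤ 1 / 100) (hε₂ : 0 ≤ ε₂)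
    (hk : ((1 + θ) / 2) ^ k ≤ ε₂ ^ δ) (hK : ε₂ ≤ |x K| + y K) (n : ℕ) (h1 : a ≤ n) (h2 : n < K)
    (h3 : n + k ≤ K) : Step (C + 1) δ x y n := by
  have s := O.st n h1 h2
  have p : 0 ≤ |x n| + y n := add_nonneg (abs_nonneg _) s.pos.le
  refine s.mono ?_
  have k1 : ε₂ ^ δ ≤ (1 + 3 * ε) ^ (K - n) * (|x n| + y n) ^ δ := by
    refine (Real.rpow_le_rpow hε₂ (hK.trans (O.eta_back hC hδ hθ (by linarith) hτ hε hw n h1 h2.le))
      hδ).trans ?_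
    rw [Real.mul_rpow (by positivity) p]
    refine mul_le_mul_of_nonneg_right ?_ (by positivity)
    conv_rhs => rw [← Real.rpow_one ((1 + 3 * ε) ^ (K - n))]
    exact Real.rpow_le_rpow_of_exponent_le (one_le_pow₀ (by linarith)) hδ1
  have k2 : (θ * (1 + 3 * ε)) ^ (K - n) ≤ ε₂ ^ δ := by
    calc _ ≤ ((1 + θ) / 2) ^ (K - n) := by gcongr; nlinarith
      _ ≤ ((1 + θ) / 2) ^ k := pow_le_pow_of_le_one (by linarith) (by linarith) (by omega)
      _ ≤ _ := hk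
  have k3 : θ ^ (K - n) ≤ (|x n| + y n) ^ δ := by
    refine le_of_mul_le_mul_left ?_ (show 0 < (1 + 3 * ε) ^ (K - n) by positivity)
    rw [← mul_pow, mul_comm]
    exact k2.trans k1
  have k4 : τ * θ ^ (K - n) ≤ 1 * θ ^ (K - n) := by gcongr; linarith [om_nonneg (δ := δ) hC hε]
  rw [er]; linarith


/-- the first component grows like `(2a/3) n` -/
theorem CL.p_asym {δ : ℝ} {e x y p q A : ℕ → ℝ} (h : CL δ e x y p q A) {a : ℝ}
    (ha : (fun n => x n * p n - y n * q n - a) =O[atTop] pw (-δ)) (hA : A =O[atTop] pw 1) :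
    (fun n : ℕ => p n - 2 * a / 3 * n) =O[atTop] pw (1 - δ) := by
  have h1 : (fun n => p (n + 1) - p n + 2 * y n * q n) =O[atTop] pw (-δ) :=
    bigO_of_le 1 (bigO_mul (bigO_mul h.he h.etaO le_rfl) hA (by linarith))
      (h.st.mono fun n hn => by rw [one_mul]; exact hn.2.hp)
  have h2 := bigO_mul h.hx (h.pO hA) (r := -δ) (by linarith)
  refine damp (by linarith [h.lt]) ?_
  rw [show 1 - δ - 1 = -δ by ring]
  refine EventuallyEq.trans_isBigO ((eventually_ge_atTop 1).mono fun n hn => ?_)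
    ((h1.add (ha.const_mul_left 2)).sub (h2.const_mul_left 2))
  have : (0 : ℝ) < n := by exact_mod_cast hn
  push_cast; field_simp; ring


end Crest.Agent.T145.KT
end

-- ▼ part T145/KtJ_54
section

/-!
# Row 145 (helper54): the discrete Kosterlitz-Thouless flow, part J (finite-horizon estimates)
-/

set_option autoImplicit false

namespace Crest.Agent.T145.KT

open Filter Topology Finset Asymptotics Real

/-- admissible constants -/
structure Prm (C δ θ M B τ ε : ℝ) : Prop where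
  C0 : 0 ≤ C
  δ0 : 0 < δ
  δ1 : δ < 1
  θ0 : 0 ≤ θ
  θ1 : θ < 1
  M0 : 0 ≤ M
  B0 : 0 ≤ B
  τ0 : 0 ≤ τ
  ε0 : 0 < ε
  εθ : 6 * ε ≤ 1 - θ
  w1 : om (C + 1) δ ε ≤ 1 / 1000
  w2 : om C δ ε + τ ≤ δ / 2 / 1000
  w3 : 30 * (om C δ ε + τ) * Mth M θ ≤ δ / 2

theorem Mth_nonneg {M θ : ℝ} (hM : 0 ≤ M) (hθ : 0 ≤ θ) : 0 ≤ Mth M θ :=
  mul_nonneg hM (by linarith [cth_nonneg hθ])

theorem exists_prm {C δ θ M : ℝ} (hC : 0 ≤ C) (hδ : 0 < δ) (hδ1 : δ < 1) (hθ : 0 ≤ θ) (hθ1 : θ < 1)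
    (hM : 0 ≤ M) : ∃ ε₁, 0 < ε₁ ∧ ∀ B τ ε, 0 ≤ B → 0 ≤ τ → τ ≤ ε₁ → 0 < ε → ε ≤ ε₁ →
      Prm C δ θ M B τ ε := by
  have hm := Mth_nonneg hM hθ
  obtain ⟨w, hw⟩ : ∃ w, w = δ / (4000 * (1 + Mth M θ)) := ⟨_, rfl⟩
  have w0 : 0 < w := by rw [hw]; positivity
  have w1 : w * (4000 * (1 + Mth M θ)) = δ := by rw [hw]; field_simp
  have w2 := mul_nonneg w0.le hm
  obtain ⟨ε₁, h1, h2⟩ := exists_om_le (C + 1) hδ w0
  refine ⟨min (min ε₁ w) ((1 - θ) / 6), lt_min (lt_min h1 w0) (by linarith), fun B τ ε hB t0 t1 e0 e1 => ?_⟩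
  have a1 := h2 ε e0.le (e1.trans ((min_le_left _ _).trans (min_le_left _ _)))
  have a2 : τ ≤ w := t1.trans ((min_le_left _ _).trans (min_le_right _ _))
  have a3 := e1.trans (min_le_right _ _)
  have a4 : om C δ ε ≤ w := by
    have := rpow_nonneg e0.le δ
    simp only [om] at *; linarith
  have a5 : (om C δ ε + τ) * Mth M θ ≤ (w + w) * Mth M θ := by gcongr
  exact ⟨hC, hδ, hδ1, hθ, hθ1, hM, hB, t0, e0, by linarith, by linarith, by linarith, by linarith⟩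

theorem inv_le_rpow {t s : ℝ} (ht : 1 ≤ t) (hs : s ≤ 1) : 1 / t ≤ t ^ (-s) := by
  rw [one_div, ← rpow_neg_one]; exact rpow_le_rpow_of_exponent_le ht (by linarith)

theorem rpow_le_four {t s η : ℝ} (ht : 1 ≤ t) (hs0 : 0 ≤ s) (hs : s ≤ 1) (h0 : 0 ≤ η) (h : η ≤ 4 / t) :
    η ^ s ≤ 4 * t ^ (-s) := by
  refine (rpow_le_rpow h0 h hs0).trans ?_
  rw [div_rpow (by norm_num) (by linarith), rpow_neg (by linarith), div_eq_mul_inv]
  refine mul_le_mul_of_nonneg_right ?_ (by positivity)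
  conv_rhs => rw [← rpow_one 4]
  exact rpow_le_rpow_of_exponent_le (by norm_num) hs

theorem eta3 {x y t κ : ℝ} (ht : 0 < t) (hκ : κ ≤ 1) (h1 : |x - 1 / t| ≤ κ / 8 / t)
    (h2 : y ≤ (1 + κ / 8) / t) : |x| + y ≤ 3 / t := by
  have k3 := abs_add_le (x - 1 / t) (1 / t)
  rw [sub_add_cancel, abs_of_pos (show (0 : ℝ) < 1 / t by positivity)] at k3
  have : κ / 8 / t + 1 / t + (1 + κ / 8) / t ≤ 3 / t := by
    rw [← add_div, ← add_div]; gcongr; linarith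
  linarith

/-- closeness to the critical orbit on `[m, N]` -/
def Cls (δ : ℝ) (x y : ℕ → ℝ) (m N : ℕ) : Prop :=
  ∀ n, m ≤ n → n ≤ N → |x n - 1 / n| ≤ δ / 2 / 8 / n ∧ y n ≤ (1 + δ / 2 / 8) / n

/-- a differentiable version `D` of the invariant `x² - y²` at the parameter `b` and the step `n` -/
structure Inv (C δ θ M B τ : ℝ) (a K : ℕ) (x y p q : ℕ → ℝ) (D : ℝ → ℝ) (D' b : ℝ) (n : ℕ) : Prop where
  der : HasDerivAt D D' b
  val : |D b - (x n ^ 2 - y n ^ 2)| ≤ er C δ θ τ K x y n * (|x n| + y n) ^ 2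
  slope : |D' - 2 * (x n * p n - y n * q n)| ≤
    er C δ θ τ K x y n * (|x n| + y n) * Abd M B θ a K x y p q n

namespace Prm
variable {C δ θ M B τ ε : ℝ} {a K : ℕ}

theorem w (h : Prm C δ θ M B τ ε) : om C δ ε + τ ≤ 1 / 100 := by linarith [h.w2, h.δ1]

theorem τ1 (h : Prm C δ θ M B τ ε) : τ ≤ 1 := by linarith [h.w, om_nonneg (δ := δ) h.C0 h.ε0.le]

theorem wn (h : Prm C δ θ M B τ ε) {x y p q : ℕ → ℝ} (O : Orb C δ θ M B τ ε a K x y p q) {n : ℕ}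
    (h1 : a ≤ n) (h2 : n < K) : er C δ θ τ K x y n + (|x n| + y n) ≤ om C δ ε + τ :=
  er_le h.C0 h.δ0.le h.θ0 h.θ1.le h.τ0 (add_nonneg (abs_nonneg _) (O.st n h1 h2).pos.le)
    (O.small n h1 h2.le)

theorem er1 (h : Prm C δ θ M B τ ε) {x y p q : ℕ → ℝ} (O : Orb C δ θ M B τ ε a K x y p q) {n : ℕ}
    (h1 : a ≤ n) (h2 : n < K) : er C δ θ τ K x y n ≤ om C δ ε + τ := by
  linarith [h.wn O h1 h2, abs_nonneg (x n), (O.st n h1 h2).pos]

theorem er_pow (h : Prm C δ θ M B τ ε) {x y : ℕ → ℝ} {n : ℕ} (hn : 1 ≤ n) (h0 : 0 ≤ y n)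
    (hη : |x n| + y n ≤ 4 / n) (hθ : θ ^ (K - n) ≤ 1 / (n : ℝ) ^ 3) :
    er C δ θ τ K x y n + (|x n| + y n) ≤ (4 * C + 5) * (n : ℝ) ^ (-δ) := by
  have n1 : (1 : ℝ) ≤ n := by exact_mod_cast hn
  have a1 := mul_le_mul_of_nonneg_left (rpow_le_four n1 h.δ0.le h.δ1.le (by positivity) hη) h.C0
  have a2 := inv_le_rpow n1 h.δ1.le
  have a3 : 1 / (n : ℝ) ^ 3 ≤ 1 / n := by gcongr; exact le_self_pow₀ n1 (by norm_num)
  have a4 := mul_le_of_le_one_left (pow_nonneg h.θ0 (K - n)) h.τ1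
  have a5 : (4 : ℝ) / n = 4 * (1 / n) := by ring
  rw [er]; linarith

theorem lin (h : Prm C δ θ M B τ ε) {x y p q : ℕ → ℝ} (O : Orb C δ θ M B τ ε a K x y p q) (ha : 1 ≤ a)
    {m N : ℕ} (ham : a ≤ m) (hm : 2 ≤ m) (hmN : m ≤ N) (hNK : N ≤ K) (hcl : Cls δ x y m N) {B₁ : ℝ}
    (hB₁ : ∑ j ∈ Icc a m, (|p j| + |q j|) ≤ B₁) :
    (∀ j, a ≤ j → j ≤ K → |p j| + |q j| ≤
      (9 * B₁ + B) * ((1 + 3 * ε) ^ (j - N) * (j : ℝ) ^ (1 + δ / 2))) ∧
    ∀ n, m ≤ n → n ≤ N → n < K → Abd M B θ a K x y p q n ≤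
      Mth M θ * (10 * B₁ + 2 * B) * (n : ℝ) ^ (1 + δ / 2) := by
  obtain ⟨h1, h2⟩ := O.lin_bound h.C0 h.δ0.le h.θ0 h.θ1 h.M0 h.B0 h.τ0 h.ε0 h.εθ (half_pos h.δ0)
    (by linarith [h.δ1]) h.w h.w3 ham hm hmN hNK hcl hB₁
  have hB1 : 0 ≤ B₁ := (sum_nonneg fun j _ => by positivity).trans hB₁
  refine ⟨fun j j1 j2 => ?_, fun n n1 n2 n3 => by simpa [show n - N = 0 by omega] using h2 n n1 n3⟩
  have G1 : 1 ≤ (1 + 3 * ε) ^ (j - N) * (j : ℝ) ^ (1 + δ / 2) :=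
    one_le_mul_of_one_le_of_one_le (one_le_pow₀ (by linarith [h.ε0]))
      (one_le_rpow (by exact_mod_cast ha.trans j1) (by linarith [h.δ0]))
  rcases le_total j m with hj | hj
  · have := (single_le_sum (f := fun j => |p j| + |q j|) (fun j _ => by positivity)
      (mem_Icc.2 ⟨j1, hj⟩)).trans hB₁
    nlinarith [h.B0]
  · exact (h1 j hj j2).trans (by gcongr; linarith)

/-- the continuity method in the parameter -/
theorem close (h : Prm C δ θ M B τ ε) {b₀ b₁ B₁ : ℝ} {x y p q D D' : ℝ → ℕ → ℝ} (ha : 1 ≤ a) {m N : ℕ}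
    (ham : a ≤ m) (hm : 2 ≤ m) (hmN : m ≤ N) (hNK : N < K)
    (O : ∀ b ∈ Set.Icc b₀ b₁, Orb C δ θ M B τ ε a K (x b) (y b) (p b) (q b) ∧ (∀ n, a ≤ n → n < K →
      Inv C δ θ M B τ a K (x b) (y b) (p b) (q b) (fun b => D b n) (D' b n) b n) ∧
      |x b m - 1 / m| ≤ δ / 2 / 50 / m ∧ ∑ j ∈ Icc a m, (|p b j| + |q b j|) ≤ B₁)
    (hD : ∀ n, m ≤ n → n ≤ N → |D b₁ n| + 9 * (Mth M θ * (10 * B₁ + 2 * B)) *
      (n : ℝ) ^ (δ / 2) * (b₁ - b₀) < δ / 2 / 800 / (n : ℝ) ^ 2) :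
    ∀ b ∈ Set.Icc b₀ b₁, Cls δ (x b) (y b) m N := by
  have key : ∀ b ∈ Set.Icc b₀ b₁, (∀ n ∈ Icc m N, |D b n| ≤
      δ / 2 / 800 / (n : ℝ) ^ 2) → Cls δ (x b) (y b) m N := fun b hb hn =>
    ric_close (e := er C δ θ τ K (x b) (y b)) (by omega) (half_pos h.δ0) (by linarith [h.δ1]) h.w2
      (add_nonneg (om_nonneg h.C0 h.ε0.le) h.τ0) (O b hb).2.2.1
      (fun n n1 n2 => ⟨(O b hb).1.st n (by omega) (by omega), h.wn (O b hb).1 (by omega) (by omega)⟩)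
      fun n n1 n2 => by
        have k1 := abs_le.1 (hn n (mem_Icc.2 ⟨n1, n2⟩))
        have k2 := abs_le.1 ((O b hb).2.1 n (by omega) (by omega)).val
        have k3 := mul_le_mul_of_nonneg_right (h.er1 (O b hb).1 (show a ≤ n by omega) (by omega))
          (sq_nonneg (|x b n| + y b n))
        rw [abs_le]; constructor <;> linarith
  intro b hb
  have hB1 : 0 ≤ B₁ := (sum_nonneg fun j _ => by positivity).trans (O b hb).2.2.2
  have hL : 0 ≤ Mth M θ * (10 * B₁ + 2 * B) := mul_nonneg (Mth_nonneg h.M0 h.θ0) (by linarith [h.B0])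
  refine key b hb (real_ind (Icc m N) (D := fun n b => D b n) (D' := fun n b => D' b n)
    (l := fun n => 9 * (Mth M θ * (10 * B₁ + 2 * B)) * (n : ℝ) ^ (δ / 2)) (fun n hn b hb => ?_)
    (fun b hb hn n n0 => ?_) (fun n _ => by positivity)
    (fun n hn => hD n (mem_Icc.1 hn).1 (mem_Icc.1 hn).2) b hb)
  · exact ((O b hb).2.1 n (by have := mem_Icc.1 hn; omega) (by have := mem_Icc.1 hn; omega)).der
  · obtain ⟨n1, n2⟩ := mem_Icc.1 n0
    have c := key b hb hn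
    have np : (0 : ℝ) < n := by exact_mod_cast (show 0 < n by omega)
    have k1 := (h.lin (O b hb).1 ha ham hm hmN hNK.le c (O b hb).2.2.2).2 n n1 n2 (by omega)
    have k2 := eta3 np (by linarith [h.δ1]) (c n n1 n2).1 (c n n1 n2).2
    have k3 := ((O b hb).1.ln n (by omega) (by omega)).le
    have k4 := ((O b hb).1.st n (by omega) (by omega)).pos
    have k5 : |x b n * p b n - y b n * q b n| ≤ (|x b n| + y b n) * (|p b n| + |q b n|) := by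
      refine (abs_sub _ _).trans ?_
      rw [abs_mul, abs_mul, abs_of_pos k4]
      nlinarith [mul_nonneg (abs_nonneg (x b n)) (abs_nonneg (q b n)), mul_nonneg k4.le (abs_nonneg (p b n))]
    have k6 := ((O b hb).1.ln n (by omega) (by omega)).A_nonneg
    have k7 := abs_le.1 (k5.trans (mul_le_mul k2 (k3.trans k1) (by positivity) (by positivity)))
    have k8 := abs_le.1 (((O b hb).2.1 n (by omega) (by omega)).slope.trans (mul_le_mul (mul_le_mul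
      ((h.er1 (O b hb).1 (show a ≤ n by omega) (by omega)).trans (h.w.trans (by norm_num : _ ≤ (1 : ℝ))))
      k2 (by positivity) zero_le_one) k1 k6 (by positivity)))
    calc _ ≤ 3 * (3 / n * (Mth M θ * (10 * B₁ + 2 * B) * (n : ℝ) ^ (1 + δ / 2))) := by
          rw [abs_le]; constructor <;> linarith
      _ = _ := by rw [rpow_add np, rpow_one]; field_simp; ring

/-- the linearised invariant is almost constant on the window -/
theorem tele (h : Prm C δ θ M B τ ε) {x y p q : ℕ → ℝ} (O : Orb C δ θ M B τ ε a K x y p q) (ha : 1 ≤ a)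
    {m k N : ℕ} (ham : a ≤ m) (hm : 2 ≤ m) (hmk : m ≤ k) (hkN : k ≤ N) (hNK : N ≤ K)
    (hcl : Cls δ x y m N) {B₁ : ℝ} (hB₁ : ∑ j ∈ Icc a m, (|p j| + |q j|) ≤ B₁)
    (hθ : ∀ n, m ≤ n → n ≤ N → θ ^ (K - n) ≤ 1 / (n : ℝ) ^ 3) :
    |(x N * p N - y N * q N) - (x k * p k - y k * q k)| ≤
      72 * (4 * C + 5) * (Mth M θ * (10 * B₁ + 2 * B)) * ks (-(δ / 2)) * (k : ℝ) ^ (-(δ / 2)) := by
  have hB1 : 0 ≤ B₁ := (sum_nonneg fun j _ => by positivity).trans hB₁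
  have hL : 0 ≤ Mth M θ * (10 * B₁ + 2 * B) := mul_nonneg (Mth_nonneg h.M0 h.θ0) (by linarith [h.B0])
  have := h.C0
  refine tele_neg (f := fun n => x n * p n - y n * q n) (by linarith [h.δ0]) (by positivity) (by omega)
    hkN fun n n1 n2 => ?_
  have np : (0 : ℝ) < n := by exact_mod_cast (show 0 < n by omega)
  have s := O.st n (by omega) (by omega)
  have k1 := (h.lin O ha ham hm (by omega) hNK hcl hB₁).2 n (by omega) n2.le (by omega)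
  have k2 := eta3 np (by linarith [h.δ1]) (hcl n (by omega) n2.le).1 (hcl n (by omega) n2.le).2
  have k3 := h.er_pow (K := K) (by omega) s.pos.le (k2.trans (by gcongr; norm_num)) (hθ n (by omega) n2.le)
  have k4 := s.pos
  have k5 := (O.ln n (by omega) (by omega)).A_nonneg
  refine ((O.ln n (by omega) (by omega)).da s le_rfl ((h.wn O (by omega) (by omega)).trans h.w)).trans ?_
  calc _ ≤ 8 * ((4 * C + 5) * (n : ℝ) ^ (-δ)) * (3 / n) ^ 2 *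
        (Mth M θ * (10 * B₁ + 2 * B) * (n : ℝ) ^ (1 + δ / 2)) := by gcongr
    _ = 72 * (4 * C + 5) * (Mth M θ * (10 * B₁ + 2 * B)) *
        ((n : ℝ) ^ (-δ) * (n : ℝ) ^ (1 + δ / 2) / (n : ℝ) ^ (2 : ℝ)) := by rw [rpow_two]; ring
    _ = _ := by rw [← rpow_add np, ← rpow_sub np]; ring_nf

/-- the invariant at the critical parameter -/
theorem cmp (h : Prm C δ θ M B τ ε) {x y p q X Y : ℕ → ℝ} (O : Orb C δ θ M B τ ε a K x y p q)
    {n : ℕ} (h1 : a ≤ n) (h2 : n < K) (hn : 2 ≤ n) (S : Step C δ X Y n) (hS : |X n| + Y n ≤ ε)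
    (a1 : |x n - X n| ≤ 1 / (n : ℝ) ^ 3) (a2 : |x (n + 1) - X (n + 1)| ≤ 1 / (n : ℝ) ^ 3)
    (hX : |X n| ≤ 3 / 2 / n) (hY : Y n ≤ 3 / 2 / n) (hθ : θ ^ (K - n) ≤ 1 / (n : ℝ) ^ 3) {C₃ : ℝ}
    (hD : |X n ^ 2 - Y n ^ 2| ≤ C₃ * (n : ℝ) ^ (-2 - δ)) {d : ℝ}
    (hd : |d - (x n ^ 2 - y n ^ 2)| ≤ er C δ θ τ K x y n * (|x n| + y n) ^ 2) :
    |d| ≤ (C₃ + 96 * C + 106) * (n : ℝ) ^ (-2 - δ) := by
  have s := O.st n h1 h2
  have n2 : (2 : ℝ) ≤ n := by exact_mod_cast hn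
  have η0 : 0 ≤ |x n| + y n := add_nonneg (abs_nonneg _) s.pos.le
  obtain ⟨c1, c2⟩ := crit_cmp s S n2 (by linarith [h.wn O h1 h2, h.w])
    (by linarith [S.w_le h.C0 h.δ0.le hS, S.eta_pos, h.w, h.τ0]) a1 a2 hX hY
  have k1 := h.er_pow (K := K) (by omega) s.pos.le c1 hθ
  have k2 := mul_le_mul_of_nonneg_left (rpow_le_four (t := n) (by linarith) h.δ0.le h.δ1.le S.eta_pos.le
    ((add_le_add hX hY).trans (by rw [← add_div]; gcongr; norm_num))) h.C0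
  have k3 := inv_le_rpow (t := n) (by linarith) h.δ1.le
  have e1 : (n : ℝ) ^ (-2 - δ) = (n : ℝ) ^ (-δ) / (n : ℝ) ^ 2 := by
    rw [← rpow_two, ← rpow_sub (by linarith)]; ring_nf
  have k4 : (4 * er C δ θ τ K x y n + 4 * (C * (|X n| + Y n) ^ δ)) / (n : ℝ) ^ 2 + 6 / (n : ℝ) ^ 3 ≤
      (32 * C + 26) * ((n : ℝ) ^ (-δ) / (n : ℝ) ^ 2) := by
    rw [show 6 / (n : ℝ) ^ 3 = 6 * (1 / n) / (n : ℝ) ^ 2 by field_simp, ← add_div,
      ← mul_div_assoc (32 * C + 26)]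
    gcongr; linarith
  have k5 : er C δ θ τ K x y n * (|x n| + y n) ^ 2 ≤ (4 * C + 5) * (n : ℝ) ^ (-δ) * (4 / n) ^ 2 := by
    have := h.C0
    gcongr; linarith
  have e2 : (4 * C + 5) * (n : ℝ) ^ (-δ) * (4 / n) ^ 2 =
      (64 * C + 80) * ((n : ℝ) ^ (-δ) / (n : ℝ) ^ 2) := by ring
  rw [e1] at hD ⊢
  have := abs_le.1 hD
  have := abs_le.1 hd
  have := abs_le.1 c2
  rw [abs_le]; constructor <;> linarith

theorem inv (h : Prm C δ θ M B τ ε) {x y p q : ℕ → ℝ} (O : Orb C δ θ M B τ ε a K x y p q) {n : ℕ}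
    (h1 : a ≤ n) (h2 : n < K) (hn : 1 ≤ n) (hη : |x n| + y n ≤ 3 / n) {L : ℝ}
    (hA : Abd M B θ a K x y p q n ≤ L * (n : ℝ) ^ (1 + δ / 2)) (hθ : θ ^ (K - n) ≤ 1 / (n : ℝ) ^ 3)
    {D : ℝ → ℝ} {D' b : ℝ} (I : Inv C δ θ M B τ a K x y p q D D' b n) :
    |D b - (x n ^ 2 - y n ^ 2)| ≤ 9 * (4 * C + 5) * (n : ℝ) ^ (-2 - δ) ∧
      |D' - 2 * (x n * p n - y n * q n)| ≤ 3 * (4 * C + 5) * L * (n : ℝ) ^ (-(δ / 2)) := by
  have np : (0 : ℝ) < n := by exact_mod_cast hn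
  have y0 := (O.st n h1 h2).pos
  have A0 := (O.ln n h1 h2).A_nonneg
  have C0 := h.C0
  have k1 : er C δ θ τ K x y n ≤ (4 * C + 5) * (n : ℝ) ^ (-δ) := by
    linarith [h.er_pow (K := K) hn y0.le (hη.trans (by gcongr; norm_num)) hθ, abs_nonneg (x n)]
  constructor
  · calc _ ≤ (4 * C + 5) * (n : ℝ) ^ (-δ) * (3 / n) ^ 2 := I.val.trans (by gcongr)
      _ = 9 * (4 * C + 5) * ((n : ℝ) ^ (-δ) / (n : ℝ) ^ (2 : ℝ)) := by rw [rpow_two]; ring
      _ = _ := by rw [← rpow_sub np]; ring_nf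
  · calc _ ≤ (4 * C + 5) * (n : ℝ) ^ (-δ) * (3 / n) * (L * (n : ℝ) ^ (1 + δ / 2)) :=
          I.slope.trans (by gcongr)
      _ = 3 * (4 * C + 5) * L * ((n : ℝ) ^ (-δ) * (n : ℝ) ^ (1 + δ / 2) / (n : ℝ) ^ (1 : ℝ)) := by
          rw [rpow_one]; ring
      _ = _ := by rw [← rpow_add np, ← rpow_sub np]; ring_nf

end Prm

end Crest.Agent.T145.KT
end

-- ▼ part T145/KtK_54
section

/-!
# Row 145 (helper54): the discrete Kosterlitz-Thouless flow, part K (families: the limiting orbit)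
-/

set_option autoImplicit false

namespace Crest.Agent.T145.KT

open Filter Topology Finset Asymptotics Real

/-- a family of orbits `(b₀, b)`, `b₀ ≤ b ≤ bc`, with horizon `K b₀` -/
structure Fam (C δ θ M B τ ε ε₂ c C₁ bc : ℝ) (r a : ℕ) (K : ℝ → ℕ) (x y p q D D' : ℝ → ℝ → ℕ → ℝ)
    (X Y P Q : ℕ → ℝ) : Prop where
  prm : Prm C δ θ M B τ ε
  a1 : 1 ≤ a
  c0 : 0 < c
  ε0 : 0 < ε₂
  orb : ∀ᶠ b₀ in 𝓝[<] bc, ∀ b ∈ Set.Icc b₀ bc,
    Orb C δ θ M B τ ε a (K b₀) (x b₀ b) (y b₀ b) (p b₀ b) (q b₀ b) ∧ ∀ n, a ≤ n → n < K b₀ →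
      Inv C δ θ M B τ a (K b₀) (x b₀ b) (y b₀ b) (p b₀ b) (q b₀ b) (fun b => D b₀ b n) (D' b₀ b n) b n
  conv : ∀ n, a ≤ n → ∀ t, 0 < t → ∀ᶠ b₀ in 𝓝[<] bc, ∀ b ∈ Set.Icc b₀ bc,
    |x b₀ b n - X n| ≤ t ∧ |y b₀ b n - Y n| ≤ t ∧ |p b₀ b n - P n| ≤ t ∧ |q b₀ b n - Q n| ≤ t
  top : Tendsto K (𝓝[<] bc) atTop
  amb : ∀ᶠ b₀ in 𝓝[<] bc, ∀ n, a ≤ n → n ≤ K b₀ →
    |x b₀ bc n - X n| ≤ C₁ * (n : ℝ) ^ r * θ ^ (K b₀ - n)
  lim : Tendsto X atTop (𝓝 0)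
  pos : 0 < Y a
  nd : ∃ᶠ n in atTop, ∀ᶠ b₀ in 𝓝[<] bc, c - er C δ θ τ (K b₀) (x b₀ bc) (y b₀ bc) n *
    (1 + Abd M B θ a (K b₀) (x b₀ bc) (y b₀ bc) (p b₀ bc) (q b₀ bc) n) ≤ p b₀ bc n
  exit : ∀ᶠ b₀ in 𝓝[<] bc, ε₂ ≤ |x b₀ b₀ (K b₀)| + y b₀ b₀ (K b₀)

/-- `b₀ → bc` from below, uniformly in `b ∈ [b₀, bc]` -/
def U (bc : ℝ) : Filter (ℝ × ℝ) := (𝓝[<] bc).bind fun b₀ => 𝓟 (Prod.mk b₀ '' Set.Icc b₀ bc)

theorem ev_U {bc : ℝ} {p : ℝ × ℝ → Prop} :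
    (∀ᶠ z in U bc, p z) ↔ ∀ᶠ b₀ in 𝓝[<] bc, ∀ b ∈ Set.Icc b₀ bc, p (b₀, b) := by
  simp only [U, eventually_bind, eventually_principal, Set.forall_mem_image]

theorem ev_top {bc : ℝ} {p : ℝ → ℝ → Prop} (h : ∀ᶠ b₀ in 𝓝[<] bc, ∀ b ∈ Set.Icc b₀ bc, p b₀ b) :
    ∀ᶠ b₀ in 𝓝[<] bc, p b₀ bc := by
  filter_upwards [h, self_mem_nhdsWithin] with b₀ h (hb : b₀ < bc) using h bc ⟨hb.le, le_rfl⟩

theorem tendsto_U (bc : ℝ) : Tendsto (fun b₀ => (b₀, bc)) (𝓝[<] bc) (U bc) := fun _ hs =>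
  ev_top (p := fun b₀ b => (b₀, b) ∈ _) (ev_U.1 hs)

theorem tendsto_of_abs {ι : Type*} {l : Filter ι} {f : ι → ℝ} {L : ℝ}
    (h : ∀ t, 0 < t → ∀ᶠ i in l, |f i - L| ≤ t) : Tendsto f l (𝓝 L) :=
  Metric.tendsto_nhds.2 fun _ ht => (h _ (half_pos ht)).mono fun _ hi => hi.trans_lt (half_lt_self ht)

theorem ev_abs {ι : Type*} {l : Filter ι} {f : ι → ℝ} {L t : ℝ} (h : Tendsto f l (𝓝 L)) (ht : 0 < t) :
    ∀ᶠ i in l, |f i - L| ≤ t := (Metric.tendsto_nhds.1 h t ht).mono fun _ hi => hi.le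

/-- the limiting size -/
noncomputable def Ainf (M B θ : ℝ) (a : ℕ) (X Y P Q : ℕ → ℝ) (n : ℕ) : ℝ :=
  M * (B + ∑' j, (if a ≤ j then θ ^ Nat.dist j n * (|P j| + |Q j|) else 0) +
    (|X n| + Y n) * ∑ j ∈ Icc a n, (|P j| + |Q j|))

theorem CL.pos_lim' {δ c s : ℝ} {e x y p q A : ℕ → ℝ} (h : CL δ e x y p q A) (hc : 0 < c)
    (h0 : (fun n => |p n| + |q n|) =O[atTop] pw s) (hp : ∃ᶠ n in atTop, c - e n * (1 + A n) ≤ p n) :
    ∃ a, 0 < a ∧ Tendsto (fun n => x n * p n - y n * q n) atTop (𝓝 a) := by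
  obtain ⟨a, h1, h2, h3, h4⟩ := h.main h0
  refine ⟨a, ?_, h1⟩
  have hδ := h.pos
  rcases lt_trichotomy a 0 with ha | ha | ha
  · exfalso
    have t := bigO_tendsto (bigO_mul ((h.p_asym h2 h3).add (bigO_mul h.he
      ((one_bigO zero_le_one 1).add h3) (by linarith))) inv_bigO (r := -δ) (by linarith)) (by linarith)
    obtain ⟨n, n1, n2, n3⟩ := (hp.and_eventually ((t.eventually (gt_mem_nhds
      (show 0 < -(2 * a / 3) by linarith))).and (eventually_ge_atTop 1))).exists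
    have n0 : (0 : ℝ) < n := by exact_mod_cast n3
    rw [mul_one_div, div_lt_iff₀ n0] at n2
    linarith
  · have t0 : (fun n => |p n| + |q n|) =O[atTop] pw 0 :=
      ((h4 ha).isBigO_one ℝ).trans (one_bigO le_rfl 1)
    have t := bigO_tendsto (bigO_mul h.he ((one_bigO le_rfl 1).add (h.hA 0 le_rfl t0)) (r := -δ)
      (by linarith)) (by linarith)
    obtain ⟨n, n1, n2, n3⟩ := (hp.and_eventually (((h4 ha).eventually (gt_mem_nhds (half_pos hc))).and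
      (t.eventually (gt_mem_nhds (half_pos hc))))).exists
    linarith [le_abs_self (p n), abs_nonneg (q n)]
  · exact ha

namespace Fam
variable {C δ θ M B τ ε ε₂ c C₁ bc : ℝ} {r a : ℕ} {K : ℝ → ℕ} {x y p q D D' : ℝ → ℝ → ℕ → ℝ}
  {X Y P Q : ℕ → ℝ} (h : Fam C δ θ M B τ ε ε₂ c C₁ bc r a K x y p q D D' X Y P Q)
include h

theorem tU {n : ℕ} (hn : a ≤ n) : Tendsto (fun z : ℝ × ℝ => x z.1 z.2 n) (U bc) (𝓝 (X n)) ∧
    Tendsto (fun z : ℝ × ℝ => y z.1 z.2 n) (U bc) (𝓝 (Y n)) ∧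
    Tendsto (fun z : ℝ × ℝ => p z.1 z.2 n) (U bc) (𝓝 (P n)) ∧
    Tendsto (fun z : ℝ × ℝ => q z.1 z.2 n) (U bc) (𝓝 (Q n)) :=
  ⟨tendsto_of_abs fun t ht => ev_U.2 ((h.conv n hn t ht).mono fun _ k b hb => (k b hb).1),
    tendsto_of_abs fun t ht => ev_U.2 ((h.conv n hn t ht).mono fun _ k b hb => (k b hb).2.1),
    tendsto_of_abs fun t ht => ev_U.2 ((h.conv n hn t ht).mono fun _ k b hb => (k b hb).2.2.1),
    tendsto_of_abs fun t ht => ev_U.2 ((h.conv n hn t ht).mono fun _ k b hb => (k b hb).2.2.2)⟩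

theorem tx {n : ℕ} (hn : a ≤ n) : Tendsto (fun b₀ => x b₀ bc n) (𝓝[<] bc) (𝓝 (X n)) :=
  (h.tU hn).1.comp (tendsto_U bc)

theorem ty {n : ℕ} (hn : a ≤ n) : Tendsto (fun b₀ => y b₀ bc n) (𝓝[<] bc) (𝓝 (Y n)) :=
  (h.tU hn).2.1.comp (tendsto_U bc)

theorem tp {n : ℕ} (hn : a ≤ n) : Tendsto (fun b₀ => p b₀ bc n) (𝓝[<] bc) (𝓝 (P n)) :=
  (h.tU hn).2.2.1.comp (tendsto_U bc)

theorem tq {n : ℕ} (hn : a ≤ n) : Tendsto (fun b₀ => q b₀ bc n) (𝓝[<] bc) (𝓝 (Q n)) :=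
  (h.tU hn).2.2.2.comp (tendsto_U bc)

theorem orbc (n : ℕ) : ∀ᶠ b₀ in 𝓝[<] bc, n < K b₀ ∧
    Orb C δ θ M B τ ε a (K b₀) (x b₀ bc) (y b₀ bc) (p b₀ bc) (q b₀ bc) :=
  (h.top.eventually_gt_atTop n).and ((ev_top h.orb).mono fun _ k => k.1)

theorem ter {n : ℕ} (hn : a ≤ n) : Tendsto (fun b₀ => er C δ θ τ (K b₀) (x b₀ bc) (y b₀ bc) n)
    (𝓝[<] bc) (𝓝 (C * (|X n| + Y n) ^ δ)) := by
  have t1 := (((h.tx hn).abs.add (h.ty hn)).rpow_const (Or.inr h.prm.δ0.le)).const_mul C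
  have t2 := ((tendsto_pow_atTop_nhds_zero_of_lt_one h.prm.θ0 h.prm.θ1).comp
    ((tendsto_sub_atTop_nat n).comp h.top)).const_mul τ
  simpa [er] using t1.add t2

theorem step (n : ℕ) (hn : a ≤ n) : Step C δ X Y n ∧ |X n| + Y n ≤ ε := by
  have hY : ∀ n, a ≤ n → 0 < Y n := by
    intro n hn
    induction n, hn using Nat.le_induction with
    | base => exact h.pos
    | succ n hn ih =>
      refine (half_pos ih).trans_le (le_of_tendsto_of_tendsto ((h.ty hn).div_const 2)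
        (h.ty (by omega)) ((h.orbc n).mono fun b₀ ⟨k, O⟩ => ?_))
      have s := O.st n hn k
      have w := (h.prm.wn O hn k).trans h.prm.w
      have := (abs_le.1 (s.abs_dy w le_rfl)).1
      show _ ≤ _
      nlinarith [s.pos, s.e_nonneg]
  have n1 : a ≤ n + 1 := by omega
  refine ⟨⟨hY n hn, hY _ n1, ?_, ?_⟩, le_of_tendsto ((h.tx hn).abs.add (h.ty hn))
    ((h.orbc n).mono fun b₀ ⟨k, O⟩ => O.small n hn k.le)⟩
  · exact le_of_tendsto_of_tendsto (((h.tx n1).sub (h.tx hn)).add ((h.ty hn).pow 2)).abs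
      ((h.ter hn).mul ((h.ty hn).pow 2)) ((h.orbc n).mono fun b₀ ⟨k, O⟩ => (O.st n hn k).hx)
  · exact le_of_tendsto_of_tendsto ((((h.ty n1).log (hY _ n1).ne').sub
      ((h.ty hn).log (hY n hn).ne')).add (h.tx hn)).abs ((h.ter hn).mul ((h.tx hn).abs.add (h.ty hn)))
      ((h.orbc n).mono fun b₀ ⟨k, O⟩ => (O.st n hn k).hy)

theorem crit : (fun n => X n - 1 / (n : ℝ)) =O[atTop] pw (-1 - δ) ∧
    (fun n => Y n - 1 / (n : ℝ)) =O[atTop] pw (-1 - δ) ∧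
    (fun n => X n ^ 2 - Y n ^ 2) =O[atTop] pw (-2 - δ) :=
  KT.crit h.prm.C0 h.prm.δ0 h.prm.δ1 (by linarith [h.prm.w, h.prm.τ0]) h.step h.lim

theorem near : ∀ᶠ n : ℕ in atTop, a ≤ n ∧ 2 ≤ n ∧ |X n - 1 / n| ≤ δ / 2 / 100 / n ∧
    |Y n - 1 / n| ≤ δ / 2 / 100 / n := by
  have := h.prm.δ0
  exact (eventually_ge_atTop a).and ((eventually_ge_atTop 2).and
    ((eventually_le_div this (by positivity) h.crit.1).and
      (eventually_le_div this (by positivity) h.crit.2.1)))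

theorem nearU {n : ℕ} (hn : a ≤ n ∧ 2 ≤ n ∧ |X n - 1 / n| ≤ δ / 2 / 100 / n ∧
    |Y n - 1 / n| ≤ δ / 2 / 100 / n) : ∀ᶠ z : ℝ × ℝ in U bc, |x z.1 z.2 n - 1 / n| ≤ δ / 2 / 50 / n ∧
      |x z.1 z.2 n - 1 / n| ≤ δ / 2 / 8 / n ∧ y z.1 z.2 n ≤ (1 + δ / 2 / 8) / n := by
  have := h.prm.δ0
  have n0 : (0 : ℝ) < n := by exact_mod_cast (show 0 < n by omega)
  have t : 0 < δ / 2 / 100 / n := by positivity
  filter_upwards [ev_abs (h.tU hn.1).1 t, ev_abs (h.tU hn.1).2.1 t] with z h1 h2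
  have a1 := abs_sub_le (x z.1 z.2 n) (X n) (1 / n)
  have a2 := abs_le.1 h2
  have a3 := abs_le.1 hn.2.2.2
  have e1 : δ / 2 / 50 / n = 2 * (δ / 2 / 100 / n) := by ring
  have e2 : δ / 2 / 8 / n = 25 / 2 * (δ / 2 / 100 / n) := by ring
  refine ⟨by linarith [hn.2.2.1], by linarith [hn.2.2.1], by rw [add_div]; linarith⟩

theorem sumU (m : ℕ) : ∀ᶠ z : ℝ × ℝ in U bc, ∑ j ∈ Icc a m, (|p z.1 z.2 j| + |q z.1 z.2 j|) ≤
    ∑ j ∈ Icc a m, (|P j| + |Q j|) + 1 :=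
  (tendsto_finsetSum _ fun _ hj => (h.tU (mem_Icc.1 hj).1).2.2.1.abs.add
    (h.tU (mem_Icc.1 hj).1).2.2.2.abs).eventually (ge_mem_nhds (lt_add_one _))

/-- bounds of the linearised solution at the critical parameter -/
theorem bd : ∃ S m, 0 ≤ S ∧ ∀ N, m ≤ N → ∀ᶠ b₀ in 𝓝[<] bc, ∀ j, a ≤ j → j ≤ K b₀ →
    |p b₀ bc j| + |q b₀ bc j| ≤ S * ((1 + 3 * ε) ^ (j - N) * (j : ℝ) ^ (1 + δ / 2)) := by
  obtain ⟨m, hm⟩ := eventually_atTop.1 h.near
  refine ⟨9 * (∑ j ∈ Icc a m, (|P j| + |Q j|) + 1) + B, m, by have := h.prm.B0; positivity,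
    fun N hN => ?_⟩
  filter_upwards [h.orbc N, (tendsto_U bc).eventually (h.sumU m), (tendsto_U bc).eventually
    ((eventually_all_finset (Icc m N)).2 fun n hn => h.nearU (hm n (mem_Icc.1 hn).1))] with b₀ k1 k2 k3
  exact (h.prm.lin k1.2 h.a1 (hm m le_rfl).1 (hm m le_rfl).2.1 hN k1.1.le
    (fun n n1 n2 => (k3 n (mem_Icc.2 ⟨n1, n2⟩)).2) k2).1

theorem apriori : (fun n => |P n| + |Q n|) =O[atTop] pw (1 + δ / 2) := by
  obtain ⟨S, m, hS, hm⟩ := h.bd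
  refine bigO_iff.2 ⟨S, hS, max (max m a) 1, le_max_right _ _, fun n hn => ?_⟩
  rw [abs_of_nonneg (by positivity)]
  refine le_of_tendsto ((h.tp (by omega)).abs.add (h.tq (by omega)).abs) ?_
  filter_upwards [hm n (by omega), h.orbc n] with b₀ k1 k2
  simpa using k1 n (by omega) k2.1.le

theorem tA {n : ℕ} (hn : a ≤ n) : Tendsto (fun b₀ => Abd M B θ a (K b₀) (x b₀ bc) (y b₀ bc) (p b₀ bc)
    (q b₀ bc) n) (𝓝[<] bc) (𝓝 (Ainf M B θ a X Y P Q n)) := by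
  obtain ⟨S, m, hS, hm⟩ := h.bd
  have θ0 := h.prm.θ0
  have ε0 := h.prm.ε0
  have δ0 := h.prm.δ0
  refine ((tendsto_const_nhds.add ?_).add (((h.tx hn).abs.add (h.ty hn)).mul
    (tendsto_finsetSum _ fun j hj => (h.tp (mem_Icc.1 hj).1).abs.add
      (h.tq (mem_Icc.1 hj).1).abs))).const_mul M
  have hs : Summable fun j => (((Nat.dist j n : ℕ) : ℝ) + 1) ^ 2 * ((1 + θ) / 2) ^ Nat.dist j n :=
    summable_of_sum_le (fun j => by positivity) fun u => sum_dist_le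
      (φ := fun i : ℕ => ((i : ℝ) + 1) ^ 2 * ((1 + θ) / 2) ^ i) (fun i => by positivity)
      (summable_cth θ0 h.prm.θ1) u n
  refine (tendsto_tsum_of_dominated_convergence (f := fun b₀ j => if j ∈ Icc a (K b₀) then
    θ ^ Nat.dist j n * (|p b₀ bc j| + |q b₀ bc j|) else 0)
    (hs.mul_left (S * ((1 + 3 * ε) ^ (n - m) * (n : ℝ) ^ (1 + δ / 2)))) (fun j => ?_) ?_).congr
    fun b₀ => ?_
  · by_cases hj : a ≤ j
    · rw [if_pos hj]
      exact (((h.tp hj).abs.add (h.tq hj).abs).const_mul _).congr'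
        ((h.top.eventually_ge_atTop j).mono fun b₀ k => (if_pos (mem_Icc.2 ⟨hj, k⟩)).symm)
    · simp [hj]
  · filter_upwards [hm m le_rfl] with b₀ k j
    split_ifs with hj
    · have k1 := weight_le (j := j) (Γ := 1 + 3 * ε) (s := 1 + δ / 2) θ0 (by linarith)
        (by nlinarith [h.prm.εθ, h.prm.θ1]) (by linarith) (by linarith [h.prm.δ1]) m (h.a1.trans hn)
      rw [Real.norm_of_nonneg (by positivity), mul_assoc]
      calc _ ≤ θ ^ Nat.dist j n * (S * ((1 + 3 * ε) ^ (j - m) * (j : ℝ) ^ (1 + δ / 2))) := by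
            gcongr; exact k j (mem_Icc.1 hj).1 (mem_Icc.1 hj).2
        _ = S * (θ ^ Nat.dist j n * ((1 + 3 * ε) ^ (j - m) * (j : ℝ) ^ (1 + δ / 2))) := by ring
        _ ≤ _ := by gcongr
    · rw [norm_zero]; positivity
  · rw [tsum_eq_sum (s := Icc a (K b₀)) fun j hj => if_neg hj]
    exact sum_congr rfl fun j hj => if_pos hj

theorem cl : CL δ (fun n => C * (|X n| + Y n) ^ δ) X Y P Q (Ainf M B θ a X Y P Q) := by
  have θ0 := h.prm.θ0
  have δ0 := h.prm.δ0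
  have δ1 := h.prm.δ1
  have hη : ∀ᶠ n : ℕ in atTop, a ≤ n ∧ 2 ≤ n ∧ |X n| + Y n ≤ 3 / n := h.near.mono fun n ⟨n1, n2, n3, n4⟩ =>
    have n0 : (0 : ℝ) < n := by exact_mod_cast (show 0 < n by omega)
    have e : δ / 2 / 100 / n ≤ δ / 2 / 8 / n := by gcongr; norm_num
    ⟨n1, n2, eta3 (κ := δ / 2) n0 (by linarith) (n3.trans e)
      (by rw [add_div]; linarith [(abs_le.1 n4).2])⟩
  have hA : ∀ s, 0 ≤ s → s ≤ 2 → (fun n => |P n| + |Q n|) =O[atTop] pw s →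
      Ainf M B θ a X Y P Q =O[atTop] pw s := fun s s0 s2 hs => by
    obtain ⟨S, hS, hb⟩ := bound_of_isBigO_nat_atTop hs
    have hb' : ∀ j, a ≤ j → |P j| + |Q j| ≤ S * (j : ℝ) ^ s := fun j hj => by
      have j0 : (0 : ℝ) < (j : ℝ) ^ s :=
        rpow_pos_of_pos (by exact_mod_cast (show 0 < j by have := h.a1; omega)) _
      have := hb (x := j) j0.ne'
      rwa [Real.norm_of_nonneg (by positivity), Real.norm_of_nonneg j0.le] at this
    refine IsBigO.const_mul_left (((one_bigO s0 B).add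
      (bigO_of_le (S * (2 * cth θ)) (isBigO_refl _ _) (hη.mono fun n ⟨n1, n2, _⟩ => ?_))).add
      (bigO_of_le (3 * S) (isBigO_refl _ _) (hη.mono fun n ⟨n1, n2, n3⟩ => ?_))) M
    · have f0 : ∀ j, 0 ≤ if a ≤ j then θ ^ Nat.dist j n * (|P j| + |Q j|) else 0 := fun j => by
        split_ifs <;> positivity
      rw [abs_of_nonneg (tsum_nonneg f0)]
      refine Real.tsum_le_of_sum_le f0 fun u => ?_
      have k := mul_le_mul_of_nonneg_left (sum_dist_le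
        (φ := fun i : ℕ => ((i : ℝ) + 1) ^ 2 * ((1 + θ) / 2) ^ i) (fun i => by positivity)
        (summable_cth θ0 h.prm.θ1) u n) (show 0 ≤ S * (n : ℝ) ^ s by positivity)
      refine le_trans ?_ (k.trans (le_of_eq (by rw [cth]; ring)))
      rw [mul_sum]
      refine sum_le_sum fun j _ => ?_
      split_ifs with hj
      · have k1 := weight_le (j := j) (n := n) (Γ := 1) θ0 le_rfl (by linarith [h.prm.θ1]) s0 s2 0
          (by omega)
        simp only [one_pow, one_mul] at k1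
        calc _ ≤ θ ^ Nat.dist j n * (S * (j : ℝ) ^ s) := by gcongr; exact hb' j hj
          _ = S * (θ ^ Nat.dist j n * (j : ℝ) ^ s) := by ring
          _ ≤ _ := by rw [mul_assoc]; gcongr
      · positivity
    · have n0 : (0 : ℝ) < n := by exact_mod_cast (show 0 < n by omega)
      have e0 := (h.step n n1).1.eta_pos
      have k : ∑ j ∈ Icc a n, (|P j| + |Q j|) ≤ n * (S * (n : ℝ) ^ s) := by
        refine (sum_le_card_nsmul _ _ (S * (n : ℝ) ^ s) fun j hj => (hb' j (mem_Icc.1 hj).1).trans ?_).trans ?_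
        · gcongr; exact (mem_Icc.1 hj).2
        · rw [nsmul_eq_mul, Nat.card_Icc]; gcongr; have := h.a1; omega
      rw [abs_of_nonneg (by positivity)]
      calc _ ≤ 3 / n * (n * (S * (n : ℝ) ^ s)) := by gcongr
        _ = _ := by field_simp
  refine ⟨δ0, δ1, h.crit.1, h.crit.2.1, bigO_of_le (4 * C) (isBigO_refl _ _)
    (hη.mono fun n ⟨n1, n2, n3⟩ => ?_), (eventually_ge_atTop a).mono fun n hn => ?_, fun s s0 hs => ?_⟩
  · have e0 := (h.step n n1).1.eta_pos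
    have C0 := h.prm.C0
    have := mul_le_mul_of_nonneg_left (rpow_le_four (t := n)
      (by exact_mod_cast (show 1 ≤ n by omega)) δ0.le δ1.le e0.le (n3.trans (by gcongr; norm_num))) C0
    rw [abs_of_nonneg (by positivity)]; linarith
  · have n1 : a ≤ n + 1 := by omega
    have t := ((h.ter hn).mul ((h.tx hn).abs.add (h.ty hn))).mul (h.tA hn)
    exact ⟨(h.step n hn).1, le_of_tendsto_of_tendsto (((h.tp n1).sub (h.tp hn)).add
      (((h.ty hn).const_mul 2).mul (h.tq hn))).abs t ((h.orbc n).mono fun b₀ ⟨k, O⟩ => (O.ln n hn k).hp),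
      le_of_tendsto_of_tendsto ((((h.tq n1).sub (h.tq hn)).add ((h.tx hn).mul (h.tq hn))).add
      ((h.ty hn).mul (h.tp hn))).abs t ((h.orbc n).mono fun b₀ ⟨k, O⟩ => (O.ln n hn k).hq),
      le_of_tendsto_of_tendsto ((h.tp hn).abs.add (h.tq hn).abs) (h.tA hn)
      ((h.orbc n).mono fun b₀ ⟨k, O⟩ => (O.ln n hn k).le)⟩
  · rcases le_total s 2 with h2 | h2
    · exact hA s s0 h2 hs
    · exact (hA _ (by linarith) (by linarith) h.apriori).trans (pw_bigO (by linarith))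

/-- the linearised invariant has a positive limit -/
theorem alpha : ∃ α, 0 < α ∧ Tendsto (fun n => X n * P n - Y n * Q n) atTop (𝓝 α) :=
  h.cl.pos_lim' h.c0 h.apriori ((h.nd.and_eventually (eventually_ge_atTop a)).mono fun _ ⟨k, hn⟩ =>
    le_of_tendsto_of_tendsto (((h.ter hn).mul ((h.tA hn).const_add 1)).const_sub c) (h.tp hn) k)

end Fam

end Crest.Agent.T145.KT
end

-- ▼ part T145/KtL_54
section

/-!
# Row 145 (helper54): the discrete Kosterlitz-Thouless flow, part L (families: the exit scale)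
-/

set_option autoImplicit false

namespace Crest.Agent.T145.KT

open Filter Topology Finset Asymptotics Real

namespace Fam
variable {C δ θ M B τ ε ε₂ c C₁ bc : ℝ} {r a : ℕ} {K : ℝ → ℕ} {x y p q D D' : ℝ → ℝ → ℕ → ℝ}
  {X Y P Q : ℕ → ℝ} (h : Fam C δ θ M B τ ε ε₂ c C₁ bc r a K x y p q D D' X Y P Q)
include h

/-- the orbits follow the critical orbit up to the intermediate scale -/
theorem window {N : ℝ → ℕ} (hN : Tendsto N (𝓝[<] bc) atTop) (hNK : ∀ b₀, N b₀ ≤ K b₀ - K b₀ / 20)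
    (hμ : Tendsto (fun b₀ => (bc - b₀) * (N b₀ : ℝ) ^ (2 + δ / 2)) (𝓝[<] bc) (𝓝 0)) :
    ∃ (m : ℕ) (C₂ L : ℝ), a ≤ m ∧ 2 ≤ m ∧ ∀ᶠ b₀ in 𝓝[<] bc, m ≤ N b₀ ∧ N b₀ < K b₀ ∧
      |D b₀ bc (N b₀)| ≤ C₂ * (N b₀ : ℝ) ^ (-2 - δ) ∧
      ∀ b ∈ Set.Icc b₀ bc, Cls δ (x b₀ b) (y b₀ b) m (N b₀) ∧
        |D b₀ b (N b₀) - (x b₀ b (N b₀) ^ 2 - y b₀ b (N b₀) ^ 2)| ≤
          9 * (4 * C + 5) * (N b₀ : ℝ) ^ (-2 - δ) ∧ ∀ k, m ≤ k → k ≤ N b₀ →
        |D' b₀ b (N b₀) - 2 * (x b₀ b k * p b₀ b k - y b₀ b k * q b₀ b k)| ≤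
          L * (k : ℝ) ^ (-(δ / 2)) := by
  have θ0 := h.prm.θ0
  have θ1 := h.prm.θ1
  have δ0 := h.prm.δ0
  have δ1 := h.prm.δ1
  obtain ⟨C₃, -, m₃, -, h₃⟩ := bigO_iff.1 h.crit.2.2
  have t₃ := (tendsto_pw (s := -δ) (by linarith)).const_mul (C₃ + 96 * C + 106)
  rw [mul_zero] at t₃
  obtain ⟨m, hm⟩ := eventually_atTop.1 (h.near.and ((eventually_geom θ0 θ1 (|C₁| * 2 ^ r) r).and
    ((eventually_geom θ0 θ1 1 0).and ((eventually_ge_atTop m₃).and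
      (t₃.eventually (ge_mem_nhds (show 0 < δ / 2 / 1600 by positivity)))))))
  obtain ⟨B₁, hB₁⟩ : ∃ B₁, B₁ = ∑ j ∈ Icc a m, (|P j| + |Q j|) + 1 := ⟨_, rfl⟩
  obtain ⟨L, hL⟩ : ∃ L, L = Mth M θ * (10 * B₁ + 2 * B) := ⟨_, rfl⟩
  have L0 : 0 ≤ L := by
    have := Mth_nonneg h.prm.M0 θ0
    have := h.prm.B0
    rw [hL, hB₁]; positivity
  have tL := hμ.const_mul (9 * L)
  rw [mul_zero] at tL
  obtain ⟨am, m2, -⟩ := (hm m le_rfl).1
  refine ⟨m, C₃ + 96 * C + 106, 2 * (72 * (4 * C + 5) * L * ks (-(δ / 2))) + 3 * (4 * C + 5) * L, am, m2, ?_⟩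
  filter_upwards [h.orb, ev_U.1 (h.nearU (hm m le_rfl).1), ev_U.1 (h.sumU m), h.amb,
    hN.eventually_ge_atTop m, h.top.eventually_ge_atTop 20,
    tL.eventually (gt_mem_nhds (show 0 < δ / 2 / 1600 by positivity)), self_mem_nhdsWithin]
    with b₀ k1 k2 k3 k4 k5 k6 k7 (k8 : b₀ < bc)
  have k9 := hNK b₀
  rw [← hB₁] at k3
  have hθ : ∀ n, m ≤ n → n ≤ N b₀ → θ ^ (K b₀ - n) ≤ 1 / (n : ℝ) ^ 3 := fun n n1 n2 =>
    (pow_le_pow_of_le_one θ0 θ1.le (show n / 20 - 1 ≤ K b₀ - n by omega)).trans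
      (by simpa using (hm n n1).2.2.1)
  have hD : ∀ n, m ≤ n → n ≤ N b₀ → |D b₀ bc n| ≤
      (C₃ + 96 * C + 106) * (n : ℝ) ^ (-2 - δ) := fun n n1 n2 => by
    obtain ⟨⟨g1, g2, g3, g4⟩, g5, -, g6, -⟩ := hm n n1
    have n0 : (0 : ℝ) < n := by exact_mod_cast (show 0 < n by omega)
    have hj : ∀ j, n ≤ j → j ≤ n + 1 → |x b₀ bc j - X j| ≤ 1 / (n : ℝ) ^ 3 := fun j j1 j2 => by
      refine (k4 j (by omega) (by omega)).trans (le_trans ?_ g5)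
      have : (j : ℝ) ≤ 2 * n := by exact_mod_cast (show j ≤ 2 * n by omega)
      rw [mul_assoc |C₁|, ← mul_pow]
      exact mul_le_mul (mul_le_mul (le_abs_self _) (by gcongr) (by positivity) (abs_nonneg _))
        (pow_le_pow_of_le_one θ0 θ1.le (by omega)) (by positivity) (by positivity)
    have e1 : δ / 2 / 100 / n ≤ 1 / 2 / n := div_le_div_of_nonneg_right (by linarith) n0.le
    have e2 : (3 : ℝ) / 2 / n = 1 / 2 / n + 1 / n := by ring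
    have e3 := abs_add_le (X n - 1 / n) (1 / n)
    rw [sub_add_cancel, abs_of_pos (show (0 : ℝ) < 1 / n by positivity)] at e3
    exact h.prm.cmp (k1 bc ⟨k8.le, le_rfl⟩).1 g1 (by omega) g2 (h.step n g1).1 (h.step n g1).2
      (hj n le_rfl (by omega)) (hj _ (by omega) le_rfl) (by linarith)
      (by linarith [(abs_le.1 g4).2]) (hθ n n1 n2) (h₃ n g6)
      ((k1 bc ⟨k8.le, le_rfl⟩).2 n g1 (by omega)).val
  have hcl := h.prm.close (B₁ := B₁) h.a1 am m2 k5 (by omega)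
    (fun b hb => ⟨(k1 b hb).1, (k1 b hb).2, (k2 b hb).1, k3 b hb⟩) fun n n1 n2 => by
      have n0 : (0 : ℝ) < n := by exact_mod_cast (show 0 < n by omega)
      have e1 : (n : ℝ) ^ (-2 - δ) * (n : ℝ) ^ 2 = (n : ℝ) ^ (-δ) := by
        rw [← rpow_two, ← rpow_add n0]; ring_nf
      have e2 : (n : ℝ) ^ (δ / 2) * (n : ℝ) ^ 2 ≤ (N b₀ : ℝ) ^ (2 + δ / 2) := by
        rw [← rpow_two, ← rpow_add n0, add_comm]; gcongr
      have e3 := mul_le_mul_of_nonneg_right (hD n n1 n2) (sq_nonneg (n : ℝ))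
      have e4 := mul_le_mul_of_nonneg_left e2 (show 0 ≤ 9 * L * (bc - b₀) by
        have := sub_pos.2 k8; positivity)
      have e5 := (hm n n1).2.2.2.2
      rw [mul_assoc, e1] at e3
      rw [← hL, lt_div_iff₀ (by positivity)]
      simp only [pw] at e5
      linarith
  refine ⟨k5, by omega, hD _ k5 le_rfl, fun b hb => ?_⟩
  obtain ⟨i1, i2⟩ := h.prm.inv (k1 b hb).1 (am.trans k5) (by omega) (by omega)
    (eta3 (by exact_mod_cast (show 0 < N b₀ by omega)) (by linarith) (hcl b hb _ k5 le_rfl).1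
      (hcl b hb _ k5 le_rfl).2)
    ((h.prm.lin (k1 b hb).1 h.a1 am m2 k5 (by omega) (hcl b hb) (k3 b hb)).2 _ k5 le_rfl (by omega))
    (hθ _ k5 le_rfl) ((k1 b hb).2 _ (am.trans k5) (by omega))
  refine ⟨hcl b hb, i1, fun k j1 j2 => ?_⟩
  have i3 := abs_le.1 (h.prm.tele (k1 b hb).1 h.a1 am m2 j1 j2 (by omega) (hcl b hb) (k3 b hb) hθ)
  have i4 : (N b₀ : ℝ) ^ (-(δ / 2)) ≤ (k : ℝ) ^ (-(δ / 2)) := rpow_le_rpow_of_nonpos
    (by exact_mod_cast (show 0 < k by omega)) (by exact_mod_cast j2) (by linarith)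
  rw [← hL] at i2 i3
  have i5 := abs_le.1 (i2.trans (mul_le_mul_of_nonneg_left i4 (by have := h.prm.C0; positivity)))
  rw [abs_le]; constructor <;> linarith

/-- **the exit scale**: `√(bc - b₀) K b₀` has a positive limit -/
theorem scale : ∃ A, 0 < A ∧ Tendsto (fun b₀ => √(bc - b₀) * K b₀) (𝓝[<] bc) (𝓝 A) := by
  have θ0 := h.prm.θ0
  have θ1 := h.prm.θ1
  have δ0 := h.prm.δ0
  have δ1 := h.prm.δ1
  have C0 := h.prm.C0
  have ε0 := h.prm.ε0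
  have ε2 := h.ε0
  obtain ⟨α, α0, hα⟩ := h.alpha
  obtain ⟨N₀, t1, t2, t3⟩ := exists_window (half_pos δ0) (half_lt_self δ0)
  have hμ0 : ∀ᶠ b₀ in 𝓝[<] bc, 0 < bc - b₀ := eventually_mem_nhdsWithin.mono fun _ hb => sub_pos.2 hb
  have tμ' : Tendsto (fun b₀ => bc - b₀) (𝓝[<] bc) (𝓝 0) := by
    simpa using ((tendsto_id (x := 𝓝 bc)).const_sub bc).mono_left nhdsWithin_le_nhds
  have tμ : Tendsto (fun b₀ => bc - b₀) (𝓝[<] bc) (𝓝[>] 0) := tendsto_nhdsWithin_iff.2 ⟨tμ', hμ0⟩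
  obtain ⟨N, hN⟩ : ∃ N : ℝ → ℕ, ∀ b₀, N b₀ = min (N₀ (bc - b₀)) (K b₀ - K b₀ / 20) := ⟨_, fun _ => rfl⟩
  have tN : Tendsto N (𝓝[<] bc) atTop := tendsto_atTop.2 fun n => by
    filter_upwards [(t1.comp tμ).eventually_ge_atTop n, h.top.eventually_ge_atTop (2 * n)] with b₀ k1 k2
    rw [hN]; exact le_min k1 (by omega)
  have hNK : ∀ b₀, N b₀ ≤ K b₀ - K b₀ / 20 := fun b₀ => hN b₀ ▸ min_le_right _ _
  have s2 : Tendsto (fun b₀ => (bc - b₀) * (N b₀ : ℝ) ^ (2 + δ / 2)) (𝓝[<] bc) (𝓝 0) := by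
    refine squeeze_zero' (hμ0.mono fun b₀ k => by positivity) (hμ0.mono fun b₀ k => ?_) (t2.comp tμ)
    have : N b₀ ≤ N₀ (bc - b₀) := hN b₀ ▸ min_le_left _ _
    simp only [Function.comp]; gcongr
  obtain ⟨m, C₂, L, am, m2, W⟩ := h.window tN hNK s2
  have hb : ∀ {s : ℝ → ℝ → Prop}, (∀ᶠ b₀ in 𝓝[<] bc, ∀ b ∈ Set.Icc b₀ bc, s b₀ b) →
      ∀ᶠ b₀ in 𝓝[<] bc, s b₀ b₀ := fun k => by
    filter_upwards [k, hμ0] with b₀ k1 k2 using k1 b₀ ⟨le_rfl, by linarith⟩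
  have W' : ∀ᶠ b₀ in 𝓝[<] bc, |x b₀ b₀ (N b₀) - 1 / N b₀| ≤ δ / 2 / 8 / N b₀ ∧
      y b₀ b₀ (N b₀) ≤ (1 + δ / 2 / 8) / N b₀ :=
    hb (s := fun b₀ b => |x b₀ b (N b₀) - 1 / N b₀| ≤ _ ∧ y b₀ b (N b₀) ≤ _)
      (W.mono fun _ k b k' => (k.2.2.2 b k').1 _ k.1 le_rfl)
  have O := (hb h.orb).mono fun _ k => k.1
  have hEq : ∀ᶠ b₀ in 𝓝[<] bc, N₀ (bc - b₀) = N b₀ := by
    filter_upwards [W, W', O, h.exit, (tendsto_natCast_atTop_atTop.comp h.top).eventually_gt_atTop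
      (6 * (1 / ε₂))] with b₀ k1 k2 k3 k4 (k5 : _ < (K b₀ : ℝ))
    by_contra hne
    have e : N b₀ + K b₀ / 20 = K b₀ := by have := hN b₀; omega
    have e1 : (N b₀ : ℝ) + (K b₀ / 20 : ℕ) = K b₀ := by exact_mod_cast e
    have e2 : 20 * ((K b₀ / 20 : ℕ) : ℝ) ≤ K b₀ := by exact_mod_cast Nat.mul_div_le _ _
    have n0 : (0 : ℝ) < N b₀ := by exact_mod_cast (show 0 < N b₀ by omega)
    have a1 := eta_inv k1.2.1.le fun j j1 j2 =>
      ⟨k3.st j (by omega) j2, (h.prm.wn k3 (by omega) j2).trans h.prm.w⟩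
    have a2 := one_div_le_one_div_of_le (add_pos_of_nonneg_of_pos (abs_nonneg (x b₀ b₀ (N b₀)))
      (k3.st _ (by omega) k1.2.1).pos) (eta3 n0 (by linarith) k2.1 k2.2)
    have a3 := one_div_le_one_div_of_le ε2 k4
    rw [one_div_div] at a2
    linarith
  have s3 : ∀ c t, 0 < t → ∀ᶠ b₀ in 𝓝[<] bc, c * (N b₀ : ℝ) ^ (-2 - δ) ≤ t * (bc - b₀) := by
    intro c t ht
    filter_upwards [(t3.comp tμ).eventually_ge_atTop (c / t), hEq, tN.eventually_ge_atTop 1]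
      with b₀ k1 k2 k3
    have n0 : (0 : ℝ) < N b₀ := by exact_mod_cast k3
    simp only [Function.comp, k2] at k1
    rw [div_le_iff₀ ht] at k1
    rw [show -2 - δ = -(2 + δ) by ring, rpow_neg n0.le, ← div_eq_mul_inv, div_le_iff₀ (by positivity)]
    linarith
  have hinv : ∀ t, 0 < t → ∀ᶠ b₀ in 𝓝[<] bc,
      |y b₀ b₀ (N b₀) ^ 2 - x b₀ b₀ (N b₀) ^ 2 - 2 * α * (bc - b₀)| ≤ t * (bc - b₀) := by
    intro t ht
    have u := (tendsto_pw (s := -(δ / 2)) (by linarith)).const_mul L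
    rw [mul_zero] at u
    obtain ⟨k, k1, k2, k3⟩ := ((eventually_ge_atTop m).and ((u.eventually
      (ge_mem_nhds (show 0 < t / 12 by positivity))).and (ev_abs hα (show 0 < t / 12 by positivity)))).exists
    obtain ⟨u1, u2, u3, u4⟩ := h.tU (am.trans k1)
    filter_upwards [W, h.orb, ev_U.1 (ev_abs ((u1.mul u3).sub (u2.mul u4))
      (show 0 < t / 12 by positivity)), tN.eventually_ge_atTop k, s3 C₂ _ (show 0 < t / 4 by positivity),
      hμ0, s3 (9 * (4 * C + 5)) _ (show 0 < t / 4 by positivity)] with b₀ g1 g2 g3 g4 g5 g6 g7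
    have := Convex.norm_image_sub_le_of_norm_hasDerivWithin_le (s := Set.Icc b₀ bc) (C := t / 2)
      (f := fun b => D b₀ b (N b₀) - 2 * α * b) (f' := fun b => D' b₀ b (N b₀) - 2 * α * 1)
      (fun b k' => (((g2 b k').2 (N b₀) (by omega) g1.2.1).der.sub
        ((hasDerivAt_id' b).const_mul (2 * α))).hasDerivWithinAt)
      (fun b k' => by
        have a1 := abs_le.1 ((g1.2.2.2 b k').2.2 k k1 g4)
        have a2 := abs_le.1 (g3 b k')
        have a3 := abs_le.1 k3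
        simp only [pw] at k2 a2
        rw [Real.norm_eq_abs, abs_le]; constructor <;> linarith)
      (convex_Icc _ _) (Set.left_mem_Icc.2 (by linarith)) (Set.right_mem_Icc.2 (by linarith))
    rw [Real.norm_eq_abs, Real.norm_of_nonneg g6.le] at this
    have a1 := abs_le.1 this
    have a2 := abs_le.1 (g1.2.2.1.trans g5)
    have a3 := abs_le.1 ((g1.2.2.2 b₀ ⟨le_rfl, by linarith⟩).2.1.trans g7)
    rw [abs_le]; constructor <;> linarith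
  obtain ⟨l, hl⟩ : ∃ l : ℝ → ℝ, ∀ b₀, l b₀ = √(2 * α) * √(bc - b₀) := ⟨_, fun _ => rfl⟩
  have l0 : ∀ᶠ b₀ in 𝓝[<] bc, 0 < l b₀ ∧ l b₀ ^ 2 = 2 * α * (bc - b₀) := hμ0.mono fun b₀ k => by
    rw [hl, mul_pow, sq_sqrt k.le, sq_sqrt (by positivity)]; exact ⟨by positivity, rfl⟩
  have tl : Tendsto l (𝓝[<] bc) (𝓝 0) := by
    simpa only [← hl, sqrt_zero, mul_zero] using tμ'.sqrt.const_mul √(2 * α)
  have tlN : Tendsto (fun b₀ => l b₀ * N b₀) (𝓝[<] bc) (𝓝 0) := by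
    have u := (s2.const_mul (2 * α)).sqrt
    rw [mul_zero, sqrt_zero] at u
    refine squeeze_zero' (l0.mono fun b₀ k => mul_nonneg k.1.le (Nat.cast_nonneg _)) ?_ u
    filter_upwards [l0, hμ0, tN.eventually_ge_atTop 1] with b₀ k1 k2 k3
    refine le_sqrt_of_sq_le ?_
    rw [mul_pow, k1.2, mul_assoc, ← rpow_two]
    gcongr
    · exact_mod_cast k3
    · linarith
  obtain ⟨k, hk⟩ := exists_pow_lt_of_lt_one (rpow_pos_of_pos ε2 δ) (show (1 + θ) / 2 < 1 by linarith)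
  have main : Tendsto (fun b₀ => l b₀ * (((K b₀ - k : ℕ) : ℝ) - N b₀)) (𝓝[<] bc) (𝓝 π) := by
    refine tendsto_of_abs fun t ht => ?_
    obtain ⟨ρ, ρ0, hρ⟩ := exit_hor (C := C + 1) (ε₂ := ε₂ / (1 + 3 * ε) ^ k) (by linarith) δ0 ε0
      (by positivity) h.prm.w1 ht
    filter_upwards [W, W', O, h.exit, l0, hinv (ρ * (2 * α)) (by positivity),
      s3 ((C + 1 + 1) * 4 * 2) (ρ * (2 * α)) (by positivity), h.top.eventually_ge_atTop (20 * k),
      tlN.eventually (ge_mem_nhds (half_pos ρ0)), (tendsto_natCast_atTop_atTop.comp tN).eventually_ge_atTop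
      (max 4 (2 / ρ))] with b₀ g1 g2 g3 g4 g5 g6 g7 g8 g9 (g10 : _ ≤ (N b₀ : ℝ))
    have := hNK b₀
    have n4 := (le_max_left _ _).trans g10
    have n0 : (0 : ℝ) < N b₀ := by linarith
    have a1 := abs_le.1 g2.1
    have a2 : δ / 2 / 8 / N b₀ ≤ 1 / 3 * (1 / N b₀) := by
      rw [mul_one_div]; exact div_le_div_of_nonneg_right (by linarith) n0.le
    have a3 : 0 < 1 / (N b₀ : ℝ) := by positivity
    have a4 : 1 / (N b₀ : ℝ) ≤ 1 / 4 := by gcongr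
    have a5 : 2 * (1 / (N b₀ : ℝ)) ≤ ρ := by
      have := (le_max_right _ _).trans g10
      rw [div_le_iff₀ ρ0] at this
      rw [mul_one_div, div_le_iff₀ n0]; linarith
    refine hρ _ (y b₀ b₀) _ _ _ (by omega) (fun n n1 n2 => ⟨g3.step C0 δ0.le δ1.le θ0 h.prm.τ0 ε0.le
      h.prm.εθ h.prm.w ε2.le hk.le g4 n (by omega) (by omega) (by omega),
      g3.small n (by omega) (by omega)⟩) ?_ g5.1 ?_ (by linarith) ?_ (by rw [g5.2]; linarith)
    · have := g4.trans (g3.eta_back C0 δ0.le θ0 θ1.le h.prm.τ0 ε0.le h.prm.w (K b₀ - k) (by omega)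
        (by omega))
      rwa [show K b₀ - (K b₀ - k) = k by omega, ← div_le_iff₀' (by positivity)] at this
    · rw [← le_div_iff₀ n0, div_eq_mul_one_div (ρ / 2)] at g9
      nlinarith
    · have b1 : 3 * x b₀ b₀ (N b₀) ≤ 4 / N b₀ := by rw [div_eq_mul_one_div]; linarith
      have b2 := (om_le (C := C + 1) δ1.le δ0.le (by linarith) (by linarith)).trans
        (mul_le_mul_of_nonneg_left (rpow_le_four (by linarith) δ0.le δ1.le (by linarith) b1)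
          (by linarith))
      have b3 : x b₀ b₀ (N b₀) ^ 2 ≤ 2 * (1 / N b₀) ^ 2 := by nlinarith
      have e1 : (N b₀ : ℝ) ^ (-2 - δ) = (N b₀ : ℝ) ^ (-δ) * (1 / N b₀) ^ 2 := by
        rw [one_div, inv_pow, ← rpow_two, ← rpow_neg n0.le, ← rpow_add n0]; ring_nf
      have b4 := mul_le_mul b2 b3 (sq_nonneg _) (by positivity)
      rw [e1] at g7
      rw [g5.2]; linarith
  have fin : Tendsto (fun b₀ => l b₀ * K b₀) (𝓝[<] bc) (𝓝 π) := by
    have := (main.add tlN).add (tl.mul_const (k : ℝ))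
    simp only [zero_mul, add_zero] at this
    refine this.congr' ((h.top.eventually_ge_atTop k).mono fun b₀ g => ?_)
    simp only [Nat.cast_sub g]; ring
  have α1 : 0 < √(2 * α) := by positivity
  refine ⟨π / √(2 * α), by positivity, (fin.div_const _).congr fun b₀ => ?_⟩
  rw [hl]; field_simp

end Fam

end Crest.Agent.T145.KT
end

-- ▼ part T145/KtM_54

/-!
# Row 145 (helper54): the discrete Kosterlitz-Thouless flow, part M (adapters for the glue)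
-/

set_option autoImplicit false

namespace Crest.Agent.T145.KT

open Filter Topology Finset


/-- the standard instance of `Inv` -/
theorem Inv.of_deriv {C δ θ M B τ ε b : ℝ} {a K n : ℕ} {x y : ℝ → ℕ → ℝ} {p q : ℕ → ℝ}
    (O : Orb C δ θ M B τ ε a K (x b) (y b) p q) (h1 : a ≤ n) (h2 : n < K)
    (hx : HasDerivAt (fun b => x b n) (p n) b) (hy : HasDerivAt (fun b => y b n) (q n) b) :
    Inv C δ θ M B τ a K (x b) (y b) p q (fun b => x b n ^ 2 - y b n ^ 2)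
      (2 * (x b n * p n - y b n * q n)) b n := by
  have := (O.st n h1 h2).e_nonneg
  have := (O.st n h1 h2).pos
  have := (O.ln n h1 h2).A_nonneg
  refine ⟨((hx.pow 2).sub (hy.pow 2)).congr_deriv (by simp; ring), ?_, ?_⟩ <;>
    rw [sub_self, abs_zero] <;> positivity

/-- on a rough orbit `y` decays like `1 / n`, uniformly -/
theorem rough_y {C δ ε : ℝ} {x y : ℕ → ℝ} (hC : 0 ≤ C) (hδ : 0 ≤ δ) (hε : om C δ ε ≤ 1 / 100) {a : ℕ}
    (h : ∀ j, a ≤ j → Step C δ x y j ∧ |x j| + y j ≤ ε) (hx : ∀ j, a ≤ j → 0 ≤ x j) (n : ℕ)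
    (hn : a ≤ n) : y n * ((n : ℝ) - a) ≤ 5 / 4 := by
  obtain ⟨L, hL, -, -, hs⟩ := sup hC hδ hε h hx
  suffices k : 4 / 5 * ((n : ℝ) - a) ≤ 1 / y n by
    rw [le_div_iff₀ (h n hn).1.pos] at k; linarith
  induction n, hn using Nat.le_induction with
  | base => simpa using (h a le_rfl).1.pos.le
  | succ n hn ih =>
    obtain ⟨s, hη⟩ := h n hn
    obtain ⟨k1, k2, k3⟩ := hs n hn
    have y0 := s.pos
    have y1 := s.pos'
    have x0 := hx n hn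
    have m0 : 0 ≤ min ε (3 * x n) := le_min (s.eta_pos.le.trans hη) (by linarith)
    have k4 : 30 * om C δ (min ε (3 * x n)) * x n * (x n - L) ≤ 30 * (1 / 100) * x n * x n := by
      have := om_nonneg (δ := δ) hC m0
      have := (om_mono hC hδ m0 (min_le_left _ _)).trans hε
      have := sub_nonneg.2 k1
      gcongr; linarith
    have k5 : y n ≤ 23 / 20 * x n := by
      refine (abs_le_of_sq_le_sq' ?_ (by positivity)).2
      nlinarith [(abs_le.1 k3).1, sq_nonneg L]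
    have k6 := (abs_le.1 (St.dy s ((s.w_le hC hδ hη).trans hε) le_rfl)).2
    have k7 := mul_le_mul_of_nonneg_right (k2 n le_rfl) y0.le
    have k8 := mul_le_mul_of_nonneg_right k5 y0.le
    have k9 : 1 / y n + 4 / 5 ≤ 1 / y (n + 1) := by
      rw [div_add' _ _ _ y0.ne', div_le_div_iff₀ y0 y1]
      nlinarith [mul_pos y0 y0, mul_pos (mul_pos y0 y0) y0]
    push_cast; linarith

end Crest.Agent.T145.KT
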