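import Crest.Agent.T145.XyG_48

/-!
# Row 145, XY model (helper48): monotonicity and supermultiplicativity of the two point function,
elementary properties of `C` and `m`
-/

set_option autoImplicit false
set_option linter.unusedSectionVars false

open Finset Filter Topology Crest.ProbabilityR.SpinModel

noncomputable section

namespace Crest.Agent.T145.Xy48

variable {V V' : Finset (ℤ × ℤ)} {b b' : ℤ × ℤ → Fin 2 → ℝ}

/-- Ginibre: translation, larger domain, larger strengths -/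
theorem twoPoint_mono (t : ℤ × ℤ) (hV : ∀ u ∈ V, u + t ∈ V') (hb : ∀ u i, 0 ≤ b u i)
    (hb' : ∀ u i, 0 ≤ b' u i) (hbb : ∀ u i, b u i ≤ b' (u + t) i) (x y : V) (x' y' : V')
    (hx : (x' : ℤ × ℤ) = x + t) (hy : (y' : ℤ × ℤ) = y + t) :
    twoPoint 2 V b x y ≤ twoPoint 2 V' b' x' y' := by
  set φ : V → V' := fun u => ⟨u + t, hV u u.2⟩ with hφ
  set ψ : EF V → EF V' := fun e => ⟨(e.1.1 + t, e.1.2), mem_EF.2 ⟨hV _ (mem_EF.1 e.2).1, by
    rw [add_right_comm]; exact hV _ (mem_EF.1 e.2).2⟩⟩ with hψ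
  have e1 : x' = φ x := Subtype.ext hx
  have e2 : y' = φ y := Subtype.ext hy
  rw [twoPoint_eq, twoPoint_eq, e1, e2]
  have h1 : Function.Injective φ := fun u v h =>
    Subtype.ext (add_right_cancel (congrArg Subtype.val h))
  have h2 : Function.Injective ψ := fun u v h => by
    have h1 := congrArg Subtype.val h
    simp only [hψ, Prod.mk.injEq, add_left_inj] at h1
    exact Subtype.ext (Prod.ext h1.1 h1.2)
  have h3 : ∀ e, sE V' (ψ e) = φ (sE V e) := fun e => rfl
  have h4 : ∀ e, tE V' (ψ e) = φ (tE V e) := fun e => Subtype.ext (add_right_comm _ _ _)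
  exact cur_emb (src := sE V) (tgt := tE V) (src' := sE V') (tgt' := tE V')
    (b := fun e => b e.1.1 e.1.2) (b' := fun e => b' e.1.1 e.1.2) h1 h2 h3 h4
    (fun e => hb _ _) (fun e => hb' _ _) (fun e => hbb _ _) x y

theorem twoPoint_nonneg (hb : ∀ u i, 0 ≤ b u i) (x y : V) : 0 ≤ twoPoint 2 V b x y := by
  rw [twoPoint_eq]
  exact div_nonneg (cur_nonneg (fun _ => hb _ _) _) (cur_nonneg (fun _ => hb _ _) _)

theorem twoPoint_le_one (hb : ∀ u i, 0 ≤ b u i) (x y : V) : twoPoint 2 V b x y ≤ 1 := by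
  rw [twoPoint_eq, div_le_one (cur_zero_pos fun _ => hb _ _)]
  exact cur_le _

theorem twoPoint_self (hb : ∀ u i, 0 ≤ b u i) (x : V) : twoPoint 2 V b x x = 1 := by
  rw [twoPoint_eq, sub_self, div_self (cur_zero_pos fun _ => hb _ _).ne']

theorem twoPoint_comm (x y : V) : twoPoint 2 V b x y = twoPoint 2 V b y x := by
  rw [twoPoint_eq, twoPoint_eq, ← cur_neg, neg_sub]

/-- Griffiths: supermultiplicativity -/
theorem twoPoint_super (hb : ∀ u i, 0 ≤ b u i) (x r y : V) :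
    twoPoint 2 V b x r * twoPoint 2 V b r y ≤ twoPoint 2 V b x y := by
  have h0 := cur_zero_pos (src := sE V) (tgt := tE V) (b := fun e => b e.1.1 e.1.2) fun _ => hb _ _
  have h1 := cur_super (src := sE V) (tgt := tE V) (b := fun e => b e.1.1 e.1.2)
    (fun _ => hb _ _) r x y
  rw [twoPoint_eq, twoPoint_eq, twoPoint_eq, div_mul_div_comm, div_le_div_iff₀ (mul_pos h0 h0) h0]
  nlinarith

variable {β β' : ℝ}

theorem box_mono (h0 : 0 ≤ β) (hβ : β ≤ β') {R R' r : ℕ} (hr : r ≤ R) (hR : R ≤ R') :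
    xyBoxCorrelation β R r ≤ xyBoxCorrelation β' R' r := by
  rw [xyBoxCorrelation, xyBoxCorrelation, dif_pos hr, dif_pos (hr.trans hR)]
  refine twoPoint_mono 0 (fun u hu => ?_) (fun _ _ => h0) (fun _ _ => h0.trans hβ) (fun _ _ => hβ)
    _ _ _ _ (add_zero _).symm (add_zero _).symm
  rw [add_zero]
  rw [mem_box] at hu ⊢
  omega

theorem box_nonneg (h0 : 0 ≤ β) (R r : ℕ) : 0 ≤ xyBoxCorrelation β R r := by
  unfold xyBoxCorrelation
  split_ifs
  exacts [twoPoint_nonneg (fun _ _ => h0) _ _, le_rfl]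

theorem box_le_one (h0 : 0 ≤ β) (R r : ℕ) : xyBoxCorrelation β R r ≤ 1 := by
  unfold xyBoxCorrelation
  split_ifs
  exacts [twoPoint_le_one (fun _ _ => h0) _ _, zero_le_one]

theorem box_zero (h0 : 0 ≤ β) (R : ℕ) : xyBoxCorrelation β R 0 = 1 := by
  rw [xyBoxCorrelation, dif_pos (Nat.zero_le R)]
  exact twoPoint_self (fun _ _ => h0) _

theorem box_pos (h0 : 0 < β) {R r : ℕ} (hr : r ≤ R) : 0 < xyBoxCorrelation β R r := by
  rw [xyBoxCorrelation, dif_pos hr, twoPoint_eq]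
  refine div_pos (cur_pos (fun _ => h0.le) (k := fun e => pth r e.1) ?_ (wt_pos (fun _ => h0) _))
    (cur_zero_pos fun _ => h0.le)
  have h1 : ext (V := latticeBox R) (fun e => pth r e.1) = pth r := by
    funext p
    by_cases h : p ∈ EF (latticeBox R)
    · exact ext_val (fun e => pth r e.1) ⟨p, h⟩
    · rw [ext_zero _ h]
      obtain ⟨⟨x, y⟩, i⟩ := p
      refine (if_neg ?_).symm
      rintro ⟨h1, h2⟩
      simp only at h1 h2
      subst h1
      exact h (mem_EF0.2 (by omega))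
  funext v
  rw [Pi.add_apply, dv_eq, h1, dL_pth]
  simp only [Pi.sub_apply, Pi.single_apply, Subtype.ext_iff, Pi.zero_apply]
  ring

theorem box_super (h0 : 0 ≤ β) {R r s : ℕ} (h : r + s ≤ R) :
    xyBoxCorrelation β R r * xyBoxCorrelation β (R - r) s ≤ xyBoxCorrelation β R (r + s) := by
  have hr : r ≤ R := by omega
  have h1 : xyBoxCorrelation β (R - r) s ≤ twoPoint 2 (latticeBox R) (fun _ _ => β)
      ⟨((r : ℤ), 0), mem_box.2 (by simp only; omega)⟩
      ⟨(((r + s : ℕ) : ℤ), 0), mem_box.2 (by simp only; omega)⟩ := by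
    rw [xyBoxCorrelation, dif_pos (by omega : s ≤ R - r)]
    refine twoPoint_mono ((r : ℤ), 0) (fun u hu => ?_) (fun _ _ => h0) (fun _ _ => h0)
      (fun _ _ => le_rfl) _ _ _ _ (by simp) (by simp [add_comm])
    rw [mem_box] at hu ⊢
    simp only [Prod.fst_add, Prod.snd_add]
    omega
  refine (mul_le_mul_of_nonneg_left h1 (box_nonneg h0 _ _)).trans ?_
  rw [xyBoxCorrelation, xyBoxCorrelation, dif_pos hr, dif_pos h]
  exact twoPoint_super (fun _ _ => h0) _ _ _

section limit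

variable {C C' : ℕ → ℝ} {m m' : ℝ}

theorem box_le_C (h0 : 0 ≤ β) (hC : ∀ r, Tendsto (fun R => xyBoxCorrelation β R r) atTop (𝓝 (C r)))
    {R r : ℕ} (hr : r ≤ R) : xyBoxCorrelation β R r ≤ C r :=
  ge_of_tendsto (hC r) ((eventually_ge_atTop R).mono fun _ h => box_mono h0 le_rfl hr h)

theorem C_pos (h0 : 0 < β) (hC : ∀ r, Tendsto (fun R => xyBoxCorrelation β R r) atTop (𝓝 (C r)))
    (r : ℕ) : 0 < C r := (box_pos h0 le_rfl).trans_le (box_le_C h0.le hC le_rfl)

theorem C_le_one (h0 : 0 ≤ β) (hC : ∀ r, Tendsto (fun R => xyBoxCorrelation β R r) atTop (𝓝 (C r)))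
    (r : ℕ) : C r ≤ 1 := le_of_tendsto' (hC r) fun _ => box_le_one h0 _ _

theorem C_zero (h0 : 0 ≤ β) (hC : ∀ r, Tendsto (fun R => xyBoxCorrelation β R r) atTop (𝓝 (C r))) :
    C 0 = 1 := by
  have h := hC 0
  simp only [box_zero h0] at h
  exact (tendsto_const_nhds_iff.1 h).symm


/-- L1.5 -/
theorem C_super (h0 : 0 ≤ β) (hC : ∀ r, Tendsto (fun R => xyBoxCorrelation β R r) atTop (𝓝 (C r)))
    (r s : ℕ) : C r * C s ≤ C (r + s) :=
  le_of_tendsto_of_tendsto ((hC r).mul ((hC s).comp (tendsto_sub_atTop_nat r))) (hC (r + s))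
    ((eventually_ge_atTop (r + s)).mono fun _ h => box_super h0 h)

theorem C_pow (h0 : 0 < β) (hC : ∀ r, Tendsto (fun R => xyBoxCorrelation β R r) atTop (𝓝 (C r)))
    (L n : ℕ) : C L ^ n ≤ C (n * L) := by
  induction n with
  | zero => simp [C_zero h0.le hC]
  | succ n ih =>
    rw [pow_succ, Nat.succ_mul]
    exact (mul_le_mul_of_nonneg_right ih (C_pos h0 hC L).le).trans (C_super h0.le hC _ _)

theorem m_nonneg (h0 : 0 < β) (hC : ∀ r, Tendsto (fun R => xyBoxCorrelation β R r) atTop (𝓝 (C r)))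
    (hm : Tendsto (fun r : ℕ => -Real.log (C r) / r) atTop (𝓝 m)) : 0 ≤ m :=
  ge_of_tendsto' hm fun r => div_nonneg
    (neg_nonneg.2 (Real.log_nonpos (C_pos h0 hC r).le (C_le_one h0.le hC r))) (Nat.cast_nonneg r)

theorem m_le (h0 : 0 < β) (hC : ∀ r, Tendsto (fun R => xyBoxCorrelation β R r) atTop (𝓝 (C r)))
    (hm : Tendsto (fun r : ℕ => -Real.log (C r) / r) atTop (𝓝 m)) {L : ℕ} (hL : 0 < L) :
    m ≤ -Real.log (C L) / L := by
  have h1 : Tendsto (fun n : ℕ => n * L) atTop atTop :=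
    tendsto_atTop_mono (fun n => Nat.le_mul_of_pos_right n hL) tendsto_id
  refine le_of_tendsto (hm.comp h1) ((eventually_gt_atTop 0).mono fun n hn => ?_)
  have h2 := Real.log_le_log (pow_pos (C_pos h0 hC L) n) (C_pow h0 hC L n)
  rw [Real.log_pow] at h2
  have hn' : (0 : ℝ) < n := by exact_mod_cast hn
  have hL' : (0 : ℝ) < L := by exact_mod_cast hL
  simp only [Function.comp]
  push_cast
  rw [div_le_div_iff₀ (mul_pos hn' hL') hL']
  nlinarith

/-- `C r ≤ exp (-m r)` -/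
theorem C_le_exp (h0 : 0 < β) (hC : ∀ r, Tendsto (fun R => xyBoxCorrelation β R r) atTop (𝓝 (C r)))
    (hm : Tendsto (fun r : ℕ => -Real.log (C r) / r) atTop (𝓝 m)) (r : ℕ) :
    C r ≤ Real.exp (-(m * r)) := by
  rcases Nat.eq_zero_or_pos r with rfl | hr
  · simp [C_zero h0.le hC]
  · have h1 := m_le h0 hC hm hr
    rw [le_div_iff₀ (by exact_mod_cast hr)] at h1
    rw [← Real.log_le_iff_le_exp (C_pos h0 hC r)]
    linarith


end limit

end Crest.Agent.T145.Xy48
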