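import Crest.Agent.T145.GffDef_8
import Crest.Agent.T145.XyH_48

/-!
# Row 145, module MB (helper25): mass bounds for the XY model, `b_c = b_h`, interface of S0199

Every `…Stmt : Prop` is a task, except `FlowStmt` (input from the flow).
-/

set_option autoImplicit false

namespace Crest.Agent.T145.Mb

open Finset Filter Topology Crest.ProbabilityR.SpinModel

/-- `C` and `m` are the limits of the statements at `b` -/
structure Lim (b : ℝ) (C : ℕ → ℝ) (m : ℝ) : Prop where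
  hC : ∀ r, Tendsto (fun R => xyBoxCorrelation b R r) atTop (𝓝 (C r))
  hm : Tendsto (fun r : ℕ => -Real.log (C r) / r) atTop (𝓝 m)


section graph
variable {ι E : Type} [Fintype ι] [DecidableEq ι] [Fintype E]

/-- two point function of a finite weighted graph -/
noncomputable def G (src tgt : E → ι) (b : E → ℝ) (x y : ι) : ℝ :=
  Xy48.cur src tgt b (Pi.single y 1 - Pi.single x 1) / Xy48.cur src tgt b 0

/-- only the edges inside `B` are kept -/
noncomputable def bIn (src tgt : E → ι) (b : E → ℝ) (B : Finset ι) (e : E) : ℝ :=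
  if src e ∈ B ∧ tgt e ∈ B then b e else 0

end graph

/-- COV: covariance of the currents through two different edges -/
def CovStmt : Prop := ∀ (ι E : Type) [Fintype ι] [DecidableEq ι] [Fintype E] (src tgt : E → ι)
  (b : E → ℝ), (∀ e, 0 ≤ b e) → ∀ e e' : E, e ≠ e' →
    |∑' k : E → ℤ, ind (Xy48.dv src tgt k = 0) * Xy48.wt b k * ((k e : ℝ) * (k e' : ℝ))| ≤
      b e * b e' / 2 * (G src tgt b (src e) (src e') + G src tgt b (src e) (tgt e') +
        G src tgt b (tgt e) (src e') + G src tgt b (tgt e) (tgt e')) * Xy48.cur src tgt b 0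

/-- LIEB: the Simon–Lieb inequality, free inside `B` -/
def LiebStmt : Prop := ∀ (ι E : Type) [Fintype ι] [DecidableEq ι] [Fintype E] (src tgt : E → ι)
  (b : E → ℝ), (∀ e, 0 ≤ b e) → ∀ (B : Finset ι) (x y : ι), x ∈ B → y ∉ B →
    G src tgt b x y ≤ ∑ e, b e / 2 *
      (ind (src e ∈ B ∧ tgt e ∉ B) * (G src tgt (bIn src tgt b B) x (src e) * G src tgt b (tgt e) y) +
        ind (tgt e ∈ B ∧ src e ∉ B) * (G src tgt (bIn src tgt b B) x (tgt e) * G src tgt b (src e) y))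

/-- EMB: embeddings of weighted graphs that may reverse edges -/
def EmbStmt : Prop := ∀ (ι E ι' E' : Type) [Fintype ι] [DecidableEq ι] [Fintype E] [Fintype ι']
  [DecidableEq ι'] [Fintype E'] (src tgt : E → ι) (src' tgt' : E' → ι') (φ : ι → ι') (ψ : E → E')
  (b : E → ℝ) (b' : E' → ℝ), Function.Injective φ → Function.Injective ψ →
    (∀ e, (src' (ψ e) = φ (src e) ∧ tgt' (ψ e) = φ (tgt e)) ∨
      (src' (ψ e) = φ (tgt e) ∧ tgt' (ψ e) = φ (src e))) → (∀ e, 0 ≤ b e) → (∀ e, 0 ≤ b' e) →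
    ((∀ e, b e ≤ b' (ψ e)) → ∀ x y, G src tgt b x y ≤ G src' tgt' b' (φ x) (φ y)) ∧
      ((∀ e, b' (ψ e) ≤ b e) → (∀ e', (∀ e, ψ e ≠ e') → b' e' = 0) →
        ∀ x y, G src' tgt' b' (φ x) (φ y) ≤ G src tgt b x y)

/-- OFF: exponential decay off the axis, in every free domain -/
def OffStmt : Prop := ∀ (b : ℝ) (C : ℕ → ℝ) (m : ℝ), 0 < b → Lim b C m → ∀ (V : Finset Pt) (x y : V)
  (s : ℕ), ((s : ℤ) ≤ |x.1.1 - y.1.1| ∨ (s : ℤ) ≤ |x.1.2 - y.1.2|) →
    twoPoint 2 V (fun _ _ => b) x y ≤ Real.exp (-(m * s))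

/-! ## The wired dual graph of the free box `sq 0 l` -/

/-- the plaquettes (named by their lower left corner) and the outer vertex -/
abbrev Pl (l : ℕ) : Type := Option (sq (0 : Pt) (l - 1))

/-- the edges of the box -/
abbrev Ed (l : ℕ) : Type := nnL.edI (sq 0 l)

/-- the dual vertex named `p` -/
noncomputable def pl (l : ℕ) (p : Pt) : Pl l := if h : p ∈ sq (0 : Pt) (l - 1) then some ⟨p, h⟩ else none

/-- the plaquette on the left of an edge -/
noncomputable def ws (l : ℕ) (e : Ed l) : Pl l :=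
  if e.1.2 = e.1.1 + (1, 0) then pl l e.1.1 else pl l (e.1.1 - (1, 0))

/-- the plaquette on the right of an edge -/
noncomputable def wg (l : ℕ) (e : Ed l) : Pl l :=
  if e.1.2 = e.1.1 + (1, 0) then pl l (e.1.1 - (0, 1)) else pl l e.1.1

/-- WIR: gradients of the free box = divergence free currents of the wired dual graph -/
def WirStmt : Prop := ∀ (b : ℝ) (l : ℕ), 1 ≤ l → ∀ F : (Ed l → ℤ) → ℝ,
  ∑' s : Cfg Pt, (xyL b).WN l s * F (fun e => dE e.1 s) =
    ∑' k : Ed l → ℤ, ind (Xy48.dv (ws l) (wg l) k = 0) * Xy48.wt (fun _ => b) k * F k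

/-- DEC: decay in the bulk of the wired graph -/
def DecStmt : Prop := ∀ (b : ℝ) (C : ℕ → ℝ) (m : ℝ), 0 < b → Lim b C m → ∀ (l s : ℕ) (p : Pt) (c : Pl l),
  bl p s ⊆ sq 0 (l - 1) → (∀ q ∈ bl p s, c ≠ pl l q) →
    G (ws l) (wg l) (fun _ => b) (pl l p) c ≤ 2 * b * (2 * s + 1) ^ 2 * Real.exp (-(m * s))

/-- LOW: a mass kills the stiffness of the free box -/
def LowStmt : Prop := ∃ K : ℝ, ∀ (b : ℝ) (C : ℕ → ℝ) (m : ℝ), 0 < b → Lim b C m → ∀ l s : ℕ, 1 ≤ l →
  (xyL b).gN l ≤ K * (b ^ 3 * (l : ℝ) ^ 2 * (2 * s + 1) ^ 2 * Real.exp (-(m * s)) +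
    b * Real.sqrt (((s : ℝ) + 1) / l))

/-! ## Quantitative exit -/



/-- Y0: the charge at a fixed scale is bounded below, uniformly in the family -/
def Y0Stmt : Prop := ∀ (F : Fa) (l : ℕ), 1 ≤ l → ∃ y : ℝ, 0 < y ∧ ∀ Λ, F.Mem Λ → y ≤ Λ.Y l


/-! ## Input from the flow -/


end Crest.Agent.T145.Mb
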