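import Crest.Agent.T145.MidDef2_76
import Crest.Agent.T145.Soft_23
import Crest.Agent.T145.KtM_54
import Crest.Agent.T145.MidA_76
import Crest.Agent.T145.VxDef_35
import Crest.Agent.T145.FlDef2_82
import Crest.Agent.T145.FlEnv_30
import Crest.Agent.T145.FlRate_98
import Crest.Agent.T145.NcT4Def_78
import Crest.Agent.T145.FlBas_4
import Crest.Agent.T145.BrB_73
import Crest.Agent.T145.GffDef2_8
import Crest.Agent.T145.MbDef_25
import Crest.Agent.T145.NcGeo_51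
import Crest.Agent.T145.NcBas_78
import Crest.Agent.T145.FlBare_80
import Crest.Agent.T145.FlXf_91

-- ▼ part T145/MidSc_54
section

/-!
# Row 145 (helper54): windows below the threshold, the ball lemma, uniform limits
-/

set_option autoImplicit false

namespace Crest.Agent.T145.Mid.S54

open Finset Filter Topology

theorem ev_Icc {bc : ℝ} {p : ℝ → Prop} (h : ∀ᶠ b in 𝓝 bc, p b) :
    ∀ᶠ b₀ in 𝓝[<] bc, ∀ b ∈ Set.Icc b₀ bc, p b := by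
  obtain ⟨ε, hε, h⟩ := Metric.eventually_nhds_iff.1 h
  filter_upwards [mem_nhdsWithin_of_mem_nhds (Metric.ball_mem_nhds bc hε)] with b₀ h0 b hb
  rw [Metric.mem_ball, Real.dist_eq, abs_lt] at h0
  refine h ?_
  rw [Real.dist_eq, abs_lt]
  constructor <;> linarith [hb.1, hb.2, h0.1]

/-- limit in the ambient scale, uniformly in the parameter -/
theorem ulim {bc : ℝ} {G : ℝ → ℕ → Prop} {N : ℝ → ℕ} {f : ℝ → ℕ → ℝ}
    (hG : ∀ b n n', G b n → n' ≤ n → G b n') (hc : ∀ n, G bc n) (hN : Tendsto N (𝓝[<] bc) atTop)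
    (hb : ∀ᶠ b₀ in 𝓝[<] bc, ∀ b ∈ Set.Icc b₀ bc, G b (N b₀))
    (h1 : ∀ t, 0 < t → ∃ N₀, ∀ b n n', G b n → G b n' → N₀ ≤ n → n ≤ n' → |f b n - f b n'| ≤ t)
    (h2 : ∀ᶠ n in atTop, ContinuousAt (fun b => f b n) bc) :
    ∃ L, Tendsto (f bc) atTop (𝓝 L) ∧
      ∀ t, 0 < t → ∀ᶠ b₀ in 𝓝[<] bc, ∀ b ∈ Set.Icc b₀ bc, |f b (N b₀) - L| ≤ t := by
  obtain ⟨L, hL⟩ := cauchySeq_tendsto_of_complete (u := f bc) (Metric.cauchySeq_iff'.2 fun t ht => by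
    obtain ⟨N₀, h⟩ := h1 _ (half_pos ht)
    exact ⟨N₀, fun n hn => by
      rw [Real.dist_eq, abs_sub_comm]
      exact (h bc N₀ n (hc _) (hc _) le_rfl hn).trans_lt (half_lt_self ht)⟩)
  refine ⟨L, hL, fun t ht => ?_⟩
  have t3 : 0 < t / 3 := by positivity
  obtain ⟨N₀, h⟩ := h1 _ t3
  obtain ⟨n, n1, n2, n3⟩ := (h2.and ((eventually_ge_atTop N₀).and (KT.ev_abs hL t3))).exists
  filter_upwards [hb, ev_Icc (KT.ev_abs n1 t3), hN.eventually_ge_atTop n] with b₀ k1 k2 k3 b k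
  have := abs_le.1 (h b n _ (hG _ _ _ (k1 b k) k3) (k1 b k) n2 k3)
  have := abs_le.1 (k2 b k)
  have := abs_le.1 n3
  rw [abs_le]; constructor <;> linarith

theorem exists_pow {B θ t : ℝ} (h0 : 0 ≤ θ) (h1 : θ < 1) (ht : 0 < t) :
    ∀ᶠ k : ℕ in atTop, B * θ ^ k ≤ t := by
  have := (tendsto_pow_atTop_nhds_zero_of_lt_one h0 h1).const_mul B
  rw [mul_zero] at this
  exact this.eventually (ge_mem_nhds ht)

theorem mul_gap {w k K : ℕ} (hw : 1 ≤ w) (h : k ≤ K) : w * k + (K - k) ≤ w * K := by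
  obtain ⟨j, rfl⟩ := Nat.exists_eq_add_of_le h
  rw [mul_add, Nat.add_sub_cancel_left]
  exact Nat.add_le_add_left (Nat.le_mul_of_pos_left j hw) _

variable {F : Fa} {θ₀ δ δ' : ℝ} {Λ : Lat} {l a N : ℕ}

theorem cw_mono (h : Cw θ₀ δ Λ l N) (hδ : δ ≤ δ') : Cw θ₀ δ' Λ l N :=
  ⟨⟨h.1.1, h.1.2.1.mono hδ, h.1.2.2.1, h.1.2.2.2.trans hδ⟩, h.2.trans hδ⟩

/-- all the windows with top in `[2 ^ a, 2 ^ N]` -/
def Aw (F : Fa) (θ₀ δ : ℝ) (Λ : Lat) (l a N : ℕ) : Prop :=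
  F.Mem Λ ∧ ∀ n, a ≤ n → n ≤ N → Cw θ₀ δ Λ l n

theorem Aw.anti (h : Aw F θ₀ δ Λ l a N) {n : ℕ} (hn : n ≤ N) : Aw F θ₀ δ Λ l a n :=
  ⟨h.1, fun j h1 h2 => h.2 j h1 (h2.trans hn)⟩

theorem Aw.mono (h : Aw F θ₀ δ Λ l a N) (hδ : δ ≤ δ') : Aw F θ₀ δ' Λ l a N :=
  ⟨h.1, fun j h1 h2 => cw_mono (h.2 j h1 h2) hδ⟩

theorem kappa_pos {φ : Fw} (h : 1 ≤ φ.w) : 0 < φ.κ :=
  mul_pos Real.pi_pos (Real.log_pos (one_lt_pow₀ one_lt_two (by omega)))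

/-- in good windows the orbit is small -/
theorem ball {φ : Fw} {P : Par} (O : Odd F θ₀ φ P) (hθ : 0 < θ₀) (hV : VxStmt) (hD : DnStmt) {ε : ℝ}
    (hε : 0 < ε) : ∃ δ, 0 < δ ∧ δ ≤ P.δ ∧ ∀ l a, ∃ a₂ c, a ≤ a₂ ∧ ∀ Λ N k, Aw F θ₀ δ Λ l a N → a₂ ≤ k →
      φ.w * k + c ≤ N → 0 < φ.y Λ N k ∧ φ.η Λ N k ≤ ε := by
  obtain ⟨C, C0, hv⟩ := hV F θ₀ φ P O
  have κ0 := kappa_pos O.w1
  obtain ⟨Y, Y0, Y1, Y2⟩ : ∃ Y, 0 < Y ∧ Y ≤ ε / 4 ∧ C * Y ^ 2 * 257 ≤ ε / 4 := by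
    refine ⟨min (ε / 4) (1 / (257 * C + 1)), by positivity, min_le_left _ _, ?_⟩
    have a1 := min_le_left (ε / 4) (1 / (257 * C + 1))
    have a2 := (le_div_iff₀ (by positivity)).1 (min_le_right (ε / 4) (1 / (257 * C + 1)))
    have a3 : 0 < min (ε / 4) (1 / (257 * C + 1)) := by positivity
    nlinarith
  obtain ⟨δ₃, m, δ3, he⟩ := O.ent Y Y0
  have e0 : 0 < ε / 8 / φ.κ := by positivity
  obtain ⟨δ₄, δ4, hd⟩ := hD F θ₀ 1 _ hθ le_rfl e0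
  have δ0 := P.δ0
  refine ⟨min (min P.δ δ₃) (min δ₄ (ε / 8 / φ.κ)), by positivity,
    (min_le_left _ _).trans (min_le_left _ _), fun l a => ?_⟩
  obtain ⟨B₁, B1, hv⟩ := hv l
  obtain ⟨a₁, he⟩ := he l
  obtain ⟨a₂, hp⟩ := O.pos l
  obtain ⟨a₃, B, B0, hv⟩ := hv (a + a₁ + a₂)
  have m1 : max P.θ (1 / 2) < 1 := max_lt P.θ1 (by norm_num)
  obtain ⟨k₁, h₁⟩ := eventually_atTop.1 (exists_pow (B := B) (le_max_of_le_left P.θ0.le) m1
    (show 0 < ε / 8 by positivity))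
  obtain ⟨k₂, h₂⟩ := eventually_atTop.1 (exists_pow (B := B₁) P.θ0.le P.θ1 (show 0 < ε / 8 by positivity))
  refine ⟨a + a₁ + a₂ + a₃ + k₁, φ.w + P.s + m + k₂, by omega, fun Λ N k A hk hN => ?_⟩
  have g0 := mul_gap O.w1 (Nat.zero_le k)
  have hV : ∀ j, j ≤ k → φ.V F θ₀ P Λ l N j := fun j hj => by
    have := mul_gap O.w1 hj
    exact ⟨A.1, cw_mono (A.2 N (by omega) le_rfl) ((min_le_left _ _).trans (min_le_left _ _)),
      by rw [mul_add]; omega⟩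
  have hy : ∀ j, a + a₁ + a₂ ≤ j → j ≤ k → 0 < φ.y Λ N j ∧ φ.y Λ N j ≤ Y := fun j j1 j2 => by
    have := mul_gap O.w1 j2
    have := mul_gap O.w1 (Nat.zero_le j)
    obtain ⟨c, c0, hc⟩ := hp j (by omega)
    exact ⟨c0.trans_le (hc Λ N (hV j j2)), he Λ N j (hV j j2) (by omega) (by omega)
      (cw_mono (A.2 _ (by omega) (by omega)) ((min_le_left _ _).trans (min_le_right _ _))).1⟩
  have r1 : φ.r k ≤ 2 ^ N := Nat.pow_le_pow_right two_pos (by omega)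
  have k1 := hv Λ N k (hV k le_rfl) (by omega) Y (fun j j1 j2 => by
    rw [abs_of_pos (hy j j1 j2).1]
    exact (hy j j1 j2).2.trans (le_mul_of_one_le_right Y0.le (one_le_pow₀ (by norm_num))))
    (φ.r k) (16 * 2 ^ N) le_rfl (by omega) le_rfl
  have W := A.2 (φ.w * k) (by omega) (by omega)
  have k2 := hd Λ A.1 l _ (cw_mono W ((min_le_right _ _).trans (min_le_left _ _))).1 (16 * 2 ^ N)
    (Nat.mul_le_mul_left 16 r1)
  have k3 := W.2.trans ((min_le_right _ _).trans (min_le_right _ _))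
  have k4 : |φ.κ * (Vt Λ (16 * 2 ^ N) (φ.r k) - 2 / Real.pi)| ≤ ε / 4 := by
    rw [abs_mul, abs_of_pos κ0, ← le_div_iff₀' κ0]
    refine (abs_sub_le _ (Λ.gN l) _).trans ((add_le_add k2 k3).trans (le_of_eq (by ring)))
  have k5 : (φ.r k : ℝ) / φ.r k * (1 + φ.r k * ((16 * 2 ^ N : ℕ) : ℝ) ^ 2 / (2 ^ N) ^ 3) ≤ 257 := by
    have a1 : (0 : ℝ) < φ.r k := by exact_mod_cast Nat.two_pow_pos _
    have a2 : (φ.r k : ℝ) ≤ 2 ^ N := by exact_mod_cast r1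
    have a3 : (φ.r k : ℝ) * ((16 * 2 ^ N : ℕ) : ℝ) ^ 2 / (2 ^ N) ^ 3 ≤ 256 := by
      rw [div_le_iff₀ (by positivity)]; push_cast
      calc _ ≤ (2 : ℝ) ^ N * (16 * 2 ^ N) ^ 2 := by gcongr
        _ = _ := by ring
    rw [div_self a1.ne']; linarith
  have k6 := mul_le_mul_of_nonneg_left k5 (show 0 ≤ C * Y ^ 2 by positivity)
  have k7 := h₁ k (by omega)
  have k8 := h₂ (N - φ.w * k) (by omega)
  have k9 := abs_sub (φ.κ * (Vt Λ (16 * 2 ^ N) (φ.r k) - 2 / Real.pi))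
    (φ.κ * (Vt Λ (16 * 2 ^ N) (φ.r k) - 2 / Real.pi) - φ.x Λ N k)
  rw [sub_sub_cancel] at k9
  exact ⟨(hy k (by omega) le_rfl).1, by rw [Fw.η]; linarith [(hy k (by omega) le_rfl).2]⟩

theorem aw_of (h : F.Mem Λ) (h1 : δ' ≤ 1 / Real.pi) (h2 : δ' ≤ δ) (h3 : 2 * δ' * (F.base.a / F.τ₁) ≤ δ)
    (h4 : Sep δ l (2 ^ a)) (h5 : |Λ.gN l - 2 / Real.pi| ≤ δ')
    (h6 : ∀ j, a < j → j ≤ N + 1 → 2 / Real.pi - δ' ≤ Λ.gN (2 ^ j)) :
    Aw F (1 / Real.pi * (1 / F.τ₂)) δ Λ l a N := by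
  refine ⟨h, fun n n1 n2 => ⟨⟨⟨n, rfl⟩, h4.mono_right (Nat.pow_le_pow_right two_pos n1), ?_, ?_⟩,
    h5.trans h2⟩⟩ <;> have k := h6 (n + 1) (by omega) (by omega) <;> rw [pow_succ'] at k
  · have := Real.pi_pos
    have := h.tau2_pos
    have e : 2 / Real.pi = 2 * (1 / Real.pi) := by ring
    rw [← h.ok.gN_mul]
    exact mul_le_mul (by linarith) h.e0_ge (by positivity) (le_trans (by positivity)
      (show 1 / Real.pi ≤ _ by linarith))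
  · rw [← h.ok.gN_mul, ← h.ok.gN_mul, ← sub_mul]
    exact (mul_le_mul (by linarith [(abs_le.1 h5).2]) h.e0_le h.e0_pos.le
      (by linarith [(abs_nonneg _).trans h5])).trans h3

/-- the horizon below the threshold -/
theorem horizon (h1 : T1mStmt) (hd : T1dStmt) (hc : Λ.Crit) (hδ : 0 < δ) :
    ∃ (δ' : ℝ) (l a : ℕ) (N : ℝ → ℕ), 0 < δ' ∧ Tendsto N (𝓝[<] Λ.τ) atTop ∧
      (∀ n, Aw (Λ.fa2 hc.1) (1 / Real.pi * (1 / (2 * Λ.τ))) δ Λ l a n) ∧ ∀ᶠ b₀ in 𝓝[<] Λ.τ,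
      (∀ b ∈ Set.Icc b₀ Λ.τ, Aw (Λ.fa2 hc.1) (1 / Real.pi * (1 / (2 * Λ.τ))) δ (Λ.at' b) l a (N b₀)) ∧
      δ' ≤ (Λ.at' b₀).gN (2 ^ (N b₀ + 1)) ∧ (Λ.at' b₀).gN (2 ^ (N b₀ + 2)) ≤ 2 / Real.pi - δ' := by
  obtain ⟨E, hE⟩ : ∃ E, E = (Λ.fa2 hc.1).base.a / (Λ.fa2 hc.1).τ₁ := ⟨_, rfl⟩
  have E0 : 0 < E := hE ▸ div_pos (Fa.base_ok _).a_pos (Λ.fa2 hc.1).pos
  have π0 := Real.pi_pos
  obtain ⟨δ', d0, d1, d2, d3⟩ : ∃ δ', 0 < δ' ∧ δ' ≤ 1 / Real.pi ∧ δ' ≤ δ ∧ 2 * δ' * E ≤ δ :=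
    ⟨min (min (1 / Real.pi) δ) (δ / (2 * E)), by positivity, (min_le_left _ _).trans (min_le_left _ _),
      (min_le_left _ _).trans (min_le_right _ _), by
        have := (le_div_iff₀ (by positivity)).1 (min_le_right (min (1 / Real.pi) δ) (δ / (2 * E)))
        linarith⟩
  have tg : ∀ Λ' : Lat, Λ'.Ok → Tendsto Λ'.gN atTop (𝓝 Λ'.gI) := fun Λ' h => (h1.1 Λ' h).1.div_const _
  have cg : ∀ L, Tendsto (fun τ => (Λ.at' τ).gN L) (𝓝 Λ.τ) (𝓝 (Λ.gN L)) := fun L =>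
    (hd.2.2 Λ L hc.1).1.continuousAt (Ioi_mem_nhds hc.1.2)
  obtain ⟨l, hl⟩ := eventually_atTop.1 ((KT.ev_abs (hc.2.1 ▸ tg Λ hc.1) (half_pos d0)).and
    ((tendsto_natCast_atTop_atTop.const_mul_atTop hδ).eventually_ge_atTop 1))
  have t2 : Tendsto (fun j : ℕ => 2 ^ j) atTop atTop := tendsto_pow_atTop_atTop_of_one_lt one_lt_two
  obtain ⟨a, ha⟩ := eventually_atTop.1 ((t2.eventually_ge_atTop l).and
    (((tendsto_natCast_atTop_atTop.comp t2).const_mul_atTop hδ).eventually_ge_atTop (l : ℝ)))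
  have hS : Sep δ l (2 ^ a) := ⟨(hl l le_rfl).2, (ha a le_rfl).2⟩
  let S : ℝ → Set ℕ := fun b => {j | a < j ∧ (Λ.at' b).gN (2 ^ j) < 2 / Real.pi - δ'}
  have hpos : ∀ᶠ b₀ in 𝓝[<] Λ.τ, 0 < b₀ ∧ b₀ < Λ.τ :=
    Eventually.and (mem_nhdsWithin_of_mem_nhds (Ioi_mem_nhds hc.1.2)) self_mem_nhdsWithin
  have hne : ∀ᶠ b₀ in 𝓝[<] Λ.τ, sInf (S b₀) ∈ S b₀ := hpos.mono fun b₀ k => Nat.sInf_mem (by
    have t := (tg (Λ.at' b₀) ⟨hc.1.1, k.1⟩).comp t2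
    rw [hc.2.2 b₀ k.1 k.2] at t
    have e : 2 / Real.pi = 2 * (1 / Real.pi) := by ring
    have : 0 < 1 / Real.pi := by positivity
    exact ((eventually_gt_atTop a).and (t.eventually (gt_mem_nhds (by linarith)))).exists)
  have tS : Tendsto (fun b₀ => sInf (S b₀)) (𝓝[<] Λ.τ) atTop := tendsto_atTop.2 fun n => by
    filter_upwards [hne, mem_nhdsWithin_of_mem_nhds ((eventually_all_finset (Ioc a n)).2 fun j hj =>
      (cg (2 ^ j)).eventually (lt_mem_nhds (show 2 / Real.pi - δ' < _ by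
        linarith [(abs_le.1 (hl _ (ha j (mem_Ioc.1 hj).1.le).1).1).1])))] with b₀ k1 k2
    exact not_lt.1 fun k => lt_asymm k1.2 (k2 _ (mem_Ioc.2 ⟨k1.1, k.le⟩))
  refine ⟨δ', l, a, fun b₀ => sInf (S b₀) - 2, d0, (tendsto_sub_atTop_nat 2).comp tS,
    fun n => aw_of (Lat.mem_fa2 hc.1) d1 d2 (hE ▸ d3) hS ((hl l le_rfl).1.trans (by linarith))
      fun j j1 _ => by linarith [(abs_le.1 (hl _ (ha j j1.le).1).1).1], ?_⟩
  filter_upwards [hpos, hne, tS.eventually_ge_atTop (a + 2), ev_Icc (Lat.ev_mem_fa2 hc.1),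
    ev_Icc (KT.ev_abs (cg l) (half_pos d0))] with b₀ k1 k2 k3 k4 k5
  have lo : ∀ j, a < j → j < sInf (S b₀) → 2 / Real.pi - δ' ≤ (Λ.at' b₀).gN (2 ^ j) := fun j j1 j2 =>
    not_lt.1 fun k => Nat.notMem_of_lt_sInf j2 ⟨j1, k⟩
  refine ⟨fun b hb => aw_of (k4 b hb) d1 d2 (hE ▸ d3) hS ?_ fun j j1 j2 => (lo j j1 (by omega)).trans
    ((hd.2.2 Λ _ hc.1).2.2 k1.1 (k1.1.trans_le hb.1) hb.1), ?_, ?_⟩
  · exact (abs_sub_le _ (Λ.gN l) _).trans (by linarith [k5 b hb, (hl l le_rfl).1])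
  · have e : 2 / Real.pi = 2 * (1 / Real.pi) := by ring
    linarith [lo (sInf (S b₀) - 2 + 1) (by omega) (by omega)]
  · rw [show sInf (S b₀) - 2 + 2 = sInf (S b₀) by omega]; exact k2.2.le

theorem er_le {φ : Fw} {P : Par} {C d θ : ℝ} {k K k₀ : ℕ} (hC : P.C ≤ C) (hd0 : 0 ≤ d) (hd : d ≤ P.d)
    (hθ : P.θ ≤ θ) (hθ1 : θ ≤ 1) (h0 : 0 ≤ φ.η Λ N k) (h1 : φ.η Λ N k ≤ 1)
    (hk : k₀ + (K - k) ≤ N - φ.w * k) :
    0 ≤ φ.er P Λ N k ∧ φ.er P Λ N k ≤ KT.er C d θ (C * θ ^ k₀) K (φ.x Λ N) (φ.y Λ N) k := by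
  have := P.θ0
  have := P.C0
  refine ⟨by rw [Fw.er]; positivity, ?_⟩
  rw [KT.er, mul_assoc, ← mul_add, ← pow_add]
  refine mul_le_mul hC (add_le_add (Real.rpow_le_rpow_of_exponent_ge' h0 h1 hd0 hd) ?_) (by positivity)
    (by linarith)
  exact (pow_le_pow_left₀ P.θ0.le hθ _).trans (pow_le_pow_of_le_one (by linarith) hθ1 hk)

theorem Abd_mono {M B θ θ' : ℝ} {K n : ℕ} {x y p q : ℕ → ℝ} (hM : 0 ≤ M) (h0 : 0 ≤ θ) (h : θ ≤ θ') :
    KT.Abd M B θ a K x y p q n ≤ KT.Abd M B θ' a K x y p q n := by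
  unfold KT.Abd; gcongr

end Crest.Agent.T145.Mid.S54
end

-- ▼ part T145/MidScale_54
section

/-!
# Row 145 (helper54): the exit scale below the threshold, `Top.ScaleStmt`
-/

set_option autoImplicit false

namespace Crest.Agent.T145.Mid

open Finset Filter Topology S54

namespace S54

/-- the orbit is not small at the horizon -/
theorem exit {F : Fa} {θ₀ δ' : ℝ} {φ : Fw} {P : Par} (O : Odd F θ₀ φ P) (hV : VxStmt) (hU : UpStmt)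
    (hδ : 0 < δ') (l a : ℕ) : ∃ k₀ K₀ : ℕ, ∀ c : ℕ, ∃ ε₂, 0 < ε₂ ∧ ∀ Λ N K, φ.V F θ₀ P Λ l N K →
      K₀ ≤ K → φ.w * K + k₀ ≤ N → N ≤ φ.w * K + c → 0 < φ.y Λ N K →
      (∀ j, a ≤ j → j < K → |φ.y Λ N j| ≤ 5 / 4 * φ.y Λ N (j + 1)) →
      Λ.gN (2 ^ (N + 2)) ≤ 2 / Real.pi - δ' → ε₂ ≤ φ.η Λ N K := by
  obtain ⟨C, C0, hv⟩ := hV F θ₀ φ P O
  obtain ⟨B₁, B1, hv⟩ := hv l
  obtain ⟨a₁, B, B0, hv⟩ := hv a
  have κ0 := kappa_pos O.w1
  obtain ⟨δ, δ0, hu⟩ := hU F (δ' / 4) (by positivity)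
  obtain ⟨m, hm⟩ := exists_nat_ge (1 / δ)
  rw [div_le_iff₀ δ0] at hm
  have m1 : 1 ≤ m := Nat.one_le_iff_ne_zero.2 fun h => by rw [h] at hm; norm_num at hm
  have t0 : 0 < φ.κ * δ' / 16 := by positivity
  obtain ⟨k₁, h₁⟩ := eventually_atTop.1 (exists_pow (B := B) (le_max_of_le_left P.θ0.le)
    (max_lt P.θ1 (show (1 / 2 : ℝ) < 1 by norm_num)) t0)
  obtain ⟨k₂, h₂⟩ := eventually_atTop.1 (exists_pow (B := B₁) P.θ0.le P.θ1 t0)
  refine ⟨k₂ + m, a₁ + k₁, fun c => ?_⟩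
  obtain ⟨E, hE⟩ : ∃ E : ℝ, E = 4 * m * 2 ^ c * (1 + 256 * (4 * m) ^ 3) := ⟨_, rfl⟩
  have E0 : 0 ≤ E := by rw [hE]; positivity
  refine ⟨min 1 (φ.κ * δ' / 8 / (C * E + 1)), by positivity, fun Λ N K hK K1 N1 N2 y0 hy hg => ?_⟩
  by_contra hc
  obtain ⟨c1, c2⟩ := lt_min_iff.1 (not_le.1 hc)
  rw [lt_div_iff₀ (by positivity)] at c2
  have hY : ∀ j, j ≤ K → a ≤ j → |φ.y Λ N j| ≤ φ.y Λ N K * (5 / 4) ^ (K - j) := fun j j2 => by
    induction j2 using Nat.decreasingInduction with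
    | self => intro _; simp [abs_of_pos y0]
    | of_succ i hi ih =>
      intro j1
      rw [show K - i = K - (i + 1) + 1 by omega, pow_succ, ← mul_assoc]
      linarith [hy i j1 hi, ih (by omega), le_abs_self (φ.y Λ N (i + 1))]
  have r1 : φ.r K ≤ 2 ^ N := Nat.pow_le_pow_right two_pos (by omega)
  have r2 : 2 ^ N ≤ 4 * m * 2 ^ N := Nat.le_mul_of_pos_left _ (by omega)
  have k1 := hv Λ N K hK (by omega) _ (fun j j1 j2 => hY j j2 j1) (4 * m * 2 ^ N) (16 * (4 * m * 2 ^ N))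
    (r1.trans r2) le_rfl (by omega)
  have k2 := hu Λ hK.1 (2 ^ (N + 2)) (4 * m * 2 ^ N) _ ⟨by
    have : m ≤ 2 ^ (N + 2) := (Nat.lt_two_pow_self.le).trans (Nat.pow_le_pow_right two_pos (by omega))
    have : (m : ℝ) ≤ (2 ^ (N + 2) : ℕ) := by exact_mod_cast this
    nlinarith, by
    push_cast
    have : (0 : ℝ) < 2 ^ N := by positivity
    rw [pow_add]; nlinarith⟩ le_rfl
  have k3 : ((4 * m * 2 ^ N : ℕ) : ℝ) / φ.r K * (1 + (4 * m * 2 ^ N : ℕ) *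
      ((16 * (4 * m * 2 ^ N) : ℕ) : ℝ) ^ 2 / (2 ^ N) ^ 3) ≤ E := by
    have a1 : (0 : ℝ) < φ.r K := by exact_mod_cast Nat.two_pow_pos _
    have a2 : (2 : ℝ) ^ N ≤ 2 ^ c * φ.r K := by
      rw [Fw.r]; push_cast; rw [← pow_add]; exact pow_le_pow_right₀ one_le_two (by omega)
    rw [hE]
    refine mul_le_mul ?_ (le_of_eq ?_) (by positivity) (by positivity)
    · rw [div_le_iff₀ a1, mul_assoc (4 * (m : ℝ))]; push_cast; gcongr
    · push_cast; field_simp; ring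
  have k4 := mul_le_mul_of_nonneg_left k3 (show 0 ≤ C * φ.y Λ N K ^ 2 by positivity)
  have k5 := h₁ K (by omega)
  have k6 := h₂ (N - φ.w * K) (by omega)
  have k7 := mul_le_mul_of_nonneg_left (k2.trans (add_le_add_left hg _)) κ0.le
  have x0 := abs_nonneg (φ.x Λ N K)
  have x1 := neg_abs_le (φ.x Λ N K)
  have k8 : C * E * φ.y Λ N K ^ 2 ≤ C * E * φ.η Λ N K := by
    rw [Fw.η] at c1 ⊢; gcongr; nlinarith
  have k9 : 0 ≤ C * E * φ.η Λ N K := le_trans (by positivity) k8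
  have := (abs_le.1 k1).1
  rw [Fw.η] at *
  linarith

/-- from the flow horizon to dyadic scales -/
theorem log_scale {bc A : ℝ} {w c : ℕ} {N K : ℝ → ℕ}
    (h : Tendsto (fun b => √(bc - b) * K b) (𝓝[<] bc) (𝓝 A))
    (hN : ∀ᶠ b in 𝓝[<] bc, w * K b ≤ N b ∧ N b ≤ w * K b + c) (i : ℕ) :
    Tendsto (fun b => √(bc - b) * Real.log ((2 ^ (N b + i) : ℕ) : ℝ)) (𝓝[<] bc)
      (𝓝 (A * w * Real.log 2)) := by
  have t0 : Tendsto (fun b => √(bc - b)) (𝓝[<] bc) (𝓝 0) := by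
    simpa using (((tendsto_id (x := 𝓝 bc)).const_sub bc).mono_left nhdsWithin_le_nhds).sqrt
  have t1 : Tendsto (fun b => √(bc - b) * ((N b + i : ℕ) : ℝ)) (𝓝[<] bc) (𝓝 (A * w)) := by
    have u := (h.mul_const (w : ℝ)).add (t0.mul_const ((c : ℝ) + i))
    rw [zero_mul, add_zero] at u
    refine tendsto_of_tendsto_of_tendsto_of_le_of_le' (h.mul_const (w : ℝ)) u
      (hN.mono fun b k => ?_) (hN.mono fun b k => ?_)
    · have : ((w * K b : ℕ) : ℝ) ≤ (N b + i : ℕ) := by exact_mod_cast (show _ ≤ _ by omega)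
      rw [mul_assoc]; gcongr; rwa [Nat.cast_mul, mul_comm] at this
    · have : ((N b + i : ℕ) : ℝ) ≤ (w * K b + c + i : ℕ) := by exact_mod_cast (show _ ≤ _ by omega)
      rw [mul_assoc, ← mul_add]; gcongr; push_cast at this ⊢; linarith
  refine (t1.mul_const _).congr fun b => ?_
  rw [Nat.cast_pow, Real.log_pow, mul_assoc]; norm_num

end S54

theorem scaleStmt (hL : LinStmt) (hV : VxStmt) (hU : UpStmt) (hD : DnStmt) (h1 : T1mStmt)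
    (hd : T1dStmt) : Top.ScaleStmt := by
  intro bc hc
  have bc0 : 0 < bc := hc.1.2
  obtain ⟨θ₀, hθ₀⟩ : ∃ θ₀, θ₀ = 1 / Real.pi * (1 / (2 * bc)) := ⟨_, rfl⟩
  have θ₀0 : 0 < θ₀ := by have := Real.pi_pos; rw [hθ₀]; positivity
  obtain ⟨F, hF⟩ : ∃ F, F = (xyL bc).fa2 hc.1 := ⟨_, rfl⟩
  have hor : ∀ δ, 0 < δ → ∃ (δ' : ℝ) (l a : ℕ) (N : ℝ → ℕ), 0 < δ' ∧ Tendsto N (𝓝[<] bc) atTop ∧
      (∀ n, Aw F θ₀ δ (xyL bc) l a n) ∧ ∀ᶠ b₀ in 𝓝[<] bc,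
      (∀ b ∈ Set.Icc b₀ bc, Aw F θ₀ δ (xyL b) l a (N b₀)) ∧ δ' ≤ (xyL b₀).gN (2 ^ (N b₀ + 1)) ∧
      (xyL b₀).gN (2 ^ (N b₀ + 2)) ≤ 2 / Real.pi - δ' := fun δ hδ => by
    rw [hF, hθ₀]; exact horizon h1 hd hc hδ
  obtain ⟨φ, P, P', p, q, O, L⟩ := hL F θ₀ (hF ▸ rfl) (hF ▸ rfl) θ₀0
  have w1 := O.w1
  have C0 : 0 ≤ max P.C P'.C := le_max_of_le_left P.C0
  have d0 : 0 < min P.d P'.d := lt_min P.d0 P'.d0
  have θ0 : 0 ≤ max P.θ P'.θ := le_max_of_le_left P.θ0.le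
  have θ1 : max P.θ P'.θ < 1 := max_lt P.θ1 P'.θ1
  obtain ⟨ε₁, ε1, hprm⟩ := KT.exists_prm C0 d0 (min_lt_of_left_lt P.d1) θ0 θ1 P'.C0
  obtain ⟨ε, ε0, e1, e2, e3, e4⟩ : ∃ ε, 0 < ε ∧ ε ≤ ε₁ ∧ ε ≤ 1 ∧ ε ≤ P.ε₀ ∧ ε ≤ P'.ε₀ :=
    ⟨min (min ε₁ 1) (min P.ε₀ P'.ε₀), lt_min (lt_min ε1 one_pos) (lt_min P.ε0 P'.ε0),
      (min_le_left _ _).trans (min_le_left _ _), (min_le_left _ _).trans (min_le_right _ _),
      (min_le_right _ _).trans (min_le_left _ _), (min_le_right _ _).trans (min_le_right _ _)⟩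
  obtain ⟨δ₁, δ1, δ2, hball⟩ := ball O θ₀0 hV hD ε0
  obtain ⟨δ', l, a₀, N, δ'0, tN, Gc, hG⟩ := hor (min δ₁ P'.δ) (lt_min δ1 P'.δ0)
  obtain ⟨a₂, c₂, a2, hball⟩ := hball l a₀
  obtain ⟨s₁, hstep⟩ := O.step l a₂
  obtain ⟨c, c0, hlin⟩ := L.lin
  obtain ⟨s₂, hlin⟩ := hlin l a₂
  obtain ⟨s₃, hder⟩ := L.der l
  obtain ⟨s₄, hamb⟩ := L.amb l a₂
  obtain ⟨s₅, B₅, hax⟩ := O.ambx l
  obtain ⟨s₆, hay⟩ := O.amby l
  obtain ⟨s₇, hpos⟩ := O.pos l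
  obtain ⟨a, ha⟩ : ∃ a, a = a₂ + s₁ + s₂ + s₃ + s₄ + s₅ + s₆ + s₇ + 1 := ⟨_, rfl⟩
  obtain ⟨B, B0, hlin⟩ := hlin a (by omega)
  obtain ⟨k₁, K₀, hexit⟩ := S54.exit O hV hU δ'0 l a
  obtain ⟨k₀, hk₀⟩ := (exists_pow (B := max P.C P'.C) θ0 θ1 ε1).exists
  obtain ⟨c₀, hc₀⟩ : ∃ c₀, c₀ = c₂ + φ.w + P.s + P'.s + k₀ + k₁ := ⟨_, rfl⟩
  obtain ⟨ε₂, ε2, hexit⟩ := hexit (c₀ + φ.w)
  have prm := hprm B _ ε B0 (by positivity) hk₀ ε0 e1
  have vP : ∀ b n k, Aw F θ₀ (min δ₁ P'.δ) (xyL b) l a₀ n → a₂ ≤ k → φ.w * k + c₀ ≤ n →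
      φ.V F θ₀ P (xyL b) l n k ∧ φ.V F θ₀ P' (xyL b) l n k ∧ 0 < φ.y (xyL b) n k ∧
      ∀ e, ε ≤ e → φ.Ball (xyL b) n e a₂ k := fun b n k A k1 k2 => by
    have := mul_gap w1 (Nat.zero_le k)
    have W := A.2 n (by omega) le_rfl
    refine ⟨⟨A.1, cw_mono W ((min_le_left _ _).trans δ2), by rw [mul_add]; omega⟩,
      ⟨A.1, cw_mono W (min_le_right _ _), by rw [mul_add]; omega⟩,
      (hball _ n k (A.mono (min_le_left _ _)) k1 (by omega)).1, fun e he j j1 j2 => ?_⟩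
    have := mul_gap w1 j2
    exact (hball _ n j (A.mono (min_le_left _ _)) j1 (by omega)).2.trans he
  have orb : ∀ b n K, Aw F θ₀ (min δ₁ P'.δ) (xyL b) l a₀ n → φ.w * K + c₀ ≤ n →
      KT.Orb (max P.C P'.C) (min P.d P'.d) (max P.θ P'.θ) P'.C B (max P.C P'.C * max P.θ P'.θ ^ k₀) ε a K
        (φ.x (xyL b) n) (φ.y (xyL b) n) (p (xyL b) n) (q (xyL b) n) ∧ ∀ j, a ≤ j → j < K →
      c - KT.er (max P.C P'.C) (min P.d P'.d) (max P.θ P'.θ) (max P.C P'.C * max P.θ P'.θ ^ k₀) K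
        (φ.x (xyL b) n) (φ.y (xyL b) n) j * (1 + KT.Abd P'.C B (max P.θ P'.θ) a K (φ.x (xyL b) n)
          (φ.y (xyL b) n) (p (xyL b) n) (q (xyL b) n) j) ≤ p (xyL b) n j := fun b n K A hK => by
    have v : ∀ j, a ≤ j → j ≤ K → _ := fun j j1 j2 =>
      vP b n j A (by omega) (by have := mul_gap w1 j2; omega)
    have hη : ∀ j, a ≤ j → j ≤ K → 0 ≤ φ.η (xyL b) n j ∧ φ.η (xyL b) n j ≤ 1 ∧
        k₀ + (K - j) ≤ n - φ.w * j := fun j j1 j2 =>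
      ⟨add_nonneg (abs_nonneg _) (v j j1 j2).2.2.1.le, (v j j1 j2).2.2.2 1 e2 j (by omega) le_rfl,
        by have := mul_gap w1 j2; omega⟩
    have e' : ∀ j, a ≤ j → j < K → _ := fun j j1 j2 => er_le (P := P') (le_max_right P.C _) d0.le
      (min_le_right _ _) (le_max_right P.θ _) θ1.le (hη j j1 j2.le).1 (hη j j1 j2.le).2.1 (hη j j1 j2.le).2.2
    have ln : ∀ j, a ≤ j → j < K → _ := fun j j1 j2 => hlin (xyL b) n K j (v K (by omega) le_rfl).2.1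
      ((v K (by omega) le_rfl).2.2.2 _ e4) j1 j2
    refine ⟨⟨fun j j1 j2 => (v j j1 j2).2.2.2 ε le_rfl j (by omega) le_rfl, fun j j1 j2 =>
      (hstep _ n j (v j j1 j2.le).1 (by omega) ((v j j1 j2.le).2.2.2 _ e3)).mono
        (er_le (le_max_left _ _) d0.le (min_le_left _ _) (le_max_left _ _) θ1.le (hη j j1 j2.le).1
          (hη j j1 j2.le).2.1 (hη j j1 j2.le).2.2).2, fun j j1 j2 => (ln j j1 j2).1.mono
      (v j j1 j2.le).2.2.1.le (e' j j1 j2).1 (e' j j1 j2).2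
      (Abd_mono P'.C0 P'.θ0.le (le_max_right _ _))⟩, fun j j1 j2 => le_trans (sub_le_sub_left
        (mul_le_mul (e' j j1 j2).2 (add_le_add_right (Abd_mono P'.C0 P'.θ0.le (le_max_right _ _)) 1)
          (add_nonneg zero_le_one (ln j j1 j2).1.A_nonneg) ((e' j j1 j2).1.trans (e' j j1 j2).2)) c) (ln j j1 j2).2⟩
  obtain ⟨K, hKd⟩ : ∃ K : ℝ → ℕ, ∀ b, K b = (N b - c₀) / φ.w := ⟨_, fun _ => rfl⟩
  have hK : ∀ᶠ b₀ in 𝓝[<] bc, φ.w * K b₀ + c₀ ≤ N b₀ ∧ N b₀ ≤ φ.w * K b₀ + (c₀ + φ.w) :=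
    (tN.eventually_ge_atTop c₀).mono fun b₀ k => by
      have := Nat.div_add_mod (N b₀ - c₀) φ.w
      have := Nat.mod_lt (N b₀ - c₀) w1
      rw [hKd]; omega
  have tK : Tendsto K (𝓝[<] bc) atTop := tendsto_atTop.2 fun n =>
    (tN.eventually_ge_atTop (n * φ.w + c₀)).mono fun b₀ k => by
      rw [hKd, Nat.le_div_iff_mul_le w1]; omega
  have ul : ∀ k, a ≤ k → ∀ f : Lat → ℕ → ℝ, (∀ t, 0 < t → ∃ N₀, ∀ Λ n n', φ.V F θ₀ P Λ l n k →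
      φ.V F θ₀ P Λ l n' k → φ.V F θ₀ P' Λ l n k → φ.V F θ₀ P' Λ l n' k → φ.Ball Λ n P'.ε₀ a₂ k →
      φ.Ball Λ n' P'.ε₀ a₂ k → N₀ ≤ n → n ≤ n' → |f Λ n - f Λ n'| ≤ t) →
      (∀ n, φ.V F θ₀ P' (xyL bc) l n k → ContinuousAt (fun b => f (xyL b) n) bc) →
      ∃ L, Tendsto (f (xyL bc)) atTop (𝓝 L) ∧ ∀ t, 0 < t → ∀ᶠ b₀ in 𝓝[<] bc, ∀ b ∈ Set.Icc b₀ bc,
        |f (xyL b) (N b₀) - L| ≤ t := fun k hk f f1 f2 =>
    ulim (f := fun b n => f (xyL b) n) (fun _ _ _ A hn => A.anti hn) Gc tN (hG.mono fun _ k => k.1)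
      (fun t ht => by
        obtain ⟨N₀, f1⟩ := f1 t ht
        refine ⟨N₀ + (φ.w * k + c₀), fun b n n' A A' n1 n2 => ?_⟩
        obtain ⟨v1, v2, -, v3⟩ := vP b n k A (by omega) (by omega)
        obtain ⟨v4, v5, -, v6⟩ := vP b n' k A' (by omega) (by omega)
        exact f1 _ n n' v1 v4 v2 v5 (v3 _ e4) (v6 _ e4) (by omega) n2)
      ((eventually_ge_atTop (φ.w * k + c₀)).mono fun n hn => f2 n (vP bc n k (Gc n) (by omega) hn).2.1)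
  choose! X hX using fun k hk => ul k hk (fun Λ n => φ.x Λ n k) (fun t ht => by
      obtain ⟨N₀, h⟩ := eventually_atTop.1 (exists_pow (B := B₅) P.θ0.le P.θ1 ht)
      exact ⟨N₀ + φ.w * k, fun Λ n n' v1 v2 _ _ _ _ n1 n2 =>
        (hax Λ n n' k v1 v2 n2 (by omega)).trans (h _ (by omega))⟩)
    fun n v => (hder _ n k v (by omega)).1.continuousAt
  choose! Y hY using fun k hk => ul k hk (fun Λ n => φ.y Λ n k) (fun t ht => by
      obtain ⟨N₀, h⟩ := hay k (by omega) t ht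
      exact ⟨N₀, fun Λ n n' v1 v2 _ _ _ _ n1 n2 => h Λ n n' v1 v2 n1 (by omega)⟩)
    fun n v => (hder _ n k v (by omega)).2.1.continuousAt
  choose! P₀ hP using fun k hk => ul k hk (fun Λ n => p Λ n k) (fun t ht => by
      obtain ⟨N₀, h⟩ := hamb k (by omega) t ht
      exact ⟨N₀, fun Λ n n' _ _ v1 v2 v3 v4 n1 n2 => (le_add_of_nonneg_right (abs_nonneg _)).trans
        (h Λ n n' v1 v2 v3 v4 n1 (by omega))⟩)
    fun n v => (hder _ n k v (by omega)).2.2.1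
  choose! Q₀ hQ using fun k hk => ul k hk (fun Λ n => q Λ n k) (fun t ht => by
      obtain ⟨N₀, h⟩ := hamb k (by omega) t ht
      exact ⟨N₀, fun Λ n n' _ _ v1 v2 v3 v4 n1 n2 => (le_add_of_nonneg_left (abs_nonneg _)).trans
        (h Λ n n' v1 v2 v3 v4 n1 (by omega))⟩)
    fun n v => (hder _ n k v (by omega)).2.2.2
  have fam : KT.Fam (max P.C P'.C) (min P.d P'.d) (max P.θ P'.θ) P'.C B
      (max P.C P'.C * max P.θ P'.θ ^ k₀) ε ε₂ c |B₅| bc 0 a K (fun b₀ b => φ.x (xyL b) (N b₀))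
      (fun b₀ b => φ.y (xyL b) (N b₀)) (fun b₀ b => p (xyL b) (N b₀)) (fun b₀ b => q (xyL b) (N b₀))
      (fun b₀ b n => φ.x (xyL b) (N b₀) n ^ 2 - φ.y (xyL b) (N b₀) n ^ 2)
      (fun b₀ b n => 2 * (φ.x (xyL b) (N b₀) n * p (xyL b) (N b₀) n -
        φ.y (xyL b) (N b₀) n * q (xyL b) (N b₀) n)) X Y P₀ Q₀ := by
    refine ⟨prm, by omega, c0, ε2, ?_, fun n hn t ht => ?_, tK, ?_, ?_, ?_, ?_, ?_⟩
    · filter_upwards [hG, hK] with b₀ k1 k2 b hb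
      have o := (orb b _ _ (k1.1 b hb) k2.1).1
      refine ⟨o, fun n n1 n2 => ?_⟩
      have := mul_gap w1 n2.le
      have d := hder _ _ n (vP b _ n (k1.1 b hb) (by omega) (by omega)).2.1 (by omega)
      exact KT.Inv.of_deriv (x := fun b => φ.x (xyL b) (N b₀)) (y := fun b => φ.y (xyL b) (N b₀))
        o n1 n2 d.1 d.2.1
    · filter_upwards [(hX n hn).2 t ht, (hY n hn).2 t ht, (hP n hn).2 t ht, (hQ n hn).2 t ht]
        with b₀ k1 k2 k3 k4 b hb using ⟨k1 b hb, k2 b hb, k3 b hb, k4 b hb⟩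
    · filter_upwards [hK] with b₀ k2 n n1 n2
      have := mul_gap w1 n2
      rw [pow_zero, mul_one]
      refine (le_of_tendsto ((hX n n1).1.const_sub _).abs ((eventually_ge_atTop (N b₀)).mono
        fun n' hn => hax _ _ n' n (vP bc _ n (Gc _) (by omega) (by omega)).1
          (vP bc _ n (Gc _) (by omega) (by omega)).1 hn (by omega))).trans ?_
      exact mul_le_mul (le_abs_self _) ((pow_le_pow_left₀ P.θ0.le (le_max_left _ _) _).trans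
        (pow_le_pow_of_le_one θ0 θ1.le (by omega))) (pow_nonneg P.θ0.le _) (abs_nonneg _)
    · refine KT.tendsto_of_abs fun t ht => ?_
      obtain ⟨δ₃, δ3, -, hb⟩ := ball O θ₀0 hV hD ht
      obtain ⟨-, l', a', -, -, -, G', -⟩ := hor δ₃ δ3
      obtain ⟨a₃, c₃, -, hb⟩ := hb l' a'
      filter_upwards [eventually_ge_atTop (a + a₃)] with k hk
      rw [sub_zero]
      refine le_of_tendsto (hX k (by omega)).1.abs
        ((eventually_ge_atTop (φ.w * k + c₃)).mono fun n hn => ?_)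
      obtain ⟨b1, b2⟩ := hb _ n k (G' n) (by omega) hn
      exact (le_add_of_nonneg_right b1.le).trans b2
    · obtain ⟨c₁, c1, h⟩ := hpos a (by omega)
      exact c1.trans_le (ge_of_tendsto (hY a le_rfl).1 ((eventually_ge_atTop (φ.w * a + c₀)).mono
        fun n hn => h _ n (vP bc n a (Gc n) (by omega) hn).1))
    · refine ((eventually_ge_atTop a).mono fun n hn => ?_).frequently
      filter_upwards [hK, tK.eventually_gt_atTop n] with b₀ k1 k2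
      exact (orb bc _ _ (Gc _) k1.1).2 n hn k2
    · filter_upwards [hG, hK, tK.eventually_ge_atTop (a + K₀), self_mem_nhdsWithin]
        with b₀ k1 k2 k3 (k4 : b₀ < bc)
      have A := k1.1 b₀ ⟨le_rfl, k4.le⟩
      have v := vP b₀ _ (K b₀) A (by omega) k2.1
      have o := (orb b₀ _ _ A k2.1).1
      refine hexit _ _ _ v.1 (by omega) (by omega) k2.2 v.2.2.1 (fun j j1 j2 => ?_) k1.2.2
      have s := o.st j j1 j2
      have w := (prm.wn o j1 j2).trans prm.w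
      have := (abs_le.1 (s.abs_dy w le_rfl)).1
      rw [abs_of_pos s.pos]
      nlinarith [s.pos, s.e_nonneg]
  obtain ⟨A, A0, hA⟩ := fam.scale
  have hN' : ∀ᶠ b in 𝓝[<] bc, φ.w * K b ≤ N b ∧ N b ≤ φ.w * K b + (c₀ + φ.w) :=
    hK.mono fun b k => ⟨by omega, k.2⟩
  refine ⟨A * φ.w * Real.log 2, mul_pos (mul_pos A0 (by exact_mod_cast w1)) (Real.log_pos one_lt_two),
    fun t ht => ⟨δ', δ'0, ?_⟩⟩
  filter_upwards [hG, KT.ev_abs (log_scale hA hN' 1) ht, KT.ev_abs (log_scale hA hN' 2) ht]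
    with b k1 k2 k3 using ⟨⟨_, k2, k1.2.1⟩, _, k3, k1.2.2⟩

end Crest.Agent.T145.Mid
end

-- ▼ part T145/MidCrit_54
section

/-!
# Row 145 (helper54): the critical flow, `Vx.CritXy`
-/

set_option autoImplicit false

namespace Crest.Agent.T145.Mid

open Finset Filter Topology S54 Real

namespace S54

/-- the finite-volume orbit at the threshold -/
theorem crit_orbit {Λ : Lat} (hc : Λ.Crit) {φ : Fw} {P : Par}
    (O : Odd (Λ.fa2 hc.1) (1 / π * (1 / (2 * Λ.τ))) φ P) (hV : VxStmt) (hD : DnStmt) (h1 : T1mStmt)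
    (hd : T1dStmt) : ∃ (l a : ℕ) (C₁ : ℝ), 0 ≤ C₁ ∧ ∀ᶠ k : ℕ in atTop, ∀ᶠ N in atTop,
      φ.V (Λ.fa2 hc.1) (1 / π * (1 / (2 * Λ.τ))) P Λ l N k ∧ φ.Ball Λ N P.ε₀ a k ∧ 0 < φ.y Λ N k ∧
      φ.η Λ N k ≤ 5 / k ∧ |φ.x Λ N k - 1 / k| ≤ C₁ * (k : ℝ) ^ (-1 - P.d) := by
  have θ0 : 0 < 1 / π * (1 / (2 * Λ.τ)) := by have := hc.1.2; positivity
  obtain ⟨ε₁, ε1, hε⟩ := KT.exists_om_le P.C P.d0 (show (0 : ℝ) < 1 / 100 by norm_num)
  have ε0 := lt_min ε1 P.ε0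
  obtain ⟨δ₁, δ1, δ2, hb⟩ := ball O θ0 hV hD ε0
  obtain ⟨-, l, a₀, -, -, -, G, -⟩ := horizon h1 hd hc δ1
  obtain ⟨a₂, c₂, -, hb⟩ := hb l a₀
  have hW : ∀ᶠ N in atTop, Cw (1 / π * (1 / (2 * Λ.τ))) P.δ Λ l N :=
    (eventually_ge_atTop a₀).mono fun N hN => cw_mono ((G N).2 N hN le_rfl) δ2
  have hΛ := Lat.mem_fa2 hc.1
  obtain ⟨a₃, B, hl⟩ := lim O l
  obtain ⟨a₄, -, hs⟩ := lim_step O l a₂
  have hs := hs Λ hΛ hW _ (min_le_right _ _) fun k hk =>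
    (eventually_ge_atTop (φ.w * k + c₂)).mono fun N hN => (hb Λ N k (G N) hk hN).2
  have t0 : Tendsto (xI φ Λ) atTop (𝓝 0) := by
    refine KT.tendsto_of_abs fun t ht => ?_
    obtain ⟨δ₃, δ3, -, hb⟩ := ball O θ0 hV hD ht
    obtain ⟨-, l', a', -, -, -, G', -⟩ := horizon h1 hd hc δ3
    obtain ⟨a₅, c₅, -, hb⟩ := hb l' a'
    filter_upwards [eventually_ge_atTop (a₃ + a₅)] with k hk
    rw [sub_zero]
    refine le_of_tendsto (hl Λ hΛ hW k (by omega)).1.abs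
      ((eventually_ge_atTop (φ.w * k + c₅)).mono fun n hn => ?_)
    obtain ⟨b1, b2⟩ := hb _ n k (G' n) (by omega) hn
    exact (le_add_of_nonneg_right b1.le).trans b2
  obtain ⟨r1, r2, -⟩ := KT.crit P.C0 P.d0 P.d1 (hε _ ε0.le (min_le_left _ _)) hs t0
  obtain ⟨C₁, C1, m, -, hm⟩ := KT.bigO_iff.1 r1
  refine ⟨l, a₂, C₁ + 1, by linarith, ?_⟩
  filter_upwards [eventually_ge_atTop (a₂ + a₃ + m + 1), KT.eventually_le_div P.d0 one_half_pos r1,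
    KT.eventually_le_div P.d0 one_half_pos r2] with k hk e1 e2
  have k1 : (1 : ℝ) ≤ k := by exact_mod_cast (show 1 ≤ k by omega)
  have u0 : 0 < (k : ℝ) ^ (-1 - P.d) := by positivity
  have u1 : (k : ℝ) ^ (-1 - P.d) ≤ 1 / k := by
    rw [one_div, ← rpow_neg_one]; exact rpow_le_rpow_of_exponent_le k1 (by linarith [P.d0])
  obtain ⟨t1, t2, -⟩ := hl Λ hΛ hW k (by omega)
  filter_upwards [ev_V hΛ hW k, eventually_ge_atTop (φ.w * k + c₂), KT.ev_abs t1 u0, KT.ev_abs t2 u0]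
    with N n1 n2 n3 n4
  refine ⟨n1, fun j j1 j2 => (hb Λ N j (G N) j1 (by have := mul_gap O.w1 j2; omega)).2.trans
    (min_le_right _ _), (hb Λ N k (G N) (by omega) n2).1, ?_,
    (abs_sub_le _ (xI φ Λ k) _).trans (by linarith [hm k (by omega)])⟩
  have a1 := abs_le.1 e1
  have a2 := abs_le.1 e2
  have a3 := abs_le.1 n3
  have a4 := abs_le.1 n4
  have e3 : (1 : ℝ) / 2 / k = 1 / 2 * (1 / k) := by ring
  have e4 : (5 : ℝ) / k = 5 * (1 / k) := by ring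
  have a5 : |φ.x Λ N k| ≤ 5 / 2 * (1 / k) := by rw [abs_le]; constructor <;> linarith
  rw [Fw.η]; linarith

/-- the index of a scale -/
theorem index {φ : Fw} (hw : 1 ≤ φ.w) {r : ℕ} (hr : r ≠ 0) :
    φ.r (Nat.log 2 r / φ.w) ≤ r ∧ r ≤ φ.r (Nat.log 2 r / φ.w + 1) :=
  ⟨(Nat.pow_le_pow_right two_pos (Nat.mul_div_le _ _)).trans (Nat.pow_log_le_self 2 hr),
    (Nat.lt_pow_succ_log_self one_lt_two r).le.trans
      (Nat.pow_le_pow_right two_pos (Nat.lt_mul_div_succ _ hw))⟩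

theorem log_r (φ : Fw) (k : ℕ) : log (φ.r k) = k * log (2 ^ φ.w) := by
  rw [Fw.r, pow_mul]; push_cast; rw [log_pow]

end S54

theorem critXy (hO : OpeStmt) (hV : VxStmt) (hD : DnStmt) (h1 : T1mStmt) (hd : T1dStmt) :
    Vx.CritXy := by
  intro b hc
  obtain ⟨φ, P, O, Op⟩ := hO ((xyL b).fa2 hc.1) (1 / π * (1 / (2 * (xyL b).τ))) rfl rfl
    (by have := hc.1.2; positivity)
  obtain ⟨l, a, C₁, C1, H⟩ := crit_orbit hc O hV hD h1 hd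
  obtain ⟨a₁, hn⟩ := O.nu l
  obtain ⟨a₂, B₂, hg⟩ := O.gj l
  obtain ⟨a₃, B₃, ho⟩ := Op l a
  obtain ⟨L, hL⟩ : ∃ L, L = log (2 ^ φ.w) := ⟨_, rfl⟩
  have hκ : φ.κ = π * L := by rw [hL]; rfl
  have L0 : 0 < L := hL ▸ log_pos (one_lt_pow₀ one_lt_two (by have := O.w1; omega))
  have C0 := P.C0
  have d0 := P.d0
  obtain ⟨G, hG⟩ : ∃ G, G = (2 * L) ^ (1 + P.d) := ⟨_, rfl⟩
  have G0 : 0 ≤ G := by rw [hG]; positivity
  have c1 : 0 ≤ 10 * P.C * L := by positivity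
  have c2 : 0 ≤ (C₁ + 25 * P.C + 3) / (π * L) * G := by positivity
  have c3 : 0 ≤ (P.C * 5 ^ (1 + P.d) + 1) * G := by positivity
  refine ⟨2 ^ P.s, 10 * P.C * L + (C₁ + 25 * P.C + 3) / (π * L) * G + (P.C * 5 ^ (1 + P.d) + 1) * G,
    P.d, d0, ?_⟩
  have tk : Tendsto (fun r => Nat.log 2 r / φ.w) atTop atTop := tendsto_atTop.2 fun n =>
    (eventually_ge_atTop (2 ^ (n * φ.w))).mono fun r hr =>
      (Nat.le_div_iff_mul_le O.w1).2 (Nat.le_log_of_pow_le one_lt_two hr)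
  filter_upwards [tk.eventually (H.and ((eventually_ge_atTop (a₁ + a₂ + a₃ + 1)).and
    (KT.eventually_geom P.θ0.le P.θ1 |B₂| 0))), eventually_ne_atTop 0] with r ⟨H, hk, hθ⟩ hr
  obtain ⟨r1, r2⟩ := index O.w1 hr
  generalize Nat.log 2 r / φ.w = k at *
  have k1 : (1 : ℝ) ≤ k := by exact_mod_cast (show 1 ≤ k by omega)
  have rp : ∀ j, (0 : ℝ) < φ.r j := fun j => by exact_mod_cast Nat.two_pow_pos _
  have r0 : (0 : ℝ) < r := by positivity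
  have t1 : k * L ≤ log r := by
    rw [hL, ← log_r]; exact log_le_log (rp k) (by exact_mod_cast r1)
  have t2 : log r ≤ (k + 1) * L := by
    have := log_le_log r0 (show (r : ℝ) ≤ φ.r (k + 1) by exact_mod_cast r2)
    rwa [log_r, ← hL, Nat.cast_succ] at this
  have t0 : 0 < log r := lt_of_lt_of_le (by positivity) t1
  have t3 : log r / (2 * L) ≤ k := by rw [div_le_iff₀ (by positivity)]; nlinarith
  obtain ⟨u, hu⟩ : ∃ u, u = (k : ℝ) ^ (-1 - P.d) := ⟨_, rfl⟩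
  have u0 : 0 < u := by rw [hu]; positivity
  have u1 : u ≤ G * log r ^ (-1 - P.d) := by
    rw [hu, hG]
    refine (rpow_le_rpow_of_nonpos (by positivity) t3 (by linarith)).trans (le_of_eq ?_)
    rw [div_rpow t0.le (by positivity), show -1 - P.d = -(1 + P.d) by ring,
      rpow_neg (show 0 ≤ 2 * L by positivity), div_inv_eq_mul, mul_comm]
  have u2 : 1 / (k : ℝ) ^ 2 ≤ u := by
    rw [hu, one_div, ← rpow_two, ← rpow_neg (by linarith)]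
    exact rpow_le_rpow_of_exponent_le k1 (by linarith [P.d1])
  have v0 : 0 ≤ log r ^ (-1 - P.d) := by positivity
  obtain ⟨N, ⟨n1, n2, n3, n4, n5⟩, n6, n7⟩ := (H.and
    (((tendsto_sub_atTop_nat (φ.w * k)).eventually (exists_pow (B := B₂) P.θ0.le P.θ1 u0)).and
      ((tendsto_sub_atTop_nat (φ.w * k)).eventually (exists_pow (B := B₃) P.θ0.le P.θ1 u0)))).exists
  rw [← hu] at n5
  have y1 : φ.y (xyL b) N k ≤ 5 / k := (le_add_of_nonneg_left (abs_nonneg _)).trans n4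
  have e1 : P.C * φ.η (xyL b) N k ^ (1 + P.d) ≤ P.C * 5 ^ (1 + P.d) * u := by
    rw [mul_assoc]
    refine mul_le_mul_of_nonneg_left ((rpow_le_rpow (add_nonneg (abs_nonneg _) n3.le) n4
      (by linarith)).trans (le_of_eq ?_)) C0
    rw [div_rpow (by norm_num) (by linarith), hu, show -1 - P.d = -(1 + P.d) by ring,
      rpow_neg (by linarith), div_eq_mul_inv]
  have e2 := mul_le_mul_of_nonneg_left u1 (show 0 ≤ P.C * 5 ^ (1 + P.d) + 1 by positivity)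
  have p1 := mul_nonneg c1 v0
  have p2 := mul_nonneg c2 v0
  have p3 := mul_nonneg c3 v0
  refine ⟨fun z c h => (hn _ N k n1 (by omega) r c z r1 r2 h).trans ?_, ⟨2 ^ N, fun m z h => ?_⟩, ?_⟩
  · rw [mul_comm _ (log r), ← div_div]
    refine div_le_div_of_nonneg_right ?_ (sq_nonneg _)
    rw [le_div_iff₀ t0]
    have : φ.y (xyL b) N k * log r ≤ 5 / k * (k * (2 * L)) := by
      rw [div_le_iff₀ (by positivity)] at t3; gcongr
    rw [show 5 / (k : ℝ) * (k * (2 * L)) = 10 * L by field_simp; ring] at this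
    nlinarith
  · have g := hg _ N k n1 (by omega) r m z r1 r2 h
    have g1 : P.C * φ.y (xyL b) N k ^ 2 ≤ P.C * (25 * u) := by
      refine mul_le_mul_of_nonneg_left ((pow_le_pow_left₀ n3.le y1 2).trans ?_) C0
      rw [show (5 / (k : ℝ)) ^ 2 = 25 * (1 / k ^ 2) by ring]; linarith
    have g2 : B₂ * P.θ ^ k ≤ u := by
      refine le_trans ?_ ((hθ.trans (show _ ≤ 1 / (k : ℝ) ^ 2 by gcongr; norm_num)).trans u2)
      rw [pow_zero, mul_one]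
      exact mul_le_mul (le_abs_self _) (pow_le_pow_of_le_one P.θ0.le P.θ1.le (by omega))
        (pow_nonneg P.θ0.le _) (abs_nonneg _)
    have g3 : |1 / (k : ℝ) - L / log r| ≤ u := by
      refine le_trans ?_ u2
      rw [show 1 / (k : ℝ) - L / log r = (log r - k * L) / (k * log r) by field_simp, abs_div,
        abs_of_nonneg (sub_nonneg.2 t1), abs_of_pos (by positivity), div_le_div_iff₀ (by positivity)
        (by positivity)]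
      nlinarith [mul_le_mul_of_nonneg_left t1 (show (0 : ℝ) ≤ k by linarith),
        mul_le_mul_of_nonneg_right (show log r - k * L ≤ L by linarith) (sq_nonneg (k : ℝ))]
    have g4 : |π * L * (gJ (m.W 0) z r - (2 / π + 1 / (π * log r)))| ≤ (C₁ + 25 * P.C + 3) * u := by
      rw [show π * L * (gJ (m.W 0) z r - (2 / π + 1 / (π * log r))) =
        π * L * (gJ (m.W 0) z r - 2 / π) - L / log r by field_simp; ring]
      rw [hκ] at g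
      have := abs_le.1 g
      have := abs_le.1 g3
      have := abs_le.1 n5
      rw [abs_le]; constructor <;> linarith
    rw [abs_mul, abs_of_pos (by positivity), ← le_div_iff₀' (by positivity), mul_div_right_comm] at g4
    have := mul_le_mul_of_nonneg_left u1 (show 0 ≤ (C₁ + 25 * P.C + 3) / (π * L) by positivity)
    linarith
  · obtain ⟨α, ξ, s1, s2, s3⟩ := ho _ N k n1 (by omega) n2 r r1 r2
    exact ⟨α, ξ, 2 ^ N, s1, s2, fun z => ⟨fun c h => ((s3 z).1 c h).trans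
      (div_le_div_of_nonneg_right (by linarith) (sq_nonneg _)), fun m h => ((s3 z).2 m h).trans
      (div_le_div_of_nonneg_right (by linarith) (sq_nonneg _))⟩⟩

end Crest.Agent.T145.Mid
end

-- ▼ part T145/FlCore_82
section

/-!
# Row 145, the odd flow: CORE (helper82)
-/

set_option autoImplicit false

namespace Crest.Agent.T145.Fl

open Finset Pot Xi Real

namespace C82

theorem win_mono {Λ : Lat} {θ δ δ' : ℝ} {l L : ℕ} (h : Λ.Win θ δ l L) (hδ : δ ≤ δ') : Λ.Win θ δ' l L :=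
  ⟨h.1, ⟨h.2.1.1.trans (by gcongr), h.2.1.2.trans (by gcongr)⟩, h.2.2.1, h.2.2.2.trans hδ⟩

theorem geo {rg r₀ w s N : ℕ} (hs : 2 ≤ s) (hN : s ≤ N) (hw : 4 ≤ w) (hr : 2 * rg ≤ r₀)
    (h1 : 100 * w * r₀ ≤ 2 ^ (N - s)) (h2 : 8 ≤ 2 ^ (N - s)) :
    2 ^ (N - 2) ≤ 2 ^ (N - 1) - rg - 1 ∧ 2 ^ (N - 1) - rg - 1 ≤ 2 ^ N ∧
      2 * (2 ^ (N - 1) - rg - 1 + rg) < 2 ^ N ∧
      2 ^ N ≤ 2 * (2 ^ (N - 1) - rg - 1 + (2 ^ (N - 1) - rg - 1) / 4) + 1 := by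
  have a1 : 2 ^ (N - s) ≤ 2 ^ (N - 2) := Nat.pow_le_pow_right (by norm_num) (by omega)
  have a2 : 2 ^ (N - 1) = 2 * 2 ^ (N - 2) := by rw [← pow_succ']; congr 1; omega
  have a3 : 2 ^ N = 4 * 2 ^ (N - 2) := by
    rw [show 4 = 2 ^ 2 by norm_num, ← pow_add]; congr 1; omega
  have a4 : 400 * r₀ ≤ 100 * w * r₀ := Nat.mul_le_mul_right _ (by omega)
  omega

theorem pow_mul_le {a s N : ℕ} (t : ℕ) (h : a + t ≤ s) (hN : s ≤ N) : 2 ^ a * 2 ^ (N - s) ≤ 2 ^ (N - t) := by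
  rw [← pow_add]; exact Nat.pow_le_pow_right (by norm_num) (by omega)

theorem num {W c η β j γ : ℝ} (hW : 1 ≤ W) (hA : 8 ^ (2 + η) ≤ c * W ^ β) (h : j * (2 + η) + β ≤ γ) :
    W ^ (-γ) ≤ c * ((8 * W ^ j)⁻¹) ^ (2 + η) := by
  have hW0 : 0 < W := by linarith
  have h8 : (0 : ℝ) < 8 ^ (2 + η) := by positivity
  rw [inv_rpow (by positivity), mul_rpow (by norm_num) (by positivity), ← rpow_mul hW0.le,
    ← div_eq_mul_inv, le_div_iff₀ (by positivity)]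
  calc W ^ (-γ) * (8 ^ (2 + η) * W ^ (j * (2 + η)))
      ≤ W ^ (-γ) * (c * W ^ β * W ^ (j * (2 + η))) := by gcongr
    _ = c * W ^ (-γ + β + j * (2 + η)) := by rw [rpow_add hW0, rpow_add hW0]; ring
    _ ≤ c * 1 := by
      have hc : 0 ≤ c := by
        by_contra hc
        have := mul_nonpos_of_nonpos_of_nonneg (not_le.1 hc).le (rpow_nonneg hW0.le β)
        linarith
      exact mul_le_mul_of_nonneg_left (rpow_le_one_of_one_le_of_nonpos hW (by linarith)) hc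
    _ = c := mul_one c

theorem ev_rpow (c : ℝ) {a : ℝ} (ha : 0 < a) : ∃ W₀ : ℕ, ∀ W : ℕ, W₀ ≤ W → c ≤ (W : ℝ) ^ a :=
  Filter.eventually_atTop.1
    (((tendsto_rpow_atTop ha).comp tendsto_natCast_atTop_atTop).eventually_ge_atTop c)

theorem rng {g g₀ : ℝ} (h1 : |g - g₀| ≤ 1 / 8) (h2 : |g₀ - 2 / π| ≤ 1 / 8) : 1 / 4 ≤ g ∧ g ≤ 1 := by
  have a : 1 / 2 ≤ 2 / π := by rw [le_div_iff₀ pi_pos]; linarith [pi_le_four]
  have b : 2 / π ≤ 3 / 4 := by rw [div_le_iff₀ pi_pos]; linarith [pi_gt_three]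
  rw [abs_le] at h1 h2
  constructor <;> linarith [h1.1, h1.2, h2.1, h2.2]

/-- the lower bounds of `Pack` -/
theorem low {p : Par} {Λ : Lat} {ω : (Cfg Pt → ℝ) → ℝ} {L N' : ℕ} (h : Env p Λ ω L N') {c η V : ℝ}
    {s r₁ n₀ : ℕ} (hL : ∀ (ρ R : ℝ) (z : Pt) (n : ℕ) (m : Mdl Pt), (r₁ : ℝ) ≤ ρ → 4 * ρ ≤ R → R ≤ V * ρ →
      eu z ≤ R → 2 ^ s * R ≤ n → n ≤ n₀ → Nc.Amb Λ m (bl 0 n) →
      c * (ρ / R) ^ (2 + η) ≤ Ex (m.W 0) fun t => trl z (Sn ρ) t * Sn R t)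
    (hs : 2 ^ s * L ≤ N') (hn : N' ≤ n₀) {r t : ℕ} (hr : 4 * r₁ + 1 ≤ r) (ht : 1 ≤ t) (hV : 8 * (t : ℝ) ≤ V)
    (hw : p.w * (t * r) ≤ L) : c * ((8 * (t : ℝ))⁻¹) ^ (2 + η) ≤ ell ω (2 * (t * r)) (Sn (r / 4)) := by
  obtain ⟨m, hm⟩ := h.amb 0
  have r0 : (1 : ℝ) ≤ r := by exact_mod_cast (by omega : 1 ≤ r)
  have t0 : (1 : ℝ) ≤ t := by exact_mod_cast ht
  have tr : (r : ℝ) ≤ t * r := le_mul_of_one_le_left (by linarith) t0
  have h4 : 4 * (t * r) ≤ L := (Nat.mul_le_mul_right _ h.w4).trans hw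
  have h4' : 4 * ((t : ℝ) * r) ≤ L := by exact_mod_cast h4
  have hLN : (L : ℝ) ≤ N' := by exact_mod_cast h.le
  have hs' : (2 : ℝ) ^ s * L ≤ N' := by exact_mod_cast hs
  have hr' : 4 * (r₁ : ℝ) + 1 ≤ r := by exact_mod_cast hr
  have := hL (r / 4) (2 * (t * r)) 0 N' m (by linarith) (by linarith) (by nlinarith) (by simp; positivity)
    ((mul_le_mul_of_nonneg_left (by nlinarith) (by positivity)).trans hs') hn hm.1
  rw [E30.trl_zero, show (r : ℝ) / 4 / (2 * (t * r)) = (8 * (t : ℝ))⁻¹ by field_simp; norm_num] at this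
  rwa [ell, hm.ex_eq (E30.ins_mul (E30.ins_Sn (by linarith) (by nlinarith))
    (E30.ins_Sn (by nlinarith) (by linarith)))]

end C82

open C82 in
theorem coreStmt (hG : Nc.GdStmt) (hK : KsWStmt) (hL : LowStmt) (hS : SmallWStmt) (hE : EntLowStmt)
    (hLk : LinkStmt) (hP : PurStmt) (hN : Ent2Stmt) : CoreStmt := by
  intro F θ₀ w₀ h0
  obtain ⟨w', r₀, c, hc, hgd⟩ := hG F θ₀ (1 / 400) h0 (by norm_num)
  obtain ⟨w, hw0, hw1, hw4⟩ : ∃ w, w₀ ≤ w ∧ w' ≤ w ∧ 4 ≤ w := ⟨w₀ + w' + 4, by omega, by omega, by omega⟩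
  have gs : ∀ (K : ℕ) (Λ : Lat) (l N s : ℕ) (δ : ℝ), F.Mem Λ → Λ.Win θ₀ δ l (2 ^ N) → c ≤ s → s ≤ N →
      Gs ⟨F, w, r₀, K⟩ Λ (2 ^ (N - s)) := fun K Λ l N s δ hΛ hW h1 h2 => by
    have g := (hgd Λ hΛ).1 _ hW.2.2.1
    refine ⟨hΛ, hw4, by simp only; omega, g.2.1, fun r a b =>
      FlF4.gam_le hΛ.ok g a (b.trans ?_) le_rfl (Nat.mul_le_mul_right _ hw1)⟩
    rw [Nat.le_div_iff_mul_le (by omega)]
    have a1 := pow_mul_le (a := s) (s := s) (N := N) 0 le_rfl h2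
    have a2 : c ≤ 2 ^ s := h1.trans Nat.lt_two_pow_self.le
    have a3 := Nat.mul_le_mul_left (2 ^ (N - s)) a2
    rw [Nat.sub_zero, mul_comm] at a1
    omega
  refine ⟨w, r₀, hw0, fun v₀ => ?_⟩
  have he := ew_pos (w := w) (by omega)
  obtain ⟨W₁, h1⟩ := hK ⟨F, w, r₀, 0⟩ θ₀ h0
  obtain ⟨W₂, h2⟩ := hS ⟨F, w, r₀, 0⟩ θ₀ h0
  obtain ⟨W₃, h3⟩ := hP w
  obtain ⟨W₄, h4⟩ := hN w
  obtain ⟨cL, hcL, h5⟩ := hL F θ₀ (ew w / 40) h0 (by positivity)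
  obtain ⟨W₅, hW₅⟩ := ev_rpow (8 ^ (2 + ew w / 40) / cL) (a := ew w / 20) (by positivity)
  obtain ⟨v, hv0, hv2, hv⟩ : ∃ v, v₀ ≤ v ∧ 2 ≤ v ∧ W₁ + W₂ + W₃ + W₄ + W₅ ≤ 2 ^ v :=
    ⟨v₀ + 2 + (W₁ + W₂ + W₃ + W₄ + W₅), by omega, by omega,
      le_trans (by omega) Nat.lt_two_pow_self.le⟩
  obtain ⟨W, hW⟩ : ∃ W : ℕ, W = 2 ^ v := ⟨_, rfl⟩
  rw [← hW] at hv
  have W2 : 2 ≤ W := by rw [hW]; exact le_trans hv2 Nat.lt_two_pow_self.le
  have W1 : (1 : ℝ) ≤ W := by exact_mod_cast (by omega : 1 ≤ W)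
  have hA : (8 : ℝ) ^ (2 + ew w / 40) ≤ cL * (W : ℝ) ^ (ew w / 20) := by
    have := hW₅ W (by omega)
    rwa [div_le_iff₀' hcL] at this
  obtain ⟨δ₁, s₁, d1, h1⟩ := h1 W (by omega)
  obtain ⟨δ₂, s₂, d2, h2⟩ := h2 W (by omega)
  obtain ⟨δ₅, s₅, d5, h5⟩ := h5 (8 * (W * W)) (by nlinarith)
  obtain ⟨δ₆, s₆, d6, h6⟩ := hE F θ₀ (ew w / 2) h0 (by positivity)
  obtain ⟨s, s1, s2, s5, sc⟩ : ∃ s, s₁ ≤ s ∧ s₂ ≤ s ∧ s₅ + 2 ≤ s ∧ c ≤ s :=
    ⟨s₁ + s₂ + s₅ + 2 + c, by omega, by omega, by omega, by omega⟩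
  obtain ⟨C₇, δ₇, c7, d7, h7⟩ := hLk ⟨F, w, r₀, 2 ^ s⟩ θ₀ (1 / 8) h0 (by norm_num)
  obtain ⟨C₀, D, hD, h4⟩ := h4 ⟨F, w, r₀, 2 ^ s⟩ W rfl (by omega)
  obtain ⟨C, C0, C7, C6, C2⟩ : ∃ C : ℝ, C₀ ≤ C ∧ C₇ ≤ C ∧ 2 ^ s₆ ≤ C ∧ 2 ≤ C :=
    ⟨max (max C₀ C₇) (max (2 ^ s₆) 2), le_max_of_le_left (le_max_left _ _),
      le_max_of_le_left (le_max_right _ _), le_max_of_le_right (le_max_left _ _),
      le_max_of_le_right (le_max_right _ _)⟩
  obtain ⟨δ₀, d0, e1, e2, e5, e6, e7, e8⟩ : ∃ δ₀ : ℝ, 0 < δ₀ ∧ δ₀ ≤ δ₁ ∧ δ₀ ≤ δ₂ ∧ δ₀ ≤ δ₅ ∧ δ₀ ≤ δ₆ ∧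
      δ₀ ≤ δ₇ ∧ δ₀ ≤ 1 / 8 :=
    ⟨min (min (min δ₁ δ₂) (min δ₅ δ₆)) (min δ₇ (1 / 8)), by positivity, by simp, by simp, by simp,
      by simp, by simp, by simp⟩
  refine ⟨⟨⟨F, w, r₀, 2 ^ s⟩, v, s, C, D, δ₀⟩, rfl, rfl, hv0, rfl, hv2, by simp only; omega,
    by simp only; linarith, hD, d0, fun y₀ hy => ?_⟩
  obtain ⟨y₁, y0, ya, yb⟩ : ∃ y₁ : ℝ, 0 < y₁ ∧ y₁ ≤ y₀ ∧ C₇ * y₁ ≤ 1 :=
    ⟨min y₀ (1 / (C₇ + 1)), by positivity, min_le_left _ _,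
      (mul_le_mul_of_nonneg_left (min_le_right _ _) c7).trans (by
        rw [mul_one_div, div_le_one (by linarith)]; linarith)⟩
  obtain ⟨ε₁, hε, h4⟩ := h4 C C0 y₁ y0
  obtain ⟨δ₈, d8, h2⟩ := h2 ε₁ hε
  refine ⟨min δ₀ δ₈, lt_min d0 d8, min_le_left _ _, fun l => ?_⟩
  obtain ⟨ρ₁, h1⟩ := h1 l
  obtain ⟨ρ₅, h5⟩ := h5 l
  obtain ⟨ρ₆, c₆, hc6, h6⟩ := h6 l
  obtain ⟨ρ₇, h7⟩ := h7 l
  obtain ⟨r₁, hr1, h2⟩ := h2 l (r₀ + ρ₁ + 4 * ρ₅ + 1)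
  obtain ⟨⟨ka, ha⟩, hb⟩ := h4 r₁
  obtain ⟨k₁, ka1, k1⟩ : ∃ k₁, ka ≤ k₁ ∧ ρ₆ + ρ₇ + r₁ ^ 2 + 100 * w * r₀ + 8 ≤ k₁ :=
    ⟨_, Nat.le_add_left _ _, Nat.le_add_right _ ka⟩
  obtain ⟨kb, hb⟩ := hb k₁ c₆ hc6
  have pw : ∀ k, k₁ ≤ k → ρ₆ + ρ₇ + r₁ ^ 2 + 100 * w * r₀ + 8 ≤ W ^ k := fun k hk =>
    (k1.trans hk).trans (Nat.lt_pow_self (by omega)).le
  have Rm : ∀ k k', k ≤ k' → Rk W k ≤ Rk W k' := fun k k' hk =>
    mul_le_mul_of_nonneg_left (pow_le_pow_right₀ W1 hk) (by norm_num)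
  have Rl : ∀ R : ℝ, Rk W k₁ ≤ R → (ρ₆ : ℝ) ≤ R ∧ (ρ₇ : ℝ) ≤ R ∧ 0 < R := fun R hR => by
    have a : ((ρ₆ + ρ₇ + 8 : ℕ) : ℝ) ≤ (W ^ k₁ : ℕ) := by
      exact_mod_cast le_trans (by omega) (pw k₁ le_rfl)
    push_cast at a
    have b : (0 : ℝ) ≤ ρ₆ := Nat.cast_nonneg _
    have b' : (0 : ℝ) ≤ ρ₇ := Nat.cast_nonneg _
    unfold Rk at hR
    refine ⟨by linarith, by linarith, by linarith⟩
  refine ⟨r₁, max k₁ kb, fun Λ N hΛ hw hk => ?_⟩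
  simp only at hk hw
  have sN : s ≤ N := by omega
  have wk : W ^ max k₁ kb ≤ 2 ^ (N - s) := by
    rw [hW, ← pow_mul]; exact Nat.pow_le_pow_right (by norm_num) (by omega)
  have big := (pw _ (le_max_left k₁ kb)).trans wk
  have cw : ∀ δ, δ₀ ≤ δ → Mid.Cw θ₀ δ Λ l N := fun δ h =>
    ⟨win_mono hw.1 ((min_le_left _ _).trans h), hw.2.trans h⟩
  have g0 := gs 0 Λ l N s _ hΛ hw.1 sc sN
  have g1 := gs (2 ^ s) Λ l N s _ hΛ hw.1 sc sN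
  obtain ⟨n1, n2, n3, n4⟩ := geo (rg := Λ.rg) (r₀ := r₀) (s := s) (N := N) (by omega) sN hw4 g0.gd.2.1
    (by omega) (by omega)
  have L0 := pow_mul_le (a := 0) (s := s) (N := N) 2 (by omega) sN
  have L1 := pow_mul_le (a := s) (s := s) (N := N) 0 le_rfl sN
  have L2 := pow_mul_le (a := 0) (s := s) (N := N) 0 (by omega) sN
  simp only [pow_zero, one_mul, Nat.sub_zero] at L0 L1 L2
  have L3 : 2 ^ N ≤ 2 ^ s * 2 ^ (N - s) := by
    rw [← pow_add]; exact Nat.pow_le_pow_right (by norm_num) (by omega)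
  have env : Env ⟨F, w, r₀, 2 ^ s⟩ Λ (tor Λ N) (2 ^ (N - s)) (nA Λ N) :=
    env_om g1 (by simp only; omega) (L0.trans n1) (n2.trans L3) n3 n4
  have ks : ∀ r : ℕ, r₀ ≤ r → r₀ + ρ₁ + 4 * ρ₅ + 1 ≤ r → w * (W * r) ≤ 2 ^ (N - s) → Ks w W Λ r :=
    fun r a b d => h1 Λ N _ g0 (cw _ e1) (by simpa using pow_mul_le 0 s1 sN) r a (by omega) d
  have lw := fun {r t : ℕ} => low (r := r) (t := t) env (h5 Λ N hΛ (cw _ e5))
    ((pow_mul_le 2 s5 sN).trans n1) n2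
  have pack : Pack ⟨F, w, r₀, 2 ^ s⟩ W Λ (tor Λ N) r₁ (2 ^ (N - s)) (nA Λ N) := by
    refine ⟨env, fun r a b d => ks r a (hr1.trans b) d, fun r a b d => ?_, fun r a b d => ?_⟩
    · refine le_trans ?_ (lw (by omega) (by omega) (by nlinarith) d)
      have := num (j := 1) (γ := 2 + ew w / 10) W1 hA (by linarith)
      rwa [rpow_one, neg_add, ← sub_eq_add_neg] at this
    · have := lw (r := r) (t := W * W) (by omega) (by nlinarith) (by push_cast; exact le_rfl)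
        (by rwa [mul_assoc])
      push_cast at this
      rw [mul_assoc (W : ℝ)] at this
      refine le_trans ?_ this
      have := num (j := 2) (γ := 4 + ew w / 10) W1 hA (by linarith)
      rwa [rpow_two, pow_two, neg_add, ← sub_eq_add_neg] at this
  have sm : Small ⟨F, w, r₀, 2 ^ s⟩ W Λ r₁ (2 ^ (N - s)) ε₁ :=
    h2 Λ N _ g0 ⟨win_mono hw.1 (min_le_right _ _), hw.2.trans e2⟩ (by simpa using pow_mul_le 0 s2 sN) ks
  have maj := fun R (hR : Rk W k₁ ≤ R) => ha Λ _ _ _ pack sm R ((Rm _ _ ka1).trans hR)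
  have lnk : ∀ R : ℝ, Rk W k₁ ≤ R → C * R ≤ (2 ^ (N - s) : ℕ) →
      1 / 4 ≤ gk (tor Λ N) R ∧ gk (tor Λ N) R ≤ 1 := fun R hR hC =>
    rng (h7 Λ _ _ _ N env (cw _ e7).1 L2 R y₁ (maj R hR) yb (Rl R hR).2.1
      ((mul_le_mul_of_nonneg_right C7 (Rl R hR).2.2.le).trans hC)) (hw.2.trans e8)
  have cone := hb Λ _ _ _ pack sm fun k hk hC => by
    have hR := Rl _ (Rm _ _ hk)
    refine ⟨(lnk _ (Rm _ _ hk) hC).1, (lnk _ (Rm _ _ hk) hC).2, ?_⟩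
    obtain ⟨m, hm⟩ := env.amb 0
    have hLN : ((2 ^ (N - s) : ℕ) : ℝ) ≤ nA Λ N := by exact_mod_cast env.le
    have := h6 Λ N hΛ (cw _ e6) (Rk W k) (nA Λ N) m hR.1
      (((mul_le_mul_of_nonneg_right C6 hR.2.2.le).trans hC).trans hLN) n2 hm.1
    rwa [← hm.ex_eq (E30.ins_cp (E30.chq_xi hR.2.2
      (((mul_le_mul_of_nonneg_right C2 hR.2.2.le).trans hC).trans hLN)) 0), ← neg_div] at this
  have pur := h3 _ W rfl (by omega) Λ _ _ _ _ pack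
  subst hW
  exact ⟨pack, pur, by simp only; omega,
    le_trans (by omega) (pw _ (le_max_left k₁ kb)),
    fun R hR => (maj R ((Rm _ _ (le_max_left _ _)).trans hR)).mono ya,
    fun R hR => lnk R ((Rm _ _ (le_max_left _ _)).trans hR),
    fun k hk hC => ⟨(cone k ((le_max_right _ _).trans hk) hC).1,
      (cone k ((le_max_right _ _).trans hk) hC).2.trans ya⟩⟩

end Crest.Agent.T145.Fl
end

-- ▼ part T145/FlEntLow_80
section

/-!
# Row 145, odd flow, ENTLOW: the charged expectation decays slower than any power (helper80)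
-/

set_option autoImplicit false

namespace Crest.Agent.T145.Fl

open Finset Pot Xi Real

namespace E80

/-- an ambient model is more localised than a free square inside -/
theorem ph_le {Λ : Lat} (hΛ : Λ.Ok) {m : Mdl Pt} {U : Finset Pt} (hm : Nc.Amb Λ m U) {a : Pt} {L : ℕ}
    (hL : 1 ≤ L) (hU : sq a L ⊆ U) {ξ : Pt → ℝ} {q : ℤ} (h : Chq (sq a L) ξ q) :
    Ph (Λ.WN L) (pr fun x => 2 * π * ξ (x + a)) ≤ Ex (m.W 0) (cp ξ 0) := by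
  have hI := (Nc.Geo.inL_near hm.near).mono hU
  have ha := self_mem_sq a hL
  have e : cp ξ 0 = fun s => cos (pr ((2 * π) • ξ) s) := funext fun s => by simp [cp, pr_smul]
  have hd := depG_cp h 0
  have h1 := Nc.le_ex hm.ctr hm.anch (hI.cn fun _ hx _ hy => hΛ.conn_sq hx hy) ⟨a, ha⟩
    (G := cp ξ 0) (e ▸ pd_cos _) hd
  rw [hI.nE_Nr ha (hd.shift subset_rfl)] at h1
  have h2 := hΛ.Ph_rc hL hL (a := a) (r := a) ha (f := (2 * π) • ξ) (q := q) (by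
    simp only [Pi.smul_apply, smul_eq_mul, ← mul_sum]; exact congrArg _ h.2)
  refine h2.symm.trans_le (le_trans (le_of_eq ?_) h1)
  rw [e]; rfl

/-- in a critical window `Y` decays slower than any power -/
theorem grow (hS : Step2Stmt) (h2 : T2Stmt) (hm : T1mStmt) (hY : Mb.Y0Stmt) (F : Fa) {θ₀ η : ℝ}
    (h0 : 0 < θ₀) (hη : 0 < η) : ∃ (δ : ℝ) (k : ℕ), 0 < δ ∧ 1 ≤ k ∧ ∀ l, ∃ (j₀ : ℕ) (y : ℝ), 0 < y ∧
      ∀ Λ N, F.Mem Λ → Mid.Cw θ₀ δ Λ l N → ∀ i, j₀ + k * i ≤ N →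
        y * ((2 : ℝ) ^ (k * i)) ^ (-η) ≤ Λ.Y (2 ^ (j₀ + k * i)) := by
  obtain ⟨k₀, H1⟩ := hS F (η / 2) (by positivity)
  obtain ⟨q₀, l₀, c, hc, H1⟩ := H1 (k₀ + 1) (by omega)
  obtain ⟨δ₂, d2, H2⟩ := h2 F (θ₀ / 2) (q₀ + 1) (c / 2) (by positivity)
    (le_add_of_nonneg_left (Nat.cast_nonneg _)) (by positivity)
  have hT : 0 < |F.τ₂| + 1 := by positivity
  obtain ⟨δ₃, d3, H3⟩ := hm.2.1 F (η / 16 / (|F.τ₂| + 1)) (by positivity)
  obtain ⟨δ₄, d4, H4⟩ := hm.2.2 F θ₀ (min δ₂ δ₃) 0 h0 (lt_min d2 d3)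
  refine ⟨min δ₄ (min (min δ₂ δ₃) (η / 16)), k₀ + 1, by positivity, by omega, fun l => ?_⟩
  set k := k₀ + 1
  obtain ⟨j₀, hj⟩ := pow_unbounded_of_one_lt (l / min δ₂ δ₃ + l₀ : ℝ) (one_lt_two (α := ℝ))
  obtain ⟨y, hy, H5⟩ := hY F (2 ^ j₀) Nat.one_le_two_pow
  refine ⟨j₀, y, hy, fun Λ N hΛ hw i => ?_⟩
  induction i with
  | zero => intro _; simpa using H5 Λ hΛ
  | succ i ih =>
    intro hi
    have hi' : j₀ + k * i ≤ N := le_trans (by rw [mul_add]; omega) hi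
    set j := j₀ + k * i with hjd
    have d5 := lt_min d2 d3
    have p1 : (2 : ℝ) ^ j₀ ≤ 2 ^ j := pow_le_pow_right₀ one_le_two (by omega)
    have p2 : 0 ≤ (l : ℝ) / min δ₂ δ₃ := by positivity
    have p3 : (0 : ℝ) ≤ l₀ := Nat.cast_nonneg _
    have sp : Sep (min δ₂ δ₃) l (2 ^ j) :=
      ⟨(hw.1.sep.mono ((min_le_right _ _).trans (min_le_left _ _))).1, by
        push_cast; rw [mul_comm, ← div_le_iff₀ d5]; linarith⟩
    have w := (H4 Λ hΛ l _ (hw.1.mono_d (min_le_left _ _))).2.2 j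
      (Nat.pow_le_pow_right two_pos hi') (Or.inr sp)
    obtain ⟨a1, -, -, a4⟩ := H1 Λ hΛ (2 ^ j) (by exact_mod_cast (by linarith : (l₀ : ℝ) ≤ 2 ^ j))
    have a5 := a4.resolve_right fun ⟨q, q1, q2, q3⟩ => by
      have b1 : (1 : ℝ) ≤ q := by exact_mod_cast q1
      have b2 : (q : ℝ) ≤ q₀ := by exact_mod_cast q2
      have := H2 Λ hΛ l _ (w.mono_d (min_le_left _ _)) q (by omega)
        (by rw [abs_of_pos (by linarith)]; linarith)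
      linarith
    have g1 : Λ.gN (2 ^ j) ≤ Λ.gN l + η / 16 := by
      have t1 := (H3 Λ hΛ).1 l _ (sp.mono (min_le_right _ _))
      have t2 : 1 / Λ.e0 ≤ |F.τ₂| + 1 := hΛ.inv_e0_le.trans (by linarith [le_abs_self F.τ₂])
      have t3 := hΛ.e0_pos
      calc Λ.gN (2 ^ j) ≤ (Λ.tN l + η / 16 / (|F.τ₂| + 1)) / Λ.e0 := div_le_div_of_nonneg_right t1 t3.le
        _ = Λ.gN l + η / 16 / (|F.τ₂| + 1) * (1 / Λ.e0) := by rw [Lat.gN]; ring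
        _ ≤ Λ.gN l + η / 16 / (|F.τ₂| + 1) * (|F.τ₂| + 1) := by gcongr
        _ = _ := by rw [div_mul_cancel₀ _ hT.ne']
    have g2 := (abs_le.1 (hw.2.trans ((min_le_right _ _).trans (min_le_right _ _)))).2
    have g3 : -η ≤ 2 - π * Λ.gN (2 ^ j) - η / 2 := by
      have : π * Λ.gN (2 ^ j) ≤ π * (2 / π + η / 8) := mul_le_mul_of_nonneg_left (by linarith) pi_pos.le
      rw [mul_add, mul_div_cancel₀ _ pi_pos.ne'] at this
      nlinarith [pi_lt_four]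
    have e : 2 ^ (j₀ + k * (i + 1)) = 2 ^ k * 2 ^ j := by rw [← pow_add, hjd]; congr 1; ring
    rw [e, mul_add, mul_one, pow_add, mul_rpow (by positivity) (by positivity), ← mul_assoc, mul_comm]
    refine le_trans ?_ a5
    exact mul_le_mul (rpow_le_rpow_of_exponent_le (one_le_pow₀ one_le_two) g3) (ih hi') (by positivity)
      (by positivity)

end E80

open E80 in
theorem entLowStmt (hS : Step2Stmt) (h2 : T2Stmt) (hm : T1mStmt) (hY : Mb.Y0Stmt) (hA : AFacStmt) :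
    EntLowStmt := by
  intro F θ₀ η h0 hη
  obtain ⟨δ, k, hδ, hk, H⟩ := grow hS h2 hm hY F h0 (half_pos hη)
  obtain ⟨Cx, hCx, hx⟩ := abs_xi_le
  set W : ℝ := 2 ^ (k + 3) with hW
  have W0 : 0 < W := by positivity
  set K : ℝ := 2 * π * Cx * W ^ 2 + π / 2 with hK
  set n₀ : ℝ := F.base.Jp.card * (100 * K) ^ 2 with hn₀
  refine ⟨δ, k + 3, hδ, fun l => ?_⟩
  obtain ⟨j₀, y, hy, H⟩ := H l
  refine ⟨2 ^ j₀, y ^ 2 * W ^ (-η) / exp (F.τ₂ * n₀), by positivity,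
    fun Λ N hΛ hw R n m hR hn hN hm => ?_⟩
  have R1 : 1 ≤ R := le_trans (by exact_mod_cast Nat.one_le_two_pow) hR
  have R0 : 0 < R := by linarith
  set c := ⌈2 * R⌉₊ with hc
  have c1 : 2 * R ≤ c := Nat.le_ceil _
  have c2 : (c : ℝ) < 2 * R + 1 := Nat.ceil_lt_add_one (by linarith)
  have ex : ∃ i, 2 * c + 1 ≤ 2 ^ (j₀ + k * i) := ⟨2 * c + 1, le_trans
    (by nlinarith) (Nat.lt_two_pow_self (n := j₀ + k * (2 * c + 1))).le⟩
  obtain ⟨i, i1, i2⟩ : ∃ i, 2 * c + 1 ≤ 2 ^ (j₀ + k * i) ∧ ((2 ^ (j₀ + k * i) : ℕ) : ℝ) ≤ W * R := by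
    refine ⟨Nat.find ex, Nat.find_spec ex, ?_⟩
    have k1 : (1 : ℝ) ≤ 2 ^ k := one_le_pow₀ one_le_two
    rcases h : Nat.find ex with _ | i
    · rw [mul_zero, add_zero, hW, pow_add]; nlinarith
    · have := not_le.1 (Nat.find_min ex (m := i) (by omega))
      have b : (2 : ℝ) ^ (j₀ + k * i) ≤ 8 * R := by
        have : ((2 ^ (j₀ + k * i) : ℕ) : ℝ) ≤ (2 * c + 1 : ℕ) := by exact_mod_cast this.le
        push_cast at this; linarith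
      push_cast
      rw [mul_add, mul_one, ← add_assoc, pow_add, hW, pow_add _ k 3]; nlinarith
  have Ln : 2 ^ (j₀ + k * i) ≤ n := by exact_mod_cast i2.trans hn
  have y1 := H Λ N hΛ hw i ((Nat.pow_le_pow_iff_right one_lt_two).1 (Ln.trans hN))
  have y2 : (2 : ℝ) ^ (k * i) ≤ W * R :=
    le_trans (by exact_mod_cast Nat.pow_le_pow_right two_pos (Nat.le_add_left _ _)) i2
  generalize 2 ^ (j₀ + k * i) = L at i1 i2 Ln y1
  have L1 : 1 ≤ L := by omega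
  have L0 : (0 : ℝ) < L := by positivity
  have hO := hΛ.ok
  set a : Pt := (-(c : ℤ), -(c : ℤ)) with ha
  have sb : bl 0 c ⊆ sq a L := fun x hx => by
    simp only [mem_bl, mem_sq, ha, Prod.fst_zero, Prod.snd_zero] at hx ⊢; omega
  have sx := sup_xi R0 c1
  have hq : Chq (sq a L) (xi R) 1 := ⟨fun x hx => sx x fun h => hx (sb h), by
    rw [← sum_subset sb fun x _ hx => sx x hx, sum_xi R0 c1, Int.cast_one]⟩
  have p1 := ph_le hO hm L1 (fun x hx => by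
    simp only [mem_bl, mem_sq, ha, Prod.fst_zero, Prod.snd_zero] at hx ⊢; omega) hq
  have K1 : π / 2 ≤ K := le_add_of_nonneg_left (by positivity)
  have ch := r1cStmt Λ L K 0 (fun x => -(2 * π * xi R (x + a))) (fun _ => π / 2) hO L1
    (fun x hx => by
      have : x + a ∉ sq a L := fun h => hx (by
        simp only [mem_sq, Prod.fst_add, Prod.snd_add, Prod.fst_zero, Prod.snd_zero] at h ⊢
        omega)
      simp only [hq.1 _ this, mul_zero, neg_zero])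
    (fun x => by
      rw [abs_neg, abs_mul, abs_of_pos two_pi_pos]
      calc _ ≤ 2 * π * (Cx / R ^ 2) := by gcongr; exact hx R R1 _
        _ = 2 * π * Cx * W ^ 2 / (W * R) ^ 2 := by field_simp
        _ ≤ _ := by gcongr; exact le_add_of_nonneg_right (by positivity))
    (fun _ => by rwa [abs_of_pos (by positivity)])
    (by
      have := hq.2
      rw [sq_eq_rc, ← zero_add a, ← map_rc_add, sum_map] at this
      simp only [Equiv.coe_toEmbedding, Equiv.coe_addRight, Int.cast_one] at this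
      rw [sum_neg_distrib, ← mul_sum, sq_eq_rc, this]; simp; ring)
  have f2 : F2 (Λ.edI (sq 0 L)) ((fun x => -(2 * π * xi R (x + a))) + side L fun _ => π / 2) n₀ := by
    refine (ch.f2.congr (funext fun x => by simp)).mono ?_
    have hc : ((Λ.edI (sq 0 L)).card : ℝ) ≤ (L : ℝ) ^ 2 * F.base.Jp.card := by
      have := card_edI_le Λ (sq 0 L)
      rw [card_sq, hΛ.Jp_eq] at this
      exact_mod_cast this
    calc ((Λ.edI (sq 0 L)).card : ℝ) * (100 * K / L) ^ 2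
        ≤ (L : ℝ) ^ 2 * F.base.Jp.card * (100 * K / L) ^ 2 := by gcongr
      _ = _ := by rw [hn₀]; field_simp
  have v := (hO.vr_WN L1 f2).trans (mul_le_mul_of_nonneg_right hΛ.tau_le f2.nonneg)
  have p2 := (hA.2.1 _ _ 0 (pr fun x => 2 * π * xi R (x + a))
    (pr ((fun x => -(2 * π * xi R (x + a))) + side L fun _ => π / 2)) (hO.cen_WN L1)).1
  rw [← pr_add, show ((fun x => 2 * π * xi R (x + a)) + ((fun x => -(2 * π * xi R (x + a))) +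
    side L fun _ => π / 2)) = side L fun _ => π / 2 from funext fun x => by simp] at p2
  have p0 := ((hO.cen_WN L1).ph_pos (pr fun x => 2 * π * xi R (x + a))).le
  rw [div_mul_eq_mul_div, div_le_iff₀ (exp_pos _), mul_assoc, ← mul_rpow W0.le R0.le]
  calc y ^ 2 * (W * R) ^ (-η) ≤ y ^ 2 * ((2 : ℝ) ^ (k * i)) ^ (-η) := by
        gcongr _ * ?_; exact rpow_le_rpow_of_nonpos (by positivity) y2 (by linarith)
    _ = (y * ((2 : ℝ) ^ (k * i)) ^ (-(η / 2))) ^ 2 := by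
        rw [mul_pow, pow_two (_ ^ _), ← rpow_add (by positivity)]; congr 2; ring
    _ ≤ Λ.Y L ^ 2 := by gcongr
    _ ≤ _ := p2.trans (by rw [mul_comm]; exact mul_le_mul p1 (exp_le_exp.2 v) (exp_pos _).le (p0.trans p1))

end Crest.Agent.T145.Fl
end

-- ▼ part T145/FlLow_84

/-!
# Row 145, odd flow: the sharp off-centre lower bound for two sines (`LowStmt`, helper84)
-/

set_option autoImplicit false

namespace Crest.Agent.T145.Fl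

open Finset Pot Xi Real

namespace Low84

theorem vr_add_le {L : Type*} [AddCommGroup L] {W : L → ℝ} (h : Cen W) (f g : L →+ ℝ) {e : ℝ}
    (he : 0 < e) : Vr W (f + g) (f + g) ≤ (1 + e) * Vr W f f + (1 + e⁻¹) * Vr W g g := by
  have h1 := h.vr_nonneg (e • f + -g)
  rw [h.vr_add, Vr_smul_smul, Vr_neg_neg, Vr_smul_left, Vr_neg_right] at h1
  have h2 : 2 * Vr W f g ≤ e * Vr W f f + e⁻¹ * Vr W g g := by
    have := mul_nonneg (inv_pos.2 he).le h1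
    have e1 : e⁻¹ * (e ^ 2 * Vr W f f + 2 * (e * -Vr W f g) + Vr W g g) =
        e * Vr W f f + e⁻¹ * Vr W g g - 2 * Vr W f g := by field_simp; ring
    linarith
  rw [h.vr_add]; linarith

theorem cp_ge {W : Cfg Pt → ℝ} (h : Cen W) (ξ : Pt → ℝ) :
    exp (-(2 * π ^ 2 * Vr W (pr ξ) (pr ξ))) ≤ Ex W (cp ξ 0) := by
  have := h.ph_ge ((2 * π) • pr ξ)
  rw [Vr_smul_smul] at this
  refine (le_of_eq ?_).trans (this.trans (le_of_eq ?_))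
  · congr 1; ring
  · exact congrArg _ (funext fun s => by simp [cp])

theorem sup_shift {n : ℕ} {u : Pt → ℝ} (h : Pot.Sup (bl 0 n) u) (z : Pt) :
    Pot.Sup (bl z n) fun y => u (y - z) := fun y hy =>
  h _ fun h' => hy (by simpa using (Ha91.add_mem_bl (z := z)).2 h')

theorem E0_shift (n : ℕ) (u : Pt → ℝ) (z : Pt) : E0 (bl z n) (fun y => u (y - z)) = E0 (bl 0 n) u := by
  simp only [E0, A0_shift, ← Ha91.sum_bl z, add_sub_cancel_left]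

theorem num {t η g δ E Ce B V₁ V₂ : ℝ} (ht : 1 ≤ t) (hη : 0 < η) (hδ : δ ≤ η / (8 + 2 * η))
    (hg : |g - 2 / π| ≤ δ) (hCe : 0 ≤ Ce) (hE : E ≤ log t / (2 * π) + 2 * Ce) (h1 : V₁ ≤ g * E + 1)
    (h2 : V₂ ≤ B) :
    exp (-(2 * π ^ 2 * ((1 + η / 4) * (4 * Ce + 1) + (1 + (η / 4)⁻¹) * B))) * t⁻¹ ^ (2 + η) ≤
      exp (-(2 * π ^ 2 * ((1 + η / 4) * V₁ + (1 + (η / 4)⁻¹) * V₂))) := by
  have p3 := pi_gt_three
  have p4 := pi_lt_four
  have l0 := log_nonneg ht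
  have d1 : δ * (8 + 2 * η) ≤ η := (le_div_iff₀ (by positivity)).1 hδ
  have d0 : 0 ≤ δ := (abs_nonneg _).trans hg
  have d2 : δ ≤ 1 / 2 := by nlinarith
  have q1 : 1 / 2 ≤ 2 / π := by rw [div_le_div_iff₀ two_pos pi_pos]; linarith
  have q2 : 2 / π ≤ 1 := by rw [div_le_one pi_pos]; linarith
  obtain ⟨g1, g2⟩ := abs_le.1 hg
  have g3 : π * g ≤ 2 + 4 * δ := by
    have : π * (2 / π) = 2 := by field_simp
    nlinarith
  have k1 : g * E ≤ g * (log t / (2 * π)) + 4 * Ce := by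
    nlinarith [mul_le_mul_of_nonneg_left hE (by linarith : 0 ≤ g)]
  have k2 : 2 * π ^ 2 * ((1 + η / 4) * (g * (log t / (2 * π)))) ≤ log t * (2 + η) := by
    rw [show 2 * π ^ 2 * ((1 + η / 4) * (g * (log t / (2 * π)))) = log t * ((1 + η / 4) * (π * g)) by
      field_simp]
    refine mul_le_mul_of_nonneg_left ?_ l0
    nlinarith [mul_le_mul_of_nonneg_left g3 (by positivity : 0 ≤ 1 + η / 4)]
  rw [rpow_def_of_pos (by positivity), log_inv, ← exp_add]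
  refine exp_le_exp.2 ?_
  have k3 : (1 + η / 4) * V₁ + (1 + (η / 4)⁻¹) * V₂ ≤
      (1 + η / 4) * (g * (log t / (2 * π)) + (4 * Ce + 1)) + (1 + (η / 4)⁻¹) * B := by
    gcongr; linarith
  nlinarith [mul_le_mul_of_nonneg_left k3 (by positivity : 0 ≤ 2 * π ^ 2)]

end Low84

open Low84 in
/-- LOW -/
theorem lowStmt (hG : SgStmt) (hC : ScStmt) : LowStmt := fun F θ₀ η h0 hη => by
  obtain ⟨C, C0, X1, X2, -⟩ := xfStmt
  obtain ⟨Ce, hCe, he⟩ := abs_er_le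
  obtain ⟨Cx, hCx, hx⟩ := abs_xi_le
  set c₀ := exp (-(2 * π ^ 2 * ((1 + η / 4) * (4 * Ce + 1) + (1 + (η / 4)⁻¹) * (F.τ₂ * C))))
  have c0 : 0 < c₀ := exp_pos _
  refine ⟨c₀ / 4, by positivity, fun V hV => ?_⟩
  set K := V + 2 * Ce + 18 * Cx * V ^ 2
  have K1 : 1 ≤ K := hV.trans ((le_add_of_nonneg_right (by positivity)).trans
    (le_add_of_nonneg_right (by positivity)))
  obtain ⟨δ₁, d1, hG⟩ := hG F θ₀ K 1 h0 K1 one_pos
  obtain ⟨δ₂, s, d2, hC⟩ := hC F θ₀ K (c₀ * V⁻¹ ^ (2 + η) / 2) h0 K1 (by positivity)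
  refine ⟨min (min δ₁ δ₂) (η / (8 + 2 * η)), s + 3, by positivity, fun l => ?_⟩
  obtain ⟨r₁, hG⟩ := hG l
  obtain ⟨r₂, hC⟩ := hC l
  refine ⟨r₁ + r₂ + ⌈C⌉₊ + 1, fun Λ N hΛ hw ρ R z n m a1 a2 a3 a4 a5 a6 hm => ?_⟩
  push_cast at a1
  have b0 := Nat.le_ceil C
  have b1 : (0 : ℝ) ≤ r₁ := Nat.cast_nonneg _
  have b2 : (0 : ℝ) ≤ r₂ := Nat.cast_nonneg _
  have ρ1 : 1 ≤ ρ := by linarith
  have ρ0 : 0 < ρ := by linarith
  have R0 : 0 < R := by linarith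
  obtain ⟨k, k1, k2⟩ : ∃ k : ℕ, 2 * R ≤ k ∧ (k : ℝ) ≤ 2 * R + 1 :=
    ⟨⌈2 * R⌉₊, Nat.le_ceil _, (Nat.ceil_lt_add_one (by linarith)).le⟩
  have s1 : (1 : ℝ) ≤ 2 ^ s := one_le_pow₀ one_le_two
  rw [pow_add] at a5
  have n1 : 8 * R ≤ n := by nlinarith
  have n2 : 2 ^ s * k ≤ n := by
    have : (2 : ℝ) ^ s * k ≤ n := by nlinarith
    exact_mod_cast this
  have n3 : k + 1 + rad z ≤ n := by
    have : (k : ℝ) + 1 + rad z ≤ n := by linarith [rad_le_eu z]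
    exact_mod_cast this
  have cen : Cen (m.W 0) := hm.ctr.cen hm.anch
  have xb : ∀ x y, |xi ρ x| + |xi R y| ≤ K / (k : ℝ) ^ 2 := fun x y => by
    have h1 : Cx / R ^ 2 ≤ Cx / ρ ^ 2 := by gcongr; linarith
    have h2 : Cx / ρ ^ 2 ≤ 9 * Cx * V ^ 2 / (k : ℝ) ^ 2 := by
      rw [div_le_div_iff₀ (by positivity) (by nlinarith),
        show 9 * Cx * V ^ 2 * ρ ^ 2 = Cx * (3 * (V * ρ)) ^ 2 by ring]
      gcongr; linarith
    calc _ ≤ 9 * Cx * V ^ 2 / (k : ℝ) ^ 2 + 9 * Cx * V ^ 2 / (k : ℝ) ^ 2 :=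
          add_le_add ((hx ρ ρ1 x).trans h2) ((hx R (by linarith) y).trans (h1.trans h2))
      _ = 18 * Cx * V ^ 2 / (k : ℝ) ^ 2 := by ring
      _ ≤ _ := by gcongr; exact le_add_of_nonneg_left (by positivity)
  -- the neutral part
  have eE := (X2 V ρ R k 1 hV (by linarith) a3 (by linarith) k1 le_rfl (by simpa using ρ1)).1
  have t1 : 1 ≤ R / ρ := (one_le_div ρ0).2 (by linarith)
  have hE : E0 (bl 0 k) (Phi ρ - Phi R) ≤ log (R / ρ) / (2 * π) + 2 * Ce := by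
    linarith [(abs_le.1 (he ρ ρ1)).1, (abs_le.1 (he R (by linarith))).1]
  have hA : A0 (fun y => (Phi ρ - Phi R) (y - z)) = fun x => xi ρ (x - z) - xi R (x - z) :=
    funext fun x => by rw [A0_shift, ← xi_sub]; rfl
  have v1 := (abs_le.1 (hG Λ N hΛ (hw.1.mono_d ((min_le_left _ _).trans (min_le_left _ _))) z k
    (fun y => (Phi ρ - Phi R) (y - z)) m (by exact_mod_cast (by linarith : (r₁ : ℝ) ≤ k))
    (by omega) (sup_shift ((sup_Phi ρ0 (by linarith)).sub (sup_Phi R0 (by linarith))) z)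
    (fun x => by rw [hA]; exact (abs_sub _ _).trans (xb _ _)) (by
      rw [E0_shift]
      have h1 : log (R / ρ) ≤ V := (log_le_self (by linarith)).trans ((div_le_iff₀ ρ0).2 a3)
      have h2 := div_le_self (log_nonneg t1) (by linarith [pi_gt_three] : 1 ≤ 2 * π)
      have : 0 ≤ 18 * Cx * V ^ 2 := by positivity
      simp only [K]; linarith)
    (Nc.Geo.amb_mono hm (bl_subset_bl (mem_bl_rad z) n3))).1.1).2
  rw [E0_shift, hA, sub_le_iff_le_add'] at v1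
  have v2 := (B80.vr_le_of_f2 hΛ.ok hm (X1 1 R R R z n (by linarith) (by linarith) le_rfl le_rfl a4
    (by linarith) (by linarith) n1)).1
  rw [log_one, add_zero, mul_one] at v2
  have q1 := num t1 hη (min_le_right _ _) hw.2 hCe hE v1 (v2.trans (mul_le_mul_of_nonneg_right hΛ.2.2.2 C0))
  have q2 := cp_ge cen ((fun y => xi ρ (y - z)) - xi R)
  have q3 := vr_add_le cen (pr fun x => xi ρ (x - z) - xi R (x - z)) (pr ((fun y => xi R (y - z)) - xi R))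
    (by positivity : 0 < η / 4)
  rw [← pr_add, show (fun x => xi ρ (x - z) - xi R (x - z)) + ((fun y => xi R (y - z)) - xi R) =
    (fun y => xi ρ (y - z)) - xi R from funext fun x => by simp] at q3
  have q4 : c₀ * (R / ρ)⁻¹ ^ (2 + η) ≤ _ :=
    q1.trans ((exp_le_exp.2 (neg_le_neg (mul_le_mul_of_nonneg_left q3 (by positivity)))).trans q2)
  rw [inv_div] at q4
  -- the charged part
  obtain ⟨-, u1, u2⟩ := Xf91.shifted ρ0 (z := z) (m := k) (by linarith)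
  have q5 := (abs_le.1 (hC Λ N hΛ (hw.1.mono_d ((min_le_left _ _).trans (min_le_right _ _))) 0 k n
    ((fun y => xi ρ (y - z)) + xi R) (1 + 1) (-(π / 2) + -(π / 2)) m
    (by exact_mod_cast (by linarith : (r₂ : ℝ) ≤ k)) n2 a6 (by norm_num)
    (Chq.add ⟨u1, by simpa using u2⟩ (chq_xi R0 k1)) (fun x => (abs_add_le _ _).trans (xb _ _)) hm)).1
  have q6 : V⁻¹ ^ (2 + η) ≤ (ρ / R) ^ (2 + η) := by
    refine rpow_le_rpow (by positivity) ?_ (by positivity)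
    rw [inv_eq_one_div, div_le_div_iff₀ (by linarith) R0]; linarith
  simp only [trl_Sn, Sn_eq R, cp_mul, sub_self]
  rw [Ex_div_const, Ex_add (cen.wt.ig_bdd (abs_cp_le _ _)) (cen.wt.ig_bdd (abs_cp_le _ _))]
  linarith [mul_le_mul_of_nonneg_left q6 c0.le]

end Crest.Agent.T145.Fl
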