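import Crest.Agent.T145.GffDef_8
import Crest.Agent.T145.CorB_59

/-!
# Row 145, module (b) (helper66): `anStmt`, `aFacStmt`
-/

set_option autoImplicit false

namespace Crest.Agent.T145

open Metric Complex

namespace AF66

/-- two constants on the half disc, with the harmonic majorant `re (z² - 2 i z)` -/
theorem half_disc {G : ℂ → ℂ} (hG : Differentiable ℂ G) {l δ : ℝ} (hl : 0 ≤ l)
    (hB : ∀ z : ℂ, ‖z‖ ≤ 1 → ‖G z‖ ≤ δ * Real.exp l) (hδ : ∀ t : ℝ, |t| ≤ 1 → ‖G t‖ ≤ δ)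
    {t : ℝ} (h0 : 0 ≤ t) (h1 : t ≤ 1 / 2) : ‖G (t * I)‖ ≤ δ * Real.exp (3 / 4 * l) := by
  have hδ0 : 0 ≤ δ := (norm_nonneg _).trans (hδ 0 (by simp))
  have hn : ∀ z : ℂ, ‖G z * exp (-l * (z ^ 2 - 2 * I * z))‖ =
      ‖G z‖ * Real.exp (-(l * (z.re ^ 2 - z.im ^ 2 + 2 * z.im))) := fun z => by
    rw [norm_mul, norm_exp]
    congr 2
    simp [pow_two]
  have hc : IsClosed (closedBall (0 : ℂ) 1 ∩ {z | 0 ≤ z.im}) :=
    isClosed_closedBall.inter (isClosed_le continuous_const continuous_im)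
  have key := norm_le_of_forall_mem_frontier_norm_le (U := closedBall (0 : ℂ) 1 ∩ {z | 0 ≤ z.im})
    (f := fun z => G z * exp (-l * (z ^ 2 - 2 * I * z))) (isBounded_closedBall.subset Set.inter_subset_left)
    (Differentiable.diffContOnCl (by fun_prop)) (C := δ) (fun z hz => ?_) (z := t * I)
    (subset_closure ⟨by simpa [abs_of_nonneg h0] using h1.trans (by norm_num), by simpa using h0⟩)
  · rw [hn] at key
    simp only [mul_re, ofReal_re, I_re, ofReal_im, I_im, mul_im] at key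
    rw [Real.exp_neg, ← div_eq_mul_inv, div_le_iff₀ (Real.exp_pos _)] at key
    refine key.trans (mul_le_mul_of_nonneg_left (Real.exp_le_exp.2 ?_) hδ0)
    rw [mul_comm (3 / 4)]
    exact mul_le_mul_of_nonneg_left (by nlinarith) hl
  · rw [hc.frontier_eq] at hz
    obtain ⟨⟨hz1, hz2⟩, hz3⟩ := hz
    rw [mem_closedBall_zero_iff] at hz1
    have hz2 : 0 ≤ z.im := hz2
    rw [hn]
    rcases hz2.eq_or_lt with h | h
    · have e : z = (z.re : ℂ) := Complex.ext rfl (by simp [← h])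
      have h3 := hδ z.re ((abs_re_le_norm z).trans hz1)
      rw [← e] at h3
      refine (mul_le_of_le_one_right (norm_nonneg _) (Real.exp_le_one_iff.2 ?_)).trans h3
      rw [← h]
      simpa using mul_nonneg hl (sq_nonneg z.re)
    · have e : ‖z‖ = 1 := by
        refine hz1.antisymm (not_lt.1 fun h' => hz3 ?_)
        exact mem_interior.2 ⟨ball 0 1 ∩ {z | 0 < z.im},
          fun w hw => ⟨ball_subset_closedBall hw.1, show 0 ≤ w.im from le_of_lt hw.2⟩,
          isOpen_ball.inter (isOpen_lt continuous_const continuous_im), mem_ball_zero_iff.2 h', h⟩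
      have e2 : z.re ^ 2 + z.im ^ 2 = 1 := by
        have := Complex.sq_norm z
        rw [e, normSq_apply] at this
        linarith
      have h4 : z.im ≤ 1 := by nlinarith [sq_nonneg z.re]
      rw [Real.exp_neg, ← div_eq_mul_inv, div_le_iff₀ (Real.exp_pos _)]
      refine (hB z hz1).trans (mul_le_mul_of_nonneg_left (Real.exp_le_exp.2 ?_) hδ0)
      exact le_mul_of_one_le_right hl (by nlinarith)

theorem two_const {G : ℂ → ℂ} (hG : Differentiable ℂ G) {ρ l δ : ℝ} (hρ : 0 < ρ) (hl : 0 ≤ l)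
    (hB : ∀ z : ℂ, ‖z‖ ≤ 2 * ρ → ‖G z‖ ≤ δ * Real.exp l)
    (hδ : ∀ t : ℝ, |t| ≤ 2 * ρ → ‖G t‖ ≤ δ) {t : ℝ} (ht : |t| ≤ ρ) :
    ‖G (t * I)‖ ≤ δ * Real.exp (3 / 4 * l) := by
  obtain ⟨c, hc, e⟩ : ∃ c : ℝ, |c| = 2 * ρ ∧ t = c * (|t| / (2 * ρ)) := by
    rcases abs_choice t with h | h
    · exact ⟨2 * ρ, abs_of_pos (by linarith), by rw [h]; field_simp⟩
    · exact ⟨-(2 * ρ), by rw [abs_neg, abs_of_pos (by linarith)], by rw [h]; field_simp⟩
  have h := half_disc (G := fun z => G (c * z)) (by fun_prop) hl (δ := δ)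
    (fun z hz => hB _ (by rw [norm_mul, norm_real, Real.norm_eq_abs, hc]; nlinarith))
    (fun s hs => by
      rw [← ofReal_mul]; exact hδ _ (by rw [abs_mul, hc]; nlinarith))
    (t := |t| / (2 * ρ)) (by positivity) (by rw [div_le_iff₀ (by positivity)]; linarith)
  rwa [← mul_assoc, ← ofReal_mul, ← e] at h

/-- soft form -/
theorem an_soft {B ε : ℝ} (hB : 0 < B) (hε : 0 < ε) : ∃ δ : ℝ, 0 < δ ∧ ∀ G : ℂ → ℂ,
    Differentiable ℂ G → (∀ z : ℂ, ‖z‖ ≤ 2 → ‖G z‖ ≤ B) → (∀ t : ℝ, |t| ≤ 2 → ‖G t‖ ≤ δ) →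
    ‖G I‖ ≤ ε := by
  refine ⟨B * Real.exp (-(4 * (B / ε))), by positivity, fun G hG h1 h2 => ?_⟩
  have h := two_const hG one_pos (l := 4 * (B / ε)) (by positivity)
    (δ := B * Real.exp (-(4 * (B / ε))))
    (fun z hz => by rw [mul_assoc, ← Real.exp_add, neg_add_cancel, Real.exp_zero, mul_one]
                    exact h1 z (by linarith))
    (fun t ht => h2 t (by linarith)) (t := 1) (by simp)
  rw [ofReal_one, one_mul, mul_assoc, ← Real.exp_add,
    show -(4 * (B / ε)) + 3 / 4 * (4 * (B / ε)) = -(B / ε) by ring, Real.exp_neg,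
    ← div_eq_mul_inv] at h
  refine h.trans ((div_le_iff₀ (Real.exp_pos _)).2 ?_)
  have := Real.add_one_le_exp (B / ε)
  calc B = ε * (B / ε) := by field_simp
    _ ≤ _ := mul_le_mul_of_nonneg_left (by linarith) hε.le

theorem abs_exp_sub {a b C : ℝ} (ha : a ≤ C) (hb : b ≤ C) :
    |Real.exp a - Real.exp b| ≤ Real.exp C * |a - b| := by
  wlog h : a ≤ b generalizing a b
  · rw [abs_sub_comm, abs_sub_comm a]; exact this hb ha (le_of_not_ge h)
  rw [abs_of_nonpos (sub_nonpos.2 (Real.exp_le_exp.2 h)), abs_of_nonpos (sub_nonpos.2 h)]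
  have h1 := mul_le_mul_of_nonneg_left (Real.add_one_le_exp (a - b)) (Real.exp_pos b).le
  rw [← Real.exp_add, add_sub_cancel] at h1
  have h2 := mul_le_mul_of_nonneg_right (Real.exp_le_exp.2 hb) (sub_nonneg.2 h)
  linarith

theorem cos_add_le (a h : ℝ) : Real.cos (a + h) ≤ Real.cos a - h * Real.sin a + h ^ 2 / 2 := by
  have hd : ∀ x, HasDerivAt (fun x => x ^ 2 / 2 - Real.cos (a + x) - x * Real.sin a)
      (x + (Real.sin (a + x) - Real.sin a)) x := fun x => by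
    have h1 := ((((hasDerivAt_id x).fun_pow 2).div_const 2).fun_sub
      ((hasDerivAt_id x).const_add a).cos).fun_sub ((hasDerivAt_id x).mul_const (Real.sin a))
    refine h1.congr_deriv ?_
    simp only [id]; ring
  have hs : ∀ x, |Real.sin (a + x) - Real.sin a| ≤ |x| := fun x => by
    simpa using Real.abs_sin_sub_sin_le (a + x) a
  rcases lt_trichotomy h 0 with h0 | rfl | h0
  · obtain ⟨x, hx, e⟩ := exists_hasDerivAt_eq_slope _ _ h0
      (fun x _ => (hd x).continuousAt.continuousWithinAt) fun x _ => hd x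
    have h1 := hs x
    rw [abs_of_neg hx.2, abs_le] at h1
    rw [eq_div_iff (by linarith)] at e
    simp only [add_zero] at e
    nlinarith
  · simp
  · obtain ⟨x, hx, e⟩ := exists_hasDerivAt_eq_slope _ _ h0
      (fun x _ => (hd x).continuousAt.continuousWithinAt) fun x _ => hd x
    have h1 := hs x
    rw [abs_of_pos hx.1, abs_le] at h1
    rw [eq_div_iff (by linarith)] at e
    simp only [add_zero] at e
    nlinarith

section lp
variable {L : Type*} [AddCommGroup L] {W F : L → ℝ}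

/-- `E [F e^{z g}]` -/
noncomputable def lp (W F : L → ℝ) (g : L →+ ℝ) (z : ℂ) : ℂ :=
  (∑' s, ((W s * F s : ℝ) : ℂ) * exp (z * g s)) / Zs W

theorem norm_term (hW : Wt W) (F : L → ℝ) (g : L →+ ℝ) (z : ℂ) (s : L) :
    ‖((W s * F s : ℝ) : ℂ) * exp (z * g s)‖ = W s * (|F s| * Real.exp (z.re * g s)) := by
  rw [norm_mul, norm_real, Real.norm_eq_abs, abs_mul, abs_of_nonneg (hW.nonneg s), norm_exp,
    re_mul_ofReal, mul_assoc]

theorem lp_diff (hW : Wt W) (h : SE W) (hF : Tame F) (g : L →+ ℝ) : Differentiable ℂ (lp W F g) := by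
  refine Differentiable.div_const (fun z => ?_) _
  refine (differentiableOn_tsum_of_summable_norm (U := ball 0 (‖z‖ + 1))
    (h.ig (hF.abs.mul (Tame.exp_abs ((‖z‖ + 1) • g)))) (fun s => by fun_prop) isOpen_ball
    fun s w hw => ?_).differentiableAt (isOpen_ball.mem_nhds (by simp))
  rw [norm_term hW]
  refine mul_le_mul_of_nonneg_left (mul_le_mul_of_nonneg_left (Real.exp_le_exp.2
    ((le_abs_self _).trans ?_)) (abs_nonneg _)) (hW.nonneg s)
  rw [AddMonoidHom.smul_apply, smul_eq_mul, abs_mul, abs_mul]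
  exact mul_le_mul_of_nonneg_right ((abs_re_le_norm w).trans
    ((mem_ball_zero_iff.1 hw).le.trans (le_abs_self _))) (abs_nonneg _)

theorem lp_summable (hW : Wt W) (h : SE W) (hF : Tame F) (g : L →+ ℝ) (z : ℂ) :
    Summable fun s => ‖((W s * F s : ℝ) : ℂ) * exp (z * g s)‖ := by
  simp only [norm_term hW]
  exact h.ig (hF.abs.mul (Tame.exp (z.re • g)))

theorem norm_lp (hW : Wt W) (h : SE W) (hF : Tame F) (g : L →+ ℝ) (z : ℂ) :
    ‖lp W F g z‖ ≤ Ex W fun s => |F s| * Real.exp (z.re * g s) := by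
  rw [lp, norm_div, norm_real, Real.norm_of_nonneg hW.pos.le, Ex_def]
  refine div_le_div_of_nonneg_right ((norm_tsum_le_tsum_norm (lp_summable hW h hF g z)).trans_eq ?_)
    hW.pos.le
  simp only [norm_term hW]

theorem lp_real (W F : L → ℝ) (g : L →+ ℝ) (t : ℝ) :
    lp W F g t = (Ex W fun s => Real.exp (t * g s) * F s : ℝ) := by
  rw [lp, Ex_def, ofReal_div, ofReal_tsum]
  congr 2; funext s; push_cast; ring

theorem lp_I_re (hW : Wt W) (h : SE W) (hF : Tame F) (g : L →+ ℝ) :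
    (lp W F g I).re = Ex W fun s => F s * Real.cos (g s) := by
  rw [lp, div_ofReal_re, re_tsum (lp_summable hW h hF g I).of_norm, Ex_def]
  congr 2; funext s
  rw [re_ofReal_mul, mul_comm I, exp_ofReal_mul_I_re, mul_assoc]

theorem lp_I_im (hW : Wt W) (h : SE W) (hF : Tame F) (g : L →+ ℝ) :
    (lp W F g I).im = Ex W fun s => F s * Real.sin (g s) := by
  rw [lp, div_ofReal_im, im_tsum (lp_summable hW h hF g I).of_norm, Ex_def]
  congr 2; funext s
  rw [im_ofReal_mul, mul_comm I, exp_ofReal_mul_I_im, mul_assoc]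

theorem lp_one_real (hW : Wt W) (h : SE W) (g : L →+ ℝ) (t : ℝ) :
    lp W (fun _ => 1) g t = (Real.exp (M W (t • g)) : ℝ) := by
  rw [lp_real, hW.exp_M h]; simp

theorem norm_lp_one (hW : Wt W) (h : SE W) (g : L →+ ℝ) (z : ℂ) :
    ‖lp W (fun _ => 1) g z‖ ≤ Real.exp (M W (z.re • g)) := by
  rw [hW.exp_M h]; simpa using norm_lp hW h (Tame.const 1) g z

theorem norm_lp_hom (hW : Wt W) (h : SE W) (X g : L →+ ℝ) (z : ℂ) :
    ‖lp W (fun s => X s) g z‖ ≤ Real.exp (M W ((1 : ℝ) • X + z.re • g)) +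
      Real.exp (M W ((-1 : ℝ) • X + z.re • g)) := by
  rw [hW.exp_M h, hW.exp_M h, ← Ex_add (h _) (h _)]
  refine (norm_lp hW h (Tame.hom X) g z).trans (Ex_mono hW.nonneg
    (h.ig ((Tame.hom X).abs.mul (Tame.exp (z.re • g)))) (Ig.add (h _) (h _)) fun s => ?_)
  simp only [AddMonoidHom.add_apply, AddMonoidHom.smul_apply, smul_eq_mul, Real.exp_add, ← add_mul,
    one_mul, neg_mul]
  refine mul_le_mul_of_nonneg_right (abs_le.2 ⟨?_, ?_⟩) (Real.exp_pos _).le <;>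
    linarith [Real.add_one_le_exp (X s), Real.add_one_le_exp (-X s), Real.exp_pos (X s),
      Real.exp_pos (-X s)]

theorem vr_expand (h : SE W) (X η : L →+ ℝ) (t z : ℝ) : Vr W (t • X + z • η) (t • X + z • η) =
    t ^ 2 * Vr W X X + 2 * t * z * Vr W X η + z ^ 2 * Vr W η η := by
  simp only [h.Vr_add_left, h.Vr_add_right, Vr_smul_left, Vr_smul_right, Vr_comm W η X]; ring

end lp

/-- a small defect on `[-2, 2]` gives Gaussianity -/
theorem gauss (K : ℝ) {ε : ℝ} (hε : 0 < ε) : ∃ ε₁ : ℝ, 0 < ε₁ ∧ ε₁ ≤ 1 ∧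
    ∀ (L : Type) [AddCommGroup L] [IsAddTorsionFree L] (ρ : L → ℝ) (X : L →+ ℝ) (v : ℝ), Cen ρ →
    |v| ≤ K → (∀ t : ℝ, |t| ≤ 2 → M ρ (t • X) ≤ v * t ^ 2 / 2 + ε₁) → v - ε₁ ≤ Vr ρ X X →
    Gs3 ρ X v ε := by
  obtain ⟨δ, hδ, H⟩ := an_soft (B := 2 * Real.exp (2 * K + 1)) (by positivity) hε
  have hE := Real.exp_pos (2 * K + 1)
  refine ⟨min (min 1 (ε / 2)) (δ / (2 * Real.exp (2 * K + 1))), by positivity,
    (min_le_left _ _).trans (min_le_left _ _), ?_⟩
  generalize he : min (min 1 (ε / 2)) (δ / (2 * Real.exp (2 * K + 1))) = e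
  have e0 : 0 < e := by rw [← he]; positivity
  have e1 : e ≤ 1 := he ▸ (min_le_left _ _).trans (min_le_left _ _)
  have e2 : e ≤ ε / 2 := he ▸ (min_le_left _ _).trans (min_le_right _ _)
  have e3 : e * (2 * Real.exp (2 * K + 1)) ≤ δ := (le_div_iff₀ (by positivity)).1 (he ▸ min_le_right _ _)
  intro L _ _ ρ X v h hv hM hV
  obtain ⟨v1, v2⟩ := abs_le.1 hv
  have K0 : 0 ≤ K := (abs_nonneg v).trans hv
  have lo : ∀ t : ℝ, t ^ 2 * Vr ρ X X / 2 ≤ M ρ (t • X) := fun t => by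
    have := h.vr_le_M (t • X)
    rw [Vr_smul_left, Vr_smul_right] at this
    linarith
  have sq4 : ∀ t : ℝ, |t| ≤ 2 → t ^ 2 ≤ 4 := fun t ht => by nlinarith [abs_nonneg t, sq_abs t]
  have up : ∀ t : ℝ, |t| ≤ 2 → v * t ^ 2 / 2 ≤ 2 * K := fun t ht => by
    nlinarith [sq4 t ht, sq_nonneg t]
  have m1 := hM 1 (by norm_num)
  have l1 := lo 1
  rw [one_smul] at m1 l1
  refine ⟨abs_le.2 ⟨by linarith, by linarith⟩, abs_le.2 ⟨by linarith, by linarith⟩, ?_⟩
  have := H (fun z => lp ρ (fun _ => 1) X z - exp (v * z ^ 2 / 2))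
    ((lp_diff h.wt h.se (Tame.const 1) X).sub (by fun_prop)) (fun z hz => ?_) fun t ht => ?_
  · refine le_trans (le_of_eq ?_) ((abs_re_le_norm _).trans this)
    rw [sub_re, lp_I_re h.wt h.se (Tame.const 1), I_sq, show (v : ℂ) * -1 / 2 = (-v / 2 : ℝ) by
      push_cast; ring, exp_ofReal_re]
    simp [Ph]
  · have hr := (abs_re_le_norm z).trans hz
    have h1 := (norm_lp_one h.wt h.se X z).trans (Real.exp_le_exp.2
      ((hM _ hr).trans (add_le_add (up _ hr) e1)))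
    have h2 : ‖exp (v * z ^ 2 / 2)‖ ≤ Real.exp (2 * K + 1) := by
      refine (norm_exp_le_exp_norm _).trans (Real.exp_le_exp.2 ?_)
      rw [norm_div, norm_mul, norm_pow, norm_real, Real.norm_eq_abs, Complex.norm_two]
      have : ‖z‖ ^ 2 ≤ 4 := by nlinarith [norm_nonneg z]
      nlinarith [abs_nonneg v, sq_nonneg ‖z‖]
    linarith [norm_sub_le (lp ρ (fun _ => 1) X z) (exp (v * z ^ 2 / 2))]
  · rw [lp_one_real h.wt h.se, show (v : ℂ) * (t : ℂ) ^ 2 / 2 = (v * t ^ 2 / 2 : ℝ) by push_cast; ring,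
      ← ofReal_exp, ← ofReal_sub, norm_real, Real.norm_eq_abs]
    refine (abs_exp_sub (C := 2 * K + 1) (by linarith [hM t ht, up t ht]) (by linarith [up t ht])).trans ?_
    have h1 : |M ρ (t • X) - v * t ^ 2 / 2| ≤ 2 * e := abs_le.2
      ⟨by nlinarith [lo t, sq4 t ht, sq_nonneg t], by linarith [hM t ht]⟩
    nlinarith

theorem abs_mul_le {A R C : ℝ} (hR : 0 ≤ R) (h : ∀ t : ℝ, |t| = R → t * A ≤ C) : |A| * R ≤ C := by
  rcases abs_choice A with e | e
  · rw [e, mul_comm]; exact h R (abs_of_nonneg hR)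
  · rw [e, neg_mul_comm, mul_comm]; exact h (-R) (by rw [abs_neg, abs_of_nonneg hR])

theorem part1 (K ε : ℝ) (hε : 0 < ε) : ∃ R ε₁ : ℝ, 0 < R ∧ 0 < ε₁ ∧
    ∀ (L : Type) [AddCommGroup L] [IsAddTorsionFree L]
    (ρ : L → ℝ) (X η : L →+ ℝ) (v c n : ℝ), Cen ρ → |v| ≤ K → |c| ≤ K → |n| ≤ K →
    (∀ t z : ℝ, |t| ≤ R → |z| ≤ R →
      M ρ (t • X + z • η) ≤ (v * t ^ 2 + 2 * c * t * z + n * z ^ 2) / 2 + ε₁) →
    v - ε₁ ≤ Vr ρ X X →
      Gs3 ρ X v ε ∧ |Vr ρ X η - c| ≤ ε ∧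
        |Ex ρ (fun s => X s * Real.sin (η s)) - c * Ph ρ η| ≤ ε := by
  obtain ⟨e, e0, e1, HG⟩ := gauss K hε
  obtain ⟨E, hE⟩ : ∃ E, E = Real.exp (9 * K / 2 + 1) := ⟨_, rfl⟩
  have E0 : 0 < E := hE ▸ Real.exp_pos _
  obtain ⟨δ, hδ, H⟩ := an_soft (B := (2 + 2 * |K|) * E) (by positivity) hε
  obtain ⟨R, hR⟩ : ∃ R, R = 2 + (2 * |K| + 1) / ε + E * (2 * |K| + 1) / δ := ⟨_, rfl⟩
  have p1 : 0 ≤ (2 * |K| + 1) / ε := by positivity
  have p2 : 0 ≤ E * (2 * |K| + 1) / δ := by positivity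
  have R2 : 2 ≤ R := by linarith
  have R3 : 2 * |K| + 1 ≤ R * ε := (div_le_iff₀ hε).1 (by linarith)
  have R4 : E * (2 * |K| + 1) ≤ R * δ := (div_le_iff₀ hδ).1 (by linarith)
  refine ⟨R, min e (1 / (2 + R ^ 2)), by linarith, by positivity, ?_⟩
  generalize hd : min e (1 / (2 + R ^ 2)) = d
  have d0 : 0 < d := by rw [← hd]; positivity
  have d1 : d ≤ e := hd ▸ min_le_left _ _
  have d2 : d * (2 + R ^ 2) ≤ 1 := (le_div_iff₀ (by positivity)).1 (hd ▸ min_le_right _ _)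
  intro L _ _ ρ X η v c n h hv hc hn hM hV
  have K0 : 0 ≤ K := (abs_nonneg v).trans hv
  rw [abs_of_nonneg K0] at R3 R4 H
  have sq4 : ∀ t : ℝ, |t| ≤ 2 → t ^ 2 ≤ 4 := fun t ht => by nlinarith [abs_nonneg t, sq_abs t]
  have hn2 : ∀ z : ℝ, |z| ≤ 2 → n * z ^ 2 ≤ 4 * K := fun z hz => by
    nlinarith [sq4 z hz, sq_nonneg z, (abs_le.1 hn).2]
  have hB : ∀ t z : ℝ, |t| ≤ 1 → |z| ≤ 2 → Real.exp (M ρ (t • X + z • η)) ≤ E := fun t z ht hz => by
    rw [hE, Real.exp_le_exp]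
    refine (hM t z (by linarith) (by linarith)).trans ?_
    have h0 : t ^ 2 ≤ 1 := by nlinarith [abs_nonneg t, sq_abs t]
    have h1 : v * t ^ 2 ≤ K := by nlinarith [(abs_le.1 hv).2, sq_nonneg t]
    have h2 : c * t * z ≤ K * 1 * 2 := by
      refine (le_abs_self _).trans ?_
      rw [abs_mul, abs_mul]; gcongr
    linarith [hn2 z hz]
  have hB0 : ∀ z : ℝ, |z| ≤ 2 → Real.exp (M ρ (z • η)) ≤ E := fun z hz => by
    simpa using hB 0 z (by simp) hz
  refine ⟨HG L ρ X v h hv (fun t ht => ?_) (by linarith), ?_, ?_⟩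
  · have := hM t 0 (by linarith) (by simp; linarith)
    rw [zero_smul, add_zero] at this
    linarith
  · have := abs_mul_le (A := Vr ρ X η - c) (R := R) (C := 2 * K + 1) (by linarith) fun t ht => by
      have h1 := (h.vr_le_M _).trans (hM t 1 ht.le (by simp; linarith))
      rw [vr_expand h.se] at h1
      have h2 : t ^ 2 = R ^ 2 := by rw [← ht, sq_abs]
      have h3 := mul_le_mul_of_nonneg_left hV (sq_nonneg R)
      rw [h2] at h1
      linarith [h.wt.Vr_nonneg h.se η, (abs_le.1 hn).2]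
    exact le_of_mul_le_mul_right (by linarith) (show 0 < R by linarith)
  · have := H (fun z => lp ρ (fun s => X s) η z - z * c * lp ρ (fun _ => 1) η z)
      ((lp_diff h.wt h.se (Tame.hom X) η).sub
        ((differentiable_id.mul_const _).mul (lp_diff h.wt h.se (Tame.const 1) η)))
      (fun z hz => ?_) fun z hz => ?_
    · refine le_trans (le_of_eq ?_) ((abs_im_le_norm _).trans this)
      rw [sub_im, lp_I_im h.wt h.se (Tame.hom X), mul_assoc, I_mul_im, re_ofReal_mul,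
        lp_I_re h.wt h.se (Tame.const 1)]
      simp [Ph]
    · have hr := (abs_re_le_norm z).trans hz
      have h1 := norm_lp_hom h.wt h.se X η z
      have h2 := (norm_lp_one h.wt h.se η z).trans (hB0 _ hr)
      have h3 : ‖z * c * lp ρ (fun _ => 1) η z‖ ≤ 2 * K * E := by
        rw [norm_mul, norm_mul, norm_real, Real.norm_eq_abs]; gcongr
      linarith [norm_sub_le (lp ρ (fun s => X s) η z) (z * c * lp ρ (fun _ => 1) η z),
        hB 1 _ (by simp) hr, hB (-1) _ (by simp) hr]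
    · have h1 := abs_mul_le (A := Ex (tilt ρ (z • η)) (fun s => X s) - z * c) (R := R)
        (C := 2 * K + 1) (by linarith) fun t ht => by
          have h1 := h.le_M_add (z • η) (t • X)
          have h2 := hM t z ht.le (by linarith)
          have h3 : t ^ 2 = R ^ 2 := by rw [← ht, sq_abs]
          have h4 := mul_le_mul_of_nonneg_left hV (sq_nonneg R)
          simp only [AddMonoidHom.smul_apply, smul_eq_mul] at h1
          rw [Ex_const_mul, Vr_smul_left, Vr_smul_right, add_comm (z • η), ← mul_assoc, ← pow_two, h3] at h1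
          rw [h3] at h2
          linarith [h.M_nonneg (z • η), hn2 z hz]
      have e : Ex ρ (fun s => Real.exp (z * η s) * X s) =
          Real.exp (M ρ (z • η)) * Ex (tilt ρ (z • η)) fun s => X s := by
        rw [h.wt.ex_tilt h.se, ← mul_assoc, ← Real.exp_add, add_neg_cancel, Real.exp_zero, one_mul]
        rfl
      rw [lp_one_real h.wt h.se, lp_real, e, ← ofReal_mul, ← ofReal_mul, ← ofReal_sub, norm_real,
        Real.norm_eq_abs, mul_comm (z * c), ← mul_sub, abs_mul, abs_of_pos (Real.exp_pos _)]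
      refine le_of_mul_le_mul_right ?_ (show 0 < R by linarith)
      rw [mul_assoc]
      exact (mul_le_mul (hB0 z hz) h1 (by positivity) E0.le).trans (by linarith)

theorem part2 {L : Type} [AddCommGroup L] [IsAddTorsionFree L] {ρ : L → ℝ} (X η ν : L →+ ℝ)
    (h : Cen ρ) : Ph ρ (η + ν) ^ 2 ≤ Real.exp (Vr ρ ν ν) * Ph ρ η ∧
    Ex ρ (fun s => X s * Real.sin (η s)) ^ 2 ≤ 2 * Vr ρ X X * Ph ρ η ∧
    |Ph ρ (η + ν) - Ph ρ η| ≤ Real.sqrt (Vr ρ ν ν) := by
  refine ⟨?_, ?_, ?_⟩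
  · have h1 := h.ph_par (η + ν) ν
    rw [add_sub_cancel_right] at h1
    have h2 := pow_le_pow_left₀ (Real.exp_pos _).le (h.ph_ge ν) 2
    have h3 := mul_le_mul_of_nonneg_right (abs_le.1 (h.wt.abs_Ph_le (η + ν + ν))).2 (h.ph_pos η).le
    have h4 := mul_le_mul_of_nonneg_left h2 (sq_nonneg (Ph ρ (η + ν)))
    have e : Real.exp (Vr ρ ν ν) * Real.exp (-Vr ρ ν ν / 2) ^ 2 = 1 := by
      rw [pow_two, ← Real.exp_add, ← Real.exp_add, ← Real.exp_zero]; congr 1; ring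
    calc _ = Real.exp (Vr ρ ν ν) * (Ph ρ (η + ν) ^ 2 * Real.exp (-Vr ρ ν ν / 2) ^ 2) := by
          rw [mul_left_comm, e, mul_one]
      _ ≤ _ := mul_le_mul_of_nonneg_left (by linarith) (Real.exp_pos _).le
  · have t1 := (Tame.hom X).mul (Tame.sin fun s => η s)
    have t2 := (Tame.hom X).mul (Tame.hom X)
    have := discrim_le_zero (a := Vr ρ X X / 2) (b := -Ex ρ fun s => X s * Real.sin (η s))
      (c := Ph ρ η) fun t => by
        have h1 := Ex_mono h.nonneg (h.ig (Tame.cos fun s => (η + t • X) s))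
          (h.ig (((Tame.cos fun s => η s).sub (t1.const_mul t)).add (t2.const_mul (t * t / 2))))
          fun s => by
            have := cos_add_le (η s) (t * X s)
            simp only [AddMonoidHom.add_apply, AddMonoidHom.smul_apply, smul_eq_mul]
            linarith
        rw [Ex_add (h.ig ((Tame.cos _).sub (t1.const_mul t))) (h.ig (t2.const_mul _)),
          Ex_sub (h.ig (Tame.cos _)) (h.ig (t1.const_mul t)), Ex_const_mul, Ex_const_mul,
          ← h.Vr_eq] at h1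
        have h2 := (h.ph_pos (η + t • X)).le.trans h1
        unfold Ph
        linarith
    rw [discrim] at this
    linarith
  · rw [Ph, Ph, ← Ex_sub (h.ig (Tame.cos _)) (h.ig (Tame.cos _))]
    refine (abs_Ex_le h.nonneg (h.ig ((Tame.cos _).sub (Tame.cos _)))).trans
      ((Ex_mono h.nonneg (h.ig ((Tame.cos _).sub (Tame.cos _)).abs) (h.ig (Tame.hom ν).abs)
        fun s => by simpa using Real.abs_cos_sub_cos_le (η s + ν s) (η s)).trans ?_)
    refine Real.le_sqrt_of_sq_le ((h.wt.ex_sq_le (h.ig ((Tame.hom ν).abs.pow 2))).trans_eq ?_)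
    rw [h.Vr_eq]
    simp only [pow_two, abs_mul_abs_self]

theorem part3 (K ε : ℝ) (hε : 0 < ε) : ∃ R ε₁ : ℝ, 0 < R ∧ 0 < ε₁ ∧
    ∀ (L : Type) [AddCommGroup L] [IsAddTorsionFree L]
    (ρ : L → ℝ) (X ν : L →+ ℝ) (v : ℝ), Cen ρ → |v| ≤ K →
    (∀ t : ℝ, |t| ≤ R → M ρ (t • X) ≤ v * t ^ 2 / 2 + ε₁) → v - ε₁ ≤ Vr ρ X X →
    (∀ t : ℝ, |t| ≤ R → M ρ (t • ν) ≤ ε₁) → Gs3 ρ (X + ν) v ε := by
  obtain ⟨e, e0, e1, HG⟩ := gauss K hε
  obtain ⟨θ, hθ⟩ : ∃ θ, θ = e / (8 * (|K| + 2)) := ⟨_, rfl⟩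
  have θ0 : 0 < θ := by rw [hθ]; positivity
  have θ1 : θ * (8 * (|K| + 2)) = e := by rw [hθ]; field_simp
  have θ2 : θ ≤ 1 / 2 := by nlinarith [abs_nonneg K]
  have i2 : 2 ≤ θ⁻¹ := by rw [le_inv_comm₀ (by norm_num) θ0]; linarith
  refine ⟨2 * θ⁻¹, e / 4, by positivity, by positivity, fun L _ _ ρ X ν v h hv hX hV hν => ?_⟩
  have K0 : 0 ≤ K := (abs_nonneg v).trans hv
  rw [abs_of_nonneg K0] at θ1
  refine HG L ρ _ v h hv (fun t ht => ?_) ?_
  · have p : 0 < 1 - θ := by linarith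
    have i1 : (1 - θ)⁻¹ ≤ 2 := by rw [inv_le_comm₀ p (by norm_num)]; linarith
    have h1 := (h.wt.convexOn_M h.se).2 (Set.mem_univ (((1 - θ)⁻¹ * t) • X))
      (Set.mem_univ ((θ⁻¹ * t) • ν)) p.le θ0.le (by ring)
    rw [smul_smul, smul_smul, mul_inv_cancel_left₀ p.ne', mul_inv_cancel_left₀ θ0.ne', ← smul_add,
      smul_eq_mul, smul_eq_mul] at h1
    have h2 := mul_le_mul_of_nonneg_left (hX ((1 - θ)⁻¹ * t) (by
      rw [abs_mul, abs_of_pos (inv_pos.2 p)]
      exact (mul_le_mul i1 ht (abs_nonneg _) zero_le_two).trans (by linarith))) p.le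
    have h3 := mul_le_mul_of_nonneg_left (hν (θ⁻¹ * t) (by
      rw [abs_mul, abs_of_pos (inv_pos.2 θ0), mul_comm 2]; gcongr)) θ0.le
    have e2 : (1 - θ) * (v * ((1 - θ)⁻¹ * t) ^ 2 / 2) =
        v * t ^ 2 / 2 + θ * ((1 - θ)⁻¹ * (v * t ^ 2 / 2)) := by field_simp; ring
    have h4 : (1 - θ)⁻¹ * (v * t ^ 2 / 2) ≤ 2 * (2 * K) := by
      have : t ^ 2 ≤ 4 := by nlinarith [abs_nonneg t, sq_abs t]
      have h5 : v * t ^ 2 / 2 ≤ 2 * K := by nlinarith [sq_nonneg t, (abs_le.1 hv).2]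
      exact (mul_le_mul_of_nonneg_left h5 (inv_pos.2 p).le).trans (by gcongr)
    rw [mul_add, e2] at h2
    nlinarith [mul_le_mul_of_nonneg_left h4 θ0.le]
  · have h1 := vr_expand h.se X ν 1 1
    rw [one_smul, one_smul] at h1
    have h2 := h.wt.Vr_nonneg h.se ((1 : ℝ) • X + θ⁻¹ • ν)
    rw [vr_expand h.se] at h2
    have h3 := (h.vr_le_M _).trans (hν θ⁻¹ (by rw [abs_of_pos (inv_pos.2 θ0)]; linarith))
    rw [Vr_smul_left, Vr_smul_right, ← mul_assoc, ← pow_two] at h3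
    have h4 := (h.vr_le_M _).trans (hX 1 (by simp; linarith))
    rw [one_smul] at h4
    have h5 := mul_le_mul_of_nonneg_left (show -(2 * θ⁻¹ * Vr ρ X ν) ≤ K + 2 + e / 2 by
      linarith [(abs_le.1 hv).2]) θ0.le
    rw [mul_neg, mul_comm 2, mul_assoc, mul_inv_cancel_left₀ θ0.ne'] at h5
    nlinarith [h.wt.Vr_nonneg h.se ν]

end AF66

open AF66


/-- **AFAC** -/
theorem aFacStmt : AFacStmt :=
  ⟨part1, fun _ _ _ _ X η ν h => part2 X η ν h, part3⟩

end Crest.Agent.T145
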