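import Crest.Agent.T145.KrDef_77
import Crest.Agent.T145.BrB_73
import Crest.Agent.T145.NcGeo_51
import Crest.Agent.T145.CorU_59
import Crest.Agent.T145.Br_73

-- ▼ part T145/KrLam_48
section

/-!
# Row 145, module KERNEL: LAM, tightness of the level in the screened model (helper48)
-/

set_option autoImplicit false

namespace Crest.Agent.T145.Kr

open Finset

namespace L48
section gen
variable {V : Type} [DecidableEq V]

/-- the mass `μ` on the sites of `T` -/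
noncomputable def mss (m : Mdl V) (T : Finset V) (μ : ℝ) : Mdl V :=
  m.mulSite fun x k => if x ∈ T then gau μ⁻¹ k else 1

theorem mss_ctr {m : Mdl V} (h : m.Ctr) (T : Finset V) {μ : ℝ} (hμ : 0 < μ) : (mss m T μ).Ctr :=
  h.mulSite fun x _ => by
    by_cases hx : x ∈ T
    · simp only [if_pos hx]
      exact ⟨(gauStmt _ (inv_pos.2 hμ)).1.cen.toRSD, (gauStmt _ (inv_pos.2 hμ)).1.pd, gau_pos _ _⟩
    · simp only [if_neg hx]
      exact ⟨rsd_one51, pd_one, one_pos⟩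

theorem mss_anch {m : Mdl V} (h1 : ∀ x k, m.site x k = 1) {T : Finset V} {y : V} (hy : y ∈ T)
    (hc : ∀ x ∈ m.A, Conn m.ed x y) {μ : ℝ} (hμ : 0 < μ) : (mss m T μ).Anch := fun x hx =>
  ⟨y, hc x hx, Or.inr (by
    have : (mss m T μ).site y = gau μ⁻¹ := funext fun k => by simp [mss, h1, hy]
    rw [this]; exact (gauStmt _ (inv_pos.2 hμ)).1.cen.se)⟩

theorem mss_W (m : Mdl V) {T : Finset V} (hT : T ⊆ m.A) {μ : ℝ} (hμ : 0 < μ) :
    (mss m T μ).W 0 = fun s => (mss m T (μ / 2)).W 0 s * gq T (fun x => √(μ / 2) • evH x) s := by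
  funext s
  simp only [mss, Mdl.W_mulSite, mul_assoc, prod_ite_mem, inter_eq_right.2 hT, gau, gq,
    ← Real.exp_sum, ← Real.exp_add]
  congr 2
  simp only [AddMonoidHom.smul_apply, evH_apply, smul_eq_mul, mul_pow,
    Real.sq_sqrt (by positivity : 0 ≤ μ / 2)]
  rw [neg_div, sum_div, ← sum_neg_distrib, ← sum_add_distrib]
  exact sum_congr rfl fun x _ => by field_simp; ring

/-- Gaussian domination by the site factor alone (half of the mass is kept as the anchor) -/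
theorem mss_M {m : Mdl V} {T : Finset V} (hT : T ⊆ m.A) {μ : ℝ} (hμ : 0 < μ)
    (hc : Cen ((mss m T (μ / 2)).W 0)) {g : V → ℝ} (hg : Sup T g) :
    M ((mss m T μ).W 0) (pr g) ≤ (∑ x ∈ T, g x ^ 2) / μ := by
  have hs : 0 < √(μ / 2) := Real.sqrt_pos.2 (by positivity)
  have h := (monoStmt _ _ hc).2.2 V T (fun x => √(μ / 2) • evH x) (fun x => g x / √(μ / 2)) 0
  have e : (0 : Cfg V →+ ℝ) + ∑ x ∈ T, (g x / √(μ / 2)) • √(μ / 2) • evH x = pr g := by
    rw [zero_add, pr_eq_sum_evH g hg]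
    exact sum_congr rfl fun x _ => by rw [smul_smul, div_mul_cancel₀ _ hs.ne']
  rw [e, hc.wt.M_zero, zero_add, ← mss_W m hT hμ] at h
  refine h.trans_eq ?_
  simp only [div_pow, Real.sq_sqrt (by positivity : 0 ≤ μ / 2), ← sum_div]
  field_simp

theorem mss_vr {m : Mdl V} {T : Finset V} (hT : T ⊆ m.A) {μ : ℝ} (hμ : 0 < μ)
    (hc : Cen ((mss m T (μ / 2)).W 0)) (hc' : Cen ((mss m T μ).W 0)) {g : V → ℝ} (hg : Sup T g) :
    Vr ((mss m T μ).W 0) (pr g) (pr g) ≤ 2 * (∑ x ∈ T, g x ^ 2) / μ := by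
  have h1 := (corStmt _ _ hc').2.1 (pr g)
  have h2 := mss_M hT hμ hc hg
  rw [mul_div_assoc]; linarith

theorem sum_unC (T : Finset V) : ∑ x ∈ T, Kw56.unC T x ^ 2 = (T.card : ℝ)⁻¹ := by
  rw [sum_congr rfl fun x hx => show Kw56.unC T x ^ 2 = ((T.card : ℝ)⁻¹) ^ 2 by
    simp [Kw56.unC, hx], sum_const, nsmul_eq_mul]
  rcases eq_or_ne (T.card : ℝ) 0 with h | h
  · simp [h]
  · field_simp

theorem pr_res {U : Finset V} {f : V → ℝ} (hf : Sup U f) (s : Cfg V) : pr f (resH U s) = pr f s := by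
  rw [pr_of_fsupp f _ hf, pr_of_fsupp f _ hf]
  exact sum_congr rfl fun x hx => by rw [resH_apply, if_pos hx]

omit [DecidableEq V] in
/-- Chebyshev for the pushed weight -/
theorem cheb {β : Type*} {W : Cfg V → ℝ} (h : Cen W) (π : Cfg V → β) (H : β → ℝ) (f : Cfg V →+ ℝ)
    (hH : ∀ s, H (π s) = f s) {C A : ℝ} (hC : Vr W f f ≤ C) (hA : 0 < A) :
    ∑' z, push W π z * ind (A < |H z|) ≤ C / A ^ 2 * Zs W := by
  rw [tsum_push (Φ := fun z => ind (A < |H z|)) (h.wt.ig_ind _), h.wt.tsum_eq, mul_comm]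
  refine mul_le_mul_of_nonneg_right ?_ h.wt.pos.le
  have h1 := h.wt.markov (p := fun s => A < |H (π s)|) (F := fun s => f s * f s)
    (h.ig ((Tame.hom f).mul (Tame.hom f))) (fun s => mul_self_nonneg _) (t := A ^ 2) fun s hs => by
      rw [hH] at hs
      rw [← pow_two, ← sq_abs (f s)]; gcongr
  rw [← h.Vr_eq] at h1
  rw [le_div_iff₀' (by positivity)]
  exact h1.trans hC

end gen

variable {G : Gm} {W : ℝ}

theorem r_lt (h : G.Ok W) : G.r < G.R := by
  have h1 := h.lo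
  have h2 := h.hW
  have h3 : (64 : ℝ) ≤ G.r := by exact_mod_cast h.hr
  have : (G.r : ℝ) < G.R := by nlinarith
  exact_mod_cast this

theorem Ga_sub (h : G.Ok W) (hA : G.Alg) : G.Ga ⊆ G.Om := by
  have := h.hc; have := h.hr; have := h.out; have := hA.r_le; have := hA.rho_le
  exact hA.Ga_sub.trans (Nc.Geo.an_mono _ (by omega) (by omega))

theorem rho_pos (G : Gm) : 0 < (G.rho : ℝ) := by unfold Gm.rho; positivity

theorem ms_pos (G : Gm) (a : ℕ) : 0 < G.ms a := by have := rho_pos G; unfold Gm.ms; positivity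

theorem Ga_ne (hA : G.Alg) : G.Ga.Nonempty := by
  have := rho_pos G
  rw [← card_pos, hA.card_Ga]
  have : 0 < G.rho := by exact_mod_cast this
  positivity


theorem anch {Λ : Lat} (hΛ : Λ.Ok) (h : G.Ok W) (hA : G.Alg) {μ : ℝ} (hμ : 0 < μ) :
    (mss (Λ.N G.Om) G.Ga μ).Anch := by
  obtain ⟨y, hy⟩ := Ga_ne hA
  have := h.hc; have := h.out; have := r_lt h
  exact mss_anch (fun _ _ => rfl) hy
    (fun x hx => Nc.Geo.cnL_an hΛ 0 (show G.c < G.R₂ by omega) x hx y (Ga_sub h hA hy)) hμ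

/-- the screened model is an ambient model on `Om` -/
theorem amb {Λ : Lat} (hΛ : Λ.Ok) (h : G.Ok W) (hA : G.Alg) (a : ℕ) : Λ.Amb (G.mm Λ a) G.Om :=
  ⟨mss_ctr (hΛ.ctr_N _) _ (ms_pos G a), anch hΛ h hA (ms_pos G a), subset_rfl, fun _ _ => rfl⟩

/-- the mean over the ring has variance at most `1 / 6` -/
theorem vr_unC {Λ : Lat} (hΛ : Λ.Ok) (h : G.Ok W) (hA : G.Alg) (a : ℕ) :
    Vr ((G.mm Λ a).W 0) (pr (Kw56.unC G.Ga)) (pr (Kw56.unC G.Ga)) ≤ 1 / 6 := by
  have hμ := ms_pos G a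
  have h1 := mss_vr (m := Λ.N G.Om) (Ga_sub h hA) hμ
    ((mss_ctr (hΛ.ctr_N _) _ (half_pos hμ)).cen (anch hΛ h hA (half_pos hμ))) (amb hΛ h hA a).cen
    (g := Kw56.unC G.Ga) fun x hx => if_neg hx
  refine h1.trans ?_
  have h2 := rho_pos G
  have h3 : (1 : ℝ) ≤ (2 ^ a) ^ 2 := one_le_pow₀ (one_le_pow₀ one_le_two)
  rw [sum_unC, hA.card_Ga, Gm.ms, div_le_iff₀ (by positivity)]
  push_cast
  field_simp
  linarith

theorem nl_sub {Λ : Lat} (hΛ : Λ.Ok) {U U' : Finset Pt} (hU : U ⊆ U') : Pot.nL.edI U ⊆ Λ.edI U' :=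
  fun e he => by
    rw [Lat.mem_edI] at *; exact ⟨Pot.nn_subset hΛ he.1, hU he.2.1, hU he.2.2⟩

end L48

open L48 in
/-- LAM -/
theorem lamStmt (hM : M3Stmt) (hAl : AlgStmt) : LamStmt := by
  intro F W
  obtain ⟨C, hC, hM⟩ := hM W
  refine ⟨2 * (|F.τ₂| * C + 1 / 6), by positivity, fun Λ hΛ G h a => ?_⟩
  have ok : Λ.Ok := ⟨hΛ.1 ▸ F.adm, F.pos.trans_le hΛ.2.2.1⟩
  have hA := hAl G W h
  have am := amb ok h hA a
  have hc := am.cen
  refine ⟨am.1, am.2.1, hasSum_push hc.wt.summ _, push_nonneg hc.nonneg _, fun A hA0 => ?_⟩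
  have := h.hc; have := h.hr; have := h.out
  refine cheb hc G.dat (fun z => pr G.eq z.1) (pr G.eq) (fun s => pr_res (fun x hx => hA.eq_sup x
    fun h' => hx (Nc.Geo.an_mono _ (by omega) le_rfl h')) s) ?_ hA0
  have h1 : Vr ((G.mm Λ a).W 0) (pr (G.eq - Kw56.unC G.Ga)) (pr (G.eq - Kw56.unC G.Ga)) ≤ Λ.τ * C :=
    (((hM G h).2.2).f2a _).vr_le ok.pos am.1 am.2.1
      (nl_sub ok (Nc.Geo.an_mono _ (by omega) (by omega))) fun _ _ => rfl
  have h2 := hc.vr_add_le (pr (G.eq - Kw56.unC G.Ga)) (pr (Kw56.unC G.Ga))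
  rw [← pr_add, sub_add_cancel] at h2
  have h3 := vr_unC ok h hA a
  have h4 : Λ.τ * C ≤ |F.τ₂| * C := mul_le_mul_of_nonneg_right (hΛ.2.2.2.trans (le_abs_self _)) hC.le
  linarith

end Crest.Agent.T145.Kr
end

-- ▼ part T145/KrMom_3

/-!
# Row 145, module KERNEL: MOM (`Kr.momStmt`), moments and tails from the bare bound
-/

set_option autoImplicit false

namespace Crest.Agent.T145.Kr

open Finset Real

namespace Mom3

theorem pow_le_cosh (k : ℕ) (a : ℝ) : a ^ (2 * k) ≤ (2 * k).factorial * cosh a := by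
  have h := le_hasSum (Real.hasSum_cosh a) k fun j _ => by rw [pow_mul]; positivity
  rwa [div_le_iff₀' (by positivity)] at h

/-- power mean: `(∑ x_j) ^ k * #S ≤ #S ^ k * ∑ x_j ^ k` -/
theorem pow_sum_le {ι : Type*} (S : Finset ι) (x : ι → ℝ) (hx : ∀ j ∈ S, 0 ≤ x j) (k : ℕ) :
    (∑ j ∈ S, x j) ^ k * S.card ≤ (S.card : ℝ) ^ k * ∑ j ∈ S, x j ^ k := by
  cases k with
  | zero => simp
  | succ k =>
    calc _ ≤ ((S.card : ℝ) ^ k * ∑ j ∈ S, x j ^ (k + 1)) * S.card :=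
          mul_le_mul_of_nonneg_right (pow_sum_le_card_mul_sum_pow hx k) (Nat.cast_nonneg _)
      _ = _ := by ring

/-- tail of an average of squares from the moments of order `2 k` -/
theorem tail_avg {α ι : Type*} {W : α → ℝ} (hW : Wt W) (S : Finset ι) (X : ι → α → ℝ) (k : ℕ)
    {C n A : ℝ} (hC : 0 ≤ C) (hn : 0 < n) (hA : 0 < A) (hi : ∀ j ∈ S, Ig W fun s => X j s ^ (2 * k))
    (h : ∀ j ∈ S, Ex W (fun s => X j s ^ (2 * k)) ≤ C * n ^ k) :
    Pr W (fun s => A * n * S.card < ∑ j ∈ S, X j s ^ 2) ≤ C / A ^ k := by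
  rcases S.eq_empty_or_nonempty with rfl | hS
  · have : Pr W (fun s => A * n * (∅ : Finset ι).card < ∑ j ∈ ∅, X j s ^ 2) = 0 := by
      simp [Pr, ind, Ex]
    rw [this]; positivity
  have hc : (0 : ℝ) < S.card := by exact_mod_cast hS.card_pos
  have h1 := hW.markov (p := fun s => A * n * S.card < ∑ j ∈ S, X j s ^ 2) (Ig.sum S hi)
    (fun s => sum_nonneg fun j _ => by rw [pow_mul]; positivity) (t := (A * n) ^ k * S.card)
    fun s hs => by
      have h2 := pow_sum_le S (fun j => X j s ^ 2) (fun _ _ => sq_nonneg _) k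
      have h3 : (A * n * S.card) ^ k ≤ (∑ j ∈ S, X j s ^ 2) ^ k :=
        pow_le_pow_left₀ (by positivity) hs.le k
      have h4 := (mul_le_mul_of_nonneg_right h3 hc.le).trans h2
      simp only [← pow_mul] at h4
      rw [mul_pow, mul_comm ((A * n) ^ k), mul_assoc] at h4
      exact le_of_mul_le_mul_left h4 (by positivity)
  rw [Ex_sum S hi] at h1
  have h5 := h1.trans (sum_le_sum h)
  rw [sum_const, nsmul_eq_mul] at h5
  rw [le_div_iff₀ (by positivity)]
  have h6 : (0 : ℝ) < n ^ k * S.card := by positivity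
  refine le_of_mul_le_mul_left ?_ h6
  calc _ = (A * n) ^ k * S.card * Pr W (fun s => A * n * S.card < ∑ j ∈ S, X j s ^ 2) := by ring
    _ ≤ _ := h5
    _ = _ := by ring

/-- tail of one variable from its moment of order `2 k` -/
theorem tail_one {α : Type*} {W : α → ℝ} (hW : Wt W) (X : α → ℝ) (k : ℕ) {B t : ℝ} (ht : 0 < t)
    (hi : Ig W fun s => X s ^ (2 * k)) (h : Ex W (fun s => X s ^ (2 * k)) ≤ B) :
    Pr W (fun s => t < |X s|) ≤ B / t ^ (2 * k) := by
  have h1 := hW.markov (p := fun s => t < |X s|) hi (fun s => by rw [pow_mul]; positivity)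
    (t := t ^ (2 * k)) fun s hs => by
      rw [← (even_two_mul k).pow_abs (X s)]
      exact pow_le_pow_left₀ ht.le hs.le _
  rw [le_div_iff₀' (by positivity)]
  exact h1.trans h

section bare
variable {V : Type} [DecidableEq V] {m : Mdl V} {ed : Finset (V × V)} {f : V → ℝ} {n τ : ℝ}
  {xy : Bool} (hτ : 0 < τ) (hc : m.Ctr) (ha : m.Anch) (hE : ed ⊆ m.ed)
  (hw : ∀ e ∈ ed, m.w e = kern xy τ)
include hτ hc ha hE hw

/-- `E cosh (X / √n) ≤ exp τ` -/
theorem cosh_le (h : F2A ed m.A f n) (hn : 0 < n) :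
    Ex (m.W 0) (fun s => cosh (pr f s / √n)) ≤ exp τ := by
  have h0 : (√n)⁻¹ ^ 2 * n ≤ 1 := by rw [inv_pow, Real.sq_sqrt hn.le, inv_mul_cancel₀ hn.ne']
  have h1 := ((h.smul (√n)⁻¹).mono h0).M_le hτ hc ha hE hw
  rw [Real.sqrt_one, pr_smul] at h1
  have h2 : M (m.W 0) ((√n)⁻¹ • pr f) ≤ τ := by nlinarith [cosh_one_le_two]
  have h3 := (hc.cen ha).ex_cosh ((√n)⁻¹ • pr f)
  simp only [AddMonoidHom.smul_apply, smul_eq_mul] at h3
  simp only [div_eq_inv_mul]
  rw [h3]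
  exact exp_le_exp.2 h2

/-- all even moments, any vertex type -/
theorem mom_le (h : F2A ed m.A f n) (hn : 0 < n) (k : ℕ) :
    Ex (m.W 0) (fun s => pr f s ^ (2 * k)) ≤ (2 * k).factorial * exp τ * n ^ k := by
  have hC := hc.cen ha
  have hs : 0 < √n := Real.sqrt_pos.2 hn
  have hT : Tame fun s : Cfg V => cosh (pr f s / √n) :=
    (Tame.cosh ((√n)⁻¹ • pr f)).congr fun s => by
      simp only [AddMonoidHom.smul_apply, smul_eq_mul, div_eq_inv_mul]
  calc _ ≤ Ex (m.W 0) (fun s => ((2 * k).factorial * n ^ k) * cosh (pr f s / √n)) :=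
        Ex_mono hC.nonneg (hC.ig ((Tame.hom _).pow _)) (hC.ig (hT.const_mul _)) fun s => by
          have h1 := pow_le_cosh k (pr f s / √n)
          rw [div_pow, pow_mul (√n), Real.sq_sqrt hn.le, div_le_iff₀ (by positivity)] at h1
          linarith
    _ ≤ _ := by
        rw [Ex_const_mul]
        have := mul_le_mul_of_nonneg_left (cosh_le hτ hc ha hE hw h hn)
          (by positivity : (0 : ℝ) ≤ (2 * k).factorial * n ^ k)
        linarith


/-- tails of averages, any vertex type -/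
theorem avg_le {ι : Type*} (S : Finset ι) {f : ι → V → ℝ} (h : ∀ j ∈ S, F2A ed m.A (f j) n)
    (hn : 0 < n) (k : ℕ) {A : ℝ} (hA : 0 < A) :
    Pr (m.W 0) (fun s => A * n * S.card < ∑ j ∈ S, pr (f j) s ^ 2) ≤
      (2 * k).factorial * exp τ / A ^ k :=
  tail_avg (hc.cen ha).wt S (fun j s => pr (f j) s) k (by positivity) hn hA
    (fun _ _ => (hc.cen ha).ig ((Tame.hom _).pow _)) fun j hj => mom_le hτ hc ha hE hw (h j hj) hn k

end bare

end Mom3

/-- MOM -/
theorem momStmt : MomStmt := fun F k =>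
  ⟨(2 * k).factorial * exp F.τ₂, by positivity, fun Λ hΛ m _ _ S _ n hc ha hE hw hn hf => by
    have h1 : ((2 * k).factorial : ℝ) * exp Λ.τ ≤ (2 * k).factorial * exp F.τ₂ :=
      mul_le_mul_of_nonneg_left (exp_le_exp.2 hΛ.tau_le) (by positivity)
    exact ⟨fun j hj => (Mom3.mom_le hΛ.tau_pos hc ha hE hw ((hf j hj).f2a m.A) hn k).trans
        (mul_le_mul_of_nonneg_right h1 (by positivity)),
      fun A hA => (Mom3.avg_le hΛ.tau_pos hc ha hE hw S (fun j hj => (hf j hj).f2a m.A) hn k hA).trans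
        (div_le_div_of_nonneg_right h1 (by positivity))⟩⟩

end Crest.Agent.T145.Kr
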