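import Crest.Agent.T145.Def2_97
import Crest.Agent.T145.MdlA_73
import Crest.Agent.T145.Api_98

/-!
# Row 145, layer 2: exploration with a floating level, free root (helper56)
-/

set_option autoImplicit false

namespace Crest.Agent.T145

open Finset

namespace X56

variable {V : Type*} [DecidableEq V]

theorem rest_site (m : Mdl V) (h : ℤ) (C : Finset V) (ζ t : Cfg V) :
    ∏ y ∈ m.A \ C, (m.rest h C ζ).site y (t y) =
      (∏ y ∈ m.A \ C, m.site y (t y)) *
        (∏ e ∈ m.ed.filter (fun e => e.1 ∈ C ∧ e.2 ∈ m.A \ C), m.w e (|ζ e.1 - h| + |t e.2 - h|)) *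
        ∏ e ∈ m.ed.filter (fun e => e.2 ∈ C ∧ e.1 ∈ m.A \ C), m.w e (|ζ e.2 - h| + |t e.1 - h|) := by
  simp only [Mdl.rest, Finset.prod_mul_distrib]
  congr 1
  · congr 1
    rw [← Finset.filter_filter, ← Finset.prod_fiberwise_eq_prod_filter _ (m.A \ C) Prod.snd]
    refine Finset.prod_congr rfl fun y _ => ?_
    rw [Finset.filter_filter]
    refine Finset.prod_congr rfl fun e he => ?_
    rw [(Finset.mem_filter.1 he).2.2]
  · rw [← Finset.filter_filter, ← Finset.prod_fiberwise_eq_prod_filter _ (m.A \ C) Prod.fst]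
    refine Finset.prod_congr rfl fun y _ => ?_
    rw [Finset.filter_filter]
    refine Finset.prod_congr rfl fun e he => ?_
    rw [(Finset.mem_filter.1 he).2.2]

/-- the explored part of the weight -/
noncomputable def cst0 (m : Mdl V) (h : ℤ) (C : Finset V) (I : Finset (V × V)) (s : Cfg V) : ℝ :=
  (∏ e ∈ m.ed.filter (fun e => ¬ (e.1 ∉ C ∧ e.2 ∉ C) ∧ ¬ (e.1 ∈ C ∧ e.2 ∈ m.A \ C) ∧
    ¬ (e.2 ∈ C ∧ e.1 ∈ m.A \ C)), m.bw h s e (e ∈ I)) * ∏ x ∈ m.A ∩ C, m.site x (s x)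

/-- factorisation of the joint weight along an explored set `C` with inner bonds `I` -/
theorem J_rest (m : Mdl V) (h : ℤ) {η s : Cfg V} {C : Finset V} {I : Finset (V × V)}
    (hs : ∀ x, x ∉ m.A → s x = η x) (hI : I ⊆ m.ed) (hIC : ∀ e ∈ I, e.1 ∈ C ∧ e.2 ∈ C)
    {t : Cfg V} {β : Finset (V × V)} (ht : ∀ x, x ∉ m.A \ C → t x = s x)
    (hβ : β ⊆ m.ed.filter fun e => e.1 ∉ C ∧ e.2 ∉ C) :
    m.J h η (t, β ∪ I) = cst0 m h C I s * (m.rest h C s).J h s (t, β) := by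
  have htC : ∀ x ∈ C, t x = s x := fun x hx => ht x fun h' => (Finset.mem_sdiff.1 h').2 hx
  have h1 : ∀ x, x ∉ m.A → t x = η x := fun x hx => by
    rw [ht x fun h' => hx (Finset.mem_sdiff.1 h').1, hs x hx]
  have h2 : β ∪ I ⊆ m.ed := Finset.union_subset (hβ.trans (Finset.filter_subset _ _)) hI
  have hA : (m.rest h C s).A = m.A \ C := rfl
  have hE : (m.rest h C s).ed = m.ed.filter fun e => e.1 ∉ C ∧ e.2 ∉ C := rfl
  unfold Mdl.J
  simp only [hA, hE]
  rw [ind_pos h1, ind_pos h2, ind_pos ht, ind_pos hβ, rest_site, cst0]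
  have hsite : ∏ x ∈ m.A, m.site x (t x) =
      (∏ x ∈ m.A ∩ C, m.site x (s x)) * ∏ y ∈ m.A \ C, m.site y (t y) := by
    rw [← Finset.prod_inter_mul_prod_sdiff m.A C]
    congr 1
    exact Finset.prod_congr rfl fun x hx => by rw [htC x (Finset.mem_inter.1 hx).2]
  have hed : ∏ e ∈ m.ed, m.bw h t e (e ∈ β ∪ I) =
      (∏ e ∈ m.ed.filter (fun e => ¬ (e.1 ∉ C ∧ e.2 ∉ C) ∧ ¬ (e.1 ∈ C ∧ e.2 ∈ m.A \ C) ∧
        ¬ (e.2 ∈ C ∧ e.1 ∈ m.A \ C)), m.bw h s e (e ∈ I)) *
      (∏ e ∈ m.ed.filter (fun e => e.1 ∉ C ∧ e.2 ∉ C), (m.rest h C s).bw h t e (e ∈ β)) *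
      ((∏ e ∈ m.ed.filter (fun e => e.1 ∈ C ∧ e.2 ∈ m.A \ C), m.w e (|s e.1 - h| + |t e.2 - h|)) *
        ∏ e ∈ m.ed.filter (fun e => e.2 ∈ C ∧ e.1 ∈ m.A \ C),
          m.w e (|s e.2 - h| + |t e.1 - h|)) := by
    simp only [Finset.prod_filter, ← Finset.prod_mul_distrib]
    refine Finset.prod_congr rfl fun e _ => ?_
    have hb : e ∈ β → e.1 ∉ C ∧ e.2 ∉ C := fun he => (Finset.mem_filter.1 (hβ he)).2
    have hw : (m.rest h C s).w = m.w := rfl
    by_cases c1 : e.1 ∈ C <;> by_cases c2 : e.2 ∈ C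
    · have nb : e ∉ β := fun he => (hb he).1 c1
      simp [c1, c2, Mdl.bw, nb, dE, htC _ c1, htC _ c2]
    · have nb : e ∉ β := fun he => (hb he).1 c1
      have ni : e ∉ I := fun he => c2 (hIC e he).2
      by_cases a2 : e.2 ∈ m.A
      · simp [c1, c2, a2, Mdl.bw, nb, ni, htC _ c1]
      · have := ht e.2 fun h' => a2 (Finset.mem_sdiff.1 h').1
        simp [c1, c2, a2, Mdl.bw, nb, ni, htC _ c1, this]
    · have nb : e ∉ β := fun he => (hb he).2 c2
      have ni : e ∉ I := fun he => c1 (hIC e he).1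
      by_cases a1 : e.1 ∈ m.A
      · simp [c1, c2, a1, Mdl.bw, nb, ni, htC _ c2, add_comm]
      · have := ht e.1 fun h' => a1 (Finset.mem_sdiff.1 h').1
        simp [c1, c2, a1, Mdl.bw, nb, ni, htC _ c2, this]
    · have ni : e ∉ I := fun he => c1 (hIC e he).1
      simp [c1, c2, Mdl.bw, ni, hw]
  rw [hsite, hed]
  ring

/-- what the exploration of the cluster of `S` reveals -/
noncomputable def rev (S : Finset V) (p : Cfg V × Finset (V × V)) :
    Finset V × Finset (V × V) × Cfg V :=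
  (cl S p.2, inn (cl S p.2) p.2, p.1.filter (· ∈ cl S p.2))

theorem rev_eq_iff {S : Finset V} {p q : Cfg V × Finset (V × V)} :
    rev S q = rev S p ↔ cl S q.2 = cl S p.2 ∧ inn (cl S p.2) q.2 = inn (cl S p.2) p.2 ∧
      ∀ x ∈ cl S p.2, q.1 x = p.1 x := by
  unfold rev
  simp only [Prod.mk.injEq]
  refine and_congr_right fun h => ?_
  rw [h, Md.filter_mem_eq_iff]

/-- toggling the bonds of `I` -/
def tog (I : Finset (V × V)) : Cfg V × Finset (V × V) ≃ Cfg V × Finset (V × V) where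
  toFun q := (q.1, symmDiff q.2 I)
  invFun q := (q.1, symmDiff q.2 I)
  left_inv q := by simp
  right_inv q := by simp

theorem rest_ne {m : Mdl V} {h : ℤ} {C : Finset V} {s : Cfg V} {q : Cfg V × Finset (V × V)}
    (hq : (m.rest h C s).J h s q ≠ 0) :
    (∀ x, x ∉ m.A \ C → q.1 x = s x) ∧ q.2 ⊆ m.ed.filter fun e => e.1 ∉ C ∧ e.2 ∉ C :=
  ⟨Md.J_off hq, Md.J_sub hq⟩

theorem symmDiff_inn {m : Mdl V} {C : Finset V} {ω β : Finset (V × V)}
    (hβ : β ⊆ m.ed.filter fun e => e.1 ∉ C ∧ e.2 ∉ C) :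
    symmDiff β (inn C ω) = β ∪ inn C ω := by
  refine Disjoint.symmDiff_eq_sup (Finset.disjoint_left.2 fun e he he' => ?_)
  exact (Finset.mem_filter.1 (hβ he)).2.1 (Md.mem_inn.1 he').2.1

/-- the fibre of the exploration is the rest model -/
theorem fibre (m : Mdl V) (h : ℤ) (η : Cfg V) (S : Finset V) {U : Cfg V → ℝ} (hU : Dep S U)
    {p : Cfg V × Finset (V × V)} (hp : m.J h η p ≠ 0) (q : Cfg V × Finset (V × V)) :
    ind (rev S (tog (inn (cl S p.2) p.2) q) = rev S p) *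
        (U (tog (inn (cl S p.2) p.2) q).1 * m.J h η (tog (inn (cl S p.2) p.2) q)) =
      (U p.1 * cst0 m h (cl S p.2) (inn (cl S p.2) p.2) p.1) *
        (m.rest h (cl S p.2) p.1).J h p.1 q := by
  obtain ⟨s, ω⟩ := p
  obtain ⟨t, β⟩ := q
  have hs := Md.J_off hp
  have hω := Md.J_sub hp
  simp only at hs hω ⊢
  have htog : tog (inn (cl S ω) ω) (t, β) = (t, symmDiff β (inn (cl S ω) ω)) := rfl
  rw [htog]
  by_cases hc : (∀ x, x ∉ m.A \ cl S ω → t x = s x) ∧
      β ⊆ m.ed.filter fun e => e.1 ∉ cl S ω ∧ e.2 ∉ cl S ω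
  · obtain ⟨ht, hβ⟩ := hc
    have hb : ∀ e ∈ β, e.1 ∉ cl S ω ∧ e.2 ∉ cl S ω := fun e he =>
      (Finset.mem_filter.1 (hβ he)).2
    have htC : ∀ x ∈ cl S ω, t x = s x := fun x hx =>
      ht x fun h' => (Finset.mem_sdiff.1 h').2 hx
    rw [symmDiff_inn hβ, J_rest m h hs ((Md.inn_subset _ _).trans hω)
      (fun e he => (Md.mem_inn.1 he).2) ht hβ, ind_pos, hU t s fun x hx =>
        htC x (Md.subset_cl _ _ hx)]
    · ring
    · refine rev_eq_iff.2 ⟨Md.cl_union_inn hb, ?_, htC⟩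
      ext e
      simp only [Md.mem_inn, Finset.mem_union]
      have := hb e
      tauto
  · have h0 : (m.rest h (cl S ω) s).J h s (t, β) = 0 := by
      by_contra h0
      exact hc (rest_ne h0)
    rw [h0, mul_zero]
    by_contra hne
    have e1 := rev_eq_iff.1 (ind_ne_zero.1 (left_ne_zero_of_mul hne))
    have e2 := right_ne_zero_of_mul (right_ne_zero_of_mul hne)
    have e3 := Md.J_off e2
    have e4 := Md.J_sub e2
    simp only at e1 e3 e4
    obtain ⟨c1, c2, c3⟩ := e1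
    refine hc ⟨fun x hx => ?_, fun e he => ?_⟩
    · by_cases hxA : x ∈ m.A
      · refine c3 x ?_
        by_contra hxC
        exact hx (Finset.mem_sdiff.2 ⟨hxA, hxC⟩)
      · rw [e3 x hxA, hs x hxA]
    · have ni : e ∉ inn (cl S ω) ω := fun hi => by
        have := Md.inn_subset _ _ (c2.ge hi)
        rw [Finset.mem_symmDiff] at this
        tauto
      have hm : e ∈ symmDiff β (inn (cl S ω) ω) := Finset.mem_symmDiff.2 (Or.inl ⟨he, ni⟩)
      have hcl := Md.cl_closed (S := S) hm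
      rw [c1] at hcl
      have nb : ¬ (e.1 ∈ cl S ω ∧ e.2 ∈ cl S ω) := fun hb => ni (c2.le (Md.mem_inn.2 ⟨hm, hb⟩))
      refine Finset.mem_filter.2 ⟨e4 hm, ?_⟩
      tauto

/-- conditional law given the explored cluster -/
theorem cond_rest (m : Mdl V) (h : ℤ) (η : Cfg V) (S : Finset V) {U : Cfg V → ℝ} (hU : Dep S U)
    {p : Cfg V × Finset (V × V)} (hp : U p.1 * m.J h η p ≠ 0) (F : Cfg V × Finset (V × V) → ℝ) :
    (Ex ((m.rest h (cl S p.2) p.1).J h p.1) fun p' => F (p'.1, p'.2 ∪ inn (cl S p.2) p.2)) =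
      Ex (fun q => ind (rev S q = rev S p) * (U q.1 * m.J h η q)) F := by
  have hJ := right_ne_zero_of_mul hp
  have hc : U p.1 * cst0 m h (cl S p.2) (inn (cl S p.2) p.2) p.1 ≠ 0 := by
    intro h0
    have := fibre m h η S hU hJ ((tog (inn (cl S p.2) p.2)).symm p)
    rw [Equiv.apply_symm_apply, ind_pos rfl, h0, one_mul, zero_mul] at this
    exact hp this
  rw [← Md.ex_equiv (tog (inn (cl S p.2) p.2))
    (fun q => ind (rev S q = rev S p) * (U q.1 * m.J h η q)) F]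
  simp_rw [fibre m h η S hU hJ]
  rw [Ex_smul _ _ hc]
  refine Ex_congr fun q hq => ?_
  rw [← symmDiff_inn (rest_ne hq).2]
  rfl

theorem explU (m : Mdl V) (h : ℤ) (η : Cfg V) (S : Finset V) {U : Cfg V → ℝ}
    {F : Cfg V × Finset (V × V) → ℝ} (hU : Dep S U) (hW : Wt fun p => U p.1 * m.J h η p)
    (hF : Ig (fun p => U p.1 * m.J h η p) F) :
    Ig (fun p => U p.1 * m.J h η p) (fun p => Ex ((m.rest h (cl S p.2) p.1).J h p.1)
        fun p' => F (p'.1, p'.2 ∪ inn (cl S p.2) p.2)) ∧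
      Ex (fun p => U p.1 * m.J h η p) F = Ex (fun p => U p.1 * m.J h η p)
        fun p => Ex ((m.rest h (cl S p.2) p.1).J h p.1)
          fun p' => F (p'.1, p'.2 ∪ inn (cl S p.2) p.2) :=
  Md.tower (rev S) hW.nonneg hW.summ hF fun _ hp => cond_rest m h η S hU hp F

/-! ## the free root -/

theorem W_shift {m : Mdl V} {r : V} (hr : r ∈ m.A) (he : ∀ e ∈ m.ed, e.1 ∈ m.A ∧ e.2 ∈ m.A)
    (h1 : ∀ x k, m.site x k = 1) (s : Cfg V) :
    (m.free (m.A.erase r)).W 0 (s - cst m.A (s r)) = m.W 0 s := by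
  simp only [Mdl.W, Mdl.free, h1, Finset.prod_const_one]
  congr 2
  · refine ind_congr ⟨fun h x hx => ?_, fun h x hx => ?_⟩
    · have := h x fun h' => hx (Finset.mem_of_mem_erase h')
      rwa [Finsupp.sub_apply, Md.cst_not hx, sub_zero] at this
    · by_cases hxA : x ∈ m.A
      · have : x = r := by
          by_contra hne
          exact hx (Finset.mem_erase.2 ⟨hne, hxA⟩)
        subst this
        rw [Finsupp.sub_apply, Md.cst_mem hxA, sub_self]; rfl
      · rw [Finsupp.sub_apply, Md.cst_not hxA, sub_zero, h x hxA]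
  · refine Finset.prod_congr rfl fun e hE => ?_
    congr 1
    simp only [dE, Finsupp.sub_apply, Md.cst_mem (he e hE).1, Md.cst_mem (he e hE).2]
    ring

/-- unfolding the zero mode -/
theorem hasSum_root {A : Finset V} {r : V} (hr : r ∈ A) {U u : Cfg V → ℝ} (hU0 : ∀ s, 0 ≤ U s)
    (hU : ∀ s, HasSum (fun h : ℤ => U (s + cst A h)) 1) (hu : Summable u)
    (hu0 : ∀ t, u t ≠ 0 → t r = 0) :
    HasSum (fun s => U s * u (s - cst A (s r))) (∑' t, u t) := by
  let Φ : Cfg V × ℤ → ℝ := fun p => U (p.1 + cst A p.2) * u p.1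
  have hΦ : Summable Φ := by
    refine Summable.of_abs ?_
    have e1 : ∀ p : Cfg V × ℤ, |Φ p| = U (p.1 + cst A p.2) * |u p.1| := fun p => by
      rw [abs_mul, abs_of_nonneg (hU0 _)]
    simp_rw [e1]
    rw [summable_prod_of_nonneg fun p => mul_nonneg (hU0 _) (abs_nonneg _)]
    refine ⟨fun t => (hU t).summable.mul_right |u t|, ?_⟩
    refine hu.abs.congr fun t => ?_
    rw [((hU t).mul_right |u t|).tsum_eq, one_mul]
  have hΦ2 : HasSum Φ (∑' t, u t) := by
    have h2 := hΦ.hasSum.prod_fiberwise (g := u) fun t => by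
      simpa using (hU t).mul_right (u t)
    rw [h2.tsum_eq]
    exact hΦ.hasSum
  let i : Cfg V → Cfg V × ℤ := fun s => (s - cst A (s r), s r)
  have hi : Function.Injective i := fun s s' h => by
    simp only [i, Prod.mk.injEq] at h
    have := h.1
    rw [h.2] at this
    exact sub_left_injective this
  have h3 := (hi.hasSum_iff (f := Φ) (a := ∑' t, u t) fun p hp => by
    by_contra h0
    have h4 := hu0 _ (right_ne_zero_of_mul h0)
    refine hp ⟨p.1 + cst A p.2, ?_⟩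
    simp [i, Md.cst_mem hr, h4]).2 hΦ2
  refine h3.congr_fun ?_
  intro s
  simp [Φ, i]

theorem rootU (m : Mdl V) (r : V) (U : Cfg V → ℝ) (hr : r ∈ m.A)
    (he : ∀ e ∈ m.ed, e.1 ∈ m.A ∧ e.2 ∈ m.A) (h1 : ∀ x k, m.site x k = 1) (hU0 : ∀ s, 0 ≤ U s)
    (hU : ∀ s, HasSum (fun h : ℤ => U (s + cst m.A h)) 1)
    (hW : Wt ((m.free (m.A.erase r)).W 0)) :
    (Wt (fun s => U s * m.W 0 s) ∧ Zs (fun s => U s * m.W 0 s) = Zs ((m.free (m.A.erase r)).W 0)) ∧
    ∀ F : Cfg V → ℝ, (∀ s h, F (s + cst m.A h) = F s) → Ig ((m.free (m.A.erase r)).W 0) F →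
      Ig (fun s => U s * m.W 0 s) F ∧
        Ex (fun s => U s * m.W 0 s) F = Ex ((m.free (m.A.erase r)).W 0) F := by
  have hr0 : ∀ t, (m.free (m.A.erase r)).W 0 t ≠ 0 → t r = 0 := fun t ht =>
    Md.W_off ht r (Finset.notMem_erase r m.A)
  have hZ := hasSum_root hr hU0 hU hW.summ hr0
  simp only [W_shift hr he h1] at hZ
  have hZ' : Zs (fun s => U s * m.W 0 s) = Zs ((m.free (m.A.erase r)).W 0) := hZ.tsum_eq
  refine ⟨⟨⟨fun s => mul_nonneg (hU0 s) ?_, hZ.summable, by rw [hZ']; exact hW.pos⟩, hZ'⟩,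
    fun F hF hI => ?_⟩
  · rw [← W_shift hr he h1]; exact hW.nonneg _
  · have h2 := hasSum_root hr hU0 hU hI fun t ht => hr0 t (left_ne_zero_of_mul ht)
    have h3 : ∀ s : Cfg V, F (s - cst m.A (s r)) = F s := fun s => by
      rw [sub_eq_add_neg, ← Md.cst_neg, hF]
    simp only [W_shift hr he h1, h3, ← mul_assoc] at h2
    exact ⟨h2.summable, by rw [Ex_def, Ex_def, hZ', h2.tsum_eq]⟩

end X56



end Crest.Agent.T145
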