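import Crest.Agent.T145.UvC_49
import Crest.Agent.T145.MxDef_9

-- ▼ part T145/UvD_49
section

/-!
# Row 145, UV lemma: concentration of the band energy for a general ambient weight (helper49)
-/

set_option autoImplicit false

namespace Crest.Agent.T145.Uv

open Finset

variable {Λ : Lat} {G : Type} [AddCommGroup G] {ρ : G → ℝ} {π : G →+ Cfg Pt} {Ω Ω' : Finset Pt}

/-- UVA for an ambient weight -/
theorem GA.uva (hA : GA Λ ρ π Ω Ω') (hΛ : Λ.Ok) {C κ : Type} [DecidableEq κ] (T : Finset C)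
    (ℓ : C → Cfg Pt →+ ℝ) (B : C → Finset Pt) (col : C → κ) (K : Finset κ) (θ : κ → ℝ)
    (hθ : ∀ k ∈ K, 0 < θ k) (h1 : ∑ k ∈ K, θ k ≤ 1) (hcol : ∀ c ∈ T, col c ∈ K)
    (hB : ∀ c ∈ T, B c ⊆ Ω) (hdep : ∀ c ∈ T, Dep (B c) (ℓ c))
    (hsep : ∀ c ∈ T, ∀ c' ∈ T, c ≠ c' → col c = col c' → ∀ x ∈ B c, ∀ y ∈ B c', y ∉ bl x Λ.rg) :
    Real.log (Ex ρ (gq T fun c => (ℓ c).comp π)) ≤
      ∑ c ∈ T, (-(Vr ((Λ.D (B c)).W 0) (ℓ c) (ℓ c) / 2) +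
        Ex ((Λ.D (B c)).W 0) (fun s => ℓ c s ^ 4) / (8 * θ (col c))) := by
  classical
  refine (holder_col hA.cen.wt T (fun c a => ℓ c (π a) ^ 2) (fun _ _ => sq_nonneg _) col K θ hθ h1
    hcol).trans ?_
  rw [← sum_fiberwise_of_maps_to hcol]
  refine sum_le_sum fun k hk => ?_
  have hk0 := hθ k hk
  have hp : 0 ≤ (θ k)⁻¹ := (inv_pos.2 hk0).le
  set S := T.filter fun c => col c = k with hS
  have hT : ∀ c ∈ S, c ∈ T := fun c hc => (mem_filter.1 hc).1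
  have hU : ∀ c ∈ S, B c ⊆ S.biUnion B := fun c hc => subset_biUnion_of_mem B hc
  have h2 := hA.up (S.biUnion B) (biUnion_subset.2 fun c hc => hB c (hT c hc))
    (gq S fun c => Real.sqrt (θ k)⁻¹ • ℓ c) (pd_gq _ _) fun s s' h => by
      rw [gq_smul S ℓ hp, gq_smul S ℓ hp, sum_congr rfl fun c hc => by
        rw [hdep c (hT c hc) s s' fun x hx => h x (hU c hc hx)]]
  have h3 := one_colour (hΛ.ctr_D (S.biUnion B)) (hΛ.anch_D _) S ℓ B hU (fun c hc => hdep c (hT c hc))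
    (fun c hc c' hc' hne => by
      have H := hsep c (hT c hc) c' (hT c' hc') hne
        ((mem_filter.1 hc).2.trans (mem_filter.1 hc').2.symm)
      refine ⟨disjoint_left.2 fun x hx hx' => H x hx x hx' (self_mem_bl _ _), fun e he => ?_⟩
      have := (Lat.mem_edT.1 he).1
      exact ⟨fun h h' => H _ h _ h' (Lat.edge_near this), fun h h' => H _ h _ h' (Lat.edge_near' this)⟩) hp
  simp only [funext (gq_smul S ℓ hp)] at h2
  have h4 := (Real.log_le_log (hA.cen.wt.ex_pos' (hA.cen.wt.ig_bdd (C := 1) fun a => by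
    rw [abs_of_pos (Real.exp_pos _), Real.exp_le_one_iff]
    have : 0 ≤ (θ k)⁻¹ * ∑ c ∈ S, ℓ c (π a) ^ 2 := mul_nonneg hp (sum_nonneg fun _ _ => sq_nonneg _)
    linarith) fun _ => Real.exp_pos _) h2).trans h3
  refine (mul_le_mul_of_nonneg_left h4 hk0.le).trans_eq ?_
  rw [mul_sum]
  refine sum_congr rfl fun c hc => ?_
  have pp := (Lat.near_D (hU c hc)).pp hΛ (hΛ.ctr_D _).1 0
  rw [pp.Vr, pp.ex, (mem_filter.1 hc).2]
  field_simp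

/-- the constant of the UV lemma -/
noncomputable def cU (Λ : Lat) : ℝ := 10 ^ 5 * Real.exp Λ.τ

theorem sep_col {I : Finset Pt} {c : ℕ} {Jv : Finset ℕ} (hJ : ∀ j ∈ Jv, j < c)
    (hd : ∀ a ∈ I, ∀ b ∈ I, a ≠ b → Disjoint (sq a (2 ^ c)) (sq b (2 ^ c))) {t t' : Ix}
    (ht : t ∈ terms I c Jv) (ht' : t' ∈ terms I c Jv) (hne : t ≠ t') (hj : t.2.1 = t'.2.1) :
    Disjoint (sq (cor t) (2 ^ t.2.1)) (sq (cor t') (2 ^ t.2.1)) := by
  obtain ⟨a, j, i⟩ := t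
  obtain ⟨a', j', i'⟩ := t'
  obtain rfl : j = j' := hj
  obtain ⟨h1, h2, h3⟩ := mem_terms.1 ht
  obtain ⟨h1', -, h3'⟩ := mem_terms.1 ht'
  by_cases h : a = a'
  · subst h
    refine disjoint_left.2 fun x hx hx' => hne ?_
    rw [cor, mem_tile_iff (by positivity)] at hx hx'
    obtain rfl : i = i' := hx.symm.trans hx'
    rfl
  · exact (hd a h1 a' h1' h).mono (child_sub_top (hJ _ h2).le h3) (child_sub_top (hJ _ h2).le h3')

/-- one good term -/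
theorem GA.term (hA : GA Λ ρ π Ω Ω') (hR : R1Stmt) (hD : Nc.LD1Stmt) (hΛ : Λ.Ok) {μ η θ : ℝ}
    (hμ : 0 ≤ μ) {t : Ix} {r R : ℕ} (h1 : 2 ^ (t.2.1 + 1) ≤ r) (h2 : r + 2 * Λ.rg ≤ R) (hη : 0 < η)
    (hg : Nc.gam Λ r R ≤ 1 + η ^ 2) (hθ : 0 < θ) (hB : bl (cor t) R ⊆ Ω) :
    -(Vr ((Λ.D (bl (cor t) R)).W 0) (hl μ t) (hl μ t) / 2) +
        Ex ((Λ.D (bl (cor t) R)).W 0) (fun s => hl μ t s ^ 4) / (8 * θ) ≤
      -(Vr ρ ((hl μ t).comp π) ((hl μ t).comp π) / 2) + ((2 : ℝ) ^ t.2.1) ^ 2 *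
        (cU Λ * (μ * η + μ ^ 2 * (((2 : ℝ) ^ t.2.1) ^ 2 / (16 * θ)))) := by
  have hs : sq (tile t.1 (2 ^ (t.2.1 + 1)) (par t.2.2)) (2 ^ (t.2.1 + 1)) ⊆ bl (cor t) r :=
    (par_sub_bl t.1 t.2.1 t.2.2).trans (bl_mono _ h1)
  have hs' : bl (cor t) r ⊆ bl (cor t) R := bl_mono _ (by omega)
  have hf : F2 (Λ.edI (bl (cor t) R)) (hf t.1 t.2.1 t.2.2) 32 :=
    (hf_flow hR hΛ _ _ _).subset (Lat.edI_mono (hs.trans hs'))
  have g := gap hD hΛ h2 (fun x hx => hf_off fun h => hx (hs h)) (sum_hf hs) hf hη hg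
  have hs2 := hs.trans (hs'.trans (bl_eq_sq _ _).subset)
  have l := hA.lo ((cor t).1 - R, (cor t).2 - R) (2 * R + 1) (by omega)
    ((bl_eq_sq _ _).superset.trans (hB.trans hA.sub)) (Uv.hf t.1 t.2.1 t.2.2)
    (fun x hx => hf_off fun h => hx (hs2 h)) (sum_hf hs2)
  have z : pr (Uv.hf t.1 t.2.1 t.2.2) (cst (bl (cor t) R) 1) = 0 := by
    rw [pr_cst_one, sum_hf (hs.trans hs')]
  rw [← bl_eq_sq, Lat.Vr_Nr_root ((bl_eq_sq _ _).superset (self_mem_sq _ (by omega))) (self_mem_bl _ _) z z] at l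
  have q := (hf.f2a _).four_le hΛ.pos (hΛ.ctr_D (bl (cor t) R)) (hΛ.anch_D _)
    (Lat.edI_subset_edT _) fun _ _ => rfl
  have e1 := vr_hl ((Λ.D (bl (cor t) R)).W 0) (AddMonoidHom.id _) hμ t
  simp only [AddMonoidHom.comp_id] at e1
  have e2 : Ex ((Λ.D (bl (cor t) R)).W 0) (fun s => hl μ t s ^ 4) = (μ * ((2 : ℝ) ^ t.2.1) ^ 2) ^ 2 *
      Ex ((Λ.D (bl (cor t) R)).W 0) fun s => pr (Uv.hf t.1 t.2.1 t.2.2) s ^ 4 := by
    rw [← Ex_const_mul]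
    refine congrArg _ (funext fun s => ?_)
    have : Real.sqrt μ ^ 4 = μ ^ 2 := by rw [show 4 = 2 * 2 from rfl, pow_mul, Real.sq_sqrt hμ]
    simp only [hl, AddMonoidHom.smul_apply, smul_eq_mul, mul_pow, this]; ring
  rw [e1, e2, vr_hl _ _ hμ, cU]
  have hE : 1 ≤ Real.exp Λ.τ := Real.one_le_exp hΛ.pos.le
  set P := ((2 : ℝ) ^ t.2.1) ^ 2
  have hP : 0 ≤ μ * P := by positivity
  have a1 := mul_le_mul_of_nonneg_left (l.trans g) hP
  have a2 := div_le_div_of_nonneg_right (mul_le_mul_of_nonneg_left q (sq_nonneg (μ * P)))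
    (show 0 ≤ 8 * θ by positivity)
  have a3 : (μ * P) ^ 2 * (24 * Real.exp Λ.τ * 32 ^ 2) / (8 * θ) =
      49152 * (P * (Real.exp Λ.τ * (μ ^ 2 * (P / (16 * θ))))) := by field_simp; ring
  have a4 : 0 ≤ P * (Real.exp Λ.τ * (μ ^ 2 * (P / (16 * θ)))) := by positivity
  have a5 := mul_le_mul_of_nonneg_left hE (mul_nonneg hP hη.le)
  have a6 := mul_nonneg hP hη.le
  nlinarith

/-- **UV**, general form -/
theorem GA.uvg (hA : GA Λ ρ π Ω Ω') (hR : R1Stmt) (hD : Nc.LD1Stmt) (hΛ : Λ.Ok) {I : Finset Pt} {c : ℕ}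
    {Jv : Finset ℕ} (hJ : ∀ j ∈ Jv, j < c) (hv : ∀ t ∈ terms I c Jv,
      Vr ρ ((pr (hf t.1 t.2.1 t.2.2)).comp π) ((pr (hf t.1 t.2.1 t.2.2)).comp π) ≤ Λ.τ * 32)
    (hd : ∀ a ∈ I, ∀ b ∈ I, a ≠ b → Disjoint (sq a (2 ^ c)) (sq b (2 ^ c))) {μ : ℝ} (hμ : 0 ≤ μ)
    {r R : ℕ → ℕ} {η w : ℕ → ℝ} (h : ∀ j ∈ Jv, 2 ^ (j + 1) ≤ r j ∧ r j + 2 * Λ.rg ≤ R j ∧ 0 < η j ∧
      Nc.gam Λ (r j) (R j) ≤ 1 + η j ^ 2 ∧ 0 < w j) (hw : ∑ j ∈ Jv, w j ≤ 1) :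
    Real.log (Ex ρ (gq (terms I c Jv) fun t => (hl μ t).comp π)) ≤
      -(∑ t ∈ terms I c Jv, Vr ρ ((hl μ t).comp π) ((hl μ t).comp π)) / 2 +
        cU Λ * (μ * ∑ j ∈ Jv, bad I c Ω (2 * R j) + I.card * ((2 : ℝ) ^ c) ^ 2 *
          ∑ j ∈ Jv, (μ * η j + μ ^ 2 * ((R j : ℝ) ^ 2 / w j))) := by
  classical
  set M : ℕ → ℕ := fun j => (2 * R j + Λ.rg) / 2 ^ j + 2 with hM
  have M0 : ∀ j, (0 : ℝ) < M j := fun j => by simp only [hM]; positivity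
  set T := (terms I c Jv).filter fun t => bl (cor t) (R t.2.1) ⊆ Ω with hT
  have hJ' : ∀ t ∈ T, t.2.1 ∈ Jv := fun t ht => (mem_terms.1 (mem_filter.1 ht).1).2.1
  have hs : ∀ t ∈ T, sq (tile t.1 (2 ^ (t.2.1 + 1)) (par t.2.2)) (2 ^ (t.2.1 + 1)) ⊆
      bl (cor t) (R t.2.1) := fun t ht => (par_sub_bl _ _ _).trans (bl_mono _ (by
        have := h _ (hJ' t ht); omega))
  have H := hA.uva hΛ (κ := Σ _ : ℕ, ℤ × ℤ) T (hl μ) (fun t => bl (cor t) (R t.2.1))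
    (fun t => ⟨t.2.1, (cor t).1 / (2 ^ t.2.1 : ℕ) % M t.2.1, (cor t).2 / (2 ^ t.2.1 : ℕ) % M t.2.1⟩)
    (Jv.sigma fun j => sq 0 (M j)) (fun k => w k.1 / (M k.1 : ℝ) ^ 2)
    (fun k hk => div_pos (h _ (mem_sigma.1 hk).1).2.2.2.2 (pow_pos (M0 _) 2))
    (by
      simp only [sum_sigma, sum_const, card_sq, nsmul_eq_mul]
      refine le_of_eq_of_le (sum_congr rfl fun j _ => ?_) hw
      have := M0 j
      push_cast; field_simp)
    (fun t ht => mem_sigma.2 ⟨hJ' t ht, by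
      have : (0 : ℤ) < M t.2.1 := by exact_mod_cast M0 t.2.1
      simpa only [mem_sq, Prod.fst_zero, Prod.snd_zero, zero_add] using
        ⟨⟨Int.emod_nonneg _ this.ne', Int.emod_lt_of_pos _ this⟩, Int.emod_nonneg _ this.ne',
          Int.emod_lt_of_pos _ this⟩⟩)
    (fun t ht => (mem_filter.1 ht).2)
    (fun t ht s s' hss => by
      simp only [hl, AddMonoidHom.smul_apply,
        dep_pr (fun x hx => hf_off fun h => hx (hs t ht h)) s s' hss])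
    (fun t ht t' ht' hne hc x hx y hy hxy => by
      have hj : t.2.1 = t'.2.1 := (Sigma.mk.inj_iff.1 hc).1
      have h2 := eq_of_heq (Sigma.mk.inj_iff.1 hc).2
      rw [← hj] at h2 hy
      have h3 := far_of_col (by positivity) (sep_col hJ hd (mem_filter.1 ht).1 (mem_filter.1 ht').1
        hne hj) (congrArg Prod.fst h2) (congrArg Prod.snd h2)
      have h4 : 2 * R t.2.1 + Λ.rg < ((2 * R t.2.1 + Λ.rg) / 2 ^ t.2.1 + 1) * 2 ^ t.2.1 := by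
        rw [mul_comm (_ + 1)]; exact Nat.lt_mul_div_succ _ (by positivity)
      have h5 : ((M t.2.1 : ℤ) - 1) * (2 ^ t.2.1 : ℕ) =
          (((2 * R t.2.1 + Λ.rg) / 2 ^ t.2.1 + 1) * 2 ^ t.2.1 : ℕ) := by
        simp only [hM, Nat.cast_add, Nat.cast_mul]; push_cast; ring
      rw [h5, lt_abs, lt_abs] at h3
      rw [mem_bl] at hx hy hxy
      omega)
  have cen := hA.cen
  refine (Real.log_le_log (cen.wt.ex_pos' (cen.ig (Tame.gq _ _)) fun s => gq_pos _ _ s)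
    (Ex_mono cen.nonneg (cen.ig (Tame.gq _ _)) (cen.ig (Tame.gq T _)) fun s =>
      gq_mono (filter_subset _ _) _ s)).trans (H.trans ?_)
  have hC : 0 ≤ cU Λ := by unfold cU; positivity
  have b1 := mul_le_mul_of_nonneg_left (sum_bad I (fun j hj => (hJ j hj).le) Ω (R := R) fun j hj => by
    have := h j hj; rw [pow_succ] at this; omega) (mul_nonneg hC hμ)
  have b2 := sum_terms I (fun j hj => (hJ j hj).le) fun j => μ * η j + μ ^ 2 * ((R j : ℝ) ^ 2 / w j)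
  rw [← b2, mul_add, ← mul_assoc]
  refine le_trans ?_ (add_le_add_right (add_le_add_left b1 _) _)
  rw [neg_div, sum_div, ← sum_neg_distrib, mul_sum, mul_sum, ← sum_add_distrib, ← sum_add_distrib, hT,
    sum_filter]
  refine sum_le_sum fun t ht => ?_
  obtain ⟨-, t2, -⟩ := mem_terms.1 ht
  obtain ⟨k1, k2, k3, k4, k5⟩ := h _ t2
  split_ifs with hb
  · refine (hA.term hR hD hΛ hμ k1 k2 k3 k4 (div_pos k5 (pow_pos (M0 _) 2)) hb).trans ?_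
    rw [ind_neg (not_not.2 hb)]
    have m1 : M t.2.1 * 2 ^ t.2.1 ≤ 4 * R t.2.1 := by
      have := Nat.div_mul_le_self (2 * R t.2.1 + Λ.rg) (2 ^ t.2.1)
      simp only [hM, add_mul]; rw [pow_succ] at k1; omega
    have m2 : (M t.2.1 : ℝ) * 2 ^ t.2.1 ≤ 4 * R t.2.1 := by exact_mod_cast m1
    have m3 : ((2 : ℝ) ^ t.2.1) ^ 2 / (16 * (w t.2.1 / (M t.2.1 : ℝ) ^ 2)) ≤ (R t.2.1 : ℝ) ^ 2 / w t.2.1 := by
      have := M0 t.2.1
      have m4 := pow_le_pow_left₀ (by positivity) m2 2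
      rw [div_le_div_iff₀ (by positivity) k5, ← mul_div_assoc, ← mul_div_assoc, le_div_iff₀ (by positivity)]
      nlinarith [mul_le_mul_of_nonneg_left m4 k5.le]
    nlinarith [mul_le_mul_of_nonneg_left m3
      (show 0 ≤ ((2 : ℝ) ^ t.2.1) ^ 2 * (cU Λ * μ ^ 2) by positivity)]
  · rw [ind_pos hb, vr_hl _ _ hμ]
    have v := hv t ht
    have e : Λ.τ * 32 ≤ cU Λ := by
      unfold cU; nlinarith [Real.add_one_le_exp Λ.τ, hΛ.pos]
    have p : 0 ≤ cU Λ * (((2 : ℝ) ^ t.2.1) ^ 2 * (μ * η t.2.1 + μ ^ 2 * ((R t.2.1 : ℝ) ^ 2 / w t.2.1))) := by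
      positivity
    nlinarith [mul_le_mul_of_nonneg_left (v.trans e) (show 0 ≤ μ * ((2 : ℝ) ^ t.2.1) ^ 2 by positivity),
      mul_nonneg hC (show 0 ≤ μ * ((2 : ℝ) ^ t.2.1) ^ 2 by positivity)]

end Crest.Agent.T145.Uv
end

-- ▼ part T145/UvE_49

/-!
# Row 145, UV lemma: the choice of the radii, `Mx.uvStmt` (helper49)
-/

set_option autoImplicit false

namespace Crest.Agent.T145.Uv

open Finset

theorem sum_div_le {κ : ℕ} (hκ : 0 < κ) (N : ℕ) : ∑ k ∈ range N, (3 / 4 : ℝ) ^ (k / κ) ≤ 4 * κ := by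
  have h : ∀ N, ∑ k ∈ range (κ * N), (3 / 4 : ℝ) ^ (k / κ) = 4 * κ * (1 - (3 / 4) ^ N) := fun N => by
    induction N with
    | zero => simp
    | succ N ih =>
      rw [mul_add, mul_one, sum_range_add, ih, sum_congr rfl fun x hx => by
        rw [Nat.mul_add_div hκ, Nat.div_eq_of_lt (mem_range.1 hx), add_zero]]
      simp only [sum_const, card_range, nsmul_eq_mul]; ring
  refine (sum_le_sum_of_subset_of_nonneg (range_mono (Nat.le_mul_of_pos_left N hκ))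
    fun _ _ _ => by positivity).trans ((h N).trans_le ?_)
  have : (0 : ℝ) ≤ 4 * κ * (3 / 4) ^ N := by positivity
  linarith

theorem sum_geo_le (N : ℕ) : ∑ k ∈ range N, (17 / 20 : ℝ) ^ k ≤ 20 / 3 := by
  rw [geom_sum_eq (by norm_num), div_le_iff_of_neg (by norm_num)]
  have : (0 : ℝ) ≤ (17 / 20) ^ N := by positivity
  linarith

theorem sum_refl_le {Jv : Finset ℕ} {c : ℕ} (hJ : ∀ j ∈ Jv, j < c) {g : ℕ → ℝ} (hg : ∀ k, 0 ≤ g k) :
    ∑ j ∈ Jv, g (c - 1 - j) ≤ ∑ k ∈ range c, g k :=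
  (sum_le_sum_of_subset_of_nonneg (fun j hj => mem_range.2 (hJ j hj)) fun _ _ _ => hg _).trans_eq
    (sum_range_reflect g c)

theorem rad_le {P r₀ c j : ℕ} (hP : 0 < P) (hr : r₀ ^ 2 ≤ 2 ^ c) (hj : j < c) :
    ((P ^ ((c - 1 - j) / (4 * P)) * max (2 ^ (j + 1)) r₀ : ℕ) : ℝ) ≤ 2 ^ c * (17 / 20) ^ (c - 1 - j) := by
  obtain ⟨k, rfl⟩ : ∃ k, c = j + 1 + k := ⟨c - 1 - j, by omega⟩
  rw [show j + 1 + k - 1 - j = k by omega]
  have h1 : (P ^ (k / (4 * P))) ^ 4 ≤ 2 ^ k := by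
    rw [← pow_mul]
    calc P ^ (k / (4 * P) * 4) ≤ (2 ^ P) ^ (k / (4 * P) * 4) :=
          Nat.pow_le_pow_left Nat.lt_two_pow_self.le _
      _ ≤ 2 ^ k := by
          rw [← pow_mul]
          refine Nat.pow_le_pow_right two_pos (le_of_eq_of_le ?_ (Nat.div_mul_le_self k (4 * P)))
          ring
  have h2 : (max (2 ^ (j + 1)) r₀) ^ 4 * (2 ^ k) ^ 2 ≤ (2 ^ (j + 1 + k)) ^ 4 := by
    rcases le_total (2 ^ (j + 1)) r₀ with h | h
    · rw [max_eq_right h, show 4 = 2 + 2 from rfl, pow_add (2 ^ (j + 1 + k)), ← two_mul, mul_comm 2 2,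
        pow_mul]
      exact Nat.mul_le_mul (Nat.pow_le_pow_left hr 2)
        (Nat.pow_le_pow_left (Nat.pow_le_pow_right two_pos (by omega)) 2)
    · rw [max_eq_left h, ← pow_mul, ← pow_mul, ← pow_mul, ← pow_add]
      exact Nat.pow_le_pow_right two_pos (by omega)
  have h3 : (P ^ (k / (4 * P)) * max (2 ^ (j + 1)) r₀) ^ 4 * 2 ^ k ≤ (2 ^ (j + 1 + k)) ^ 4 := by
    rw [mul_pow]
    calc _ ≤ 2 ^ k * (max (2 ^ (j + 1)) r₀) ^ 4 * 2 ^ k := by gcongr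
      _ = _ := by ring
      _ ≤ _ := h2
  refine le_of_pow_le_pow_left₀ (n := 4) (by norm_num) (by positivity) ?_
  have h4 : (((P ^ (k / (4 * P)) * max (2 ^ (j + 1)) r₀ : ℕ) : ℝ)) ^ 4 * 2 ^ k ≤ (2 ^ (j + 1 + k)) ^ 4 := by
    exact_mod_cast h3
  have h5 : (1 : ℝ) ≤ 2 ^ k * ((17 / 20) ^ k) ^ 4 := by
    rw [← pow_mul, mul_comm k, pow_mul, ← mul_pow]; exact one_le_pow₀ (by norm_num)
  rw [mul_pow]
  calc _ ≤ (((P ^ (k / (4 * P)) * max (2 ^ (j + 1)) r₀ : ℕ) : ℝ)) ^ 4 * (2 ^ k * ((17 / 20) ^ k) ^ 4) :=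
        le_mul_of_one_le_right (by positivity) h5
    _ ≤ _ := by rw [← mul_assoc]; gcongr

variable {Λ : Lat} {G : Type} [AddCommGroup G] {ρ : G → ℝ} {π : G →+ Cfg Pt} {Ω Ω' : Finset Pt}

/-- **UV** from good annuli: all the levels are below `c₂` -/
theorem GA.uv (hA : GA Λ ρ π Ω Ω') (hR : R1Stmt) (hD : Nc.LD1Stmt) (hS : Nc.SubStmt) (hΛ : Λ.Ok)
    {W r₀ Lt : ℕ} (hG : Nc.Gd Λ (1 / 400) W r₀ Lt) {I : Finset Pt} {c c₂ : ℕ}
    {Jv : Finset ℕ} (hJ : ∀ j ∈ Jv, j < c) (hJ₂ : ∀ j ∈ Jv, j < c₂) (hv : ∀ t ∈ terms I c Jv,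
      Vr ρ ((pr (hf t.1 t.2.1 t.2.2)).comp π) ((pr (hf t.1 t.2.1 t.2.2)).comp π) ≤ Λ.τ * 32)
    (hd : ∀ a ∈ I, ∀ b ∈ I, a ≠ b → Disjoint (sq a (2 ^ c)) (sq b (2 ^ c))) {μ b : ℝ} (hμ : 0 ≤ μ)
    (hb0 : 0 ≤ b) (hb : ∀ r, 1 ≤ r → bad I c Ω r ≤ b * r) (n : ℕ) (hr : r₀ ^ 2 ≤ 2 ^ c₂)
    (hL : (4 * W ^ 4) ^ (n + 2) * 2 ^ c₂ ≤ Lt) :
    Real.log (Ex ρ (gq (terms I c Jv) fun t => (hl μ t).comp π)) ≤
      -(∑ t ∈ terms I c Jv, Vr ρ ((hl μ t).comp π) ((hl μ t).comp π)) / 2 +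
        cU Λ * (14 * μ * b * ((4 * W ^ 4) ^ (n + 2) * 2 ^ c₂) + I.card * ((2 : ℝ) ^ c) ^ 2 *
          (960 * μ * W ^ 4 * (3 / 4) ^ n + 45 * μ ^ 2 * ((4 * W ^ 4) ^ (n + 2) * 2 ^ c₂) ^ 2)) := by
  have hW := hG.1
  have hP : 2 ≤ 4 * W ^ 4 := by have := Nat.one_le_pow 4 W (by omega); omega
  set P := 4 * W ^ 4 with hP'
  set S : ℝ := (P : ℝ) ^ (n + 2) * 2 ^ c₂ with hS'
  have eS : (4 * (W : ℝ) ^ 4) ^ (n + 2) * 2 ^ c₂ = S := by rw [hS', hP']; push_cast; rfl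
  have S0 : 0 ≤ S := by positivity
  set R : ℕ → ℕ := fun j => P ^ (n + (c₂ - 1 - j) / (4 * P) + 2) * max (2 ^ (j + 1)) r₀ with hR'
  have hRS : ∀ j ∈ Jv, (R j : ℝ) ≤ S * (17 / 20) ^ (c₂ - 1 - j) := fun j hj => by
    have := mul_le_mul_of_nonneg_left (rad_le (P := P) (by omega) hr (hJ₂ j hj))
      (show (0 : ℝ) ≤ (P : ℝ) ^ (n + 2) by positivity)
    refine le_of_eq_of_le ?_ (this.trans_eq (by rw [hS', mul_assoc]))
    simp only [hR']; push_cast; ring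
  have hRr : ∀ j, 2 * max (2 ^ (j + 1)) r₀ ≤ R j := fun j => Nat.mul_le_mul_right _
    (hP.trans (Nat.le_self_pow (Nat.succ_ne_zero _) P))
  refine (hA.uvg hR hD hΛ hJ hv hd hμ (r := fun j => max (2 ^ (j + 1)) r₀) (R := R)
    (η := fun j => 15 * (3 / 4) ^ n * (3 / 4) ^ ((c₂ - 1 - j) / (4 * P)))
    (w := fun j => 3 / 20 * (17 / 20) ^ (c₂ - 1 - j)) (fun j hj => ⟨le_max_left _ _, ?_, by positivity, ?_,
      by positivity⟩) ?_).trans ?_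
  · have := hRr j; have := hG.2.1; have := le_max_right (2 ^ (j + 1)) r₀; omega
  · have h1 : (R j : ℝ) ≤ Lt := (hRS j hj).trans ((mul_le_of_le_one_right S0
      (pow_le_one₀ (by norm_num) (by norm_num))).trans (by rw [hS']; exact_mod_cast hL))
    refine (hS Λ hΛ (1 / 400) W r₀ Lt (by norm_num) (by norm_num) hG _ (n + (c₂ - 1 - j) / (4 * P)) (R j)
      (le_max_right _ _) le_rfl (by exact_mod_cast h1)).trans ?_
    rw [mul_assoc, ← pow_add, mul_pow 15, ← pow_mul, mul_comm _ 2, pow_mul]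
    gcongr <;> norm_num
  · rw [← mul_sum]
    linarith [(sum_refl_le hJ₂ (g := fun k => (17 / 20 : ℝ) ^ k) fun _ => by positivity).trans
      (sum_geo_le _)]
  have g1 := (sum_refl_le hJ₂ (g := fun k => (17 / 20 : ℝ) ^ k) fun _ => by positivity).trans
    (sum_geo_le _)
  have g2 := (sum_refl_le hJ₂ (g := fun k => (3 / 4 : ℝ) ^ (k / (4 * P))) fun _ => by positivity).trans
    (sum_div_le (by omega) _)
  have b1 : ∑ j ∈ Jv, bad I c Ω (2 * R j) ≤ 14 * b * S := by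
    refine (sum_le_sum (g := fun j => 2 * b * S * (17 / 20) ^ (c₂ - 1 - j)) fun j hj => ?_).trans ?_
    · refine (hb _ ?_).trans ?_
      · have := hRr j; have := le_max_left (2 ^ (j + 1)) r₀; have := Nat.one_le_two_pow (n := j + 1); omega
      · push_cast; nlinarith [mul_le_mul_of_nonneg_left (hRS j hj) hb0]
    · rw [← mul_sum]; nlinarith [mul_le_mul_of_nonneg_left g1 (mul_nonneg hb0 S0), mul_nonneg hb0 S0]
  have b2 : ∑ j ∈ Jv, (μ * (15 * (3 / 4) ^ n * (3 / 4) ^ ((c₂ - 1 - j) / (4 * P))) +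
      μ ^ 2 * ((R j : ℝ) ^ 2 / (3 / 20 * (17 / 20) ^ (c₂ - 1 - j)))) ≤
      960 * μ * W ^ 4 * (3 / 4) ^ n + 45 * μ ^ 2 * S ^ 2 := by
    refine (sum_le_sum (g := fun j => 15 * μ * (3 / 4) ^ n * (3 / 4) ^ ((c₂ - 1 - j) / (4 * P)) +
      20 / 3 * (μ * S) ^ 2 * (17 / 20) ^ (c₂ - 1 - j)) fun j hj => ?_).trans ?_
    · have : (R j : ℝ) ^ 2 / (3 / 20 * (17 / 20) ^ (c₂ - 1 - j)) ≤
          20 / 3 * S ^ 2 * (17 / 20) ^ (c₂ - 1 - j) := by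
        rw [div_le_iff₀ (by positivity)]
        exact (pow_le_pow_left₀ (by positivity) (hRS j hj) 2).trans_eq (by ring)
      nlinarith [mul_le_mul_of_nonneg_left this (sq_nonneg μ)]
    · rw [sum_add_distrib, ← mul_sum, ← mul_sum]
      have e : ((4 * P : ℕ) : ℝ) = 16 * W ^ 4 := by rw [hP']; push_cast; ring
      rw [e] at g2
      nlinarith [mul_le_mul_of_nonneg_left g1 (sq_nonneg (μ * S)), sq_nonneg (μ * S),
        mul_le_mul_of_nonneg_left g2 (show 0 ≤ 15 * μ * (3 / 4) ^ n by positivity)]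
  rw [eS]
  have hC : 0 ≤ cU Λ := by unfold cU; positivity
  refine add_le_add_right (mul_le_mul_of_nonneg_left (add_le_add ?_
    (mul_le_mul_of_nonneg_left b2 (by positivity))) hC) _
  nlinarith [mul_le_mul_of_nonneg_left b1 hμ]


theorem bad_eq {I : Finset Pt} {c : ℕ}
    (hd : ∀ a ∈ I, ∀ b ∈ I, a ≠ b → Disjoint (sq a (2 ^ c)) (sq b (2 ^ c))) (Ω : Finset Pt) (r : ℕ) :
    bad I c Ω r = #((I.biUnion fun a => sq a (2 ^ c)).filter fun x => ¬ bl x r ⊆ Ω) := by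
  rw [bad, ← sum_biUnion fun a ha b hb h => hd a ha b hb h, card_filter]
  push_cast
  exact sum_congr rfl fun x _ => ind_eq_ite _

theorem gq_two (T : Finset Ix) (μ : ℝ) (a : G) : gq T (fun t => (hl μ t).comp π) a ^ 2 =
    gq T (fun t => (hl (2 * μ) t).comp π) a := by
  have e : ∀ t, hl (2 * μ) t (π a) ^ 2 = 2 * hl μ t (π a) ^ 2 := fun t => by
    simp only [hl, AddMonoidHom.smul_apply, smul_eq_mul, mul_pow, Real.sqrt_mul (zero_le_two (α := ℝ)),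
      Real.sq_sqrt (zero_le_two (α := ℝ))]; ring
  simp only [gq, AddMonoidHom.comp_apply, e, ← mul_sum, ← Real.exp_nat_mul]
  congr 1; push_cast; ring

/-- the second moment of the band factor; the levels from `c₂` on are dropped -/
theorem GA.sq_le (hA : GA Λ ρ π Ω Ω') (hR : R1Stmt) (hD : Nc.LD1Stmt) (hS : Nc.SubStmt) (hΛ : Λ.Ok)
    {W r₀ Lt : ℕ} (hG : Nc.Gd Λ (1 / 400) W r₀ Lt) {I : Finset Pt} {c c₂ : ℕ}
    {Jv : Finset ℕ} (hJ : ∀ j ∈ Jv, j < c) (hv : ∀ t ∈ terms I c Jv,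
      Vr ρ ((pr (hf t.1 t.2.1 t.2.2)).comp π) ((pr (hf t.1 t.2.1 t.2.2)).comp π) ≤ Λ.τ * 32)
    (hd : ∀ a ∈ I, ∀ b ∈ I, a ≠ b → Disjoint (sq a (2 ^ c)) (sq b (2 ^ c))) {μ b : ℝ} (hμ : 0 ≤ μ)
    (hb0 : 0 ≤ b) (hb : ∀ r, 1 ≤ r → bad I c Ω r ≤ b * r) (n : ℕ) (hr : r₀ ^ 2 ≤ 2 ^ c₂)
    (hL : (4 * W ^ 4) ^ (n + 2) * 2 ^ c₂ ≤ Lt) :
    Ex ρ (fun a => gq (terms I c Jv) (fun t => (hl μ t).comp π) a ^ 2) ≤
      Real.exp (cU Λ * (28 * μ * b * ((4 * W ^ 4) ^ (n + 2) * 2 ^ c₂) + I.card * ((2 : ℝ) ^ c) ^ 2 *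
          (1920 * μ * W ^ 4 * (3 / 4) ^ n + 180 * μ ^ 2 * ((4 * W ^ 4) ^ (n + 2) * 2 ^ c₂) ^ 2)) +
        32 * Λ.τ * μ * (I.card * ((2 : ℝ) ^ c) ^ 2) * #(Jv.filter fun j => ¬ j < c₂)) *
      Ex ρ (gq (terms I c Jv) fun t => (hl μ t).comp π) ^ 2 := by
  have cen := hA.cen
  have pos : ∀ (T : Finset Ix) (μ : ℝ), 0 < Ex ρ (gq T fun t => (hl μ t).comp π) := fun T μ =>
    cen.wt.ex_pos' (cen.ig (Tame.gq _ _)) fun s => gq_pos _ _ s
  have sub : ∀ p : ℕ → Prop, ∀ [DecidablePred p], terms I c (Jv.filter p) ⊆ terms I c Jv := fun p _ t ht =>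
    mem_terms.2 ⟨(mem_terms.1 ht).1, (mem_filter.1 (mem_terms.1 ht).2.1).1, (mem_terms.1 ht).2.2⟩
  have h1 := hA.uv hR hD hS hΛ hG (Jv := Jv.filter fun j => j < c₂) (fun j hj => hJ j (mem_filter.1 hj).1)
    (fun j hj => (mem_filter.1 hj).2) (fun t ht => hv t (sub _ ht)) hd (μ := 2 * μ) (by positivity) hb0 hb
    n hr hL
  have h2 := le_log_gq cen (terms I c Jv) fun t => (hl μ t).comp π
  have h3 := terms_union I c (disjoint_filter_filter_not Jv Jv fun j => j < c₂)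
    fun t => Vr ρ ((hl μ t).comp π) ((hl μ t).comp π)
  rw [filter_union_filter_not_eq] at h3
  have h4 : ∑ t ∈ terms I c (Jv.filter fun j => j < c₂), Vr ρ ((hl (2 * μ) t).comp π) ((hl (2 * μ) t).comp π) =
      2 * ∑ t ∈ terms I c (Jv.filter fun j => j < c₂), Vr ρ ((hl μ t).comp π) ((hl μ t).comp π) := by
    rw [mul_sum]
    exact sum_congr rfl fun t _ => by rw [vr_hl _ _ hμ, vr_hl _ _ (by positivity)]; ring
  have h5 : ∑ t ∈ terms I c (Jv.filter fun j => ¬ j < c₂), Vr ρ ((hl μ t).comp π) ((hl μ t).comp π) ≤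
      32 * Λ.τ * μ * (I.card * ((2 : ℝ) ^ c) ^ 2) * #(Jv.filter fun j => ¬ j < c₂) := by
    have := sum_terms I (Jv := Jv.filter fun j => ¬ j < c₂) (fun j hj => (hJ j (mem_filter.1 hj).1).le)
      fun _ => 32 * Λ.τ * μ
    rw [sum_const, nsmul_eq_mul] at this
    refine le_of_le_of_eq (sum_le_sum fun t ht => ?_) (this.trans (by ring))
    rw [vr_hl _ _ hμ]
    nlinarith [mul_le_mul_of_nonneg_left (hv t (sub _ ht))
      (show 0 ≤ μ * ((2 : ℝ) ^ t.2.1) ^ 2 by positivity)]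
  simp only [gq_two]
  refine (Ex_mono cen.nonneg (cen.ig (Tame.gq _ _)) (cen.ig (Tame.gq _ _)) fun s =>
    gq_mono (sub fun j => j < c₂) _ s).trans ?_
  rw [← Real.exp_log (pos _ (2 * μ)), ← Real.exp_log (pos _ μ), ← Real.exp_nat_mul, ← Real.exp_add,
    Real.exp_le_exp]
  push_cast
  linarith

end Crest.Agent.T145.Uv

namespace Crest.Agent.T145.Mx

open Finset Uv

theorem uvStmt (hR : R1Stmt) (hD : Nc.LD1Stmt) (hS : Nc.SubStmt) : UvStmt := by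
  intro F W r₀ K
  set E : ℝ := 10 ^ 5 * Real.exp F.τ₂ with hE
  have E0 : 0 < E := by positivity
  -- one estimate for every `n`, `N`
  have key : ∀ (n N : ℕ), (4 * W ^ 4) ^ (n + 2) * W ≤ N → 0 < N → ∀ Λ, F.Mem Λ → ∀ L : ℕ,
      2 * (r₀ ^ 2 + 1) * N ≤ L → Nc.Gd Λ (1 / 400) W r₀ (L / W) →
      ∀ (m : Mdl Pt) (U I : Finset Pt) (c : ℕ) (Jv : Finset ℕ) (μ : ℝ), Nc.Amb Λ m U →
      (∀ a ∈ I, Λ.Amb m (sq a (2 ^ c))) →
      (∀ a ∈ I, ∀ a' ∈ I, a ≠ a' → Disjoint (sq a (2 ^ c)) (sq a' (2 ^ c))) → Jv ⊆ range c →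
      0 ≤ μ → μ * (L : ℝ) ^ 2 ≤ K → (#I : ℝ) * 4 ^ c ≤ K * (L : ℝ) ^ 2 →
      Thn (I.biUnion fun a => sq a (2 ^ c)) U (K * L) →
      Ex (m.W 0) (fun s => gq (terms I c Jv) (hl μ) s ^ 2) ≤
        Real.exp (E * (28 * K ^ 2 * ((4 * W ^ 4) ^ (n + 2) / N) + 1920 * K ^ 2 * W ^ 4 * (3 / 4) ^ n +
          180 * K ^ 3 * ((4 * W ^ 4) ^ (n + 2) / N) ^ 2) +
          32 * |F.τ₂| * K ^ 2 * #(Jv.filter fun j => ¬ j < Nat.log 2 (L / N))) *
        Ex (m.W 0) (gq (terms I c Jv) (hl μ)) ^ 2 := by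
    intro n N hN N0 Λ hΛ L hL hG m U I c Jv μ hm hI hd hJ hμ hK hc hT
    have ok : Λ.Ok := ⟨hΛ.1 ▸ F.adm, F.pos.trans_le hΛ.2.2.1⟩
    have hJ' : ∀ j ∈ Jv, j < c := fun j hj => mem_range.1 (hJ hj)
    have q1 : 2 * (r₀ ^ 2 + 1) ≤ L / N := (Nat.le_div_iff_mul_le N0).2 hL
    have q2 : 2 ^ Nat.log 2 (L / N) ≤ L / N := Nat.pow_log_le_self 2 (by omega)
    have q3 : L / N < 2 ^ (Nat.log 2 (L / N) + 1) := Nat.lt_pow_succ_log_self one_lt_two _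
    have q4 : N * 2 ^ Nat.log 2 (L / N) ≤ L := (Nat.mul_le_mul_left N q2).trans (Nat.mul_div_le L N)
    have K0 : 0 ≤ K := le_trans (by positivity) hK
    have hA : GA Λ (m.W 0) (AddMonoidHom.id _) U U := ga_mdl ok hm ⟨hm.ctr, hm.anch, fun e he =>
      (hm.near.1 e (Or.inl (Lat.mem_edI.1 he).2.1)).2 (Lat.mem_edI.1 he).1, fun e he =>
        hm.near.2.1 e ((hm.near.1 e (Or.inl (Lat.mem_edI.1 he).2.1)).2 (Lat.mem_edI.1 he).1)
          (Or.inl (Lat.mem_edI.1 he).2.1)⟩ subset_rfl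
    have H := hA.sq_le hR hD hS ok hG (c₂ := Nat.log 2 (L / N)) hJ' (fun t ht => by
        obtain ⟨h1, h2, h3⟩ := mem_terms.1 ht
        have h4 := Lat.edI_mono (Λ := Λ) (par_sub_top (a := t.1) (hJ' _ h2) h3)
        exact ((hf_flow hR ok t.1 t.2.1 t.2.2).f2a _).vr_le ok.pos hm.ctr hm.anch
          (h4.trans (hI _ h1).2.2.1) fun e he => (hI _ h1).2.2.2 e (h4 he)) hd hμ (b := K * L)
      (by positivity) (fun r hr => (bad_eq hd U r).trans_le (hT r hr)) n (by rw [pow_succ] at q3; omega)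
      ((Nat.le_div_iff_mul_le (by have := hG.1; omega)).2 (by
        rw [mul_right_comm]; exact (Nat.mul_le_mul_right _ hN).trans q4))
    refine H.trans (mul_le_mul_of_nonneg_right (Real.exp_le_exp.2 ?_) (sq_nonneg _))
    have N0' : (0 : ℝ) < N := by exact_mod_cast N0
    set B : ℝ := (4 * W ^ 4) ^ (n + 2) with hB
    have B0 : 0 ≤ B := by positivity
    have s1 : B * 2 ^ Nat.log 2 (L / N) ≤ B / N * L := by
      have : (N : ℝ) * 2 ^ Nat.log 2 (L / N) ≤ L := by exact_mod_cast q4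
      rw [div_mul_eq_mul_div, le_div_iff₀ N0', mul_assoc, mul_comm _ (N : ℝ)]
      exact mul_le_mul_of_nonneg_left this B0
    have s2 : (#I : ℝ) * ((2 : ℝ) ^ c) ^ 2 ≤ K * L ^ 2 := by
      rwa [← pow_mul, mul_comm c, pow_mul, show (2 : ℝ) ^ 2 = 4 by norm_num]
    have s3 : cU Λ ≤ E := by rw [cU, hE]; gcongr; exact hΛ.2.2.2
    have s4 : Λ.τ ≤ |F.τ₂| := hΛ.2.2.2.trans (le_abs_self _)
    have τ0 := ok.pos.le
    have s5 : μ * (#I * ((2 : ℝ) ^ c) ^ 2) ≤ K ^ 2 :=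
      (mul_le_mul_of_nonneg_left s2 hμ).trans (by nlinarith [mul_le_mul_of_nonneg_left hK K0])
    have s6 : μ * (B * 2 ^ Nat.log 2 (L / N)) ^ 2 ≤ K * (B / N) ^ 2 :=
      calc _ ≤ μ * (B / N * L) ^ 2 := by gcongr
        _ = μ * L ^ 2 * (B / N) ^ 2 := by ring
        _ ≤ _ := by gcongr
    have s7 : μ * (K * L) * (B * 2 ^ Nat.log 2 (L / N)) ≤ K ^ 2 * (B / N) :=
      calc _ ≤ μ * (K * L) * (B / N * L) := by gcongr
        _ = μ * L ^ 2 * (K * (B / N)) := by ring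
        _ ≤ K * (K * (B / N)) := by gcongr
        _ = _ := by ring
    refine add_le_add (mul_le_mul s3 ?_ (by positivity) E0.le) ?_
    · nlinarith [mul_le_mul s5 s6 (by positivity) (by positivity),
        mul_le_mul_of_nonneg_right s5 (show 0 ≤ (W : ℝ) ^ 4 * (3 / 4) ^ n by positivity)]
    · rw [mul_assoc (32 * Λ.τ)]; gcongr
  set N₀ : ℕ := (4 * W ^ 4) ^ (0 + 2) * W + 1 with hN₀
  refine ⟨E * (28 * K ^ 2 * ((4 * W ^ 4) ^ (0 + 2) / N₀) + 1920 * K ^ 2 * W ^ 4 * (3 / 4) ^ 0 +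
    180 * K ^ 3 * ((4 * W ^ 4) ^ (0 + 2) / N₀) ^ 2) + 32 * |F.τ₂| * K ^ 2 * N₀, fun ε hε => ?_⟩
  obtain ⟨n, hn⟩ : ∃ n : ℕ, E * (1920 * K ^ 2 * W ^ 4 * (3 / 4) ^ n) < ε := by
    have := ((tendsto_pow_atTop_nhds_zero_of_lt_one (r := (3 / 4 : ℝ)) (by norm_num)
      (by norm_num)).const_mul (1920 * K ^ 2 * W ^ 4)).const_mul E
    simp only [mul_zero] at this
    exact (this.eventually (gt_mem_nhds hε)).exists
  obtain ⟨N, hN, hN1, hN2⟩ : ∃ N : ℕ, E * (28 * K ^ 2 * ((4 * W ^ 4) ^ (n + 2) / N) +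
      1920 * K ^ 2 * W ^ 4 * (3 / 4) ^ n + 180 * K ^ 3 * ((4 * W ^ 4) ^ (n + 2) / N) ^ 2) < ε ∧
      (4 * W ^ 4) ^ (n + 2) * W ≤ N ∧ N₀ ≤ N := by
    have t := tendsto_const_div_atTop_nhds_zero_nat ((4 * W ^ 4) ^ (n + 2) : ℝ)
    have := (((t.const_mul (28 * K ^ 2)).add_const (1920 * K ^ 2 * W ^ 4 * (3 / 4) ^ n)).add
      ((t.pow 2).const_mul (180 * K ^ 3))).const_mul E
    exact ((this.eventually (gt_mem_nhds (by simpa using hn))).and ((Filter.eventually_ge_atTop _).and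
      (Filter.eventually_ge_atTop _))).exists
  have N0 : 0 < N := by omega
  refine ⟨1 / (2 * N), 2 * (r₀ ^ 2 + 1) * N, by positivity,
    fun Λ hΛ L hL hG m U I c Jv μ hm hI hd hJ hμ hK hcL hc hT => ⟨?_, fun hδ => ?_⟩⟩
  · have hL₀ : 2 * (r₀ ^ 2 + 1) * N₀ ≤ L := (Nat.mul_le_mul_left _ hN2).trans hL
    refine (key 0 N₀ (by omega) (by omega) Λ hΛ L hL₀ hG m U I c Jv μ hm hI hd hJ hμ hK hc hT).trans ?_
    gcongr
    have q3 : L / N₀ < 2 ^ (Nat.log 2 (L / N₀) + 1) := Nat.lt_pow_succ_log_self one_lt_two _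
    rw [Nat.div_lt_iff_lt_mul (by omega)] at q3
    refine (card_le_card (t := Ico (Nat.log 2 (L / N₀)) c) fun j hj => mem_Ico.2
      ⟨not_lt.1 (mem_filter.1 hj).2, mem_range.1 (hJ (mem_filter.1 hj).1)⟩).trans ?_
    rw [Nat.card_Ico]
    by_contra! h
    have h1 : 2 ^ (Nat.log 2 (L / N₀) + 1) * 2 ^ N₀ ≤ 2 ^ c := by
      rw [← pow_add]; exact Nat.pow_le_pow_right two_pos (by omega)
    have h2 := Nat.mul_le_mul_left (2 ^ (Nat.log 2 (L / N₀) + 1)) (Nat.lt_two_pow_self (n := N₀)).le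
    omega
  · refine (key n N hN1 N0 Λ hΛ L hL hG m U I c Jv μ hm hI hd hJ hμ hK hc hT).trans ?_
    rw [filter_eq_empty_iff.2 fun j hj => not_not.2 ?_]
    · gcongr; simpa using hN.le
    · refine Nat.succ_le_iff.1 (Nat.le_log_of_pow_le one_lt_two ((Nat.le_div_iff_mul_le N0).2 ?_))
      have h := hδ j hj
      rw [one_div_mul_eq_div, le_div_iff₀ (by positivity)] at h
      have : ((2 ^ (j + 1) * N : ℕ) : ℝ) ≤ L := by push_cast; rwa [pow_succ, mul_assoc]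
      exact_mod_cast this

end Crest.Agent.T145.Mx
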