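import Crest.Agent.T145.KrDef_77
import Crest.Agent.T145.NcGeo_51
import Crest.Agent.T145.UvE_49
import Crest.Agent.T145.KrQ_75
import Crest.Agent.T145.ExplU_56

-- ▼ part T145/KrUv_49
section

/-!
# Row 145, module Kr: UV for the ring (helper49)
-/

set_option autoImplicit false

namespace Crest.Agent.T145.Kr

open Finset Uv

theorem gq_terms_shift {I U : Finset Pt} {c : ℕ} {Jv : Finset ℕ} (hJ : ∀ j ∈ Jv, j < c)
    (hI : ∀ a ∈ I, sq a (2 ^ c) ⊆ U) (μ : ℝ) : DepG U (gq (terms I c Jv) (hl μ)) := fun s s' k h => by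
  unfold gq
  rw [sum_congr rfl fun t ht => ?_]
  obtain ⟨h1, h2, h3⟩ := mem_terms.1 ht
  have hs := (par_sub_top (a := t.1) (hJ _ h2) h3).trans (hI _ h1)
  simp only [hl, AddMonoidHom.smul_apply,
    depG_pr (fun x hx => hf_off fun h => hx (hs h)) (sum_hf hs) s s' k h]

theorem uvRStmt (hU : Mx.UvStmt) (hG : Mx.GdStmt) (hA : AlgStmt) : UvRStmt := by
  intro F θ₀ W K ε a hθ hK hε
  obtain ⟨W', r₀, δ₁, hδ₁, h1⟩ := hG F θ₀ hθ
  obtain ⟨C, h2⟩ := hU F W' r₀ (24 + 4 ^ a * (64 * K) ^ 2)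
  obtain ⟨δ₂, L₀, hδ₂, h3⟩ := h2 (Real.log (1 + ε)) (Real.log_pos (by linarith))
  obtain ⟨b₀, hb₀⟩ := exists_pow_lt_of_lt_one hδ₂ (show (1 / 2 : ℝ) < 1 by norm_num)
  refine ⟨b₀, fun b hb => ?_⟩
  set N : ℝ := L₀ + 64 * K * (2 ^ (a + b) + 4 * r₀) with hN
  have N0 : 0 < N := by positivity
  refine ⟨min δ₁ (min 1 N⁻¹), by positivity, fun Λ hΛ l L hw G ok at' => ?_⟩
  have hΛ' := hΛ.ok
  have al := hA G W ok
  have hNL : N ≤ L := (hw.2.1.le_l ((mul_le_mul_of_nonneg_left ((min_le_right _ _).trans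
    (min_le_right _ _)) N0.le).trans_eq (mul_inv_cancel₀ N0.ne'))).trans
    (by exact_mod_cast hw.2.1.le ((min_le_right _ _).trans (min_le_left _ _)))
  have gd := h1 Λ hΛ l L (hw.mono le_rfl (min_le_left _ _))
  have e1 : (L : ℝ) ≤ 64 * K * G.rho := at'.2.trans (by
    have : (G.R : ℝ) ≤ 64 * G.rho := by exact_mod_cast al.le_rho
    nlinarith)
  have e2 : 2 ^ (a + b) + 4 * r₀ ≤ G.rho := by
    have : 64 * K * (2 ^ (a + b) + 4 * r₀) ≤ 64 * K * G.rho := by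
      have : (0 : ℝ) ≤ L₀ := by positivity
      linarith
    exact_mod_cast le_of_mul_le_mul_left this (by positivity)
  have e3 : a + b ≤ G.p := (Nat.pow_le_pow_iff_right one_lt_two).1 (le_trans (by omega) e2)
  have e4 := gd.2.1
  have e11 : 4 * r₀ ≤ G.rho := le_trans (Nat.le_add_left _ _) e2
  have e5 := al.r_le
  have e6 := al.rho_le
  have e7 := ok.hc
  have e8 := ok.out
  have e9 := at'.1
  have e10 := ok.hr
  have r0 : (0 : ℝ) < G.rho := by exact_mod_cast (by omega : 0 < G.rho)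
  have rL : (G.rho : ℝ) ≤ L := by exact_mod_cast (by omega : G.rho ≤ L)
  obtain ⟨c1, c2, c3⟩ := al.cells (G.p - (a + b)) (Nat.sub_le _ _)
  have sGa : G.Ga ⊆ G.Om := al.Ga_sub.trans (Nc.Geo.an_mono 0 (by omega) (by omega))
  have hI : ∀ i ∈ G.cor (G.p - (a + b)), sq i (2 ^ (G.p - (a + b))) ⊆ G.Om := fun i hi =>
    (c1 ▸ subset_biUnion_of_mem _ hi).trans sGa
  have hr : ((G.R₂, G.R₂) : Pt) ∈ G.Om := by
    simp only [Gm.Om, Nc.Geo.mem_an, mem_bl, Prod.fst_zero, Prod.snd_zero]; omega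
  have an : (Λ.Nr G.Om (G.R₂, G.R₂)).Anch := fun x hx =>
    ⟨_, Nc.Geo.cnL_an hΛ' 0 (by omega) x (mem_of_mem_erase hx) _ hr, Or.inl (notMem_erase _ _)⟩
  have dep := gq_terms_shift (fun j hj => mem_range.1 hj) hI (G.ms a)
  refine ⟨e3, ?_⟩
  have H := (h3 Λ hΛ L (by
      have : (0 : ℝ) ≤ 64 * K * (2 ^ (a + b) + 4 * r₀) := by positivity
      exact_mod_cast (show (L₀ : ℝ) ≤ L by linarith)) gd (Λ.Nr G.Om (G.R₂, G.R₂))
    (Nc.an 0 (G.rho / 2) (4 * G.rho)) (G.cor (G.p - (a + b))) (G.p - (a + b)) (range (G.p - (a + b)))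
    (G.ms a) ⟨hΛ'.ctr_Nr _ _, an, fun x hx => mem_erase.2 ⟨?_, Nc.Geo.an_mono 0 (by omega) (by omega) hx⟩,
      Lat.near_Nr (Lat.edT_subset_edI fun x hx y hy => ?_) _⟩
    (fun i hi => ⟨hΛ'.ctr_Nr _ _, an, Lat.edI_mono (hI i hi), fun _ _ => rfl⟩)
    (fun i hi j hj h => c2 hi hj h) subset_rfl (sq_nonneg _) ?_ ?_ ?_ fun ρ hρ => ?_).2 fun j hj => ?_
  · rw [Real.exp_log (by linarith)] at H
    rw [← (Nc.Geo.inL_N subset_rfl).nE_Nr hr ((dep.comp fun t => t ^ 2).shift subset_rfl),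
      ← (Nc.Geo.inL_N subset_rfl).nE_Nr hr (dep.shift subset_rfl)] at H
    exact H
  · rintro rfl
    simp only [Nc.Geo.mem_an, mem_bl, Prod.fst_zero, Prod.snd_zero] at hx; omega
  · simp only [Gm.Om, Nc.Geo.mem_an, mem_bl, Prod.fst_zero, Prod.snd_zero] at hx hy ⊢; omega
  · have : G.ms a * (L : ℝ) ^ 2 ≤ G.ms a * (64 * K * G.rho) ^ 2 :=
      mul_le_mul_of_nonneg_left (pow_le_pow_left₀ (by positivity) e1 2) (sq_nonneg _)
    have e : G.ms a * (64 * K * G.rho) ^ 2 = 4 ^ a * (64 * K) ^ 2 := by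
      rw [Gm.ms, div_pow, ← pow_mul, mul_comm a, pow_mul]; field_simp; norm_num
    linarith
  · exact (Nat.pow_le_pow_right two_pos (Nat.sub_le _ _)).trans (by change G.rho ≤ L; omega)
  · have e : (G.rho : ℝ) ^ 2 = 4 ^ (G.p - (G.p - (a + b))) * 4 ^ (G.p - (a + b)) := by
      rw [← pow_add, Nat.sub_add_cancel (Nat.sub_le _ _), Gm.rho]; push_cast
      rw [← pow_mul, mul_comm, pow_mul]; norm_num
    have : (0 : ℝ) ≤ 4 ^ a * (64 * K) ^ 2 * (L : ℝ) ^ 2 := by positivity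
    rw [c3]; push_cast
    nlinarith [pow_le_pow_left₀ r0.le rL 2]
  · rw [c1]
    by_cases h : 2 * ρ < G.rho
    · have : (G.Ga.filter fun x => ¬ bl x ρ ⊆ Nc.an 0 (G.rho / 2) (4 * G.rho)) = ∅ :=
        filter_eq_empty_iff.2 fun x hx => not_not.2 fun y hy => by
          have := al.Ga_sub hx
          simp only [Nc.Geo.mem_an, mem_bl, Prod.fst_zero, Prod.snd_zero] at this hy ⊢; omega
      rw [this]
      simp only [card_empty, Nat.cast_zero]; positivity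
    · have h4 : (G.rho : ℝ) ≤ 2 * ρ := by exact_mod_cast not_lt.1 h
      have h5 : (#(G.Ga.filter fun x => ¬ bl x ρ ⊆ Nc.an 0 (G.rho / 2) (4 * G.rho)) : ℝ) ≤ 12 * G.rho ^ 2 := by
        exact_mod_cast (card_filter_le _ _).trans_eq al.card_Ga
      have : (0 : ℝ) ≤ 4 ^ a * (64 * K) ^ 2 * L * ρ := by positivity
      nlinarith [mul_le_mul rL h4 r0.le (by positivity)]
  · have h4 : (2 : ℝ) ^ j * 2 ^ b₀ ≤ G.rho := by
      rw [← pow_add, Gm.rho]; push_cast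
      exact pow_le_pow_right₀ one_le_two (by have := mem_range.1 hj; omega)
    rw [one_div, inv_pow, inv_lt_iff_one_lt_mul₀ (by positivity)] at hb₀
    nlinarith [mul_le_mul_of_nonneg_left (h4.trans rL) hδ₂.le,
      mul_le_mul_of_nonneg_left hb₀.le (show (0 : ℝ) ≤ 2 ^ j by positivity)]

end Crest.Agent.T145.Kr
end

-- ▼ part T145/KrR_49

/-!
# Row 145, module Kr: (R), the ring weight level by level (helper49)
-/

set_option autoImplicit false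

namespace Crest.Agent.T145.Kr.R49

open Finset Matrix Kq75 Kw56

variable {Λ : Lat} {G : Gm} {W : ℝ}

/-- the data as a homomorphism -/
noncomputable def dH (G : Gm) : Cfg Pt →+ Cfg Pt × Cfg Pt := (resH G.In).prod (resH G.Ou)

theorem dH_apply (s : Cfg Pt) : dH G s = G.dat s := rfl

/-- the tent at level `j` -/
noncomputable def lv (G : Gm) (j : ℤ) (q : Cfg Pt × Cfg Pt) : ℝ := KrA.tw (pr G.eq q.1 - j)

/-- the range is small -/
structure Sm (Λ : Lat) (G : Gm) : Prop where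
  ok : Λ.Ok
  c : G.c + Λ.rg ≤ G.r
  r : G.r < G.R
  R : G.R + Λ.rg ≤ G.R₂

theorem Sm.rg (h : Sm Λ G) : 1 ≤ Λ.rg := h.ok.one_le_rg

theorem Sm.A_sub (h : Sm Λ G) : G.A ⊆ G.Om :=
  Nc.Geo.an_mono 0 (by have := h.c; omega) (by have := h.R; omega)

theorem Sm.In_sub (h : Sm Λ G) : G.In ⊆ G.Om :=
  Nc.Geo.an_mono 0 le_rfl (by have := h.R; have := h.r; omega)

theorem Sm.nb (h : Sm Λ G) {x : Pt} (hx : x ∈ G.A) : bl x Λ.rg ⊆ G.Om := fun y hy => by
  have := h.c; have := h.R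
  simp only [Gm.Om, Gm.A, Nc.Geo.mem_an, mem_bl, Prod.fst_zero, Prod.snd_zero] at *; omega

theorem Sm.edT (h : Sm Λ G) : Λ.edT G.A ⊆ Λ.edI G.Om := Lat.edT_subset_edI fun _ hx => h.nb hx

theorem Sm.edTn (h : Sm Λ G) : Pot.nL.edT G.A ⊆ Pot.nL.edI G.Om :=
  Lat.edT_subset_edI fun x hx => (bl_mono x ((xyL_rg 1).trans_le h.rg)).trans (h.nb hx)

/-- the root -/
def rt (G : Gm) : Pt := (G.R₂, G.R₂)

theorem Sm.rt_mem (h : Sm Λ G) : rt G ∈ G.Om := by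
  have := h.c; have := h.R; have := h.r
  simp only [rt, Gm.Om, Nc.Geo.mem_an, mem_bl, Prod.fst_zero, Prod.snd_zero]; omega

theorem Sm.rt_not (h : Sm Λ G) : rt G ∉ G.A := by
  have := h.rg; have := h.R
  simp only [rt, Gm.A, Nc.Geo.mem_an, mem_bl, Prod.fst_zero, Prod.snd_zero]; omega

theorem Sm.anch (h : Sm Λ G) : (Λ.Nr G.Om (rt G)).Anch := Lat.anch_Nr fun x hx =>
  Nc.Geo.cnL_an h.ok 0 (by have := h.c; have := h.R; have := h.r; omega) x hx _ h.rt_mem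

theorem Sm.cen (h : Sm Λ G) : Cen ((Λ.Nr G.Om (rt G)).W 0) := (h.ok.ctr_Nr _ _).cen h.anch

theorem Sm.fib (h : Sm Λ G) {t : Cfg Pt} (ht : ∀ x, x ∉ G.Om → t x = 0) :
    Pp (fib ((Λ.N G.Om).W 0) (dH G) (dH G t)) ((Λ.D G.A).W t) := by
  refine (Pp.of_eq fun s => ?_).trans ((Lat.near_N h.edT).pp h.ok (h.ok.ctr_N _).1 t)
  have e := Md.W_free (m := Λ.N G.Om) h.A_sub (η := 0) ht s
  simp only [Lat.N, prod_const_one, one_mul] at e
  refine Eq.trans ?_ e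
  by_cases hs : (Λ.N G.Om).W 0 s = 0
  · exact (mul_eq_zero_of_right _ hs).trans (mul_eq_zero_of_right _ hs).symm
  · refine congrArg (· * _) (ind_congr ⟨fun e x hx => ?_, fun e => ?_⟩)
    · by_cases hO : x ∈ G.Om
      · have e1 := DFunLike.congr_fun (congrArg Prod.fst e) x
        have e2 := DFunLike.congr_fun (congrArg Prod.snd e) x
        simp only [dH_apply, Gm.dat, resH_apply] at e1 e2
        by_cases hI : x ∈ G.In
        · simpa only [if_pos hI] using e1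
        · have : x ∈ G.Ou := by
            simp only [Gm.Om, Gm.A, Gm.In, Gm.Ou, Nc.Geo.mem_an] at *; tauto
          simpa only [if_pos this] using e2
      · exact (Md.W_off hs x hO).trans (ht x hO).symm
    · have := h.r
      refine Prod.ext (Finsupp.ext fun x => ?_) (Finsupp.ext fun x => ?_) <;>
        simp only [dH_apply, Gm.dat, resH_apply] <;> split_ifs with hx <;> try rfl
      all_goals refine e x fun hA => ?_
      · exact (Nc.Geo.mem_an.1 hA).2 (Nc.Geo.mem_an.1 hx).1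
      · exact (Nc.Geo.mem_an.1 hx).2 (Nc.Geo.mem_an.1 hA).1

theorem Sm.summ (h : Sm Λ G) (q : Cfg Pt × Cfg Pt) : Summable (Kq75.fib ((Λ.N G.Om).W 0) (dH G) q) := by
  by_cases hq : ∃ t : Cfg Pt, (∀ x, x ∉ G.Om → t x = 0) ∧ dH G t = q
  · obtain ⟨t, ht, rfl⟩ := hq
    exact ((h.fib ht).wt ((h.ok.ctr_D _).wt (h.ok.anch_D _) t)).summ
  · refine summable_zero.congr fun s => ?_
    by_cases hs : (Λ.N G.Om).W 0 s = 0
    · exact (mul_eq_zero_of_right _ hs).symm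
    · exact (mul_eq_zero_of_left (ind_neg fun e => hq ⟨s, Md.W_off hs, e⟩) _).symm

theorem Sm.root (h : Sm Λ G) (al : G.Alg) (j : ℤ) :
    Fb ((Λ.N G.Om).W 0) (dH G) (lv G j) ∧ Zs (amb ((Λ.N G.Om).W 0) (dH G) (lv G j)) = G.Z Λ ∧
      ∀ F : Cfg Pt → ℝ, DepG G.Om F → (∀ s, |F s| ≤ 1) →
        Ex (amb ((Λ.N G.Om).W 0) (dH G) (lv G j)) F = Ex ((Λ.Nr G.Om (rt G)).W 0) F ∧
          G.EA Λ F = Ex ((Λ.Nr G.Om (rt G)).W 0) F := by
  obtain ⟨⟨h1, h2⟩, h3⟩ := X56.rootU (Λ.N G.Om) (rt G) (fun s => lv G j (dH G s)) h.rt_mem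
    (fun _ he => (Lat.mem_edI.1 he).2) (fun _ _ => rfl) (fun _ => KrA.tw_nonneg _) (fun s => by
      refine hs_congr (KrA.hasSum_tw (pr G.eq (resH G.In s) - j)) (fun k => ?_) rfl
      have e : resH G.In (s + cst G.Om k) = resH G.In s + cst G.In k := Finsupp.ext fun x => by
        simp only [resH_apply, Finsupp.add_apply]
        split_ifs with hx
        · rw [Md.cst_mem hx, Md.cst_mem (h.In_sub hx)]
        · rw [Md.cst_not hx, add_zero]
      change KrA.tw (pr G.eq (resH G.In (s + cst G.Om k)) - j) = _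
      rw [e, map_add, pr_cst, al.eq_sum]; congr 1; ring) h.cen.wt
  refine ⟨⟨(h.ok.ctr_N _).rsd, Md.W_pos (h.ok.ctr_N _).1 (fun _ _ => rfl) fun _ _ => one_pos, h.summ,
    fun _ => KrA.tw_nonneg _, h1⟩, h2.trans ?_, fun F hF hb =>
    ⟨(h3 F (hF.shift subset_rfl) (h.cen.wt.ig_bdd hb)).2,
      (Nc.Geo.inL_N subset_rfl).nE_Nr h.rt_mem (hF.shift subset_rfl)⟩⟩
  rw [Gm.Z, (Nc.root_all h.rt_mem (F := fun _ => 0) fun _ _ => rfl).1,
    (Nc.Geo.inL_N subset_rfl).pn_W, sdiff_singleton_eq_erase]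
  rfl

theorem xg_sum (hS : SwStmt) {ι : Type} (T : Finset ι) (D : Finset Pt) (t : ι → ℝ) (f : ι → Pt → ℝ) :
    ∑ i ∈ T, t i • pr (xg D (f i)) = pr (xg D (∑ i ∈ T, t i • f i)) := by
  classical
  induction T using Finset.induction_on with
  | empty =>
    have := ((hS D 0).2.2.2.2.1 0 0).2
    rw [zero_smul, zero_smul] at this
    rw [sum_empty, sum_empty, this]
    exact AddMonoidHom.ext fun s => by simp
  | insert a T ha ih =>
    rw [sum_insert ha, sum_insert ha, ih, ((hS D _).2.2.2.2.1 _ 0).1, ((hS D _).2.2.2.2.1 0 _).2, pr_add,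
      pr_smul]

theorem unC_eq (a : Pt) (q : ℕ) : unC (sq a (2 ^ q)) = Uv.ua a (2 ^ q) := funext fun x => by
  simp only [unC, Uv.ua, ind_eq_ite, card_sq]
  split_ifs <;> simp

/-- the cell averages split into a fluctuation and the harmonic part -/
theorem cY_eq (hS : SwStmt) (al : G.Alg) {q : ℕ} (hc : ∀ i, G.cel q i ⊆ G.A) (s : Cfg Pt) :
    cY (dH G) (fun i => pr (xg G.A (unC (G.cel q i))))
      (fun z i => avL (G.cel q i) (G.ma z.1 + G.mb z.2)) s = fun i => pr (unC (G.cel q i)) s := by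
  funext i
  have h1 := (hS G.A (unC (G.cel q i))).2.2.2.1 (fun x hx => if_neg fun h => hx (hc i h)) s
  have sA : G.A ⊆ bl 0 G.R := Nc.Geo.an_subset_bl _ _ _
  have h2 : Pot.hx G.A (Pot.eD Pot.nL G.A) (cu s) = Pot.hx G.A G.B (cu s) :=
    (Pot.co_eD Pot.nL_ok _).hx_unique (fun x hx => al.coA.hx_off _ hx)
      ((Pot.hm_eD Pot.nL_ok subset_rfl).2 ((Pot.hm_eD Pot.nL_ok sA).1 (al.coA.hx_hm _)))
  have h3 : ip G.A (unC (G.cel q i)) (Pot.hx G.A G.B (cu s)) =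
      avL (G.cel q i) (G.ma (G.dat s).1 + G.mb (G.dat s).2) := by
    rw [← ip_unC (hc i)]
    exact sum_congr rfl fun x hx => by rw [al.hx_dat s x hx]
  rw [h2, h3, sw, pr_sub, AddMonoidHom.sub_apply] at h1
  simp only [cY, dH_apply, ← h1]; ring

/-- the screened weight -/
theorem mm_W (Λ : Lat) (al : G.Alg) {a b : ℕ} (sG : G.Ga ⊆ G.Om) (s : Cfg Pt) :
    (G.mm Λ a).W 0 s = (Λ.N G.Om).W 0 s * (Gs.gw (msM (G.cel (G.p - (a + b))) (G.ms a))
      (fun i => pr (unC (G.cel (G.p - (a + b)) i)) s) * G.hi a b s) := by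
  set q := G.p - (a + b)
  obtain ⟨c1, c2, -⟩ := al.cells q (Nat.sub_le _ _)
  have H := Uv.haar (μ := G.ms a) (sq_nonneg _) (G.cor q) q s 0
  rw [← sum_biUnion c2, c1] at H
  simp only [add_zero] at H
  have e1 : (fun i => pr (unC (G.cel q i)) s) ⬝ᵥ msM (G.cel q) (G.ms a) *ᵥ
      (fun i => pr (unC (G.cel q i)) s) =
      G.ms a * ((2 : ℝ) ^ q) ^ 2 * ∑ i ∈ G.cor q, pr (Uv.ua i (2 ^ q)) s ^ 2 := by
    rw [← sum_coe_sort (G.cor q), mul_sum]
    simp only [dotProduct, msM, mulVec_diagonal, Gm.cel, unC_eq, card_sq]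
    exact sum_congr rfl fun i _ => by push_cast; ring
  have e2 : ∏ x ∈ G.Om, (if x ∈ G.Ga then gau (G.ms a)⁻¹ (s x) else 1) =
      Real.exp (-(G.ms a * ∑ x ∈ G.Ga, (s x : ℝ) ^ 2) / 2) := by
    rw [← prod_filter, filter_mem_eq_inter, inter_eq_right.2 sG, mul_sum, ← sum_neg_distrib, sum_div,
      Real.exp_sum]
    exact prod_congr rfl fun x _ => by
      rw [gau]; congr 1; rw [div_eq_mul_inv, mul_inv, inv_inv]; ring
  rw [Gs.gw, e1, Gm.hi, gq, ← Real.exp_add, ← add_div, ← neg_add, ← H, ← e2]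
  simp only [Gm.mm, Mdl.W, Mdl.mulSite, Lat.N, one_mul, prod_const_one, mul_one]

theorem abs_cells {q : ℕ} (hd : (G.cor q : Set Pt).PairwiseDisjoint fun i => sq i (2 ^ q))
    {t : G.cor q → ℝ} {T : ℝ} (hT : ‖t‖ ≤ T) (x : Pt) :
    |(∑ i, t i • unC (G.cel q i)) x| ≤ T / ((2 : ℝ) ^ q) ^ 2 := by
  have T0 : 0 ≤ T := (norm_nonneg _).trans hT
  rw [Finset.sum_apply]
  by_cases hx : ∃ i, x ∈ G.cel q i
  · obtain ⟨i, hi⟩ := hx
    rw [sum_eq_single i (fun j _ hj => ?_) fun h => absurd (mem_univ i) h]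
    · simp only [Pi.smul_apply, unC, if_pos hi, smul_eq_mul]
      rw [Gm.cel, card_sq, abs_mul, abs_of_nonneg (a := _⁻¹) (by positivity), div_eq_mul_inv]
      push_cast
      exact mul_le_mul_of_nonneg_right ((norm_le_pi_norm t i).trans hT) (by positivity)
    · have : x ∉ G.cel q j := fun h => disjoint_left.1 (hd j.2 i.2 fun e => hj (Subtype.ext e)) h hi
      simp only [Pi.smul_apply, unC, if_neg this, smul_zero]
  · rw [sum_eq_zero fun i _ => by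
      simp only [Pi.smul_apply, unC, if_neg fun h => hx ⟨i, h⟩, smul_zero], abs_zero]
    positivity

/-- (Q) for the cells -/
theorem qh (hS : SwStmt) (h : Sm Λ G) (al : G.Alg) {q : ℕ} {g T ε : ℝ} (j : ℤ)
    (H : ∀ t : G.cor q → ℝ, ‖t‖ ≤ T → ∀ m : Mdl Pt, m.Ctr → m.Anch → Λ.edT G.A ⊆ m.ed →
      (∀ e ∈ Λ.edT G.A, m.w e = Λ.w) → Loc ((Λ.D G.A).W 0) (m.W 0) →
      Gs3 (m.W 0) (pr (xg G.A (∑ i, t i • unC (G.cel q i))))
        (g * Pot.GD Pot.nL G.A (∑ i, t i • unC (G.cel q i)) (∑ i, t i • unC (G.cel q i))) (ε ^ 2)) :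
    QH ((Λ.N G.Om).W 0) (dH G) (lv G j) (fun i => pr (xg G.A (unC (G.cel q i))))
      (sgM G.A g⁻¹ (Pot.nL.edT (bl 0 G.R)) (G.cel q)) T ε := by
  have e : ∀ t : G.cor q → ℝ, t ⬝ᵥ sgM G.A g⁻¹ (Pot.nL.edT (bl 0 G.R)) (G.cel q) *ᵥ t =
      g * Pot.GD Pot.nL G.A (∑ i, t i • unC (G.cel q i)) (∑ i, t i • unC (G.cel q i)) := fun t => by
    rw [sgM_quad al.coA, inv_inv]
    exact congrArg _ (Pot.G_eD Pot.nL_ok (Nc.Geo.an_subset_bl 0 G.r G.R) _ _)
  refine ⟨fun t ht => ?_, fun t ht => ?_⟩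
  · have h1 := (h.fib (t := 0) fun _ _ => rfl).Ph
    rw [map_zero] at h1
    rw [h1, e, xg_sum hS]
    linarith [(abs_le.1 (H t ht (Λ.D G.A) (h.ok.ctr_D _) (h.ok.anch_D _) subset_rfl (fun _ _ => rfl)
      (h.ok.loc_D_D subset_rfl)).2.2).2]
  · obtain ⟨s1, s2, -⟩ := (hS G.A (∑ i, t i • unC (G.cel q i))).2.2.1 G.Om h.edTn h.A_sub
    rw [e, xg_sum hS, ((h.root al j).2.2 _ ((Uv.depG_pr s1 s2).comp Real.cos)
      fun s => Real.abs_cos_le_one _).1]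
    have := (abs_le.1 (H t ht (Λ.Nr G.Om (rt G)) (h.ok.ctr_Nr _ _) h.anch h.edT (fun _ _ => rfl)
      ((Lat.near_Nr h.edT _).loc h.ok (h.ok.ctr_Nr _ _) h.anch fun x hx =>
        mem_erase.2 ⟨fun e => h.rt_not (e ▸ hx), h.A_sub hx⟩)).2.2).1
    unfold Ph at this
    linarith

end Crest.Agent.T145.Kr.R49

namespace Crest.Agent.T145.Kr

open Finset Matrix Kq75 Kw56 R49

set_option maxHeartbeats 1000000 in
theorem rStmt (hQ : GffAStmt) (hS : SwStmt) (hU : UvRStmt) (hT : TrStmt) (hA : AlgStmt)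
    (ha : T1aStmt) (hm : T1mStmt) : RStmt := by
  intro F θ₀ W K ε a hθ hK hε
  obtain ⟨C, hC⟩ := hT F.τ₂
  obtain ⟨C₁, ha⟩ := ha F
  set χ : ℝ := ε / (4 * Real.exp (|C| * 16 ^ a / 4)) with hχ
  have χ0 : 0 < χ := by positivity
  obtain ⟨b, hb⟩ := hU F θ₀ W K (χ ^ 2) a hθ hK (by positivity)
  obtain ⟨δ₁, hδ₁, h1⟩ := hb b le_rfl
  obtain ⟨T, ε₁, T0, e0, -, h2⟩ := rd_soft (12 * 4 ^ (a + b)) (K := 1 + |C| * 4 ^ a * (1 + a + b))
    (η := min 1 (ε / 2)) (by positivity) (by positivity) (min_le_left _ _)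
  have K1 : 1 ≤ 1 + 2 * K * |W| + T * 4 ^ (a + b) * (64 * K) ^ 2 := by
    have : 0 ≤ 2 * K * |W| + T * 4 ^ (a + b) * (64 * K) ^ 2 := by positivity
    linarith
  obtain ⟨δ₂, hδ₂, h3⟩ := hQ F θ₀ _ (ε₁ ^ 2) hθ K1 (by positivity)
  obtain ⟨δ₃, hδ₃, h4⟩ := hm.2.2 F θ₀ 1 0 hθ one_pos
  set N : ℝ := 1 + 4 * K * |W| * F.base.rg with hN
  have N0 : 0 < N := by positivity
  refine ⟨b, min (min δ₁ δ₂) (min δ₃ (min 1 N⁻¹)), by positivity, fun Λ hΛ l L hw G ok at' => ?_⟩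
  have al := hA G W ok
  obtain ⟨hp, uv⟩ := h1 Λ hΛ l L (hw.mono le_rfl ((min_le_left _ _).trans (min_le_left _ _))) G ok at'
  have gff := h3 Λ hΛ l L (hw.mono le_rfl ((min_le_left _ _).trans (min_le_right _ _)))
  have t0 := (h4 Λ hΛ l L (hw.mono le_rfl ((min_le_right _ _).trans (min_le_left _ _)))).2.1
  have m1 : min (min δ₁ δ₂) (min δ₃ (min 1 N⁻¹)) ≤ min 1 N⁻¹ := (min_le_right _ _).trans (min_le_right _ _)
  have hNL : N ≤ L := (hw.2.1.le_l ((mul_le_mul_of_nonneg_left (m1.trans (min_le_right _ _)) N0.le).trans_eq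
    (mul_inv_cancel₀ N0.ne'))).trans (by exact_mod_cast hw.2.1.le (m1.trans (min_le_left _ _)))
  have W0 : 0 < W := lt_of_lt_of_le (by norm_num) ok.hW
  have hLr : (L : ℝ) ≤ 2 * K * |W| * G.r := at'.2.trans (by
    rw [abs_of_pos W0]; nlinarith [mul_le_mul_of_nonneg_left ok.hi (zero_le_one.trans hK)])
  have hrg : 2 * Λ.rg ≤ G.r := by
    have : 2 * K * |W| * (2 * F.base.rg) ≤ 2 * K * |W| * G.r := by linarith
    rw [hΛ.rg_eq]; exact_mod_cast le_of_mul_le_mul_left this (by rw [abs_of_pos W0]; positivity)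
  have e5 := al.r_le
  have e6 := al.rho_le
  have e7 := ok.hc
  have e8 := ok.out
  have e10 := ok.hr
  have sm : Sm Λ G := ⟨hΛ.ok, by omega, by omega, by omega⟩
  have g0 : 0 < Λ.gN l := div_pos (by linarith) hΛ.e0_pos
  have g1 : Λ.gN l ≤ F.τ₂ := (div_le_div_of_nonneg_right (ha Λ hΛ l hw.2.1.one_le_l).2.1
    hΛ.e0_pos.le).trans hΛ.inv_e0_le
  obtain ⟨tr2, tr1⟩ := hC _ g0 g1 G W ok a b hp
  set q := G.p - (a + b) with hq
  obtain ⟨c1, c2, c3⟩ := al.cells q (Nat.sub_le _ _)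
  have sA : G.Ga ⊆ G.A := al.Ga_sub.trans (Nc.Geo.an_mono 0 (by omega) (by omega))
  have hc : ∀ i, G.cel q i ⊆ G.A := fun i => (c1 ▸ subset_biUnion_of_mem _ i.2).trans sA
  have er : (G.rho : ℝ) = 2 ^ (a + b) * 2 ^ q := by
    rw [← pow_add, hq, Nat.add_sub_cancel' hp, Gm.rho]; push_cast; rfl
  have hB := msM_psd (G.cel q) (κ := G.ms a) (sq_nonneg _)
  have hV := sgM_psd (ed := Pot.nL.edT (bl 0 G.R)) al.coA (inv_pos.2 g0).le (G.cel q)
  have H0 : ∀ s, 0 < G.hi a b s := fun s => gq_pos _ _ s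
  have H1 : ∀ s, G.hi a b s ≤ 1 := fun s => gq_le_one _ _ s
  have b1 : ∀ s, |G.hi a b s| ≤ 1 := fun s => by rw [abs_of_pos (H0 s)]; exact H1 s
  have dep : DepG G.Om (G.hi a b) := gq_terms_shift (fun j hj => mem_range.1 hj)
    (fun i hi => (hc ⟨i, hi⟩).trans sm.A_sub) _
  have eH : ∀ j, Ex (amb ((Λ.N G.Om).W 0) (R49.dH G) (lv G j)) (G.hi a b) = G.EA Λ (G.hi a b) := fun j =>
    ((sm.root al j).2.2 _ dep b1).1.trans ((sm.root al j).2.2 _ dep b1).2.symm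
  have Z0 : 0 < G.Z Λ := (sm.root al 0).2.1 ▸ (sm.root al 0).1.wt.pos
  have E0 : 0 < G.EA Λ (G.hi a b) := eH 0 ▸ (sm.root al 0).1.wt.ex_pos' ((sm.root al 0).1.wt.ig_bdd b1) H0
  have c0p := mul_pos E0 (c0_pos hB hV)
  refine ⟨hp, _, mul_pos Z0 c0p, fun j S => ?_⟩
  obtain ⟨fb, eZ, eF⟩ := sm.root al j
  have b2 : ∀ s, |G.hi a b s ^ 2| ≤ 1 := fun s => by
    rw [abs_pow]; exact pow_le_one₀ (abs_nonneg _) (b1 s)
  have rd := h2 _ _ _ _ _ _ _ _ _ (G.hi a b) χ (|C| * 16 ^ a) fb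
    (qh hS sm al (g := Λ.gN l) j fun t ht => (gff G.A _ ⟨0, G.r, ?_, ?_, Pot.ext_an 0 G.r G.R⟩
      fun x _ => (abs_cells c2 ht x).trans ?_).2) hB hV ?_ (fun i => ?_) (tr1.trans ?_)
    (tr2.trans (mul_le_mul_of_nonneg_right (le_abs_self C) (by positivity))) (by positivity)
    (fun s => (H0 s).le) H1 χ0.le (by
      rw [eH, (eF _ (dep.comp fun t => t ^ 2) b2).1, ← (eF _ (dep.comp fun t => t ^ 2) b2).2]; exact uv)
  · obtain ⟨s1, s2⟩ := fb.l1_of_dual (r := fun z => Gs.gw (Gs.tl _ _)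
      fun i => avL (G.cel q i) (G.ma z.1 + G.mb z.2)) (fun s => Gs.abs_mul_le_one (by
        rw [abs_of_pos (Gs.gw_pos _ _)]; exact Gs.gw_le_one hB _) (b1 s)) (fun z => by
        rw [abs_of_pos (Gs.gw_pos _ _)]; exact Gs.gw_le_one (Gs.tl_psd hB hV) _)
      (rd fun z i => avL (G.cel q i) (G.ma z.1 + G.mb z.2))
    have s3 := (s1.sum_le_tsum S fun z _ => mul_nonneg (fb.U0 z) (abs_nonneg _)).trans s2
    simp only [cY_eq hS al hc, eH, eZ] at s3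
    have s4 : min 1 (ε / 2) + 2 * χ * Real.exp (|C| * 16 ^ a / 4) ≤ ε := by
      have : 2 * χ * Real.exp (|C| * 16 ^ a / 4) = ε / 2 := by rw [hχ]; field_simp; norm_num
      linarith [min_le_right 1 (ε / 2)]
    refine le_of_mul_le_mul_left ?_ (mul_pos Z0 c0p)
    rw [mul_sum]
    refine (le_of_eq (sum_congr rfl fun z _ => ?_)).trans (s3.trans ?_)
    · rw [mul_left_comm, ← abs_of_pos (mul_pos Z0 c0p), ← abs_mul, abs_of_pos (mul_pos Z0 c0p), mul_sub,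
        mul_div_cancel₀ _ (mul_pos Z0 c0p).ne', mum_eq_push, Gm.nuM, funext (mm_W Λ al (sA.trans sm.A_sub)),
        Gm.Bz, Gm.Bq, rgB_eq_tl (κ := G.ms a) al.coA (inv_pos.2 g0) (sq_nonneg _) hc
          (Hm.add' (al.ma_hm _) (al.mb_hm _)) (Hm.add' (al.ma_hm _) (al.mb_hm _)), Gm.nu]
      have fin : ∀ Z E p w : ℝ, Z ≠ 0 → Z * E * (p / Z * w) = E * (p * w) := fun Z E p w hZ => by
        field_simp
      rw [fin _ _ _ _ Z0.ne']
      rfl
    · rw [mul_assoc (G.Z Λ)]; gcongr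
  · refine (Nc.Geo.an_subset_bl _ _ _).trans (bl_mono _ (at'.1.trans (Nat.le_floor ?_)))
    exact le_mul_of_one_le_left (by positivity) K1
  · have : 0 ≤ (1 + T * 4 ^ (a + b) * (64 * K) ^ 2) * G.r := by positivity
    linarith
  · have L0 := hw.2.1.L_pos'
    have e1 : (L : ℝ) ≤ 64 * K * G.rho := at'.2.trans (by
      have : (G.R : ℝ) ≤ 64 * G.rho := by exact_mod_cast al.le_rho
      nlinarith)
    have e2 := mul_le_mul_of_nonneg_left (pow_le_pow_left₀ L0.le e1 2) T0.le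
    have e3 : (4 : ℝ) ^ (a + b) = (2 ^ (a + b)) ^ 2 := by rw [← pow_mul, mul_comm, pow_mul]; norm_num
    have : 0 ≤ (1 + 2 * K * |W|) * ((2 : ℝ) ^ q) ^ 2 := by positivity
    rw [div_le_div_iff₀ (by positivity) (by positivity), e3]
    rw [er] at e2
    nlinarith
  · rw [Fintype.card_coe, c3, hq, Nat.sub_sub_self hp]
  · have : G.ms a * (G.cel q i).card ≤ 1 := by
      rw [Gm.ms, Gm.cel, card_sq, er, pow_add]; push_cast
      rw [← mul_pow]
      refine pow_le_one₀ (by positivity) ?_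
      rw [div_mul_eq_mul_div, div_le_one (by positivity)]
      gcongr
      exact le_mul_of_one_le_right (by positivity) (one_le_pow₀ one_le_two)
    have h5 : 0 ≤ |C| * 4 ^ a * (1 + a + b) := by positivity
    rw [msM, diagonal_apply_eq]; linarith
  · have := mul_le_mul_of_nonneg_right (le_abs_self C) (show (0 : ℝ) ≤ 4 ^ a * (1 + a + b) by positivity)
    linarith

end Crest.Agent.T145.Kr
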