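import Crest.Agent.T145.KrDef_77
import Crest.Agent.T145.PotGs_57

-- ▼ part T145/KrK2_56
section

/-!
# Row 145, module KERNEL: K2 (screening) for the condenser (helper56)
-/

set_option autoImplicit false

namespace Crest.Agent.T145.Kr

open Finset Real Pot Kw56

namespace K256

theorem num {c c₁ ρ t n w X Y : ℝ} (hc : 0 < c) (hc₁ : c ≤ c₁) (hρ : 0 < ρ) (ht : 0 < t)
    (hn : 0 ≤ n) (hnt : n * t ≤ ρ) (hw : 0 < w) (h5 : ρ ≤ 5 * w) (hX : 0 ≤ X) (hY : 0 ≤ Y) :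
    (8 * c * 1 * √2 * √((c + 4 * ((t / ρ) ^ 2 * (2 * n ^ 2))) / (t / ρ) ^ 2) +
      2 * n * (c + 4 * ((t / ρ) ^ 2 * (2 * n ^ 2)))) / w * ((4 * 1 / w) ^ 2 * 2) * (√X * √Y) ≤
      2000 * (16 * c₁ + 2) * (c₁ + 8) / t * (X / ρ ^ 2 + Y / ρ ^ 2) := by
  have h1 : (t / ρ) ^ 2 * (2 * n ^ 2) ≤ 2 := by
    have : n * t / ρ ≤ 1 := (div_le_one hρ).2 hnt
    have h0 : 0 ≤ n * t / ρ := by positivity
    calc _ = 2 * (n * t / ρ) ^ 2 := by ring
      _ ≤ 2 * 1 ^ 2 := by gcongr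
      _ = 2 := by ring
  have h1' : 0 ≤ (t / ρ) ^ 2 * (2 * n ^ 2) := by positivity
  set K := c + 4 * ((t / ρ) ^ 2 * (2 * n ^ 2)) with hK
  have hK1 : K ≤ c₁ + 8 := by linarith
  have hK0 : 0 ≤ K := by linarith
  have hc0 : 0 < c₁ := by linarith
  have h2 : √(K / (t / ρ) ^ 2) ≤ (c₁ + 8) * (ρ / t) := by
    rw [Real.sqrt_le_left (by positivity)]
    calc K / (t / ρ) ^ 2 = K * (ρ / t) ^ 2 := by field_simp
      _ ≤ (c₁ + 8) ^ 2 * (ρ / t) ^ 2 := by gcongr; nlinarith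
      _ = _ := by ring
  have h3 : √2 ≤ 2 := by rw [Real.sqrt_le_left (by norm_num)]; norm_num
  have h4 : n ≤ ρ / t := (le_div_iff₀ ht).2 hnt
  have h6 : 1 / w ≤ 5 / ρ := by rw [div_le_div_iff₀ hw hρ]; linarith
  have h7 : √X * √Y ≤ (X + Y) / 2 := by
    nlinarith [sq_nonneg (√X - √Y), Real.sq_sqrt hX, Real.sq_sqrt hY]
  calc _ = (8 * c * √2 * √(K / (t / ρ) ^ 2) + 2 * n * K) * (1 / w) * (32 * (1 / w) ^ 2) *
        (√X * √Y) := by ring
    _ ≤ (8 * c₁ * 2 * ((c₁ + 8) * (ρ / t)) + 2 * (ρ / t) * (c₁ + 8)) * (5 / ρ) *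
        (32 * (5 / ρ) ^ 2) * ((X + Y) / 2) := by gcongr
    _ = _ := by field_simp; ring

end K256

theorem k2Stmt (hA : AlgStmt) : K2Stmt := by
  intro g₁ g₂ hg₁
  refine ⟨2000 * (16 * g₁⁻¹ + 2) * (g₁⁻¹ + 8), by positivity, fun g hg _ G W hG a b hab s t => ?_⟩
  have H := hA G W hG
  have hg0 : 0 < g := hg₁.trans_le hg
  have hc : 0 < g⁻¹ := inv_pos.2 hg0
  have hc₁ : g⁻¹ ≤ g₁⁻¹ := inv_anti₀ hg₁ hg
  have hr := hG.hr
  have h1 := H.r_le
  have h2 := H.rho_le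
  have hρ : (0 : ℝ) < G.rho := by exact_mod_cast (show 0 < G.rho by omega)
  have hκ : 0 < G.ms a := by unfold Gm.ms; positivity
  have he : ∀ e ∈ nL.edT (bl 0 G.R), e.2 - e.1 ∈ nL.Jp := fun e h => (Lat.mem_edT.1 h).1
  have hco : Co G.A (edF (nL.edT (bl 0 G.R))) := H.coA
  have hM : bl 0 (4 * G.rho) \ bl 0 (G.rho / 2) ⊆ G.A :=
    sdiff_subset_sdiff (bl_mono 0 (by omega)) (bl_mono 0 (by omega))
  obtain ⟨hcov, hdis, -⟩ := H.cells (G.p - (a + b)) (Nat.sub_le _ _)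
  have hsub : ∀ i : G.cor (G.p - (a + b)), sq i.1 (2 ^ (G.p - (a + b))) ⊆ G.Ga := fun i =>
    hcov ▸ subset_biUnion_of_mem (fun i => sq i (2 ^ (G.p - (a + b)))) i.2
  have hGR : G.Ga ⊆ bl 0 G.R := H.Ga_sub.trans (sdiff_subset.trans (bl_mono 0 (by omega)))
  have hC : Cells (nL.edT (bl 0 G.R)) univ (G.cel (G.p - (a + b))) G.Ga
      (2 * ((2 ^ (G.p - (a + b)) : ℕ) : ℝ) ^ 2) := by
    have := cells_sq nL_ok (ed := nL.edT (bl 0 G.R)) (T := univ)
      (a := fun i : G.cor (G.p - (a + b)) => i.1) (k := fun _ => 2 ^ (G.p - (a + b)))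
      (n := 2 ^ (G.p - (a + b)))
      (fun i _ j _ hne => hdis i.2 j.2 fun h => hne (Subtype.ext h)) (fun _ _ => le_rfl)
      fun i _ e h => Lat.mem_edT.2 ⟨(Lat.mem_edI.1 h).1, Or.inl (hGR (hsub i (Lat.mem_edI.1 h).2.1))⟩
    have hu : (univ : Finset (G.cor (G.p - (a + b)))).biUnion
        (fun i => sq i.1 (2 ^ (G.p - (a + b)))) = G.Ga := by
      rw [← hcov, univ_eq_attach]
      ext x; simp only [mem_biUnion, mem_attach, true_and, Subtype.exists, exists_prop]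
    rwa [hu] at this
  have hma : Hm G.A (edF (nL.edT (bl 0 G.R))) (G.ma s) := H.ma_hm s
  have hmb : Hm G.A (edF (nL.edT (bl 0 G.R))) (G.mb t) := H.mb_hm t
  have hw5 : (G.rho : ℝ) ≤ 5 * (G.rho / 4 : ℕ) := by exact_mod_cast (show G.rho ≤ 5 * (G.rho / 4) by omega)
  have hw0 : (0 : ℝ) < (G.rho / 4 : ℕ) := by exact_mod_cast (show 0 < G.rho / 4 by omega)
  have hJ : nL.Jp.card = 2 := by rw [nL_Jp]; rfl
  have hn0 : ∀ m : Pt → ℝ, 0 ≤ ∑ x ∈ G.mid, m x ^ 2 := fun m => sum_nonneg fun _ _ => sq_nonneg _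
  refine ⟨rgB_nonneg hco hc hκ.le (Hm.add' hma hmb), ?_, ?_⟩
  · have := rgB_le_ring (Λ := nL) (z := 0) (p' := G.rho / 2) (p := G.rho - 1) (q := 2 * G.rho)
      (q' := 4 * G.rho) (w := G.rho / 4) (T := univ) (β := G.cel (G.p - (a + b))) he hco hc hκ.le
      (by rw [nL_rg]; omega) (by omega) (by omega) (by omega) (by omega) hM
      (fun i _ => (hsub i).trans H.Ga_sub) (Hm.add' hma hmb)
    refine this.trans ?_
    rw [nL_rg, hJ]
    have h3 : ∑ x ∈ G.mid, (G.ma s + G.mb t) x ^ 2 ≤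
        2 * (∑ x ∈ G.mid, G.ma s x ^ 2 + ∑ x ∈ G.mid, G.mb t x ^ 2) := by
      rw [← sum_add_distrib, mul_sum]
      exact sum_le_sum fun x _ => by rw [Pi.add_apply]; nlinarith [sq_nonneg (G.ma s x - G.mb t x)]
    have h6 : 1 / ((G.rho / 4 : ℕ) : ℝ) ≤ 5 / G.rho := by rw [div_le_div_iff₀ hw0 hρ]; linarith
    calc _ = g⁻¹ * (32 * (1 / ((G.rho / 4 : ℕ) : ℝ)) ^ 2 * ∑ x ∈ G.mid, (G.ma s + G.mb t) x ^ 2) := by
          simp only [Gm.mid, Nc.an]; push_cast; ring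
      _ ≤ g₁⁻¹ * (32 * (5 / G.rho) ^ 2 *
          (2 * (∑ x ∈ G.mid, G.ma s x ^ 2 + ∑ x ∈ G.mid, G.mb t x ^ 2))) := by
          have h7 := hn0 (G.ma s + G.mb t)
          exact mul_le_mul hc₁ (mul_le_mul (by gcongr) h3 h7 (by positivity))
            (mul_nonneg (by positivity) h7) (by positivity)
      _ = 1600 * g₁⁻¹ * (G.nm (G.ma s) + G.nm (G.mb t)) := by unfold Gm.nm; ring
      _ ≤ _ := by
          have h8 : 0 < g₁⁻¹ := by positivity
          exact mul_le_mul_of_nonneg_right (by nlinarith) (add_nonneg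
            (div_nonneg (hn0 _) (sq_nonneg _)) (div_nonneg (hn0 _) (sq_nonneg _)))
  · have hnt : ((2 ^ (G.p - (a + b)) : ℕ) : ℝ) * 2 ^ a ≤ G.rho := by
      have : 2 ^ (G.p - (a + b)) * 2 ^ a ≤ G.rho := by
        rw [← pow_add]; exact Nat.pow_le_pow_right two_pos (by omega)
      exact_mod_cast this
    have := screen_ring (Λ := nL) (z := 0) (p' := G.rho / 2) (p := G.rho - 1) (q := 2 * G.rho)
      (q' := 4 * G.rho) (w := G.rho / 4) (p₁ := G.rho) (q₁ := 2 * G.rho - 1)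
      (d := 2 ^ (G.p - (a + b))) he hco hC (fun i _ x hx y hy => sq_diam le_rfl hx hy) hc hκ
      (by rw [nL_rg]; omega) (by omega) (by omega) (by omega) (by omega) (by omega) (by omega) hM
      H.sub_Ga H.Ga_sub hma hmb
      (fun x hx hx' => (H.coA.hx_off _ hx).trans
        (on_of_not fun h => hx' (bl_mono 0 (by omega) h)))
      fun x hx hx' => (H.coA.hx_off _ hx).trans (off_of_mem (by
        by_contra h
        exact hx (mem_sdiff.2 ⟨bl_mono 0 (by omega) hx', h⟩)))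
    rw [nL_rg, hJ] at this
    have e : G.Bz g a b (s, t) / 2 - (G.Bq g a b (G.ma s) (G.ma s) / 2 +
        G.Bq g a b (G.mb t) (G.mb t) / 2 - G.B (G.ma s) (G.mb t) / g) =
        G.Bq g a b (G.ma s) (G.mb t) + g⁻¹ * edF (nL.edT (bl 0 G.R)) (G.ma s) (G.mb t) := by
      simp only [Gm.Bz, Gm.Bq, rgB_add_sq hco hc hκ.le, Gm.B, eD]; ring
    rw [e]
    refine this.trans ?_
    have := K256.num hc hc₁ hρ (show (0 : ℝ) < 2 ^ a by positivity) (Nat.cast_nonneg _) hnt hw0 hw5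
      (hn0 (G.ma s)) (hn0 (G.mb t))
    simpa only [Gm.ms, Gm.nm, Gm.mid, Nc.an, Nat.cast_one, Nat.cast_ofNat] using this

end Crest.Agent.T145.Kr
end

-- ▼ part T145/KrTr_57

/-!
# Row 145, module KERNEL: traces of the cell matrices (helper57, task 302): `trStmt`
-/

set_option autoImplicit false

namespace Crest.Agent.T145.Kr

open Finset

namespace Tr57

open Pot

section abs
variable {V ι : Type*} [DecidableEq V] [Fintype ι] [DecidableEq ι] {A : Finset V} {ed : Finset (V × V)}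

theorem unC_eq (S : Finset V) : Kw56.unC S = (S.card : ℝ)⁻¹ • on S 1 := by
  funext x; by_cases hx' : x ∈ S <;> simp [Kw56.unC, on, hx']

theorem ent (h : Co A (edF ed)) (g κ : ℝ) (β : ι → Finset V) (i j : ι) :
    (Kw56.msM β κ * Kw56.sgM A g⁻¹ ed β) i j = κ * g * ((β i).card * ((β i).card : ℝ)⁻¹) *
      (((β j).card : ℝ)⁻¹ * G A (edF ed) (on (β i) 1) (on (β j) 1)) := by
  rw [Kw56.msM, Matrix.diagonal_mul, Kw56.sgM, Matrix.of_apply, inv_inv, unC_eq, unC_eq,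
    G_smul_left, h.G_smul_right]
  ring

theorem ent' (h : Co A (edF ed)) (g κ : ℝ) (β : ι → Finset V) (i j : ι) :
    (Kw56.msM β κ * Kw56.sgM A g⁻¹ ed β) i j =
      κ * g * (((β j).card : ℝ)⁻¹ * G A (edF ed) (on (β i) 1) (on (β j) 1)) := by
  rw [ent h]
  by_cases h0 : (β i).card = 0
  · rw [Gs57.G_on h, card_eq_zero.1 h0]; simp
  · rw [mul_inv_cancel₀ (Nat.cast_ne_zero.2 h0), mul_one]

theorem tr_one (h : Co A (edF ed)) (g κ : ℝ) (β : ι → Finset V) :
    (Kw56.msM β κ * Kw56.sgM A g⁻¹ ed β).trace =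
      κ * g * ∑ i, ((β i).card : ℝ)⁻¹ * G A (edF ed) (on (β i) 1) (on (β i) 1) := by
  simp only [Matrix.trace, Matrix.diag_apply, ent' h, mul_sum]

theorem tr_two (h : Co A (edF ed)) (g κ : ℝ) (β : ι → Finset V) :
    (Kw56.msM β κ * Kw56.sgM A g⁻¹ ed β * (Kw56.msM β κ * Kw56.sgM A g⁻¹ ed β)).trace =
      (κ * g) ^ 2 * ∑ i, ∑ j, ((β i).card : ℝ)⁻¹ * ((β j).card : ℝ)⁻¹ *
        G A (edF ed) (on (β i) 1) (on (β j) 1) ^ 2 := by
  simp only [Matrix.trace, Matrix.diag_apply, mul_sum]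
  refine sum_congr rfl fun i _ => ?_
  rw [Matrix.mul_apply]
  refine sum_congr rfl fun j _ => ?_
  rw [ent' h, ent' h, h.G_comm (on (β j) 1)]
  ring

end abs

/-- the logarithm averaged over a cell -/
theorem avg_log {a x : Pt} {s R : ℕ} {t : ℝ} (hs : 1 ≤ s) (hR : 1 ≤ R) (ht : Real.log (R / s) ≤ t)
    (ht0 : 0 ≤ t) (hx' : x ∈ sq a s) {B : Finset Pt} (hB : B ⊆ sq a s) :
    ∑ y ∈ B, (1 + Real.log (4 * R / (1 + eu (x - y)))) ≤ (37 + t) * (s : ℝ) ^ 2 := by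
  have h1 : (1 : ℝ) ≤ s := by exact_mod_cast hs
  have h2 : (1 : ℝ) ≤ R := by exact_mod_cast hR
  have h3 : (B.card : ℝ) ≤ (s : ℝ) ^ 2 := by
    have := card_le_card hB
    rw [card_sq] at this
    exact_mod_cast this
  have h4 : ∑ y ∈ B, (1 + eu (x - y))⁻¹ ≤ 9 * s := by
    refine le_trans ?_ ((Gs57.sum_inv x s).trans (by linarith))
    refine sum_le_sum_of_subset_of_nonneg (fun y hy => Kw56.sq_diam le_rfl (hB hy) hx') fun y _ _ => ?_
    have := eu_nonneg (x - y); positivity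
  calc _ ≤ ∑ y ∈ B, ((1 + t) + 4 * s * (1 + eu (x - y))⁻¹) := sum_le_sum fun y _ => by
        have h0 : 0 < 1 + eu (x - y) := by linarith [eu_nonneg (x - y)]
        have h5 : 4 * (R : ℝ) / (1 + eu (x - y)) = R / s * (4 * s * (1 + eu (x - y))⁻¹) := by
          field_simp
        rw [h5, Real.log_mul (by positivity) (by positivity)]
        linarith [Real.log_le_sub_one_of_pos (show 0 < 4 * s * (1 + eu (x - y))⁻¹ by positivity)]
    _ = B.card * (1 + t) + 4 * s * ∑ y ∈ B, (1 + eu (x - y))⁻¹ := by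
        rw [sum_add_distrib, sum_const, nsmul_eq_mul, mul_sum]
    _ ≤ (s : ℝ) ^ 2 * (1 + t) + 4 * s * (9 * s) := by gcongr
    _ = _ := by ring

end Tr57

open Tr57 Pot in
/-- TR: traces of the cell matrices -/
theorem trStmt (hG : Pot.GszStmt) (hA : AlgStmt) : TrStmt := by
  obtain ⟨C, hC⟩ := hG
  have hC0 : 0 ≤ C := by simpa using (hC nL 0 1 ∅ nL_ok le_rfl (empty_subset _)).2.1
  intro g₂
  refine ⟨g₂ ^ 2 * C * 64 ^ 4 + |g₂| * C * 516, fun g hg hg₂ G W hW a b hab => ?_⟩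
  have al := hA G W hW
  set q := G.p - (a + b) with hq
  have hqp : q ≤ G.p := Nat.sub_le _ _
  have hρ : (G.rho : ℝ) = 2 ^ (a + b) * 2 ^ q := by
    rw [← pow_add, Gm.rho, show a + b + q = G.p by omega]; push_cast; rfl
  have hρ0 : (0 : ℝ) < G.rho := by rw [hρ]; positivity
  have hρ1 : 0 < G.rho := by exact_mod_cast hρ0
  have hR : 1 ≤ G.R := by have := al.rho_le; omega
  have hRρ : (G.R : ℝ) ≤ 64 * G.rho := by exact_mod_cast al.le_rho
  have hsub : G.A ⊆ bl 0 G.R := sdiff_subset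
  have hco : Co G.A (edF (nL.edT (bl 0 G.R))) := al.coA
  have hGD : ∀ f f', Pot.G G.A (edF (nL.edT (bl 0 G.R))) f f' = GD nL G.A f f' := G_eD nL_ok hsub
  obtain ⟨h1, -, -, h4⟩ := hC nL 0 G.R G.A nL_ok hR hsub
  have hms : G.ms a * (G.rho : ℝ) ^ 2 = 4 ^ a := by
    rw [Gm.ms, div_pow, div_mul_cancel₀ _ (by positivity), ← pow_mul, mul_comm, pow_mul]; norm_num
  have hms0 : 0 ≤ G.ms a := sq_nonneg _
  have hg' : g ≤ |g₂| := hg₂.trans (le_abs_self _)
  constructor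
  · rw [tr_two hco]
    simp only [hGD]
    have h5 := h4 (G.cor q) univ (G.cel q) fun i _ j _ hne =>
      (al.cells q hqp).2.1 i.2 j.2 fun h => hne (Subtype.ext h)
    calc _ ≤ (G.ms a * g₂) ^ 2 * (C * (64 * G.rho) ^ 4) := by
          refine mul_le_mul (by gcongr) (h5.trans (by gcongr)) ?_ (sq_nonneg _)
          exact sum_nonneg fun _ _ => sum_nonneg fun _ _ => by positivity
      _ = g₂ ^ 2 * C * 64 ^ 4 * (G.ms a * (G.rho : ℝ) ^ 2) ^ 2 := by ring
      _ = g₂ ^ 2 * C * 64 ^ 4 * 16 ^ a := by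
          rw [hms, ← pow_mul, mul_comm a, pow_mul]; norm_num
      _ ≤ _ := by
          gcongr
          exact le_add_of_nonneg_right (by positivity)
  · rw [tr_one hco]
    have hs : 1 ≤ 2 ^ q := Nat.one_le_two_pow
    have ht : Real.log (G.R / (2 ^ q : ℕ)) ≤ 6 + a + b := by
      have h6 : (G.R : ℝ) / (2 ^ q : ℕ) ≤ 2 ^ (6 + a + b) := by
        rw [div_le_iff₀ (by positivity)]
        refine hRρ.trans_eq ?_
        rw [hρ]; push_cast; ring
      have h7 : (0 : ℝ) < G.R := by exact_mod_cast hR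
      refine (Real.log_le_log (by positivity) h6).trans ?_
      rw [Real.log_pow]
      push_cast
      exact mul_le_of_le_one_right (by positivity) (by linarith [Real.log_two_lt_d9])
    have h8 : ∀ i : G.cor q, ((G.cel q i).card : ℝ)⁻¹ * Pot.G G.A (edF (nL.edT (bl 0 G.R)))
        (on (G.cel q i) 1) (on (G.cel q i) 1) ≤ 4 ^ q * (C * (43 * (1 + a + b))) := fun i => by
      have h9 : ((G.cel q i).card : ℝ) = ((2 ^ q : ℕ) : ℝ) ^ 2 := by rw [Gm.cel, card_sq]; push_cast; rfl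
      have h10 : ((2 ^ q : ℕ) : ℝ) ^ 2 = 4 ^ q := by
        push_cast; rw [← pow_mul, mul_comm, pow_mul]; norm_num
      rw [Gs57.G_on hco, h9, h10, inv_mul_le_iff₀ (by positivity)]
      refine (sum_le_card_nsmul _ _ (4 ^ q * (C * (43 * (1 + a + b)))) fun x hx' => ?_).trans ?_
      · calc _ ≤ ∑ y ∈ G.A ∩ G.cel q i, C * (1 + Real.log (4 * G.R / (1 + eu (x - y)))) :=
              sum_le_sum fun y hy => by
                rw [hGD]; exact h1 x (mem_inter.1 hx').1 y (mem_inter.1 hy).1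
          _ ≤ C * ((37 + (6 + a + b)) * ((2 ^ q : ℕ) : ℝ) ^ 2) := by
              rw [← mul_sum]
              exact mul_le_mul_of_nonneg_left (avg_log hs hR ht (by positivity)
                (mem_inter.1 hx').2 inter_subset_right) hC0
          _ = 4 ^ q * (C * (43 + a + b)) := by rw [h10]; ring
          _ ≤ _ := by
              have : (0 : ℝ) ≤ a + b := by positivity
              gcongr; linarith
      · rw [nsmul_eq_mul]
        refine mul_le_mul_of_nonneg_right ?_ (by positivity)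
        rw [← h10, ← h9]
        exact_mod_cast card_le_card inter_subset_right
    have h11 : ((G.cor q).card : ℝ) * 4 ^ q = 12 * (G.rho : ℝ) ^ 2 := by
      rw [(al.cells q hqp).2.2, Gm.rho]
      push_cast
      rw [mul_assoc, ← pow_add, Nat.sub_add_cancel hqp, ← pow_mul, mul_comm G.p, pow_mul]; norm_num
    calc _ ≤ G.ms a * |g₂| * ((G.cor q).card * (4 ^ q * (C * (43 * (1 + a + b))))) := by
          refine (mul_le_mul_of_nonneg_left (sum_le_card_nsmul _ _ _ fun i _ => h8 i)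
            (by positivity)).trans ?_
          rw [nsmul_eq_mul, card_univ, Fintype.card_coe]
          gcongr
      _ = |g₂| * C * 516 * (G.ms a * (G.rho : ℝ) ^ 2) * (1 + a + b) := by
          rw [← mul_assoc ((G.cor q).card : ℝ), h11]; ring
      _ ≤ _ := by
          rw [hms]
          gcongr
          exact le_add_of_nonneg_left (by positivity)

end Crest.Agent.T145.Kr
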