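import Crest.Agent.T145.GffDef_8
import Crest.Agent.T145.GeoB_51

/-!
# Row 145, module (b): T2', FAC, SD, and the Neumann / Dirichlet free field limits (helper45)
-/

set_option autoImplicit false

namespace Crest.Agent.T145

open Finset

namespace F45

theorem ok {F : Fa} {Λ : Lat} (h : F.Mem Λ) : Λ.Ok :=
  ⟨h.1 ▸ F.adm, F.pos.trans_le h.2.2.1⟩

theorem win_mono {Λ : Lat} {θ δ δ' : ℝ} {l L : ℕ} (h : Λ.Win θ δ l L) (hd : δ ≤ δ') :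
    Λ.Win θ δ' l L :=
  ⟨h.1, ⟨h.2.1.1.trans (mul_le_mul_of_nonneg_right hd (Nat.cast_nonneg _)),
    h.2.1.2.trans (mul_le_mul_of_nonneg_right hd (Nat.cast_nonneg _))⟩, h.2.2.1, h.2.2.2.trans hd⟩

theorem win_L {Λ : Lat} {θ δ : ℝ} {l L : ℕ} (h : Λ.Win θ δ l L) : 1 ≤ L := by
  obtain ⟨j, rfl⟩ := h.1
  exact Nat.one_le_two_pow

theorem win_l {Λ : Lat} {θ δ : ℝ} {l L : ℕ} (h : Λ.Win θ δ l L) : 1 ≤ l := by
  have := h.2.1.1
  rcases Nat.eq_zero_or_pos l with rfl | hl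
  · norm_num at this
  · exact hl

/-- the big scale is large -/
theorem win_large {Λ : Lat} {θ δ : ℝ} {l L N : ℕ} (h : Λ.Win θ δ l L) (hd : δ ≤ 1 / ((N : ℝ) + 1)) :
    N ≤ L := by
  have hN : (0 : ℝ) < (N : ℝ) + 1 := by positivity
  have h1 := (win_mono h hd).2.1.1
  have h2 := (win_mono h hd).2.1.2
  rw [div_mul_eq_mul_div, one_mul, le_div_iff₀ hN] at h1 h2
  have hl : (0 : ℝ) ≤ l := Nat.cast_nonneg _
  have hN0 : (0 : ℝ) ≤ N := Nat.cast_nonneg _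
  have : (N : ℝ) ≤ L := by nlinarith
  exact_mod_cast this

theorem zero_mem {L : ℕ} (h : 1 ≤ L) : (0 : Pt) ∈ sq 0 L := self_mem_sq 0 h

theorem cenN {Λ : Lat} (h : Λ.Ok) {L : ℕ} (hL : 1 ≤ L) : Cen (Λ.WN L) := h.cen_Nr (zero_mem hL)

theorem ambN {Λ : Lat} (h : Λ.Ok) {L : ℕ} (hL : 1 ≤ L) : Λ.Amb (Λ.Nr (sq 0 L) 0) (sq 0 L) :=
  ⟨h.ctr_Nr _ _, h.anch_Nr (zero_mem hL), Finset.Subset.refl _, fun _ _ => rfl⟩

theorem ambD {Λ : Lat} (h : Λ.Ok) (D : Finset Pt) : Λ.Amb (Λ.D D) D :=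
  ⟨h.ctr_D _, h.anch_D _, Lat.edI_subset_edT _, fun _ _ => rfl⟩

/-! ## flows -/
section flows
variable {V : Type*}

theorem dv_smul (ed : Finset (V × V)) (φ : V × V → ℝ) (c : ℝ) :
    dv ed (fun e => c * φ e) = c • dv ed φ := by
  funext x
  simp only [dv, Pi.smul_apply, smul_eq_mul, mul_sum, mul_assoc]

theorem dv_zero (ed : Finset (V × V)) : dv ed (fun _ => 0) = 0 := by
  funext x; simp [dv]

theorem f2A_of {ed : Finset (V × V)} {f : V → ℝ} {n : ℝ} (h : F2 ed f n) (A : Finset V) :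
    F2A ed A f n := by
  obtain ⟨φ, h1, h2⟩ := h
  exact ⟨φ, fun x _ => by rw [h1], h2⟩

theorem f2A_smul {ed : Finset (V × V)} {A : Finset V} {f : V → ℝ} {n t n' : ℝ} (h : F2A ed A f n)
    (ht : t ^ 2 * n ≤ n') : F2A ed A (t • f) n' := by
  obtain ⟨φ, h1, h2⟩ := h
  refine ⟨fun e => t * φ e, fun x hx => ?_, le_trans ?_ ht⟩
  · rw [dv_smul, Pi.smul_apply, Pi.smul_apply, h1 x hx]
  · simp only [mul_pow, ← mul_sum]
    exact mul_le_mul_of_nonneg_left h2 (sq_nonneg t)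

theorem ip_dv [DecidableEq V] {B : Finset V} {ed : Finset (V × V)} (h : ∀ e ∈ ed, e.1 ∈ B ∧ e.2 ∈ B)
    (φ : V × V → ℝ) (u : V → ℝ) : ip B (dv ed φ) u = ∑ e ∈ ed, φ e * (u e.2 - u e.1) := by
  simp only [ip, dv, sum_mul]
  rw [sum_comm]
  refine sum_congr rfl fun e he => ?_
  simp only [mul_assoc, ← mul_sum, sub_mul, sum_sub_distrib, ind_eq_ite, ite_mul, one_mul, zero_mul,
    sum_ite_eq, (h e he).1, (h e he).2, if_true]

end flows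

theorem sm2_smul {u : Pt → ℝ} {K K' L t : ℝ} (h : Sm2 u K L) (hL : 0 < L)
    (ht : |t| * K ≤ K') : Sm2 (t • u) K' L := by
  have e : ∀ i, df i (t • u) = t • df i u := fun i => by
    funext x; simp only [df, Pi.smul_apply, smul_eq_mul]; ring
  have e' : ∀ i j, df j (t • df i u) = t • df j (df i u) := fun i j => by
    funext x; simp only [df, Pi.smul_apply, smul_eq_mul]; ring
  refine ⟨fun i x => ?_, fun i j x => ?_⟩
  · rw [e, Pi.smul_apply, smul_eq_mul, abs_mul]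
    calc |t| * |df i u x| ≤ |t| * (K / L) := mul_le_mul_of_nonneg_left (h.1 i x) (abs_nonneg t)
      _ = |t| * K / L := by ring
      _ ≤ K' / L := by gcongr
  · rw [e, e', Pi.smul_apply, smul_eq_mul, abs_mul]
    calc |t| * |df j (df i u) x| ≤ |t| * (K / L ^ 2) :=
          mul_le_mul_of_nonneg_left (h.2 i j x) (abs_nonneg t)
      _ = |t| * K / L ^ 2 := by ring
      _ ≤ K' / L ^ 2 := by gcongr

theorem au_smul (Λ : Lat) (D : Finset Pt) (u : Pt → ℝ) (t : ℝ) : Λ.Au D (t • u) = t • Λ.Au D u := by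
  rw [Lat.Au, Lat.Au, ← dv_smul]
  congr 1; funext e; simp only [Pi.smul_apply, smul_eq_mul]; ring

theorem en_smul (Λ : Lat) (D : Finset Pt) (u : Pt → ℝ) (t : ℝ) :
    Λ.En D (t • u) (t • u) = t ^ 2 * Λ.En D u u := by
  simp only [Lat.En, mul_sum, Pi.smul_apply, smul_eq_mul]
  exact sum_congr rfl fun e _ => by ring

theorem en_eq (Λ : Lat) (D : Finset Pt) (u : Pt → ℝ) :
    Λ.En D u u = ∑ e ∈ Λ.edI D, (u e.2 - u e.1) ^ 2 / Λ.τ :=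
  sum_congr rfl fun e _ => by ring

theorem en_nonneg {Λ : Lat} (h : Λ.Ok) (D : Finset Pt) (u : Pt → ℝ) : 0 ≤ Λ.En D u u := by
  rw [en_eq]; exact sum_nonneg fun e _ => div_nonneg (sq_nonneg _) h.2.le

theorem ip_dvI (Λ : Lat) (D : Finset Pt) (φ : Pt × Pt → ℝ) (u : Pt → ℝ) :
    ip D (dv (Λ.edI D) φ) u = ∑ e ∈ Λ.edI D, φ e * (u e.2 - u e.1) :=
  ip_dv (fun _ he => (Lat.mem_edI.1 he).2) φ u

theorem abs_cross {Λ : Lat} (h : Λ.Ok) (D : Finset Pt) (φ : Pt × Pt → ℝ) (u : Pt → ℝ) :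
    |∑ e ∈ Λ.edI D, φ e * (u e.2 - u e.1)| ≤ ∑ e ∈ Λ.edI D, φ e ^ 2 + Λ.τ * Λ.En D u u := by
  rw [en_eq, mul_sum, ← sum_add_distrib]
  refine (abs_sum_le_sum_abs _ _).trans (sum_le_sum fun e _ => ?_)
  rw [mul_div_cancel₀ _ h.2.ne', abs_le]
  constructor <;> nlinarith [sq_nonneg (φ e + (u e.2 - u e.1)), sq_nonneg (φ e - (u e.2 - u e.1)),
    sq_nonneg (φ e), sq_nonneg (u e.2 - u e.1)]

theorem reg_mono {D : Finset Pt} {K K' : ℝ} {l L : ℕ} (h : Reg D K l L) (hK : K ≤ K') : Reg D K' l L :=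
  ⟨h.1.trans (by gcongr), h.2.trans (by gcongr)⟩

theorem reg_sq (hB : BrStmt) (l L : ℕ) {K : ℝ} (hK : 4 ≤ K) : Reg (sq 0 L) K l L :=
  reg_mono (hB.2.2.2.2.2.1 0 L L l L 1 le_rfl (by simp) (by simp)) (by linarith)

/-- the energy of a smooth function in the square -/
theorem en_le (hR : RJStmt) (F : Fa) : ∃ C : ℝ, 0 ≤ C ∧ ∀ Λ, F.Mem Λ → ∀ (L : ℕ) (u : Pt → ℝ) (K : ℝ),
    1 ≤ L → Sm2 u K L → Λ.En (sq 0 L) u u ≤ C * K ^ 2 := by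
  obtain ⟨C, hC⟩ := hR F
  refine ⟨|C|, abs_nonneg C, fun Λ hΛ L u K hL hu => ?_⟩
  have hL' : (1 : ℝ) ≤ L := by exact_mod_cast hL
  have h := ((hC Λ hΛ 0 L L).2 u u K L hL' hu hu).2.2.1
  have e : (L : ℝ) * L / (L : ℝ) ^ 2 = 1 := by field_simp
  rw [e, mul_one] at h
  exact ((le_abs_self _).trans h).trans (mul_le_mul_of_nonneg_right (le_abs_self C) (sq_nonneg K))

/-- a uniformly small flow has bounded norm -/
theorem sum_sq_le {F : Fa} {Λ : Lat} (hΛ : F.Mem Λ) {L : ℕ} (hL : 1 ≤ L) {K : ℝ} {φ : Pt × Pt → ℝ}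
    (h : ∀ e ∈ Λ.edI (sq 0 L), |φ e| ≤ K / L) :
    ∑ e ∈ Λ.edI (sq 0 L), φ e ^ 2 ≤ 2 * F.J.card * K ^ 2 := by
  have hL' : (0 : ℝ) < L := by exact_mod_cast hL
  have h1 : ∑ e ∈ Λ.edI (sq 0 L), φ e ^ 2 ≤ (Λ.edI (sq 0 L)).card • (K / L) ^ 2 :=
    sum_le_card_nsmul _ _ _ fun e he => by
      rw [← sq_abs]; exact pow_le_pow_left₀ (abs_nonneg _) (h e he) 2
  have h2 : (Λ.edI (sq 0 L)).card ≤ 2 * (L ^ 2 * F.J.card) := by
    refine (card_le_card (Lat.edI_subset_edT _)).trans ((Lat.card_edT_le _).trans ?_)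
    rw [card_sq, ← hΛ.1]
    gcongr
    exact filter_subset _ _
  have h3 : ((Λ.edI (sq 0 L)).card : ℝ) ≤ 2 * ((L : ℝ) ^ 2 * F.J.card) := by exact_mod_cast h2
  rw [nsmul_eq_mul] at h1
  refine h1.trans ((mul_le_mul_of_nonneg_right h3 (sq_nonneg _)).trans (le_of_eq ?_))
  field_simp

theorem abs_ip_sd {L : ℕ} (hL : 1 ≤ L) {u : Pt → ℝ} {K : ℝ} (hK : 0 ≤ K) (h : ∀ x ∈ sq 0 L, |u x| ≤ K) :
    |ip (sq 0 L) (sd L 0) u| ≤ K := by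
  have hL' : (0 : ℝ) < L := by exact_mod_cast hL
  have h1 : ∀ x ∈ sq 0 L, |sd L 0 x * u x| ≤ ind (x.1 = (L : ℤ) - 1) * (K / L) := by
    intro x hx
    have e : sd L 0 x = ind (x.1 = (L : ℤ) - 1 ∧ 0 ≤ x.2 ∧ x.2 < L) / L := rfl
    rw [e, abs_mul, abs_div, abs_of_nonneg (ind_nonneg _), abs_of_pos hL', div_mul_eq_mul_div,
      ← mul_div_assoc]
    exact div_le_div_of_nonneg_right
      (mul_le_mul (ind_mono fun h => h.1) (h x hx) (abs_nonneg _) (ind_nonneg _)) hL'.le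
  refine (abs_sum_le_sum_abs _ _).trans ((sum_le_sum h1).trans ?_)
  rw [← sum_mul, sq, sum_product]
  simp only [sum_const, Int.card_Ico, Prod.snd_zero, Prod.fst_zero, zero_add, sub_zero, Int.toNat_natCast,
    nsmul_eq_mul, ← mul_sum]
  simp only [ind_eq_ite, sum_ite_eq']
  split_ifs
  · rw [mul_one, mul_div_cancel₀ _ hL'.ne']
  · simpa using hK

theorem ph_nonneg (hA : AFacStmt) {W : Cfg Pt → ℝ} (h : Cen W) (η : Cfg Pt →+ ℝ) : 0 ≤ Ph W η :=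
  nonneg_of_mul_nonneg_right ((sq_nonneg _).trans (hA.2.1 _ W 0 η 0 h).1) (Real.exp_pos _)

end F45

open F45

/-- T2' -/
theorem t2pStmt (h2 : T2Stmt) (hA : AFacStmt) (hB : BrStmt) : T2pStmt := by
  intro F θ₀ K ε hθ hK hε
  obtain ⟨δ, hδ, H⟩ := h2 F θ₀ K (ε ^ 2 * Real.exp (-(F.τ₂ * K))) hθ hK (by positivity)
  refine ⟨δ, hδ, fun Λ hΛ l L hw q η hq hqK hf => ?_⟩
  have hL := win_L hw
  have hO := ok hΛ
  have hV := (hB.2.1 Λ (Λ.Nr (sq 0 L) 0) _ K hO (ambN hO hL).1 (ambN hO hL).2.1 _ (Finset.Subset.refl _)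
    (fun _ _ => rfl) (f2A_of hf _)).1
  have h1 := (hA.2.1 _ (Λ.WN L) 0 ((2 * Real.pi * q) • pr (sd L 0))
    (pr fun x => η x - 2 * Real.pi * q * sd L 0 x) (cenN hO hL)).1
  have e : (2 * Real.pi * q) • pr (sd L 0) + (pr fun x => η x - 2 * Real.pi * q * sd L 0 x) = pr η := by
    rw [pr_sub', pr_mul']; abel
  rw [e] at h1
  have h3 : Λ.aq L q ≤ ε ^ 2 * Real.exp (-(F.τ₂ * K)) := H Λ hΛ l L hw q hq hqK
  have h4 : Λ.τ * K ≤ F.τ₂ * K := mul_le_mul_of_nonneg_right hΛ.2.2.2 (by linarith)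
  have h5 : Ph (Λ.WN L) (pr η) ^ 2 ≤ ε ^ 2 :=
    calc _ ≤ Real.exp (F.τ₂ * K) * (ε ^ 2 * Real.exp (-(F.τ₂ * K))) :=
          h1.trans (mul_le_mul (Real.exp_le_exp.2 (hV.trans h4)) h3 (ph_nonneg hA (cenN hO hL) _)
            (Real.exp_pos _).le)
      _ = ε ^ 2 := by rw [mul_left_comm, ← Real.exp_add]; simp
  exact (le_abs_self _).trans (abs_le_of_sq_le_sq' h5 hε.le |>.2.trans' (le_of_eq (by
    rw [abs_of_nonneg (ph_nonneg hA (cenN hO hL) _)])))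

/-- FAC for neutral `η`, given through its flow -/
theorem F45.fac0 (hA : AFacStmt) (hX : T1xStmt) (ha : T1aStmt) (hB : BrStmt) (hR : RJStmt) :
    Soft fun Λ K ε δ l L => ∀ (u : Pt → ℝ) (φ : Pt × Pt → ℝ), Sm2 u K L →
      (∀ e ∈ Λ.edI (sq 0 L), |φ e| ≤ K / L) →
      Λ.tN l * Λ.En (sq 0 L) u u - δ ≤ Vr (Λ.WN L) (Λ.X L u) (Λ.X L u) →
        Gs3 (Λ.WN L) (Λ.X L u) (Λ.tN l * Λ.En (sq 0 L) u u) ε ∧
        |Ex (Λ.WN L) (fun s => Λ.X L u s * Real.sin (pr (dv (Λ.edI (sq 0 L)) φ) s)) -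
          Λ.tN l * ip (sq 0 L) (dv (Λ.edI (sq 0 L)) φ) u *
            Ph (Λ.WN L) (pr (dv (Λ.edI (sq 0 L)) φ))| ≤ ε := by
  intro F θ₀ K ε hθ hK hε
  obtain ⟨C, hC0, hC⟩ := en_le hR F
  obtain ⟨_, hT⟩ := ha F
  set K₁ : ℝ := (1 + |F.τ₂|) * (C * K ^ 2 + 2 * F.J.card * K ^ 2) with hK₁
  obtain ⟨R, ε₁, hR0, hε₁, H⟩ := hA.1 K₁ ε hε
  obtain ⟨δ, hδ, HX⟩ := hX F (K * (R + 4)) ε₁ hε₁
  refine ⟨min δ ε₁, lt_min hδ hε₁, fun Λ hΛ l L hw u φ hu hφ hV => ?_⟩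
  have hL := win_L hw
  have hL' : (0 : ℝ) < L := by exact_mod_cast hL
  have hO := ok hΛ
  have hτ : 0 < Λ.τ := hO.2
  have hτ2 : Λ.τ ≤ |F.τ₂| := hΛ.2.2.2.trans (le_abs_self _)
  obtain ⟨h0, h1, -⟩ := hT Λ hΛ l (win_l hw)
  have hE := hC Λ hΛ L u K hL hu
  have hE0 := en_nonneg hO (sq 0 L) u
  have hS := sum_sq_le hΛ hL hφ
  have hS0 : 0 ≤ ∑ e ∈ Λ.edI (sq 0 L), φ e ^ 2 := sum_nonneg fun _ _ => sq_nonneg _
  have hip := ip_dvI Λ (sq 0 L) φ u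
  have hc := abs_cross hO (sq 0 L) φ u
  have hA1 : 0 ≤ C * K ^ 2 := by positivity
  have hA2 : (0 : ℝ) ≤ 2 * F.J.card * K ^ 2 := by positivity
  have hτ0 : 0 ≤ |F.τ₂| := abs_nonneg _
  have hτE : Λ.τ * Λ.En (sq 0 L) u u ≤ |F.τ₂| * (C * K ^ 2) := mul_le_mul hτ2 hE hE0 hτ0
  have hτS : Λ.τ * ∑ e ∈ Λ.edI (sq 0 L), φ e ^ 2 ≤ |F.τ₂| * (2 * F.J.card * K ^ 2) :=
    mul_le_mul hτ2 hS hS0 hτ0
  have hm1 := mul_nonneg hτ0 hA1
  have hm2 := mul_nonneg hτ0 hA2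
  have key := H _ (Λ.WN L) (Λ.X L u) (pr (dv (Λ.edI (sq 0 L)) φ)) (Λ.tN l * Λ.En (sq 0 L) u u)
    (Λ.tN l * ∑ e ∈ Λ.edI (sq 0 L), φ e * (u e.2 - u e.1)) (Λ.τ * ∑ e ∈ Λ.edI (sq 0 L), φ e ^ 2)
    (cenN hO hL)
    (by rw [abs_of_nonneg (mul_nonneg h0 hE0)]; nlinarith [mul_le_of_le_one_left hE0 h1])
    (by
      rw [abs_mul, abs_of_nonneg h0]
      nlinarith [mul_le_of_le_one_left (abs_nonneg (∑ e ∈ Λ.edI (sq 0 L), φ e * (u e.2 - u e.1))) h1])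
    (by rw [abs_of_nonneg (mul_nonneg hτ.le hS0)]; nlinarith)
    (fun t z ht hz => by
      have hKR : ∀ t : ℝ, |t| ≤ R → |t| * K ≤ K * (R + 4) := fun t ht => by nlinarith [abs_nonneg t]
      have := HX Λ hΛ l L (win_mono hw (min_le_left _ _)).2.1 _ (sq 0 L) (t • u) (fun e => z * φ e)
        (ambN hO hL) (reg_sq hB l L (by nlinarith)) (sm2_smul hu hL' (hKR t ht)) fun e he => by
          rw [abs_mul]
          calc |z| * |φ e| ≤ |z| * (K / L) := mul_le_mul_of_nonneg_left (hφ e he) (abs_nonneg z)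
            _ = |z| * K / L := by ring
            _ ≤ K * (R + 4) / L := div_le_div_of_nonneg_right (hKR z hz) hL'.le
      rw [au_smul, dv_smul, pr_smul, pr_smul, en_smul] at this
      refine this.trans (le_of_eq ?_)
      have e1 : ∑ e ∈ Λ.edI (sq 0 L), z * φ e * ((t • u) e.2 - (t • u) e.1) =
          t * z * ∑ e ∈ Λ.edI (sq 0 L), φ e * (u e.2 - u e.1) := by
        rw [mul_sum]; exact sum_congr rfl fun e _ => by simp only [Pi.smul_apply, smul_eq_mul]; ring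
      have e2 : ∑ e ∈ Λ.edI (sq 0 L), (z * φ e) ^ 2 = z ^ 2 * ∑ e ∈ Λ.edI (sq 0 L), φ e ^ 2 := by
        rw [mul_sum]; exact sum_congr rfl fun e _ => by ring
      rw [e1, e2]; ring)
    (by linarith [min_le_right δ ε₁])
  rw [hip]
  exact ⟨key.1, key.2.2⟩

/-- FAC -/
theorem facStmt (hP : T2pStmt) (hA : AFacStmt) (hX : T1xStmt) (ha : T1aStmt) (hB : BrStmt)
    (hR : RJStmt) : FacStmt := by
  intro F θ₀ K ε hθ hK hε
  obtain ⟨C, hC0, hC⟩ := en_le hR F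
  obtain ⟨_, hT⟩ := ha F
  obtain ⟨δ₁, hδ₁, H₁⟩ := fac0 hA hX ha hB hR F θ₀ K ε hθ hK hε
  have hA1 : 0 ≤ C * K ^ 2 := by positivity
  have hA2 : (0 : ℝ) ≤ 2 * F.J.card * K ^ 2 := by positivity
  set B : ℝ := 2 * F.J.card * K ^ 2 + |F.τ₂| * (C * K ^ 2) + 2 * Real.pi * K * K with hBd
  have hB0 : 0 < B := by positivity
  set ε' : ℝ := min ((ε / 2) ^ 2 / (2 * (C * K ^ 2 + ε))) (ε / 2 / B) with hε'
  obtain ⟨δ₂, hδ₂, H₂⟩ := hP F θ₀ (K + 2 * F.J.card * K ^ 2) ε' hθ (by linarith) (by positivity)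
  refine ⟨min δ₁ δ₂, lt_min hδ₁ hδ₂, fun Λ hΛ l L hw u hu hub hV => ?_⟩
  have hw₁ := win_mono hw (min_le_left _ _)
  have hV₁ : Λ.tN l * Λ.En (sq 0 L) u u - δ₁ ≤ Vr (Λ.WN L) (Λ.X L u) (Λ.X L u) := by
    linarith [min_le_left δ₁ δ₂]
  have hL := win_L hw
  have hL' : (0 : ℝ) < L := by exact_mod_cast hL
  have hG := (H₁ Λ hΛ l L hw₁ u (fun _ => 0) hu (fun _ _ => by simp only [abs_zero]; positivity) hV₁).1
  refine ⟨fun q η hq hη => ?_, hG⟩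
  obtain ⟨φ, hφ, hφb⟩ := hη
  by_cases hq0 : q = 0
  · have e : η = dv (Λ.edI (sq 0 L)) φ := by rw [← hφ, hq0]; funext x; simp
    rw [e]
    exact (H₁ Λ hΛ l L hw₁ u φ hu hφb hV₁).2
  have hO := ok hΛ
  have hS := sum_sq_le hΛ hL hφb
  have hPh : Ph (Λ.WN L) (pr η) ≤ ε' :=
    H₂ Λ hΛ l L (win_mono hw (min_le_right _ _)) q η hq0 (by linarith) ⟨φ, hφ, by linarith⟩
  have hPh0 := ph_nonneg hA (cenN hO hL) (pr η)
  obtain ⟨h0, h1, -⟩ := hT Λ hΛ l (win_l hw)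
  have hE := hC Λ hΛ L u K hL hu
  have hE0 := en_nonneg hO (sq 0 L) u
  have hVX : Vr (Λ.WN L) (Λ.X L u) (Λ.X L u) ≤ C * K ^ 2 + ε := by
    linarith [(abs_le.1 hG.1).2, mul_le_of_le_one_left hE0 h1]
  have h2 := (hA.2.1 _ (Λ.WN L) (Λ.X L u) (pr η) 0 (cenN hO hL)).2.1
  have h3 : |Ex (Λ.WN L) fun s => Λ.X L u s * Real.sin (pr η s)| ≤ ε / 2 := by
    refine abs_le_of_sq_le_sq' (h2.trans ?_) (by positivity) |> abs_le.2
    have : ε' ≤ (ε / 2) ^ 2 / (2 * (C * K ^ 2 + ε)) := min_le_left _ _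
    rw [le_div_iff₀ (by positivity)] at this
    calc 2 * Vr (Λ.WN L) (Λ.X L u) (Λ.X L u) * Ph (Λ.WN L) (pr η) ≤ 2 * (C * K ^ 2 + ε) * ε' :=
          mul_le_mul (by linarith) hPh hPh0 (by positivity)
      _ ≤ _ := by linarith
  have h4 : |ip (sq 0 L) η u| ≤ B := by
    have e : ip (sq 0 L) η u =
        ip (sq 0 L) (dv (Λ.edI (sq 0 L)) φ) u + 2 * Real.pi * q * ip (sq 0 L) (sd L 0) u := by
      rw [← hφ]; simp only [ip, mul_sum, ← sum_add_distrib]; exact sum_congr rfl fun x _ => by ring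
    rw [e, ip_dvI]
    refine (abs_add_le _ _).trans (add_le_add ((abs_cross hO _ φ u).trans (add_le_add hS
      (mul_le_mul (hΛ.2.2.2.trans (le_abs_self _)) hE hE0 (abs_nonneg _)))) ?_)
    rw [abs_mul, abs_mul, abs_of_pos Real.two_pi_pos]
    exact mul_le_mul (mul_le_mul_of_nonneg_left hq Real.two_pi_pos.le) (abs_ip_sd hL (by linarith) hub)
      (abs_nonneg _) (by positivity)
  have h5 : |Λ.tN l * ip (sq 0 L) η u * Ph (Λ.WN L) (pr η)| ≤ ε / 2 := by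
    have : ε' ≤ ε / 2 / B := min_le_right _ _
    rw [le_div_iff₀ hB0] at this
    rw [abs_mul, abs_mul, abs_of_nonneg h0, abs_of_nonneg hPh0]
    calc Λ.tN l * |ip (sq 0 L) η u| * Ph (Λ.WN L) (pr η) ≤ 1 * B * ε' :=
          mul_le_mul (mul_le_mul h1 h4 (abs_nonneg _) zero_le_one) hPh hPh0 (by positivity)
      _ ≤ _ := by linarith
  exact (abs_sub _ _).trans (by linarith)

/-- SD -/
theorem sdStmt (hF : FacStmt) (h3 : T3Stmt) : SdStmt := by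
  intro F θ₀ K ε hθ hK hε
  obtain ⟨δ₁, hδ₁, H₁⟩ := hF F θ₀ K ε hθ hK hε
  obtain ⟨δ₂, hδ₂, H₂⟩ := h3 F θ₀ K δ₁ hθ hK hδ₁
  exact ⟨min δ₁ δ₂, lt_min hδ₁ hδ₂, fun Λ hΛ l L hw u hu hub =>
    H₁ Λ hΛ l L (win_mono hw (min_le_left _ _)) u hu hub
      (H₂ Λ hΛ l L (win_mono hw (min_le_right _ _)) u hu)⟩

namespace F45

theorem abs_sub_of_sqrt {g E G s : ℝ} (hg : 0 ≤ g) (hE : 0 ≤ E) (hG : g ≤ G)
    (h : |Real.sqrt g - Real.sqrt E| ≤ s) (hs : s ≤ 1) : |E - g| ≤ s * (2 * Real.sqrt G + 1) := by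
  have h1 : Real.sqrt g ≤ Real.sqrt G := Real.sqrt_le_sqrt hG
  have h2 : E - g = -(Real.sqrt g - Real.sqrt E) * (Real.sqrt g + Real.sqrt E) := by
    linear_combination (Real.mul_self_sqrt hg) - (Real.mul_self_sqrt hE)
  have h3 := Real.sqrt_nonneg g
  have h4 := Real.sqrt_nonneg E
  rw [h2, abs_mul, abs_neg, abs_of_nonneg (add_nonneg h3 h4)]
  exact mul_le_mul h (by linarith [(abs_le.1 h).1]) (add_nonneg h3 h4) ((abs_nonneg _).trans h)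

theorem le_of_sqrt {g E A T s : ℝ} (hg : 0 ≤ g) (hE : E ≤ A) (hs : s ≤ T)
    (h : |Real.sqrt g - Real.sqrt E| ≤ Real.sqrt s) : g ≤ (Real.sqrt A + Real.sqrt T) ^ 2 := by
  have h1 := Real.sqrt_le_sqrt hE
  have h2 := Real.sqrt_le_sqrt hs
  rw [← Real.sq_sqrt hg]
  exact pow_le_pow_left₀ (Real.sqrt_nonneg g) (by linarith [(abs_le.1 h).2]) 2

theorem cosh_sqrt_le {n : ℝ} (h0 : 0 ≤ n) (h1 : n ≤ 1) : Real.cosh (Real.sqrt n) ≤ 2 := by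
  refine (Real.cosh_le_exp_half_sq _).trans ?_
  rw [Real.sq_sqrt h0]
  have h2 : Real.exp (n / 2) ^ 2 ≤ 2 ^ 2 := by
    rw [← Real.exp_nat_mul]
    have : Real.exp (((2 : ℕ) : ℝ) * (n / 2)) ≤ Real.exp 1 := Real.exp_le_exp.2 (by push_cast; linarith)
    linarith [Real.exp_one_lt_d9]
  exact (abs_le_of_sq_le_sq' h2 (by norm_num)).2

/-- replace the energy of the smooth approximant by the Thomson variance -/
theorem gs_core (hA : AFacStmt) (hB : BrStmt) (F : Fa) {G ε : ℝ} (hε : 0 < ε) :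
    ∃ R ε₁ εa : ℝ, 0 < R ∧ 0 < ε₁ ∧ 0 < εa ∧ ∀ Λ, F.Mem Λ → ∀ (m : Mdl Pt) (f a : Pt → ℝ) (θ E g : ℝ),
      m.Ctr → m.Anch → (∀ e ∈ m.ed, m.w e = Λ.w) → 0 ≤ θ → θ ≤ 1 → 0 ≤ g → g ≤ G → 0 ≤ E →
      |Real.sqrt g - Real.sqrt E| ≤ Real.sqrt (Λ.τ * εa) → F2A m.ed m.A (f - a) εa →
      (∀ t : ℝ, |t| ≤ R → M (m.W 0) (t • pr a) ≤ θ * E * t ^ 2 / 2 + ε₁) →
      θ * E - ε₁ ≤ Vr (m.W 0) (pr a) (pr a) → Gs3 (m.W 0) (pr f) (θ * g) ε := by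
  obtain ⟨R, ε₂, hR, hε₂, H⟩ := hA.2.2 G ε hε
  set T : ℝ := |F.τ₂| + 1 with hT
  have hT0 : 0 < T := by positivity
  set η : ℝ := ε₂ / (2 * (1 + R ^ 2)) with hη
  have hη0 : 0 < η := by positivity
  have hη1 : η * (2 * (1 + R ^ 2)) = ε₂ := div_mul_cancel₀ _ (by positivity)
  set s : ℝ := min 1 (η / (2 * Real.sqrt G + 1)) with hs
  have hs0 : 0 < s := by positivity
  set εa : ℝ := min (s ^ 2 / T) (min (1 / R ^ 2) (ε₂ / (T * R ^ 2))) with hεa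
  have hεa0 : 0 < εa := by positivity
  have b1 : εa * T ≤ s ^ 2 := (le_div_iff₀ hT0).1 (min_le_left _ _)
  have b2 : εa * R ^ 2 ≤ 1 := (le_div_iff₀ (by positivity)).1 ((min_le_right _ _).trans (min_le_left _ _))
  have b3 : εa * (T * R ^ 2) ≤ ε₂ :=
    (le_div_iff₀ (by positivity)).1 ((min_le_right _ _).trans (min_le_right _ _))
  refine ⟨R, ε₂ / 2, εa, hR, by positivity, hεa0,
    fun Λ hΛ m f a θ E g hc han hw h0 h1 hg hG hE hth hf hM hV => ?_⟩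
  have hO := ok hΛ
  have hτ : Λ.τ ≤ T := by linarith [hΛ.2.2.2, le_abs_self F.τ₂]
  have hss : Real.sqrt (Λ.τ * εa) ≤ s := by
    rw [Real.sqrt_le_left hs0.le]; nlinarith
  have hEg : |E - g| ≤ η := by
    refine (abs_sub_of_sqrt hg hE hG (hth.trans hss) (min_le_left _ _)).trans ?_
    exact (le_div_iff₀ (by positivity)).1 (min_le_right _ _)
  have hθ : |θ * E - θ * g| ≤ η := by
    rw [← mul_sub, abs_mul, abs_of_nonneg h0]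
    exact (mul_le_of_le_one_left (abs_nonneg _) h1).trans hEg
  have e : pr f = pr a + pr (f - a) := by rw [pr_sub]; abel
  have hR2 : ∀ t : ℝ, |t| ≤ R → t ^ 2 ≤ R ^ 2 := fun t ht => by
    rw [← sq_abs]; exact pow_le_pow_left₀ (abs_nonneg t) ht 2
  rw [e]
  refine H _ (m.W 0) (pr a) (pr (f - a)) (θ * g) (hc.cen han) ?_ (fun t ht => ?_) ?_ fun t ht => ?_
  · rw [abs_of_nonneg (mul_nonneg h0 hg)]; exact (mul_le_of_le_one_left hg h1).trans hG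
  · have := hR2 t ht
    have h2 : (θ * E - θ * g) * t ^ 2 ≤ η * R ^ 2 :=
      mul_le_mul (abs_le.1 hθ).2 this (sq_nonneg t) hη0.le
    nlinarith [hM t ht]
  · nlinarith [(abs_le.1 hθ).1, mul_nonneg hη0.le (sq_nonneg R)]
  · have hn : t ^ 2 * εa ≤ R ^ 2 * εa := mul_le_mul_of_nonneg_right (hR2 t ht) hεa0.le
    have h2 := (hB.2.1 Λ m _ _ hO hc han m.ed (Finset.Subset.refl _) hw (f2A_smul hf hn)).2.1
    rw [pr_smul] at h2
    have hn0 : 0 ≤ R ^ 2 * εa := by positivity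
    have h3 := cosh_sqrt_le hn0 (by linarith)
    have h4 : Λ.τ * (R ^ 2 * εa) ≤ ε₂ := by nlinarith [mul_le_mul_of_nonneg_right hτ hn0]
    have h5 := mul_le_mul h4 h3 (Real.cosh_pos _).le hε₂.le
    linarith


theorem thomD (hB : BrStmt) {Λ : Lat} (h : Λ.Ok) {D : Finset Pt} {f u : Pt → ℝ} {n : ℝ} {r : ℕ}
    (hr : Λ.rg ≤ r) (hu : ∀ x, u x ≠ 0 → bl x r ⊆ D) (hf : F2A (Λ.edT D) D (f - Λ.Au D u) n) :
    |Real.sqrt ((Λ.D D).gr Λ.τ f) - Real.sqrt (Λ.En D u u)| ≤ Real.sqrt (Λ.τ * n) ∧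
      0 ≤ (Λ.D D).gr Λ.τ f := by
  have h0 : ∀ x, x ∉ D → u x = 0 := fun x hx => by
    by_contra hn
    exact hx (hu x hn (self_mem_bl x r))
  have hz : ∀ e ∈ Λ.edT D, e ∉ Λ.edI D → u e.2 - u e.1 = 0 := fun e he hn => by
    have hJ := (Lat.mem_edT.1 he).1
    have h1 : u e.1 = 0 := by
      by_contra h1
      exact hn (Lat.mem_edI.2 ⟨hJ, hu _ h1 (self_mem_bl _ r), hu _ h1 (bl_mono _ hr (Lat.edge_near hJ))⟩)
    have h2 : u e.2 = 0 := by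
      by_contra h2
      exact hn (Lat.mem_edI.2 ⟨hJ, hu _ h2 (bl_mono _ hr (Lat.edge_near' hJ)), hu _ h2 (self_mem_bl _ r)⟩)
    rw [h1, h2, sub_self]
  have e1 : (dv (Λ.edT D) fun e => (u e.2 - u e.1) / Λ.τ) = Λ.Au D u := by
    funext x
    exact (sum_subset (Lat.edI_subset_edT D) fun e he hn => by simp [hz e he hn]).symm
  have e2 : ∑ e ∈ Λ.edT D, (u e.2 - u e.1) ^ 2 / Λ.τ = Λ.En D u u := by
    rw [en_eq]
    exact (sum_subset (Lat.edI_subset_edT D) fun e he hn => by rw [hz e he hn]; simp).symm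
  have := hB.2.2.2.2.2.2 (Λ.D D) Λ.τ u f n h.2 (fun e _ => ⟨h0 _, h0 _⟩)
    (by rw [Lat.D_ed, e1]; exact hf)
  rwa [Lat.D_ed, e2] at this

/-- T1x without the flow -/
theorem t1x0 (hX : T1xStmt) (hB : BrStmt) (F : Fa) {K R ε : ℝ} (hK : 1 ≤ K) (hR : 0 < R) (hε : 0 < ε) :
    ∃ δ : ℝ, 0 < δ ∧ ∀ Λ, F.Mem Λ → ∀ l L, 1 ≤ L → Sep δ l L → ∀ (m : Mdl Pt) (u : Pt → ℝ),
      Λ.Amb m (sq 0 L) → Sm2 u K L → ∀ t : ℝ, |t| ≤ R →
        M (m.W 0) (t • pr (Λ.Au (sq 0 L) u)) ≤ Λ.tN l * Λ.En (sq 0 L) u u * t ^ 2 / 2 + ε := by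
  obtain ⟨δ, hδ, H⟩ := hX F (K * (R + 4)) ε hε
  refine ⟨δ, hδ, fun Λ hΛ l L hL hs m u hm hu t ht => ?_⟩
  have hL' : (0 : ℝ) < L := by exact_mod_cast hL
  have := H Λ hΛ l L hs m (sq 0 L) (t • u) (fun _ => 0) hm (reg_sq hB l L (by nlinarith))
    (sm2_smul hu hL' (by nlinarith [abs_nonneg t])) fun _ _ => by simp only [abs_zero]; positivity
  rw [au_smul, dv_zero, pr_zero, add_zero, pr_smul, en_smul] at this
  refine this.trans (le_of_eq ?_)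
  simp only [zero_mul, sum_const_zero, ne_eq, OfNat.ofNat_ne_zero, not_false_eq_true, zero_pow]
  ring

end F45


/-- the Dirichlet box is a Dirichlet free field -/
theorem gffDStmt (hP : ApxStmt) (hA : AFacStmt) (hX : T1xStmt) (hD : DlgStmt) (ha : T1aStmt)
    (hB : BrStmt) (hR : RJStmt) : GffDStmt := by
  intro F θ₀ K ε hθ hK hε
  obtain ⟨C, hC0, hC⟩ := en_le hR F
  obtain ⟨_, hT⟩ := ha F
  obtain ⟨K₁, L₁, hK₁, P₁⟩ := hP F K 1 one_pos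
  obtain ⟨R, ε₁, εa, hR0, hε₁, hεa, H⟩ :=
    gs_core hA hB F (G := (Real.sqrt (C * (K₁ : ℝ) ^ 2) + Real.sqrt F.τ₂) ^ 2) hε
  obtain ⟨K₂, L₂, hK₂, P₂⟩ := hP F K εa hεa
  have hK₂' : (1 : ℝ) ≤ K₂ := by exact_mod_cast hK₂
  obtain ⟨δ₁, hδ₁, H₁⟩ := t1x0 hX hB F hK₂' hR0 hε₁
  obtain ⟨δ₂, hδ₂, H₂⟩ := hD F θ₀ K₂ ε₁ hθ hK₂' hε₁
  set ρ : ℕ := ProbabilityR.HeightModel.interactionRange F.J with hρ
  refine ⟨min (min δ₁ δ₂) (1 / (((L₁ + L₂ + ρ * K₁ + ρ * K₂ : ℕ) : ℝ) + 1)), by positivity,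
    fun Λ hΛ l L hw f hf hfb => ?_⟩
  have hL := win_L hw
  have hLL := win_large hw (min_le_right _ _)
  have hO := ok hΛ
  have hrg : Λ.rg = ρ := by rw [hρ, ← hΛ.1]; rfl
  obtain ⟨h0, h1, -⟩ := hT Λ hΛ l (win_l hw)
  obtain ⟨u₁, hu₁, -, hs₁, hf₁⟩ := (P₁ Λ hΛ L (by omega) f hf hfb).2
  obtain ⟨u, hu, -, hs, hf₂⟩ := (P₂ Λ hΛ L (by omega) f hf hfb).2
  have r₁ : Λ.rg ≤ L / K₁ := (Nat.le_div_iff_mul_le hK₁).2 (by rw [hrg]; omega)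
  have r₂ : Λ.rg ≤ L / K₂ := (Nat.le_div_iff_mul_le hK₂).2 (by rw [hrg]; omega)
  obtain ⟨t1, t2⟩ := thomD hB hO r₂ hs hf₂
  have hG := H₂ Λ hΛ l L (win_mono hw ((min_le_left _ _).trans (min_le_right _ _))) (Λ.D (sq 0 L))
    (sq 0 L) 0 u (ambD hO _) (Loc.refl _) hu fun x hx => by
      rw [Nat.floor_div_eq_div, ← Nat.cast_mul, Nat.floor_natCast]
      refine ⟨?_, hs x hx⟩
      have hx' := mem_sq0.1 (hs x hx (self_mem_bl x _))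
      have : (L : ℤ) ≤ (K₂ * L : ℕ) := by exact_mod_cast Nat.le_mul_of_pos_left L hK₂
      rw [mem_bl]; simp only [Prod.fst_zero, Prod.snd_zero]; omega
  exact H Λ hΛ (Λ.D (sq 0 L)) f (Λ.Au (sq 0 L) u) _ _ _ (ambD hO _).1 (ambD hO _).2.1
    (fun _ _ => rfl) h0 h1 t2
    (le_of_sqrt t2 (hC Λ hΛ L u₁ K₁ hL hu₁) (by linarith [hΛ.2.2.2]) (thomD hB hO r₁ hs₁ hf₁).1)
    (en_nonneg hO _ u) t1 hf₂
    (H₁ Λ hΛ l L hL (win_mono hw ((min_le_left _ _).trans (min_le_left _ _))).2.1 _ u (ambD hO _) hu)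
    (by linarith [(abs_le.1 hG.1).1])

end Crest.Agent.T145
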