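import Crest.Agent.T145.GffDef_8
import Crest.Agent.T145.ApiL_98
import Crest.Agent.T145.CorB_59
import Crest.Agent.T145.CutC_7

/-!
# Row 145, module (b) (helper80): `sprStmt : SprStmt`, Fourier and Poisson formulas for springs

* generic: `Wt.hasSum_ex` (sum under `Ex`), `Wt.ex_integral` (Fubini), `Wt.continuous_ex`
* Gaussian: `Spr.gauss_cos`, `Spr.poisson`, `Spr.poissonC`, `Spr.summable_gs`, `Spr.summable_gf`
* springs for any centred kernel `w`: `Spr.chi_eq`, `Spr.ex_cos`, `Spr.fourier`, `Spr.hasSum_spr`,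
  `Spr.spr_poisson`, `Spr.spr_poissonC`, `Spr.summable_spr`, `Spr.summable_chi`, `Spr.spr_decay`,
  `Spr.spr_ge`, `Spr.spr_pos`, `Spr.spr_neg`; for the families `Spr.vr_av_le`, `Spr.ex_sq_kern_le`
-/

set_option autoImplicit false

namespace Crest.Agent.T145

open Finset MeasureTheory ProbabilityTheory

section generic
variable {α ι : Type*} {W : α → ℝ}

/-- a series under the expectation -/
theorem Wt.hasSum_ex (hW : Wt W) {F : ι → α → ℝ} {C : ℝ} (h1 : ∀ a, Summable fun i => |F i a|)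
    (h2 : ∀ a, ∑' i, |F i a| ≤ C) :
    HasSum (fun i => Ex W (F i)) (Ex W fun a => ∑' i, F i a) := by
  have hs : Summable fun p : α × ι => W p.1 * F p.2 p.1 := by
    refine Summable.of_abs ((summable_prod_of_nonneg fun p => abs_nonneg _).2 ⟨fun a => ?_, ?_⟩)
    · simpa only [abs_mul] using (h1 a).mul_left |W a|
    · refine Summable.of_nonneg_of_le (fun a => tsum_nonneg fun i => abs_nonneg _) (fun a => ?_)
        (hW.summ.mul_right C)
      simp only [abs_mul, tsum_mul_left, abs_of_nonneg (hW.nonneg a)]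
      exact mul_le_mul_of_nonneg_left (h2 a) (hW.nonneg a)
  have h3 : HasSum (fun i => ∑' a, W a * F i a) (∑' p : α × ι, W p.1 * F p.2 p.1) :=
    ((Equiv.prodComm ι α).hasSum_iff.2 hs.hasSum).prod_fiberwise fun i =>
      (hs.prod_symm.prod_factor i).hasSum
  have h4 : ∑' p : α × ι, W p.1 * F p.2 p.1 = ∑' a, W a * ∑' i, F i a := by
    rw [hs.tsum_prod]
    exact tsum_congr fun a => tsum_mul_left (a := W a) (f := fun i => F i a)
  simp only [Ex_def]
  rw [← h4]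
  exact h3.div_const _

/-- Fubini for bounded integrands -/
theorem Wt.ex_integral [Countable α] (hW : Wt W) {X : Type*} [MeasurableSpace X] (μ : Measure X)
    [IsFiniteMeasure μ] {F : α → X → ℝ} {C : ℝ} (hm : ∀ a, AEStronglyMeasurable (F a) μ)
    (hb : ∀ a x, |F a x| ≤ C) :
    Ex W (fun a => ∫ x, F a x ∂μ) = ∫ x, Ex W (fun a => F a x) ∂μ := by
  have hi : ∀ a, Integrable (fun x => W a * F a x) μ := fun a =>
    (Integrable.of_bound (hm a) C (ae_of_all _ (hb a))).const_mul _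
  have h := integral_tsum_of_summable_integral_norm hi
    (Summable.of_nonneg_of_le (fun a => integral_nonneg fun x => norm_nonneg _) (fun a => by
      have := norm_integral_le_of_norm_le_const (μ := μ) (f := fun x => ‖W a * F a x‖)
        (C := W a * C) (ae_of_all _ fun x => by
          rw [norm_norm, Real.norm_eq_abs, abs_mul, abs_of_nonneg (hW.nonneg a)]
          exact mul_le_mul_of_nonneg_left (hb a x) (hW.nonneg a))
      exact (le_abs_self _).trans this) ((hW.summ.mul_right C).mul_right (μ.real Set.univ)))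
  simp only [Ex_def, integral_div, ← h, integral_const_mul]

theorem Wt.continuous_ex (hW : Wt W) {X : Type*} [TopologicalSpace X] {F : X → α → ℝ} {C : ℝ}
    (hc : ∀ a, Continuous fun x => F x a) (hb : ∀ x a, |F x a| ≤ C) :
    Continuous fun x => Ex W (F x) := by
  simp only [Ex_def]
  refine (continuous_tsum (u := fun a => W a * C) (fun a => (hc a).const_mul _)
    (hW.summ.mul_right C) fun a x => ?_).div_const _
  rw [Real.norm_eq_abs, abs_mul, abs_of_nonneg (hW.nonneg a)]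
  exact mul_le_mul_of_nonneg_left (hb x a) (hW.nonneg a)

end generic

namespace Spr

/-! ### Gaussian sums and integrals -/

section gauss
variable {κ : ℝ}

theorem gauss_cos (hκ : 0 ≤ κ) (x : ℝ) :
    ∫ ζ, Real.cos (ζ * x) ∂gaussianReal 0 κ.toNNReal = Real.exp (-κ * x ^ 2 / 2) := by
  have h := charFun_gaussianReal (μ := 0) (v := κ.toNNReal) x
  rw [charFun_apply_real] at h
  have hi : Integrable (fun ζ : ℝ => Complex.exp (x * ζ * Complex.I)) (gaussianReal 0 κ.toNNReal) :=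
    Integrable.of_bound (by fun_prop) 1 (ae_of_all _ fun ζ => by
      rw [← Complex.ofReal_mul, Complex.norm_exp_ofReal_mul_I])
  have h2 := congrArg Complex.re h
  rw [← Complex.reCLM_apply, ← ContinuousLinearMap.integral_comp_comm _ hi] at h2
  simp only [Complex.reCLM_apply, ← Complex.ofReal_mul, Complex.exp_ofReal_mul_I_re] at h2
  rw [show (fun ζ : ℝ => Real.cos (ζ * x)) = fun ζ => Real.cos (x * ζ) from
    funext fun ζ => by rw [mul_comm], h2, Real.coe_toNNReal _ hκ, ← Complex.exp_ofReal_re]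
  congr 2
  push_cast
  ring

theorem gs_eq (hκ : 0 < κ) (x : ℝ) (k : ℤ) : Real.exp (-κ * (x + k) ^ 2 / 2) =
    Real.exp (-κ * x ^ 2 / 2) * (gau κ⁻¹ k * Real.exp (-κ * x * k)) := by
  rw [gau, ← Real.exp_add, ← Real.exp_add]
  congr 1
  field_simp
  ring

theorem summable_gs (hκ : 0 < κ) (x : ℝ) :
    Summable fun k : ℤ => Real.exp (-κ * (x + k) ^ 2 / 2) := by
  simp only [gs_eq hκ]
  exact (Bes66.summable_gau (inv_pos.2 hκ) _).mul_left _

theorem tsum_gs_le (hκ : 0 < κ) (x : ℝ) :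
    ∑' k : ℤ, Real.exp (-κ * (x + k) ^ 2 / 2) ≤ Zs (gau κ⁻¹) := by
  simp only [gs_eq hκ]
  rw [tsum_mul_left]
  refine (mul_le_mul_of_nonneg_left ((gauStmt _ (inv_pos.2 hκ)).2 _) (Real.exp_pos _).le).trans_eq ?_
  rw [← mul_assoc, ← Real.exp_add,
    show -κ * x ^ 2 / 2 + κ⁻¹ * (-κ * x) ^ 2 / 2 = 0 by field_simp; ring, Real.exp_zero, one_mul, Zs]

theorem summable_gf (hκ : 0 < κ) (α : ℝ) :
    Summable fun p : ℤ => Real.exp (-(2 * Real.pi * p - α) ^ 2 / (2 * κ)) := by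
  have hπ := Real.pi_pos
  refine (summable_gs (κ := 4 * Real.pi ^ 2 / κ) (by positivity) (-α / (2 * Real.pi))).congr
    fun p => ?_
  congr 1
  field_simp
  ring

/-- Poisson summation for a shifted Gaussian with a phase -/
theorem poissonC (hκ : 0 < κ) (x α : ℝ) :
    ∑' k : ℤ, (Real.exp (-κ * (x + k) ^ 2 / 2) : ℂ) * Complex.exp ((α * k : ℝ) * Complex.I) =
      (Real.sqrt (2 * Real.pi / κ) : ℂ) *
        ∑' p : ℤ, (Real.exp (-(2 * Real.pi * p - α) ^ 2 / (2 * κ)) : ℂ) *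
          Complex.exp (((2 * Real.pi * p - α) * x : ℝ) * Complex.I) := by
  have hπ := Real.pi_pos
  have ha : 0 < κ / (2 * Real.pi) := by positivity
  have H := Complex.tsum_exp_neg_quadratic (a := ((κ / (2 * Real.pi) : ℝ) : ℂ))
    (by rwa [Complex.ofReal_re]) ((-κ * x + α * Complex.I) / (2 * Real.pi))
  have hπc : (Real.pi : ℂ) ≠ 0 := by exact_mod_cast hπ.ne'
  have hκc : (κ : ℂ) ≠ 0 := by exact_mod_cast hκ.ne'
  have e1 : ∀ k : ℤ, (Real.exp (-κ * (x + k) ^ 2 / 2) : ℂ) * Complex.exp ((α * k : ℝ) * Complex.I) =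
      Complex.exp (-κ * x ^ 2 / 2) *
        Complex.exp (-(Real.pi : ℂ) * ((κ / (2 * Real.pi) : ℝ) : ℂ) * (k : ℂ) ^ 2 +
          2 * (Real.pi : ℂ) * ((-κ * x + α * Complex.I) / (2 * Real.pi)) * k) := by
    intro k
    rw [Complex.ofReal_exp, ← Complex.exp_add, ← Complex.exp_add]
    congr 1
    push_cast
    field_simp
    ring
  have e2 : ∀ p : ℤ, (Real.exp (-(2 * Real.pi * p - α) ^ 2 / (2 * κ)) : ℂ) *
      Complex.exp (((2 * Real.pi * p - α) * x : ℝ) * Complex.I) = Complex.exp (-κ * x ^ 2 / 2) *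
        Complex.exp (-(Real.pi : ℂ) / ((κ / (2 * Real.pi) : ℝ) : ℂ) *
          ((p : ℂ) + Complex.I * ((-κ * x + α * Complex.I) / (2 * Real.pi))) ^ 2) := by
    intro p
    rw [Complex.ofReal_exp, ← Complex.exp_add, ← Complex.exp_add]
    congr 1
    have : Complex.I * ((-κ * x + α * Complex.I) / (2 * Real.pi)) =
        (-κ * x * Complex.I - α) / (2 * Real.pi) := by
      rw [← mul_div_assoc]
      congr 1
      linear_combination (α : ℂ) * Complex.I_mul_I
    rw [this]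
    push_cast
    field_simp
    linear_combination (κ : ℂ) ^ 2 * x ^ 2 * Complex.I_mul_I
  have e3 : (Real.sqrt (2 * Real.pi / κ) : ℂ) = 1 / ((κ / (2 * Real.pi) : ℝ) : ℂ) ^ (1 / 2 : ℂ) := by
    rw [show (1 / 2 : ℂ) = ((1 / 2 : ℝ) : ℂ) by push_cast; rfl, ← Complex.ofReal_cpow ha.le,
      ← Real.sqrt_eq_rpow, one_div, ← Complex.ofReal_inv, ← Real.sqrt_inv, inv_div]
  simp only [e1, e2]
  rw [tsum_mul_left, tsum_mul_left, H, e3, mul_left_comm]

theorem summable_cexp {ι : Type*} {u : ι → ℝ} (hu : Summable u) (θ : ι → ℝ) :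
    Summable fun i => (u i : ℂ) * Complex.exp ((θ i : ℝ) * Complex.I) :=
  Summable.of_norm (by simpa [Complex.norm_exp_ofReal_mul_I] using hu.abs)

theorem re_tsum_cexp {ι : Type*} {u : ι → ℝ} (hu : Summable u) (θ : ι → ℝ) (β : ℝ) :
    (Complex.exp (β * Complex.I) * ∑' i, (u i : ℂ) * Complex.exp ((θ i : ℝ) * Complex.I)).re =
      ∑' i, u i * Real.cos (θ i + β) := by
  rw [← tsum_mul_left, Complex.re_tsum ((summable_cexp hu θ).mul_left _)]
  refine tsum_congr fun i => ?_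
  rw [mul_left_comm, ← Complex.exp_add, Complex.re_ofReal_mul, ← add_mul, ← Complex.ofReal_add,
    Complex.exp_ofReal_mul_I_re, add_comm]

theorem poisson (hκ : 0 < κ) (x α β : ℝ) :
    ∑' k : ℤ, Real.exp (-κ * (x + k) ^ 2 / 2) * Real.cos (α * k + β) =
      Real.sqrt (2 * Real.pi / κ) * ∑' p : ℤ, Real.exp (-(2 * Real.pi * p - α) ^ 2 / (2 * κ)) *
        Real.cos ((2 * Real.pi * p - α) * x + β) := by
  rw [← re_tsum_cexp (summable_gs hκ x), poissonC hκ, mul_left_comm, Complex.re_ofReal_mul,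
    re_tsum_cexp (summable_gf hκ α)]

end gauss

/-! ### the mean of `n` independent edges -/

section spring
variable {w : ℤ → ℝ} {n : ℕ} {κ : ℝ}

/-- weight of `n` independent edges -/
noncomputable abbrev pk (w : ℤ → ℝ) (n : ℕ) (k : Fin n → ℤ) : ℝ := ∏ j, w (k j)

/-- their sum -/
noncomputable def tot (n : ℕ) : (Fin n → ℤ) →+ ℝ :=
  ∑ j, (Int.castAddHom ℝ).comp (Pi.evalAddMonoidHom (fun _ => ℤ) j)

theorem tot_apply (k : Fin n → ℤ) : tot n k = ∑ j, (k j : ℝ) := by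
  rw [tot, AddMonoidHom.finsetSum_apply]; rfl

/-- their mean -/
noncomputable def av (n : ℕ) : (Fin n → ℤ) →+ ℝ := (n : ℝ)⁻¹ • tot n

theorem av_apply (k : Fin n → ℤ) : av n k = (∑ j, (k j : ℝ)) / n := by
  rw [av, AddMonoidHom.smul_apply, tot_apply, smul_eq_mul, div_eq_inv_mul]

theorem cen_pk (h : Cen w) (n : ℕ) : Cen (pk w n) := Cut7.cen_pi rsdStmt fun _ => h

theorem spr_eq (w : ℤ → ℝ) (n : ℕ) (κ t : ℝ) :
    spr w n κ t = Ex (pk w n) fun k => Real.exp (-κ * (t - av n k) ^ 2 / 2) := by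
  simp only [av_apply]; rfl

theorem ex_prod (h : Wt w) {F : Fin n → ℤ → ℝ} (hF : ∀ j, Ig w (F j)) :
    Ex (pk w n) (fun k => ∏ j, F j (k j)) = ∏ j, Ex w (F j) := by
  simp only [Ex, pk, ← prod_mul_distrib]
  rw [(hasSum_pi_prod (fun j k => w k * F j k) hF).tsum_eq,
    (hasSum_pi_prod (fun _ => w) fun _ => h.summ).tsum_eq, prod_div_distrib]

theorem ex_cos_tot (h : Cen w) (a : ℝ) (n : ℕ) :
    Ex (pk w n) (fun k => Real.cos (a * ∑ j, (k j : ℝ))) = (Ex w fun k => Real.cos (a * k)) ^ n := by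
  induction n with
  | zero => simp [(cen_pk h 0).wt.ex_const]
  | succ n ih =>
    have hP := (cen_pk h n).wt
    rw [← Ex_equiv (Fin.consEquiv fun _ => ℤ)]
    have e1 : (fun p : ℤ × (Fin n → ℤ) => pk w (n + 1) ((Fin.consEquiv fun _ => ℤ) p)) =
        fun p => w p.1 * pk w n p.2 := funext fun p => by
      simp [Fin.prod_univ_succ, Fin.consEquiv]
    have e2 : (fun p : ℤ × (Fin n → ℤ) =>
        Real.cos (a * ∑ j, (((Fin.consEquiv fun _ : Fin (n + 1) => ℤ) p j : ℤ) : ℝ))) =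
        fun p => Real.cos (a * p.1) * Real.cos (a * ∑ j, (p.2 j : ℝ)) -
          Real.sin (a * p.1) * Real.sin (a * ∑ j, (p.2 j : ℝ)) := funext fun p => by
      rw [← Real.cos_add, ← mul_add]
      simp [Fin.sum_univ_succ, Fin.consEquiv]
    have c1 : Ig w fun k : ℤ => Real.cos (a * k) := h.wt.ig_bdd fun _ => Real.abs_cos_le_one _
    have s1 : Ig w fun k : ℤ => Real.sin (a * k) := h.wt.ig_bdd fun _ => Real.abs_sin_le_one _
    have c2 : Ig (pk w n) fun k => Real.cos (a * ∑ j, (k j : ℝ)) :=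
      hP.ig_bdd fun _ => Real.abs_cos_le_one _
    have s2 : Ig (pk w n) fun k => Real.sin (a * ∑ j, (k j : ℝ)) :=
      hP.ig_bdd fun _ => Real.abs_sin_le_one _
    rw [e1, e2, Ex_sub (c1.prod c2) (s1.prod s2), Ex_prod_mul h.wt.summ hP.summ c1 c2,
      Ex_prod_mul h.wt.summ hP.summ s1 s2, ih, h.ex_odd (F := fun k : ℤ => Real.sin (a * k))
        fun k => by rw [Int.cast_neg, mul_neg, Real.sin_neg], zero_mul, sub_zero, pow_succ']

/-- `chi` is the characteristic function of the mean -/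
theorem chi_eq (h : Cen w) (n : ℕ) (ζ : ℝ) :
    chi w n ζ = Ex (pk w n) fun k => Real.cos (ζ * av n k) := by
  rw [chi, ← ex_cos_tot h]
  refine congrArg _ (funext fun k => ?_)
  rw [av_apply, div_mul_eq_mul_div, mul_div_assoc]

theorem chi_eq_Ph (h : Cen w) (n : ℕ) (ζ : ℝ) : chi w n ζ = Ph (pk w n) (ζ • av n) := chi_eq h n ζ


theorem abs_chi_le (h : Cen w) (n : ℕ) (ζ : ℝ) : |chi w n ζ| ≤ 1 :=
  chi_eq_Ph h n ζ ▸ (cen_pk h n).wt.abs_Ph_le _

theorem chi_le (h : Cen w) (n : ℕ) (ζ : ℝ) : chi w n ζ ≤ 1 := (le_abs_self _).trans (abs_chi_le h n ζ)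


theorem chi_neg (w : ℤ → ℝ) (n : ℕ) (ζ : ℝ) : chi w n (-ζ) = chi w n ζ := by
  simp only [chi, neg_div, neg_mul, Real.cos_neg]

theorem continuous_chi (h : Cen w) (n : ℕ) : Continuous (chi w n) :=
  (h.wt.continuous_ex (F := fun (ζ : ℝ) (k : ℤ) => Real.cos (ζ / n * k)) (fun _ => by fun_prop)
    fun _ _ => Real.abs_cos_le_one _).pow n

theorem ex_cos (h : Cen w) (n : ℕ) (ζ t β : ℝ) :
    Ex (pk w n) (fun k => Real.cos (ζ * (t - av n k) + β)) = chi w n ζ * Real.cos (ζ * t + β) := by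
  have hP := cen_pk h n
  have e : (fun k => Real.cos (ζ * (t - av n k) + β)) = fun k =>
      Real.cos (ζ * av n k) * Real.cos (ζ * t + β) + Real.sin (ζ * av n k) * Real.sin (ζ * t + β) :=
    funext fun k => by rw [← Real.cos_sub, ← Real.cos_neg]; congr 1; ring
  rw [e, Ex_add ((hP.ig (Tame.cos _)).mul_const _) ((hP.ig (Tame.sin _)).mul_const _), Ex_mul_const,
    Ex_mul_const, hP.ex_odd (F := fun k => Real.sin (ζ * av n k))
      fun k => by rw [map_neg, mul_neg, Real.sin_neg], zero_mul, add_zero, chi_eq h]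

theorem abs_gs_le (hκ : 0 ≤ κ) (x : ℝ) : |Real.exp (-κ * x ^ 2 / 2)| ≤ 1 := by
  rw [Real.abs_exp, Real.exp_le_one_iff]
  nlinarith [mul_nonneg hκ (sq_nonneg x)]

theorem ig_gs (h : Cen w) (hκ : 0 ≤ κ) (t : ℝ) :
    Ig (pk w n) fun k => Real.exp (-κ * (t - av n k) ^ 2 / 2) :=
  (cen_pk h n).wt.ig_bdd fun _ => abs_gs_le hκ _


theorem spr_le (h : Cen w) (n : ℕ) (hκ : 0 ≤ κ) (t : ℝ) : spr w n κ t ≤ 1 :=
  spr_eq w n κ t ▸ (cen_pk h n).wt.ex_le (ig_gs h hκ t) fun _ _ =>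
    (le_abs_self _).trans (abs_gs_le hκ _)



/-- Fourier representation of the spring -/
theorem fourier (h : Cen w) (n : ℕ) (hκ : 0 ≤ κ) (t : ℝ) :
    spr w n κ t = ∫ ζ, chi w n ζ * Real.cos (ζ * t) ∂gaussianReal 0 κ.toNNReal := by
  simp only [spr_eq, ← gauss_cos hκ]
  rw [(cen_pk h n).wt.ex_integral _ (F := fun k ζ => Real.cos (ζ * (t - av n k))) (C := 1)
    (fun _ => by fun_prop) fun _ _ => Real.abs_cos_le_one _]
  refine integral_congr_ae (ae_of_all _ fun ζ => ?_)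
  simpa using ex_cos h n ζ t 0

theorem abs_mul_cos_le {u : ℝ} (hu : 0 ≤ u) (θ : ℝ) : |u * Real.cos θ| ≤ u := by
  rw [abs_mul, abs_of_nonneg hu]; exact mul_le_of_le_one_right hu (Real.abs_cos_le_one _)

theorem summable_abs_cos {ι : Type*} {u : ι → ℝ} (hu : Summable u) (h0 : ∀ i, 0 ≤ u i) (θ : ι → ℝ) :
    Summable fun i => |u i * Real.cos (θ i)| :=
  Summable.of_nonneg_of_le (fun _ => abs_nonneg _) (fun i => abs_mul_cos_le (h0 i) _) hu

theorem hasSum_left (h : Cen w) (n : ℕ) (hκ : 0 < κ) (t : ℝ) (θ : ℤ → ℝ) :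
    HasSum (fun k : ℤ => spr w n κ (t + k) * Real.cos (θ k)) (Ex (pk w n) fun s =>
      ∑' k : ℤ, Real.exp (-κ * (t - av n s + k) ^ 2 / 2) * Real.cos (θ k)) := by
  have h1 := fun s : Fin n → ℤ => summable_abs_cos (summable_gs hκ (t - av n s))
    (fun _ => (Real.exp_pos _).le) θ
  have h2 := (cen_pk h n).wt.hasSum_ex h1 fun s =>
    ((h1 s).tsum_le_tsum (fun _ => abs_mul_cos_le (Real.exp_pos _).le _)
      (summable_gs hκ _)).trans (tsum_gs_le hκ _)
  simpa only [Ex_mul_const, spr_eq, add_sub_right_comm] using h2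

theorem hasSum_right (h : Cen w) (n : ℕ) (hκ : 0 < κ) (t α β : ℝ) :
    HasSum (fun p : ℤ => Real.exp (-(2 * Real.pi * p - α) ^ 2 / (2 * κ)) *
        chi w n (2 * Real.pi * p - α) * Real.cos ((2 * Real.pi * p - α) * t + β))
      (Ex (pk w n) fun s => ∑' p : ℤ, Real.exp (-(2 * Real.pi * p - α) ^ 2 / (2 * κ)) *
        Real.cos ((2 * Real.pi * p - α) * (t - av n s) + β)) := by
  have h1 := fun s : Fin n → ℤ => summable_abs_cos (summable_gf hκ α)
    (fun _ => (Real.exp_pos _).le) fun p : ℤ => (2 * Real.pi * p - α) * (t - av n s) + β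
  have h2 := (cen_pk h n).wt.hasSum_ex h1 fun s =>
    (h1 s).tsum_le_tsum (fun _ => abs_mul_cos_le (Real.exp_pos _).le _) (summable_gf hκ α)
  simpa only [Ex_const_mul, ex_cos h, mul_assoc] using h2




/-- Poisson summation for the spring -/
theorem hasSum_spr (h : Cen w) (n : ℕ) (hκ : 0 < κ) (t α β : ℝ) :
    HasSum (fun k : ℤ => spr w n κ (t + k) * Real.cos (α * k + β))
      (Real.sqrt (2 * Real.pi / κ) * ∑' p : ℤ, Real.exp (-(2 * Real.pi * p - α) ^ 2 / (2 * κ)) *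
        chi w n (2 * Real.pi * p - α) * Real.cos ((2 * Real.pi * p - α) * t + β)) := by
  have h1 := hasSum_left h n hκ t fun k => α * k + β
  simp only [poisson hκ] at h1
  rwa [Ex_const_mul, ← (hasSum_right h n hκ t α β).tsum_eq] at h1

theorem spr_poisson (h : Cen w) (n : ℕ) (hκ : 0 < κ) (t α β : ℝ) :
    ∑' k : ℤ, spr w n κ (t + k) * Real.cos (α * k + β) =
      Real.sqrt (2 * Real.pi / κ) * ∑' p : ℤ, Real.exp (-(2 * Real.pi * p - α) ^ 2 / (2 * κ)) *
        chi w n (2 * Real.pi * p - α) * Real.cos ((2 * Real.pi * p - α) * t + β) :=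
  (hasSum_spr h n hκ t α β).tsum_eq



/-- Jensen -/
theorem spr_ge (h : Cen w) (n : ℕ) (hκ : 0 ≤ κ) (t : ℝ) :
    Real.exp (-κ * (t ^ 2 + Vr (pk w n) (av n) (av n)) / 2) ≤ spr w n κ t := by
  have hP := cen_pk h n
  have i1 := hP.ig (Tame.hom (av n))
  have i2 := hP.ig ((Tame.hom (av n)).mul (Tame.hom (av n)))
  have e : (fun k => -κ * (t - av n k) ^ 2 / 2) =
      fun k => -κ / 2 * (av n k * av n k) + κ * t * av n k + -κ * t ^ 2 / 2 := funext fun k => by ring
  have i3 : Ig (pk w n) fun k => -κ * (t - av n k) ^ 2 / 2 :=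
    e ▸ ((i2.const_mul _).add (i1.const_mul _)).add (hP.wt.ig_const _)
  rw [spr_eq]
  refine le_trans (le_of_eq ?_) (hP.wt.exp_ex_le i3 (ig_gs h hκ t))
  rw [e, hP.wt.ex_add_const ((i2.const_mul _).add (i1.const_mul _)),
    Ex_add (i2.const_mul _) (i1.const_mul _), Ex_const_mul, Ex_const_mul, hP.ex_hom, hP.Vr_eq]
  congr 1
  ring

/-- exponential decay at every rate -/
theorem spr_decay (h : Cen w) (n : ℕ) (hκ : 0 < κ) (a : ℝ) :
    ∃ C : ℝ, 0 < C ∧ ∀ t, spr w n κ t ≤ C * Real.exp (-a * |t|) := by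
  have hP := cen_pk h n
  have i1 := hP.ig (Tame.exp_abs (|a| • av n))
  refine ⟨Real.exp (a ^ 2 / (2 * κ)) * Ex (pk w n) fun k => Real.exp |(|a| • av n) k|,
    mul_pos (Real.exp_pos _) (hP.wt.ex_pos' i1 fun _ => Real.exp_pos _), fun t => ?_⟩
  rw [spr_eq, ← Ex_const_mul, ← Ex_mul_const]
  refine Ex_mono hP.nonneg (ig_gs h hκ.le t) ((i1.const_mul _).mul_const _) fun k => ?_
  rw [← Real.exp_add, ← Real.exp_add, Real.exp_le_exp, AddMonoidHom.smul_apply, smul_eq_mul, abs_mul,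
    abs_abs, ← sq_abs (t - _), ← sq_abs a]
  have h1 : |t| - |av n k| ≤ |t - av n k| := abs_sub_abs_le_abs_sub _ _
  have h2 : |a| * |t - av n k| ≤ |a| ^ 2 / (2 * κ) + κ * |t - av n k| ^ 2 / 2 := by
    have : |a| ^ 2 / (2 * κ) + κ * |t - av n k| ^ 2 / 2 - |a| * |t - av n k| =
        (|a| - κ * |t - av n k|) ^ 2 / (2 * κ) := by field_simp; ring
    have h3 : 0 ≤ (|a| - κ * |t - av n k|) ^ 2 / (2 * κ) := by positivity
    linarith
  have h3 := mul_le_mul_of_nonneg_left h1 (abs_nonneg a)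
  have h4 := mul_le_mul_of_nonneg_right (le_abs_self a) (abs_nonneg t)
  linarith

/-! ### the families -/

theorem le_of_cosh {V c : ℝ} (hc : 0 ≤ c) (h : ∀ t : ℝ, t ^ 2 * V / 2 ≤ c * (Real.cosh t - 1)) :
    V ≤ c := by
  have key : ∀ t : ℝ, 0 < t → V ≤ Real.exp (t ^ 2 / 2) * c := fun t ht => by
    have h1 := Real.cosh_le_exp_half_sq t
    have h2 := mul_le_mul_of_nonneg_right (Real.add_one_le_exp (-(t ^ 2 / 2)))
      (Real.exp_pos (t ^ 2 / 2)).le
    rw [← Real.exp_add, neg_add_cancel, Real.exp_zero] at h2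
    have h3 := (h t).trans (mul_le_mul_of_nonneg_left
      (show Real.cosh t - 1 ≤ t ^ 2 / 2 * Real.exp (t ^ 2 / 2) by linarith) hc)
    refine le_of_mul_le_mul_left (a := t ^ 2 / 2) ?_ (by positivity)
    linarith
  have h4 : ContinuousAt (fun t : ℝ => Real.exp (t ^ 2 / 2) * c) 0 := by fun_prop
  simpa using ge_of_tendsto (h4.tendsto.mono_left (nhdsWithin_le_nhds (s := Set.Ioi 0)))
    (eventually_nhdsWithin_of_forall key)

variable {xy : Bool} {τ : ℝ}

theorem cen_kern (xy : Bool) (hτ : 0 < τ) : Cen (kern xy τ) := (kerStmt _ ⟨xy, τ, hτ, rfl⟩).cen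

theorem M_tot_le (xy : Bool) (hτ : 0 < τ) (n : ℕ) (t : ℝ) :
    M (pk (kern xy τ) n) (t • tot n) ≤ n * τ * (Real.cosh t - 1) := by
  have h := cen_kern xy hτ
  have e : (fun k : Fin n → ℤ => Real.exp ((t • tot n) k)) = fun k => ∏ j, Real.exp (t * k j) :=
    funext fun k => by rw [AddMonoidHom.smul_apply, tot_apply, smul_eq_mul, mul_sum, Real.exp_sum]
  rw [M, e, ex_prod h.wt (F := fun _ k => Real.exp (t * k)) fun _ => Cut7.se_int h.se t, prod_const,
    card_univ, Fintype.card_fin, Real.log_pow, mul_assoc]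
  exact mul_le_mul_of_nonneg_left (log_ex_kern xy hτ t) n.cast_nonneg

theorem vr_tot_le (xy : Bool) (hτ : 0 < τ) (n : ℕ) :
    Vr (pk (kern xy τ) n) (tot n) (tot n) ≤ n * τ :=
  le_of_cosh (by positivity) fun t => by
    have h := ((cen_pk (cen_kern xy hτ) n).vr_le_M (t • tot n)).trans (M_tot_le xy hτ n t)
    rwa [Vr_smul_left, Vr_smul_right, ← mul_assoc, ← pow_two] at h

theorem vr_av_le (xy : Bool) (hτ : 0 < τ) (n : ℕ) :
    Vr (pk (kern xy τ) n) (av n) (av n) ≤ τ / n := by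
  rw [av, Vr_smul_left, Vr_smul_right]
  refine (mul_le_mul_of_nonneg_left (mul_le_mul_of_nonneg_left (vr_tot_le xy hτ n)
    (by positivity)) (by positivity)).trans_eq ?_
  rcases eq_or_ne (n : ℝ) 0 with h | h
  · simp [h]
  · field_simp


theorem chi_ge (xy : Bool) (hτ : 0 < τ) (n : ℕ) (ζ : ℝ) :
    Real.exp (-τ * ζ ^ 2 / (2 * n)) ≤ chi (kern xy τ) n ζ := by
  have h := cen_kern xy hτ
  rw [chi_eq_Ph h]
  refine le_trans (Real.exp_le_exp.2 ?_) ((cen_pk h n).ph_ge _)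
  rw [Vr_smul_left, Vr_smul_right, ← mul_assoc, ← pow_two]
  have h1 := mul_le_mul_of_nonneg_left (vr_av_le xy hτ n) (sq_nonneg ζ)
  have h2 : -τ * ζ ^ 2 / (2 * n) = -(ζ ^ 2 * (τ / n)) / 2 := by ring
  linarith

theorem spr_ge_kern (xy : Bool) (hτ : 0 < τ) (n : ℕ) (hκ : 0 ≤ κ) (t : ℝ) :
    Real.exp (-κ * (t ^ 2 + τ / n) / 2) ≤ spr (kern xy τ) n κ t := by
  refine le_trans (Real.exp_le_exp.2 ?_) (spr_ge (cen_kern xy hτ) n hκ t)
  have h1 := mul_le_mul_of_nonneg_left (vr_av_le xy hτ n) hκ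
  linarith

end spring

end Spr

open Spr in
/-- SPR -/
theorem sprStmt : SprStmt := fun xy _ _ n hτ hκ _ =>
  have h := cen_kern xy hτ
  ⟨fun ζ => ⟨chi_ge xy hτ n ζ, chi_le h n ζ, chi_neg _ n ζ⟩, continuous_chi h n, fourier h n hκ.le,
    spr_poisson h n hκ, fun t => ⟨spr_ge_kern xy hτ n hκ.le t, spr_le h n hκ.le t⟩,
    fun a => (spr_decay h n hκ a).imp fun _ hC => hC.2⟩

end Crest.Agent.T145
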