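import Crest.Agent.T145.GsA_85

-- ▼ part T145/GsM_85
section

/-!
# Row 145 (helper85): matrix identities and inequalities for the Gaussian calculus
-/

set_option autoImplicit false
set_option linter.unusedSectionVars false

namespace Crest.Agent.T145.Gs

open Matrix
open scoped MatrixOrder

variable {ι κ : Type*} [Fintype ι] [Fintype κ]

theorem herm_of {A : Matrix ι ι ℝ} (h : Aᵀ = A) : A.IsHermitian := by
  rwa [IsHermitian, conjTranspose_eq_transpose_of_trivial]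

theorem psd_of {A : Matrix ι ι ℝ} (h : Aᵀ = A) (h2 : ∀ x, 0 ≤ x ⬝ᵥ A *ᵥ x) : A.PosSemidef :=
  PosSemidef.of_dotProduct_mulVec_nonneg (herm_of h) fun x => by simpa using h2 x

theorem pd_of {A : Matrix ι ι ℝ} (h : Aᵀ = A) (h2 : ∀ x, x ≠ 0 → 0 < x ⬝ᵥ A *ᵥ x) : A.PosDef :=
  PosDef.of_dotProduct_mulVec_pos (herm_of h) fun x hx => by simpa using h2 x hx

theorem pd_quad {A : Matrix ι ι ℝ} (hA : A.PosDef) {x : ι → ℝ} (hx : x ≠ 0) :
    0 < x ⬝ᵥ A *ᵥ x := by simpa using hA.dotProduct_mulVec_pos hx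

theorem pd_transpose {A : Matrix ι ι ℝ} (hA : A.PosDef) : Aᵀ = A := psd_transpose hA.posSemidef

theorem quad_le {A B : Matrix ι ι ℝ} (h : (B - A).PosSemidef) (x : ι → ℝ) :
    x ⬝ᵥ A *ᵥ x ≤ x ⬝ᵥ B *ᵥ x := by
  have := psd_quad h x
  rw [sub_mulVec, dotProduct_sub] at this
  linarith

theorem dot_self_nonneg (x : ι → ℝ) : 0 ≤ x ⬝ᵥ x :=
  Finset.sum_nonneg fun i _ => mul_self_nonneg (x i)

theorem dot_self_pos {x : ι → ℝ} (hx : x ≠ 0) : 0 < x ⬝ᵥ x :=
  lt_of_le_of_ne (dot_self_nonneg x) fun h => hx (dotProduct_self_eq_zero.1 h.symm)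

theorem dot_mulVec_tr (S : Matrix ι κ ℝ) (x : ι → ℝ) (y : κ → ℝ) :
    x ⬝ᵥ S *ᵥ y = (Sᵀ *ᵥ x) ⬝ᵥ y := by rw [dotProduct_mulVec, mulVec_transpose]

theorem quad_conj (S : Matrix ι κ ℝ) (B : Matrix ι ι ℝ) (y : κ → ℝ) :
    y ⬝ᵥ (Sᵀ * B * S) *ᵥ y = (S *ᵥ y) ⬝ᵥ B *ᵥ (S *ᵥ y) := by
  rw [← mulVec_mulVec, ← mulVec_mulVec, dot_mulVec_tr Sᵀ, transpose_transpose]


theorem quad_mul_tr (S : Matrix ι κ ℝ) (u : ι → ℝ) :
    u ⬝ᵥ (S * Sᵀ) *ᵥ u = (Sᵀ *ᵥ u) ⬝ᵥ (Sᵀ *ᵥ u) := by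
  rw [← mulVec_mulVec, dot_mulVec_tr]



variable [DecidableEq ι] [DecidableEq κ]

theorem pd_unit {A : Matrix ι ι ℝ} (hA : A.PosDef) : IsUnit A.det := hA.det_pos.ne'.isUnit

theorem pd_mulVec_inv {A : Matrix ι ι ℝ} (hA : A.PosDef) (x : ι → ℝ) : A *ᵥ (A⁻¹ *ᵥ x) = x := by
  rw [mulVec_mulVec, mul_nonsing_inv _ (pd_unit hA), one_mulVec]





/-- push-through identity -/
theorem push (S : Matrix ι κ ℝ) (T : Matrix κ ι ℝ) (h : IsUnit (1 + T * S).det) :
    S * (1 + T * S)⁻¹ = (1 + S * T)⁻¹ * S := by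
  have h' : IsUnit (1 + S * T).det := by rwa [det_one_add_mul_comm]
  have e : (1 + S * T) * S = S * (1 + T * S) := by
    rw [Matrix.add_mul, Matrix.mul_add, Matrix.one_mul, Matrix.mul_one, Matrix.mul_assoc]
  calc S * (1 + T * S)⁻¹ = (1 + S * T)⁻¹ * ((1 + S * T) * S) * (1 + T * S)⁻¹ := by
        rw [← Matrix.mul_assoc, nonsing_inv_mul _ h', Matrix.one_mul]
    _ = (1 + S * T)⁻¹ * S := by
        rw [e, Matrix.mul_assoc, Matrix.mul_assoc, mul_nonsing_inv _ h, Matrix.mul_one]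

/-- the covariance of `gm C` tilted by `exp (-x B x / 2)`; equal to `(C⁻¹ + B)⁻¹` -/
noncomputable def tl (C B : Matrix ι ι ℝ) : Matrix ι ι ℝ := C * (1 + B * C)⁻¹


theorem tl_eq' {C B : Matrix ι ι ℝ} (h : IsUnit (1 + B * C).det) : tl C B = (1 + C * B)⁻¹ * C :=
  push C B h


theorem det_fac (S : Matrix ι κ ℝ) (B : Matrix ι ι ℝ) :
    (1 + Sᵀ * B * S).det = (1 + B * (S * Sᵀ)).det := by
  rw [Matrix.mul_assoc, det_one_add_mul_comm, Matrix.mul_assoc]

theorem tl_fac (S : Matrix ι κ ℝ) (B : Matrix ι ι ℝ) (h : IsUnit (1 + Sᵀ * B * S).det) :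
    S * (1 + Sᵀ * B * S)⁻¹ * Sᵀ = tl (S * Sᵀ) B := by
  have h' : IsUnit (1 + B * S * Sᵀ).det := by rwa [Matrix.mul_assoc, ← det_fac]
  have := push Sᵀ (B * S) h'
  rw [tl, Matrix.mul_assoc S Sᵀ, ← Matrix.mul_assoc B, this, Matrix.mul_assoc S, Matrix.mul_assoc Sᵀ]


theorem tl_res' {C B : Matrix ι ι ℝ} (h : IsUnit (1 + B * C).det) :
    tl C B = C - C * B * tl C B := by
  have h' : IsUnit (1 + C * B).det := by rwa [det_one_add_mul_comm]
  have : (1 + C * B) * tl C B = C := by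
    rw [tl_eq' h, ← Matrix.mul_assoc, mul_nonsing_inv _ h', Matrix.one_mul]
  rw [Matrix.add_mul, Matrix.one_mul] at this
  rw [eq_sub_iff_add_eq]; exact this






/-- `S Sᵀ ≤ D` gives `Sᵀ D⁻¹ S ≤ 1` -/
theorem dual_le {S : Matrix ι κ ℝ} {D : Matrix ι ι ℝ} (hD : D.PosDef)
    (h : (D - S * Sᵀ).PosSemidef) (y : κ → ℝ) : (S *ᵥ y) ⬝ᵥ D⁻¹ *ᵥ (S *ᵥ y) ≤ y ⬝ᵥ y := by
  set u := D⁻¹ *ᵥ (S *ᵥ y) with hu
  have h1 := dot_self_nonneg (y - Sᵀ *ᵥ u)
  have h2 := quad_le h u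
  have h3 : D *ᵥ u = S *ᵥ y := pd_mulVec_inv hD _
  rw [quad_mul_tr, h3] at h2
  have h4 := dot_mulVec_tr S u y
  simp only [dotProduct_sub, sub_dotProduct, dotProduct_comm y (Sᵀ *ᵥ u)] at h1
  rw [dotProduct_comm (S *ᵥ y) u]
  linarith


/-! ### eigenvalue bounds on determinants -/

theorem eig_vec {P : Matrix ι ι ℝ} (hP : P.IsHermitian) (i : ι) :
    ∃ v : ι → ℝ, v ⬝ᵥ v = 1 ∧ P *ᵥ v = hP.eigenvalues i • v := by
  refine ⟨⇑(hP.eigenvectorBasis i), ?_, hP.mulVec_eigenvectorBasis i⟩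
  have h := hP.eigenvectorBasis.orthonormal.1 i
  have h2 := EuclideanSpace.real_norm_sq_eq (hP.eigenvectorBasis i)
  rw [h] at h2
  simpa [dotProduct, sq] using h2.symm


theorem le_eig {P : Matrix ι ι ℝ} (hP : P.IsHermitian) {a : ℝ}
    (h : ∀ x, a * (x ⬝ᵥ x) ≤ x ⬝ᵥ P *ᵥ x) (i : ι) : a ≤ hP.eigenvalues i := by
  obtain ⟨v, h1, h2⟩ := eig_vec hP i
  have := h v
  rwa [h2, dotProduct_smul, h1, smul_eq_mul, mul_one, mul_one] at this

theorem spec {P : Matrix ι ι ℝ} (hP : P.IsHermitian) :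
    ∃ U : Matrix ι ι ℝ, Uᵀ * U = 1 ∧ U * Uᵀ = 1 ∧ P = U * diagonal hP.eigenvalues * Uᵀ := by
  refine ⟨hP.eigenvectorUnitary, ?_, ?_, ?_⟩
  · have := Unitary.coe_star_mul_self hP.eigenvectorUnitary
    simpa [star_eq_conjTranspose] using this
  · have := Unitary.coe_mul_star_self hP.eigenvectorUnitary
    simpa [star_eq_conjTranspose] using this
  · have := hP.spectral_theorem
    rw [Unitary.conjStarAlgAut_apply] at this
    simpa [star_eq_conjTranspose] using this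

theorem trace_eq {P : Matrix ι ι ℝ} (hP : P.IsHermitian) : P.trace = ∑ i, hP.eigenvalues i := by
  simpa using hP.trace_eq_sum_eigenvalues

theorem trace_sq_eq {P : Matrix ι ι ℝ} (hP : P.IsHermitian) :
    (P * P).trace = ∑ i, hP.eigenvalues i ^ 2 := by
  obtain ⟨U, h1, -, h3⟩ := spec hP
  set d := hP.eigenvalues
  have : P * P = U * (diagonal d * diagonal d) * Uᵀ := by
    conv_lhs => rw [h3]
    simp only [Matrix.mul_assoc]
    rw [← Matrix.mul_assoc Uᵀ U, h1, Matrix.one_mul]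
  rw [this, trace_mul_cycle, h1, Matrix.one_mul, diagonal_mul_diagonal, trace_diagonal]
  simp [sq]

theorem det_one_add_eq {M : Matrix ι ι ℝ} (hM : M.IsHermitian) :
    (1 + M).det = ∏ i, (1 + hM.eigenvalues i) := by
  obtain ⟨U, h1, h2, h3⟩ := spec hM
  set d := hM.eigenvalues
  have : 1 + M = U * (diagonal fun i => 1 + d i) * Uᵀ := by
    conv_lhs => rw [h3, ← h2]
    rw [← diagonal_add, diagonal_one, Matrix.mul_add, Matrix.add_mul, Matrix.mul_one]
  rw [this, det_mul, det_mul, mul_comm U.det, mul_assoc, ← det_mul, h2, det_one, mul_one,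
    det_diagonal]


/-- `det (1 + M) ≤ exp (tr M)` when `1 + M ≥ 0` -/
theorem det_le_exp {M : Matrix ι ι ℝ} (hM : Mᵀ = M) (h : ∀ x, -(x ⬝ᵥ x) ≤ x ⬝ᵥ M *ᵥ x) :
    (1 + M).det ≤ Real.exp M.trace := by
  have hH := herm_of hM
  rw [det_one_add_eq hH, trace_eq hH, Real.exp_sum]
  have := le_eig hH (a := -1) (fun x => by simpa using h x)
  exact Finset.prod_le_prod (fun i _ => by linarith [this i])
    fun i _ => by linarith [Real.add_one_le_exp (hH.eigenvalues i)]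

theorem one_le_det {M : Matrix ι ι ℝ} (hM : M.PosSemidef) : 1 ≤ (1 + M).det := by
  rw [det_one_add_eq hM.1]
  calc (1 : ℝ) = ∏ _i : ι, (1 : ℝ) := by simp
    _ ≤ _ := Finset.prod_le_prod (fun _ _ => zero_le_one) fun i _ => by
      linarith [hM.eigenvalues_nonneg i]





end Crest.Agent.T145.Gs
end

-- ▼ part T145/GsB_85

/-!
# Row 145 (helper85): Gaussian calculus, part B: densities and quadratic tilts
-/

set_option autoImplicit false
set_option linter.unusedSectionVars false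

namespace Crest.Agent.T145.Gs

open MeasureTheory ProbabilityTheory Matrix
open scoped MatrixOrder ENNReal

variable {ι κ : Type*} [Fintype ι] [Fintype κ]

theorem map_wd {α β : Type*} [MeasurableSpace α] [MeasurableSpace β] (μ : Measure α) {T : α → β}
    (hT : Measurable T) {f : β → ℝ≥0∞} (hf : Measurable f) :
    (μ.withDensity fun a => f (T a)).map T = (μ.map T).withDensity f := by
  ext s hs
  rw [Measure.map_apply hT hs, withDensity_apply _ (hT hs), withDensity_apply _ hs,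
    setLIntegral_map hs hf hT]

section
variable {α E : Type*} [MeasurableSpace α] [NormedAddCommGroup E] [NormedSpace ℝ E]

theorem integral_wd (μ : Measure α) {f : α → ℝ} (hf : Measurable f) (h0 : ∀ x, 0 ≤ f x)
    (F : α → E) : ∫ x, F x ∂(μ.withDensity fun x => ENNReal.ofReal (f x)) = ∫ x, f x • F x ∂μ := by
  rw [integral_withDensity_eq_integral_toReal_smul hf.ennreal_ofReal
      (Filter.Eventually.of_forall fun x => ENNReal.ofReal_lt_top)]
  simp_rw [ENNReal.toReal_ofReal (h0 _)]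

theorem int_wd (μ : Measure α) {f : α → ℝ} (hf : Measurable f) (h0 : ∀ x, 0 ≤ f x)
    (F : α → E) : Integrable F (μ.withDensity fun x => ENNReal.ofReal (f x)) ↔
      Integrable (fun x => f x • F x) μ := by
  rw [integrable_withDensity_iff_integrable_smul' hf.ennreal_ofReal
      (Filter.Eventually.of_forall fun x => ENNReal.ofReal_lt_top)]
  simp_rw [ENNReal.toReal_ofReal (h0 _)]

end

/-- the normalisation `(2π)^{n/2}` -/
noncomputable def zc (ι : Type*) [Fintype ι] : ℝ := Real.sqrt (2 * Real.pi) ^ Fintype.card ι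

theorem zc_pos : 0 < zc ι := by unfold zc; positivity

/-- the Gaussian weight `exp (-x B x / 2)` -/
noncomputable def gw (B : Matrix ι ι ℝ) (x : ι → ℝ) : ℝ := Real.exp (-(x ⬝ᵥ B *ᵥ x) / 2)

theorem gw_pos (B : Matrix ι ι ℝ) (x : ι → ℝ) : 0 < gw B x := Real.exp_pos _

theorem cont_quad (B : Matrix ι ι ℝ) : Continuous fun x : ι → ℝ => x ⬝ᵥ B *ᵥ x :=
  Continuous.dotProduct continuous_id (cont_mulVec B)

theorem cont_gw (B : Matrix ι ι ℝ) : Continuous (gw B) := by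
  have := cont_quad B
  unfold gw
  fun_prop

theorem gw_add (A B : Matrix ι ι ℝ) (x : ι → ℝ) : gw (A + B) x = gw A x * gw B x := by
  rw [gw, gw, gw, ← Real.exp_add, add_mulVec, dotProduct_add]
  congr 1; ring

theorem gw_conj (S : Matrix ι κ ℝ) (B : Matrix ι ι ℝ) (y : κ → ℝ) :
    gw (Sᵀ * B * S) y = gw B (S *ᵥ y) := by rw [gw, gw, quad_conj]

theorem gw_le_one {B : Matrix ι ι ℝ} (hB : B.PosSemidef) (x : ι → ℝ) : gw B x ≤ 1 :=
  Real.exp_le_one_iff.2 (by linarith [psd_quad hB x])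

theorem prod_pdf (y : κ → ℝ) :
    ∏ k, gaussianPDFReal 0 1 (y k) = Real.exp (-(y ⬝ᵥ y) / 2) / zc κ := by
  simp only [gaussianPDFReal, NNReal.coe_one, mul_one, sub_zero]
  rw [Finset.prod_mul_distrib, Finset.prod_const, Finset.card_univ, ← Real.exp_sum, zc, inv_pow,
    div_eq_inv_mul]
  congr 2
  simp only [dotProduct, neg_div, Finset.sum_div, Finset.sum_neg_distrib, sq]

theorem sg_eq : sg κ =
    volume.withDensity fun y => ENNReal.ofReal (Real.exp (-(y ⬝ᵥ y) / 2) / zc κ) := by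
  simp_rw [← prod_pdf]
  have hi : Integrable (fun y : κ → ℝ => ∏ k, gaussianPDFReal 0 1 (y k)) :=
    Integrable.fintype_prod (f := fun _ x => gaussianPDFReal 0 1 x)
      fun _ => integrable_gaussianPDFReal 0 1
  have : IsFiniteMeasure (volume.withDensity
      fun y : κ → ℝ => ENNReal.ofReal (∏ k, gaussianPDFReal 0 1 (y k))) :=
    isFiniteMeasure_withDensity_ofReal hi.2
  refine ext_char fun t => ?_
  have hm : Measurable fun y : κ → ℝ => ∏ k, gaussianPDFReal 0 1 (y k) :=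
    Finset.measurable_prod _ fun k _ =>
      (measurable_gaussianPDFReal 0 1).comp (measurable_pi_apply k)
  rw [integral_wd _ hm fun y => Finset.prod_nonneg fun k _ => gaussianPDFReal_nonneg _ _ _]
  have h : ∀ y : κ → ℝ, Complex.exp (((t ⬝ᵥ y : ℝ) : ℂ) * Complex.I) =
      ∏ k, Complex.exp (((t k * y k : ℝ) : ℂ) * Complex.I) := by
    intro y
    rw [← Complex.exp_sum, ← Finset.sum_mul, dotProduct, Complex.ofReal_sum]
  simp_rw [h, Complex.real_smul, Complex.ofReal_prod, ← Finset.prod_mul_distrib]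
  rw [integral_fintype_prod_volume_eq_prod (fun k (x : ℝ) => (gaussianPDFReal 0 1 x : ℂ) *
    Complex.exp (((t k * x : ℝ) : ℂ) * Complex.I)), sg,
    integral_fintype_prod_eq_prod (fun k (x : ℝ) => Complex.exp (((t k * x : ℝ) : ℂ) * Complex.I))]
  refine Finset.prod_congr rfl fun k _ => ?_
  rw [integral_gaussianReal_eq_integral_smul one_ne_zero]
  simp_rw [Complex.real_smul]

variable [DecidableEq ι] [DecidableEq κ]

theorem det_sqrt_sq {A : Matrix ι ι ℝ} (hA : A.PosSemidef) : (CFC.sqrt A).det ^ 2 = A.det := by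
  rw [sq, ← det_mul, sqrt_mul hA]

theorem det_sqrt_eq {A : Matrix ι ι ℝ} (hA : A.PosSemidef) :
    (CFC.sqrt A).det = Real.sqrt A.det := by
  rw [← det_sqrt_sq hA, Real.sqrt_sq (sqrt_psd A).det_nonneg]

theorem sqrt_unit {A : Matrix ι ι ℝ} (hA : A.PosDef) : IsUnit (CFC.sqrt A).det := by
  rw [det_sqrt_eq hA.posSemidef]
  exact (Real.sqrt_pos.2 hA.det_pos).ne'.isUnit

/-- the density of the Gaussian with precision matrix `A` -/
theorem gm_inv_eq {A : Matrix ι ι ℝ} (hA : A.PosDef) : gm A⁻¹ =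
    volume.withDensity fun x => ENNReal.ofReal (Real.sqrt A.det / zc ι * gw A x) := by
  set T := CFC.sqrt A with hT
  have hu := sqrt_unit hA
  have hTT : Tᵀ = T := sqrt_transpose A
  have h1 : A⁻¹ = T⁻¹ * (T⁻¹)ᵀ := by
    rw [transpose_nonsing_inv, hTT, ← Matrix.mul_inv_rev, sqrt_mul hA.posSemidef]
  have hf : Measurable fun x : ι → ℝ => ENNReal.ofReal (gw A x / zc ι) :=
    ((cont_gw A).measurable.div_const _).ennreal_ofReal
  have h2 : ∀ y : ι → ℝ, Real.exp (-(y ⬝ᵥ y) / 2) = gw A (T⁻¹ *ᵥ y) := by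
    intro y
    rw [← gw_conj, ← sqrt_mul hA.posSemidef, ← hT, transpose_nonsing_inv, hTT, ← Matrix.mul_assoc,
      nonsing_inv_mul _ hu, Matrix.one_mul, mul_nonsing_inv _ hu, gw, one_mulVec]
  have hd : (T⁻¹).det ≠ 0 := (isUnit_nonsing_inv_det _ hu).ne_zero
  have h3 := Real.map_matrix_volume_pi_eq_smul_volume_pi hd
  rw [h1, ← map_sg, sg_eq]
  simp_rw [h2]
  rw [map_wd volume (meas_mulVec T⁻¹) hf]
  have h4 : Measure.map (fun y : ι → ℝ => T⁻¹ *ᵥ y) volume =
      ENNReal.ofReal (Real.sqrt A.det) • volume := by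
    have : (fun y : ι → ℝ => T⁻¹ *ᵥ y) = toLin' T⁻¹ := by funext y; simp
    rw [this, h3, det_nonsing_inv, Ring.inverse_eq_inv', inv_inv, hT, det_sqrt_eq hA.posSemidef,
      abs_of_nonneg (Real.sqrt_nonneg _)]
  rw [h4, withDensity_smul_measure, ← withDensity_smul _ hf]
  congr 1
  funext x
  rw [Pi.smul_apply, smul_eq_mul, ← ENNReal.ofReal_mul (Real.sqrt_nonneg _)]
  congr 1
  ring


section
variable {E : Type*} [NormedAddCommGroup E] [NormedSpace ℝ E]

theorem meas_dens (c : ℝ) (A : Matrix ι ι ℝ) : Measurable fun x => c * gw A x :=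
  (cont_gw A).measurable.const_mul c



end



/-- quadratic tilt, factorised form -/
theorem tilt_fac (S : Matrix ι κ ℝ) (B : Matrix ι ι ℝ) (h : (1 + Sᵀ * B * S).PosDef) :
    ((gm (S * Sᵀ)).withDensity fun x => ENNReal.ofReal (gw B x)) =
      ENNReal.ofReal (Real.sqrt (1 + B * (S * Sᵀ)).det)⁻¹ • gm (tl (S * Sᵀ) B) := by
  set M := 1 + Sᵀ * B * S with hM
  have hs := Real.sqrt_pos.2 h.det_pos
  have hz := zc_pos (ι := κ)
  have hf : Measurable fun x : ι → ℝ => ENNReal.ofReal (gw B x) :=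
    (cont_gw B).measurable.ennreal_ofReal
  rw [← map_sg, ← map_wd _ (meas_mulVec S) hf, ← tl_fac S B (pd_unit h), ← map_mulVec h.inv.posSemidef,
    ← Measure.map_smul, ← det_fac, gm_inv_eq h, sg_eq]
  congr 1
  have h1 : Measurable fun y : κ → ℝ => ENNReal.ofReal (Real.exp (-(y ⬝ᵥ y) / 2) / zc κ) := by
    have := (cont_gw (1 : Matrix κ κ ℝ)).measurable.div_const (zc κ)
    simpa [gw] using this.ennreal_ofReal
  have h2 : Measurable fun y : κ → ℝ => ENNReal.ofReal (gw B (S *ᵥ y)) := hf.comp (meas_mulVec S)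
  rw [← withDensity_mul _ h1 h2,
    ← withDensity_smul _ (meas_dens _ M).ennreal_ofReal]
  congr 1
  funext y
  simp only [Pi.mul_apply, Pi.smul_apply, smul_eq_mul]
  rw [← ENNReal.ofReal_mul (by positivity), ← ENNReal.ofReal_mul (by positivity), hM, gw_add,
    gw_conj]
  congr 1
  simp only [gw, one_mulVec]
  rw [← hM]
  field_simp

/-- the tilt of `gm C` by `exp (-x B x / 2)` is integrable -/
def TOk (C B : Matrix ι ι ℝ) : Prop := (1 + CFC.sqrt C * B * CFC.sqrt C).PosDef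

variable {C B : Matrix ι ι ℝ}

theorem TOk.fac (h : TOk C B) : (1 + (CFC.sqrt C)ᵀ * B * CFC.sqrt C).PosDef := by
  rwa [sqrt_transpose]

theorem sqrt_mul' (hC : C.PosSemidef) : CFC.sqrt C * (CFC.sqrt C)ᵀ = C := by
  rw [sqrt_transpose, sqrt_mul hC]

theorem TOk.det_eq (hC : C.PosSemidef) (B : Matrix ι ι ℝ) :
    (1 + CFC.sqrt C * B * CFC.sqrt C).det = (1 + B * C).det := by
  have := det_fac (CFC.sqrt C) B
  rwa [sqrt_mul' hC, sqrt_transpose] at this

theorem TOk.det_pos (hC : C.PosSemidef) (h : TOk C B) : 0 < (1 + B * C).det := by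
  rw [← TOk.det_eq hC]; exact PosDef.det_pos h

theorem TOk.unit (hC : C.PosSemidef) (h : TOk C B) : IsUnit (1 + B * C).det :=
  (h.det_pos hC).ne'.isUnit

theorem TOk.psd (hC : C.PosSemidef) (h : TOk C B) : (tl C B).PosSemidef := by
  have := tl_fac (CFC.sqrt C) B (pd_unit h.fac)
  rw [sqrt_mul' hC] at this
  rw [← this]
  exact psd_conj h.fac.inv.posSemidef _

theorem tOk_iff (hB : Bᵀ = B) : TOk C B ↔ ∀ y, y ≠ 0 →
    0 < y ⬝ᵥ y + (CFC.sqrt C *ᵥ y) ⬝ᵥ B *ᵥ (CFC.sqrt C *ᵥ y) := by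
  have e : ∀ y, y ⬝ᵥ (1 + CFC.sqrt C * B * CFC.sqrt C) *ᵥ y =
      y ⬝ᵥ y + (CFC.sqrt C *ᵥ y) ⬝ᵥ B *ᵥ (CFC.sqrt C *ᵥ y) := by
    intro y
    rw [add_mulVec, dotProduct_add, one_mulVec, ← quad_conj, sqrt_transpose]
  refine ⟨fun h y hy => e y ▸ pd_quad h hy, fun h => pd_of ?_ fun y hy => (e y).symm ▸ h y hy⟩
  simp only [transpose_add, transpose_one, transpose_mul, sqrt_transpose, hB, Matrix.mul_assoc]

theorem tOk_of_psd (C : Matrix ι ι ℝ) (hB : B.PosSemidef) : TOk C B :=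
  (tOk_iff (psd_transpose hB)).2 fun _ hy => add_pos_of_pos_of_nonneg (dot_self_pos hy)
    (psd_quad hB _)

theorem TOk.mono {B' : Matrix ι ι ℝ} (h : TOk C B) (h' : (B' - B).PosSemidef) : TOk C B' := by
  have := PosDef.add_posSemidef h (psd_conj h' (CFC.sqrt C))
  rw [sqrt_transpose, add_assoc, ← Matrix.add_mul, ← Matrix.mul_add, add_sub_cancel] at this
  exact this

/-- `C ≤ D`, `D⁻¹ + B > 0` -/
theorem tOk_of_le (hC : C.PosSemidef) {D : Matrix ι ι ℝ} (hD : D.PosDef)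
    (hCD : (D - C).PosSemidef) (h : (D⁻¹ + B).PosDef) : TOk C B := by
  have hB : Bᵀ = B := by
    have := pd_transpose h
    rw [transpose_add, pd_transpose hD.inv] at this
    exact add_left_cancel this
  refine (tOk_iff hB).2 fun y hy => ?_
  by_cases h0 : CFC.sqrt C *ᵥ y = 0
  · rw [h0]; simpa using dot_self_pos hy
  have h1 := dual_le (S := CFC.sqrt C) hD (by rwa [sqrt_mul' hC]) y
  have h2 := pd_quad h h0
  rw [add_mulVec, dotProduct_add] at h2
  linarith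

theorem tOk_of_pd (hC : C.PosDef) (h : (C⁻¹ + B).PosDef) : TOk C B :=
  tOk_of_le hC.posSemidef hC (by simpa using PosSemidef.zero) h


/-- quadratic tilt, as measures -/
theorem tilt (hC : C.PosSemidef) (h : TOk C B) :
    ((gm C).withDensity fun x => ENNReal.ofReal (gw B x)) =
      ENNReal.ofReal (Real.sqrt (1 + B * C).det)⁻¹ • gm (tl C B) := by
  have := tilt_fac (CFC.sqrt C) B h.fac
  rwa [sqrt_mul' hC] at this

section
variable {E : Type*} [NormedAddCommGroup E] [NormedSpace ℝ E]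

/-- quadratic tilt -/
theorem integral_qtilt (hC : C.PosSemidef) (h : TOk C B) (F : (ι → ℝ) → E) :
    ∫ x, gw B x • F x ∂(gm C) = (Real.sqrt (1 + B * C).det)⁻¹ • ∫ x, F x ∂(gm (tl C B)) := by
  rw [← integral_wd _ (cont_gw B).measurable (fun x => (gw_pos B x).le), tilt hC h,
    integral_smul_measure, ENNReal.toReal_ofReal (by positivity)]

theorem int_qtilt (hC : C.PosSemidef) (h : TOk C B) (F : (ι → ℝ) → E) :
    Integrable (fun x => gw B x • F x) (gm C) ↔ Integrable F (gm (tl C B)) := by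
  have := Real.sqrt_pos.2 (h.det_pos hC)
  rw [← int_wd _ (cont_gw B).measurable (fun x => (gw_pos B x).le), tilt hC h,
    integrable_smul_measure (by simpa using h.det_pos hC) ENNReal.ofReal_ne_top]

end

theorem integral_gw_gm (hC : C.PosSemidef) (h : TOk C B) :
    ∫ x, gw B x ∂(gm C) = (Real.sqrt (1 + B * C).det)⁻¹ := by
  simpa using integral_qtilt hC h fun _ => (1 : ℝ)

theorem int_gw_gm (hC : C.PosSemidef) (h : TOk C B) : Integrable (gw B) (gm C) := by
  simpa using (int_qtilt hC h fun _ => (1 : ℝ)).2 (integrable_const _)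

/-- Gaussian convolution of a Gaussian weight: completing the square -/
theorem integral_gw_add (hC : C.PosSemidef) (hB : Bᵀ = B) (h : TOk C B) (φ : ι → ℝ) :
    ∫ x, gw B (φ + x) ∂(gm C) =
      (Real.sqrt (1 + B * C).det)⁻¹ * gw (B - B * tl C B * B) φ := by
  have e : ∀ x, gw B (φ + x) = gw B φ * (gw B x • Real.exp ((-(B *ᵥ φ)) ⬝ᵥ x)) := by
    intro x
    simp only [gw, smul_eq_mul, ← Real.exp_add, mulVec_add, dotProduct_add, add_dotProduct,
      neg_dotProduct, dot_symm hB φ x, dotProduct_comm x (B *ᵥ φ)]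
    congr 1; ring
  simp_rw [e]
  rw [integral_const_mul, integral_qtilt hC h, mgf (h.psd hC), smul_eq_mul, mul_left_comm]
  congr 1
  have := quad_conj B (tl C B) φ
  rw [hB] at this
  simp only [gw, ← Real.exp_add, sub_mulVec, dotProduct_sub, this, mulVec_neg, neg_dotProduct,
    dotProduct_neg, neg_neg]
  congr 1; ring



end Crest.Agent.T145.Gs
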