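import Crest.Agent.T145.ApxA_16
import Crest.Agent.T145.GffDef_8
import Crest.Agent.T145.GsB_85
import Crest.Agent.T145.ApiL_98
import Crest.Agent.T145.MdlD_73
import Crest.Agent.T145.GeoA_51
import Crest.Agent.T145.Fkg_86
import Crest.Agent.T145.Loc_51

-- ▼ part T145/Apx_16
section

/-!
# Row 145, module (b), APX (helper16): `apxStmt`
-/

set_option autoImplicit false

namespace Crest.Agent.T145.Apx16

open Finset Real

/-! ## The two-dimensional bases -/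

/-- tensor product -/
def tn (g h : ℤ → ℝ) (x : Pt) : ℝ := g x.1 * h x.2

/-- basis functions -/
noncomputable def E2 (s L : ℕ) (k : ℕ × ℕ) : Pt → ℝ := tn (ec s L k.1) (ec s L k.2)

/-- eigenvalues -/
noncomputable def La (s L : ℕ) (k : ℕ × ℕ) : ℝ := la s L k.1 + la s L k.2

/-- linear combinations -/
noncomputable def cb (H : Finset (ℕ × ℕ)) (a : ℕ × ℕ → ℝ) (U : ℕ × ℕ → Pt → ℝ) (x : Pt) : ℝ :=
  ∑ k ∈ H, a k * U k x

theorem ip_tn (L : ℕ) (g h g' h' : ℤ → ℝ) : ip (sq 0 L) (tn g h) (tn g' h') =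
    (∑ t ∈ Ico (0 : ℤ) (0 + L), g t * g' t) * ∑ t ∈ Ico (0 : ℤ) (0 + L), h t * h' t := by
  rw [sum_mul_sum, ip, sq, sum_product]
  exact sum_congr rfl fun a _ => sum_congr rfl fun b _ => by simp only [tn]; ring

theorem E2_orth {s L : ℕ} (hs : s ≤ 1) {k m : ℕ × ℕ} (hk : k ∈ range L ×ˢ range L)
    (hm : m ∈ range L ×ˢ range L) (h : k ≠ m) : ip (sq 0 L) (E2 s L k) (E2 s L m) = 0 := by
  simp only [mem_product, mem_range] at hk hm
  rw [E2, E2, ip_tn]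
  by_cases h1 : k.1 = m.1
  · rw [ec_orth hs hk.2 hm.2 fun h2 => h (Prod.ext h1 h2), mul_zero]
  · rw [ec_orth hs hk.1 hm.1 h1, zero_mul]

theorem E2_nrm {s L : ℕ} (hs : s ≤ 1) {k : ℕ × ℕ} (hk : k ∈ range L ×ˢ range L) :
    (L : ℝ) ^ 2 / 4 ≤ ip (sq 0 L) (E2 s L k) (E2 s L k) := by
  simp only [mem_product, mem_range] at hk
  rw [E2, ip_tn]
  have h1 := ec_nrm hs hk.1
  have h0 : (0 : ℝ) ≤ L / 2 := by positivity
  calc (L : ℝ) ^ 2 / 4 = L / 2 * (L / 2) := by ring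
    _ ≤ _ := mul_le_mul h1 (ec_nrm hs hk.2) h0 (h0.trans h1)

theorem lap_E2 (s L : ℕ) (k : ℕ × ℕ) (x : Pt) : lap (E2 s L k) x = La s L k * E2 s L k x := by
  have h1 := ec_eig s L k.1 x.1
  have h2 := ec_eig s L k.2 x.2
  simp only [lap, E2, tn, La]
  linear_combination ec s L k.2 x.2 * h1 + ec s L k.1 x.1 * h2

theorem lap_cb (H : Finset (ℕ × ℕ)) (a : ℕ × ℕ → ℝ) (U : ℕ × ℕ → Pt → ℝ) (x : Pt) :
    lap (cb H a U) x = ∑ k ∈ H, a k * lap (U k) x := by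
  simp only [lap, cb, mul_sum, ← sum_sub_distrib, ← sum_add_distrib]
  exact sum_congr rfl fun k _ => by ring

theorem rf_cb {L : ℕ} {σ : ℝ} (H : Finset (ℕ × ℕ)) (a : ℕ × ℕ → ℝ) {U : ℕ × ℕ → Pt → ℝ}
    (h : ∀ k, Rf L σ (U k)) : Rf L σ (cb H a U) := fun t => by
  simp only [cb, mul_sum]
  refine ⟨?_, ?_, ?_, ?_⟩ <;> refine sum_congr rfl fun k _ => ?_
  · rw [(h k t).1]; ring
  · rw [(h k t).2.1]; ring
  · rw [(h k t).2.2.1]; ring
  · rw [(h k t).2.2.2]; ring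

theorem rf_tn {L : ℕ} {σ : ℝ} {g h : ℤ → ℝ} (g1 : g (-1) = σ * g 0) (g2 : g L = σ * g (L - 1))
    (h1 : h (-1) = σ * h 0) (h2 : h L = σ * h (L - 1)) : Rf L σ (tn g h) := fun t => by
  simp only [tn, g1, g2, h1, h2]
  exact ⟨by ring, by ring, by ring, by ring⟩

theorem rf_E2 {s L : ℕ} (hL : 0 < L) (k : ℕ × ℕ) : Rf L ((-1) ^ s) (E2 s L k) :=
  rf_tn (by simpa using ec_refl s L k.1 0) (ec_hi hL _) (by simpa using ec_refl s L k.2 0)
    (ec_hi hL _)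

theorem ip_cb_left (X : Finset Pt) (H : Finset (ℕ × ℕ)) (a : ℕ × ℕ → ℝ) (U : ℕ × ℕ → Pt → ℝ)
    (g : Pt → ℝ) : ip X (cb H a U) g = ∑ k ∈ H, a k * ip X (U k) g := by
  simp only [ip, cb, sum_mul, mul_sum]
  rw [sum_comm]
  exact sum_congr rfl fun k _ => sum_congr rfl fun x _ => by ring

theorem ip_comm (X : Finset Pt) (f g : Pt → ℝ) : ip X f g = ip X g f :=
  sum_congr rfl fun _ _ => mul_comm _ _

theorem ip_cb_cb {X : Finset Pt} {H : Finset (ℕ × ℕ)} {U : ℕ × ℕ → Pt → ℝ}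
    (ho : ∀ k ∈ H, ∀ m ∈ H, k ≠ m → ip X (U k) (U m) = 0) (a b : ℕ × ℕ → ℝ) :
    ip X (cb H a U) (cb H b U) = ∑ k ∈ H, a k * b k * ip X (U k) (U k) := by
  rw [ip_cb_left]
  refine sum_congr rfl fun k hk => ?_
  rw [ip_comm, ip_cb_left, sum_eq_single_of_mem k hk fun m hm h => by rw [ho m hm k hk h, mul_zero]]
  ring

theorem La_ge {s L N : ℕ} (hs : s ≤ 1) {k : ℕ × ℕ} (hk : k ∈ range L ×ˢ range L)
    (h : N ≤ k.1 + s ∨ N ≤ k.2 + s) : 4 * (N : ℝ) ^ 2 / (L : ℝ) ^ 2 ≤ La s L k := by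
  simp only [mem_product, mem_range] at hk
  have h1 := la_ge hs hk.1
  have h2 := la_ge hs hk.2
  have h3 : ∀ j : ℕ, N ≤ j → 4 * (N : ℝ) ^ 2 / (L : ℝ) ^ 2 ≤ 4 * (j : ℝ) ^ 2 / (L : ℝ) ^ 2 :=
    fun j hj => by
      have : (N : ℝ) ≤ j := by exact_mod_cast hj
      gcongr
  have h4 : ∀ j : ℕ, 0 ≤ 4 * (j : ℝ) ^ 2 / (L : ℝ) ^ 2 := fun j => by positivity
  rw [La]
  rcases h with h | h
  · linarith [h3 _ h, h4 (k.2 + s)]
  · linarith [h3 _ h, h4 (k.1 + s)]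

/-- low modes and a remainder of small energy -/
theorem spectral {s L N : ℕ} (hs : s ≤ 1) (hN : 1 ≤ N) (hNL : N ≤ L) {K : ℝ} {f : Pt → ℝ}
    (hf : ∀ x, |f x| ≤ K / (L : ℝ) ^ 2) (h0 : s = 0 → ∑ x ∈ sq 0 L, f x = 0) :
    ∃ (a : ℕ × ℕ → ℝ) (w : Pt → ℝ), (∀ k ∈ range N ×ˢ range N, |a k| ≤ K) ∧ Rf L ((-1) ^ s) w ∧
      (∀ x ∈ sq 0 L, f x = lap (cb (range N ×ˢ range N) a (E2 s L)) x + lap w x) ∧
      ∑ e ∈ nnL.edT (sq 0 L), gr w e ^ 2 ≤ K ^ 2 / (2 * (N : ℝ) ^ 2) := by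
  have hL0 : 0 < L := by omega
  have hL : (0 : ℝ) < L := by exact_mod_cast hL0
  have hN' : (0 : ℝ) < N := by exact_mod_cast hN
  set I := range L ×ˢ range L with hI
  set Lo := range N ×ˢ range N with hLo
  have hsub : Lo ⊆ I := product_subset_product (range_subset_range.2 hNL) (range_subset_range.2 hNL)
  set n : ℕ × ℕ → ℝ := fun k => ip (sq 0 L) (E2 s L k) (E2 s L k) with hn
  set c : ℕ × ℕ → ℝ := fun k => ip (sq 0 L) f (E2 s L k) / n k with hc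
  have hn0 : ∀ k ∈ I, 0 < n k := fun k hk => lt_of_lt_of_le (by positivity) (E2_nrm hs hk)
  have hexp : ∀ x ∈ sq 0 L, f x = cb I c (E2 s L) x := fun x hx =>
    complete (by rw [card_sq, card_product, card_range, pow_two])
      (fun k hk m hm => E2_orth hs hk hm) (fun k hk => (hn0 k hk).ne') f hx
  have hK : 0 ≤ K := by
    have := (abs_nonneg _).trans (hf 0)
    rwa [le_div_iff₀ (by positivity), zero_mul] at this
  have hcard : ((sq 0 L).card : ℝ) = (L : ℝ) ^ 2 := by rw [card_sq]; push_cast; ring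
  -- eigenvalues
  have hLa : ∀ k ∈ I, c k = 0 ∨ 4 / (L : ℝ) ^ 2 ≤ La s L k := fun k hk => by
    by_cases h : 1 ≤ k.1 + s ∨ 1 ≤ k.2 + s
    · right; simpa using La_ge hs hk h
    · left
      obtain rfl : s = 0 := by omega
      obtain rfl : k = (0, 0) := Prod.ext (by omega) (by omega)
      simp [hc, ip, E2, tn, ec, th, h0 rfl]
  have hca : ∀ k ∈ I, c k / La s L k * La s L k = c k := fun k hk => by
    rcases hLa k hk with h | h
    · simp [h]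
    · exact div_mul_cancel₀ _ (lt_of_lt_of_le (by positivity) h).ne'
  refine ⟨fun k => c k / La s L k, cb (I \ Lo) (fun k => c k / La s L k) (E2 s L), fun k hk => ?_,
    rf_cb _ _ (rf_E2 hL0), fun x hx => ?_, ?_⟩
  · have hk' := hsub hk
    rcases hLa k hk' with h | h
    · simp [h, hK]
    have h1 : |ip (sq 0 L) f (E2 s L k)| ≤ K := by
      refine (abs_sum_le_sum_abs _ _).trans ?_
      refine (sum_le_card_nsmul _ _ (K / (L : ℝ) ^ 2) fun x _ => ?_).trans ?_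
      · rw [abs_mul, E2, tn, abs_mul]
        have h2 : |ec s L k.1 x.1| * |ec s L k.2 x.2| ≤ 1 :=
          mul_le_one₀ (abs_cos_le_one _) (abs_nonneg _) (abs_cos_le_one _)
        exact (mul_le_of_le_one_right (abs_nonneg _) h2).trans (hf x)
      · rw [nsmul_eq_mul, hcard]; exact le_of_eq (by field_simp)
    have h2 : 0 < La s L k := lt_of_lt_of_le (by positivity) h
    have h3 : 1 ≤ n k * La s L k :=
      calc (1 : ℝ) = (L : ℝ) ^ 2 / 4 * (4 / (L : ℝ) ^ 2) := by field_simp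
        _ ≤ _ := mul_le_mul (E2_nrm hs hk') h (by positivity) (hn0 k hk').le
    simp only [hc]
    rw [div_div, abs_div, abs_of_pos (mul_pos (hn0 k hk') h2)]
    exact (div_le_self (abs_nonneg _) h3).trans h1
  · rw [hexp x hx, lap_cb, lap_cb, add_comm, sum_sdiff hsub, cb]
    exact sum_congr rfl fun k hk => by rw [lap_E2, ← mul_assoc, hca k hk]
  · refine ((rf_cb _ _ (rf_E2 hL0)).energy (neg_one_pow_eq_or ℝ s)).trans ?_
    have h1 : ∑ x ∈ sq 0 L, cb (I \ Lo) (fun k => c k / La s L k) (E2 s L) x *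
        lap (cb (I \ Lo) (fun k => c k / La s L k) (E2 s L)) x =
        ∑ k ∈ I \ Lo, c k / La s L k * c k * n k := by
      rw [← ip_cb_cb fun k hk m hm => E2_orth hs (sdiff_subset hk) (sdiff_subset hm), ip]
      refine sum_congr rfl fun x _ => ?_
      rw [lap_cb]
      congr 1
      exact sum_congr rfl fun k hk => by rw [lap_E2, ← mul_assoc, hca k (sdiff_subset hk)]
    have h2 : ∑ k ∈ I, c k * c k * n k ≤ K ^ 2 / (L : ℝ) ^ 2 := by
      rw [← ip_cb_cb fun k hk m hm => E2_orth hs hk hm, ip]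
      refine (sum_le_card_nsmul _ _ ((K / (L : ℝ) ^ 2) ^ 2) fun x hx => ?_).trans ?_
      · rw [← hexp x hx, ← pow_two, ← sq_abs]
        exact pow_le_pow_left₀ (abs_nonneg _) (hf x) 2
      · rw [nsmul_eq_mul, hcard]; exact le_of_eq (by field_simp)
    have h3 : ∑ k ∈ I \ Lo, c k / La s L k * c k * n k ≤
        ∑ k ∈ I, (L : ℝ) ^ 2 / (4 * (N : ℝ) ^ 2) * (c k * c k * n k) := by
      refine le_trans (sum_le_sum fun k hk => ?_)
        (sum_le_sum_of_subset_of_nonneg sdiff_subset fun k hk _ =>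
          mul_nonneg (by positivity) (mul_nonneg (mul_self_nonneg _) (hn0 k hk).le))
      have hk' := mem_sdiff.1 hk
      have h4 : 4 * (N : ℝ) ^ 2 / (L : ℝ) ^ 2 ≤ La s L k := La_ge hs hk'.1 (by
        have := hk'.2
        simp only [hLo, mem_product, mem_range] at this
        omega)
      have h5 : 1 / La s L k ≤ (L : ℝ) ^ 2 / (4 * (N : ℝ) ^ 2) := by
        exact (one_div_le_one_div_of_le (by positivity) h4).trans_eq (one_div_div _ _)
      calc c k / La s L k * c k * n k = 1 / La s L k * (c k * c k * n k) := by ring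
        _ ≤ _ := mul_le_mul_of_nonneg_right h5 (mul_nonneg (mul_self_nonneg _) (hn0 k hk'.1).le)
    rw [← mul_sum] at h3
    rw [h1]
    calc _ ≤ 2 * ((L : ℝ) ^ 2 / (4 * (N : ℝ) ^ 2) * (K ^ 2 / (L : ℝ) ^ 2)) := by
          refine mul_le_mul_of_nonneg_left (h3.trans ?_) (by norm_num)
          exact mul_le_mul_of_nonneg_left h2 (by positivity)
      _ = _ := by field_simp; ring

/-! ## Smoothness -/

/-- bounded by one, steps at most `η` -/
def S0 (g : ℤ → ℝ) (η : ℝ) : Prop := (∀ t, |g t| ≤ 1) ∧ ∀ t, |g (t + 1) - g t| ≤ η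

/-- and second differences at most `η²` -/
def S1 (g : ℤ → ℝ) (η : ℝ) : Prop :=
  S0 g η ∧ ∀ t, |g (t + 1 + 1) - g (t + 1) - (g (t + 1) - g t)| ≤ η ^ 2

theorem S0.nonneg {g : ℤ → ℝ} {η : ℝ} (h : S0 g η) : 0 ≤ η := (abs_nonneg _).trans (h.2 0)

theorem S0.mono {g : ℤ → ℝ} {η η' : ℝ} (h : S0 g η) (h' : η ≤ η') : S0 g η' :=
  ⟨h.1, fun t => (h.2 t).trans h'⟩

theorem S1.mono {g : ℤ → ℝ} {η η' : ℝ} (h : S1 g η) (h' : η ≤ η') : S1 g η' :=
  ⟨h.1.mono h', fun t => (h.2 t).trans (pow_le_pow_left₀ h.1.nonneg h' 2)⟩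

theorem abs_mul_le {a b A B : ℝ} (ha : |a| ≤ A) (hb : |b| ≤ B) : |a * b| ≤ A * B := by
  rw [abs_mul]; exact mul_le_mul ha hb (abs_nonneg _) ((abs_nonneg _).trans ha)

theorem S1.mul {g h : ℤ → ℝ} {η η' : ℝ} (hg : S1 g η) (hh : S1 h η') :
    S1 (fun t => g t * h t) (η + η') := by
  refine ⟨⟨fun t => by simpa using abs_mul_le (hg.1.1 t) (hh.1.1 t), fun t => ?_⟩, fun t => ?_⟩
  · have h1 := abs_le.1 (abs_mul_le (hg.1.2 t) (hh.1.1 t))
    have h2 := abs_le.1 (abs_mul_le (hg.1.1 (t + 1)) (hh.1.2 t))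
    rw [abs_le]; constructor <;> nlinarith
  · have h1 := abs_le.1 (abs_mul_le (hg.2 t) (hh.1.1 t))
    have h2 := abs_le.1 (abs_mul_le (hg.1.1 (t + 1 + 1)) (hh.2 t))
    have h3 := abs_le.1 (abs_mul_le (hg.1.2 (t + 1)) (hh.1.2 t))
    rw [abs_le]; constructor <;> nlinarith

theorem S1.refl {g : ℤ → ℝ} {η : ℝ} (hg : S1 g η) (c : ℤ) : S1 (fun t => g (c - t)) η := by
  refine ⟨⟨fun t => hg.1.1 _, fun t => ?_⟩, fun t => ?_⟩
  · have := hg.1.2 (c - (t + 1))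
    rwa [show c - (t + 1) + 1 = c - t by ring, abs_sub_comm] at this
  · have := hg.2 (c - (t + 1 + 1))
    rw [show c - (t + 1 + 1) + 1 + 1 = c - t by ring,
      show c - (t + 1 + 1) + 1 = c - (t + 1) by ring] at this
    convert this using 2
    ring

theorem s1_ec (s L k : ℕ) : S1 (ec s L k) (th s L k) := by
  refine ⟨⟨fun t => abs_cos_le_one _, fun t => ?_⟩, fun t => ?_⟩
  · refine (abs_cos_sub_cos_le _ _).trans (le_of_eq ?_)
    rw [← abs_of_nonneg (th_nonneg s L k)]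
    congr 1
    rw [abs_of_nonneg (th_nonneg s L k)]
    push_cast; ring
  · have h1 := ec_eig s L k (t + 1)
    rw [add_sub_cancel_right] at h1
    have h2 : |la s L k| ≤ th s L k ^ 2 := by
      have := one_sub_sq_div_two_le_cos (x := th s L k)
      have := cos_le_one (th s L k)
      rw [la, abs_le]; constructor <;> nlinarith [sq_nonneg (th s L k)]
    have h3 := abs_mul_le h2 (abs_cos_le_one (th s L k * (((t + 1 : ℤ) : ℝ) + 1 / 2) - s * (π / 2)))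
    rw [← ec, ← h1, mul_one, ← abs_neg] at h3
    convert h3 using 2
    ring

theorem th_le {s L k N : ℕ} (hs : s ≤ 1) (hk : k < N) : th s L k ≤ 4 * N / L := by
  have : ((k + s : ℕ) : ℝ) ≤ N := by exact_mod_cast (by omega : k + s ≤ N)
  have := pi_le_four
  rw [th]
  gcongr

theorem df_tn {g h : ℤ → ℝ} {η : ℝ} (hg : S0 g η) (hh : S0 h η) (i : Fin 2) (x : Pt) :
    |df i (tn g h) x| ≤ η := by
  fin_cases i
  · have := abs_mul_le (hg.2 x.1) (hh.1 x.2)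
    simp only [df, ev, tn, Fin.zero_eta, Matrix.cons_val_zero, Prod.fst_add, Prod.snd_add, add_zero]
    rw [mul_one] at this
    convert this using 2; ring
  · have := abs_mul_le (hg.1 x.1) (hh.2 x.2)
    simp only [df, ev, tn, Fin.mk_one, Matrix.cons_val_one, Matrix.cons_val_zero, Prod.fst_add,
      Prod.snd_add, add_zero]
    rw [one_mul] at this
    convert this using 2; ring

theorem df2_tn {g h : ℤ → ℝ} {η : ℝ} (hg : S1 g η) (hh : S1 h η) (i j : Fin 2) (x : Pt) :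
    |df j (df i (tn g h)) x| ≤ η ^ 2 := by
  have h1 := abs_mul_le (hg.2 x.1) (hh.1.1 x.2)
  have h2 := abs_mul_le (hg.1.1 x.1) (hh.2 x.2)
  have h3 := abs_mul_le (hg.1.2 x.1) (hh.1.2 x.2)
  rw [mul_one] at h1
  rw [one_mul] at h2
  rw [← pow_two] at h3
  fin_cases i <;> fin_cases j <;>
    simp only [df, ev, tn, Fin.zero_eta, Fin.mk_one, Matrix.cons_val_one, Matrix.cons_val_zero,
      Prod.fst_add, Prod.snd_add, add_zero]
  · convert h1 using 2; ring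
  · convert h3 using 2; ring
  · convert h3 using 2; ring
  · convert h2 using 2; ring

theorem df_cb (H : Finset (ℕ × ℕ)) (a : ℕ × ℕ → ℝ) (U : ℕ × ℕ → Pt → ℝ) (i : Fin 2) :
    df i (cb H a U) = cb H a fun k => df i (U k) := by
  funext x
  simp only [df, cb, ← sum_sub_distrib, mul_sub]

theorem abs_cb_le {N : ℕ} {a : ℕ × ℕ → ℝ} {U : ℕ × ℕ → Pt → ℝ} {K B : ℝ} {x : Pt}
    (ha : ∀ k ∈ range N ×ˢ range N, |a k| ≤ K) (hU : ∀ k ∈ range N ×ˢ range N, |U k x| ≤ B) :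
    |cb (range N ×ˢ range N) a U x| ≤ (N : ℝ) ^ 2 * K * B := by
  refine (abs_sum_le_sum_abs _ _).trans
    ((sum_le_card_nsmul _ _ (K * B) fun k hk => abs_mul_le (ha k hk) (hU k hk)).trans (le_of_eq ?_))
  rw [nsmul_eq_mul, card_product, card_range]; push_cast; ring

/-- a low-mode combination of tensor products is smooth -/
theorem sm2_cb {N : ℕ} {a : ℕ × ℕ → ℝ} {g : ℕ → ℤ → ℝ} {K A L K' c : ℝ} (hL : 0 < L) (hA : 1 ≤ A)
    (hK : 0 ≤ K) (ha : ∀ k ∈ range N ×ˢ range N, |a k| ≤ K) (hg : ∀ k < N, S1 (g k) (A / L))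
    {T : ℝ} (hc : |c| ≤ T) (hK' : T * ((N : ℝ) ^ 2 * K * A ^ 2) ≤ K') :
    Sm2 (c • cb (range N ×ˢ range N) a fun k => tn (g k.1) (g k.2)) K' L ∧
      ∀ x, |(c • cb (range N ×ˢ range N) a fun k => tn (g k.1) (g k.2)) x| ≤ K' := by
  have hm : ∀ k ∈ range N ×ˢ range N, S1 (g k.1) (A / L) ∧ S1 (g k.2) (A / L) := fun k hk => by
    simp only [mem_product, mem_range] at hk
    exact ⟨hg _ hk.1, hg _ hk.2⟩
  have hd : ∀ (i : Fin 2) (u : Pt → ℝ), df i (c • u) = c • df i u := fun i u => by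
    funext x; simp [df, mul_sub]
  have hT : 0 ≤ T := (abs_nonneg _).trans hc
  have hA2 : A ≤ A ^ 2 := by nlinarith
  refine ⟨⟨fun i x => ?_, fun i j x => ?_⟩, fun x => ?_⟩
  · rw [hd, df_cb]
    refine (abs_mul_le hc (abs_cb_le ha fun k hk => df_tn (hm k hk).1.1 (hm k hk).2.1 i x)).trans ?_
    calc T * ((N : ℝ) ^ 2 * K * (A / L)) = T * ((N : ℝ) ^ 2 * K * A) / L := by ring
      _ ≤ T * ((N : ℝ) ^ 2 * K * A ^ 2) / L := by gcongr
      _ ≤ _ := by gcongr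
  · rw [hd, hd, df_cb, df_cb]
    refine (abs_mul_le hc (abs_cb_le ha fun k hk => df2_tn (hm k hk).1 (hm k hk).2 i j x)).trans ?_
    calc T * ((N : ℝ) ^ 2 * K * (A / L) ^ 2) = T * ((N : ℝ) ^ 2 * K * A ^ 2) / L ^ 2 := by ring
      _ ≤ _ := by gcongr
  · refine (abs_mul_le hc (abs_cb_le (B := 1) ha fun k hk => ?_)).trans (le_trans ?_ hK')
    · simpa [tn] using abs_mul_le ((hm k hk).1.1.1 x.1) ((hm k hk).2.1.1 x.2)
    · gcongr; linarith

/-! ## The cut-off -/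

theorem exists_cut (hSm : SmStmt) {r : ℕ} (hr : 1 ≤ r) : ∃ ρ : ℤ → ℝ, S1 ρ (10 / r) ∧
    (∀ t : ℤ, t ≤ r → ρ t = 0) ∧ ∀ t : ℤ, 2 * r ≤ t → ρ t = 1 := by
  obtain ⟨h1, -, -, ⟨χ, c1, c2, c3, c4, c5, c6, -⟩, -⟩ := hSm
  have hr' : (0 : ℝ) < r := by exact_mod_cast hr
  have h := h1 χ 10 r (-1) ![1, 0] hr' c1 c2 c3 (fun i => by fin_cases i <;> simp)
  refine ⟨fun t => χ (t / r + -1), ⟨⟨fun t => ?_, fun t => ?_⟩, fun t => ?_⟩, fun t ht => c5 _ ?_,
    fun t ht => c6 _ ?_⟩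
  · rw [abs_of_nonneg (c4 _).1]; exact (c4 _).2
  · simpa [df, ev, co] using h.1 0 (t, 0)
  · have := h.2 0 0 (t, 0)
    refine le_trans (le_of_eq ?_) (this.trans ?_)
    · simp [df, ev, co]
    · rw [div_pow]; gcongr; norm_num
  · have : (t : ℝ) ≤ r := by exact_mod_cast ht
    have : (t : ℝ) / r ≤ 1 := (div_le_one hr').2 this
    linarith
  · have : (2 * r : ℝ) ≤ t := by exact_mod_cast ht
    have : 2 ≤ (t : ℝ) / r := (le_div_iff₀ hr').2 this
    linarith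

theorem S0.cut {ρ g : ℤ → ℝ} {η δ b : ℝ} (hρ : S0 ρ δ) (hg : S0 g η) (hb : 0 ≤ b)
    (h : ∀ t, ρ (t + 1) ≠ ρ t → |g t| ≤ b) : S0 (fun t => ρ t * g t) (η + δ * b) := by
  refine ⟨fun t => by simpa using abs_mul_le (hρ.1 t) (hg.1 t), fun t => ?_⟩
  have h1 := abs_le.1 (abs_mul_le (hρ.1 (t + 1)) (hg.2 t))
  have h2 : |(ρ (t + 1) - ρ t) * g t| ≤ δ * b := by
    by_cases h0 : ρ (t + 1) = ρ t
    · rw [h0, sub_self, zero_mul, abs_zero]; exact mul_nonneg hρ.nonneg hb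
    · exact abs_mul_le (hρ.2 t) (h t h0)
  have h3 := abs_le.1 h2
  rw [abs_le]; constructor <;> nlinarith

theorem abs_ec_one (L k : ℕ) (t : ℤ) : |ec 1 L k t| ≤ th 1 L k * |(t : ℝ) + 1 / 2| := by
  rw [ec, Nat.cast_one, one_mul, cos_sub_pi_div_two]
  refine abs_sin_le_abs.trans (le_of_eq ?_)
  rw [abs_mul, abs_of_nonneg (th_nonneg _ _ _)]

/-- the cut sine -/
noncomputable def et (ρ : ℤ → ℝ) (L k : ℕ) (t : ℤ) : ℝ := ρ (L - 1 - t) * (ρ t * ec 1 L k t)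

theorem s0_et {ρ : ℤ → ℝ} {r L : ℕ} (hr : 1 ≤ r) (hL : 0 < L) (h : S1 ρ (10 / r))
    (h0 : ∀ t : ℤ, t ≤ r → ρ t = 0) (h1 : ∀ t : ℤ, 2 * r ≤ t → ρ t = 1) (k : ℕ) :
    S0 (et ρ L k) (61 * th 1 L k) := by
  have hr' : (0 : ℝ) < r := by exact_mod_cast hr
  have hr1 : (1 : ℝ) ≤ r := by exact_mod_cast hr
  have hθ := th_nonneg 1 L k
  have hj : ∀ t : ℤ, ρ (t + 1) ≠ ρ t → r ≤ t ∧ t < 2 * r := fun t ht => by
    constructor
    · by_contra h2
      exact ht (by rw [h0 _ (by omega), h0 _ (by omega)])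
    · by_contra h2
      exact ht (by rw [h1 _ (by omega), h1 _ (by omega)])
  have hb : ∀ t : ℤ, 0 ≤ t → t ≤ 2 * r → |ec 1 L k t| ≤ th 1 L k * (3 * r) := fun t a b => by
    refine (abs_ec_one L k t).trans (mul_le_mul_of_nonneg_left ?_ hθ)
    have : (0 : ℝ) ≤ t := by exact_mod_cast a
    have : (t : ℝ) ≤ 2 * r := by exact_mod_cast b
    rw [abs_le]; constructor <;> linarith
  have A := h.1.cut (s1_ec 1 L k).1 (b := th 1 L k * (3 * r)) (by positivity) fun t ht =>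
    hb t (by have := hj t ht; omega) (by have := hj t ht; omega)
  have B := (h.refl (L - 1)).1.cut A (b := th 1 L k * (3 * r)) (by positivity) fun t ht => by
    have h2 := hj (L - 1 - (t + 1)) (by
      rw [show (L : ℤ) - 1 - (t + 1) + 1 = L - 1 - t by ring]; exact ht.symm)
    have h3 := hb (L - 1 - t) (by omega) (by omega)
    rw [ec_refl' hL, abs_mul, abs_neg_one_pow, one_mul] at h3
    simpa using abs_mul_le (h.1.1 t) h3
  refine B.mono (le_of_eq ?_)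
  field_simp; ring

theorem energy_cut {L r : ℕ} (hr : 1 ≤ r) (h4 : 4 * r ≤ L) {v : Pt → ℝ} {B : ℝ}
    (hd : ∀ i x, |df i v x| ≤ B) (h0 : ∀ x ∈ sq (2 * r, 2 * r) (L - 4 * r), v x = 0) :
    ∑ e ∈ nnL.edT (sq 0 L), gr v e ^ 2 ≤ 48 * r * L * B ^ 2 := by
  classical
  set Q := sq ((2 * r : ℤ), (2 * r : ℤ)) (L - 4 * r) with hQ
  set X := sq (-1, -1) (L + 2) with hX
  have hQX : Q ⊆ X := fun x => by rw [mem_sq, mem_sq]; dsimp only; omega
  have h1 : ∑ e ∈ nnL.edT (sq 0 L), gr v e ^ 2 ≤ ∑ e ∈ nnL.edT (X \ Q), gr v e ^ 2 := by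
    rw [← sum_filter_ne_zero]
    refine sum_le_sum_of_subset_of_nonneg (fun e he => ?_) fun _ _ _ => sq_nonneg _
    rw [mem_filter, mem_nnT] at he
    obtain ⟨⟨h2, h3⟩, h5⟩ := he
    rw [mem_nnT]
    refine ⟨h2, ?_⟩
    have h6 : e.1 ∈ X ∧ e.2 ∈ X := by
      simp only [hX, mem_sq, Prod.ext_iff, Prod.fst_zero, Prod.snd_zero] at h2 h3 ⊢
      omega
    by_contra h7
    simp only [mem_sdiff, h6, true_and, not_or, not_not] at h7
    exact h5 (by rw [gr, h0 _ h7.1, h0 _ h7.2]; simp)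
  refine h1.trans ((sum_le_card_nsmul _ _ (B ^ 2) fun e he => ?_).trans ?_)
  · rw [← sq_abs]
    refine pow_le_pow_left₀ (abs_nonneg _) ?_ 2
    rcases (mem_nnT.1 he).1 with h | h
    · rw [gr, h, show (e.1.1 + 1, e.1.2) = e.1 + ev 0 by simp [ev, Prod.ext_iff]]
      exact hd 0 e.1
    · rw [gr, h, show (e.1.1, e.1.2 + 1) = e.1 + ev 1 by simp [ev, Prod.ext_iff]]
      exact hd 1 e.1
  · rw [nsmul_eq_mul]
    refine mul_le_mul_of_nonneg_right ?_ (sq_nonneg _)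
    have h2 := nnL.card_edT_le (X \ Q)
    have h3 : nnL.Jp.card = 2 := by rw [nn_Jp]; rfl
    have h5 : (X \ Q).card + (L - 4 * r) ^ 2 = (L + 2) ^ 2 := by
      rw [← card_sq ((2 * r : ℤ), (2 * r : ℤ)), ← card_sq (-1, -1)]
      exact card_sdiff_add_card_eq_card hQX
    have h6 : (nnL.edT (X \ Q)).card ≤ 48 * r * L := by
      rw [h3] at h2
      generalize (nnL.edT (X \ Q)).card = p at h2
      generalize (X \ Q).card = q at h2 h5
      obtain ⟨m, rfl⟩ := Nat.exists_eq_add_of_le h4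
      rw [Nat.add_sub_cancel_left] at h5
      nlinarith
    exact_mod_cast h6

/-! ## Assembly -/

theorem au_smul (Λ : Lat) (B : Finset Pt) (c : ℝ) (u : Pt → ℝ) :
    Λ.Au B (c • u) = c • Λ.Au B u := by
  funext x
  simp only [Lat.Au, dv, Pi.smul_apply, smul_eq_mul, mul_sum]
  exact sum_congr rfl fun e _ => by ring

theorem num1 {K ε N : ℝ} (hε : 0 < ε) (h1 : 1 ≤ N) (h : 8 * K ^ 2 / ε ≤ N) :
    K ^ 2 / (2 * N ^ 2) ≤ ε / 16 := by
  have h1 : 8 * K ^ 2 ≤ N * ε := (div_le_iff₀ hε).1 h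
  rw [div_le_div_iff₀ (by positivity) (by positivity)]
  nlinarith [mul_le_mul_of_nonneg_left ‹1 ≤ N› (by positivity : 0 ≤ N * ε)]

theorem num2 {C K ε L : ℝ} (hε : 0 < ε) (hL : 1 ≤ L) (h : 12 * (|C| * K ^ 2) / ε ≤ L) :
    C * K ^ 2 * (L * L / L ^ 4 + (L + L) / L ^ 2) ≤ ε / 4 := by
  have hL' : 0 < L := by linarith
  have h3 : L * L / L ^ 4 + (L + L) / L ^ 2 ≤ 3 / L := by
    rw [div_add_div _ _ (by positivity) (by positivity), div_le_div_iff₀ (by positivity) hL']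
    have : L ^ 5 * 1 ≤ L ^ 5 * L := by gcongr
    nlinarith
  have h6 : 12 * (|C| * K ^ 2) ≤ L * ε := (div_le_iff₀ hε).1 h
  calc _ ≤ |C| * K ^ 2 * (3 / L) := by gcongr; exact le_abs_self _
    _ ≤ ε / 4 := by rw [mul_div_assoc', div_le_div_iff₀ hL' (by norm_num)]; linarith

theorem num3 {B ε M r L : ℝ} (hε : 0 < ε) (hL : 0 < L) (hr : 0 ≤ r) (h1 : r * M ≤ L)
    (h : 16 * (48 * B ^ 2) / ε ≤ M) : 48 * r * L * (B / L) ^ 2 ≤ ε / 16 := by
  have h5 : 16 * (48 * B ^ 2) ≤ M * ε := (div_le_iff₀ hε).1 h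
  have h6 : 48 * r * L * (B / L) ^ 2 = r * (48 * B ^ 2) / L := by field_simp
  rw [h6, div_le_div_iff₀ hL (by norm_num)]
  nlinarith [mul_le_mul_of_nonneg_left h5 hr, mul_le_mul_of_nonneg_left h1 hε.le]

theorem num4 {M r L : ℝ} (hL : 0 < L) (hr : 1 ≤ r) (hM : 0 ≤ M) (h : L ≤ (r + 1) * M) :
    10 / r ≤ 20 * M / L := by
  rw [div_le_div_iff₀ (by positivity) hL]
  nlinarith [mul_le_mul_of_nonneg_left hr hM]

theorem apx (hRJ : RJStmt) (hSm : SmStmt) : ApxStmt := by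
  intro F K₀ ε hε
  obtain ⟨C, hC'⟩ := hRJ F
  have hC : ∀ Λ, F.Mem Λ → ∀ (L : ℕ) (u : Pt → ℝ) (K : ℝ), (1 : ℝ) ≤ L → Sm2 u K L →
      F2 (Λ.edI (sq 0 L)) (Λ.Au (sq 0 L) u - Λ.e0 • nnL.Au (sq 0 L) u)
        (C * K ^ 2 * ((L : ℝ) * L / (L : ℝ) ^ 4 + ((L : ℝ) + L) / (L : ℝ) ^ 2)) :=
    fun Λ hΛ L u K h1 h2 => ((hC' Λ hΛ 0 L L).2 u u K L h1 h2 h2).1
  clear hC'
  set K := |K₀| with hKd
  have hK : 0 ≤ K := abs_nonneg _
  obtain ⟨N, hN⟩ := exists_nat_ge (8 * K ^ 2 / ε + 1)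
  have hN1' : (1 : ℝ) ≤ N := by
    have : 0 ≤ 8 * K ^ 2 / ε := by positivity
    linarith
  have hN1 : 1 ≤ N := by exact_mod_cast hN1'
  have hNε : K ^ 2 / (2 * (N : ℝ) ^ 2) ≤ ε / 16 := num1 hε hN1' (by linarith)
  obtain ⟨M, hM⟩ := exists_nat_ge (16 * (48 * (248 * N ^ 3 * K) ^ 2) / ε + 4)
  have hM4' : (4 : ℝ) ≤ M := by
    have : 0 ≤ 16 * (48 * (248 * N ^ 3 * K) ^ 2) / ε := by positivity
    linarith
  have hM4 : 4 ≤ M := by exact_mod_cast hM4'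
  set A : ℝ := 40 * M + 4 * N with hA
  have hA1 : 1 ≤ A := by linarith
  obtain ⟨K', hK'⟩ := exists_nat_ge (|F.τ₂| * ((N : ℝ) ^ 2 * K * A ^ 2) + M)
  have hK'1 : |F.τ₂| * ((N : ℝ) ^ 2 * K * A ^ 2) ≤ K' := by linarith
  have hK'2 : M ≤ K' := by
    have : 0 ≤ |F.τ₂| * ((N : ℝ) ^ 2 * K * A ^ 2) := by positivity
    exact_mod_cast (by linarith : (M : ℝ) ≤ K')
  obtain ⟨L₁, hL₁⟩ := exists_nat_ge (12 * (|C| * K' ^ 2) / ε)
  refine ⟨K', L₁ + N + M, by omega, fun Λ hΛ L hL f hs hf₀ => ?_⟩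
  have hOk : Λ.Ok := ⟨hΛ.1 ▸ F.adm, F.pos.trans_le hΛ.2.2.1⟩
  have hL0 : 0 < L := by omega
  have hL' : (0 : ℝ) < L := by exact_mod_cast hL0
  have hL1 : (1 : ℝ) ≤ L := by exact_mod_cast hL0
  have hf : ∀ x, |f x| ≤ K / (L : ℝ) ^ 2 := fun x =>
    (hf₀ x).trans (div_le_div_of_nonneg_right (le_abs_self _) (by positivity))
  have ha := hOk.one_le_a
  have hτ := hOk.pos
  have he0 : 0 < Λ.e0 := div_pos (by linarith) hτ
  have hc : |Λ.e0⁻¹| ≤ |F.τ₂| := by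
    rw [abs_of_pos (inv_pos.2 he0), Lat.e0, inv_div]
    exact (div_le_self hτ.le ha).trans (hΛ.2.2.2.trans (le_abs_self _))
  -- from nearest neighbours to `Λ`
  have key : ∀ (ed : Finset (Pt × Pt)) (P : Pt → Prop) (u : Pt → ℝ), Λ.edI (sq 0 L) ⊆ ed →
      Sm2 (Λ.e0⁻¹ • u) K' L → G2 ed P (f - nnL.Au (sq 0 L) u) (ε / 4) →
      G2 ed P (f - Λ.Au (sq 0 L) (Λ.e0⁻¹ • u)) ε := fun ed P u hed hu h => by
    have h1 := f2_iff.1 (hC Λ hΛ L _ K' hL1 hu)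
    have h5 : (L₁ : ℝ) ≤ L := by exact_mod_cast (by omega : L₁ ≤ L)
    have h2 := num2 hε hL1 (hL₁.trans h5)
    refine (h.sub (h1.mono (P' := P) hed (fun x _ => ⟨trivial, rfl⟩) h2)).mono subset_rfl
      (fun x hx => ⟨hx, ?_⟩) (by linarith)
    rw [au_smul nnL, smul_smul, mul_inv_cancel₀ he0.ne', one_smul]
    show f x - Λ.Au (sq 0 L) _ x = f x - nnL.Au (sq 0 L) u x - (Λ.Au (sq 0 L) _ x - nnL.Au (sq 0 L) u x)
    ring
  have hAL : ∀ s k, s ≤ 1 → k < N → th s L k ≤ 4 * N / L := fun s k h1 h2 => th_le h1 h2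
  refine ⟨fun h0 => ?_, ?_⟩
  · obtain ⟨a, w, a1, a2, a3, a4⟩ := spectral (s := 0) (by omega) hN1 (by omega) hf fun _ => h0
    rw [pow_zero] at a2
    have hu := sm2_cb (g := ec 0 L) hL' hA1 hK a1 (fun k hk => (s1_ec 0 L k).mono
      ((hAL 0 k (by omega) hk).trans (by gcongr; linarith))) hc hK'1
    refine ⟨_, hu.1, hu.2, f2_iff.2 (key _ _ _ subset_rfl hu.1 ?_)⟩
    refine G2.mono (ed := nnL.edI (sq 0 L)) (P := fun _ => True) ⟨gr w, fun x _ => ?_, le_rfl⟩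
      (nnI_subset hOk _) (fun x _ => ⟨trivial, rfl⟩) ?_
    · rw [Pi.sub_apply, nn_Au]
      by_cases hx : x ∈ sq 0 L
      · have h1 : Rf L 1 (cb (range N ×ˢ range N) a (E2 0 L)) :=
          rf_cb _ _ fun k => by simpa using rf_E2 (s := 0) hL0 k
        rw [a2.dv_edI hx, a3 x hx, ← h1.dv_edI hx]
        exact add_sub_cancel_left _ _
      · rw [hs x hx, dv_off _ hx, dv_off _ hx, sub_zero]
    · refine (sum_le_sum_of_subset_of_nonneg (Lat.edI_subset_edT _) fun _ _ _ => sq_nonneg _).trans ?_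
      linarith
  · obtain ⟨a, w, a1, a2, a3, a4⟩ := spectral (s := 1) le_rfl hN1 (by omega) hf (by omega)
    have hr1 : 1 ≤ L / M := (Nat.le_div_iff_mul_le (by omega)).2 (by omega)
    have hr2 : L / M * M ≤ L := Nat.div_mul_le_self _ _
    have hr3 : L < (L / M + 1) * M := by
      rw [mul_comm]; exact Nat.lt_mul_div_succ _ (by omega)
    have hr4 : L / K' ≤ L / M := Nat.div_le_div_left hK'2 (by omega)
    generalize L / M = r at hr1 hr2 hr3 hr4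
    have hr' : (1 : ℝ) ≤ r := by exact_mod_cast hr1
    have hr5 : 4 * r ≤ L := le_trans (by rw [mul_comm]; exact Nat.mul_le_mul_left _ hM4) hr2
    have hr6 : (r : ℝ) * M ≤ L := by exact_mod_cast hr2
    have hr7 : (L : ℝ) ≤ (r + 1) * M := by exact_mod_cast hr3.le
    obtain ⟨ρ, ρ1, ρ2, ρ3⟩ := exists_cut hSm hr1
    have h10 : (10 : ℝ) / r ≤ 20 * M / L := num4 hL' hr' (by positivity) hr7
    have hu := sm2_cb (g := et ρ L) hL' hA1 hK a1 (fun k hk =>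
      ((ρ1.refl (L - 1)).mul (ρ1.mul (s1_ec 1 L k))).mono (by
        have := hAL 1 k le_rfl hk
        have h2 : A / L = 20 * M / L + (20 * M / L + 4 * N / L) := by rw [hA]; ring
        linarith)) hc hK'1
    have hz : ∀ (k : ℕ) (t : ℤ), (t ≤ r ∨ L - 1 - t ≤ r) → et ρ L k t = 0 := fun k t ht => by
      rcases ht with ht | ht <;> simp [et, ρ2 _ ht]
    refine ⟨_, hu.1, hu.2, fun x hx y hy => ?_,
      f2a_iff.2 (key _ _ _ (Lat.edI_subset_edT _) hu.1 ?_)⟩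
    · have h1 : ¬ ((x.1 ≤ r ∨ L - 1 - x.1 ≤ r) ∨ (x.2 ≤ r ∨ L - 1 - x.2 ≤ r)) := fun h => hx (by
        rcases h with h | h <;> simp [cb, tn, hz _ _ h])
      rw [mem_bl] at hy
      rw [mem_sq]
      simp only [Prod.fst_zero, Prod.snd_zero]
      omega
    · set u₁ := cb (range N ×ˢ range N) a fun k => tn (et ρ L k.1) (et ρ L k.2) with hu₁
      set u₀ := cb (range N ×ˢ range N) a (E2 1 L) with hu₀
      have h1 : Rf L 1 u₁ := rf_cb _ _ fun k => by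
        have e1 : ∀ j, et ρ L j (-1) = 1 * et ρ L j 0 := fun j => by
          rw [hz _ _ (by omega), hz _ _ (by omega), mul_zero]
        have e2 : ∀ j, et ρ L j L = 1 * et ρ L j (L - 1) := fun j => by
          rw [hz _ _ (by omega), hz _ _ (by omega), mul_zero]
        exact rf_tn (e1 _) (e2 _) (e1 _) (e2 _)
      have h2 : ∑ e ∈ nnL.edT (sq 0 L), gr (u₁ - u₀) e ^ 2 ≤
          48 * r * L * (248 * N ^ 3 * K / L) ^ 2 := by
        refine energy_cut hr1 hr5 (fun i x => ?_) fun x hx => ?_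
        · have b1 : |df i u₁ x| ≤ (N : ℝ) ^ 2 * K * (61 * (4 * N / L)) := by
            rw [hu₁, df_cb]
            refine abs_cb_le a1 fun k hk => ?_
            simp only [mem_product, mem_range] at hk
            exact df_tn ((s0_et hr1 hL0 ρ1 ρ2 ρ3 _).mono (by linarith [hAL 1 _ le_rfl hk.1]))
              ((s0_et hr1 hL0 ρ1 ρ2 ρ3 _).mono (by linarith [hAL 1 _ le_rfl hk.2])) i x
          have b2 : |df i u₀ x| ≤ (N : ℝ) ^ 2 * K * (4 * N / L) := by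
            rw [hu₀, df_cb]
            refine abs_cb_le a1 fun k hk => ?_
            simp only [mem_product, mem_range] at hk
            exact df_tn ((s1_ec 1 L _).1.mono (hAL 1 _ le_rfl hk.1))
              ((s1_ec 1 L _).1.mono (hAL 1 _ le_rfl hk.2)) i x
          have b3 : df i (u₁ - u₀) x = df i u₁ x - df i u₀ x := by simp only [df, Pi.sub_apply]; ring
          rw [b3]
          refine (abs_sub _ _).trans ((add_le_add b1 b2).trans (le_of_eq ?_))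
          ring
        · rw [mem_sq] at hx
          dsimp only at hx
          rw [Pi.sub_apply, sub_eq_zero]
          refine sum_congr rfl fun k _ => ?_
          simp only [tn, E2, et]
          rw [ρ3 x.1 (by omega), ρ3 x.2 (by omega), ρ3 (L - 1 - x.1) (by omega),
            ρ3 (L - 1 - x.2) (by omega)]
          ring
      have h3 : 48 * r * L * (248 * N ^ 3 * K / L) ^ 2 ≤ ε / 16 :=
        num3 hε hL' (by positivity) hr6 (by linarith)
      have g1 : G2 (nnL.edT (sq 0 L)) (· ∈ sq 0 L) (lap w) (ε / 16) :=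
        ⟨gr w, fun x hx => (dv_gr w hx).symm, a4.trans hNε⟩
      have g2 : G2 (nnL.edT (sq 0 L)) (· ∈ sq 0 L) (lap (u₁ - u₀)) (ε / 16) :=
        ⟨gr _, fun x hx => (dv_gr _ hx).symm, h2.trans h3⟩
      refine (g1.sub g2).mono (nnT_subset hOk _) (fun x hx => ⟨hx, ?_⟩) (by linarith)
      rw [Pi.sub_apply, Pi.sub_apply, nn_Au, h1.dv_edI hx, a3 x hx]
      simp only [lap, Pi.sub_apply]
      ring

end Crest.Agent.T145.Apx16

namespace Crest.Agent.T145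

/-- APX -/
theorem apxStmt (hRJ : RJStmt) (hSm : SmStmt) : ApxStmt := Apx16.apx hRJ hSm

end Crest.Agent.T145
end

-- ▼ part T145/Flux_36
section

/-!
# Row 145, module (b): `fluxStmt` (helper36)

The fluxes of the field `x / |x|²` through the sides of the boxes are differences of `arctan`; a Coons patch
of the boundary defect (set to zero on the four vertices of `i₀`) is added as a stream function.
-/

set_option autoImplicit false

namespace Crest.Agent.T145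

open Finset Real

namespace Fx36

/-- angle function -/
noncomputable def A (a b : ℝ) : ℝ := arctan (b / a)

lemma abs_A (a b : ℝ) : |A a b| ≤ 2 := by
  have h1 := arctan_lt_pi_div_two (b / a)
  have h2 := neg_pi_div_two_lt_arctan (b / a)
  have := pi_le_four
  unfold A; rw [abs_le]; constructor <;> linarith

lemma A_add_pos {a b : ℝ} (h : 0 < a * b) : A a b + A b a = π / 2 := by
  have ha : a ≠ 0 := by rintro rfl; simp at h
  have h1 : 0 < b / a := by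
    have : b / a = a * b / (a * a) := by field_simp
    rw [this]; exact div_pos h (mul_self_pos.2 ha)
  unfold A; rw [← inv_div b a, arctan_inv_of_pos h1]; ring

lemma A_add_neg {a b : ℝ} (h : a * b < 0) : A a b + A b a = -(π / 2) := by
  have ha : a ≠ 0 := by rintro rfl; simp at h
  have h1 : b / a < 0 := by
    have : b / a = a * b / (a * a) := by field_simp
    rw [this]; exact div_neg_of_neg_of_pos h (mul_self_pos.2 ha)
  unfold A; rw [← inv_div b a, arctan_inv_of_neg h1]; ring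

lemma mvt {a : ℝ} (ha : a ≠ 0) (b : ℝ) :
    ∃ t, b ≤ t ∧ t ≤ b + 1 ∧ A a (b + 1) - A a b = a / (a ^ 2 + t ^ 2) := by
  have hd : ∀ t, HasDerivAt (fun t => A a t) (a / (a ^ 2 + t ^ 2)) t := fun t => by
    have h := ((hasDerivAt_id t).div_const a).arctan
    have ha2 : 0 < a ^ 2 := by positivity
    have : (1 : ℝ) / (1 + (id t / a) ^ 2) * (1 / a) = a / (a ^ 2 + t ^ 2) := by
      simp only [id]; field_simp
    rw [this] at h; exact h
  obtain ⟨t, ht, h⟩ := exists_hasDerivAt_eq_slope (fun t => A a t) (fun t => a / (a ^ 2 + t ^ 2))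
    (show b < b + 1 by linarith) (fun t _ => (hd t).continuousAt.continuousWithinAt) fun t _ => hd t
  refine ⟨t, ht.1.le, ht.2.le, ?_⟩
  rw [h]; simp

lemma dA_le {a : ℝ} (ha : a ≠ 0) (b : ℝ) : |A a (b + 1) - A a b| ≤ 1 / |a| := by
  obtain ⟨t, -, -, h⟩ := mvt ha b
  have ha' : 0 < |a| := abs_pos.2 ha
  have h2 : 0 < a ^ 2 + t ^ 2 := by positivity
  rw [h, abs_div, abs_of_pos h2, div_le_div_iff₀ h2 ha', ← pow_two, sq_abs]
  nlinarith [sq_nonneg t]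

/-- the flux through a side is the field at the centre of the box -/
lemma dA_near {a x y : ℝ} (ha : a ≠ 0) (hax : |a - x| ≤ 1 / 2) (hr : 1 ≤ x ^ 2 + y ^ 2)
    (hx : |x| ≤ x ^ 2) :
    |A a (y - 1 / 2 + 1) - A a (y - 1 / 2) - x / (x ^ 2 + y ^ 2)| ≤ 30 / (x ^ 2 + y ^ 2) := by
  obtain ⟨t, h1, h2, h⟩ := mvt ha (y - 1 / 2)
  rw [h]
  obtain ⟨u, rfl⟩ : ∃ u, a = x + u := ⟨a - x, by ring⟩
  obtain ⟨v, rfl⟩ : ∃ v, t = y + v := ⟨t - y, by ring⟩
  have hu : |u| ≤ 1 / 2 := by simpa using hax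
  have hv : |v| ≤ 1 / 2 := abs_le.2 ⟨by linarith, by linarith⟩
  have hu2 : u ^ 2 ≤ 1 / 4 := by rw [← sq_abs]; nlinarith [abs_nonneg u]
  have hv2 : v ^ 2 ≤ 1 / 4 := by rw [← sq_abs]; nlinarith [abs_nonneg v]
  set r := x ^ 2 + y ^ 2 with hr'
  set s := (x + u) ^ 2 + (y + v) ^ 2 with hs'
  have hs : r ≤ 12 * s := by
    nlinarith [sq_nonneg (x + 3 / 2 * u), sq_nonneg (y + 3 / 2 * v), sq_nonneg (2 * x + 3 * u),
      sq_nonneg (2 * y + 3 * v)]
  have hs0 : 0 < s := by linarith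
  have hr0 : 0 < r := by linarith
  have e : (x + u) / s - x / r = (u * r + x * (r - s)) / (s * r) := by field_simp; ring
  have hb : |u * r + x * (r - s)| ≤ 5 / 2 * r := by
    have e2 : x * (r - s) = -(2 * x ^ 2 * u + 2 * (x * y) * v + x * (u ^ 2 + v ^ 2)) := by
      rw [hr', hs']; ring
    have b1 : |u * r| ≤ r / 2 := by rw [abs_mul, abs_of_pos hr0]; nlinarith
    have b2 : |2 * x ^ 2 * u| ≤ x ^ 2 := by
      rw [abs_mul, abs_of_nonneg (by positivity : (0 : ℝ) ≤ 2 * x ^ 2)]; nlinarith [sq_nonneg x]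
    have hxy : |x * y| ≤ r / 2 := by
      rw [abs_le]; constructor <;> nlinarith [sq_nonneg (x + y), sq_nonneg (x - y)]
    have b3 : |2 * (x * y) * v| ≤ r / 2 := by
      rw [abs_mul, abs_mul, abs_two]; nlinarith [abs_nonneg (x * y), abs_nonneg v]
    have b4 : |x * (u ^ 2 + v ^ 2)| ≤ x ^ 2 / 2 := by
      rw [abs_mul, abs_of_nonneg (by positivity : (0 : ℝ) ≤ u ^ 2 + v ^ 2)]
      nlinarith [abs_nonneg x, sq_nonneg u, sq_nonneg v]
    have b5 := abs_add_le (u * r) (x * (r - s))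
    have b6 := abs_add_three (2 * x ^ 2 * u) (2 * (x * y) * v) (x * (u ^ 2 + v ^ 2))
    rw [e2, abs_neg] at b5
    rw [e2]
    nlinarith [sq_nonneg y]
  rw [e, abs_div, abs_of_pos (mul_pos hs0 hr0), div_le_div_iff₀ (mul_pos hs0 hr0) hr0]
  nlinarith [mul_le_mul_of_nonneg_right hb hr0.le, mul_pos hr0 hr0,
    mul_le_mul_of_nonneg_right hs hr0.le]

lemma int_abs_le_sq (x : ℤ) : |(x : ℝ)| ≤ (x : ℝ) ^ 2 := by
  have : |x| ≤ x ^ 2 := by
    rcases eq_or_ne x 0 with rfl | h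
    · simp
    · have := Int.one_le_abs h
      rw [← sq_abs]; nlinarith
  exact_mod_cast this

lemma tele (F : ℤ → ℝ) (a : ℤ) (k : ℕ) : ∑ y ∈ Ico a (a + k), (F (y + 1) - F y) = F (a + k) - F a := by
  induction k with
  | zero => simp
  | succ k ih =>
    have : Ico a (a + (k + 1 : ℕ)) = insert (a + k) (Ico a (a + k)) := by
      ext y; simp only [mem_Ico, mem_insert]; push_cast; omega
    rw [this, sum_insert (by simp), ih]; push_cast; ring_nf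

/-- the sharp sum over one side of a square ring -/
lemma side_sum {n : ℕ} (hn : 1 ≤ n) :
    ∑ y ∈ Icc (-(n : ℤ)) n, 1 / ((n : ℝ) ^ 2 + (y : ℝ) ^ 2) ≤ π / 2 * (n : ℝ)⁻¹ + 90 / (n : ℝ) ^ 2 := by
  have hn' : (1 : ℝ) ≤ n := by exact_mod_cast hn
  have ha : (n : ℝ) + 1 / 2 ≠ 0 := by positivity
  set F : ℤ → ℝ := fun y => A (n + 1 / 2) (y - 1 / 2) with hF
  have ht : ∑ y ∈ Icc (-(n : ℤ)) n, (F (y + 1) - F y) = π / 2 := by
    have : Icc (-(n : ℤ)) n = Ico (-(n : ℤ)) (-(n : ℤ) + (2 * n + 1 : ℕ)) := by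
      ext y; simp only [mem_Ico, mem_Icc]; push_cast; omega
    rw [this, tele]
    have e1 : (((-(n : ℤ) + (2 * n + 1 : ℕ) : ℤ) : ℝ) - 1 / 2) / (n + 1 / 2) = 1 := by
      rw [div_eq_one_iff_eq ha]; push_cast; ring
    have e2 : (((-(n : ℤ) : ℤ) : ℝ) - 1 / 2) / (n + 1 / 2) = -1 := by
      rw [div_eq_iff ha]; push_cast; ring
    simp only [hF, A]; rw [e1, e2, arctan_neg, arctan_one]; ring
  have hp : ∀ y ∈ Icc (-(n : ℤ)) n, 1 / ((n : ℝ) ^ 2 + (y : ℝ) ^ 2) ≤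
      (F (y + 1) - F y) * (n : ℝ)⁻¹ + 30 / (n : ℝ) ^ 3 := fun y _ => by
    have h := dA_near (x := n) (y := y) ha (by simp [abs_of_nonneg]) (by nlinarith [sq_nonneg (y : ℝ)])
      (by rw [abs_of_nonneg (by linarith)]; nlinarith)
    have e : F (y + 1) = A (n + 1 / 2) (y - 1 / 2 + 1) := by simp only [hF]; push_cast; ring_nf
    rw [e]
    have h1 := (abs_le.1 h).1
    have hr : 0 < (n : ℝ) ^ 2 + (y : ℝ) ^ 2 := by positivity
    have h2 : 30 / ((n : ℝ) ^ 2 + (y : ℝ) ^ 2) ≤ 30 / (n : ℝ) ^ 2 :=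
      div_le_div_of_nonneg_left (by norm_num) (by positivity) (by nlinarith [sq_nonneg (y : ℝ)])
    have h3 : (n : ℝ) / ((n : ℝ) ^ 2 + (y : ℝ) ^ 2) ≤
        A (n + 1 / 2) (y - 1 / 2 + 1) - F y + 30 / (n : ℝ) ^ 2 := by simp only [hF]; linarith
    have h4 := mul_le_mul_of_nonneg_right h3 (by positivity : (0 : ℝ) ≤ (n : ℝ)⁻¹)
    calc _ = (n : ℝ) / ((n : ℝ) ^ 2 + (y : ℝ) ^ 2) * (n : ℝ)⁻¹ := by field_simp
      _ ≤ _ := h4
      _ = _ := by field_simp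
  refine (sum_le_sum hp).trans ?_
  rw [sum_add_distrib, ← sum_mul, ht, sum_const, Int.card_Icc, nsmul_eq_mul]
  have : ((((n : ℤ) + 1 - -(n : ℤ)).toNat : ℕ) : ℝ) = 2 * n + 1 := by
    have : ((n : ℤ) + 1 - -(n : ℤ)).toNat = 2 * n + 1 := by omega
    rw [this]; push_cast; ring
  rw [this]
  have : (2 * (n : ℝ) + 1) * (30 / (n : ℝ) ^ 3) ≤ 90 / (n : ℝ) ^ 2 := by
    rw [mul_div_assoc', div_le_div_iff₀ (by positivity) (by positivity)]
    nlinarith [mul_nonneg (sub_nonneg.2 hn') (by positivity : (0 : ℝ) ≤ (n : ℝ) ^ 2)]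
  linarith

lemma sum_inv_sq (W : ℕ) : ∑ n ∈ Icc 1 W, 1 / (n : ℝ) ^ 2 ≤ 2 := by
  have : ∀ W : ℕ, ∑ n ∈ Icc 1 (W + 1), 1 / (n : ℝ) ^ 2 ≤ 2 - 1 / ((W : ℝ) + 1) := fun W => by
    induction W with
    | zero => norm_num
    | succ k ih =>
      rw [sum_Icc_succ_top (by omega)]
      have : 1 / (((k + 1 + 1 : ℕ) : ℝ)) ^ 2 ≤ 1 / ((k : ℝ) + 1) - 1 / (((k + 1 : ℕ) : ℝ) + 1) := by
        push_cast
        rw [div_sub_div _ _ (by positivity) (by positivity), div_le_div_iff₀ (by positivity) (by positivity)]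
        nlinarith [(Nat.cast_nonneg k : (0 : ℝ) ≤ k)]
      linarith
  cases W with
  | zero => simp
  | succ k => have h := this k; have : 0 < 1 / ((k : ℝ) + 1) := by positivity
              linarith

lemma sum_inv (W : ℕ) : ∑ n ∈ Icc 1 W, (n : ℝ)⁻¹ ≤ 1 + log W := by
  have h := harmonic_le_one_add_log W
  rw [harmonic_eq_sum_Icc] at h
  push_cast at h; exact h

/-- half of the shell decomposition -/
lemma half (S : Finset Pt) (a b : Pt → ℤ) (W : ℕ) (H : ℕ → ℤ → ℝ) (hH : ∀ n y, 0 ≤ H n y)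
    (hinj : ∀ p q, a p = a q → b p = b q → p = q)
    (hS : ∀ p ∈ S, a p ≠ 0 ∧ |a p| ≤ W ∧ |b p| ≤ |a p|) :
    ∑ p ∈ S, H (a p).natAbs (b p) ≤ 2 * ∑ n ∈ Icc 1 W, ∑ y ∈ Icc (-(n : ℤ)) n, H n y := by
  classical
  rw [sum_sigma' (Icc 1 W) (fun n => Icc (-(n : ℤ)) n) fun n y => H n y]
  set φ : Pt → (Σ _ : ℕ, ℤ) := fun p => ⟨(a p).natAbs, b p⟩ with hφ
  have hm : ∀ p ∈ S, φ p ∈ (Icc 1 W).sigma fun n => Icc (-(n : ℤ)) n := fun p hp => by
    obtain ⟨h1, h2, h3⟩ := hS p hp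
    simp only [hφ, mem_sigma, mem_Icc, Int.natCast_natAbs]
    rw [abs_le] at h3
    refine ⟨⟨by omega, ?_⟩, h3⟩
    have : ((a p).natAbs : ℤ) ≤ W := by rwa [Int.natCast_natAbs]
    exact_mod_cast this
  rw [← sum_fiberwise_of_maps_to hm, mul_sum]
  refine sum_le_sum fun q _ => ?_
  have e : ∑ p ∈ S with φ p = q, H (a p).natAbs (b p) = ∑ p ∈ S with φ p = q, H q.1 q.2 :=
    sum_congr rfl fun p hp => by rw [← (mem_filter.1 hp).2]
  rw [e, sum_const, nsmul_eq_mul]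
  refine mul_le_mul_of_nonneg_right ?_ (hH _ _)
  have : (S.filter fun p => φ p = q).card ≤ ({(q.1 : ℤ), -(q.1 : ℤ)} : Finset ℤ).card := by
    refine card_le_card_of_injOn a (fun p hp => ?_) fun p hp p' hp' h => ?_
    · have := (mem_filter.1 (mem_coe.1 hp)).2
      subst this
      simp only [hφ, coe_insert, coe_singleton, Set.mem_insert_iff, Set.mem_singleton_iff]
      omega
    · have h1 := (mem_filter.1 (mem_coe.1 hp)).2
      have h2 := (mem_filter.1 (mem_coe.1 hp')).2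
      have h3 : (φ p).2 = (φ p').2 := by rw [h1, h2]
      exact hinj _ _ h h3
  have h2 : (S.filter fun p => φ p = q).card ≤ 2 := this.trans card_le_two
  exact_mod_cast h2

/-- summing a pointwise bound -/
lemma key (W : ℕ) (hW : 1 ≤ W) (i₀ : Pt) (S : Finset Pt) (G : Pt → ℝ) (l m : ℝ) (hl : 0 ≤ l) (hm : 0 ≤ m)
    (hS : ∀ i ∈ S, i ≠ i₀ ∧ |i.1 - i₀.1| ≤ W ∧ |i.2 - i₀.2| ≤ W)
    (hG : ∀ i ∈ S, ∀ n : ℝ, 1 ≤ n → n ≤ W → |((i.1 - i₀.1 : ℤ) : ℝ)| ≤ n → |((i.2 - i₀.2 : ℤ) : ℝ)| ≤ n →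
      n ^ 2 ≤ ((i.1 - i₀.1 : ℤ) : ℝ) ^ 2 + ((i.2 - i₀.2 : ℤ) : ℝ) ^ 2 →
      G i ≤ l * (1 / (((i.1 - i₀.1 : ℤ) : ℝ) ^ 2 + ((i.2 - i₀.2 : ℤ) : ℝ) ^ 2)) +
        m * (1 / n ^ 3 + 1 / (n * W))) :
    ∑ i ∈ S, G i ≤ l * (2 * π * log W + 728) + 36 * m := by
  classical
  have hW' : (1 : ℝ) ≤ W := by exact_mod_cast hW
  set H : ℕ → ℤ → ℝ := fun n y => l * (1 / ((n : ℝ) ^ 2 + (y : ℝ) ^ 2)) + m * (1 / (n : ℝ) ^ 3 + 1 / (n * W))
    with hH
  have hH0 : ∀ n y, 0 ≤ H n y := fun n y => by simp only [hH]; positivity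
  have hne : ∀ i ∈ S, i.1 - i₀.1 ≠ 0 ∨ i.2 - i₀.2 ≠ 0 := fun i hi => by
    by_contra h
    push Not at h
    exact (hS i hi).1 (Prod.ext (by omega) (by omega))
  have cast : ∀ x : ℤ, ((x.natAbs : ℕ) : ℝ) = |(x : ℝ)| := fun x => by
    rw [← Int.cast_natCast, Int.natCast_natAbs]; push_cast; rfl
  have one : ∀ x y : ℤ, (x ≠ 0 ∨ y ≠ 0) → |x| ≤ W → |y| ≤ |x| →
      (1 : ℝ) ≤ |(x : ℝ)| ∧ |(x : ℝ)| ≤ W ∧ |(y : ℝ)| ≤ |(x : ℝ)| ∧ x ≠ 0 := fun x y h h1 h2 => by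
    have hx : x ≠ 0 := by
      rintro rfl
      simp only [abs_zero, abs_nonpos_iff] at h2
      simp [h2] at h
    exact ⟨by exact_mod_cast Int.one_le_abs hx, by exact_mod_cast h1, by exact_mod_cast h2, hx⟩
  rw [← sum_filter_add_sum_filter_not S fun i => |i.2 - i₀.2| ≤ |i.1 - i₀.1|]
  have h1 := half (S.filter fun i => |i.2 - i₀.2| ≤ |i.1 - i₀.1|) (fun i => i.1 - i₀.1) (fun i => i.2 - i₀.2)
    W H hH0 (fun p q h h' => Prod.ext (by omega) (by omega)) fun p hp => by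
      obtain ⟨hp, h⟩ := mem_filter.1 hp
      exact ⟨(one _ _ (hne p hp) (hS p hp).2.1 h).2.2.2, (hS p hp).2.1, h⟩
  have h2 := half (S.filter fun i => ¬ |i.2 - i₀.2| ≤ |i.1 - i₀.1|) (fun i => i.2 - i₀.2)
    (fun i => i.1 - i₀.1) W H hH0 (fun p q h h' => Prod.ext (by omega) (by omega)) fun p hp => by
      obtain ⟨hp, h⟩ := mem_filter.1 hp
      exact ⟨(one _ _ (hne p hp).symm (hS p hp).2.2 (not_le.1 h).le).2.2.2, (hS p hp).2.2, (not_le.1 h).le⟩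
  have g1 : ∑ i ∈ S with |i.2 - i₀.2| ≤ |i.1 - i₀.1|, G i ≤
      ∑ i ∈ S with |i.2 - i₀.2| ≤ |i.1 - i₀.1|, H (i.1 - i₀.1).natAbs (i.2 - i₀.2) :=
    sum_le_sum fun i hi => by
      obtain ⟨hi, h⟩ := mem_filter.1 hi
      obtain ⟨a1, a2, a3, -⟩ := one _ _ (hne i hi) (hS i hi).2.1 h
      have := hG i hi _ a1 a2 le_rfl a3 (by rw [sq_abs]; nlinarith [sq_nonneg ((i.2 - i₀.2 : ℤ) : ℝ)])
      simp only [hH, cast, sq_abs]; exact this
  have g2 : ∑ i ∈ S with ¬ |i.2 - i₀.2| ≤ |i.1 - i₀.1|, G i ≤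
      ∑ i ∈ S with ¬ |i.2 - i₀.2| ≤ |i.1 - i₀.1|, H (i.2 - i₀.2).natAbs (i.1 - i₀.1) :=
    sum_le_sum fun i hi => by
      obtain ⟨hi, h⟩ := mem_filter.1 hi
      obtain ⟨a1, a2, a3, -⟩ := one _ _ (hne i hi).symm (hS i hi).2.2 (not_le.1 h).le
      have := hG i hi _ a1 a2 a3 le_rfl (by rw [sq_abs]; nlinarith [sq_nonneg ((i.1 - i₀.1 : ℤ) : ℝ)])
      simp only [hH, cast, sq_abs]; rw [add_comm (((i.2 - i₀.2 : ℤ) : ℝ) ^ 2)]; exact this
  have g3 : ∀ n ∈ Icc 1 W, ∑ y ∈ Icc (-(n : ℤ)) n, H n y ≤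
      l * (π / 2) * (n : ℝ)⁻¹ + (90 * l + 3 * m) * (1 / (n : ℝ) ^ 2) + 3 * m / W := fun n hn => by
    have hn1 := (mem_Icc.1 hn).1
    have hn' : (1 : ℝ) ≤ n := by exact_mod_cast hn1
    simp only [hH]
    rw [sum_add_distrib, ← mul_sum, sum_const, Int.card_Icc, nsmul_eq_mul]
    have : ((((n : ℤ) + 1 - -(n : ℤ)).toNat : ℕ) : ℝ) = 2 * n + 1 := by
      have : ((n : ℤ) + 1 - -(n : ℤ)).toNat = 2 * n + 1 := by omega
      rw [this]; push_cast; ring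
    rw [this]
    have a1 := mul_le_mul_of_nonneg_left (side_sum hn1) hl
    have a2 : (2 * (n : ℝ) + 1) * (m * (1 / (n : ℝ) ^ 3 + 1 / (n * W))) ≤
        3 * n * (m * (1 / (n : ℝ) ^ 3 + 1 / (n * W))) :=
      mul_le_mul_of_nonneg_right (by linarith) (by positivity)
    have a3 : 3 * n * (m * (1 / (n : ℝ) ^ 3 + 1 / (n * W))) = 3 * m * (1 / (n : ℝ) ^ 2) + 3 * m / W := by
      field_simp
    have a4 : l * (π / 2 * (n : ℝ)⁻¹ + 90 / (n : ℝ) ^ 2) =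
        l * (π / 2) * (n : ℝ)⁻¹ + 90 * l * (1 / (n : ℝ) ^ 2) := by ring
    linarith
  have g4 := sum_le_sum g3
  rw [sum_add_distrib, sum_add_distrib, ← mul_sum, ← mul_sum, sum_const, Nat.card_Icc, nsmul_eq_mul] at g4
  have g5 : ((W + 1 - 1 : ℕ) : ℝ) * (3 * m / W) = 3 * m := by
    rw [Nat.add_sub_cancel]; field_simp
  have g6 := mul_le_mul_of_nonneg_left (sum_inv W) (by positivity : 0 ≤ l * (π / 2))
  have g7 := mul_le_mul_of_nonneg_left (sum_inv_sq W) (by positivity : 0 ≤ 90 * l + 3 * m)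
  have g8 := mul_le_mul_of_nonneg_left pi_le_four hl
  nlinarith

lemma alg {X Y a0 a1 a2 a3 q : ℝ} (q0 : 0 ≤ q) (s0 : a0 ^ 2 ≤ 45000 * q) (s1 : a1 ^ 2 ≤ 45000 * q)
    (s2 : a2 ^ 2 ≤ 45000 * q) (s3 : a3 ^ 2 ≤ 45000 * q) (c0 : X * a0 ≤ 150 * q) (c1 : X * a1 ≤ 150 * q)
    (c2 : Y * a2 ≤ 150 * q) (c3 : Y * a3 ≤ 150 * q) :
    ((X + a0 - -(X + a1)) / 2) ^ 2 + ((Y + a2 - -(Y + a3)) / 2) ^ 2 ≤ 1 * (X ^ 2 + Y ^ 2) + 360000 * q ∧
    ((X + a0 + -(X + a1) - (Y + a2) - -(Y + a3)) / 4) ^ 2 ≤ 0 * (X ^ 2 + Y ^ 2) + 360000 * q ∧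
    (X + a0) ^ 2 + (-(X + a1)) ^ 2 + (Y + a2) ^ 2 + (-(Y + a3)) ^ 2 ≤ 4 * (X ^ 2 + Y ^ 2) + 360000 * q := by
  refine ⟨?_, ?_, ?_⟩
  · linarith [sq_nonneg (a0 - a1), sq_nonneg (a2 - a3), show
      ((X + a0 - -(X + a1)) / 2) ^ 2 + ((Y + a2 - -(Y + a3)) / 2) ^ 2 = X ^ 2 + Y ^ 2 + X * a0 + X * a1 +
        Y * a2 + Y * a3 + (a0 ^ 2 + a1 ^ 2 + a2 ^ 2 + a3 ^ 2) / 2 - (a0 - a1) ^ 2 / 4 - (a2 - a3) ^ 2 / 4 by ring]
  · linarith [sq_nonneg (a0 + a1), sq_nonneg (a0 + a2), sq_nonneg (a0 - a3), sq_nonneg (a1 - a2),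
      sq_nonneg (a1 + a3), sq_nonneg (a2 + a3), show
      ((X + a0 + -(X + a1) - (Y + a2) - -(Y + a3)) / 4) ^ 2 = (a0 ^ 2 + a1 ^ 2 + a2 ^ 2 + a3 ^ 2) / 4 -
        ((a0 + a1) ^ 2 + (a0 + a2) ^ 2 + (a0 - a3) ^ 2 + (a1 - a2) ^ 2 + (a1 + a3) ^ 2 + (a2 + a3) ^ 2) / 16 by ring]
  · linarith [sq_nonneg X, sq_nonneg Y, show
      (X + a0) ^ 2 + (-(X + a1)) ^ 2 + (Y + a2) ^ 2 + (-(Y + a3)) ^ 2 = 2 * (X ^ 2 + Y ^ 2) +
        2 * (X * a0 + X * a1 + Y * a2 + Y * a3) + (a0 ^ 2 + a1 ^ 2 + a2 ^ 2 + a3 ^ 2) by ring]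

/-- the three pointwise bounds -/
lemma pt {x y n W : ℝ} (f : Fin 4 → ℝ) (hn : 1 ≤ n) (hW : n ≤ W) (hx : |x| ≤ n) (hy : |y| ≤ n)
    (hr : n ^ 2 ≤ x ^ 2 + y ^ 2)
    (h0 : |f 0 - x / (x ^ 2 + y ^ 2)| ≤ 150 * (1 / n ^ 2 + 1 / W))
    (h1 : |-f 1 - x / (x ^ 2 + y ^ 2)| ≤ 150 * (1 / n ^ 2 + 1 / W))
    (h2 : |f 2 - y / (x ^ 2 + y ^ 2)| ≤ 150 * (1 / n ^ 2 + 1 / W))
    (h3 : |-f 3 - y / (x ^ 2 + y ^ 2)| ≤ 150 * (1 / n ^ 2 + 1 / W)) :
    tl f ≤ 1 * (1 / (x ^ 2 + y ^ 2)) + 360000 * (1 / n ^ 3 + 1 / (n * W)) ∧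
    sa f ≤ 0 * (1 / (x ^ 2 + y ^ 2)) + 360000 * (1 / n ^ 3 + 1 / (n * W)) ∧
    ∑ d, f d ^ 2 ≤ 4 * (1 / (x ^ 2 + y ^ 2)) + 360000 * (1 / n ^ 3 + 1 / (n * W)) := by
  have hn0 : 0 < n := by linarith
  have hW0 : 0 < W := by linarith
  have hr0 : 0 < x ^ 2 + y ^ 2 := by nlinarith
  set e := 150 * (1 / n ^ 2 + 1 / W) with he
  set q := 1 / n ^ 3 + 1 / (n * W) with hq
  have q0 : 0 ≤ q := by positivity
  have e0 : 0 ≤ e := by positivity
  have e1 : 1 / n * e = 150 * q := by rw [he, hq]; field_simp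
  have e2 : e ^ 2 ≤ 45000 * q := by
    have a1 : (1 / n ^ 2) ^ 2 ≤ 1 / n ^ 3 := by
      rw [div_pow, one_pow, ← pow_mul]
      exact one_div_le_one_div_of_le (by positivity) (pow_le_pow_right₀ hn (by norm_num))
    have a2 : (1 / W) ^ 2 ≤ 1 / (n * W) := by
      rw [div_pow, one_pow]
      exact one_div_le_one_div_of_le (by positivity) (by nlinarith)
    rw [he, hq]; nlinarith [sq_nonneg (1 / n ^ 2 - 1 / W)]
  have hd : ∀ z : ℝ, |z| ≤ n → |z / (x ^ 2 + y ^ 2)| ≤ 1 / n := fun z hz => by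
    rw [abs_div, abs_of_pos hr0, div_le_div_iff₀ hr0 hn0]; nlinarith
  have hX := hd x hx
  have hY := hd y hy
  have hs : (x / (x ^ 2 + y ^ 2)) ^ 2 + (y / (x ^ 2 + y ^ 2)) ^ 2 = 1 / (x ^ 2 + y ^ 2) := by field_simp
  set X := x / (x ^ 2 + y ^ 2)
  set Y := y / (x ^ 2 + y ^ 2)
  have sqb : ∀ z : ℝ, |z| ≤ e → z ^ 2 ≤ 45000 * q := fun z hz => by
    rw [← sq_abs]; exact (pow_le_pow_left₀ (abs_nonneg _) hz 2).trans e2
  have crs : ∀ Z z : ℝ, |Z| ≤ 1 / n → |z| ≤ e → Z * z ≤ 150 * q := fun Z z hZ hz => by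
    rw [← e1]
    exact (le_abs_self _).trans (by rw [abs_mul]; exact mul_le_mul hZ hz (abs_nonneg _) (by positivity))
  obtain ⟨a0, ha0⟩ : ∃ a, f 0 = X + a := ⟨f 0 - X, by ring⟩
  obtain ⟨a1, ha1⟩ : ∃ a, f 1 = -(X + a) := ⟨-f 1 - X, by ring⟩
  obtain ⟨a2, ha2⟩ : ∃ a, f 2 = Y + a := ⟨f 2 - Y, by ring⟩
  obtain ⟨a3, ha3⟩ : ∃ a, f 3 = -(Y + a) := ⟨-f 3 - Y, by ring⟩
  rw [ha0, add_sub_cancel_left] at h0
  rw [ha1, neg_neg, add_sub_cancel_left] at h1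
  rw [ha2, add_sub_cancel_left] at h2
  rw [ha3, neg_neg, add_sub_cancel_left] at h3
  have s0 := sqb _ h0
  have s1 := sqb _ h1
  have s2 := sqb _ h2
  have s3 := sqb _ h3
  have c0 := crs _ _ hX h0
  have c1 := crs _ _ hX h1
  have c2 := crs _ _ hY h2
  have c3 := crs _ _ hY h3
  rw [tl, sa, Fin.sum_univ_four, ha0, ha1, ha2, ha3, ← hs]
  exact alg q0 s0 s1 s2 s3 c0 c1 c2 c3

/-- Coons patch -/
noncomputable def coons (W : ℝ) (w : ℤ) (cW cE cS cN : ℤ → ℝ) (X Y : ℤ) : ℝ :=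
  (1 - X / W) * cW Y + X / W * cE Y + (1 - Y / W) * cS X + Y / W * cN X -
    ((1 - X / W) * ((1 - Y / W) * cS 0 + Y / W * cN 0) + X / W * ((1 - Y / W) * cS w + Y / W * cN w))

lemma cvx {s a b M : ℝ} (h0 : 0 ≤ s) (h1 : s ≤ 1) (ha : |a| ≤ M) (hb : |b| ≤ M) :
    |(1 - s) * a + s * b| ≤ M := by
  rw [abs_le] at *
  constructor <;> nlinarith [ha.1, ha.2, hb.1, hb.2]

lemma stream (w : ℕ) (hw : 1 ≤ w) (a b : ℤ) (ha : 1 ≤ a) (ha' : a + 1 < w) (hb : 1 ≤ b) (hb' : b + 1 < w)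
    (cW cE cS cN : ℤ → ℝ) (c1 : cW 0 = cS 0) (c2 : cE 0 = cS w) (c3 : cW w = cN 0) (c4 : cE w = cN w)
    (hB : ∀ t : ℤ, 0 ≤ t → t ≤ w → |cW t| ≤ 10 ∧ |cE t| ≤ 10 ∧ |cS t| ≤ 10 ∧ |cN t| ≤ 10)
    (hD : ∀ t : ℤ, |cW (t + 1) - cW t| ≤ 10 / w ∧ |cE (t + 1) - cE t| ≤ 10 / w ∧
      |cS (t + 1) - cS t| ≤ 10 / w ∧ |cN (t + 1) - cN t| ≤ 10 / w) :
    ∃ χ : ℤ → ℤ → ℝ, (∀ t, χ 0 t = cW t ∧ χ w t = cE t ∧ χ t 0 = cS t ∧ χ t w = cN t) ∧
      (χ a b = 0 ∧ χ (a + 1) b = 0 ∧ χ a (b + 1) = 0 ∧ χ (a + 1) (b + 1) = 0) ∧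
      (∀ X Y : ℤ, 0 ≤ X → X ≤ w → 0 ≤ Y → Y < w → |χ X (Y + 1) - χ X Y| ≤ 50 / w ∨
        (|χ X (Y + 1) - χ X Y| ≤ 60 ∧ a ≤ X ∧ X ≤ a + 1 ∧ b - 1 ≤ Y ∧ Y ≤ b + 1)) ∧
      ∀ X Y : ℤ, 0 ≤ X → X < w → 0 ≤ Y → Y ≤ w → |χ (X + 1) Y - χ X Y| ≤ 50 / w ∨
        (|χ (X + 1) Y - χ X Y| ≤ 60 ∧ a - 1 ≤ X ∧ X ≤ a + 1 ∧ b ≤ Y ∧ Y ≤ b + 1) := by
  have hw' : (0 : ℝ) < w := by exact_mod_cast hw
  have un : ∀ t : ℤ, 0 ≤ t → t ≤ w → 0 ≤ (t : ℝ) / w ∧ (t : ℝ) / w ≤ 1 := fun t h h' =>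
    ⟨div_nonneg (by exact_mod_cast h) hw'.le, (div_le_one hw').2 (by exact_mod_cast h')⟩
  set K := coons w w cW cE cS cN with hK
  obtain ⟨-, -, z1, z2⟩ := hB 0 le_rfl (by omega)
  obtain ⟨-, -, z3, z4⟩ := hB w (by omega) le_rfl
  have bK : ∀ X Y : ℤ, 0 ≤ X → X ≤ w → 0 ≤ Y → Y ≤ w → |K X Y| ≤ 30 := fun X Y h1 h2 h3 h4 => by
    obtain ⟨s0, s1⟩ := un X h1 h2
    obtain ⟨t0, t1⟩ := un Y h3 h4
    have a1 := abs_le.1 (cvx s0 s1 (hB Y h3 h4).1 (hB Y h3 h4).2.1)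
    have a2 := abs_le.1 (cvx t0 t1 (hB X h1 h2).2.2.1 (hB X h1 h2).2.2.2)
    have a3 := abs_le.1 (cvx s0 s1 (cvx t0 t1 z1 z2) (cvx t0 t1 z3 z4))
    simp only [hK, coons]; rw [abs_le]; constructor <;> linarith [a1.1, a1.2, a2.1, a2.2, a3.1, a3.2]
  have dv : ∀ p q : ℝ, |p| ≤ 10 → |q| ≤ 10 → |(p - q) / w| ≤ 20 / w := fun p q hp hq => by
    rw [abs_div, abs_of_pos hw']
    exact div_le_div_of_nonneg_right ((abs_sub _ _).trans (by linarith)) hw'.le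
  have vK : ∀ X Y : ℤ, 0 ≤ X → X ≤ w → |K X (Y + 1) - K X Y| ≤ 50 / w := fun X Y h1 h2 => by
    obtain ⟨s0, s1⟩ := un X h1 h2
    have a1 := abs_le.1 (cvx s0 s1 (hD Y).1 (hD Y).2.1)
    have a2 := abs_le.1 (dv _ _ (hB X h1 h2).2.2.2 (hB X h1 h2).2.2.1)
    have a3 := abs_le.1 (cvx s0 s1 (dv _ _ z2 z1) (dv _ _ z4 z3))
    have e : K X (Y + 1) - K X Y = ((1 - X / w) * (cW (Y + 1) - cW Y) + X / w * (cE (Y + 1) - cE Y)) +
        (cN X - cS X) / w - ((1 - X / w) * ((cN 0 - cS 0) / w) + X / w * ((cN w - cS w) / w)) := by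
      simp only [hK, coons]; push_cast; ring
    have : (50 : ℝ) / w = 10 / w + 20 / w + 20 / w := by ring
    rw [e, abs_le]; constructor <;> linarith [a1.1, a1.2, a2.1, a2.2, a3.1, a3.2]
  have hK' : ∀ X Y : ℤ, 0 ≤ Y → Y ≤ w → |K (X + 1) Y - K X Y| ≤ 50 / w := fun X Y h1 h2 => by
    obtain ⟨s0, s1⟩ := un Y h1 h2
    have a1 := abs_le.1 (cvx s0 s1 (hD X).2.2.1 (hD X).2.2.2)
    have a2 := abs_le.1 (dv _ _ (hB Y h1 h2).2.1 (hB Y h1 h2).1)
    have a3 := abs_le.1 (cvx s0 s1 (dv _ _ z3 z1) (dv _ _ z4 z2))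
    have e : K (X + 1) Y - K X Y = ((1 - Y / w) * (cS (X + 1) - cS X) + Y / w * (cN (X + 1) - cN X)) +
        (cE Y - cW Y) / w - ((1 - Y / w) * ((cS w - cS 0) / w) + Y / w * ((cN w - cN 0) / w)) := by
      simp only [hK, coons]; push_cast; ring
    have : (50 : ℝ) / w = 10 / w + 20 / w + 20 / w := by ring
    rw [e, abs_le]; constructor <;> linarith [a1.1, a1.2, a2.1, a2.2, a3.1, a3.2]
  have hww : ((w : ℤ) : ℝ) / w = 1 := by push_cast; exact div_self hw'.ne'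
  set χ : ℤ → ℤ → ℝ := fun X Y => if (a ≤ X ∧ X ≤ a + 1) ∧ b ≤ Y ∧ Y ≤ b + 1 then 0 else K X Y with hχ
  have bχ : ∀ X Y : ℤ, 0 ≤ X → X ≤ w → 0 ≤ Y → Y ≤ w → |χ X Y| ≤ 30 := fun X Y h1 h2 h3 h4 => by
    simp only [hχ]; split_ifs
    · norm_num
    · exact bK X Y h1 h2 h3 h4
  refine ⟨χ, fun t => ⟨?_, ?_, ?_, ?_⟩, ⟨?_, ?_, ?_, ?_⟩, fun X Y h1 h2 h3 h4 => ?_,
    fun X Y h1 h2 h3 h4 => ?_⟩
  · simp only [hχ]; rw [if_neg (by omega)]; simp [hK, coons]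
  · simp only [hχ]; rw [if_neg (by omega)]; simp only [hK, coons, hww]; ring
  · simp only [hχ]; rw [if_neg (by omega)]; simp only [hK, coons, c1, c2]; push_cast; ring
  · simp only [hχ]; rw [if_neg (by omega)]; simp only [hK, coons, hww, c3, c4]; ring
  · simp only [hχ]; rw [if_pos (by omega)]
  · simp only [hχ]; rw [if_pos (by omega)]
  · simp only [hχ]; rw [if_pos (by omega)]
  · simp only [hχ]; rw [if_pos (by omega)]
  · by_cases h : a ≤ X ∧ X ≤ a + 1 ∧ b - 1 ≤ Y ∧ Y ≤ b + 1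
    · exact Or.inr ⟨(abs_sub _ _).trans (by
        linarith [bχ X (Y + 1) h1 h2 (by omega) (by omega), bχ X Y h1 h2 h3 h4.le]), h⟩
    · left; simp only [hχ]; rw [if_neg (by omega), if_neg (by omega)]; exact vK X Y h1 h2
  · by_cases h : a - 1 ≤ X ∧ X ≤ a + 1 ∧ b ≤ Y ∧ Y ≤ b + 1
    · exact Or.inr ⟨(abs_sub _ _).trans (by
        linarith [bχ (X + 1) Y (by omega) (by omega) h3 h4, bχ X Y h1 h2.le h3 h4]), h⟩
    · left; simp only [hχ]; rw [if_neg (by omega), if_neg (by omega)]; exact hK' X Y h3 h4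

/-- coordinate of a vertex seen from the centre of the box `a` -/
noncomputable def al (a X : ℤ) : ℝ := ((X - a : ℤ) : ℝ) - 1 / 2

lemma al_succ (a X : ℤ) : al a (X + 1) = al a X + 1 := by unfold al; push_cast; ring

lemma al_pos {a X : ℤ} (h : a < X) : 0 < al a X := by
  have : (1 : ℝ) ≤ ((X - a : ℤ) : ℝ) := by exact_mod_cast (by omega : 1 ≤ X - a)
  unfold al; linarith

lemma al_neg {a X : ℤ} (h : X ≤ a) : al a X < 0 := by
  have : ((X - a : ℤ) : ℝ) ≤ 0 := by exact_mod_cast (by omega : X - a ≤ 0)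
  unfold al; linarith

lemma al_ne (a X : ℤ) : al a X ≠ 0 := by
  rcases lt_or_ge a X with h | h
  · exact (al_pos h).ne'
  · exact (al_neg h).ne

lemma AA (a b X Y : ℤ) : A (al a X) (al b Y) + A (al b Y) (al a X) =
    π / 2 * ((if a < X then 1 else -1) * if b < Y then 1 else -1) := by
  split_ifs with h1 h2 h2
  · rw [A_add_pos (mul_pos (al_pos h1) (al_pos h2))]; ring
  · rw [A_add_neg (mul_neg_of_pos_of_neg (al_pos h1) (al_neg (not_lt.1 h2)))]; ring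
  · rw [A_add_neg (mul_neg_of_neg_of_pos (al_neg (not_lt.1 h1)) (al_pos h2))]; ring
  · rw [A_add_pos (mul_pos_of_neg_of_neg (al_neg (not_lt.1 h1)) (al_neg (not_lt.1 h2)))]; ring

/-- main field plus stream correction on one side -/
lemma side_err {α x y c n W : ℝ} (hα : α ≠ 0) (hax : |α - x| ≤ 1 / 2) (hn : 1 ≤ n) (hW : n ≤ W)
    (hr : n ^ 2 ≤ x ^ 2 + y ^ 2) (hx : |x| ≤ x ^ 2)
    (hc : |c| ≤ 50 / W ∨ (|c| ≤ 60 ∧ |x| ≤ 1 ∧ |y| ≤ 1)) :
    |A α (y - 1 / 2 + 1) - A α (y - 1 / 2) + c - x / (x ^ 2 + y ^ 2)| ≤ 150 * (1 / n ^ 2 + 1 / W) := by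
  have hn2 : 1 ≤ n ^ 2 := by nlinarith
  have h := dA_near hα hax (hn2.trans hr) hx
  have h1 : 30 / (x ^ 2 + y ^ 2) ≤ 30 / n ^ 2 := div_le_div_of_nonneg_left (by norm_num) (by linarith) hr
  have h2 : |c| ≤ 120 / n ^ 2 + 50 / W := by
    have p1 : 0 ≤ 120 / n ^ 2 := by positivity
    have p2 : 0 ≤ 50 / W := div_nonneg (by norm_num) (by linarith)
    rcases hc with hc | ⟨hc, b1, b2⟩
    · linarith
    · have : 60 ≤ 120 / n ^ 2 := by
        rw [le_div_iff₀ (by linarith)]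
        have := sq_abs x
        have := sq_abs y
        nlinarith [abs_nonneg x, abs_nonneg y]
      linarith
  have p3 : 0 ≤ 1 / W := div_nonneg (by norm_num) (by linarith)
  have e : A α (y - 1 / 2 + 1) - A α (y - 1 / 2) + c - x / (x ^ 2 + y ^ 2) =
      (A α (y - 1 / 2 + 1) - A α (y - 1 / 2) - x / (x ^ 2 + y ^ 2)) + c := by ring
  have e1 : 150 * (1 / n ^ 2 + 1 / W) = 30 / n ^ 2 + (120 / n ^ 2 + 50 / W) + 100 * (1 / W) := by ring
  rw [e, e1]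
  linarith [abs_add_le (A α (y - 1 / 2 + 1) - A α (y - 1 / 2) - x / (x ^ 2 + y ^ 2)) c]

lemma mem_sq0 {W : ℕ} {i : Pt} : i ∈ sq 0 W ↔ 0 ≤ i.1 ∧ i.1 < W ∧ 0 ≤ i.2 ∧ i.2 < W := by
  simp [sq, and_assoc]

lemma main (W : ℕ) (a b : ℤ) (ha : (W : ℤ) ≤ 8 * a) (ha' : 2 * a + 2 ≤ W) (hb : (W : ℤ) ≤ 8 * b)
    (hb' : 2 * b + 2 ≤ W) (hW : 8 ≤ W) :
    ∃ f, Flux W (a, b) f ∧ ∀ i ∈ sq 0 W, ∀ n : ℝ, 1 ≤ n → n ≤ W →
      n ^ 2 ≤ ((i.1 - a : ℤ) : ℝ) ^ 2 + ((i.2 - b : ℤ) : ℝ) ^ 2 →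
      |f i 0 - ((i.1 - a : ℤ) : ℝ) / (((i.1 - a : ℤ) : ℝ) ^ 2 + ((i.2 - b : ℤ) : ℝ) ^ 2)| ≤
        150 * (1 / n ^ 2 + 1 / W) ∧
      |-f i 1 - ((i.1 - a : ℤ) : ℝ) / (((i.1 - a : ℤ) : ℝ) ^ 2 + ((i.2 - b : ℤ) : ℝ) ^ 2)| ≤
        150 * (1 / n ^ 2 + 1 / W) ∧
      |f i 2 - ((i.2 - b : ℤ) : ℝ) / (((i.1 - a : ℤ) : ℝ) ^ 2 + ((i.2 - b : ℤ) : ℝ) ^ 2)| ≤
        150 * (1 / n ^ 2 + 1 / W) ∧
      |-f i 3 - ((i.2 - b : ℤ) : ℝ) / (((i.1 - a : ℤ) : ℝ) ^ 2 + ((i.2 - b : ℤ) : ℝ) ^ 2)| ≤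
        150 * (1 / n ^ 2 + 1 / W) := by
  have hW' : (8 : ℝ) ≤ W := by exact_mod_cast hW
  have hW0 : (0 : ℝ) < W := by linarith
  set u : ℝ := π / (2 * W) with hu
  have uW : u * ((W : ℤ) : ℝ) = π / 2 := by rw [hu]; push_cast; field_simp
  have u0 : 0 ≤ u := by positivity
  have u2 : u ≤ 2 / W := by
    rw [hu, div_le_div_iff₀ (by positivity) hW0]; nlinarith [pi_le_four]
  have ut : ∀ t : ℤ, 0 ≤ t → t ≤ W → 0 ≤ u * t ∧ u * t ≤ 2 := fun t h h' =>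
    ⟨mul_nonneg u0 (by exact_mod_cast h), by
      have : u * t ≤ u * ((W : ℤ) : ℝ) := mul_le_mul_of_nonneg_left (by exact_mod_cast h') u0
      linarith [pi_le_four]⟩
  have far : ∀ c : ℤ, (W : ℤ) ≤ 8 * c → 2 * c + 2 ≤ W → ∀ β : ℝ,
      |A (al c 0) (β + 1) - A (al c 0) β| ≤ 8 / W ∧ |A (al c W) (β + 1) - A (al c W) β| ≤ 8 / W :=
    fun c h h' β => by
      have h1 : (W : ℝ) ≤ 8 * c := by exact_mod_cast h
      have h2 : 2 * (c : ℝ) + 2 ≤ W := by exact_mod_cast h'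
      have k1 : W / 8 ≤ |al c 0| := by
        rw [abs_of_neg (al_neg (by omega))]; unfold al; push_cast; linarith
      have k2 : W / 8 ≤ |al c W| := by
        rw [abs_of_pos (al_pos (by omega))]; unfold al; push_cast; linarith
      have k : ∀ z : ℝ, W / 8 ≤ z → 1 / z ≤ 8 / W := fun z hz => by
        rw [div_le_div_iff₀ (by linarith) hW0]; linarith
      exact ⟨(dA_le (al_ne _ _) β).trans (k _ k1), (dA_le (al_ne _ _) β).trans (k _ k2)⟩
  have p4 := pi_le_four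
  have p0 := pi_pos
  obtain ⟨χ, hb1, ⟨z1, z2, z3, z4⟩, hv, hh⟩ := stream W (by omega) a b (by omega) (by omega) (by omega)
    (by omega) (fun y => -(u * y) - A (al a 0) (al b y) + π / 2) (fun y => u * y - A (al a W) (al b y))
    (fun x => A (al b 0) (al a x) + u * x) (fun x => A (al b W) (al a x) - u * x + π / 2)
    (by have := AA a b 0 0; rw [if_neg (by omega), if_neg (by omega)] at this; simp only [Int.cast_zero]; linarith)
    (by have := AA a b W 0; rw [if_pos (by omega), if_neg (by omega)] at this; simp only [Int.cast_zero]; linarith)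
    (by have := AA a b 0 W; rw [if_neg (by omega), if_pos (by omega)] at this; simp only [Int.cast_zero]; linarith)
    (by have := AA a b W W; rw [if_pos (by omega), if_pos (by omega)] at this; linarith)
    (fun t h h' => by
      obtain ⟨t0, t1⟩ := ut t h h'
      have b1 := abs_le.1 (abs_A (al a 0) (al b t))
      have b2 := abs_le.1 (abs_A (al a W) (al b t))
      have b3 := abs_le.1 (abs_A (al b 0) (al a t))
      have b4 := abs_le.1 (abs_A (al b W) (al a t))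
      simp only [abs_le]
      refine ⟨⟨?_, ?_⟩, ⟨?_, ?_⟩, ⟨?_, ?_⟩, ?_, ?_⟩ <;> linarith [b1.1, b1.2, b2.1, b2.2, b3.1, b3.2, b4.1, b4.2])
    (fun t => by
      have b1 := abs_le.1 (far a ha ha' (al b t)).1
      have b2 := abs_le.1 (far a ha ha' (al b t)).2
      have b3 := abs_le.1 (far b hb hb' (al a t)).1
      have b4 := abs_le.1 (far b hb hb' (al a t)).2
      have : (10 : ℝ) / W = 2 / W + 8 / W := by ring
      simp only [abs_le, al_succ]; push_cast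
      refine ⟨⟨?_, ?_⟩, ⟨?_, ?_⟩, ⟨?_, ?_⟩, ?_, ?_⟩ <;> linarith [b1.1, b1.2, b2.1, b2.2, b3.1, b3.2, b4.1, b4.2])
  set Fh : ℤ → ℤ → ℝ := fun X Y =>
    A (al a X) (al b (Y + 1)) - A (al a X) (al b Y) + (χ X (Y + 1) - χ X Y) with hFh
  set Fv : ℤ → ℤ → ℝ := fun X Y =>
    A (al b Y) (al a (X + 1)) - A (al b Y) (al a X) + -(χ (X + 1) Y - χ X Y) with hFv
  refine ⟨fun i => ![Fh (i.1 + 1) i.2, -Fh i.1 i.2, Fv i.1 (i.2 + 1), -Fv i.1 i.2],
    ⟨mem_sq0.2 (by simp only []; omega), fun d => ?_, fun i hi => ⟨fun hne => ?_, ?_, ?_, fun h => ?_,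
      fun h => ?_⟩⟩, fun i hi n hn hnW hr => ?_⟩
  · have e0 : ∀ c : ℤ, al c c = -(1 / 2) := fun c => by simp [al]
    have e1 : ∀ c : ℤ, al c (c + 1) = 1 / 2 := fun c => by rw [al_succ, e0]; ring
    have a1 : A (1 / 2) (1 / 2) = π / 4 := by unfold A; rw [div_self (by norm_num), arctan_one]
    have a2 : A (1 / 2) (-(1 / 2)) = -(π / 4) := by
      unfold A; rw [neg_div, div_self (by norm_num), arctan_neg, arctan_one]
    have a3 : A (-(1 / 2)) (1 / 2) = -(π / 4) := by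
      unfold A; rw [div_neg, div_self (by norm_num), arctan_neg, arctan_one]
    have a4 : A (-(1 / 2)) (-(1 / 2)) = π / 4 := by unfold A; rw [div_self (by norm_num), arctan_one]
    simp only [hFh, hFv, e0, e1, a1, a2, a3, a4, z1, z2, z3, z4]
    fin_cases d <;> simp <;> ring
  · have s1 := AA a b (i.1 + 1) (i.2 + 1)
    have s2 := AA a b (i.1 + 1) i.2
    have s3 := AA a b i.1 (i.2 + 1)
    have s4 := AA a b i.1 i.2
    have hne' : i.1 ≠ a ∨ i.2 ≠ b := by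
      by_contra h
      push Not at h
      exact hne (Prod.ext h.1 h.2)
    rw [Fin.sum_univ_four]
    simp only [hFh, hFv, Matrix.cons_val_zero, Matrix.cons_val_one, Matrix.cons_val]
    split_ifs at s1 s2 s3 s4 <;> first | omega | linarith
  · split_ifs with h
    · simp
    · have : i.1 + 1 = W := by
        rw [mem_sq0] at h hi; simp only [Prod.fst_add, Prod.snd_add] at h; omega
      simp only [Matrix.cons_val_zero, hFh, this, (hb1 _).2.1]; push_cast; ring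
  · split_ifs with h
    · simp
    · have : i.2 + 1 = W := by
        rw [mem_sq0] at h hi; simp only [Prod.fst_add, Prod.snd_add] at h; omega
      simp only [Matrix.cons_val, hFv, this, (hb1 _).2.2.2]; push_cast; ring
  · simp only [Matrix.cons_val_zero, Matrix.cons_val_one, hFh, h, (hb1 _).1]; push_cast; ring
  · simp only [Matrix.cons_val, hFv, h, (hb1 _).2.2.1]; push_cast; ring
  · rw [mem_sq0] at hi
    have cst : ∀ z : ℤ, -1 ≤ z → z ≤ 1 → |(z : ℝ)| ≤ 1 := fun z h h' => by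
      exact_mod_cast abs_le.2 ⟨h, h'⟩
    have ax : ∀ c X : ℤ, |al c X - ((X - c : ℤ) : ℝ)| ≤ 1 / 2 ∧
        |al c (X + 1) - ((X - c : ℤ) : ℝ)| ≤ 1 / 2 := fun c X => by
      rw [al_succ]; unfold al; constructor <;> rw [abs_le] <;> constructor <;> linarith
    simp only [Matrix.cons_val_zero, Matrix.cons_val_one, Matrix.cons_val, neg_neg, hFh, hFv]
    refine ⟨?_, ?_, ?_, ?_⟩
    · rw [al_succ b]
      exact side_err (al_ne _ _) (ax a i.1).2 hn hnW hr (int_abs_le_sq _)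
        ((hv (i.1 + 1) i.2 (by omega) (by omega) (by omega) (by omega)).imp id fun h =>
          ⟨h.1, cst _ (by omega) (by omega), cst _ (by omega) (by omega)⟩)
    · rw [al_succ b]
      exact side_err (al_ne _ _) (ax a i.1).1 hn hnW hr (int_abs_le_sq _)
        ((hv i.1 i.2 (by omega) (by omega) (by omega) (by omega)).imp id fun h =>
          ⟨h.1, cst _ (by omega) (by omega), cst _ (by omega) (by omega)⟩)
    · rw [al_succ a, add_comm (((i.1 - a : ℤ) : ℝ) ^ 2)]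
      exact side_err (al_ne _ _) (ax b i.2).2 hn hnW (by linarith) (int_abs_le_sq _)
        ((hh i.1 (i.2 + 1) (by omega) (by omega) (by omega) (by omega)).imp (by rw [abs_neg]; exact id)
          fun h => ⟨by rw [abs_neg]; exact h.1, cst _ (by omega) (by omega), cst _ (by omega) (by omega)⟩)
    · rw [al_succ a, add_comm (((i.1 - a : ℤ) : ℝ) ^ 2)]
      exact side_err (al_ne _ _) (ax b i.2).1 hn hnW (by linarith) (int_abs_le_sq _)
        ((hh i.1 i.2 (by omega) (by omega) (by omega) (by omega)).imp (by rw [abs_neg]; exact id)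
          fun h => ⟨by rw [abs_neg]; exact h.1, cst _ (by omega) (by omega), cst _ (by omega) (by omega)⟩)

end Fx36

open Fx36 in
theorem fluxStmt : FluxStmt := by
  refine ⟨13000000, 1 / 100, by norm_num, Filter.eventually_atTop.2 ⟨40, fun W hW => ?_⟩⟩
  refine ⟨sq ((W / 4 : ℕ), (W / 4 : ℕ)) (W / 8), ?_, fun i₀ hi₀ => ?_⟩
  · have h1 : (W : ℝ) ≤ 10 * ((W / 8 : ℕ) : ℝ) := by exact_mod_cast (by omega : W ≤ 10 * (W / 8))
    have : (sq ((W / 4 : ℕ), (W / 4 : ℕ)) (W / 8)).card = (W / 8) * (W / 8) := by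
      simp only [sq, card_product, Int.card_Ico, add_sub_cancel_left, Int.toNat_natCast]
    rw [this]; push_cast
    nlinarith [(Nat.cast_nonneg W : (0 : ℝ) ≤ W)]
  · obtain ⟨a, b⟩ := i₀
    simp only [sq, mem_product, mem_Ico] at hi₀
    obtain ⟨f, hf, hb⟩ := main W a b (by omega) (by omega) (by omega) (by omega) (by omega)
    have hS : ∀ i ∈ (sq 0 W).erase (a, b), i ≠ (a, b) ∧ |i.1 - a| ≤ W ∧ |i.2 - b| ≤ W := fun i hi => by
      obtain ⟨h1, h2⟩ := mem_erase.1 hi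
      rw [mem_sq0] at h2
      exact ⟨h1, abs_le.2 ⟨by omega, by omega⟩, abs_le.2 ⟨by omega, by omega⟩⟩
    have P := fun i (hi : i ∈ (sq 0 W).erase (a, b)) n hn hnW hx hy hr =>
      pt (f i) hn hnW hx hy hr (hb i (mem_of_mem_erase hi) n hn hnW hr).1
        (hb i (mem_of_mem_erase hi) n hn hnW hr).2.1 (hb i (mem_of_mem_erase hi) n hn hnW hr).2.2.1
        (hb i (mem_of_mem_erase hi) n hn hnW hr).2.2.2
    have k1 := key W (by omega) (a, b) _ (fun i => tl (f i)) 1 360000 (by norm_num) (by norm_num) hS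
      fun i hi n a1 a2 a3 a4 a5 => (P i hi n a1 a2 a3 a4 a5).1
    have k2 := key W (by omega) (a, b) _ (fun i => sa (f i)) 0 360000 (by norm_num) (by norm_num) hS
      fun i hi n a1 a2 a3 a4 a5 => (P i hi n a1 a2 a3 a4 a5).2.1
    have k3 := key W (by omega) (a, b) _ (fun i => ∑ d, f i d ^ 2) 4 360000 (by norm_num) (by norm_num) hS
      fun i hi n a1 a2 a3 a4 a5 => (P i hi n a1 a2 a3 a4 a5).2.2
    refine ⟨f, hf, by linarith, by linarith, ?_⟩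
    rw [← add_sum_erase _ _ hf.1]
    have hl : 1 ≤ log W := by
      rw [le_log_iff_exp_le (by exact_mod_cast (by omega : 0 < W))]
      have : (40 : ℝ) ≤ W := by exact_mod_cast hW
      linarith [exp_one_lt_d9]
    have h0 : ∑ d, f (a, b) d ^ 2 ≤ 16 := by
      simp only [hf.2.1, Fin.sum_univ_four]; nlinarith [pi_le_four, pi_pos]
    nlinarith [pi_le_four, pi_pos]

end Crest.Agent.T145
end

-- ▼ part T145/JUn_88
section

/-!
# Row 145, (b) T3: heights observed through Gaussian noise; the unfolding identity (helper88)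

`PP W B` is the joint law of heights and noise, `E2` is the integral against it.
`unfold`: the conditional expectation given the observation modulo the zero mode is `Ex (post ..)`.
-/

set_option autoImplicit false
set_option linter.unusedVariables false
set_option linter.unusedSectionVars false
set_option linter.style.haveILetI false

namespace Crest.Agent.T145.J88

open MeasureTheory Finset
open scoped ENNReal

/-! ## two partitions of unity along the orbits of a measure preserving action -/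
section orbit
variable {Ω : Type*} [MeasurableSpace Ω] {ν : Measure Ω} {T : ℤ → Ω → Ω}

theorem orb_l (hT : ∀ h, MeasurePreserving (T h) ν ν) (hi : ∀ h ω, T (-h) (T h ω) = ω)
    {U₁ U₂ F : Ω → ℝ≥0∞} (m₁ : Measurable U₁) (m₂ : Measurable U₂) (mF : Measurable F)
    (s₁ : ∀ ω, ∑' h, U₁ (T h ω) = 1) (s₂ : ∀ ω, ∑' h, U₂ (T h ω) = 1)
    (hF : ∀ h ω, F (T h ω) = F ω) :
    ∫⁻ ω, U₁ ω * F ω ∂ν = ∫⁻ ω, U₂ ω * F ω ∂ν := by
  have e1 : ∀ ω, U₁ ω * F ω = ∑' h, U₁ ω * F ω * U₂ (T h ω) := fun ω => by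
    rw [ENNReal.tsum_mul_left, s₂, mul_one]
  have e2 : ∀ ω, U₂ ω * F ω = ∑' h, U₁ (T (-h) ω) * F ω * U₂ ω := fun ω => by
    have e : ∑' h, U₁ (T (-h) ω) = 1 := ((Equiv.neg ℤ).tsum_eq fun h => U₁ (T h ω)).trans (s₁ ω)
    rw [ENNReal.tsum_mul_right, ENNReal.tsum_mul_right, e, one_mul, mul_comm]
  have mm : ∀ h, Measurable fun ω => U₁ (T (-h) ω) * F ω * U₂ ω := fun h =>
    ((m₁.comp (hT _).measurable).mul mF).mul m₂
  have mm' : ∀ h, Measurable fun ω => U₁ ω * F ω * U₂ (T h ω) := fun h =>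
    (m₁.mul mF).mul (m₂.comp (hT h).measurable)
  rw [lintegral_congr e1, lintegral_congr e2, lintegral_tsum fun h => (mm' h).aemeasurable,
    lintegral_tsum fun h => (mm h).aemeasurable]
  refine tsum_congr fun h => ?_
  rw [← (hT h).lintegral_comp (mm h)]
  simp only [hi, hF]

theorem orb (hT : ∀ h, MeasurePreserving (T h) ν ν) (hi : ∀ h ω, T (-h) (T h ω) = ω)
    {U₁ U₂ H : Ω → ℝ} (m₁ : Measurable U₁) (m₂ : Measurable U₂) (mH : Measurable H)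
    (n₁ : ∀ ω, 0 ≤ U₁ ω) (n₂ : ∀ ω, 0 ≤ U₂ ω)
    (s₁ : ∀ ω, HasSum (fun h => U₁ (T h ω)) 1) (s₂ : ∀ ω, HasSum (fun h => U₂ (T h ω)) 1)
    (hH : ∀ h ω, H (T h ω) = H ω) (I : Integrable (fun ω => U₁ ω * H ω) ν) :
    Integrable (fun ω => U₂ ω * H ω) ν ∧ ∫ ω, U₁ ω * H ω ∂ν = ∫ ω, U₂ ω * H ω ∂ν := by
  have key : ∀ F : Ω → ℝ, Measurable F → (∀ h ω, F (T h ω) = F ω) →
      ∫⁻ ω, ENNReal.ofReal (U₁ ω * F ω) ∂ν = ∫⁻ ω, ENNReal.ofReal (U₂ ω * F ω) ∂ν := by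
    intro F mF hF
    simp_rw [ENNReal.ofReal_mul (n₁ _), ENNReal.ofReal_mul (n₂ _)]
    refine orb_l hT hi m₁.ennreal_ofReal m₂.ennreal_ofReal mF.ennreal_ofReal (fun ω => ?_)
      (fun ω => ?_) fun h ω => by rw [hF]
    · rw [← ENNReal.ofReal_tsum_of_nonneg (fun h => n₁ _) (s₁ ω).summable, (s₁ ω).tsum_eq,
        ENNReal.ofReal_one]
    · rw [← ENNReal.ofReal_tsum_of_nonneg (fun h => n₂ _) (s₂ ω).summable, (s₂ ω).tsum_eq,
        ENNReal.ofReal_one]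
  have I2 : Integrable (fun ω => U₂ ω * H ω) ν := by
    refine ⟨(m₂.mul mH).aestronglyMeasurable, ?_⟩
    have h1 := I.2
    rw [hasFiniteIntegral_iff_norm] at h1 ⊢
    simp_rw [norm_mul, Real.norm_of_nonneg (n₁ _)] at h1
    simp_rw [norm_mul, Real.norm_of_nonneg (n₂ _)]
    rwa [← key _ mH.norm fun h ω => by rw [hH]]
  refine ⟨I2, ?_⟩
  rw [integral_eq_lintegral_pos_part_sub_lintegral_neg_part I,
    integral_eq_lintegral_pos_part_sub_lintegral_neg_part I2, key H mH hH]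
  simp_rw [← mul_neg]
  rw [key (fun ω => -H ω) mH.neg fun h ω => by rw [hH]]

end orbit

/-! ## the noise -/
section noise
variable {B : Finset Pt} {μ : ℝ}

instance gs_prob (B : Finset Pt) : IsProbabilityMeasure (gs B) := by unfold gs; infer_instance

theorem gs_eq (B : Finset Pt) : gs B = Gs.gm (1 : Matrix B B ℝ) := Gs.gm_one.symm

/-- the likelihood -/
noncomputable def kk (μ : ℝ) (v : Pt → ℝ) (ψ : B → ℝ) : ℝ :=
  Real.exp (-μ * (∑ x : B, (v x - ψ x) ^ 2) / 2)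


theorem cont_kk (μ : ℝ) (v : Pt → ℝ) : Continuous fun ψ : B → ℝ => kk μ v ψ := by
  unfold kk; fun_prop

theorem cont_obs (μ : ℝ) (v : Pt → ℝ) : Continuous fun ξ : B → ℝ => obs μ v ξ := by
  unfold obs; fun_prop

theorem gs_obs (B : Finset Pt) (hμ : 0 < μ) : ∃ c : ℝ, 0 < c ∧ ∀ v : Pt → ℝ,
    (gs B).map (obs μ v) = volume.withDensity fun ψ : B → ℝ => ENNReal.ofReal (c * kk μ v ψ) := by
  have hA : (μ • (1 : Matrix B B ℝ)).PosDef := Matrix.PosDef.one.smul hμ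
  refine ⟨Real.sqrt (μ • (1 : Matrix B B ℝ)).det / Gs.zc B,
    div_pos (Real.sqrt_pos.2 hA.det_pos) Gs.zc_pos, fun v => ?_⟩
  have h1 : (gs B).map (fun ξ => (Real.sqrt μ)⁻¹ • ξ) = Gs.gm (μ • (1 : Matrix B B ℝ))⁻¹ := by
    rw [gs_eq, Gs.map_smul Matrix.PosSemidef.one, inv_pow, Real.sq_sqrt hμ.le]
    congr 1
    refine (Matrix.inv_eq_left_inv ?_).symm
    rw [Matrix.smul_mul, Matrix.mul_smul, smul_smul, inv_mul_cancel₀ hμ.ne', Matrix.one_mul, one_smul]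
  have hT : Measurable fun y : B → ℝ => y + fun x : B => v x := measurable_add_const _
  have h2 : (obs μ v : (B → ℝ) → B → ℝ) =
      (fun y : B → ℝ => y + fun x : B => v x) ∘ fun ξ => (Real.sqrt μ)⁻¹ • ξ := by
    funext ξ x
    simp only [obs, Function.comp, Pi.add_apply, Pi.smul_apply, smul_eq_mul]
    ring
  rw [h2, ← Measure.map_map hT (measurable_const_smul _), h1, Gs.gm_inv_eq hA]
  have h3 := Gs.map_wd (volume : Measure (B → ℝ)) hT
    (f := fun ψ => ENNReal.ofReal (Real.sqrt (μ • (1 : Matrix B B ℝ)).det / Gs.zc B * kk μ v ψ))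
    ((cont_kk μ v).measurable.const_mul _).ennreal_ofReal
  rw [map_add_right_eq_self (volume : Measure (B → ℝ))] at h3
  rw [← h3]
  congr 3
  funext y
  congr 2
  simp only [Gs.gw, kk, Matrix.smul_mulVec, Matrix.one_mulVec, dotProduct, Pi.add_apply,
    Pi.smul_apply, smul_eq_mul]
  rw [neg_mul, Finset.mul_sum]
  congr 3
  exact Finset.sum_congr rfl fun x _ => by ring

theorem cont_dot (a : B → ℝ) : Continuous fun ξ : B → ℝ => a ⬝ᵥ ξ := Gs.cont_dot a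

theorem dot_law (a : B → ℝ) : (gs B).map (fun ξ => a ⬝ᵥ ξ) =
    ProbabilityTheory.gaussianReal 0 (a ⬝ᵥ a).toNNReal := by
  haveI := Measure.isProbabilityMeasure_map (μ := gs B) (cont_dot a).measurable.aemeasurable
  refine Measure.ext_of_charFun (funext fun t => ?_)
  rw [ProbabilityTheory.charFun_gaussianReal, charFun_apply_real,
    integral_map (cont_dot a).measurable.aemeasurable (Continuous.aestronglyMeasurable (by fun_prop))]
  have := Gs.char (C := (1 : Matrix B B ℝ)) Matrix.PosSemidef.one (t • a)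
  simp only [smul_dotProduct, Matrix.one_mulVec, dotProduct_smul, smul_eq_mul] at this
  rw [gs_eq]
  push_cast at this ⊢
  rw [this]
  congr 1
  rw [Real.coe_toNNReal _ (Gs.dot_self_nonneg a)]
  ring

theorem dot_memLp (a : B → ℝ) (n : ℕ) : MemLp (fun ξ => a ⬝ᵥ ξ) n (gs B) := by
  have := ProbabilityTheory.memLp_id_gaussianReal' (μ := 0) (v := (a ⬝ᵥ a).toNNReal)
    n (by simp)
  rw [← dot_law] at this
  exact this.comp_of_map (cont_dot a).measurable.aemeasurable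



theorem dot_int_pow (a : B → ℝ) (n : ℕ) : Integrable (fun ξ => (a ⬝ᵥ ξ) ^ n) (gs B) := by
  rcases Nat.eq_zero_or_pos n with rfl | hn
  · simp
  · have := (dot_memLp a n).integrable_norm_pow hn.ne'
    refine this.mono' ((cont_dot a).pow n).aestronglyMeasurable
      (Filter.Eventually.of_forall fun ξ => (norm_pow _ _).le)

theorem dot_mean (a : B → ℝ) : ∫ ξ, a ⬝ᵥ ξ ∂gs B = 0 := by
  have := ProbabilityTheory.integral_id_gaussianReal (μ := 0) (v := (a ⬝ᵥ a).toNNReal)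
  rwa [← dot_law, integral_map (cont_dot a).measurable.aemeasurable (by fun_prop)] at this

theorem dot_sq (a : B → ℝ) : ∫ ξ, (a ⬝ᵥ ξ) ^ 2 ∂gs B = a ⬝ᵥ a := by
  have := ProbabilityTheory.variance_fun_id_gaussianReal (μ := 0)
    (v := (a ⬝ᵥ a).toNNReal)
  rw [ProbabilityTheory.variance_eq_integral (by fun_prop),
    ProbabilityTheory.integral_id_gaussianReal, ← dot_law,
    integral_map (cont_dot a).measurable.aemeasurable (by fun_prop),
    Real.coe_toNNReal _ (Gs.dot_self_nonneg a)] at this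
  simpa using this

theorem dot_cov (a b : B → ℝ) : ∫ ξ, (a ⬝ᵥ ξ) * (b ⬝ᵥ ξ) ∂gs B = a ⬝ᵥ b := by
  have e : ∀ ξ : B → ℝ, (a ⬝ᵥ ξ) * (b ⬝ᵥ ξ) =
      (((a + b) ⬝ᵥ ξ) ^ 2 - ((a - b) ⬝ᵥ ξ) ^ 2) / 4 := fun ξ => by
    rw [add_dotProduct, sub_dotProduct]; ring
  simp_rw [e]
  rw [integral_div, integral_sub (dot_int_pow _ 2) (dot_int_pow _ 2), dot_sq, dot_sq]
  simp only [add_dotProduct, sub_dotProduct, dotProduct_add, dotProduct_sub, dotProduct_comm b a]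
  ring

theorem dot_four (a : B → ℝ) {v : ℝ} (hv : 0 < v) (h : a ⬝ᵥ a ≤ v) :
    ∫ ξ, (a ⬝ᵥ ξ) ^ 4 ∂gs B ≤ 144 * v ^ 2 := by
  set b := (Real.sqrt v)⁻¹ • a with hb
  have hs := Real.sqrt_pos.2 hv
  have hbb : b ⬝ᵥ b ≤ 1 := by
    rw [hb, smul_dotProduct, dotProduct_smul, smul_eq_mul, smul_eq_mul, ← mul_assoc, ← mul_inv,
      Real.mul_self_sqrt hv.le]
    exact (inv_mul_le_iff₀ hv).2 (by simpa using h)
  have mg : ∀ c : B → ℝ, c ⬝ᵥ c ≤ 1 → ∫ ξ, Real.exp (c ⬝ᵥ ξ) ∂gs B ≤ 3 := fun c hc => by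
    rw [gs_eq, Gs.mgf Matrix.PosSemidef.one, Matrix.one_mulVec]
    have := Gs.dot_self_nonneg c
    exact (Real.exp_le_exp.2 (by linarith : c ⬝ᵥ c / 2 ≤ 1)).trans
      (Real.exp_one_lt_d9.le.trans (by norm_num))
  have ie : ∀ c : B → ℝ, Integrable (fun ξ => Real.exp (c ⬝ᵥ ξ)) (gs B) := fun c => by
    rw [gs_eq]; exact Gs.int_exp _ c
  have pt : ∀ ξ : B → ℝ, (a ⬝ᵥ ξ) ^ 4 ≤
      24 * v ^ 2 * (Real.exp (b ⬝ᵥ ξ) + Real.exp ((-b) ⬝ᵥ ξ)) := fun ξ => by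
    have e : a ⬝ᵥ ξ = Real.sqrt v * (b ⬝ᵥ ξ) := by
      rw [hb, smul_dotProduct, smul_eq_mul, ← mul_assoc, mul_inv_cancel₀ hs.ne', one_mul]
    have h1 := Real.pow_div_factorial_le_exp _ (abs_nonneg (b ⬝ᵥ ξ)) 4
    have h2 := exp_abs_le (b ⬝ᵥ ξ)
    have h3 : Real.sqrt v ^ 4 = v ^ 2 := by
      rw [show (4 : ℕ) = 2 * 2 from rfl, pow_mul, Real.sq_sqrt hv.le]
    rw [Even.pow_abs (by decide)] at h1
    norm_num [Nat.factorial] at h1
    rw [e, mul_pow, h3, neg_dotProduct]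
    nlinarith [sq_nonneg v]
  refine (integral_mono (dot_int_pow a 4) (((ie b).add (ie (-b))).const_mul _) pt).trans ?_
  rw [integral_const_mul]
  simp only [Pi.add_apply]
  rw [integral_add (ie b) (ie (-b))]
  have h1 := mg b hbb
  have h2 := mg (-b) (by simpa using hbb)
  nlinarith [sq_nonneg v]

/-- the observation -/
noncomputable def ob (μ : ℝ) (p : Cfg Pt × (B → ℝ)) : B → ℝ := obs μ (fun z => (p.1 z : ℝ)) p.2

theorem meas_of {β : Type*} [MeasurableSpace β] {G : Cfg Pt → (B → ℝ) → β}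
    (h : ∀ s, Measurable (G s)) : Measurable fun p : Cfg Pt × (B → ℝ) => G p.1 p.2 :=
  measurable_from_prod_countable_right h

theorem meas_ob (μ : ℝ) : Measurable (ob μ : Cfg Pt × (B → ℝ) → B → ℝ) :=
  meas_of (G := fun s ξ => obs μ (fun z => (s z : ℝ)) ξ) fun s => (cont_obs μ _).measurable

/-- joint law of heights and noise -/
noncomputable def PP (W : Cfg Pt → ℝ) (B : Finset Pt) : Measure (Cfg Pt × (B → ℝ)) :=
  (law W).prod (gs B)

variable {W : Cfg Pt → ℝ}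

theorem PP_prob (hW : Wt W) (B : Finset Pt) : IsProbabilityMeasure (PP W B) := by
  haveI := law_prob hW
  unfold PP; infer_instance

/-- `E2` is the integral against `PP` -/
theorem E2_eq (hW : Wt W) {G : Cfg Pt → (B → ℝ) → ℝ}
    (hG : Integrable (fun p => G p.1 p.2) (PP W B)) : E2 W B G = ∫ p, G p.1 p.2 ∂PP W B := by
  haveI := law_prob hW
  rw [PP, integral_prod _ hG, law_integral hW]
  rfl

theorem int_fst (hW : Wt W) {F : Cfg Pt → ℝ} (hF : Ig W F) :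
    Integrable (fun p => F p.1) (PP W B) := by
  haveI := law_prob hW
  exact ((law_integrable hW).2 hF).comp_fst _

theorem int_snd (hW : Wt W) {F : (B → ℝ) → ℝ} (hF : Integrable F (gs B)) :
    Integrable (fun p => F p.2) (PP W B) := by
  haveI := law_prob hW
  exact hF.comp_snd _


theorem integral_mul (hW : Wt W) (F : Cfg Pt → ℝ) (Φ : (B → ℝ) → ℝ) :
    ∫ p, F p.1 * Φ p.2 ∂PP W B = Ex W F * ∫ ξ, Φ ξ ∂gs B := by
  haveI := law_prob hW
  rw [PP, integral_prod_mul, law_integral hW]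

theorem integral_fst (hW : Wt W) (F : Cfg Pt → ℝ) : ∫ p, F p.1 ∂PP W B = Ex W F := by
  simpa using integral_mul (B := B) hW F fun _ => 1

theorem integral_snd (hW : Wt W) (Φ : (B → ℝ) → ℝ) :
    ∫ p, Φ p.2 ∂PP W B = ∫ ξ, Φ ξ ∂gs B := by
  simpa [hW.ex_const] using integral_mul (B := B) hW (fun _ => 1) Φ

/-- the reference measure -/
noncomputable def LL (B : Finset Pt) : Measure (Cfg Pt × (B → ℝ)) := Measure.count.prod volume

theorem PP_map (hW : Wt W) (B : Finset Pt) (hμ : 0 < μ) : ∃ c : ℝ, 0 < c ∧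
    (PP W B).map (fun p => (p.1, ob μ p)) = (LL B).withDensity fun p =>
      ENNReal.ofReal (c * (W p.1 * kk μ (fun z => (p.1 z : ℝ)) p.2)) := by
  obtain ⟨c, hc, h⟩ := gs_obs B hμ
  haveI := law_prob hW
  refine ⟨c / Zs W, div_pos hc hW.pos, Measure.ext_of_lintegral _ fun f hf => ?_⟩
  have m1 : Measurable fun p : Cfg Pt × (B → ℝ) => (p.1, ob μ p) := measurable_fst.prodMk (meas_ob μ)
  have m2 : Measurable fun p : Cfg Pt × (B → ℝ) =>
      ENNReal.ofReal (c / Zs W * (W p.1 * kk μ (fun z => (p.1 z : ℝ)) p.2)) :=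
    meas_of (G := fun s ψ => ENNReal.ofReal (c / Zs W * (W s * kk μ (fun z => (s z : ℝ)) ψ)))
      fun s => (((cont_kk μ _).measurable.const_mul _).const_mul _).ennreal_ofReal
  rw [lintegral_map hf m1, lintegral_withDensity_eq_lintegral_mul _ m2 hf, PP, LL,
    lintegral_prod (fun a => f (a.1, ob μ a)) (hf.comp m1).aemeasurable, lintegral_prod _ (m2.mul hf).aemeasurable, law,
    lintegral_smul_measure,
    lintegral_withDensity_eq_lintegral_mul _ Measurable.of_discrete Measurable.of_discrete,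
    smul_eq_mul, ← lintegral_const_mul _ Measurable.of_discrete]
  refine lintegral_congr fun s => ?_
  have mf : Measurable fun ψ : B → ℝ => f (s, ψ) := hf.comp measurable_prodMk_left
  have mk : Measurable fun ψ : B → ℝ => ENNReal.ofReal (c * kk μ (fun z => (s z : ℝ)) ψ) :=
    ((cont_kk μ _).measurable.const_mul _).ennreal_ofReal
  have e := lintegral_map (μ := gs B) mf (cont_obs μ fun z => (s z : ℝ)).measurable
  simp only [Pi.mul_apply, ob]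
  rw [← e, h, lintegral_withDensity_eq_lintegral_mul _ mk mf, ← mul_assoc,
    ← lintegral_const_mul _ (mk.mul mf)]
  refine lintegral_congr fun ψ => ?_
  simp only [Pi.mul_apply]
  rw [← mul_assoc, ← ENNReal.ofReal_inv_of_pos hW.pos, ← ENNReal.ofReal_mul (inv_pos.2 hW.pos).le,
    ← ENNReal.ofReal_mul (mul_nonneg (inv_pos.2 hW.pos).le (hW.nonneg s))]
  congr 2
  ring

end noise

/-! ## the posterior -/
section post
variable {Λ : Lat} {B : Finset Pt} {μ : ℝ}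

theorem post_eq (Λ : Lat) (μ : ℝ) (ψ : B → ℝ) (s : Cfg Pt) :
    Λ.post B μ ψ s = (Λ.N B).W 0 s * kk μ (fun z => (s z : ℝ)) ψ := rfl

/-- the posterior as a model -/
noncomputable def pm (Λ : Lat) (μ : ℝ) (ψ : B → ℝ) : Mdl Pt :=
  (Λ.N B).mulSite fun x k => if h : x ∈ B then Real.exp (-μ * ((k : ℝ) - ψ ⟨x, h⟩) ^ 2 / 2) else 1

theorem pm_W (Λ : Lat) (μ : ℝ) (ψ : B → ℝ) : (pm Λ μ ψ).W 0 = Λ.post B μ ψ := by
  funext s
  rw [pm, Mdl.W_mulSite, Lat.post]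
  congr 1
  rw [show (Λ.N B).A = B from rfl, ← Finset.prod_coe_sort B, Finset.mul_sum, Finset.sum_div,
    Real.exp_sum]
  exact Finset.prod_congr rfl fun x _ => by rw [dif_pos x.2]

theorem pm_site (Λ : Lat) (μ : ℝ) (ψ : B → ℝ) {x : Pt} (hx : x ∈ B) (k : ℤ) :
    (pm Λ μ ψ).site x k = Real.exp (-μ * ((k : ℝ) - ψ ⟨x, hx⟩) ^ 2 / 2) := by
  simp only [pm, Mdl.mulSite, Lat.N, dif_pos hx, one_mul]

theorem se_gau (hμ : 0 < μ) (c : ℝ) : SE fun k : ℤ => Real.exp (-μ * ((k : ℝ) - c) ^ 2 / 2) := by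
  refine Md.se_of_bound fun a => ⟨Real.exp (|a| * |c| + a ^ 2 / (2 * μ)), fun k => ?_⟩
  rw [abs_of_pos (Real.exp_pos _), ← Real.exp_add, Real.exp_le_exp]
  have h1 : a * |(k : ℝ)| ≤ |a| * (|c| + |(k : ℝ) - c|) :=
    (mul_le_mul_of_nonneg_right (le_abs_self a) (abs_nonneg _)).trans
      (mul_le_mul_of_nonneg_left (by simpa using abs_add_le c ((k : ℝ) - c)) (abs_nonneg a))
  have h2 : |a| * |(k : ℝ) - c| ≤ μ * ((k : ℝ) - c) ^ 2 / 2 + a ^ 2 / (2 * μ) := by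
    rw [← sq_abs ((k : ℝ) - c), ← sq_abs a]
    have : a ^ 2 / (2 * μ) = μ * (|a| / μ) ^ 2 / 2 := by rw [← sq_abs a]; field_simp
    have e : |a| = μ * (|a| / μ) := by field_simp
    rw [sq_abs a, this]
    generalize |a| / μ = t at e ⊢
    rw [e]
    nlinarith [mul_nonneg hμ.le (sq_nonneg (|(k : ℝ) - c| - t))]
  linarith

theorem pm_fm (h : Λ.Ok) (μ : ℝ) (ψ : B → ℝ) : (pm Λ μ ψ).Fm := fun _ _ => h.fam

theorem pm_nn (Λ : Lat) (μ : ℝ) (ψ : B → ℝ) : (pm Λ μ ψ).Nn := fun x hx k => by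
  rw [pm_site Λ μ ψ hx]; exact (Real.exp_pos _).le

theorem pm_anch (Λ : Lat) (hμ : 0 < μ) (ψ : B → ℝ) : (pm Λ μ ψ).Anch :=
  Md.anch_of_se fun x hx => by rw [funext (pm_site Λ μ ψ hx)]; exact se_gau hμ _

theorem pm_tm (Λ : Lat) (hμ : 0 < μ) (ψ : B → ℝ) : Md.Tm (pm Λ μ ψ) := fun x hx =>
  ⟨1, 0, fun k => by
    rw [pm_site Λ μ ψ hx, abs_of_pos (Real.exp_pos _), one_mul, Real.exp_le_exp]
    nlinarith [mul_nonneg hμ.le (sq_nonneg ((k : ℝ) - ψ ⟨x, hx⟩))]⟩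

theorem post_se (h : Λ.Ok) (hμ : 0 < μ) (ψ : B → ℝ) : SE (Λ.post B μ ψ) :=
  pm_W Λ μ ψ ▸ Md.se_W (pm_fm h μ ψ) (pm_anch Λ hμ ψ) (pm_tm Λ hμ ψ) 0

theorem post_wt (h : Λ.Ok) (hμ : 0 < μ) (ψ : B → ℝ) : Wt (Λ.post B μ ψ) :=
  pm_W Λ μ ψ ▸ Md.wt_W (pm_fm h μ ψ) (pm_anch Λ hμ ψ) (pm_tm Λ hμ ψ) (pm_nn Λ μ ψ)
    (fun x hx => ⟨0, by rw [pm_site Λ μ ψ hx]; exact Real.exp_pos _⟩) 0

theorem meas_post (Λ : Lat) (μ : ℝ) (s : Cfg Pt) : Measurable fun ψ : B → ℝ => Λ.post B μ ψ s := by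
  simp only [post_eq]
  exact (cont_kk μ _).measurable.const_mul _

theorem meas_ex (Λ : Lat) (μ : ℝ) {G : Cfg Pt → (B → ℝ) → ℝ} (hG : ∀ s, Measurable (G s)) :
    Measurable fun ψ => Ex (Λ.post B μ ψ) fun s => G s ψ :=
  (Measurable.tsum fun s => (meas_post Λ μ s).mul (hG s)).div
    (Measurable.tsum fun s => meas_post Λ μ s)

/-- shift of the observation -/
def sh (h : ℤ) (ψ : B → ℝ) : B → ℝ := ψ + fun _ => (h : ℝ)

theorem sh_apply (h : ℤ) (ψ : B → ℝ) (x : B) : sh h ψ x = ψ x + h := rfl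

theorem N_shift (Λ : Lat) (s : Cfg Pt) (h : ℤ) : (Λ.N B).W 0 (s + cst B h) = (Λ.N B).W 0 s := by
  simp only [Mdl.W, Lat.N]
  congr 2
  · refine ind_congr (forall_congr' fun x => forall_congr' fun hx => ?_)
    rw [Finsupp.add_apply, cst_of_notMem h hx, add_zero]
  · refine Finset.prod_congr rfl fun e he => ?_
    have := Lat.mem_edI.1 he
    rw [dE_add, dE_cst h (by tauto), add_zero]

theorem post_shift (Λ : Lat) (μ : ℝ) (ψ : B → ℝ) (s : Cfg Pt) (h : ℤ) :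
    Λ.post B μ (sh h ψ) (s + cst B h) = Λ.post B μ ψ s := by
  rw [Lat.post, Lat.post, N_shift]
  congr 4
  refine Finset.sum_congr rfl fun x _ => ?_
  rw [Finsupp.add_apply, cst_of_mem h x.2, sh_apply]
  push_cast; ring

/-- joint invariance under the zero mode -/
def Inv (G : Cfg Pt → (B → ℝ) → ℝ) : Prop := ∀ s ψ (h : ℤ), G (s + cst B h) (sh h ψ) = G s ψ

theorem ex_shift (Λ : Lat) (μ : ℝ) {G : Cfg Pt → (B → ℝ) → ℝ} (hG : Inv G) (ψ : B → ℝ) (h : ℤ) :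
    (Ex (Λ.post B μ (sh h ψ)) fun s => G s (sh h ψ)) = Ex (Λ.post B μ ψ) fun s => G s ψ := by
  rw [← Ex_equiv (Equiv.addRight (cst B h))]
  simp only [Equiv.coe_addRight, post_shift, hG _ _ h]

theorem Nr_W (Λ : Lat) {r : Pt} (hr : r ∈ B) (s : Cfg Pt) :
    (Λ.Nr B r).W 0 s = ind (s r = 0) * (Λ.N B).W 0 s := by
  simp only [Mdl.W, Lat.Nr, Lat.N, Mdl.free, Finset.prod_const_one, mul_one, ← mul_assoc,
    ← ind_and]
  congr 1
  refine ind_congr ⟨fun h => ⟨h r (Finset.notMem_erase r B), fun x hx =>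
    h x fun h' => hx (Finset.mem_of_mem_erase h')⟩, fun h x hx => ?_⟩
  by_cases e : x = r
  · rw [e]; exact h.1
  · exact h.2 x fun h' => hx (Finset.mem_erase.2 ⟨e, h'⟩)

theorem integral_count' {α : Type*} [MeasurableSpace α] [DiscreteMeasurableSpace α] [Countable α]
    (f : α → ℝ) : ∫ a, f a ∂Measure.count = ∑' a, f a := by
  by_cases h : Summable f
  · rw [integral_countable (integrable_count_iff.2 h.norm)]
    simp
  · have : ¬ Integrable f Measure.count := fun h' =>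
      h (Summable.of_norm (integrable_count_iff.1 h'))
    rw [integral_undef this, tsum_eq_zero_of_not_summable h]

/-- **unfolding** -/
theorem unfold (h : Λ.Ok) (hμ : 0 < μ) {r : Pt} (hr : r ∈ B) (hW : Wt ((Λ.Nr B r).W 0))
    {G : Cfg Pt → (B → ℝ) → ℝ} (hm : ∀ s, Measurable (G s)) (hG : Inv G)
    (I : Integrable (fun p => G p.1 (ob μ p)) (PP ((Λ.Nr B r).W 0) B)) :
    Integrable (fun p => Ex (Λ.post B μ (ob μ p)) fun s => G s (ob μ p))
        (PP ((Λ.Nr B r).W 0) B) ∧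
      ∫ p, G p.1 (ob μ p) ∂PP ((Λ.Nr B r).W 0) B =
        ∫ p, Ex (Λ.post B μ (ob μ p)) (fun s => G s (ob μ p)) ∂PP ((Λ.Nr B r).W 0) B := by
  obtain ⟨c, hc, hmap⟩ := PP_map hW B hμ
  have hw := post_wt (B := B) h hμ
  have m1 : Measurable fun p : Cfg Pt × (B → ℝ) => (p.1, ob μ p) := measurable_fst.prodMk (meas_ob μ)
  have mD : Measurable fun p : Cfg Pt × (B → ℝ) => Λ.post B μ p.2 p.1 :=
    meas_of (G := fun s ψ => Λ.post B μ ψ s) (meas_post Λ μ)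
  have mU : Measurable fun p : Cfg Pt × (B → ℝ) => ind (p.1 r = 0) :=
    meas_of (G := fun s _ => ind (s r = 0)) fun s => measurable_const
  have eρ : ∀ p : Cfg Pt × (B → ℝ), c * ((Λ.Nr B r).W 0 p.1 * kk μ (fun z => (p.1 z : ℝ)) p.2) =
      c * (ind (p.1 r = 0) * Λ.post B μ p.2 p.1) := fun p => by
    rw [Nr_W Λ hr, post_eq, mul_assoc (ind _)]
  simp_rw [eρ] at hmap
  have mρ : Measurable fun p : Cfg Pt × (B → ℝ) => c * (ind (p.1 r = 0) * Λ.post B μ p.2 p.1) :=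
    (mU.mul mD).const_mul c
  have nρ : ∀ p : Cfg Pt × (B → ℝ), 0 ≤ c * (ind (p.1 r = 0) * Λ.post B μ p.2 p.1) := fun p =>
    mul_nonneg hc.le (mul_nonneg (ind_nonneg _) ((hw _).nonneg _))
  -- transfer to the reference measure
  have tr : ∀ F : Cfg Pt × (B → ℝ) → ℝ, Measurable F →
      (Integrable (fun p => F (p.1, ob μ p)) (PP ((Λ.Nr B r).W 0) B) ↔
        Integrable (fun p => ind (p.1 r = 0) * (c * Λ.post B μ p.2 p.1 * F p)) (LL B)) ∧
      ∫ p, F (p.1, ob μ p) ∂PP ((Λ.Nr B r).W 0) B =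
        ∫ p, ind (p.1 r = 0) * (c * Λ.post B μ p.2 p.1 * F p) ∂LL B := by
    intro F mF
    have e : ∀ p : Cfg Pt × (B → ℝ), ind (p.1 r = 0) * (c * Λ.post B μ p.2 p.1 * F p) =
        (c * (ind (p.1 r = 0) * Λ.post B μ p.2 p.1)) • F p := fun p => by
      rw [smul_eq_mul]; ring
    simp_rw [e]
    rw [← Gs.int_wd _ mρ nρ, ← Gs.integral_wd _ mρ nρ, ← hmap,
      integral_map m1.aemeasurable mF.aestronglyMeasurable,
      integrable_map_measure mF.aestronglyMeasurable m1.aemeasurable]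
    exact ⟨Iff.rfl, rfl⟩
  set q : (B → ℝ) → ℝ := fun ψ => ∑' s : Cfg Pt, ind (s r = 0) * Λ.post B μ ψ s with hq
  set g : (B → ℝ) → ℝ := fun ψ => Ex (Λ.post B μ ψ) fun s => G s ψ with hg
  have mg : Measurable g := meas_ex Λ μ hm
  have mq : Measurable q := Measurable.tsum fun s => (meas_post Λ μ s).const_mul _
  have mp : Measurable fun ψ : B → ℝ => Zs (Λ.post B μ ψ) :=
    Measurable.tsum fun s => meas_post Λ μ s
  have nq : ∀ ψ, 0 ≤ q ψ := fun ψ =>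
    tsum_nonneg fun s => mul_nonneg (ind_nonneg _) ((hw _).nonneg _)
  have mG : Measurable fun p : Cfg Pt × (B → ℝ) => G p.1 p.2 := meas_of hm
  let T : ℤ → Cfg Pt × (B → ℝ) → Cfg Pt × (B → ℝ) := fun k p => (p.1 + cst B k, sh k p.2)
  have hT : ∀ k, MeasurePreserving (T k) (LL B) (LL B) := fun k =>
    (measurePreserving_add_right Measure.count (cst B k)).prod
      (measurePreserving_add_right volume fun _ : B => (k : ℝ))
  have hi : ∀ k p, T (-k) (T k p) = p := fun k p => by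
    refine Prod.ext ?_ (funext fun x => ?_)
    · simp only [T, cst_neg, add_neg_cancel_right]
    · simp only [T, sh_apply]; push_cast; ring
  have hZ : ∀ ψ (k : ℤ), Zs (Λ.post B μ (sh k ψ)) = Zs (Λ.post B μ ψ) := fun ψ k => by
    rw [← Zs_equiv (Equiv.addRight (cst B k))]
    simp only [Equiv.coe_addRight, post_shift]
  have hqs : ∀ ψ (k : ℤ), q (sh k ψ) = push (Λ.post B μ ψ) (fun s => -s r) k := fun ψ k => by
    simp only [hq, push]
    rw [← (Equiv.addRight (cst B k)).tsum_eq]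
    refine tsum_congr fun s => ?_
    simp only [Equiv.coe_addRight, post_shift]
    rw [Finsupp.add_apply, cst_of_mem k hr]
    congr 1
    exact ind_congr (by omega)
  obtain ⟨I2, E2'⟩ := orb (U₂ := fun p => q p.2 / Zs (Λ.post B μ p.2)) hT hi mU
    ((mq.div mp).comp measurable_snd) ((mD.const_mul c).mul mG) (fun _ => ind_nonneg _)
    (fun p => div_nonneg (nq _) (hw _).pos.le)
    (fun p => by
      have := hasSum_single (f := fun k : ℤ => ind ((T k p).1 r = 0)) (-p.1 r) fun k hk => by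
        refine ind_neg ?_
        simp only [T]
        rw [Finsupp.add_apply, cst_of_mem k hr]
        omega
      rwa [ind_pos (by simp only [T]; rw [Finsupp.add_apply, cst_of_mem _ hr]; omega)] at this)
    (fun p => by
      simp only [T, hZ, hqs]
      have := (hasSum_push (hw p.2).summ fun s : Cfg Pt => -s r).div_const (Zs (Λ.post B μ p.2))
      rwa [show ∑' a, Λ.post B μ p.2 a = Zs (Λ.post B μ p.2) from rfl, div_self (hw _).ne] at this)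
    (fun k p => by simp only [T, Pi.mul_apply, post_shift, hG _ _ k]) ((tr _ mG).1.1 I)
  have f2 : ∀ ψ : B → ℝ, ∫ s : Cfg Pt, q ψ / Zs (Λ.post B μ ψ) * (c * Λ.post B μ ψ s * G s ψ)
      ∂Measure.count = c * (q ψ * g ψ) := fun ψ => by
    rw [integral_count', tsum_mul_left]
    simp_rw [mul_assoc]
    rw [tsum_mul_left, (hw ψ).tsum_eq]
    have := (hw ψ).ne
    field_simp
    rfl
  have f1 : ∀ (ψ : B → ℝ) (t : ℝ), ∫ s : Cfg Pt, ind (s r = 0) * (c * Λ.post B μ ψ s * t)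
      ∂Measure.count = c * (q ψ * t) := fun ψ t => by
    rw [integral_count', hq, ← tsum_mul_right, ← tsum_mul_left]
    exact tsum_congr fun s => by ring
  have J2 : Integrable (fun ψ => c * (q ψ * g ψ)) := by
    have := Integrable.integral_prod_right I2
    simpa only [Pi.mul_apply, f2] using this
  have m3 : Measurable fun p : Cfg Pt × (B → ℝ) =>
      ind (p.1 r = 0) * (c * Λ.post B μ p.2 p.1 * g p.2) :=
    mU.mul ((mD.const_mul c).mul (mg.comp measurable_snd))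
  have I3 : Integrable (fun p : Cfg Pt × (B → ℝ) =>
      ind (p.1 r = 0) * (c * Λ.post B μ p.2 p.1 * g p.2)) (LL B) := by
    refine (integrable_prod_iff' m3.aestronglyMeasurable).2
      ⟨Filter.Eventually.of_forall fun ψ => integrable_count_iff.2 ?_, ?_⟩
    · exact (summable_ind_mul (((hw ψ).summ.mul_left c).mul_right (g ψ)) _).norm
    · have e : ∀ (ψ : B → ℝ) (s : Cfg Pt), ‖ind (s r = 0) * (c * Λ.post B μ ψ s * g ψ)‖ =
          ind (s r = 0) * (c * Λ.post B μ ψ s * |g ψ|) := fun ψ s => by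
        rw [Real.norm_eq_abs, abs_mul, abs_mul, abs_of_nonneg (ind_nonneg _),
          abs_of_nonneg (mul_nonneg hc.le ((hw _).nonneg _))]
      simp only [e, f1]
      refine J2.norm.congr (Filter.Eventually.of_forall fun ψ => ?_)
      simp only [Real.norm_eq_abs, abs_mul, abs_of_pos hc, abs_of_nonneg (nq ψ)]
  have t3 := tr (fun p => g p.2) (mg.comp measurable_snd)
  refine ⟨t3.1.2 I3, ?_⟩
  rw [(tr _ mG).2, t3.2]
  refine E2'.trans ?_
  rw [LL, integral_prod_symm _ I2, integral_prod_symm _ I3]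
  simp only [Pi.mul_apply, f1, f2]

end post

end Crest.Agent.T145.J88
end

-- ▼ part T145/J_88

/-!
# Row 145, (b) T3: the Fisher kernel: signs, Cramér–Rao, dual criterion (`jStmt`, helper88)
-/

set_option autoImplicit false
set_option linter.unusedVariables false
set_option linter.unusedSectionVars false
set_option linter.style.haveILetI false

namespace Crest.Agent.T145

namespace J88

open MeasureTheory Finset

section l2
variable {Ω : Type*} [MeasurableSpace Ω] {P : Measure Ω} {X Y : Ω → ℝ}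

theorem imul (hX : MemLp X 2 P) (hY : MemLp Y 2 P) : Integrable (fun ω => X ω * Y ω) P :=
  hX.integrable_mul hY

theorem add3 {f g k : Ω → ℝ} (hf : Integrable f P) (hg : Integrable g P) (hk : Integrable k P) :
    ∫ ω, f ω + g ω + k ω ∂P = ∫ ω, f ω ∂P + ∫ ω, g ω ∂P + ∫ ω, k ω ∂P := by
  rw [← integral_add hf hg]
  exact integral_add (hf.add hg) hk

theorem cs (hX : MemLp X 2 P) (hY : MemLp Y 2 P) :
    (∫ ω, X ω * Y ω ∂P) ^ 2 ≤ (∫ ω, X ω ^ 2 ∂P) * ∫ ω, Y ω ^ 2 ∂P := by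
  have h : ∀ t : ℝ, 0 ≤ (∫ ω, Y ω ^ 2 ∂P) * (t * t) + (2 * ∫ ω, X ω * Y ω ∂P) * t +
      ∫ ω, X ω ^ 2 ∂P := fun t => by
    have e : ∀ ω, (X ω + t * Y ω) ^ 2 = Y ω ^ 2 * (t * t) + 2 * (X ω * Y ω) * t + X ω ^ 2 :=
      fun ω => by ring
    have h0 : 0 ≤ ∫ ω, (X ω + t * Y ω) ^ 2 ∂P := integral_nonneg fun ω => sq_nonneg _
    have i1 := hY.integrable_sq.mul_const (t * t)
    have i2 := ((imul hX hY).const_mul 2).mul_const t
    simp_rw [e] at h0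
    rwa [add3 i1 i2 hX.integrable_sq, integral_mul_const,
      integral_mul_const, integral_const_mul] at h0
  have := discrim_le_zero h
  rw [discrim] at this
  nlinarith

theorem cs' (hX : MemLp X 2 P) (hY : MemLp Y 2 P) :
    ∫ ω, X ω * Y ω ∂P ≤ Real.sqrt (∫ ω, X ω ^ 2 ∂P) * Real.sqrt (∫ ω, Y ω ^ 2 ∂P) := by
  rw [← Real.sqrt_mul (integral_nonneg fun ω => sq_nonneg _)]
  exact (le_abs_self _).trans (Real.abs_le_sqrt (cs hX hY))

end l2

section main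
variable {Λ : Lat} {B : Finset Pt} {μ : ℝ} {r : Pt}

/-- the noise, as a function of heights and observation -/
noncomputable def gg (μ : ℝ) (a : B → ℝ) (s : Cfg Pt) (ψ : B → ℝ) : ℝ :=
  ∑ x : B, a x * (μ * (ψ x - s x))

/-- the score in the direction `a` -/
noncomputable def zz (Λ : Lat) (μ : ℝ) (a ψ : B → ℝ) : ℝ := ∑ x : B, a x * Λ.sc B μ ψ x

theorem gg_ob (hμ : 0 < μ) (a : B → ℝ) (p : Cfg Pt × (B → ℝ)) :
    gg μ a p.1 (ob μ p) = Real.sqrt μ * (a ⬝ᵥ p.2) := by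
  simp only [gg, ob, obs, dotProduct, Finset.mul_sum]
  refine Finset.sum_congr rfl fun x _ => ?_
  have hs := (Real.sqrt_pos.2 hμ).ne'
  have e := Real.mul_self_sqrt hμ.le
  generalize Real.sqrt μ = t at hs e
  subst e
  field_simp
  ring

theorem gg_inv (μ : ℝ) (a : B → ℝ) : Inv (gg μ a) := fun s ψ h =>
  Finset.sum_congr rfl fun x _ => by
    rw [Finsupp.add_apply, cst_of_mem h x.2, sh_apply]; push_cast; ring

theorem gg_meas (μ : ℝ) (a : B → ℝ) (s : Cfg Pt) : Measurable (gg μ a s) := by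
  unfold gg; fun_prop

theorem gg_tame (μ : ℝ) (a ψ : B → ℝ) : Tame fun s => gg μ a s ψ :=
  Tame.sum _ fun x _ => (((Tame.const _).sub (Tame.ev x.1)).const_mul _).const_mul _

theorem gg_anti (hμ : 0 < μ) {a : B → ℝ} (ha : ∀ x, 0 ≤ a x) (ψ : B → ℝ) :
    Antitone fun s => gg μ a s ψ := fun s t hst =>
  Finset.sum_le_sum fun x _ => mul_le_mul_of_nonneg_left (mul_le_mul_of_nonneg_left
    (sub_le_sub_left (Int.cast_le.2 (hst x)) _) hμ.le) (ha x)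

theorem ex_gg (h : Λ.Ok) (hμ : 0 < μ) (a ψ : B → ℝ) :
    Ex (Λ.post B μ ψ) (fun s => gg μ a s ψ) = zz Λ μ a ψ := by
  have hs := post_se h hμ ψ
  have hw := post_wt h hμ ψ
  unfold gg zz
  rw [Ex_sum _ fun x _ => hs.ig ((((Tame.const _).sub (Tame.ev x.1)).const_mul _).const_mul _)]
  refine Finset.sum_congr rfl fun x _ => ?_
  rw [Ex_const_mul, Ex_const_mul, Ex_sub (hw.ig_const _) (hs.ig (Tame.ev x.1)), hw.ex_const, Lat.sc]

theorem zz_meas (h : Λ.Ok) (hμ : 0 < μ) (a : B → ℝ) : Measurable (zz Λ μ a) := by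
  rw [← funext (ex_gg h hμ a)]
  exact meas_ex Λ μ (gg_meas μ a)

theorem zz_shift (h : Λ.Ok) (hμ : 0 < μ) (a ψ : B → ℝ) (k : ℤ) :
    zz Λ μ a (sh k ψ) = zz Λ μ a ψ := by
  rw [← ex_gg h hμ, ← ex_gg h hμ, ex_shift Λ μ (gg_inv μ a)]

variable {W : Cfg Pt → ℝ}

theorem xi_int (hW : Wt W) (c : ℝ) (a : B → ℝ) (n : ℕ) :
    Integrable (fun p => (c * (a ⬝ᵥ p.2)) ^ n) (PP W B) := by
  simp_rw [mul_pow]
  exact (int_snd hW (dot_int_pow a n)).const_mul _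

theorem xi_meas (c : ℝ) (a : B → ℝ) : Measurable fun p : Cfg Pt × (B → ℝ) => c * (a ⬝ᵥ p.2) :=
  ((cont_dot a).measurable.comp measurable_snd).const_mul c

theorem xi_l2 (hW : Wt W) (c : ℝ) (a : B → ℝ) : MemLp (fun p => c * (a ⬝ᵥ p.2)) 2 (PP W B) :=
  (memLp_two_iff_integrable_sq (xi_meas c a).aestronglyMeasurable).2 (xi_int hW c a 2)

theorem xi_cov (hW : Wt W) (c d : ℝ) (a b : B → ℝ) :
    ∫ p, c * (a ⬝ᵥ p.2) * (d * (b ⬝ᵥ p.2)) ∂PP W B = c * d * (a ⬝ᵥ b) := by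
  rw [integral_snd hW fun ξ => c * (a ⬝ᵥ ξ) * (d * (b ⬝ᵥ ξ)), ← dot_cov, ← integral_const_mul]
  exact integral_congr_ae (Filter.Eventually.of_forall fun ξ => by ring)

theorem fst_meas (F : Cfg Pt → ℝ) : Measurable fun p : Cfg Pt × (B → ℝ) => F p.1 :=
  (Measurable.of_discrete (f := F)).comp measurable_fst

theorem fst_l2 (hW : Wt W) {F : Cfg Pt → ℝ} (hF : Ig W fun s => F s ^ 2) :
    MemLp (fun p => F p.1) 2 (PP W B) :=
  (memLp_two_iff_integrable_sq (fst_meas F).aestronglyMeasurable).2 (int_fst hW hF)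

theorem fst_xi (hW : Wt W) (F : Cfg Pt → ℝ) (c : ℝ) (a : B → ℝ) :
    ∫ p, F p.1 * (c * (a ⬝ᵥ p.2)) ∂PP W B = 0 := by
  rw [integral_mul hW F fun ξ => c * (a ⬝ᵥ ξ), integral_const_mul, dot_mean]; simp

variable (h : Λ.Ok) (hμ : 0 < μ) (hr : r ∈ B) (hW : Wt ((Λ.Nr B r).W 0))
include h hμ hr hW

theorem unfold2 (a b : B → ℝ) :
    Integrable (fun p => Ex (Λ.post B μ (ob μ p)) fun s => gg μ a s (ob μ p) * gg μ b s (ob μ p))
      (PP ((Λ.Nr B r).W 0) B) ∧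
    ∫ p, Ex (Λ.post B μ (ob μ p)) (fun s => gg μ a s (ob μ p) * gg μ b s (ob μ p))
      ∂PP ((Λ.Nr B r).W 0) B = μ * (a ⬝ᵥ b) := by
  obtain ⟨I, E⟩ := unfold h hμ hr hW (G := fun s ψ => gg μ a s ψ * gg μ b s ψ)
    (fun s => (gg_meas μ a s).mul (gg_meas μ b s))
    (fun s ψ k => by simp only [gg_inv μ a s ψ k, gg_inv μ b s ψ k])
    (by simp only [gg_ob hμ]; exact imul (xi_l2 hW _ a) (xi_l2 hW _ b))
  refine ⟨I, ?_⟩
  rw [← E]
  simp only [gg_ob hμ]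
  rw [xi_cov hW, Real.mul_self_sqrt hμ.le]

omit hr hW in
theorem zz_sq_le (a ψ : B → ℝ) :
    zz Λ μ a ψ ^ 2 ≤ Ex (Λ.post B μ ψ) fun s => gg μ a s ψ * gg μ a s ψ := by
  have := (post_wt h hμ ψ).ex_sq_le ((post_se h hμ ψ).ig ((gg_tame μ a ψ).pow 2))
  rw [ex_gg h hμ] at this
  simpa only [pow_two] using this

theorem zz_l2 (a : B → ℝ) : MemLp (fun p => zz Λ μ a (ob μ p)) 2 (PP ((Λ.Nr B r).W 0) B) := by
  have m := (zz_meas h hμ a).comp (meas_ob μ)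
  refine (memLp_two_iff_integrable_sq m.aestronglyMeasurable).2
    ((unfold2 h hμ hr hW a a).1.mono' (m.pow_const 2).aestronglyMeasurable
      (Filter.Eventually.of_forall fun p => ?_))
  rw [Real.norm_of_nonneg (sq_nonneg _)]
  exact zz_sq_le h hμ a _

theorem zz_sq (a : B → ℝ) :
    ∫ p, zz Λ μ a (ob μ p) ^ 2 ∂PP ((Λ.Nr B r).W 0) B ≤ μ * (a ⬝ᵥ a) := by
  rw [← (unfold2 h hμ hr hW a a).2]
  exact integral_mono (zz_l2 h hμ hr hW a).integrable_sq (unfold2 h hμ hr hW a a).1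
    fun p => zz_sq_le h hμ a _

theorem zz_mul_le {a b : B → ℝ} (ha : ∀ x, 0 ≤ a x) (hb : ∀ x, 0 ≤ b x) :
    ∫ p, zz Λ μ a (ob μ p) * zz Λ μ b (ob μ p) ∂PP ((Λ.Nr B r).W 0) B ≤ μ * (a ⬝ᵥ b) := by
  rw [← (unfold2 h hμ hr hW a b).2]
  refine integral_mono (imul (zz_l2 h hμ hr hW a) (zz_l2 h hμ hr hW b))
    (unfold2 h hμ hr hW a b).1 fun p => ?_
  have hs := post_se h hμ (ob μ p)
  have hl : LSM (Λ.post B μ (ob μ p)) :=
    pm_W Λ μ (ob μ p) ▸ Mdl.lsm (fun e he => (pm_fm h μ _ e he).lc') (pm_nn Λ μ _) 0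
  have := hl.cv_nonneg_anti (post_wt h hμ _) (gg_anti hμ ha (ob μ p)) (gg_anti hμ hb (ob μ p))
    (hs.ig (gg_tame μ a _)) (hs.ig (gg_tame μ b _)) (hs.ig ((gg_tame μ a _).mul (gg_tame μ b _)))
  rw [Cv, ex_gg h hμ, ex_gg h hμ] at this
  exact sub_nonneg.1 this

/-- the score is the conditional expectation of the noise -/
theorem key (a : B → ℝ) {Φ : (B → ℝ) → ℝ} (mΦ : Measurable Φ) (hΦ : ∀ ψ k, Φ (sh k ψ) = Φ ψ)
    (l2 : MemLp (fun p => Φ (ob μ p)) 2 (PP ((Λ.Nr B r).W 0) B)) :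
    ∫ p, Real.sqrt μ * (a ⬝ᵥ p.2) * Φ (ob μ p) ∂PP ((Λ.Nr B r).W 0) B =
      ∫ p, zz Λ μ a (ob μ p) * Φ (ob μ p) ∂PP ((Λ.Nr B r).W 0) B := by
  have E := (unfold h hμ hr hW (G := fun s ψ => gg μ a s ψ * Φ ψ)
    (fun s => (gg_meas μ a s).mul mΦ) (fun s ψ k => by simp only [gg_inv μ a s ψ k, hΦ])
    (by simp only [gg_ob hμ]; exact imul (xi_l2 hW _ a) l2)).2
  simpa only [gg_ob hμ, Ex_mul_const, ex_gg h hμ] using E

omit h hμ hr hW in
theorem zz_single (ψ : B → ℝ) (x : B) : zz Λ μ (Pi.single x 1) ψ = Λ.sc B μ ψ x := by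
  rw [zz, Finset.sum_eq_single x (fun y _ hy => by simp [hy]) (by simp)]
  simp

/-- the Fisher kernel for a general rooted free model -/
noncomputable def JJ (Λ : Lat) (B : Finset Pt) (r : Pt) (μ : ℝ) (x y : B) : ℝ :=
  E2 ((Λ.Nr B r).W 0) B fun s ξ =>
    Λ.sc _ μ (obs μ (fun z => (s z : ℝ)) ξ) x * Λ.sc _ μ (obs μ (fun z => (s z : ℝ)) ξ) y

theorem sc_l2 (x : B) : MemLp (fun p => Λ.sc B μ (ob μ p) x) 2 (PP ((Λ.Nr B r).W 0) B) := by
  simpa only [zz_single] using zz_l2 h hμ hr hW (Pi.single x 1)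

theorem JJ_eq (x y : B) : JJ Λ B r μ x y =
    ∫ p, Λ.sc B μ (ob μ p) x * Λ.sc B μ (ob μ p) y ∂PP ((Λ.Nr B r).W 0) B :=
  E2_eq hW (imul (sc_l2 h hμ hr hW x) (sc_l2 h hμ hr hW y))

theorem qf_eq (m : Pt → ℝ) : qf (JJ Λ B r μ) m =
    ∫ p, zz Λ μ (fun x => m x) (ob μ p) ^ 2 ∂PP ((Λ.Nr B r).W 0) B := by
  have i : ∀ x y : B, Integrable (fun p => m x * (Λ.sc B μ (ob μ p) x * Λ.sc B μ (ob μ p) y) * m y)
      (PP ((Λ.Nr B r).W 0) B) := fun x y =>
    ((imul (sc_l2 h hμ hr hW x) (sc_l2 h hμ hr hW y)).const_mul _).mul_const _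
  simp only [qf, JJ_eq h hμ hr hW, ← integral_const_mul, ← integral_mul_const]
  simp_rw [← integral_finsetSum _ fun y _ => i _ y]
  rw [← integral_finsetSum _ fun x _ => integrable_finsetSum _ fun y _ => i x y]
  refine integral_congr_ae (Filter.Eventually.of_forall fun p => ?_)
  simp only [zz, pow_two, Finset.sum_mul_sum]
  exact Finset.sum_congr rfl fun x _ => Finset.sum_congr rfl fun y _ => by ring

omit h hμ hr hW in
theorem dot_ip (f m : Pt → ℝ) : (fun x : B => f x) ⬝ᵥ (fun x : B => m x) = ip B f m :=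
  Finset.sum_coe_sort B fun x => f x * m x

theorem ker : Ker (JJ Λ B r μ) μ := by
  refine ⟨fun x y => ?_, fun x y hxy => ?_, fun m => ⟨?_, ?_⟩⟩
  · simp only [JJ, mul_comm]
  · have := zz_mul_le h hμ hr hW (a := Pi.single x 1) (b := Pi.single y 1)
      (fun z => by rw [Pi.single_apply]; split_ifs <;> norm_num)
      (fun z => by rw [Pi.single_apply]; split_ifs <;> norm_num)
    simp only [zz_single, single_dotProduct, Pi.single_eq_of_ne hxy, mul_zero] at this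
    rwa [JJ_eq h hμ hr hW]
  · rw [qf_eq h hμ hr hW]; exact integral_nonneg fun p => sq_nonneg _
  · rw [qf_eq h hμ hr hW, ← dot_ip]; exact zz_sq h hμ hr hW _

theorem cr (hC : Cen ((Λ.Nr B r).W 0)) (f m : Pt → ℝ) (hf : ∑ x ∈ B, f x = 0) :
    ip B f m ^ 2 ≤ (Vr ((Λ.Nr B r).W 0) (pr f) (pr f) + ip B f f / μ) * qf (JJ Λ B r μ) m := by
  set a : B → ℝ := fun x => f x with ha
  set b : B → ℝ := fun x => m x with hb
  set Y : Cfg Pt → ℝ := fun s => ∑ x : B, f x * (s x : ℝ) with hY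
  have tY : Tame Y := Tame.sum _ fun x _ => (Tame.ev x.1).const_mul _
  have hs := Real.sqrt_pos.2 hμ
  have eU : ∀ p : Cfg Pt × (B → ℝ), a ⬝ᵥ ob μ p = Y p.1 + (Real.sqrt μ)⁻¹ * (a ⬝ᵥ p.2) := fun p => by
    simp only [ob, obs, dotProduct, hY, ha, Finset.mul_sum, ← Finset.sum_add_distrib]
    exact Finset.sum_congr rfl fun x _ => by ring
  have lY : MemLp (fun p => Y p.1) 2 (PP ((Λ.Nr B r).W 0) B) := fst_l2 hW (hC.ig (tY.pow 2))
  have lX := xi_l2 hW (Real.sqrt μ)⁻¹ a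
  have lU : MemLp (fun p => a ⬝ᵥ ob μ p) 2 (PP ((Λ.Nr B r).W 0) B) := by
    simp only [eU]; exact lY.add lX
  have k := key h hμ hr hW b (Φ := fun ψ => a ⬝ᵥ ψ) (cont_dot a).measurable
    (fun ψ k => by
      have : ∑ x : B, a x = 0 := (Finset.sum_coe_sort B f).trans hf
      simp only [dotProduct, sh_apply, mul_add, Finset.sum_add_distrib, ← Finset.sum_mul, this,
        zero_mul, add_zero]) lU
  have k1 : ∫ p, Real.sqrt μ * (b ⬝ᵥ p.2) * (a ⬝ᵥ ob μ p) ∂PP ((Λ.Nr B r).W 0) B = ip B f m := by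
    simp only [eU, mul_add]
    rw [integral_add (imul (xi_l2 hW _ b) lY) (imul (xi_l2 hW _ b) lX), xi_cov hW,
      mul_inv_cancel₀ hs.ne', one_mul, dotProduct_comm, dot_ip]
    simp_rw [mul_comm _ (Y _)]
    rw [fst_xi hW, zero_add]
  have k2 : ∫ p, (a ⬝ᵥ ob μ p) ^ 2 ∂PP ((Λ.Nr B r).W 0) B =
      Vr ((Λ.Nr B r).W 0) (pr f) (pr f) + ip B f f / μ := by
    have e : ∀ p : Cfg Pt × (B → ℝ), (a ⬝ᵥ ob μ p) ^ 2 = Y p.1 ^ 2 +
        2 * (Y p.1 * ((Real.sqrt μ)⁻¹ * (a ⬝ᵥ p.2))) +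
        (Real.sqrt μ)⁻¹ * (a ⬝ᵥ p.2) * ((Real.sqrt μ)⁻¹ * (a ⬝ᵥ p.2)) := fun p => by
      rw [eU]; ring
    simp only [e]
    rw [add3 lY.integrable_sq ((imul lY lX).const_mul 2) (imul lX lX), integral_const_mul,
      fst_xi hW,
      xi_cov hW, integral_fst hW fun s => Y s ^ 2, dot_ip, ← mul_inv, Real.mul_self_sqrt hμ.le,
      hC.Vr_eq, mul_zero, add_zero, div_eq_inv_mul]
    congr 1
    refine Ex_congr fun s hs => ?_
    have : pr f s = Y s := by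
      rw [pr_of_zero f s (U := B) fun x hx => Mdl.W_ne_zero hs fun h' =>
        hx (Finset.mem_of_mem_erase h'), hY]
      exact (Finset.sum_coe_sort B fun x => f x * (s x : ℝ)).symm
    rw [this, pow_two]
  rw [← k1, k, ← k2, qf_eq h hμ hr hW, mul_comm]
  exact cs (zz_l2 h hμ hr hW b) lU

omit h hμ hr hW in
theorem clamp_pt {N : ℝ} (hN : 0 < N) (z t : ℝ) :
    t * (z - N * max (-1) (min 1 (z / N))) ≤ (6 * z ^ 2 + t ^ 4 / 640) / Real.sqrt N := by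
  have hs := Real.sqrt_pos.2 hN
  have e := Real.mul_self_sqrt hN.le
  rw [le_div_iff₀ hs]
  by_cases hz : |z| ≤ N
  · have h1 : z / N ≤ 1 := (div_le_one hN).2 ((le_abs_self z).trans hz)
    have h2 : -1 ≤ z / N := by rw [le_div_iff₀ hN]; linarith [neg_abs_le z]
    rw [min_eq_right h1, max_eq_right h2, mul_div_cancel₀ _ hN.ne', sub_self]
    have : 0 ≤ 6 * z ^ 2 + t ^ 4 / 640 := by positivity
    simpa using this
  · have hz' : N < |z| := not_le.1 hz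
    have h1 : |z - N * max (-1) (min 1 (z / N))| ≤ |z| := by
      rcases le_total 0 z with h0 | h0
      · rw [abs_of_nonneg h0] at hz' ⊢
        rw [min_eq_left ((one_le_div hN).2 hz'.le), max_eq_right (by norm_num), abs_le]
        constructor <;> linarith
      · rw [abs_of_nonpos h0] at hz' ⊢
        have : z / N ≤ -1 := by rw [div_le_iff₀ hN]; linarith
        rw [min_eq_right (by linarith), max_eq_left this, abs_le]
        constructor <;> linarith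
    have h2 : t * (z - N * max (-1) (min 1 (z / N))) ≤ |t| * |z| :=
      (le_abs_self _).trans (by rw [abs_mul]; exact mul_le_mul_of_nonneg_left h1 (abs_nonneg t))
    refine (mul_le_mul_of_nonneg_right h2 hs.le).trans ?_
    rw [← sq_abs z, ← Even.pow_abs (by decide : Even 4) t]
    generalize |z| = y at hz'
    generalize |t| = u
    generalize Real.sqrt N = n at hs e
    subst e
    have hy : 0 < y := lt_trans (mul_pos hs hs) hz'
    have a1 : n * u ≤ 5 * (n * n) + u ^ 2 / 20 := by nlinarith [sq_nonneg (10 * n - u)]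
    have a2 : y * u ^ 2 ≤ 8 * y ^ 2 + u ^ 4 / 32 := by nlinarith [sq_nonneg (16 * y - u ^ 2)]
    nlinarith [mul_le_mul_of_nonneg_left a1 hy.le, mul_le_mul_of_nonneg_left hz'.le hy.le]

theorem dual (hC : Cen ((Λ.Nr B r).W 0)) (m T : Pt → ℝ) {ε A N : ℝ} (hN : 0 < N) (hA : 0 ≤ A)
    (hG : ∀ G : (B → ℝ) → ℝ, Per G → |E2 ((Λ.Nr B r).W 0) B fun s ξ =>
      res μ m (pr T) s ξ * G (obs μ (fun z => (s z : ℝ)) ξ)| ≤ ε)
    (h2 : μ * ip B m m ≤ A) (h4 : Ex ((Λ.Nr B r).W 0) (fun s => pr T s ^ 4) ≤ A ^ 2) :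
    qf (JJ Λ B r μ) m ≤ N * ε + 4 * (A + 1) ^ 2 / Real.sqrt N +
      Real.sqrt (qf (JJ Λ B r μ) m) * Real.sqrt (Vr ((Λ.Nr B r).W 0) (pr T) (pr T)) := by
  haveI := PP_prob hW B
  set a : B → ℝ := fun x => m x with ha
  set P := PP ((Λ.Nr B r).W 0) B with hP
  have tT : Tame fun s : Cfg Pt => pr T s := Tame.hom _
  have lZ := zz_l2 h hμ hr hW a
  have lX := xi_l2 hW (Real.sqrt μ) a
  have lT : MemLp (fun p => pr T p.1) 2 P := fst_l2 hW (hC.ig (tT.pow 2))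
  set R : Cfg Pt × (B → ℝ) → ℝ := fun p => Real.sqrt μ * (a ⬝ᵥ p.2) - pr T p.1 with hR
  have lR : MemLp R 2 P := lX.sub lT
  have mR : Measurable R := (xi_meas _ a).sub (fst_meas fun s => pr T s)
  set Φ : (B → ℝ) → ℝ := fun ψ => max (-1) (min 1 (zz Λ μ a ψ / N)) with hΦ
  have mΦ : Measurable Φ :=
    measurable_const.max (measurable_const.min ((zz_meas h hμ a).div_const N))
  have bΦ : ∀ ψ, |Φ ψ| ≤ 1 := fun ψ =>
    abs_le.2 ⟨le_max_left _ _, max_le (by norm_num) (min_le_left _ _)⟩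
  have pΦ : Per Φ := ⟨mΦ, bΦ, fun ψ => by
    have : (fun x => ψ x + 1) = sh 1 ψ := funext fun x => by simp [sh_apply]
    simp only [hΦ, this, zz_shift h hμ]⟩
  have lΦ : MemLp (fun p => Φ (ob μ p)) 2 P :=
    MemLp.of_bound (mΦ.comp (meas_ob μ)).aestronglyMeasurable 1
      (Filter.Eventually.of_forall fun p => bΦ _)
  have g1 : |∫ p, R p * Φ (ob μ p) ∂P| ≤ ε := by
    have := hG Φ pΦ
    rwa [E2_eq hW (imul lR lΦ)] at this
  have q1 := qf_eq h hμ hr hW m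
  have qA : ∫ p, zz Λ μ a (ob μ p) ^ 2 ∂P ≤ A :=
    (zz_sq h hμ hr hW a).trans (by rwa [dot_ip])
  have k := key h hμ hr hW a (zz_meas h hμ a) (zz_shift h hμ a) lZ
  -- fourth moment of the residual
  have i4X := xi_int hW (Real.sqrt μ) a 4
  have i4T : Integrable (fun p => pr T p.1 ^ 4) P := int_fst hW (hC.ig (tT.pow 4))
  have p4 : ∀ p, R p ^ 4 ≤ 8 * ((Real.sqrt μ * (a ⬝ᵥ p.2)) ^ 4 + pr T p.1 ^ 4) := fun p => by
    simp only [hR]
    generalize Real.sqrt μ * (a ⬝ᵥ p.2) = x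
    generalize pr T p.1 = y
    nlinarith [sq_nonneg (x + y), sq_nonneg (x ^ 2 - y ^ 2), sq_nonneg (x - y),
      mul_nonneg (sq_nonneg (x + y)) (sq_nonneg (x - y)), sq_nonneg ((x + y) ^ 2),
      sq_nonneg (x ^ 2 + y ^ 2)]
  have i4 : Integrable (fun p => R p ^ 4) P :=
    ((i4X.add i4T).const_mul 8).mono' (mR.pow_const 4).aestronglyMeasurable
      (Filter.Eventually.of_forall fun p => by
        rw [Real.norm_of_nonneg (by positivity)]; exact p4 p)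
  have e4X : ∫ p, (Real.sqrt μ * (a ⬝ᵥ p.2)) ^ 4 ∂P ≤ 144 * (A + 1) ^ 2 := by
    rw [integral_snd hW fun ξ => (Real.sqrt μ * (a ⬝ᵥ ξ)) ^ 4]
    have := dot_four (Real.sqrt μ • a) (v := A + 1) (by linarith) (by
      rw [smul_dotProduct, dotProduct_smul, smul_eq_mul, smul_eq_mul, ← mul_assoc,
        Real.mul_self_sqrt hμ.le, dot_ip]; linarith)
    simpa only [smul_dotProduct, smul_eq_mul] using this
  have e4 : ∫ p, R p ^ 4 ∂P ≤ 1160 * (A + 1) ^ 2 := by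
    refine (integral_mono i4 ((i4X.add i4T).const_mul 8) p4).trans ?_
    rw [integral_const_mul]
    simp only [Pi.add_apply]
    rw [integral_add i4X i4T, integral_fst hW fun s => pr T s ^ 4]
    nlinarith
  have g2 : ∫ p, R p * (zz Λ μ a (ob μ p) - N * Φ (ob μ p)) ∂P ≤ 4 * (A + 1) ^ 2 / Real.sqrt N := by
    have i1 := lZ.integrable_sq.const_mul 6
    have i2 := i4.div_const 640
    refine (integral_mono (imul lR (lZ.sub (lΦ.const_mul N))) ((i1.add i2).div_const _)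
      fun p => clamp_pt hN _ _).trans ?_
    rw [integral_div]
    simp only [Pi.add_apply]
    rw [integral_add i1 i2, integral_const_mul, integral_div]
    refine div_le_div_of_nonneg_right ?_ (Real.sqrt_nonneg N)
    nlinarith [sq_nonneg (A - 1)]
  have g3 : ∫ p, zz Λ μ a (ob μ p) * pr T p.1 ∂P ≤
      Real.sqrt (qf (JJ Λ B r μ) m) * Real.sqrt (Vr ((Λ.Nr B r).W 0) (pr T) (pr T)) := by
    have := cs' lZ lT
    rw [integral_fst hW fun s => pr T s ^ 2] at this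
    rw [q1, hC.Vr_eq]
    simpa only [pow_two] using this
  have e : ∀ p : Cfg Pt × (B → ℝ), Real.sqrt μ * (a ⬝ᵥ p.2) * zz Λ μ a (ob μ p) =
      N * (R p * Φ (ob μ p)) + R p * (zz Λ μ a (ob μ p) - N * Φ (ob μ p)) +
        zz Λ μ a (ob μ p) * pr T p.1 := fun p => by simp only [hR]; ring
  have j1 := (imul lR lΦ).const_mul N
  have j2 : Integrable (fun p => R p * (zz Λ μ a (ob μ p) - N * Φ (ob μ p))) P :=
    imul lR (lZ.sub (lΦ.const_mul N))
  simp only [e] at k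
  rw [← hP, add3 j1 j2 (imul lZ lT), integral_const_mul] at k
  have k' : qf (JJ Λ B r μ) m = ∫ p, zz Λ μ a (ob μ p) * zz Λ μ a (ob μ p) ∂P := by
    rw [q1]; simp only [pow_two, ha, hP]
  have := mul_le_mul_of_nonneg_left ((le_abs_self _).trans g1) hN.le
  linarith

end main

end J88

theorem jStmt : JStmt := fun Λ L μ h hL hμ => by
  have hr : (0 : Pt) ∈ sq 0 L := self_mem_sq 0 hL
  have hC : Cen ((Λ.Nr (sq 0 L) 0).W 0) := (h.ctr_Nr _ _).cen (h.anch_Nr hr)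
  exact ⟨J88.ker h hμ hr hC.wt, J88.cr h hμ hr hC.wt hC,
    fun m T ε A N hN hA _ hG h2 h4 => J88.dual h hμ hr hC.wt hC m T hN hA hG h2 h4⟩

end Crest.Agent.T145
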