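import Crest.Agent.T145.ExplU_56
import Crest.Agent.T145.ApiC_98

/-!
# Row 145, layer 2: `Dep`, `DepG`, `Out` and the conditional expectation `Mdl.cE` (helper56)
-/

set_option autoImplicit false
set_option linter.unusedSectionVars false

namespace Crest.Agent.T145

open Finset

section dep
variable {V : Type*} {β γ δ : Type*} {S S' : Finset V} {F : Cfg V → β} {G : Cfg V → γ}

/-- `F` depends only on the heights off `B` -/
def Out (B : Finset V) (F : Cfg V → β) : Prop := ∀ s s', (∀ x, x ∉ B → s x = s' x) → F s = F s'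

theorem Dep.mono (h : Dep S F) (hS : S ⊆ S') : Dep S' F := fun s s' e =>
  h s s' fun x hx => e x (hS hx)
theorem Dep.const (S : Finset V) (c : β) : Dep S fun _ => c := fun _ _ _ => rfl
theorem Dep.comp (h : Dep S F) (g : β → γ) : Dep S fun s => g (F s) := fun s s' e => by
  simp only [h s s' e]
theorem Dep.comp₂ (h : Dep S F) (h' : Dep S G) (g : β → γ → δ) :
    Dep S fun s => g (F s) (G s) := fun s s' e => by simp only [h s s' e, h' s s' e]
theorem Dep.mul {F G : Cfg V → ℝ} (h : Dep S F) (h' : Dep S G) : Dep S fun s => F s * G s :=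
  h.comp₂ h' (· * ·)
theorem Dep.add {F G : Cfg V → ℝ} (h : Dep S F) (h' : Dep S G) : Dep S fun s => F s + G s :=
  h.comp₂ h' (· + ·)
theorem Dep.sub {F G : Cfg V → ℝ} (h : Dep S F) (h' : Dep S G) : Dep S fun s => F s - G s :=
  h.comp₂ h' (· - ·)
theorem Dep.sum {ι : Type*} {T : Finset ι} {F : ι → Cfg V → ℝ} (h : ∀ i ∈ T, Dep S (F i)) :
    Dep S fun s => ∑ i ∈ T, F i s := fun s s' e => Finset.sum_congr rfl fun i hi => h i hi s s' e
theorem Dep.prod {ι : Type*} {T : Finset ι} {F : ι → Cfg V → ℝ} (h : ∀ i ∈ T, Dep S (F i)) :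
    Dep S fun s => ∏ i ∈ T, F i s := fun s s' e => Finset.prod_congr rfl fun i hi => h i hi s s' e
theorem Dep.ev {x : V} (hx : x ∈ S) : Dep S fun s => s x := fun _ _ e => e x hx
theorem Dep.dE {e : V × V} (h1 : e.1 ∈ S) (h2 : e.2 ∈ S) : Dep S (dE e) := fun _ _ h => by
  simp only [T145.dE, h _ h1, h _ h2]
theorem Dep.out {B : Finset V} (h : Dep S F) (hd : Disjoint S B) : Out B F := fun s s' e =>
  h s s' fun x hx => e x (Finset.disjoint_left.1 hd hx)

theorem Out.mono {B B' : Finset V} (h : Out B F) (hB : B' ⊆ B) : Out B' F := fun s s' e =>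
  h s s' fun x hx => e x fun hx' => hx (hB hx')
theorem Out.const (B : Finset V) (c : β) : Out B fun _ => c := fun _ _ _ => rfl
theorem Out.comp {B : Finset V} (h : Out B F) (g : β → γ) : Out B fun s => g (F s) :=
  fun s s' e => by simp only [h s s' e]
theorem Out.comp₂ {B : Finset V} (h : Out B F) (h' : Out B G) (g : β → γ → δ) :
    Out B fun s => g (F s) (G s) := fun s s' e => by simp only [h s s' e, h' s s' e]
theorem Out.mul {B : Finset V} {F G : Cfg V → ℝ} (h : Out B F) (h' : Out B G) :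
    Out B fun s => F s * G s := h.comp₂ h' (· * ·)
theorem Out.prod {B : Finset V} {ι : Type*} {T : Finset ι} {F : ι → Cfg V → ℝ}
    (h : ∀ i ∈ T, Out B (F i)) : Out B fun s => ∏ i ∈ T, F i s := fun s s' e =>
  Finset.prod_congr rfl fun i hi => h i hi s s' e

theorem DepG.dep (h : DepG S F) : Dep S F := fun s s' e =>
  h s s' 0 fun x hx => by rw [e x hx, add_zero]
theorem DepG.mono (h : DepG S F) (hS : S ⊆ S') : DepG S' F := fun s s' k e =>
  h s s' k fun x hx => e x (hS hx)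
theorem DepG.const (S : Finset V) (c : β) : DepG S fun _ => c := fun _ _ _ _ => rfl
theorem DepG.comp (h : DepG S F) (g : β → γ) : DepG S fun s => g (F s) := fun s s' k e => by
  simp only [h s s' k e]
theorem DepG.comp₂ (h : DepG S F) (h' : DepG S G) (g : β → γ → δ) :
    DepG S fun s => g (F s) (G s) := fun s s' k e => by simp only [h s s' k e, h' s s' k e]
theorem DepG.mul {F G : Cfg V → ℝ} (h : DepG S F) (h' : DepG S G) : DepG S fun s => F s * G s :=
  h.comp₂ h' (· * ·)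
theorem DepG.add {F G : Cfg V → ℝ} (h : DepG S F) (h' : DepG S G) : DepG S fun s => F s + G s :=
  h.comp₂ h' (· + ·)
theorem DepG.sub {F G : Cfg V → ℝ} (h : DepG S F) (h' : DepG S G) : DepG S fun s => F s - G s :=
  h.comp₂ h' (· - ·)
theorem DepG.sum {ι : Type*} {T : Finset ι} {F : ι → Cfg V → ℝ} (h : ∀ i ∈ T, DepG S (F i)) :
    DepG S fun s => ∑ i ∈ T, F i s := fun s s' k e =>
  Finset.sum_congr rfl fun i hi => h i hi s s' k e
theorem DepG.prod {ι : Type*} {T : Finset ι} {F : ι → Cfg V → ℝ} (h : ∀ i ∈ T, DepG S (F i)) :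
    DepG S fun s => ∏ i ∈ T, F i s := fun s s' k e =>
  Finset.prod_congr rfl fun i hi => h i hi s s' k e
theorem DepG.dE {e : V × V} (h1 : e.1 ∈ S) (h2 : e.2 ∈ S) : DepG S (dE e) := fun _ _ _ h => by
  simp only [T145.dE, h _ h1, h _ h2]; ring
theorem DepG.diff {x y : V} (hx : x ∈ S) (hy : y ∈ S) : DepG S fun s => s x - s y :=
  fun _ _ _ h => by simp only [h _ hx, h _ hy]; ring

variable [DecidableEq V]

theorem Dep.pr {f : V → ℝ} (hf : ∀ x, x ∉ S → f x = 0) : Dep S fun s => pr f s := fun s s' e => by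
  simp only [pr_of_fsupp f _ hf]
  exact Finset.sum_congr rfl fun x hx => by rw [e x hx]
theorem DepG.pr {f : V → ℝ} (hf : ∀ x, x ∉ S → f x = 0) (h0 : ∑ x ∈ S, f x = 0) :
    DepG S fun s => pr f s := fun s s' k e => by
  simp only [pr_of_fsupp f _ hf]
  have : ∑ x ∈ S, f x * (s' x : ℝ) = ∑ x ∈ S, f x * (s x : ℝ) + (∑ x ∈ S, f x) * k := by
    rw [Finset.sum_mul, ← Finset.sum_add_distrib]
    exact Finset.sum_congr rfl fun x hx => by rw [e x hx]; push_cast; ring
  rw [this, h0]; ring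
theorem DepG.shift (h : DepG S F) {U : Finset V} (hU : S ⊆ U) (s : Cfg V) (k : ℤ) :
    F (s + cst U k) = F s :=
  (h s _ k fun x hx => by rw [Finsupp.add_apply, cst_of_mem k (hU hx)]).symm
theorem Dep.pw (h : Dep S F) {U : Finset V} (hU : S ⊆ U) (s t : Cfg V) : F (pw U s t) = F s :=
  h _ _ fun _ hx => pw_of_mem s t (hU hx)
theorem Out.pw {B : Finset V} (h : Out B F) (s t : Cfg V) : F (pw B s t) = F t :=
  h _ _ fun _ hx => pw_of_notMem s t hx

end dep

namespace Mdl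
variable {V : Type*} [DecidableEq V] {m : Mdl V} {B : Finset V} {F G H U : Cfg V → ℝ}

/-- the edges meeting `B` -/
def edM (m : Mdl V) (B : Finset V) : Finset (V × V) := m.ed.filter fun e => e.1 ∈ B ∨ e.2 ∈ B

/-- the outer boundary of `B` along the edges -/
def bd (m : Mdl V) (B : Finset V) : Finset V :=
  ((m.edM B).image Prod.fst ∪ (m.edM B).image Prod.snd) \ B

/-- the local model of `B`: free sites `B`, only the edges meeting `B` -/
def loc (m : Mdl V) (B : Finset V) : Mdl V := (m.keep (m.edM B)).free B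

/-- weight of the edges that do not meet `B` -/
noncomputable def far (m : Mdl V) (B : Finset V) (s : Cfg V) : ℝ :=
  ∏ e ∈ m.ed.filter (fun e => ¬ (e.1 ∈ B ∨ e.2 ∈ B)), m.w e (dE e s)

theorem mem_edM {e : V × V} : e ∈ m.edM B ↔ e ∈ m.ed ∧ (e.1 ∈ B ∨ e.2 ∈ B) := Finset.mem_filter

theorem mem_bd {x : V} : x ∈ m.bd B ↔
    x ∉ B ∧ ∃ e ∈ m.ed, (e.1 = x ∧ e.2 ∈ B) ∨ (e.2 = x ∧ e.1 ∈ B) := by
  simp only [bd, Finset.mem_sdiff, Finset.mem_union, Finset.mem_image, mem_edM]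
  constructor
  · rintro ⟨⟨e, ⟨he, h⟩, rfl⟩ | ⟨e, ⟨he, h⟩, rfl⟩, hx⟩
    · exact ⟨hx, e, he, Or.inl ⟨rfl, h.resolve_left hx⟩⟩
    · exact ⟨hx, e, he, Or.inr ⟨rfl, h.resolve_right hx⟩⟩
  · rintro ⟨hx, e, he, ⟨rfl, h⟩ | ⟨rfl, h⟩⟩
    · exact ⟨Or.inl ⟨e, ⟨he, Or.inr h⟩, rfl⟩, hx⟩
    · exact ⟨Or.inr ⟨e, ⟨he, Or.inl h⟩, rfl⟩, hx⟩


theorem ends_of_edM {e : V × V} (he : e ∈ m.edM B) :
    (e.1 ∈ B ∨ e.1 ∈ m.bd B) ∧ (e.2 ∈ B ∨ e.2 ∈ m.bd B) := by
  obtain ⟨h1, h2⟩ := mem_edM.1 he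
  refine ⟨or_iff_not_imp_left.2 fun h => ?_, or_iff_not_imp_left.2 fun h => ?_⟩
  · exact mem_bd.2 ⟨h, e, h1, Or.inl ⟨rfl, h2.resolve_left h⟩⟩
  · exact mem_bd.2 ⟨h, e, h1, Or.inr ⟨rfl, h2.resolve_right h⟩⟩

theorem W_free_loc (m : Mdl V) (B : Finset V) (s t : Cfg V) :
    (m.free B).W s t = m.far B s * (m.loc B).W s t := by
  by_cases h : ∀ x, x ∉ B → t x = s x
  · simp only [W, free, loc, keep, far, edM]
    rw [← Finset.prod_filter_mul_prod_filter_not m.ed (fun e => e.1 ∈ B ∨ e.2 ∈ B)]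
    have : ∏ e ∈ m.ed.filter (fun e => ¬ (e.1 ∈ B ∨ e.2 ∈ B)), m.w e (dE e t) =
        ∏ e ∈ m.ed.filter (fun e => ¬ (e.1 ∈ B ∨ e.2 ∈ B)), m.w e (dE e s) :=
      Finset.prod_congr rfl fun e he => by
        have := not_or.1 (Finset.mem_filter.1 he).2
        rw [Md.dE_congr (h _ this.1) (h _ this.2)]
    rw [this]; ring
  · simp only [W, free, loc, keep]
    rw [ind_neg h]; ring

theorem far_ne (hw : ∀ e ∈ m.ed, ∀ k, m.w e k ≠ 0) (B : Finset V) (s : Cfg V) : m.far B s ≠ 0 :=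
  Finset.prod_ne_zero_iff.2 fun e he => hw e (Finset.mem_filter.1 he).1 _

theorem far_pos (hw : ∀ e ∈ m.ed, ∀ k, 0 < m.w e k) (B : Finset V) (s : Cfg V) : 0 < m.far B s :=
  Finset.prod_pos fun e he => hw e (Finset.mem_filter.1 he).1 _

theorem cE_def (m : Mdl V) (B : Finset V) (F : Cfg V → ℝ) (s : Cfg V) :
    m.cE B F s = Ex ((m.free B).W s) F := rfl


theorem cE_self (m : Mdl V) (F : Cfg V → ℝ) (η : Cfg V) : m.cE m.A F η = Ex (m.W η) F := rfl

/-- only the edges meeting `B` matter -/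
theorem cE_loc (hw : ∀ e ∈ m.ed, ∀ k, m.w e k ≠ 0) (B : Finset V) (F : Cfg V → ℝ) (s : Cfg V) :
    m.cE B F s = Ex ((m.loc B).W s) F := by
  rw [cE_def, ← Ex_smul ((m.loc B).W s) F (far_ne hw B s)]
  congr 1
  exact funext fun t => W_free_loc m B s t

theorem ig_loc (hw : ∀ e ∈ m.ed, ∀ k, m.w e k ≠ 0) (B : Finset V) (F : Cfg V → ℝ) (s : Cfg V) :
    Ig ((m.free B).W s) F ↔ Ig ((m.loc B).W s) F := by
  rw [← ig_smul_iff (W := (m.loc B).W s) (far_ne hw B s)]
  exact Iff.of_eq (congrArg (Ig · F) (funext fun t => W_free_loc m B s t))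

theorem wt_loc (hw : ∀ e ∈ m.ed, ∀ k, 0 < m.w e k) (B : Finset V) (s : Cfg V) :
    Wt ((m.free B).W s) ↔ Wt ((m.loc B).W s) := by
  have e : (m.free B).W s = fun t => m.far B s * (m.loc B).W s t :=
    funext fun t => W_free_loc m B s t
  refine ⟨fun h => ?_, fun h => e ▸ h.smul (far_pos hw B s)⟩
  have := h.smul (inv_pos.2 (far_pos hw B s))
  simp only [e, ← mul_assoc, inv_mul_cancel₀ (far_pos hw B s).ne', one_mul] at this
  exact this

/-- two models that agree near `B` have the same local model weight -/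
theorem W_loc_congr {m' : Mdl V} (hE : m.edM B = m'.edM B) (hw : ∀ e ∈ m.edM B, m.w e = m'.w e)
    (hs : ∀ x ∈ B, m.site x = m'.site x) (s : Cfg V) : (m.loc B).W s = (m'.loc B).W s := by
  funext t
  simp only [W, free, loc, keep, ← hE]
  rw [Finset.prod_congr rfl fun e he => by rw [hw e he],
    Finset.prod_congr (s₁ := B) rfl fun x hx => by rw [hs x hx]]

theorem cE_congr_mdl {m' : Mdl V} (h0 : ∀ e ∈ m.ed, ∀ k, m.w e k ≠ 0)
    (h0' : ∀ e ∈ m'.ed, ∀ k, m'.w e k ≠ 0) (hE : m.edM B = m'.edM B)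
    (hw : ∀ e ∈ m.edM B, m.w e = m'.w e) (hs : ∀ x ∈ B, m.site x = m'.site x) :
    m.cE B = m'.cE B := by
  funext F s
  rw [cE_loc h0, cE_loc h0', W_loc_congr hE hw hs]

theorem cE_out (m : Mdl V) (B : Finset V) (F : Cfg V → ℝ) : Out B (m.cE B F) := fun s t e => by
  rw [cE_def, cE_def, W_congr (m := m.free B) e]

theorem cE_congr {s : Cfg V} (h : ∀ t : Cfg V, (∀ x, x ∉ B → t x = s x) → F t = G t) :
    m.cE B F s = m.cE B G s := Ex_congr fun t ht => h t (Md.W_off ht)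

theorem cE_out_mul (hH : Out B H) (F : Cfg V → ℝ) (s : Cfg V) :
    m.cE B (fun t => H t * F t) s = H s * m.cE B F s := by
  rw [cE_def, cE_def, ← Ex_const_mul]
  exact Ex_congr fun t ht => by rw [hH t s (Md.W_off ht)]

theorem cE_mul_out (hH : Out B H) (F : Cfg V → ℝ) (s : Cfg V) :
    m.cE B (fun t => F t * H t) s = m.cE B F s * H s := by
  rw [mul_comm, ← cE_out_mul hH]; simp only [mul_comm]

theorem cE_of_out (hH : Out B H) {s : Cfg V} (hW : Wt ((m.free B).W s)) : m.cE B H s = H s := by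
  rw [cE_def, Ex_congr (G := fun _ => H s) fun t ht => hH t s (Md.W_off ht), hW.ex_const]

theorem abs_cE_le {s : Cfg V} (h0 : ∀ t, 0 ≤ (m.free B).W s t) (hF : Ig ((m.free B).W s) F) :
    |m.cE B F s| ≤ m.cE B (fun t => |F t|) s := abs_Ex_le h0 hF

theorem cE_nonneg {s : Cfg V} (h0 : ∀ t, 0 ≤ (m.free B).W s t) (hF : ∀ t, 0 ≤ F t) :
    0 ≤ m.cE B F s := Ex_nonneg h0 fun t _ => hF t

/-- `|cE F| ≤ C` for bounded `F`, with no summability hypothesis -/
theorem abs_cE_le_of_bdd {s : Cfg V} (h0 : ∀ t, 0 ≤ (m.free B).W s t) {C : ℝ}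
    (hF : ∀ t, |F t| ≤ C) : |m.cE B F s| ≤ C := by
  by_cases hz : Zs ((m.free B).W s) = 0
  · rw [cE_def, Ex_def, hz, div_zero, abs_zero]; exact (abs_nonneg _).trans (hF s)
  · have hs : Summable ((m.free B).W s) := by
      by_contra hs
      exact hz (tsum_eq_zero_of_not_summable hs)
    exact Wt.abs_ex_le ⟨h0, hs, lt_of_le_of_ne (Zs_nonneg h0) (Ne.symm hz)⟩ fun t _ => hF t

theorem free_nonneg (hw : ∀ e ∈ m.ed, ∀ k, 0 ≤ m.w e k) (hn : m.Nn) (hB : B ⊆ m.A) (s t : Cfg V) :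
    0 ≤ (m.free B).W s t :=
  W_nonneg (m := m.free B) hw (fun x hx k => hn x (hB hx) k) s t

/-! ### towers -/

theorem fib_eq (hB : B ⊆ m.A) (hU : Out B U) {η s : Cfg V} (hs : m.W η s ≠ 0) (t : Cfg V) :
    ind (∀ x, x ∉ B → t x = s x) * (U t * m.W η t) =
      (U s * ∏ x ∈ m.A \ B, m.site x (s x)) * (m.free B).W s t := by
  rw [mul_assoc, ← Md.W_free hB (Md.W_off hs)]
  by_cases h : ∀ x, x ∉ B → t x = s x
  · rw [hU t s h]; ring
  · rw [ind_neg h]; ring

theorem fib_ne (hB : B ⊆ m.A) {η s : Cfg V} (hs : U s * m.W η s ≠ 0) :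
    U s * ∏ x ∈ m.A \ B, m.site x (s x) ≠ 0 :=
  mul_ne_zero (left_ne_zero_of_mul hs)
    (Md.site_ne hB (right_ne_zero_of_mul (right_ne_zero_of_mul hs)))

/-- almost every fibre integrates an integrable function -/
theorem ig_fib (hB : B ⊆ m.A) (hU : Out B U) {η s : Cfg V} (hs : U s * m.W η s ≠ 0)
    (hF : Ig (fun t => U t * m.W η t) F) : Ig ((m.free B).W s) F := by
  rw [← ig_smul_iff (fib_ne hB hs)]
  refine (Md.summable_ind_mul (fun t : Cfg V => ∀ x, x ∉ B → t x = s x) hF).congr fun t => ?_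
  rw [← mul_assoc, fib_eq hB hU (right_ne_zero_of_mul hs)]

/-- almost every fibre is a weight -/
theorem wt_fib (hB : B ⊆ m.A) (hU : Out B U) {η s : Cfg V} (hs : U s * m.W η s ≠ 0)
    (h0 : ∀ t, 0 ≤ (m.free B).W s t) (hW : Summable fun t => U t * m.W η t) :
    Wt ((m.free B).W s) := by
  have h1 := ig_fib (F := fun _ => 1) hB hU hs (Ig.const hW 1)
  refine Wt.of_pos h0 (by simpa [Ig] using h1) (a := s) (lt_of_le_of_ne (h0 s) (Ne.symm ?_))
  have := fib_eq hB hU (right_ne_zero_of_mul hs) s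
  rw [ind_pos fun _ _ => rfl, one_mul] at this
  rw [this] at hs
  exact right_ne_zero_of_mul hs

theorem ig_fib' (hB : B ⊆ m.A) {η s : Cfg V} (hs : m.W η s ≠ 0) (hF : Ig (m.W η) F) :
    Ig ((m.free B).W s) F :=
  ig_fib (U := fun _ => 1) hB (Out.const B 1) (η := η) (by simpa using hs) (by simpa using hF)

theorem wt_fib' (hB : B ⊆ m.A) {η s : Cfg V} (hs : m.W η s ≠ 0)
    (h0 : ∀ t, 0 ≤ (m.free B).W s t) (hW : Summable (m.W η)) : Wt ((m.free B).W s) :=
  wt_fib (U := fun _ => 1) hB (Out.const B 1) (η := η) (by simpa using hs) h0 (by simpa using hW)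

/-- tower property with an extra weight `U` read off `B` -/
theorem towerU (hB : B ⊆ m.A) (hU : Out B U) {η : Cfg V} (hW : Wt fun s => U s * m.W η s)
    (hF : Ig (fun s => U s * m.W η s) F) :
    Ig (fun s => U s * m.W η s) (m.cE B F) ∧
      Ex (fun s => U s * m.W η s) F = Ex (fun s => U s * m.W η s) (m.cE B F) := by
  refine Md.tower (fun s : Cfg V => s.filter (· ∉ B)) hW.nonneg hW.summ hF fun s hs => ?_
  simp_rw [Md.filter_not_eq_iff, fib_eq hB hU (right_ne_zero_of_mul hs)]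
  rw [Ex_smul _ _ (fib_ne hB hs), cE_def]

theorem towerU_mul (hB : B ⊆ m.A) (hU : Out B U) (hH : Out B H) {η : Cfg V}
    (hW : Wt fun s => U s * m.W η s) (hF : Ig (fun s => U s * m.W η s) fun s => H s * F s) :
    Ig (fun s => U s * m.W η s) (fun s => H s * m.cE B F s) ∧
      Ex (fun s => U s * m.W η s) (fun s => H s * F s) =
        Ex (fun s => U s * m.W η s) fun s => H s * m.cE B F s := by
  have := towerU hB hU hW hF
  rwa [show m.cE B (fun s => H s * F s) = fun s => H s * m.cE B F s from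
    funext fun s => cE_out_mul hH F s] at this

theorem tower_cE (hB : B ⊆ m.A) {η : Cfg V} (hW : Wt (m.W η)) (hF : Ig (m.W η) F) :
    Ig (m.W η) (m.cE B F) ∧ Ex (m.W η) F = Ex (m.W η) (m.cE B F) := Md.dlr m η hB hW hF

theorem tower_cE_mul (hB : B ⊆ m.A) (hH : Out B H) {η : Cfg V} (hW : Wt (m.W η))
    (hF : Ig (m.W η) fun s => H s * F s) :
    Ig (m.W η) (fun s => H s * m.cE B F s) ∧
      Ex (m.W η) (fun s => H s * F s) = Ex (m.W η) fun s => H s * m.cE B F s :=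
  Md.dlr_mul m η hB hW hH hF

/-- nesting -/
theorem cE_cE {B' : Finset V} (hB : B ⊆ B') {s : Cfg V} (hW : Wt ((m.free B').W s))
    (hF : Ig ((m.free B').W s) F) :
    Ig ((m.free B').W s) (m.cE B F) ∧ m.cE B' (m.cE B F) s = m.cE B' F s :=
  let h := tower_cE (m := m.free B') hB hW hF
  ⟨h.1, h.2.symm⟩

/-! ### covariance under shifts, dependence -/

theorem W_loc_shift {δ : Cfg V} (hs : ∀ x ∈ B, ∀ k, m.site x (k + δ x) = m.site x k)
    (hδ : ∀ e ∈ m.edM B, δ e.1 = δ e.2) (s t : Cfg V) :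
    (m.loc B).W (s + δ) (t + δ) = (m.loc B).W s t := by
  simp only [W, free, loc, keep, Finsupp.add_apply, add_left_inj]
  congr 1
  · congr 1
    refine Finset.prod_congr rfl fun e he => ?_
    congr 1
    simp only [dE, Finsupp.add_apply, hδ e he]; ring
  · exact Finset.prod_congr rfl fun x hx => hs x hx _

theorem cE_shift (hw : ∀ e ∈ m.ed, ∀ k, m.w e k ≠ 0) {δ : Cfg V}
    (hs : ∀ x ∈ B, ∀ k, m.site x (k + δ x) = m.site x k) (hδ : ∀ e ∈ m.edM B, δ e.1 = δ e.2)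
    (F : Cfg V → ℝ) (s : Cfg V) : m.cE B F (s + δ) = m.cE B (fun t => F (t + δ)) s := by
  rw [cE_loc hw, cE_loc hw, ← Md.ex_equiv (Equiv.addRight δ)]
  simp only [Equiv.coe_addRight, W_loc_shift hs hδ]



/-- master form: `s' = s + h` on the boundary of `B`; the observable is moved by the same shift -/
theorem cE_of_bd (hw : ∀ e ∈ m.ed, ∀ k, m.w e k ≠ 0) {h : ℤ}
    (hs : ∀ x ∈ B, ∀ k, m.site x (k + h) = m.site x k) {s s' : Cfg V}
    (hb : ∀ x ∈ m.bd B, s' x = s x + h) (F : Cfg V → ℝ) :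
    m.cE B F s' = m.cE B (fun t => F (pw B (t + cst B h) s')) s := by
  have hd : ∀ x, x ∈ B ∨ x ∈ m.bd B → pw B (cst B h) (s' - s) x = h := by
    rintro x (hx | hx)
    · rw [pw_of_mem _ _ hx, cst_of_mem h hx]
    · rw [pw_of_notMem _ _ (mem_bd.1 hx).1, Finsupp.sub_apply, hb x hx]; ring
  rw [cE_out m B F s' (s + pw B (cst B h) (s' - s)) fun x hx => by
      rw [Finsupp.add_apply, pw_of_notMem _ _ hx, Finsupp.sub_apply]; ring,
    cE_shift hw (fun x hx k => by rw [hd x (Or.inl hx), hs x hx])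
      fun e he => by rw [hd _ (ends_of_edM he).1, hd _ (ends_of_edM he).2]]
  refine cE_congr fun t ht => ?_
  congr 1
  ext x
  by_cases hx : x ∈ B
  · simp only [Finsupp.add_apply, pw_of_mem _ _ hx]
  · simp only [Finsupp.add_apply, pw_of_notMem _ _ hx, Finsupp.sub_apply, ht x hx]; ring

/-- Markov property: `cE B F` is read on the boundary of `B` and on the support of `F` off `B` -/
theorem cE_dep (hw : ∀ e ∈ m.ed, ∀ k, m.w e k ≠ 0) {T : Finset V} (hF : Dep T F) :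
    Dep (m.bd B ∪ T \ B) (m.cE B F) := fun s s' e => by
  rw [cE_of_bd (h := 0) hw (fun _ _ _ => by rw [add_zero]) (s := s) (s' := s')
    fun x hx => by rw [e x (Finset.mem_union_left _ hx), add_zero]]
  refine cE_congr fun t ht => hF _ _ fun x hx => ?_
  by_cases hB : x ∈ B
  · rw [pw_of_mem _ _ hB, Md.cst_zero, add_zero]
  · rw [pw_of_notMem _ _ hB, ht x hB, e x (Finset.mem_union_right _ (Finset.mem_sdiff.2 ⟨hx, hB⟩))]

/-- gradient version, for shift invariant site weights on `B` -/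
theorem cE_depG (hw : ∀ e ∈ m.ed, ∀ k, m.w e k ≠ 0)
    (hs : ∀ x ∈ B, ∀ k h, m.site x (k + h) = m.site x k) {T : Finset V} (hF : DepG T F) :
    DepG (m.bd B ∪ T \ B) (m.cE B F) := fun s s' h e => by
  rw [cE_of_bd (h := h) hw (fun x hx k => hs x hx k h) (s := s) (s' := s')
    fun x hx => e x (Finset.mem_union_left _ hx)]
  refine cE_congr fun t ht => hF _ _ h fun x hx => ?_
  by_cases hB : x ∈ B
  · rw [pw_of_mem _ _ hB, Finsupp.add_apply, cst_of_mem h hB]
  · rw [pw_of_notMem _ _ hB, ht x hB, e x (Finset.mem_union_right _ (Finset.mem_sdiff.2 ⟨hx, hB⟩))]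


theorem cE_depG' (hw : ∀ e ∈ m.ed, ∀ k, m.w e k ≠ 0)
    (hs : ∀ x ∈ B, ∀ k h, m.site x (k + h) = m.site x k) (hF : DepG (B ∪ m.bd B) F) :
    DepG (m.bd B) (m.cE B F) :=
  (cE_depG hw hs hF).mono fun x hx => by
    simp only [Finset.mem_union, Finset.mem_sdiff] at hx; tauto



end Mdl

end Crest.Agent.T145
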