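import Crest.Agent.T145.Def_97
import Crest.Agent.T145.Dens_52
import Crest.Agent.T145.CorB_59

-- ▼ part T145/Det_7
section

/-!
# Row 145, T0 toolbox (helper7): `detStmt : DetStmt` (Hubbard-Stratonovich)
-/

set_option autoImplicit false

namespace Crest.Agent.T145

open Finset MeasureTheory Matrix

namespace Det7

variable {ι : Type} [Fintype ι]

/-- the standard Gaussian density, not normalised -/
noncomputable def g (z : ι → ℝ) : ℝ := Real.exp (-(z ⬝ᵥ z) / 2)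

theorem g_pos (z : ι → ℝ) : 0 < g z := Real.exp_pos _

theorem cexp_eq (x z : ι → ℝ) :
    (Complex.exp (-∑ i, (1 / 2 : ℂ) * (z i : ℂ) ^ 2 + ∑ i, ((x i : ℂ) * Complex.I) * z i)).re =
      g z * Real.cos (z ⬝ᵥ x) := by
  have h : -∑ i, (1 / 2 : ℂ) * (z i : ℂ) ^ 2 + ∑ i, ((x i : ℂ) * Complex.I) * z i =
      ((-(z ⬝ᵥ z) / 2 : ℝ) : ℂ) + ((z ⬝ᵥ x : ℝ) : ℂ) * Complex.I := by
    simp only [dotProduct]
    push_cast
    rw [Finset.sum_mul, neg_div, Finset.sum_div]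
    congr 1
    · congr 1
      exact Finset.sum_congr rfl fun i _ => by ring
    · exact Finset.sum_congr rfl fun i _ => by ring
  rw [h, Complex.exp_re]
  simp [g]

theorem int_cos (x : ι → ℝ) : Integrable fun z : ι → ℝ => g z * Real.cos (z ⬝ᵥ x) := by
  have h := (GaussianFourier.integrable_cexp_neg_sum_mul_add (b := fun _ : ι => (1 / 2 : ℂ))
    (fun _ => by norm_num) fun i => (x i : ℂ) * Complex.I).re
  simpa only [RCLike.re_to_complex, cexp_eq] using h

theorem int_g : Integrable fun z : ι → ℝ => g z := by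
  simpa using int_cos (0 : ι → ℝ)

theorem integral_gcos' (x : ι → ℝ) : ∫ z : ι → ℝ, g z * Real.cos (z ⬝ᵥ x) =
    (∏ _i : ι, ((Real.pi : ℂ) / (1 / 2)) ^ (1 / 2 : ℂ)).re * Real.exp (-(x ⬝ᵥ x) / 2) := by
  have h := integral_re (GaussianFourier.integrable_cexp_neg_sum_mul_add
    (b := fun _ : ι => (1 / 2 : ℂ)) (fun _ => by norm_num) fun i => (x i : ℂ) * Complex.I)
  simp only [RCLike.re_to_complex, cexp_eq] at h
  rw [h, GaussianFourier.integral_cexp_neg_sum_mul_add (fun _ => by norm_num),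
    Finset.prod_mul_distrib, ← Complex.exp_sum]
  have h2 : ∑ i, ((x i : ℂ) * Complex.I) ^ 2 / (4 * (1 / 2)) = ((-(x ⬝ᵥ x) / 2 : ℝ) : ℂ) := by
    simp only [dotProduct]
    push_cast
    rw [neg_div, Finset.sum_div, ← Finset.sum_neg_distrib]
    refine Finset.sum_congr rfl fun i _ => ?_
    rw [mul_pow, Complex.I_sq]; ring
  rw [h2, ← Complex.ofReal_exp, Complex.re_mul_ofReal]

/-- the normalisation -/
noncomputable def K (ι : Type) [Fintype ι] : ℝ := ∫ z : ι → ℝ, g z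

theorem K_pos : 0 < K ι := integral_exp_pos int_g

theorem integral_gcos (x : ι → ℝ) : ∫ z : ι → ℝ, g z * Real.cos (z ⬝ᵥ x) =
    K ι * Real.exp (-(x ⬝ᵥ x) / 2) := by
  have h := integral_gcos' (0 : ι → ℝ)
  simp only [dotProduct_zero, Real.cos_zero, mul_one, neg_zero, zero_div, Real.exp_zero] at h
  rw [integral_gcos', K, h]

theorem g_exp (x z : ι → ℝ) : g z * Real.exp (z ⬝ᵥ x) = Real.exp (x ⬝ᵥ x / 2) * g (z - x) := by
  unfold g
  rw [← Real.exp_add, ← Real.exp_add]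
  congr 1
  simp only [sub_dotProduct, dotProduct_sub, dotProduct_comm x z]
  ring

theorem int_exp (x : ι → ℝ) : Integrable fun z : ι → ℝ => g z * Real.exp (z ⬝ᵥ x) := by
  simp only [g_exp]
  exact (int_g.comp_sub_right x).const_mul _

theorem integral_gexp (x : ι → ℝ) : ∫ z : ι → ℝ, g z * Real.exp (z ⬝ᵥ x) =
    K ι * Real.exp (x ⬝ᵥ x / 2) := by
  simp only [g_exp]
  rw [integral_const_mul, integral_sub_right_eq_self (fun z => g z) x, mul_comm, K]

variable [DecidableEq ι]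

open scoped MatrixOrder in
/-- the Gaussian integral of a positive definite form -/
theorem gauss {A : Matrix ι ι ℝ} (hA : A.PosDef) :
    Integrable (fun z : ι → ℝ => Real.exp (-(z ⬝ᵥ A.mulVec z) / 2)) ∧
      ∫ z : ι → ℝ, Real.exp (-(z ⬝ᵥ A.mulVec z) / 2) = K ι / Real.sqrt A.det := by
  obtain ⟨B, rfl⟩ := CStarAlgebra.nonneg_iff_eq_star_mul_self.mp hA.posSemidef.nonneg
  have hd : (star B * B).det = B.det ^ 2 := by
    rw [det_mul, star_eq_conjTranspose, det_conjTranspose, star_trivial, sq]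
  have hB : B.det ≠ 0 := by
    intro h
    have := hA.det_pos
    rw [hd, h] at this
    simp at this
  have he : ∀ z : ι → ℝ, Real.exp (-(z ⬝ᵥ (star B * B).mulVec z) / 2) = g (toLin' B z) := by
    intro z
    unfold g
    rw [toLin'_apply, ← mulVec_mulVec, dotProduct_mulVec, star_eq_conjTranspose,
      conjTranspose_eq_transpose_of_trivial, vecMul_transpose]
  have hm := Real.map_matrix_volume_pi_eq_smul_volume_pi hB
  have hc : Continuous (g : (ι → ℝ) → ℝ) := by unfold g; fun_prop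
  have hl : Measurable (toLin' B) := (LinearMap.continuous_on_pi _).measurable
  simp only [he]
  constructor
  · have h1 : Integrable g (Measure.map (toLin' B) volume) := by
      rw [hm]; exact int_g.smul_measure ENNReal.ofReal_ne_top
    exact (integrable_map_measure hc.aestronglyMeasurable hl.aemeasurable).1 h1
  · rw [← integral_map hl.aemeasurable hc.aestronglyMeasurable, hm, integral_smul_measure,
      ENNReal.toReal_ofReal (abs_nonneg _), hd, Real.sqrt_sq_eq_abs, abs_inv, smul_eq_mul,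
      div_eq_inv_mul, K]

theorem g_mul (C : Matrix ι ι ℝ) (z : ι → ℝ) :
    Real.exp (-(z ⬝ᵥ (1 + C).mulVec z) / 2) = g z * Real.exp (-(z ⬝ᵥ C.mulVec z) / 2) := by
  unfold g
  rw [← Real.exp_add, add_mulVec, one_mulVec, dotProduct_add]
  congr 1; ring

theorem g_mul' (C : Matrix ι ι ℝ) (z : ι → ℝ) :
    Real.exp (-(z ⬝ᵥ (1 - C).mulVec z) / 2) = g z * Real.exp ((z ⬝ᵥ C.mulVec z) / 2) := by
  unfold g
  rw [← Real.exp_add, sub_mulVec, one_mulVec, dotProduct_sub]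
  congr 1; ring

omit [DecidableEq ι] in
theorem lin_apply {L : Type} [AddCommGroup L] (ℓ : ι → L →+ ℝ) (z : ι → ℝ) (s : L) :
    (∑ j, z j • ℓ j) s = z ⬝ᵥ fun j => ℓ j s := by
  rw [AddMonoidHom.finsetSum_apply]; rfl

omit [DecidableEq ι] in
theorem gq_eq {L : Type} [AddCommGroup L] (ℓ : ι → L →+ ℝ) (s : L) :
    gq univ ℓ s = Real.exp (-((fun j => ℓ j s) ⬝ᵥ fun j => ℓ j s) / 2) := by
  simp only [gq, dotProduct, sq]

end Det7

open Det7 in
/-- determinant bounds for Gaussian observables -/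
theorem detStmt : DetStmt := by
  intro L ι _ _ _ W ℓ C hW hC
  have hK := K_pos (ι := ι)
  have hZ := hW.pos
  have hE : ∀ F : L → ℝ, Ex W F = (∑' s, W s * F s) / Zs W := fun _ => rfl
  have hb : ∀ F : L → ℝ, (∀ s, |F s| ≤ 1) → Summable fun s => W s * F s := fun F hF =>
    Summable.of_norm_bounded hW.summ fun s => by
      rw [norm_mul, Real.norm_of_nonneg (hW.nonneg s)]
      exact mul_le_of_le_one_right (hW.nonneg s) (hF s)
  constructor
  · intro h
    obtain ⟨h1, h2⟩ := gauss (Matrix.PosDef.one.add_posSemidef hC)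
    simp only [g_mul] at h1 h2
    have hq : ∀ s, |gq univ ℓ s| ≤ 1 := fun s => by
      rw [gq, abs_of_pos (Real.exp_pos _), Real.exp_le_one_iff, neg_div, neg_nonpos]
      positivity
    have h3 : ∀ T : Finset L, ∑ s ∈ T, (W s - W s * gq univ ℓ s) ≤
        Zs W - Zs W / Real.sqrt (1 + C).det := by
      intro T
      refine le_of_mul_le_mul_left ?_ hK
      have e1 : K ι * ∑ s ∈ T, (W s - W s * gq univ ℓ s) =
          ∫ z : ι → ℝ, ∑ s ∈ T, W s * (g z - g z * Real.cos (z ⬝ᵥ fun j => ℓ j s)) := by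
        rw [integral_finsetSum (f := fun s z => W s * (g z - g z * Real.cos (z ⬝ᵥ fun j => ℓ j s)))
          _ fun s _ => (int_g.sub (int_cos _)).const_mul _, Finset.mul_sum]
        refine Finset.sum_congr rfl fun s _ => ?_
        rw [integral_const_mul, integral_sub int_g (int_cos _), integral_gcos, gq_eq, ← K]
        ring
      have e2 : K ι * (Zs W - Zs W / Real.sqrt (1 + C).det) =
          ∫ z : ι → ℝ, Zs W * (g z - g z * Real.exp (-(z ⬝ᵥ C.mulVec z) / 2)) := by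
        rw [integral_const_mul, integral_sub int_g h1, h2, ← K]
        ring
      rw [e1, e2]
      refine integral_mono (integrable_finsetSum _ fun s _ =>
        (int_g.sub (int_cos _)).const_mul _) ((int_g.sub h1).const_mul _) fun z => ?_
      have h4 := h z
      have hs := hb (fun s => Real.cos ((∑ j, z j • ℓ j) s)) fun s => Real.abs_cos_le_one _
      rw [Ph, hE, le_div_iff₀ hZ] at h4
      have h5 : ∑ s ∈ T, (W s - W s * Real.cos ((∑ j, z j • ℓ j) s)) ≤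
          Zs W - ∑' s, W s * Real.cos ((∑ j, z j • ℓ j) s) := by
        rw [Zs, ← hW.summ.tsum_sub hs]
        exact (hW.summ.sub hs).sum_le_tsum T fun s _ => sub_nonneg.2
          (mul_le_of_le_one_right (hW.nonneg s) (Real.cos_le_one _))
      simp only [lin_apply] at h4 h5
      calc ∑ s ∈ T, W s * (g z - g z * Real.cos (z ⬝ᵥ fun j => ℓ j s))
          = g z * ∑ s ∈ T, (W s - W s * Real.cos (z ⬝ᵥ fun j => ℓ j s)) := by
            rw [Finset.mul_sum]; exact Finset.sum_congr rfl fun s _ => by ring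
        _ ≤ g z * (Zs W - Real.exp (-(z ⬝ᵥ C.mulVec z) / 2) * Zs W) :=
            mul_le_mul_of_nonneg_left (h5.trans (sub_le_sub_left h4 _)) (g_pos z).le
        _ = _ := by ring
    have h6 := (hW.summ.sub (hb _ hq)).tsum_le_of_sum_le h3
    rw [hW.summ.tsum_sub (hb _ hq)] at h6
    rw [hE, le_div_iff₀ hZ]
    change Zs W - _ ≤ _ at h6
    rw [one_div_mul_eq_div]
    linarith
  · intro hse hp h
    obtain ⟨h1, h2⟩ := gauss hp
    simp only [g_mul'] at h1 h2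
    have h0 : ∀ s, 0 ≤ W s * (gq univ ℓ s)⁻¹ := fun s =>
      mul_nonneg (hW.nonneg s) (inv_nonneg.2 (Real.exp_pos _).le)
    have h3 : ∀ T : Finset L, ∑ s ∈ T, W s * (gq univ ℓ s)⁻¹ ≤ Zs W / Real.sqrt (1 - C).det := by
      intro T
      refine le_of_mul_le_mul_left ?_ hK
      have e1 : K ι * ∑ s ∈ T, W s * (gq univ ℓ s)⁻¹ =
          ∫ z : ι → ℝ, ∑ s ∈ T, W s * (g z * Real.exp (z ⬝ᵥ fun j => ℓ j s)) := by
        rw [integral_finsetSum _ fun s _ => (int_exp _).const_mul _, Finset.mul_sum]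
        refine Finset.sum_congr rfl fun s _ => ?_
        rw [integral_const_mul, integral_gexp, gq_eq, ← Real.exp_neg, neg_div, neg_neg]
        ring
      have e2 : K ι * (Zs W / Real.sqrt (1 - C).det) =
          ∫ z : ι → ℝ, Zs W * (g z * Real.exp ((z ⬝ᵥ C.mulVec z) / 2)) := by
        rw [integral_const_mul, h2]
        ring
      rw [e1, e2]
      refine integral_mono (integrable_finsetSum _ fun s _ => (int_exp _).const_mul _)
        (h1.const_mul _) fun z => ?_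
      have h4 := (Real.le_exp_log _).trans (Real.exp_le_exp.2 (h z))
      rw [hE, div_le_iff₀ hZ] at h4
      have h5 := (hse (∑ j, z j • ℓ j)).sum_le_tsum T fun s _ =>
        mul_nonneg (hW.nonneg s) (Real.exp_pos _).le
      simp only [lin_apply] at h4 h5
      calc ∑ s ∈ T, W s * (g z * Real.exp (z ⬝ᵥ fun j => ℓ j s))
          = g z * ∑ s ∈ T, W s * Real.exp (z ⬝ᵥ fun j => ℓ j s) := by
            rw [Finset.mul_sum]; exact Finset.sum_congr rfl fun s _ => by ring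
        _ ≤ g z * (Real.exp ((z ⬝ᵥ C.mulVec z) / 2) * Zs W) :=
            mul_le_mul_of_nonneg_left (h5.trans h4) (g_pos z).le
        _ = _ := by ring
    refine ⟨summable_of_sum_le h0 h3, ?_⟩
    rw [hE, div_le_iff₀ hZ, one_div_mul_eq_div]
    exact Real.tsum_le_of_sum_le h0 h3

end Crest.Agent.T145
end

-- ▼ part T145/MxA_9

/-!
# Row 145: abstract core of MIX0 (sign flips, thin lemma, Palm bound, crossing bound) (helper9)

Any centred anchored model, bonds at level `0`.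
-/

set_option autoImplicit false

namespace Crest.Agent.T145

open Finset

namespace Mx

/-- heights and bonds -/
abbrev PP (V : Type) : Type := Cfg V × Finset (V × V)

/-- upper tail of the square of a linear observable -/
noncomputable def tl {L : Type*} [AddCommGroup L] (W : L → ℝ) (f : L →+ ℝ) (v : ℝ) : ℝ :=
  Ex W fun s => max (f s ^ 2 - v) 0

section gauss
variable {L : Type} [AddCommGroup L] {ι : Type}

/-- a shift costs at most its Gaussian weight under an even law -/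
theorem gq_shift {W : L → ℝ} (hW : Wt W) (he : ∀ s, W (-s) = W s) (T : Finset ι)
    (ℓ : ι → L →+ ℝ) (u : L) : gq T ℓ u * Ex W (gq T ℓ) ≤ Ex W fun s => gq T ℓ (s + u) := by
  have b : ∀ v : L, |gq T ℓ v| ≤ 1 := fun v => by
    rw [abs_of_pos (gq_pos T ℓ v)]; exact gq_le_one T ℓ v
  have i1 : Ig W fun s => gq T ℓ (s + u) := hW.ig_bdd fun s => b _
  have i2 : Ig W fun s => gq T ℓ (-s + u) := hW.ig_bdd fun s => b _
  have e := Ex_even he fun s => gq T ℓ (s + u)
  have h : Ex W (fun s => 2 * (gq T ℓ u * gq T ℓ s)) ≤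
      Ex W fun s => gq T ℓ (s + u) + gq T ℓ (-s + u) := by
    refine Ex_mono hW.nonneg (((hW.ig_bdd b).const_mul _).const_mul _) (i1.add i2) fun s => ?_
    have k : ∀ ε : ℝ, -(∑ j ∈ T, (ε * ℓ j s + ℓ j u) ^ 2) / 2 = -(∑ j ∈ T, ℓ j u ^ 2) / 2 +
        -(ε ^ 2 * ∑ j ∈ T, ℓ j s ^ 2) / 2 + -(ε * ∑ j ∈ T, ℓ j s * ℓ j u) := fun ε => by
      have : ∑ j ∈ T, (ε * ℓ j s + ℓ j u) ^ 2 = ∑ j ∈ T, ℓ j u ^ 2 + ε ^ 2 * ∑ j ∈ T, ℓ j s ^ 2 +
          2 * (ε * ∑ j ∈ T, ℓ j s * ℓ j u) := by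
        simp only [mul_sum, ← sum_add_distrib]
        exact sum_congr rfl fun j _ => by ring
      rw [this]; ring
    have k1 := k 1
    have k2 := k (-1)
    simp only [one_mul, one_pow, neg_mul, neg_one_sq, neg_neg] at k1 k2
    simp only [gq, map_add, map_neg]
    rw [k1, k2]
    simp only [Real.exp_add]
    set t := ∑ j ∈ T, ℓ j s * ℓ j u
    have h2 : 2 ≤ Real.exp (-t) + Real.exp t := by
      linarith [Real.add_one_le_exp t, Real.add_one_le_exp (-t)]
    have h3 := mul_pos (Real.exp_pos (-(∑ j ∈ T, ℓ j u ^ 2) / 2))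
      (Real.exp_pos (-(∑ j ∈ T, ℓ j s ^ 2) / 2))
    nlinarith [mul_le_mul_of_nonneg_left h2 h3.le]
  rw [Ex_const_mul, Ex_const_mul, Ex_add i1 i2, e] at h
  linarith

variable [IsAddTorsionFree L] {ρ : L → ℝ}

theorem gq_one (h : Cen ρ) (f : L →+ ℝ) :
    1 / Real.sqrt (1 + Vr ρ f f) ≤ Ex ρ fun s => Real.exp (-f s ^ 2 / 2) := by
  have hV := h.wt.Vr_nonneg h.se f
  have hC : (Matrix.of fun _ _ : Unit => Vr ρ f f).PosSemidef := by
    have : (Matrix.of fun _ _ : Unit => Vr ρ f f) = Matrix.diagonal fun _ => Vr ρ f f := by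
      ext i j; simp
    rw [this]
    exact Matrix.posSemidef_diagonal_iff.2 fun _ => hV
  have := (detStmt L Unit ρ (fun _ => f) _ h.wt hC).1 fun z => by
    have := h.ph_ge (z () • f)
    rw [Vr_smul_left, Vr_smul_right] at this
    simpa [dotProduct, Matrix.mulVec, mul_comm, mul_left_comm] using this
  have e : gq (univ : Finset Unit) (fun _ => f) = fun s => Real.exp (-f s ^ 2 / 2) :=
    funext fun s => by simp [gq]
  rw [e] at this
  simpa [Matrix.det_unique] using this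

/-- Gaussian lower bound through the diagonal variances only -/
theorem gq_prod (h : Cen ρ) (T : Finset ι) (ℓ : ι → L →+ ℝ) :
    ∏ j ∈ T, 1 / Real.sqrt (1 + Vr ρ (ℓ j) (ℓ j)) ≤ Ex ρ (gq T ℓ) := by
  classical
  induction T using Finset.induction_on with
  | empty => simp only [prod_empty]; exact (h.wt.le_ex (h.ig (Tame.gq _ _)) fun s _ => by simp [gq])
  | insert a T ha ih =>
    rw [prod_insert ha]
    have e : gq (insert a T) ℓ = fun s => gq {a} ℓ s * gq T ℓ s := funext fun s => by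
      simp only [gq, sum_insert ha, sum_singleton, ← Real.exp_add]; congr 1; ring
    rw [e]
    refine le_trans ?_ (h.ex_mul_ge (pd_gq {a} ℓ) (pd_gq T ℓ))
    have h1 : 1 / Real.sqrt (1 + Vr ρ (ℓ a) (ℓ a)) ≤ Ex ρ (gq {a} ℓ) := by
      have := gq_one h (ℓ a)
      refine this.trans_eq (congrArg _ (funext fun s => ?_))
      simp [gq]
    exact mul_le_mul h1 ih (prod_nonneg fun _ _ => by positivity) (le_trans (by positivity) h1)

end gauss

variable {V : Type} [DecidableEq V] {m : Mdl V}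

/-! ## integrability -/

/-- bounded by a tame function of the heights -/
def TB (F : PP V → ℝ) : Prop := ∃ T : Cfg V → ℝ, Tame T ∧ ∀ p, |F p| ≤ T p.1

section tb
omit [DecidableEq V]
variable {F G : PP V → ℝ}

theorem TB.fst {T : Cfg V → ℝ} (h : Tame T) : TB fun p => T p.1 := ⟨_, h.abs, fun _ => le_rfl⟩
theorem TB.bdd {C : ℝ} (h : ∀ p, |F p| ≤ C) : TB F := ⟨_, Tame.const C, h⟩
theorem TB.const (c : ℝ) : TB fun _ : PP V => c := TB.bdd fun _ => le_rfl
theorem TB.ind (q : PP V → Prop) : TB fun p => ind (q p) := TB.bdd fun _ => abs_ind_le _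
theorem TB.of_le (hG : TB G) (h : ∀ p, |F p| ≤ |G p|) : TB F :=
  let ⟨T, hT, hb⟩ := hG
  ⟨T, hT, fun p => (h p).trans (hb p)⟩
theorem TB.add (hF : TB F) (hG : TB G) : TB fun p => F p + G p :=
  let ⟨_, hT, hb⟩ := hF
  let ⟨_, hT', hb'⟩ := hG
  ⟨_, hT.add hT', fun p => (abs_add_le _ _).trans (add_le_add (hb p) (hb' p))⟩
theorem TB.sub (hF : TB F) (hG : TB G) : TB fun p => F p - G p :=
  let ⟨_, hT, hb⟩ := hF
  let ⟨_, hT', hb'⟩ := hG
  ⟨_, hT.add hT', fun p => (abs_sub _ _).trans (add_le_add (hb p) (hb' p))⟩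
theorem TB.mul (hF : TB F) (hG : TB G) : TB fun p => F p * G p :=
  let ⟨_, hT, hb⟩ := hF
  let ⟨_, hT', hb'⟩ := hG
  ⟨_, hT.mul hT', fun p => by
    rw [abs_mul]; exact mul_le_mul (hb p) (hb' p) (abs_nonneg _) ((abs_nonneg _).trans (hb p))⟩
theorem TB.sq (hF : TB F) : TB fun p => F p ^ 2 := (hF.mul hF).of_le fun p => by rw [pow_two]
theorem TB.abs (hF : TB F) : TB fun p => |F p| := hF.of_le fun p => by rw [abs_abs]
theorem TB.max0 (hF : TB F) : TB fun p => max (F p) 0 := hF.of_le fun p => by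
  rcases le_total (F p) 0 with h | h
  · rw [max_eq_right h, abs_zero]; exact abs_nonneg _
  · rw [max_eq_left h]
theorem TB.sum {ι : Type*} (T : Finset ι) {F : ι → PP V → ℝ} (h : ∀ i ∈ T, TB (F i)) :
    TB fun p => ∑ i ∈ T, F i p := by
  classical
  induction T using Finset.induction_on with
  | empty => simpa using TB.const 0
  | insert a T ha ih =>
    simp only [sum_insert ha]
    exact (h a (mem_insert_self _ _)).add (ih fun i hi => h i (mem_insert_of_mem hi))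
theorem TB.ev (x : V) : TB fun p : PP V => (p.1 x : ℝ) := TB.fst (Tame.hom (evH x))

end tb

theorem J0 (hc : m.Ctr) (p : PP V) : 0 ≤ m.J 0 0 p := D52.J_nonneg hc.1 hc.nn 0 0 p

theorem wtJ (hc : m.Ctr) (hA : m.Anch) : Wt (m.J 0 0) :=
  (D52.ex_pair (J0 hc) (D52.hasSum_J m 0 0) (Md.ctr_cen hc hA).wt).1

theorem exJ (hc : m.Ctr) (hA : m.Anch) {F : Cfg V → ℝ} (hF : Tame F) :
    Ex (m.J 0 0) (fun p => F p.1) = Ex (m.W 0) F :=
  ((D52.ex_pair (J0 hc) (D52.hasSum_J m 0 0) (Md.ctr_cen hc hA).wt).2 F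
    ((Md.ctr_cen hc hA).ig hF)).2

theorem TB.ig (hc : m.Ctr) (hA : m.Anch) {F : PP V → ℝ} (hF : TB F) : Ig (m.J 0 0) F :=
  let ⟨T, hT, hb⟩ := hF
  Ig.of_abs_le (J0 hc) ((D52.ex_pair (J0 hc) (D52.hasSum_J m 0 0) (Md.ctr_cen hc hA).wt).2 T
    ((Md.ctr_cen hc hA).ig hT)).1 fun p _ => hb p

/-! ## sign flips -/

theorem J_sign (hF : m.Fm) {h : ℤ} {η : Cfg V} {p : PP V} (hp : m.J h η p ≠ 0) {e : V × V}
    (he : e ∈ p.2) : 0 < (p.1 e.1 - h) * (p.1 e.2 - h) := by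
  have he' := Md.J_sub hp he
  have h1 := prod_ne_zero_iff.1 (right_ne_zero_of_mul (left_ne_zero_of_mul hp)) e he'
  by_contra hc
  apply h1
  simp only [Mdl.bw, if_pos he]
  rw [← (hF e he').abs (dE e p.1), sub_eq_zero]
  congr 1
  rw [dE]
  rcases mul_nonpos_iff.1 (not_lt.1 hc) with ⟨a, b⟩ | ⟨a, b⟩
  · rw [abs_of_nonneg a, abs_of_nonpos b, abs_of_nonpos (by omega)]; ring
  · rw [abs_of_nonpos a, abs_of_nonneg b, abs_of_nonneg (by omega)]; ring

theorem conn_sign (hF : m.Fm) {η : Cfg V} {p : PP V} (hp : m.J 0 η p ≠ 0) {x y : V}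
    (h : Conn p.2 x y) : p.1 x * p.1 y = |p.1 x| * |p.1 y| := by
  rw [← abs_mul, abs_of_nonneg]
  refine Md.conn_ind (P := fun v => 0 ≤ p.1 x * p.1 v) (fun e he => ?_) h (mul_self_nonneg _)
  have := J_sign hF hp he
  simp only [sub_zero] at this
  rcases pos_and_pos_or_neg_and_neg_of_mul_pos this with ⟨a, b⟩ | ⟨a, b⟩
  · rw [mul_nonneg_iff_of_pos_right a, mul_nonneg_iff_of_pos_right b]
  · constructor <;> intro h <;> by_contra h' <;> push Not at h'
    · nlinarith [mul_nonneg h (neg_pos.2 b).le, mul_pos_of_neg_of_neg h' a]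
    · nlinarith [mul_nonneg h (neg_pos.2 a).le, mul_pos_of_neg_of_neg h' b]

theorem J_flip (hF : m.Fm) (hE : m.Ev) (s : Cfg V) {ω : Finset (V × V)} {K : Finset V}
    (hK : ∀ e ∈ ω, e.1 ∈ K ↔ e.2 ∈ K) : m.J 0 0 (pw K (-s) s, ω) = m.J 0 0 (s, ω) := by
  have ha : ∀ x, |pw K (-s) s x - 0| = |s x - 0| := fun x => by
    rw [pw_apply]; split_ifs <;> simp
  simp only [Mdl.J, Mdl.bw, ha]
  congr 1
  · congr 1
    · congr 1
      refine ind_congr (forall_congr' fun x => imp_congr_right fun _ => ?_)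
      rw [pw_apply]; split_ifs <;> simp
    · refine prod_congr rfl fun e he => ?_
      split_ifs with h
      · congr 1
        by_cases h1 : e.1 ∈ K
        · rw [← (hF e he).even, dE, dE, pw_of_mem _ _ h1, pw_of_mem _ _ ((hK e h).1 h1)]
          congr 1; simp only [Finsupp.neg_apply]; ring
        · rw [dE, dE, pw_of_notMem _ _ h1, pw_of_notMem _ _ fun h2 => h1 ((hK e h).2 h2)]
      · rfl
  · refine prod_congr rfl fun x hx => ?_
    rw [pw_apply]; split_ifs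
    · exact (hE x hx _).2
    · rfl

/-- flip of the signs on the cluster of `S` -/
noncomputable def flip (S : Finset V) : PP V ≃ PP V :=
  Function.Involutive.toPerm (fun p => (pw (cl S p.2) (-p.1) p.1, p.2)) fun p => by
    refine Prod.ext (Finsupp.ext fun x => ?_) rfl
    simp only [pw_apply, Finsupp.neg_apply]
    split_ifs <;> simp

theorem flip_apply (S : Finset V) (p : PP V) : flip S p = (pw (cl S p.2) (-p.1) p.1, p.2) := rfl

/-- `G` reads only the absolute heights and the bonds -/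
def Abs (G : PP V → ℝ) : Prop :=
  ∀ (s s' : Cfg V) ω, (∀ x, |s x| = |s' x|) → G (s, ω) = G (s', ω)

theorem mem_cl_one {x y : V} {ω : Finset (V × V)} : y ∈ cl {x} ω ↔ Conn ω x y := by
  simp [Md.mem_cl]

theorem flip_two (hc : m.Ctr) (hA : m.Anch) {G : PP V → ℝ} (hG : Abs G) (hT : TB G) (x y : V) :
    Ex (m.J 0 0) (fun p => G p * ((p.1 x : ℝ) * p.1 y)) =
      Ex (m.J 0 0) fun p => G p * (|(p.1 x : ℝ)| * |(p.1 y : ℝ)| * ind (Conn p.2 x y)) := by
  have i := (hT.mul ((TB.ev x).mul (TB.ev y))).ig hc hA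
  rw [Ex_split (J0 hc) i fun p => Conn p.2 x y]
  have z : Ex (m.J 0 0) (fun p => G p * ((p.1 x : ℝ) * p.1 y) * ind (¬ Conn p.2 x y)) = 0 := by
    have e := Ex_symm (W := m.J 0 0) (flip {x})
      (fun p => J_flip hc.1 hc.ev p.1 fun _ he => Md.cl_closed he)
      fun p => G p * ((p.1 x : ℝ) * p.1 y) * ind (¬ Conn p.2 x y)
    have e2 : ∀ p : PP V, G (flip {x} p) * (((flip {x} p).1 x : ℝ) * (flip {x} p).1 y) *
        ind (¬ Conn (flip {x} p).2 x y) = -(G p * ((p.1 x : ℝ) * p.1 y) * ind (¬ Conn p.2 x y)) := by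
      intro p
      rw [flip_apply, hG _ p.1 p.2 fun v => by rw [pw_apply]; split_ifs <;> simp]
      by_cases h : Conn p.2 x y
      · simp only [ind_neg (not_not.2 h), mul_zero, neg_zero]
      · simp only [pw_of_mem _ _ (mem_cl_one.2 (Md.conn_refl _ _)),
          pw_of_notMem _ _ (mt mem_cl_one.1 h), Finsupp.neg_apply, Int.cast_neg]
        ring
    simp only [e2] at e
    rw [Ex_neg] at e
    linarith
  rw [z, add_zero]
  refine Ex_congr fun p hp => ?_
  by_cases h : Conn p.2 x y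
  · have := conn_sign hc.1 hp h
    rw [ind_pos h, mul_one, mul_one, ← Int.cast_mul, this]; push_cast; rfl
  · rw [ind_neg h, mul_zero, mul_zero, mul_zero]

theorem flip_sum (hc : m.Ctr) (hA : m.Anch) (B : Finset V) {G : V → V → PP V → ℝ}
    (hG : ∀ x y, Abs (G x y)) (hT : ∀ x y, TB (G x y)) :
    Ex (m.J 0 0) (fun p => ∑ x ∈ B, ∑ y ∈ B, G x y p * ((p.1 x : ℝ) * p.1 y)) =
      Ex (m.J 0 0) fun p => ∑ x ∈ B, ∑ y ∈ B,
        G x y p * (|(p.1 x : ℝ)| * |(p.1 y : ℝ)| * ind (Conn p.2 x y)) := by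
  have t1 : ∀ x y, TB fun p => G x y p * ((p.1 x : ℝ) * p.1 y) := fun x y =>
    (hT x y).mul ((TB.ev x).mul (TB.ev y))
  have t2 : ∀ x y, TB fun p => G x y p * (|(p.1 x : ℝ)| * |(p.1 y : ℝ)| * ind (Conn p.2 x y)) :=
    fun x y => (hT x y).mul (((TB.ev x).abs.mul (TB.ev y).abs).mul (TB.ind _))
  rw [Ex_sum B fun x _ => (TB.sum B fun y _ => t1 x y).ig hc hA,
    Ex_sum B fun x _ => (TB.sum B fun y _ => t2 x y).ig hc hA]
  refine sum_congr rfl fun x _ => ?_
  rw [Ex_sum B fun y _ => (t1 x y).ig hc hA, Ex_sum B fun y _ => (t2 x y).ig hc hA]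
  exact sum_congr rfl fun y _ => flip_two hc hA (hG x y) (hT x y) x y

/-! ## cluster masses -/

/-- `ψ`-mass of the cluster of `x` -/
noncomputable def mm (B : Finset V) (ψ : V → ℝ) (x : V) (p : PP V) : ℝ :=
  ∑ y ∈ B, ψ y * |(p.1 y : ℝ)| * ind (Conn p.2 x y)

/-- `∑_C m_φ (C) m_ψ (C)` -/
noncomputable def bi (B : Finset V) (φ ψ : V → ℝ) (p : PP V) : ℝ :=
  ∑ x ∈ B, φ x * |(p.1 x : ℝ)| * mm B ψ x p

/-- `∑_{C ↔ S} m_φ (C) ^ 2` -/
noncomputable def pa (B : Finset V) (φ : V → ℝ) (S : Finset V) (p : PP V) : ℝ :=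
  ∑ x ∈ B, φ x * |(p.1 x : ℝ)| * mm B φ x p * ind (x ∈ cl S p.2)

/-- signed `f`-mass of the cluster of `S` -/
noncomputable def aK (f : V → ℝ) (S : Finset V) (p : PP V) : ℝ :=
  pr f (p.1.filter (· ∈ cl S p.2))

section
omit [DecidableEq V]
variable {B : Finset V} {φ ψ : V → ℝ}

theorem mm_nonneg (h : ∀ y, 0 ≤ ψ y) (x : V) (p : PP V) : 0 ≤ mm B ψ x p :=
  sum_nonneg fun y _ => mul_nonneg (mul_nonneg (h y) (abs_nonneg _)) (ind_nonneg _)

theorem tb_mm (B : Finset V) (ψ : V → ℝ) (x : V) : TB (mm B ψ x) :=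
  TB.sum B fun y _ => ((TB.const _).mul (TB.ev y).abs).mul (TB.ind _)

theorem tb_bi (B : Finset V) (φ ψ : V → ℝ) : TB (bi B φ ψ) :=
  TB.sum B fun x _ => ((TB.const _).mul (TB.ev x).abs).mul (tb_mm B ψ x)

theorem abs_cast {s s' : Cfg V} (h : ∀ x, |s x| = |s' x|) (x : V) : |(s x : ℝ)| = |(s' x : ℝ)| := by
  rw [← Int.cast_abs, h, Int.cast_abs]

theorem abs_bi (B : Finset V) (φ ψ : V → ℝ) (s s' : Cfg V) (ω : Finset (V × V))
    (h : ∀ x, |s x| = |s' x|) : bi B φ ψ (s, ω) = bi B φ ψ (s', ω) := by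
  simp only [bi, mm, abs_cast h]

theorem bi_nonneg (h : ∀ y, 0 ≤ φ y) (h' : ∀ y, 0 ≤ ψ y) (p : PP V) : 0 ≤ bi B φ ψ p :=
  sum_nonneg fun x _ => mul_nonneg (mul_nonneg (h x) (abs_nonneg _)) (mm_nonneg h' x p)

theorem mm_sq_le (h : ∀ y, 0 ≤ φ y) (x : V) (p : PP V) : mm B φ x p ^ 2 ≤ bi B φ φ p := by
  rw [sq, bi]
  nth_rewrite 1 [mm]
  rw [sum_mul]
  refine sum_le_sum fun y _ => ?_
  by_cases hy : Conn p.2 x y
  · rw [ind_pos hy, mul_one]
    refine le_of_eq (congrArg _ (sum_congr rfl fun z _ => ?_))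
    rw [ind_congr ⟨fun h => Md.conn_trans (Md.conn_symm hy) h, fun h => Md.conn_trans hy h⟩]
  · rw [ind_neg hy, mul_zero, zero_mul]
    exact mul_nonneg (mul_nonneg (h y) (abs_nonneg _)) (mm_nonneg h y p)

end

theorem tb_pa (B : Finset V) (φ : V → ℝ) (S : Finset V) : TB (pa B φ S) :=
  TB.sum B fun x _ => (((TB.const _).mul (TB.ev x).abs).mul (tb_mm B φ x)).mul (TB.ind _)

theorem pr_J {p : PP V} (hp : m.J 0 0 p ≠ 0) (f : V → ℝ) : pr f p.1 = ∑ x ∈ m.A, f x * p.1 x :=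
  pr_of_zero f _ (Md.J_off hp)

theorem aK_eq {p : PP V} (hp : m.J 0 0 p ≠ 0) (f : V → ℝ) (S : Finset V) :
    aK f S p = ∑ x ∈ m.A, f x * ind (x ∈ cl S p.2) * p.1 x := by
  rw [aK, pr_of_zero f _ (U := m.A) fun x hx => by
    rw [Finsupp.filter_apply, Md.J_off hp x hx]; simp]
  refine sum_congr rfl fun x _ => ?_
  rw [Finsupp.filter_apply]
  split_ifs with h
  · rw [ind_pos h, mul_one]
  · rw [ind_neg h]; simp

/-- the product of two linear observables, averaged over the signs of the clusters -/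
theorem flip_bi (hc : m.Ctr) (hA : m.Anch) {G : PP V → ℝ} (hG : Abs G) (hT : TB G) (φ ψ : V → ℝ) :
    Ex (m.J 0 0) (fun p => G p * (pr φ p.1 * pr ψ p.1)) =
      Ex (m.J 0 0) fun p => G p * bi m.A φ ψ p := by
  have := flip_sum hc hA m.A (G := fun x y p => G p * (φ x * ψ y))
    (fun x y s s' ω h => by simp only [hG s s' ω h]) fun x y => hT.mul (TB.const _)
  refine (Ex_congr fun p hp => ?_).trans (this.trans (Ex_congr fun p _ => ?_))
  · rw [pr_J hp, pr_J hp, sum_mul_sum, mul_sum]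
    refine sum_congr rfl fun x _ => ?_
    rw [mul_sum]
    exact sum_congr rfl fun y _ => by ring
  · simp only [bi, mm, mul_sum]
    exact sum_congr rfl fun x _ => sum_congr rfl fun y _ => by ring

theorem ex_bi (hc : m.Ctr) (hA : m.Anch) (φ ψ : V → ℝ) :
    Ex (m.J 0 0) (bi m.A φ ψ) = Vr (m.W 0) (pr φ) (pr ψ) := by
  have := flip_bi hc hA (G := fun _ => 1) (fun _ _ _ _ => rfl) (TB.const 1) φ ψ
  simp only [one_mul] at this
  rw [(Md.ctr_cen hc hA).Vr_eq, ← exJ hc hA ((Tame.hom _).mul (Tame.hom _)), this]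

/-- nonnegative test functions are nonnegatively correlated -/
theorem vr_nonneg (hc : m.Ctr) (hA : m.Anch) {φ ψ : V → ℝ} (h : ∀ y, 0 ≤ φ y) (h' : ∀ y, 0 ≤ ψ y) :
    0 ≤ Vr (m.W 0) (pr φ) (pr ψ) := by
  rw [← ex_bi hc hA]
  exact Ex_nonneg (J0 hc) fun p _ => bi_nonneg h h' p

/-- tail of the sum of the squared cluster masses -/
theorem tail_bi (hc : m.Ctr) (hA : m.Anch) (φ : V → ℝ) (v : ℝ) :
    Ex (m.J 0 0) (fun p => max (bi m.A φ φ p - v) 0) ≤ tl (m.W 0) (pr φ) v := by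
  have tI : TB fun p : PP V => ind (v ≤ bi m.A φ φ p) := TB.ind _
  have tY : TB fun p : PP V => pr φ p.1 * pr φ p.1 := TB.fst ((Tame.hom _).mul (Tame.hom _))
  have e := flip_bi hc hA (G := fun p => ind (v ≤ bi m.A φ φ p))
    (fun s s' ω h => by simp only [abs_bi m.A φ φ s s' ω h]) tI φ φ
  have tT : Tame fun s : Cfg V => max (pr φ s ^ 2 - v) 0 :=
    (((Tame.hom (pr φ)).pow 2).sub (Tame.const v)).of_abs_le fun s => by
      rcases le_total (pr φ s ^ 2 - v) 0 with h | h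
      · rw [max_eq_right h, abs_zero]; exact abs_nonneg _
      · rw [max_eq_left h]
  calc _ = Ex (m.J 0 0) fun p => ind (v ≤ bi m.A φ φ p) * bi m.A φ φ p -
          ind (v ≤ bi m.A φ φ p) * v := Ex_congr fun p _ => by
        by_cases h : v ≤ bi m.A φ φ p
        · rw [ind_pos h, max_eq_left (sub_nonneg.2 h)]; ring
        · rw [ind_neg h, max_eq_right (by linarith [not_le.1 h])]; ring
    _ = Ex (m.J 0 0) fun p => ind (v ≤ bi m.A φ φ p) * (pr φ p.1 * pr φ p.1) -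
          ind (v ≤ bi m.A φ φ p) * v := by
        rw [Ex_sub ((tI.mul (tb_bi _ _ _)).ig hc hA) ((tI.mul (TB.const v)).ig hc hA),
          Ex_sub ((tI.mul tY).ig hc hA) ((tI.mul (TB.const v)).ig hc hA), e]
    _ ≤ Ex (m.J 0 0) fun p => max (pr φ p.1 ^ 2 - v) 0 := by
        refine Ex_mono (J0 hc) (((tI.mul tY).sub (tI.mul (TB.const v))).ig hc hA)
          ((TB.fst tT).ig hc hA) fun p => ?_
        by_cases h : v ≤ bi m.A φ φ p
        · rw [ind_pos h, one_mul, one_mul, sq]; exact le_max_left _ _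
        · rw [ind_neg h, zero_mul, zero_mul, sub_zero]; exact le_max_right _ _
    _ = _ := exJ hc hA tT

theorem tb_aK (f : V → ℝ) (S : Finset V) (B : Finset V) :
    TB fun p : PP V => ∑ x ∈ B, f x * ind (x ∈ cl S p.2) * p.1 x :=
  TB.sum B fun x _ => ((TB.const _).mul (TB.ind _)).mul (TB.ev x)

theorem ig_aK_sq (hc : m.Ctr) (hA : m.Anch) (f : V → ℝ) (S : Finset V) :
    Ig (m.J 0 0) fun p => aK f S p ^ 2 :=
  ((tb_aK f S m.A).sq.ig hc hA).congr fun p hp => by rw [aK_eq hp]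

/-- the signed mass of the explored set against the Palm sum -/
theorem ex_aK_sq (hc : m.Ctr) (hA : m.Anch) {f ψ : V → ℝ} (h : ∀ y, |f y| ≤ ψ y) (S : Finset V) :
    Ex (m.J 0 0) (fun p => aK f S p ^ 2) ≤ Ex (m.J 0 0) (pa m.A ψ S) := by
  have tG : ∀ x y, TB fun p : PP V => f x * ind (x ∈ cl S p.2) * (f y * ind (y ∈ cl S p.2)) :=
    fun x y => ((TB.const _).mul (TB.ind _)).mul ((TB.const _).mul (TB.ind _))
  have := flip_sum hc hA m.A
    (G := fun x y p => f x * ind (x ∈ cl S p.2) * (f y * ind (y ∈ cl S p.2)))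
    (fun x y s s' ω h => rfl) tG
  refine ((Ex_congr fun p hp => ?_).trans this).trans_le (Ex_mono (J0 hc) (TB.ig hc hA
    (TB.sum _ fun x _ => TB.sum _ fun y _ => (tG x y).mul
      (((TB.ev x).abs.mul (TB.ev y).abs).mul (TB.ind _)))) ((tb_pa _ _ _).ig hc hA) fun p => ?_)
  · rw [aK_eq hp, sq, sum_mul_sum]
    exact sum_congr rfl fun x _ => sum_congr rfl fun y _ => by ring
  · simp only [pa, mm, mul_sum, sum_mul]
    refine sum_le_sum fun x _ => sum_le_sum fun y _ => ?_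
    have a : f x * (f y * ind (y ∈ cl S p.2)) ≤ ψ x * ψ y := by
      refine (le_abs_self _).trans ?_
      rw [abs_mul, abs_mul]
      exact mul_le_mul (h x) ((mul_le_of_le_one_right (abs_nonneg _) (abs_ind_le _)).trans (h y))
        (by positivity) ((abs_nonneg _).trans (h x))
    have b : 0 ≤ ind (x ∈ cl S p.2) * (|(p.1 x : ℝ)| * |(p.1 y : ℝ)| * ind (Conn p.2 x y)) :=
      mul_nonneg (ind_nonneg _) (mul_nonneg (by positivity) (ind_nonneg _))
    nlinarith [mul_le_mul_of_nonneg_right a b]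

/-! ## the thin lemma -/

/-- the rest model seen from an explored configuration -/
theorem ex_rest (hc : m.Ctr) (hA : m.Anch) (S : Finset V) {p : PP V} (hp : m.J 0 0 p ≠ 0)
    {G : Cfg V → ℝ} (hG : Tame G) :
    Ex ((m.rest 0 (cl S p.2) p.1).J 0 p.1) (fun p' => G p'.1) =
      Ex ((m.rest 0 (cl S p.2) p.1).W 0) fun s => G (s + p.1.filter (· ∈ cl S p.2)) := by
  set C := cl S p.2 with hC
  have hF := D52.rest_fm hc.1 0 C p.1
  have hN := D52.rest_nn hc.1 hc.nn 0 C p.1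
  have hAC : (m.free (m.A \ C)).Anch := Mix53.free_anch hA sdiff_subset
  set u : Cfg V := p.1.filter (· ∈ C) with hu
  have hu1 : ∀ x ∈ (m.rest 0 C p.1).A, u x = 0 := fun x hx => by
    rw [hu, Finsupp.filter_apply, if_neg (mem_sdiff.1 hx).2]
  have hu2 : ∀ e ∈ (m.rest 0 C p.1).ed, u e.1 = 0 ∧ u e.2 = 0 := fun e he => by
    simp only [hu, Finsupp.filter_apply, if_neg (mem_filter.1 he).2.1,
      if_neg (mem_filter.1 he).2.2, and_self]
  have e1 : (m.rest 0 C p.1).W p.1 = (m.rest 0 C p.1).W (0 + u) := Mdl.W_congr _ fun x hx => by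
    rw [zero_add, hu, Finsupp.filter_apply]
    split_ifs with h
    · rfl
    · exact Md.J_off hp x fun h' => hx (mem_sdiff.2 ⟨h', h⟩)
  have e2 : ∀ s, (m.rest 0 C p.1).W (0 + u) (s + u) = (m.rest 0 C p.1).W 0 s := fun s =>
    Md.W_far _ 0 u s hu1 hu2
  have hR : Wt ((m.rest 0 C p.1).W p.1) := by
    rw [e1, ← Md.wt_equiv (Equiv.addRight u)]
    simpa only [Equiv.coe_addRight, e2] using Mix53.rest_wt0 hc hAC p.1
  have hI : Ig ((m.rest 0 C p.1).W p.1) G := by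
    rw [e1, ← Md.ig_equiv (Equiv.addRight u)]
    simpa only [Equiv.coe_addRight, e2] using (Mix53.rest_se0 hc hAC p.1).ig (hG.shift u)
  rw [((D52.ex_pair (D52.J_nonneg hF hN 0 p.1) (D52.hasSum_J _ 0 p.1) hR).2 G hI).2, e1,
    Md.ex_far _ 0 u hu1 hu2]

variable [Countable V] {ι : Type}

/-- THIN: an explored set of small signed mass that raises the Gaussian observable is unlikely -/
theorem thin (hc : m.Ctr) (hA : m.Anch) (S : Finset V) (g : Finset ι) (f : ι → V → ℝ)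
    {H : PP V → ℝ} (h0 : ∀ p, 0 ≤ H p) (hH : ∀ p q, Md.dat S p = Md.dat S q → H p = H q)
    (hT : TB H) {Γ r : ℝ} (hΓ : ∀ p, m.J 0 0 p ≠ 0 → H p ≠ 0 →
      Γ ≤ Ex ((m.free (m.A \ cl S p.2)).W 0) (gq g fun c => pr (f c)) ∧
        ∑ c ∈ g, aK (f c) S p ^ 2 ≤ r) :
    Real.exp (-r / 2) * Γ * Ex (m.J 0 0) H ≤
      Ex (m.J 0 0) fun p => H p * gq g (fun c => pr (f c)) p.1 := by
  obtain ⟨i, e⟩ := Md.expl_mul m 0 0 S (F := fun p => gq g (fun c => pr (f c)) p.1) (wtJ hc hA) hH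
    ((hT.mul (TB.fst (Tame.gq _ _))).ig hc hA)
  rw [e, ← Ex_const_mul]
  refine Ex_mono' (J0 hc) ((hT.ig hc hA).const_mul _) i fun p hp => ?_
  by_cases hp' : H p = 0
  · simp [hp']
  obtain ⟨a, b⟩ := hΓ p hp hp'
  rw [mul_comm]
  refine mul_le_mul_of_nonneg_left ?_ (h0 p)
  have hAC : (m.free (m.A \ cl S p.2)).Anch := Mix53.free_anch hA sdiff_subset
  rw [ex_rest hc hA S hp (Tame.gq _ _)]
  refine le_trans ?_ (gq_shift (Mix53.rest_wt0 hc hAC p.1) (Mix53.rest_even hc _ p.1) g _ _)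
  have c := a.trans ((Mix53.rest_loc hc hAC p.1).ex_gq g fun c => pr (f c))
  have d : Real.exp (-r / 2) ≤ gq g (fun c => pr (f c)) (p.1.filter (· ∈ cl S p.2)) :=
    Real.exp_le_exp.2 (by have : ∑ c ∈ g, pr (f c) (p.1.filter (· ∈ cl S p.2)) ^ 2 ≤ r := b
                          linarith)
  calc _ ≤ Real.exp (-r / 2) * _ := mul_le_mul_of_nonneg_left c (Real.exp_pos _).le
    _ ≤ _ := mul_le_mul_of_nonneg_right d (Ex_nonneg (Mix53.rest_wt0 hc hAC p.1).nonneg
        fun s _ => (gq_pos _ _ _).le)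

omit [Countable V] in
theorem dat_cl {S : Finset V} {p q : PP V} (h : Md.dat S p = Md.dat S q) : cl S p.2 = cl S q.2 :=
  congrArg Prod.fst h

omit [Countable V] in
theorem dat_fil {S : Finset V} {p q : PP V} (h : Md.dat S p = Md.dat S q) :
    p.1.filter (· ∈ cl S p.2) = q.1.filter (· ∈ cl S q.2) := congrArg (fun t => t.2.1) h

omit [Countable V] in
theorem dat_aK {S : Finset V} {p q : PP V} (h : Md.dat S p = Md.dat S q) (f : V → ℝ) :
    aK f S p = aK f S q := by rw [aK, aK, dat_fil h]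

omit [Countable V] in
theorem dat_ev {S : Finset V} {p q : PP V} (h : Md.dat S p = Md.dat S q) {y : V}
    (hy : y ∈ cl S p.2) : p.1 y = q.1 y := by
  have := DFunLike.congr_fun (dat_fil h) y
  rwa [Finsupp.filter_apply, Finsupp.filter_apply, if_pos hy, if_pos (dat_cl h ▸ hy)] at this

omit [Countable V] in
theorem dat_mm {x : V} {p q : PP V} (h : Md.dat {x} p = Md.dat {x} q) (B : Finset V) (ψ : V → ℝ) :
    mm B ψ x p = mm B ψ x q := by
  refine sum_congr rfl fun y _ => ?_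
  rw [← ind_congr mem_cl_one, ← ind_congr mem_cl_one, ← dat_cl h]
  by_cases hy : y ∈ cl {x} p.2
  · rw [dat_ev h hy]
  · rw [ind_neg hy, mul_zero, mul_zero]


omit [Countable V] in
theorem abs_aK_le {p : PP V} (hp : m.J 0 0 p ≠ 0) {f ψ : V → ℝ} (h : ∀ y, |f y| ≤ ψ y) (x : V) :
    |aK f {x} p| ≤ mm m.A ψ x p := by
  rw [aK_eq hp]
  refine (abs_sum_le_sum_abs _ _).trans (sum_le_sum fun y _ => ?_)
  rw [abs_mul, abs_mul, abs_of_nonneg (ind_nonneg _), ind_congr mem_cl_one, mul_right_comm]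
  exact mul_le_mul_of_nonneg_right (mul_le_mul_of_nonneg_right (h y) (abs_nonneg _)) (ind_nonneg _)

/-- PALM: the clusters joined to `S` carry little `φ`-mass -/
theorem palm (hc : m.Ctr) (hA : m.Anch) (S : Finset V) {φ : V → ℝ} (hφ : ∀ y, 0 ≤ φ y)
    (T : Finset ι) {f ψ : ι → V → ℝ} (hf : ∀ c ∈ T, ∀ y, |f c y| ≤ ψ c y)
    (𝒢 : Finset (Finset ι)) (hT : ∀ g ∈ 𝒢, g ⊆ T) {Γ : Finset ι → ℝ} (hΓ : ∀ g ∈ 𝒢, 0 < Γ g)
    (hP : ∀ x ∈ m.A, φ x ≠ 0 → ∀ ω ⊆ m.ed, x ∈ cl S ω →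
      ∃ g ∈ 𝒢, Γ g ≤ Ex ((m.free (m.A \ cl {x} ω)).W 0) (gq g fun c => pr (f c)))
    {K ρ : ℝ} (hK : 0 ≤ K) (hρ : 0 < ρ) (v : ℝ) :
    Ex (m.J 0 0) (pa m.A φ S) ≤ K / ρ * ∑ c ∈ T, Vr (m.W 0) (pr φ) (pr (ψ c)) +
      2 * tl (m.W 0) (pr φ) (K ^ 2 / 2) + ∑ g ∈ 𝒢, Real.exp (#g * ρ ^ 2 / 2) / Γ g *
        (v * Ex (m.W 0) (gq g fun c => pr (f c)) + tl (m.W 0) (pr φ) v) := by
  have hψ : ∀ c ∈ T, ∀ y, 0 ≤ ψ c y := fun c h y => (abs_nonneg _).trans (hf c h y)
  set E : Finset ι → V → PP V → Prop := fun g x p => (∀ c ∈ T, mm m.A (ψ c) x p ≤ ρ) ∧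
    Γ g ≤ Ex ((m.free (m.A \ cl {x} p.2)).W 0) (gq g fun c => pr (f c)) with hE
  set H : Finset ι → V → PP V → ℝ := fun g x p =>
    φ x * |(p.1 x : ℝ)| * mm m.A φ x p * ind (E g x p) with hH
  have w0 : ∀ x (p : PP V), 0 ≤ φ x * |(p.1 x : ℝ)| := fun x p => mul_nonneg (hφ x) (abs_nonneg _)
  have H0 : ∀ g x p, 0 ≤ H g x p := fun g x p =>
    mul_nonneg (mul_nonneg (w0 x p) (mm_nonneg hφ x p)) (ind_nonneg _)
  have tH : ∀ g x, TB (H g x) := fun g x =>
    (((TB.const _).mul (TB.ev x).abs).mul (tb_mm _ φ x)).mul (TB.ind _)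
  have t1 : TB fun p => K / ρ * ∑ c ∈ T, bi m.A φ (ψ c) p :=
    (TB.const _).mul (TB.sum T fun c _ => tb_bi _ _ _)
  have tv : ∀ a : ℝ, TB fun p => max (bi m.A φ φ p - a) 0 := fun a =>
    ((tb_bi _ _ _).sub (TB.const a)).max0
  have t3 : ∀ g, TB fun p => ∑ x ∈ m.A, H g x p := fun g => TB.sum _ fun x _ => tH g x
  have key : ∀ p, m.J 0 0 p ≠ 0 → pa m.A φ S p ≤ K / ρ * ∑ c ∈ T, bi m.A φ (ψ c) p +
      2 * max (bi m.A φ φ p - K ^ 2 / 2) 0 + ∑ g ∈ 𝒢, ∑ x ∈ m.A, H g x p := by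
    intro p hp
    have h1 : pa m.A φ S p ≤ ∑ x ∈ m.A, (φ x * |(p.1 x : ℝ)| * (K / ρ * ∑ c ∈ T, mm m.A (ψ c) x p) +
        φ x * |(p.1 x : ℝ)| * mm m.A φ x p * ind (K ^ 2 < bi m.A φ φ p) + ∑ g ∈ 𝒢, H g x p) := by
      refine sum_le_sum fun x hx => ?_
      have a1 : 0 ≤ φ x * |(p.1 x : ℝ)| * (K / ρ * ∑ c ∈ T, mm m.A (ψ c) x p) :=
        mul_nonneg (w0 x p) (mul_nonneg (div_nonneg hK hρ.le)
          (sum_nonneg fun c h => mm_nonneg (hψ c h) x p))
      have a0 := mul_nonneg (w0 x p) (mm_nonneg (B := m.A) hφ x p)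
      have a2 := mul_nonneg a0 (ind_nonneg (K ^ 2 < bi m.A φ φ p))
      have a3 : 0 ≤ ∑ g ∈ 𝒢, H g x p := sum_nonneg fun g _ => H0 g x p
      by_cases c1 : φ x = 0
      · rw [c1, zero_mul, zero_mul, zero_mul, zero_mul, zero_mul]; linarith
      by_cases c2 : x ∈ cl S p.2
      swap
      · rw [ind_neg c2, mul_zero]; linarith
      rw [ind_pos c2, mul_one]
      by_cases c3 : ∀ c ∈ T, mm m.A (ψ c) x p ≤ ρ
      · obtain ⟨g, hg, hg'⟩ := hP x hx c1 p.2 (Md.J_sub hp) c2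
        have := single_le_sum (f := fun g => H g x p) (fun g _ => H0 g x p) hg
        simp only [hH] at this ⊢
        rw [ind_pos (show E g x p from ⟨c3, hg'⟩), mul_one] at this
        linarith
      · push Not at c3
        obtain ⟨c, h1, h2⟩ := c3
        by_cases c4 : mm m.A φ x p ≤ K
        · have b1 := single_le_sum (f := fun c => mm m.A (ψ c) x p)
            (fun c h => mm_nonneg (hψ c h) x p) h1
          have b2 : K ≤ K / ρ * ∑ c ∈ T, mm m.A (ψ c) x p := by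
            rw [div_mul_eq_mul_div, le_div_iff₀ hρ]
            exact mul_le_mul_of_nonneg_left (h2.le.trans b1) hK
          nlinarith [mul_le_mul_of_nonneg_left (c4.trans b2) (w0 x p)]
        · have : K ^ 2 < bi m.A φ φ p :=
            (pow_lt_pow_left₀ (not_le.1 c4) hK two_ne_zero).trans_le (mm_sq_le hφ x p)
          rw [ind_pos this, mul_one]; linarith
    rw [sum_add_distrib, sum_add_distrib, sum_comm (s := m.A) (t := 𝒢), ← sum_mul] at h1
    have h2 : ∑ x ∈ m.A, φ x * |(p.1 x : ℝ)| * (K / ρ * ∑ c ∈ T, mm m.A (ψ c) x p) =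
        K / ρ * ∑ c ∈ T, bi m.A φ (ψ c) p := by
      simp only [bi, mul_sum]
      rw [sum_comm]
      exact sum_congr rfl fun c _ => sum_congr rfl fun x _ => by ring
    have h3 : bi m.A φ φ p * ind (K ^ 2 < bi m.A φ φ p) ≤ 2 * max (bi m.A φ φ p - K ^ 2 / 2) 0 := by
      by_cases h : K ^ 2 < bi m.A φ φ p
      · rw [ind_pos h]; linarith [le_max_left (bi m.A φ φ p - K ^ 2 / 2) 0]
      · rw [ind_neg h]; linarith [le_max_right (bi m.A φ φ p - K ^ 2 / 2) 0]
    rw [h2] at h1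
    exact h1.trans (by unfold bi at h3 ⊢; linarith)
  have i1 := t1.ig hc hA
  have i2 := ((tv (K ^ 2 / 2)).ig hc hA).const_mul 2
  have i3 := (TB.sum 𝒢 fun g _ => t3 g).ig hc hA
  refine (Ex_mono' (J0 hc) ((tb_pa _ _ _).ig hc hA) ((i1.add i2).add i3) key).trans ?_
  rw [Ex_add (i1.add i2) i3, Ex_add i1 i2, Ex_const_mul, Ex_const_mul,
    Ex_sum T fun c _ => (tb_bi _ _ _).ig hc hA, Ex_sum 𝒢 fun g _ => (t3 g).ig hc hA]
  simp only [ex_bi hc hA]
  refine add_le_add (add_le_add le_rfl (by linarith [tail_bi hc hA φ (K ^ 2 / 2)]))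
    (sum_le_sum fun g hg => ?_)
  have tq : TB fun p : PP V => gq g (fun c => pr (f c)) p.1 := TB.fst (Tame.gq _ _)
  have s1 : ∀ x, Real.exp (-(#g * ρ ^ 2) / 2) * Γ g * Ex (m.J 0 0) (H g x) ≤
      Ex (m.J 0 0) fun p => H g x p * gq g (fun c => pr (f c)) p.1 := fun x => by
    refine thin hc hA {x} g f (H0 g x) (fun p q h => ?_) (tH g x) fun p hp hp' => ?_
    · simp only [hH, hE, dat_mm h, dat_cl h, dat_ev h (mem_cl_one.2 (Md.conn_refl _ _))]
    · have b : E g x p := ind_ne_zero.1 (right_ne_zero_of_mul hp')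
      refine ⟨b.2, ?_⟩
      rw [← nsmul_eq_mul]
      refine sum_le_card_nsmul _ _ _ fun c h => ?_
      rw [← sq_abs]
      exact pow_le_pow_left₀ (abs_nonneg _) ((abs_aK_le hp (hf c (hT g hg h)) x).trans
        (b.1 c (hT g hg h))) 2
  have s2 : Real.exp (-(#g * ρ ^ 2) / 2) * Γ g * Ex (m.J 0 0) (fun p => ∑ x ∈ m.A, H g x p) ≤
      v * Ex (m.W 0) (gq g fun c => pr (f c)) + tl (m.W 0) (pr φ) v := by
    rw [Ex_sum _ fun x _ => (tH g x).ig hc hA, mul_sum]
    refine (sum_le_sum fun x _ => s1 x).trans ?_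
    rw [← Ex_sum _ fun x _ => ((tH g x).mul tq).ig hc hA, ← exJ hc hA (Tame.gq _ _),
      ← Ex_const_mul]
    refine le_trans ?_ (add_le_add le_rfl (tail_bi hc hA φ v))
    rw [← Ex_add ((tq.ig hc hA).const_mul v) ((tv v).ig hc hA)]
    refine Ex_mono (J0 hc) ((TB.sum _ fun x _ => (tH g x).mul tq).ig hc hA)
      (((tq.ig hc hA).const_mul v).add ((tv v).ig hc hA)) fun p => ?_
    rw [← sum_mul]
    have b1 : ∑ x ∈ m.A, H g x p ≤ bi m.A φ φ p := sum_le_sum fun x _ =>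
      mul_le_of_le_one_right (mul_nonneg (w0 x p) (mm_nonneg hφ x p)) (ind_le_one _)
    have b2 := gq_pos g (fun c => pr (f c)) p.1
    have b3 := gq_le_one g (fun c => pr (f c)) p.1
    have b4 := le_max_left (bi m.A φ φ p - v) 0
    have b5 := le_max_right (bi m.A φ φ p - v) 0
    nlinarith [mul_le_mul_of_nonneg_right b1 b2.le, mul_le_mul_of_nonneg_right b4 b2.le,
      mul_le_mul_of_nonneg_left b3 b5]
  rw [div_mul_eq_mul_div, le_div_iff₀ (hΓ g hg)]
  have := mul_le_mul_of_nonneg_left s2 (Real.exp_pos (#g * ρ ^ 2 / 2)).le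
  rw [← mul_assoc, ← mul_assoc, ← Real.exp_add,
    show (#g : ℝ) * ρ ^ 2 / 2 + -(#g * ρ ^ 2) / 2 = 0 by ring, Real.exp_zero] at this
  linarith

/-- CROSS: crossing probability from the Palm sums -/
theorem cross (hc : m.Ctr) (hA : m.Anch) (S I : Finset V) (T : Finset ι) {f ψ : ι → V → ℝ}
    (hf : ∀ c ∈ T, ∀ y, |f c y| ≤ ψ c y) (𝒢 : Finset (Finset ι)) (hT : ∀ g ∈ 𝒢, g ⊆ T)
    {Γ : Finset ι → ℝ} (hΓ : ∀ g ∈ 𝒢, 0 < Γ g)
    (hP : ∀ ω ⊆ m.ed, Cross S I ω →
      ∃ g ∈ 𝒢, Γ g ≤ Ex ((m.free (m.A \ cl S ω)).W 0) (gq g fun c => pr (f c)))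
    {r : ℝ} (hr : 0 < r) :
    Pr (m.J 0 0) (fun p => Cross S I p.2) ≤
      ∑ g ∈ 𝒢, Real.exp (r / 2) / Γ g * Ex (m.W 0) (gq g fun c => pr (f c)) +
        (∑ c ∈ T, Ex (m.J 0 0) (pa m.A (ψ c) S)) / r := by
  set E : Finset ι → PP V → Prop := fun g p => ∑ c ∈ T, aK (f c) S p ^ 2 ≤ r ∧
    Γ g ≤ Ex ((m.free (m.A \ cl S p.2)).W 0) (gq g fun c => pr (f c)) with hE
  have i1 : Ig (m.J 0 0) fun p => ∑ g ∈ 𝒢, ind (E g p) :=
    Ig.sum _ fun g _ => (wtJ hc hA).ig_ind _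
  have i2 : Ig (m.J 0 0) fun p => ∑ c ∈ T, aK (f c) S p ^ 2 :=
    Ig.sum _ fun c _ => ig_aK_sq hc hA _ _
  refine (Ex_mono' (J0 hc) ((wtJ hc hA).ig_ind _) (i1.add (i2.div_const r)) fun p hp => ?_).trans ?_
  · have a1 : 0 ≤ ∑ g ∈ 𝒢, ind (E g p) := sum_nonneg fun g _ => ind_nonneg _
    have a2 : 0 ≤ (∑ c ∈ T, aK (f c) S p ^ 2) / r := by positivity
    by_cases h : Cross S I p.2
    swap
    · rw [ind_neg h]; linarith
    rw [ind_pos h]
    by_cases h' : ∑ c ∈ T, aK (f c) S p ^ 2 ≤ r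
    · obtain ⟨g, hg, hg'⟩ := hP p.2 (Md.J_sub hp) h
      have := single_le_sum (f := fun g => ind (E g p)) (fun g _ => ind_nonneg _) hg
      simp only [ind_pos (show E g p from ⟨h', hg'⟩)] at this
      linarith
    · have := (one_le_div hr).2 (not_le.1 h').le
      linarith
  rw [Ex_add i1 (i2.div_const r), Ex_div_const, Ex_sum _ fun g _ => (wtJ hc hA).ig_ind _,
    Ex_sum _ fun c _ => ig_aK_sq hc hA _ _]
  refine add_le_add (sum_le_sum fun g hg => ?_) (div_le_div_of_nonneg_right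
    (sum_le_sum fun c h => ex_aK_sq hc hA (hf c h) S) hr.le)
  have tq : TB fun p : PP V => gq g (fun c => pr (f c)) p.1 := TB.fst (Tame.gq _ _)
  have s1 := thin hc hA S g f (H := fun p => ind (E g p)) (fun p => ind_nonneg _)
    (fun p q h => by simp only [hE, dat_aK h, dat_cl h]) (TB.ind _) (Γ := Γ g) (r := r)
    fun p _ hp => by
      have b : E g p := ind_ne_zero.1 hp
      exact ⟨b.2, (sum_le_sum_of_subset_of_nonneg (hT g hg) fun _ _ _ => sq_nonneg _).trans b.1⟩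
  have s2 : Ex (m.J 0 0) (fun p => ind (E g p) * gq g (fun c => pr (f c)) p.1) ≤
      Ex (m.W 0) (gq g fun c => pr (f c)) := by
    rw [← exJ hc hA (Tame.gq _ _)]
    exact Ex_mono (J0 hc) (((TB.ind _).mul tq).ig hc hA) (tq.ig hc hA) fun p =>
      mul_le_of_le_one_left (gq_pos _ _ _).le (ind_le_one _)
  rw [div_mul_eq_mul_div, le_div_iff₀ (hΓ g hg)]
  have := mul_le_mul_of_nonneg_left (s1.trans s2) (Real.exp_pos (r / 2)).le
  rw [← mul_assoc, ← mul_assoc, ← Real.exp_add, show r / 2 + -r / 2 = 0 by ring,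
    Real.exp_zero] at this
  linarith

end Mx

end Crest.Agent.T145
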