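import Crest.Agent.T145.MxDef_9
import Crest.Agent.T145.MxA_9
import Crest.Agent.T145.Soft_23
import Crest.Agent.T145.Bes_66
import Crest.Agent.T145.GsR_85
import Crest.Agent.T145.CorB_59
import Crest.Agent.T145.ExplU_56
import Crest.Agent.T145.GfSpr_80
import Crest.Agent.T145.GeoB_51

-- ▼ part T145/MxFf_86
section

/-!
# Row 145, module Mx: exponential decay of covariances in the massive box (helper86)
-/

set_option autoImplicit false

namespace Crest.Agent.T145.Mx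

open Finset

namespace Ff86

theorem ctr_ms {Λ : Lat} (h : Λ.Ok) (B : Finset Pt) {μ : ℝ} (hμ : 0 < μ) :
    (ms Λ B μ).Ctr ∧ (ms Λ B μ).Anch := by
  have k := (gauStmt μ⁻¹ (inv_pos.2 hμ)).1
  have e : ∀ x, (ms Λ B μ).site x = gau μ⁻¹ := fun x => funext fun j => one_mul _
  refine ⟨⟨fun _ _ => h.fam, fun x _ => ?_⟩, fun x _ => ⟨x, .refl, Or.inr ?_⟩⟩
  · rw [e]; exact ⟨k.cen.toRSD, k.pd, k.cen.pos0⟩
  · rw [e]; exact k.cen.se

/-- `A u` at a point, as a sum over the steps -/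
theorem Au_apply {Λ : Lat} (h : Λ.Ok) {B : Finset Pt} (u : Pt → ℝ) {x : Pt} (hx : x ∈ B) :
    Λ.Au B u x = (∑ y ∈ Λ.J, ind (x + y ∈ B) * (u x - u (x + y))) / Λ.τ := by
  rw [h.sum_J, sum_div, Lat.Au, dv, Lat.sum_edI]
  refine sum_congr rfl fun y _ => ?_
  simp only [mul_sub, sum_sub_distrib, ind_eq_ite, mul_ite, mul_one, mul_zero,
    ← eq_sub_iff_add_eq, sum_ite_eq', mem_filter, sub_add_cancel, hx, and_true, true_and,
    ← sub_eq_add_neg]
  split_ifs <;> ring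

theorem c11_exp {g : ℝ → ℝ} {K : ℝ} (hg : C11 g K) (h0 : ∀ t, 0 ≤ g t) :
    C11 (fun t => Real.exp (-g t)) (K + K ^ 2) := by
  have hK := hg.nonneg
  have e1 : ∀ t, Real.exp (-g t) ≤ 1 := fun t => Real.exp_le_one_iff.2 (neg_nonpos.2 (h0 t))
  have hd : ∀ t, HasDerivAt (fun t => Real.exp (-g t)) (Real.exp (-g t) * -deriv g t) t :=
    fun t => (hg.1 t).hasDerivAt.neg.exp
  have b : ∀ t, |Real.exp (-g t) * -deriv g t| ≤ K := fun t => by
    rw [abs_mul, abs_neg, abs_of_pos (Real.exp_pos _)]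
    exact (mul_le_of_le_one_left (abs_nonneg _) (e1 t)).trans (hg.2.1 t)
  refine C11.of_hasDerivAt hd (fun t => (b t).trans (by nlinarith)) fun t t' => ?_
  have l := S58.mvt (fun t => (hd t).differentiableAt) (fun t => by rw [(hd t).deriv]; exact b t) t t'
  have e : Real.exp (-g t) * -deriv g t - Real.exp (-g t') * -deriv g t' =
      -(Real.exp (-g t) * (deriv g t - deriv g t')) -
        (Real.exp (-g t) - Real.exp (-g t')) * deriv g t' := by ring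
  rw [e]
  refine (abs_sub _ _).trans ?_
  rw [abs_neg, abs_mul, abs_mul, abs_of_pos (Real.exp_pos _)]
  have a1 := (mul_le_of_le_one_left (abs_nonneg _) (e1 t)).trans (hg.2.2 t t')
  have a2 := mul_le_mul l (hg.2.1 t') (abs_nonneg _) (by positivity)
  nlinarith

/-- the profile -/
noncomputable def ψ (lam t w s : ℝ) : ℝ := 2 * Real.exp (-(lam * stp ((s - t) / w)))

variable {lam t w : ℝ}

theorem ψ_pos (s : ℝ) : 0 < ψ lam t w s := by unfold ψ; positivity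

theorem ψ_le (hl : 0 ≤ lam) (s : ℝ) : ψ lam t w s ≤ 2 := by
  have := Real.exp_le_one_iff.2 (neg_nonpos.2 (mul_nonneg hl (stp_nonneg ((s - t) / w))))
  unfold ψ; linarith

theorem ψ_left (hw : 0 < w) {s : ℝ} (h : s ≤ t) : ψ lam t w s = 2 := by
  rw [ψ, stp_zero (div_nonpos_of_nonpos_of_nonneg (by linarith) hw.le)]; simp

theorem ψ_right (hw : 0 < w) {s : ℝ} (h : t + w ≤ s) : ψ lam t w s = 2 * Real.exp (-lam) := by
  rw [ψ, stp_one ((one_le_div hw).2 (by linarith)), mul_one]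

theorem ψ_anti (hl : 0 ≤ lam) (hw : 0 < w) {s s' : ℝ} (h : s ≤ s') : ψ lam t w s' ≤ ψ lam t w s := by
  have := stp_mono (show (s - t) / w ≤ (s' - t) / w by gcongr)
  unfold ψ
  gcongr

theorem ψ_dd (hl : 0 ≤ lam) (hw : 0 < w) (s : ℝ) {h : ℝ} (hh : 6 * lam * |h| ≤ w) :
    ψ lam t w (s + h) + ψ lam t w (s - h) - 2 * ψ lam t w s ≤
      (6 * lam + 72 * lam ^ 2) * (h / w) ^ 2 * ψ lam t w s := by
  set p := (s - t) / w
  set k := h / w with hk
  have e1 : (s + h - t) / w = p + k := by rw [hk]; ring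
  have e2 : (s - h - t) / w = p - k := by rw [hk]; ring
  have hk1 : 6 * lam * |k| ≤ 1 := by
    rw [hk, abs_div, abs_of_pos hw, ← mul_div_assoc, div_le_one hw]; exact hh
  have m1 := S58.mvt stp_c11.1 stp_c11.2.1 (p + k) p
  have m2 := S58.mvt stp_c11.1 stp_c11.2.1 (p - k) p
  have m3 := S58.abs_dd_le stp_c11.1 stp_c11.2.2 (p - k) k k
  rw [add_sub_cancel_left] at m1
  rw [sub_sub_cancel_left, abs_neg] at m2
  rw [sub_add_cancel, mul_assoc, abs_mul_abs_self] at m3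
  set a := -(lam * (stp (p + k) - stp p)) with ha
  set b := -(lam * (stp (p - k) - stp p)) with hb
  have a1 : |a| ≤ 6 * lam * |k| := by
    rw [ha, abs_neg, abs_mul, abs_of_nonneg hl]; nlinarith
  have b1 : |b| ≤ 6 * lam * |k| := by
    rw [hb, abs_neg, abs_mul, abs_of_nonneg hl]; nlinarith
  have a2 := (abs_le.1 (Real.abs_exp_sub_one_sub_id_le (a1.trans hk1))).2
  have b2 := (abs_le.1 (Real.abs_exp_sub_one_sub_id_le (b1.trans hk1))).2
  have q : (6 * lam * |k|) ^ 2 = 36 * lam ^ 2 * k ^ 2 := by rw [mul_pow, sq_abs]; ring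
  have a3 : a ^ 2 ≤ 36 * lam ^ 2 * k ^ 2 := by
    rw [← q, ← sq_abs]; exact pow_le_pow_left₀ (abs_nonneg _) a1 2
  have b3 : b ^ 2 ≤ 36 * lam ^ 2 * k ^ 2 := by
    rw [← q, ← sq_abs]; exact pow_le_pow_left₀ (abs_nonneg _) b1 2
  have ab : a + b ≤ 6 * lam * k ^ 2 := by
    have := mul_le_mul_of_nonneg_left (abs_le.1 m3).1 hl
    rw [ha, hb]; nlinarith
  have f1 : ψ lam t w (s + h) = Real.exp a * ψ lam t w s := by
    rw [ψ, ψ, e1, mul_left_comm, ← Real.exp_add, ha]; congr 2; ring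
  have f2 : ψ lam t w (s - h) = Real.exp b * ψ lam t w s := by
    rw [ψ, ψ, e2, mul_left_comm, ← Real.exp_add, hb]; congr 2; ring
  rw [f1, f2]
  have := mul_le_mul_of_nonneg_right (show Real.exp a + Real.exp b - 2 ≤
    (6 * lam + 72 * lam ^ 2) * k ^ 2 by nlinarith) (ψ_pos (lam := lam) (t := t) (w := w) s).le
  linarith

/-- reflection of the `i`-th coordinate -/
def rf (i : Fin 2) (y : Pt) : Pt := ![(-y.1, y.2), (y.1, -y.2)] i

/-- the other coordinate -/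
def oc (i : Fin 2) (y : Pt) : ℤ := ![y.2, y.1] i

theorem rf_rf (i : Fin 2) (y : Pt) : rf i (rf i y) = y := by fin_cases i <;> simp [rf]

theorem rf_mem {Λ : Lat} (h : Λ.Ok) (i : Fin 2) {y : Pt} (hy : y ∈ Λ.J) : rf i y ∈ Λ.J := by
  fin_cases i
  exacts [h.fl1 hy, h.fl2 hy]

theorem co_rf (i : Fin 2) (y : Pt) : co i (rf i y) = -co i y := by fin_cases i <;> simp [rf, co]

theorem oc_rf (i : Fin 2) (x y : Pt) : oc i (x + rf i y) = oc i (x + y) := by
  fin_cases i <;> simp [rf, oc]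

theorem mem_box (i : Fin 2) (L : ℕ) (x : Pt) :
    x ∈ sq 0 L ↔ (0 ≤ oc i x ∧ oc i x < L) ∧ -1 < co i x ∧ co i x < L := by
  have e : ∀ k : ℤ, (-1 < (k : ℝ) ∧ (k : ℝ) < L) ↔ (-1 < k ∧ k < L) := fun k => by norm_cast
  fin_cases i <;> simp only [oc, co, mem_sq] <;> simp [e] <;> omega

theorem co_le {Λ : Lat} (i : Fin 2) {y : Pt} (hy : y ∈ Λ.J) : |co i y| ≤ Λ.rg := by
  have := Lat.le_rg hy
  fin_cases i
  · show |(y.1 : ℝ)| ≤ _
    exact_mod_cast this.1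
  · show |(y.2 : ℝ)| ≤ _
    exact_mod_cast this.2

/-- supersolution -/
theorem sup {Λ : Lat} (h : Λ.Ok) (hl : 0 ≤ lam) (hw : 0 < w) (i : Fin 2) {L : ℕ}
    (h1 : 6 * lam * Λ.rg ≤ w) (h2 : t + w + Λ.rg ≤ L) {x : Pt} (hx : x ∈ sq 0 L) :
    -(#Λ.J * ((6 * lam + 72 * lam ^ 2) * (Λ.rg / w) ^ 2 * ψ lam t w (co i x)) / 2 / Λ.τ) ≤
      Λ.Au (sq 0 L) (fun z => ψ lam t w (co i z)) x := by
  rw [Au_apply h _ hx, ← neg_div]
  refine div_le_div_of_nonneg_right ?_ h.pos.le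
  set c := (6 * lam + 72 * lam ^ 2) * (Λ.rg / w) ^ 2 * ψ lam t w (co i x)
  set G : Pt → ℝ := fun y => ind (0 ≤ oc i (x + y) ∧ oc i (x + y) < L) *
    (ψ lam t w (co i x) - ψ lam t w (co i x + co i y)) with hG
  have hx' := (mem_box i L x).1 hx
  have s1 : ∑ y ∈ Λ.J, G y ≤
      ∑ y ∈ Λ.J, ind (x + y ∈ sq 0 L) * (ψ lam t w (co i x) - ψ lam t w (co i (x + y))) := by
    refine sum_le_sum fun y hy => ?_
    rw [hG, S58.co_add]
    by_cases a : x + y ∈ sq 0 L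
    · simp only [ind_pos a, ind_pos ((mem_box i L _).1 a).1, le_refl]
    by_cases b : 0 ≤ oc i (x + y) ∧ oc i (x + y) < L
    swap
    · simp only [ind_neg a, ind_neg b, le_refl]
    simp only [ind_neg a, ind_pos b, zero_mul, one_mul, sub_nonpos]
    rw [mem_box i, S58.co_add] at a
    have hy' := abs_le.1 (co_le i hy)
    by_cases d : -1 < co i x + co i y
    · have d' : (L : ℝ) ≤ co i x + co i y := not_lt.1 fun d' => a ⟨b, d, d'⟩
      have r0 : (0 : ℝ) ≤ Λ.rg := Nat.cast_nonneg _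
      rw [ψ_right hw (by linarith), ψ_right hw (by linarith)]
    · exact ψ_anti hl hw (by linarith [not_lt.1 d])
  have s2 : ∑ y ∈ Λ.J, G y = ∑ y ∈ Λ.J, G (rf i y) :=
    sum_bij' (fun y _ => rf i y) (fun y _ => rf i y) (fun y hy => rf_mem h i hy)
      (fun y hy => rf_mem h i hy) (fun y _ => rf_rf i y) (fun y _ => rf_rf i y)
      fun y _ => by rw [rf_rf]
  have s3 : ∑ y ∈ Λ.J, -c ≤ ∑ y ∈ Λ.J, (G y + G (rf i y)) := by
    refine sum_le_sum fun y hy => ?_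
    have hy' := co_le i hy
    have d := ψ_dd (t := t) hl hw (co i x) (h := co i y)
      ((mul_le_mul_of_nonneg_left hy' (by positivity)).trans h1)
    have p := ψ_pos (lam := lam) (t := t) (w := w) (co i x)
    have q : (co i y / w) ^ 2 ≤ (Λ.rg / w) ^ 2 := by
      rw [div_pow, div_pow, ← sq_abs (co i y)]; gcongr
    have d' : (6 * lam + 72 * lam ^ 2) * (co i y / w) ^ 2 * ψ lam t w (co i x) ≤ c := by
      simp only [c]; gcongr
    have c0 : 0 ≤ c := by positivity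
    simp only [hG, oc_rf, co_rf, ← sub_eq_add_neg]
    by_cases b : 0 ≤ oc i (x + y) ∧ oc i (x + y) < L
    · rw [ind_pos b]; linarith
    · rw [ind_neg b]; linarith
  rw [sum_add_distrib, ← s2, sum_const, nsmul_eq_mul] at s3
  linarith

theorem sm_ψ {K α : ℝ} (hl : 0 ≤ lam) (hK : lam ≤ K) (hα : 0 < α) (i : Fin 2) {L : ℝ} (hL : 0 < L) :
    Sm2 (fun z => ψ lam t (α * L / 2) (co i z))
      (2 * (K * (6 * (1 + 2 / α) ^ 2) + (K * (6 * (1 + 2 / α) ^ 2)) ^ 2)) L := by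
  have hα' : 0 < 2 / α := by positivity
  have c1 := (stp_c11.comp_affine (2 / α) 0 (m := 1 + 2 / α) (by linarith)
    (by rw [abs_of_pos hα']; linarith)).const_mul lam
  rw [abs_of_nonneg hl] at c1
  have c2 := (c11_exp (c1.mono (K' := K * (6 * (1 + 2 / α) ^ 2)) (by gcongr))
    fun s => mul_nonneg hl (stp_nonneg _)).const_mul 2
  rw [abs_two] at c2
  convert sm2_coord c2 hL i (-t / L) using 2 with z
  rw [ψ]
  congr 5
  field_simp
  ring

theorem num {κ R μ L α N J r τ τ₁ θ θ₀ p : ℝ} (κ0 : 0 < κ) (κ1 : κ ≤ 1) (R1 : 1 ≤ R)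
    (R2 : R ^ 2 = μ * L ^ 2) (L0 : 0 < L) (hα : 0 < α) (μ0 : 0 < μ) (J0 : 0 ≤ J) (b2 : J * r ^ 2 ≤ N)
    (κ2 : κ * (624 * N) ≤ θ₀ * τ₁ * α ^ 2) (h1 : 0 < τ₁) (h2 : τ₁ ≤ τ) (h3 : 0 < θ₀) (h4 : θ₀ / 2 ≤ θ)
    (hp : 0 < p) :
    J * ((6 * (κ * R) + 72 * (κ * R) ^ 2) * (r / (α * L / 2)) ^ 2 * p) / 2 / τ ≤ θ * (μ * p / 2) := by
  have b1 : 6 * (κ * R) + 72 * (κ * R) ^ 2 ≤ 78 * κ * (μ * L ^ 2) := by
    have a1 : κ * R ≤ κ * R ^ 2 := mul_le_mul_of_nonneg_left (by nlinarith) κ0.le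
    have a2 : κ * (κ * R ^ 2) ≤ κ * R ^ 2 := mul_le_of_le_one_left (by positivity) κ1
    rw [← R2]; nlinarith
  have θ0 : 0 < θ := by linarith
  rw [div_le_iff₀ (h1.trans_le h2)]
  calc _ ≤ J * (78 * κ * (μ * L ^ 2) * (r / (α * L / 2)) ^ 2 * p) / 2 := by gcongr
    _ = J * r ^ 2 * (κ * 624) / α ^ 2 * (μ * p / 4) := by field_simp; ring
    _ ≤ N * (κ * 624) / α ^ 2 * (μ * p / 4) := by gcongr
    _ ≤ θ₀ * τ₁ * (μ * p / 4) := by
        refine mul_le_mul_of_nonneg_right ?_ (by positivity)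
        rw [div_le_iff₀ (by positivity)]; linarith
    _ = θ₀ / 2 * (μ * p / 2) * τ₁ := by ring
    _ ≤ _ := by gcongr

/-- comparison with a supersolution -/
theorem cmp {Λ : Lat} (ok : Λ.Ok) {B : Finset Pt} {μ : ℝ} (μ0 : 0 < μ) {f f' g : Pt → ℝ}
    (h : ∀ x ∈ B, f x ≤ f' x) (hg : ∀ x, 0 ≤ g x) :
    Vr ((ms Λ B μ).W 0) (pr f) (pr g) ≤ Vr ((ms Λ B μ).W 0) (pr f') (pr g) := by
  obtain ⟨hc, hA⟩ := ctr_ms ok B μ0
  have off : ∀ s, (ms Λ B μ).W 0 s ≠ 0 → ∀ x, s x ≠ 0 → x ∈ B := fun s hs x hx => by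
    by_contra h'; exact hx (Mdl.W_ne_zero hs h')
  have V := vr_nonneg hc hA (φ := fun x => ind (x ∈ B) * (f' x - f x)) (ψ := g) (fun x => by
    by_cases hx : x ∈ B
    · rw [ind_pos hx, one_mul, sub_nonneg]; exact h x hx
    · rw [ind_neg hx, zero_mul]) hg
  rw [Vr_congr (f' := pr f' - pr f) (g' := pr g) (fun s hs => by
    rw [← pr_sub]; exact pr_congr fun x hx => by simp [ind_pos (off s hs x hx)]) fun _ _ => rfl,
    (Md.ctr_cen hc hA).se.Vr_sub_left] at V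
  linarith

theorem num2 {κ R K r a : ℝ} (κ1 : κ ≤ 1) (R1 : 1 ≤ R) (RK : R ^ 2 ≤ K) (r0 : 0 ≤ r)
    (h : 12 * K * r ≤ a) : κ * R ≤ K ∧ 6 * (κ * R) * r ≤ a / 2 ∧ r ≤ a / 2 := by
  have a1 : κ * R ≤ K := by nlinarith
  have a2 : 1 ≤ K := by nlinarith
  exact ⟨a1, by nlinarith, by nlinarith⟩

end Ff86

open Ff86 in
theorem ffStmt (hG : GmStmt) (hm : T1mStmt) : FfStmt := by
  intro F θ₀ α hθ hα
  have hτ := F.pos
  obtain ⟨N, N0, hN⟩ : ∃ N : ℝ, 0 < N ∧ #F.base.J * (F.base.rg : ℝ) ^ 2 ≤ N :=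
    ⟨#F.base.J * (F.base.rg : ℝ) ^ 2 + 1, by positivity, by linarith⟩
  obtain ⟨κ, κ0, κ1, κ2⟩ : ∃ κ : ℝ, 0 < κ ∧ κ ≤ 1 ∧ κ * (624 * N) ≤ θ₀ * F.τ₁ * α ^ 2 :=
    ⟨min 1 (θ₀ * F.τ₁ * α ^ 2 / (624 * N)), by positivity, min_le_left _ _,
      (le_div_iff₀ (by positivity)).1 (min_le_right _ _)⟩
  refine ⟨κ, κ0, fun K ε hK hε => ?_⟩
  obtain ⟨K₁, K0, hK₁⟩ : ∃ K₁ : ℝ, 0 ≤ K₁ ∧
      2 * (K * (6 * (1 + 2 / α) ^ 2) + (K * (6 * (1 + 2 / α) ^ 2)) ^ 2) ≤ K₁ :=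
    ⟨_, by positivity, le_rfl⟩
  obtain ⟨δ₁, d1, H1⟩ := hG F θ₀ (K₁ + K + 2) ε hθ (by linarith) hε
  obtain ⟨δ₂, d2, H2⟩ := hm.2.2 F θ₀ 1 0 hθ one_pos
  obtain ⟨c, c0, hc⟩ : ∃ c : ℝ, 0 < c ∧ 12 * K * F.base.rg / α ≤ c :=
    ⟨12 * K * F.base.rg / α + 1, by positivity, by linarith⟩
  refine ⟨min (min δ₁ δ₂) c⁻¹, by positivity,
    fun Λ hΛ l L hW μ t i f g hμ1 hμ2 hf hg hft hgt => ?_⟩
  have ok := hΛ.ok
  have L0 := hW.L_pos'
  have hθ' := (H2 Λ hΛ l L (hW.mono_d ((min_le_left _ _).trans (min_le_right _ _)))).2.1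
  have H := H1 Λ hΛ l L (hW.mono_d ((min_le_left _ _).trans (min_le_left _ _)))
  have hL : c ≤ L := by
    have := hW.sep.inv_L_le.trans (min_le_right _ _)
    rwa [one_div, inv_le_inv₀ L0 c0] at this
  have hL' : 12 * K * Λ.rg ≤ α * L := by
    rw [hΛ.rg_eq, mul_comm α, ← div_le_iff₀ hα]; exact hc.trans hL
  clear H1 H2 hc hL hW
  have μ0 : 0 < μ := (pos_iff_pos_of_mul_pos (one_pos.trans_le hμ1)).2 (by positivity)
  obtain ⟨R, hR, R2, R1⟩ : ∃ R, Real.sqrt (μ * (L : ℝ) ^ 2) = R ∧ R ^ 2 = μ * (L : ℝ) ^ 2 ∧ 1 ≤ R :=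
    ⟨_, rfl, Real.sq_sqrt (by linarith), Real.one_le_sqrt.2 hμ1⟩
  rw [hR]
  by_cases hy : ∃ y ∈ sq 0 L, g y ≠ 0
  swap
  · have := cmp ok (B := sq 0 L) μ0 (f := g) (f' := (0 : ℝ) • g) (g := f) (fun x hx => by
      have : g x = 0 := by by_contra h'; exact hy ⟨x, hx, h'⟩
      simp [this]) fun x => (hf x).1
    rw [pr_smul, Vr_smul_left, zero_mul, Vr_comm] at this
    exact this.trans (by positivity)
  obtain ⟨y, hy, hy'⟩ := hy
  have y1 := hgt y hy'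
  have y2 := ((mem_box i L y).1 hy).2.2
  obtain ⟨lK, n1, n2⟩ := num2 κ1 R1 (R2.trans_le hμ2) (Nat.cast_nonneg Λ.rg) hL'
  have l0 : 0 ≤ κ * R := by positivity
  have w0 : 0 < α * L / 2 := by positivity
  have θ0 : 0 < Λ.tN l := by linarith
  have key : ∀ x ∈ sq 0 L,
      f x ≤ fu Λ L (Λ.tN l) μ (fun z => ψ (κ * R) t (α * L / 2) (co i z)) x := fun x hx => by
    have s := sup (lam := κ * R) (t := t) ok l0 w0 i (L := L) n1 (by linarith) hx
    have p := ψ_pos (lam := κ * R) (t := t) (w := α * L / 2) (co i x)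
    have b := num (J := #Λ.J) (r := Λ.rg) κ0 κ1 R1 R2 L0 hα μ0 (Nat.cast_nonneg _)
      (by rw [hΛ.J_eq, hΛ.rg_eq]; exact hN) κ2 hτ hΛ.le_tau hθ hθ' p
    have a : -(μ * ψ (κ * R) t (α * L / 2) (co i x) / 2) ≤
        Λ.Au (sq 0 L) (fun z => ψ (κ * R) t (α * L / 2) (co i z)) x / Λ.tN l := by
      rw [le_div_iff₀ θ0]; linarith
    have a' : f x ≤ μ * ψ (κ * R) t (α * L / 2) (co i x) / 2 := by
      by_cases h0 : f x = 0
      · rw [h0]; positivity
      · rw [ψ_left w0 (hft x h0)]; linarith [(hf x).2]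
    rw [fu, ind_pos hx, one_mul]; linarith
  have gg : ip (sq 0 L) g g ≤ (K₁ + K + 2) * μ := by
    calc _ ≤ ∑ x ∈ sq (0 : Pt) L, μ * μ :=
          sum_le_sum fun x _ => mul_le_mul (hg x).2 (hg x).2 (hg x).1 μ0.le
      _ = μ * (L : ℝ) ^ 2 * μ := by rw [sum_const, card_sq, nsmul_eq_mul]; push_cast; ring
      _ ≤ _ := mul_le_mul_of_nonneg_right (by linarith) μ0.le
  have G := (abs_le.1 (H μ _ g hμ1 (by linarith)
    ((sm_ψ (t := t) l0 lK hα i L0).mono L0 (by linarith))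
    (fun x _ => by rw [abs_of_pos (ψ_pos _)]; linarith [ψ_le (t := t) (w := α * L / 2) l0 (co i x)])
    gg).2).2
  have ug : ip (sq 0 L) (fun z => ψ (κ * R) t (α * L / 2) (co i z)) g ≤
      2 * (μ * (L : ℝ) ^ 2) * Real.exp (-κ * R) := by
    calc _ ≤ ∑ x ∈ sq (0 : Pt) L, 2 * Real.exp (-(κ * R)) * μ := sum_le_sum fun x _ => by
          by_cases h0 : g x = 0
          · rw [h0, mul_zero]; positivity
          · beta_reduce
            rw [ψ_right (t := t) (s := co i x) w0 (by linarith [hgt x h0])]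
            exact mul_le_mul_of_nonneg_left (hg x).2 (by positivity)
      _ = _ := by rw [sum_const, card_sq, nsmul_eq_mul, neg_mul]; push_cast; ring
  linarith [cmp ok μ0 key fun x => (hg x).1]

end Crest.Agent.T145.Mx
end

-- ▼ part T145/MxHs_41
section

/-!
# Row 145, module Mx (helper41): Hubbard-Stratonovich bounds and the integrated Stein identity
-/

set_option autoImplicit false

namespace Crest.Agent.T145.Mx

open Finset Matrix MeasureTheory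

namespace H41

/-- Fubini for `Ex` on an arbitrary type -/
theorem ex_integral {α β : Type*} [MeasurableSpace β] {W : α → ℝ} (hW : Wt W) (μ : Measure β)
    [IsProbabilityMeasure μ] {F : α → β → ℝ} (hF : ∀ a, Measurable (F a)) (h1 : ∀ a b, |F a b| ≤ 1) :
    Ex W (fun a => ∫ b, F a b ∂μ) = ∫ b, Ex W (fun a => F a b) ∂μ := by
  have hc : Countable (Function.support W) := hW.summ.countable_support.to_subtype
  have hs : ∀ G : α → ℝ, ∑' a, W a * G a = ∑' a : Function.support W, W a * G a := fun G =>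
    (tsum_subtype_eq_of_support_subset (f := fun a => W a * G a) fun a ha =>
      left_ne_zero_of_mul ha).symm
  have hi : ∀ a : Function.support W, Integrable (fun b => W a * F a b) μ := fun a =>
    (Gs.int_bdd (hF a) (h1 a)).const_mul _
  simp only [Ex_def, hs]
  rw [integral_div, ← integral_tsum_of_summable_integral_norm hi]
  · simp only [integral_const_mul]
  · refine Summable.of_nonneg_of_le (fun a => integral_nonneg fun b => norm_nonneg _) (fun a => ?_)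
      (hW.summ.subtype _)
    have := norm_integral_le_of_norm_le_const (μ := μ) (C := W a) (f := fun b => ‖W a * F a b‖)
      (Filter.Eventually.of_forall fun b => by
        rw [norm_norm, norm_mul, Real.norm_of_nonneg (hW.nonneg a)]
        exact mul_le_of_le_one_right (hW.nonneg a) (h1 a b))
    simp only [probReal_univ, mul_one] at this
    exact (le_abs_self _).trans this

variable {L ι : Type} [AddCommGroup L] {W : L → ℝ}

open Classical in
/-- extension by zero -/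
noncomputable def ex0 (T : Finset ι) (z : T → ℝ) (j : ι) : ℝ := if h : j ∈ T then z ⟨j, h⟩ else 0

theorem ex0_coe (T : Finset ι) (z : T → ℝ) (j : T) : ex0 T z j = z j := by simp [ex0]

theorem abs_ex0 {T : Finset ι} {z : T → ℝ} {R : ℝ} (h : ‖z‖ ≤ R) : ∀ j ∈ T, |ex0 T z j| ≤ R :=
  fun j hj => by rw [ex0_coe T z ⟨j, hj⟩]; exact (norm_le_pi_norm z ⟨j, hj⟩).trans h

theorem sum_ex0 (T : Finset ι) (z : T → ℝ) (φ : ι → ℝ → ℝ) :
    ∑ j ∈ T, φ j (ex0 T z j) = ∑ j : T, φ j (z j) := by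
  rw [← sum_coe_sort T]; simp only [ex0_coe]

theorem zl_ex0 (T : Finset ι) (ℓ : ι → L →+ ℝ) (z : T → ℝ) (s : L) :
    zl T ℓ (ex0 T z) s = (fun j : T => ℓ j s) ⬝ᵥ z := by
  rw [zl, AddMonoidHom.finsetSum_apply]
  simp only [AddMonoidHom.smul_apply, smul_eq_mul]
  rw [sum_ex0 T z fun j x => x * ℓ j s, dotProduct_comm]; rfl

theorem cont_ph (hW : Wt W) (T : Finset ι) (ℓ : ι → L →+ ℝ) (X : L →+ ℝ) :
    Continuous fun z : T → ℝ => Ph W (X + zl T ℓ (ex0 T z)) := by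
  simp only [Ph, Ex_def, AddMonoidHom.add_apply, zl_ex0]
  refine (continuous_tsum (fun s => ?_) hW.summ fun s z => ?_).div_const _
  · exact continuous_const.mul (Real.continuous_cos.comp (continuous_const.add (Gs.cont_dot _)))
  · rw [norm_mul, Real.norm_of_nonneg (hW.nonneg s)]
    exact mul_le_of_le_one_right (hW.nonneg s) (Real.abs_cos_le_one _)

/-- Hubbard-Stratonovich -/
theorem hs_eq [DecidableEq ι] (hW : Wt W) (T : Finset ι) (ℓ : ι → L →+ ℝ) (X : L →+ ℝ) :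
    Ex W (fun s => Real.cos (X s) * gq T ℓ s) =
      ∫ z, Ph W (X + zl T ℓ (ex0 T z)) ∂(Gs.gm (1 : Matrix T T ℝ)) := by
  simp only [Ph, AddMonoidHom.add_apply, zl_ex0]
  rw [← ex_integral hW _ (F := fun s z => Real.cos (X s + (fun j : T => ℓ j s) ⬝ᵥ z))
    (fun s => (Real.continuous_cos.comp (continuous_const.add (Gs.cont_dot _))).measurable)
    fun _ _ => Real.abs_cos_le_one _]
  congr 1
  funext s
  simp_rw [add_comm (X s)]
  rw [Gs.integral_cos PosSemidef.one, mul_comm, one_mulVec, gq, ← sum_coe_sort T]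
  simp only [dotProduct, pow_two]

theorem exp_half : Real.exp (1 / 2) ≤ 2 := by
  have := Real.exp_one_lt_d9
  have h3 : Real.exp (1 / 2) * Real.exp (1 / 2) = Real.exp 1 := by rw [← Real.exp_add]; norm_num
  nlinarith [Real.exp_pos (1 / 2)]

/-- truncation of a standard Gaussian integral -/
theorem trunc {κ : Type} [Fintype κ] [DecidableEq κ] {G B : (κ → ℝ) → ℝ} {R η : ℝ} (hη : 0 ≤ η)
    (hG : Continuous G) (h1 : ∀ z, |G z| ≤ 1) (hB : Integrable B (Gs.gm (1 : Matrix κ κ ℝ)))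
    (h0 : ∀ z, 0 ≤ B z) (h : ∀ z, ‖z‖ ≤ R → G z ≤ B z + η) :
    ∫ z, G z ∂(Gs.gm (1 : Matrix κ κ ℝ)) ≤
      ∫ z, B z ∂(Gs.gm (1 : Matrix κ κ ℝ)) + η + Real.exp (-R) * (1 + 4 * Fintype.card κ) := by
  have i3 := (Gs.int_exp_norm (1 : Matrix κ κ ℝ) 1).const_mul (Real.exp (-R))
  have h4 := integral_mono (Gs.int_bdd hG.measurable h1) ((hB.add (integrable_const η)).add i3)
    fun z => by
      simp only [Pi.add_apply]
      rcases le_or_gt ‖z‖ R with hz | hz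
      · exact (h z hz).trans (le_add_of_nonneg_right (by positivity))
      · have h3 : 1 ≤ Real.exp (-R) * Real.exp (1 * ‖z‖) := by
          rw [← Real.exp_add]; exact Real.one_le_exp (by linarith)
        linarith [h0 z, (abs_le.1 (h1 z)).2]
  rw [integral_add' (hB.add (integrable_const η)) i3, integral_add' hB (integrable_const η),
    integral_const_mul] at h4
  have h5 := Gs.integral_exp_norm_le (B := (1 : Matrix κ κ ℝ)) PosSemidef.one (K := 1)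
    (fun i => by simp) 1
  simp only [integral_const, probReal_univ, smul_eq_mul, one_mul, one_pow] at h4 h5
  refine h4.trans (add_le_add_right (mul_le_mul_of_nonneg_left (h5.trans ?_) (Real.exp_pos _).le) _)
  have : (0 : ℝ) ≤ Fintype.card κ := Nat.cast_nonneg _
  nlinarith [exp_half]

theorem int_diag [DecidableEq ι] (T : Finset ι) {v : ι → ℝ} (hv : ∀ j ∈ T, 0 ≤ v j) :
    Integrable (Gs.gw (diagonal fun j : T => v j)) (Gs.gm (1 : Matrix T T ℝ)) ∧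
      ∫ z, Gs.gw (diagonal fun j : T => v j) z ∂(Gs.gm (1 : Matrix T T ℝ)) =
        ∏ j ∈ T, 1 / Real.sqrt (1 + v j) := by
  have hC : (diagonal fun t : T => v t).PosSemidef := PosSemidef.diagonal fun t => hv t t.2
  refine ⟨Gs.int_gw_gm PosSemidef.one (Gs.tOk_of_psd _ hC), ?_⟩
  rw [Gs.integral_gw_gm PosSemidef.one (Gs.tOk_of_psd _ hC), Matrix.mul_one, ← diagonal_one,
    diagonal_add, det_diagonal, prod_coe_sort T fun t => 1 + v t,
    Real.sqrt_prod _ fun t ht => add_nonneg zero_le_one (hv t ht), prod_div_distrib, prod_const_one,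
    one_div]

theorem gw_diag [DecidableEq ι] (T : Finset ι) (v : ι → ℝ) (z : T → ℝ) :
    Gs.gw (diagonal fun j : T => v j) z = Real.exp (-(∑ j ∈ T, v j * ex0 T z j ^ 2) / 2) := by
  rw [sum_ex0 T z fun j x => v j * x ^ 2, Gs.gw]
  simp only [dotProduct, mulVec_diagonal]
  congr 3
  exact sum_congr rfl fun t _ => by ring

end H41

open H41 in
theorem hsStmt : HsStmt := by
  intro n K ε hε
  obtain ⟨R, hR0, hR⟩ : ∃ R : ℝ, 0 < R ∧ Real.exp (-R) * (1 + 4 * n) ≤ ε / 2 := by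
    refine ⟨2 * (1 + 4 * n) / ε, by positivity, ?_⟩
    have h1 := Real.add_one_le_exp (2 * (1 + 4 * n) / ε)
    have h2 : 2 * (1 + 4 * n) / ε ≤ Real.exp (2 * (1 + 4 * n) / ε) := by linarith
    rw [div_le_iff₀ hε] at h2
    rw [Real.exp_neg, inv_mul_le_iff₀ (Real.exp_pos _)]
    linarith
  refine ⟨R + |K|, ε / 2, by positivity, half_pos hε, fun L ι _ _ ρ T ℓ hc hT => ?_⟩
  classical
  have hW := hc.wt
  have hRK : R ≤ R + |K| := le_add_of_nonneg_right (abs_nonneg _)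
  have tail : Real.exp (-R) * (1 + 4 * Fintype.card T) ≤ ε / 2 := by
    refine le_trans ?_ hR
    rw [Fintype.card_coe]
    have : (T.card : ℝ) ≤ n := by exact_mod_cast hT
    gcongr
  have e0 : Ex ρ (gq T ℓ) = ∫ z, Ph ρ (zl T ℓ (ex0 T z)) ∂(Gs.gm (1 : Matrix T T ℝ)) := by
    simpa using hs_eq hW T ℓ 0
  have c0 : Continuous fun z : T → ℝ => Ph ρ (zl T ℓ (ex0 T z)) := by simpa using cont_ph hW T ℓ 0
  refine ⟨fun X h => ?_, fun v hv h => ?_, fun X h E hh H => ?_⟩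
  · have := trunc (B := fun _ => 0) (R := R) (half_pos hε).le (cont_ph hW T ℓ X)
      (fun _ => hW.abs_Ph_le _) (integrable_const _) (fun _ => le_rfl) fun z hz => by
        rw [zero_add]; exact h _ (abs_ex0 (hz.trans hRK))
    rw [hs_eq hW]
    rw [integral_zero] at this
    linarith
  · have := trunc (R := R) (half_pos hε).le c0 (fun _ => hW.abs_Ph_le _) (int_diag T hv).1
      (fun _ => (Gs.gw_pos _ _).le) fun z hz => by
        rw [gw_diag]; exact h _ (abs_ex0 (hz.trans hRK))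
    rw [(int_diag T hv).2, ← e0] at this
    linarith
  · set k : T → ℝ := fun j => h j with hk
    have hkK : ‖k‖ ≤ |K| :=
      (pi_norm_le_iff_of_nonneg (abs_nonneg _)).2 fun j => (hh j j.2).trans (le_abs_self _)
    set B : (T → ℝ) → ℝ := fun x => Real.exp (-E / 2 - k ⬝ᵥ x) * Ph ρ (zl T ℓ (ex0 T x)) with hB
    have eB : ∀ x, Gs.cmd (1 : Matrix T T ℝ) k x • B x =
        Real.exp (-(E + ∑ j ∈ T, h j ^ 2) / 2) * Ph ρ (zl T ℓ (ex0 T x)) := by
      intro x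
      rw [smul_eq_mul, hB, Gs.cmd, ← mul_assoc, ← Real.exp_add, one_mulVec, ← sum_coe_sort T]
      congr 2
      simp only [dotProduct, hk, pow_two]
      ring
    have iB : Integrable (fun x => B (x + (1 : Matrix T T ℝ) *ᵥ k)) (Gs.gm (1 : Matrix T T ℝ)) := by
      rw [Gs.int_shift PosSemidef.one]
      simp only [eB]
      exact (Gs.int_bdd c0.measurable fun _ => hW.abs_Ph_le _).const_mul _
    have e1 : ∀ z : T → ℝ, X + zl T ℓ h + zl T ℓ (ex0 T z) = X + zl T ℓ (ex0 T (z + k)) := by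
      intro z
      ext s
      have : zl T ℓ h = zl T ℓ (ex0 T k) := sum_congr rfl fun j hj => by rw [ex0_coe T k ⟨j, hj⟩]
      simp only [AddMonoidHom.add_apply, this, zl_ex0, dotProduct_add]
      ring
    have := trunc (R := R) (half_pos hε).le (cont_ph hW T ℓ (X + zl T ℓ h))
      (fun _ => hW.abs_Ph_le _) iB
      (fun _ => mul_nonneg (Real.exp_pos _).le (hc.ph_pos _).le) fun z hz => by
        rw [e1, one_mulVec]
        have h2 := H _ (abs_ex0 (z := z + k) ((norm_add_le _ _).trans (add_le_add hz hkK)))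
        rw [sum_ex0 T (z + k) fun j x => x * h j] at h2
        simp only [hB]
        rw [dotProduct_comm]
        exact h2
    rw [Gs.integral_shift PosSemidef.one] at this
    simp only [eB] at this
    rw [integral_const_mul, ← e0] at this
    rw [hs_eq hW]
    linarith

theorem odeStmt : OdeStmt := by
  intro L _ _ ρ X ζ E c ε hc hE h
  have hW := hc.wt
  have hX : Ig ρ fun s => |X s| := (hc.se.ig (Tame.hom X)).abs hW.nonneg
  have hφ : ∀ t : ℝ, HasDerivAt (fun y : ℝ => Ph ρ (y • X + ζ))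
      (-Ex ρ fun s => X s * Real.sin ((t • X + ζ) s)) t := by
    intro t
    rw [← Ex_neg]
    refine hasDerivAt_Ex (Φ := fun y s => Real.cos ((y • X + ζ) s))
      (Φ' := fun y s => -(X s * Real.sin ((y • X + ζ) s))) hW.nonneg one_pos hX
      (hW.ig_bdd fun _ => Real.abs_cos_le_one _) (fun s y _ => ?_) fun s y _ => ?_
    · have := (((hasDerivAt_id y).mul_const (X s)).add_const (ζ s)).cos
      simp only [AddMonoidHom.add_apply, AddMonoidHom.smul_apply, smul_eq_mul]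
      exact this.congr_deriv (by simp only [id]; ring)
    · rw [abs_neg, abs_mul]
      exact mul_le_of_le_one_right (abs_nonneg _) (Real.abs_sin_le_one _)
  have hg : ∀ t : ℝ, HasDerivAt (fun y : ℝ => Ph ρ (y • X + ζ) * Real.exp (y ^ 2 * E / 2 + c * y))
      (-((Ex ρ fun s => X s * Real.sin ((t • X + ζ) s)) - (t * E + c) * Ph ρ (t • X + ζ)) *
        Real.exp (t ^ 2 * E / 2 + c * t)) t := by
    intro t
    have h1 := (((((hasDerivAt_pow 2 t).mul_const E).div_const 2).add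
      ((hasDerivAt_id t).const_mul c))).exp
    exact ((hφ t).mul h1).congr_deriv (by simp only [Pi.add_apply, id]; push_cast; ring)
  have hε : 0 ≤ ε := (abs_nonneg _).trans (h 0 le_rfl zero_le_one)
  have key := norm_image_sub_le_of_norm_deriv_le_segment_01'
    (C := ε * Real.exp (E / 2 + c + |c|)) (fun t _ => (hg t).hasDerivWithinAt) fun t ht => by
      rw [Real.norm_eq_abs, abs_mul, abs_neg, abs_of_pos (Real.exp_pos _)]
      refine mul_le_mul (h t ht.1 ht.2.le) (Real.exp_le_exp.2 ?_) (Real.exp_pos _).le hε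
      have h1 : t ^ 2 ≤ 1 := pow_le_one₀ ht.1 ht.2.le
      have h2 : 0 ≤ c + |c| := by linarith [neg_abs_le c]
      nlinarith [mul_le_mul_of_nonneg_right h1 hE, mul_nonneg (sub_nonneg.2 ht.2.le) h2,
        mul_nonneg ht.1 (abs_nonneg c)]
  simp only [one_smul, zero_smul, zero_add, one_pow, one_mul, mul_one, mul_zero, add_zero,
    Real.norm_eq_abs] at key
  have e : Ph ρ (X + ζ) - Real.exp (-E / 2 - c) * Ph ρ ζ =
      Real.exp (-E / 2 - c) * (Ph ρ (X + ζ) * Real.exp (E / 2 + c) - Ph ρ ζ) := by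
    have : Real.exp (-E / 2 - c) * Real.exp (E / 2 + c) = 1 := by
      rw [← Real.exp_add, ← Real.exp_zero]; congr 1; ring
    linear_combination (-Ph ρ (X + ζ)) * this
  have e2 : ε * Real.exp |c| = Real.exp (-E / 2 - c) * (ε * Real.exp (E / 2 + c + |c|)) := by
    rw [mul_left_comm, ← Real.exp_add]; congr 2; ring
  rw [e, e2, abs_mul, abs_of_pos (Real.exp_pos _)]
  refine mul_le_mul_of_nonneg_left ?_ (Real.exp_pos _).le
  simpa using key

end Crest.Agent.T145.Mx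
end

-- ▼ part T145/MxMix_30
section

/-!
# Row 145, module Mx: MIX0 from the abstract assembly and the cell lemmas (helper30)
-/

set_option autoImplicit false

namespace Crest.Agent.T145.Mx

open Finset

namespace M30

theorem unif {Q : ℕ → ℝ → Prop} {P₀ : ℕ} (h : ∀ P, P₀ ≤ P → ∃ η, 0 < η ∧ Q P η) (N : ℕ) :
    ∃ η₀ : ℝ, 0 < η₀ ∧ ∀ P, P₀ ≤ P → P < N → ∃ η, η₀ ≤ η ∧ Q P η := by
  induction N with
  | zero => exact ⟨1, one_pos, fun P _ h => absurd h (Nat.not_lt_zero _)⟩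
  | succ N ih =>
    obtain ⟨η₀, h0, h1⟩ := ih
    by_cases hN : P₀ ≤ N
    · obtain ⟨η, h2, h3⟩ := h N hN
      refine ⟨min η₀ η, lt_min h0 h2, fun P a b => ?_⟩
      rcases (Nat.lt_succ_iff.1 b).eq_or_lt with rfl | b
      · exact ⟨η, min_le_right _ _, h3⟩
      · obtain ⟨η', c, d⟩ := h1 P a b
        exact ⟨η', (min_le_left _ _).trans c, d⟩
    · exact ⟨η₀, h0, fun P a b => h1 P a (by omega)⟩

/-- sup norm -/
noncomputable def nm (x : Pt) : ℝ := max |co 0 x| |co 1 x|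

theorem co_sub' (i : Fin 2) (x y : Pt) : co i (x - y) = co i x - co i y := by
  fin_cases i <;> simp [co]

theorem nm_tri (x y z : Pt) : nm (x - z) ≤ nm (x - y) + nm (y - z) := by
  simp only [nm, co_sub']
  refine max_le ?_ ?_
  · exact (abs_sub_le _ _ _).trans (add_le_add (le_max_left _ _) (le_max_left _ _))
  · exact (abs_sub_le _ _ _).trans (add_le_add (le_max_right _ _) (le_max_right _ _))

theorem nm_comm (x y : Pt) : nm (x - y) = nm (y - x) := by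
  simp only [nm, co_sub', abs_sub_comm]

/-- sup distance to a set -/
noncomputable def ds {S : Finset Pt} (h : S.Nonempty) (z : Pt) : ℝ := S.inf' h fun y => nm (z - y)

theorem ds_le {S : Finset Pt} (h : S.Nonempty) (z z' : Pt) : ds h z ≤ ds h z' + nm (z - z') := by
  obtain ⟨y, hy, e⟩ := exists_mem_eq_inf' h fun y => nm (z' - y)
  have : ds h z ≤ nm (z - y) := inf'_le _ hy
  have := nm_tri z z' y
  rw [ds, ds, e] at *
  linarith

theorem ds_lip {S : Finset Pt} (h : S.Nonempty) (z z' : Pt) : |ds h z - ds h z'| ≤ nm (z - z') := by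
  have a := ds_le h z z'
  have b := ds_le h z' z
  rw [nm_comm] at b
  rw [abs_le]; constructor <;> linarith

theorem ds_self {S : Finset Pt} (h : S.Nonempty) {y : Pt} (hy : y ∈ S) : ds h y ≤ 0 :=
  (inf'_le _ hy).trans (by simp [nm, co])

theorem le_ds {S S' : Finset Pt} (h : S'.Nonempty) {d : ℝ} (hF : Far d S S') {x : Pt} (hx : x ∈ S) :
    d ≤ ds h x := le_inf' _ _ fun y hy => le_max_iff.2 (hF x hx y hy)

theorem sep1 (a a' : ℤ) {s : ℕ} (hs : 0 < s) {β : ℝ} (hβ : 0 < β) :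
    ((a + s - 1 : ℤ) + β ≤ a' ∨ (a' + s - 1 : ℤ) + β ≤ a) ∨
      ∃ z z' : ℤ, (a ≤ z ∧ z < a + s) ∧ (a' ≤ z' ∧ z' < a' + s) ∧ |(z : ℝ) - z'| < β := by
  by_contra hc
  push Not at hc
  obtain ⟨⟨h1, h2⟩, h3⟩ := hc
  rcases le_total a a' with h | h
  · rcases le_total a' (a + s - 1) with k | k
    · have := h3 a' a' ⟨h, by omega⟩ ⟨le_rfl, by omega⟩
      rw [sub_self, abs_zero] at this; linarith
    · have := h3 (a + s - 1) a' ⟨by omega, by omega⟩ ⟨le_rfl, by omega⟩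
      have k' : ((a + s - 1 : ℤ) : ℝ) ≤ a' := by exact_mod_cast k
      rw [abs_sub_comm, abs_of_nonneg (by linarith)] at this; linarith
  · rcases le_total a (a' + s - 1) with k | k
    · have := h3 a a ⟨le_rfl, by omega⟩ ⟨h, by omega⟩
      rw [sub_self, abs_zero] at this; linarith
    · have := h3 a (a' + s - 1) ⟨le_rfl, by omega⟩ ⟨by omega, by omega⟩
      have k' : ((a' + s - 1 : ℤ) : ℝ) ≤ a := by exact_mod_cast k
      rw [abs_of_nonneg (by linarith)] at this; linarith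

/-- `B` lies to the left of `B'` in some coordinate -/
def Lf (β : ℝ) (B B' : Finset Pt) : Prop :=
  ∃ (i : Fin 2) (t : ℝ), (∀ x ∈ B, co i x ≤ t) ∧ ∀ y ∈ B', t + β ≤ co i y

theorem lf0 {a a' : Pt} {s : ℕ} {β : ℝ} (h : (a.1 + s - 1 : ℤ) + β ≤ a'.1) :
    Lf β (sq a s) (sq a' s) := by
  refine ⟨0, (a.1 + s - 1 : ℤ), fun x hx => ?_, fun y hy => h.trans ?_⟩
  · rw [mem_sq] at hx
    show (x.1 : ℝ) ≤ _
    exact_mod_cast (by omega : x.1 ≤ a.1 + s - 1)
  · show _ ≤ (y.1 : ℝ)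
    exact_mod_cast (mem_sq.1 hy).1.1

theorem lf1 {a a' : Pt} {s : ℕ} {β : ℝ} (h : (a.2 + s - 1 : ℤ) + β ≤ a'.2) :
    Lf β (sq a s) (sq a' s) := by
  refine ⟨1, (a.2 + s - 1 : ℤ), fun x hx => ?_, fun y hy => h.trans ?_⟩
  · rw [mem_sq] at hx
    show (x.2 : ℝ) ≤ _
    exact_mod_cast (by omega : x.2 ≤ a.2 + s - 1)
  · show _ ≤ (y.2 : ℝ)
    exact_mod_cast (mem_sq.1 hy).2.1

theorem sep2 {a a' : Pt} {s : ℕ} (hs : 0 < s) {β : ℝ} (hβ : 0 < β)
    (h : ∀ z ∈ sq a s, ∀ z' ∈ sq a' s, β ≤ nm (z - z')) :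
    Lf β (sq a s) (sq a' s) ∨ Lf β (sq a' s) (sq a s) := by
  rcases sep1 a.1 a'.1 hs hβ with k | ⟨z, z', k1, k2, k3⟩
  · exact k.imp lf0 lf0
  rcases sep1 a.2 a'.2 hs hβ with k | ⟨w, w', j1, j2, j3⟩
  · exact k.imp lf1 lf1
  have := h (z, w) (mem_sq.2 ⟨k1, j1⟩) (z', w') (mem_sq.2 ⟨k2, j2⟩)
  rw [nm, co_sub', co_sub'] at this
  exact absurd (max_lt k3 j3) (not_lt.2 this)

/-- translation to the origin -/
theorem pr_trl {Λ : Lat} (hΛ : Λ.Ok) (a : Pt) (L : ℕ) (μ : ℝ) (hc : (ms Λ (sq a L) μ).Ctr)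
    (hA : (ms Λ (sq a L) μ).Anch) (S S' : Finset Pt) :
    Pr ((ms Λ (sq a L) μ).J 0 0) (fun p => Cross S S' p.2) ≤
      Pr ((ms Λ (sq 0 L) μ).J 0 0) fun p => Cross (S.map (Equiv.addRight (-a)).toEmbedding)
        (S'.map (Equiv.addRight (-a)).toEmbedding) p.2 := by
  have hI := ((Λ.sym_add (-a)).iso_N hΛ (sq a L)).mulSite fun _ => gau μ⁻¹
  rw [map_sq_add, add_neg_cancel] at hI
  have e := Md.exJ_iso (m := ms Λ (sq a L) μ) (m' := ms Λ (sq 0 L) μ) hc.1 hI 0 0 fun p =>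
    ind (Cross (S.map (Equiv.addRight (-a)).toEmbedding) (S'.map (Equiv.addRight (-a)).toEmbedding) p.2)
  rw [Finsupp.equivMapDomain_zero] at e
  rw [Pr, Pr, e]
  exact (wtJ hc hA).pr_mono fun p _ ⟨x, hx, y, hy, h⟩ =>
    ⟨_, mem_map_of_mem _ hx, _, mem_map_of_mem _ hy, Md.conn_iso hI.2.2.1 h⟩

theorem far_trl {d : ℝ} {S S' : Finset Pt} (h : Far d S S') (t : Pt) :
    Far d (S.map (Equiv.addRight t).toEmbedding) (S'.map (Equiv.addRight t).toEmbedding) := by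
  intro x hx y hy
  obtain ⟨x, hx', rfl⟩ := mem_map.1 hx
  obtain ⟨y, hy', rfl⟩ := mem_map.1 hy
  simpa using h x hx' y hy'

theorem decay {B κ P : ℝ} (hκ : 0 < κ) (hP0 : 0 < P)
    (hP : B * (Nat.factorial 23 : ℕ) / (κ / 2) ^ 23 ≤ P) :
    B * P ^ 2 * Real.exp (-κ * (P / 2)) ≤ 1 / P ^ 20 := by
  have h1 := Real.pow_div_factorial_le_exp (κ * (P / 2)) (by positivity) 23
  have hf : (0 : ℝ) < (Nat.factorial 23 : ℕ) := by exact_mod_cast Nat.factorial_pos _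
  rw [div_le_iff₀ (by positivity)] at hP
  rw [div_le_iff₀ hf] at h1
  rw [neg_mul, Real.exp_neg, ← div_eq_mul_inv, div_le_div_iff₀ (Real.exp_pos _) (by positivity),
    one_mul]
  refine le_of_mul_le_mul_right (le_trans ?_ h1) hf
  calc B * P ^ 2 * P ^ 20 * (Nat.factorial 23 : ℕ) = B * (Nat.factorial 23 : ℕ) * P ^ 22 := by ring
    _ ≤ P * (κ / 2) ^ 23 * P ^ 22 := mul_le_mul_of_nonneg_right hP (by positivity)
    _ = _ := by ring

theorem nb_mono {ρ r r' : ℕ} (h : r ≤ r') (i : Pt) : nb ρ i r ⊆ nb ρ i r' := fun x hx => by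
  rw [nb, mem_sq] at *
  push_cast at *
  omega

theorem card_nb {ρ r : ℕ} (h : 2 * r ≤ ρ) (i : Pt) : (#(nb ρ i r) : ℝ) ≤ 4 * (ρ : ℝ) ^ 2 := by
  rw [nb, card_sq]
  have : (ρ + 2 * r) ^ 2 ≤ (2 * ρ) ^ 2 := Nat.pow_le_pow_left (by omega) 2
  calc _ ≤ (((2 * ρ) ^ 2 : ℕ) : ℝ) := by exact_mod_cast this
    _ = _ := by push_cast; ring

theorem ip_le {B D : Finset Pt} {u : Pt → ℝ} {b : ℝ} (h : ∀ x, |u x| ≤ b) (h0 : ∀ x, x ∉ D → u x = 0) :
    ip B u u ≤ #D * b ^ 2 := by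
  classical
  calc ip B u u = ∑ x ∈ B ∩ D, u x * u x := (sum_subset inter_subset_left fun x hx hx' => by
        rw [h0 x fun k => hx' (mem_inter.2 ⟨hx, k⟩), mul_zero]).symm
    _ ≤ ∑ x ∈ D, u x * u x := sum_le_sum_of_subset_of_nonneg inter_subset_right
        fun _ _ _ => mul_self_nonneg _
    _ ≤ #D • b ^ 2 := sum_le_card_nsmul _ _ _ fun x _ => by
        rw [← pow_two, ← sq_abs]; exact pow_le_pow_left₀ (abs_nonneg _) (h x) 2
    _ = _ := nsmul_eq_mul _ _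

end M30

open M30

set_option maxHeartbeats 400000 in
/-- MIX0 -/
theorem mix0Stmt (hAs : AsmStmt) (hCel : CelStmt) (hHit : HitStmt) (hTv : TvStmt) (hFf : FfStmt)
    (hSi : SiteStmt) (hT1 : T1mStmt) : Mix0Stmt := by
  intro F θ₀ α hθ₀ hα
  obtain ⟨C₀, ρ₀, hCel⟩ := hCel F
  obtain ⟨c, hc, hTv⟩ := hTv F
  obtain ⟨κ, hκ, hFf⟩ := hFf F θ₀ (α / 2) hθ₀ (by positivity)
  obtain ⟨δ₁, hδ₁, hT1⟩ := hT1.2.2 F θ₀ 1 0 hθ₀ one_pos
  obtain ⟨C', hC'1, hC'⟩ : ∃ C' : ℝ, 1 ≤ C' ∧ |C₀| / (θ₀ / 2) + 1 ≤ C' :=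
    ⟨_, le_add_of_nonneg_left (by positivity), le_rfl⟩
  obtain ⟨P₀, hAs⟩ := hAs (8 * C' ^ 2 + 4) c (α / 80) hc (by positivity)
  obtain ⟨Q, hQ⟩ := exists_nat_ge (max (max (P₀ : ℝ) 1) (max (80 / α)
    (64 * C' ^ 2 * (Nat.factorial 23 : ℕ) / (κ / 2) ^ 23)))
  simp only [max_le_iff] at hQ
  obtain ⟨⟨hQ0, hQ1⟩, hQ2, hQ3⟩ := hQ
  refine ⟨(Q : ℝ) ^ 2, one_le_pow₀ hQ1, fun K => ?_⟩
  obtain ⟨N, hN⟩ := exists_nat_gt (4 * |K| + 1)
  have hN1 : (1 : ℝ) ≤ N := by linarith [abs_nonneg K]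
  obtain ⟨η₀, hη₀, hAs⟩ := unif hAs N
  obtain ⟨δ₂, hδ₂, hTv⟩ := hTv θ₀ N η₀ hθ₀ hN1 hη₀
  obtain ⟨δ₃, hδ₃, hFf⟩ := hFf N (1 / (32 * C' ^ 2 * (N : ℝ) ^ 20)) hN1 (by positivity)
  set ρ₁ : ℕ := ρ₀ + 8 + 2 * Crest.ProbabilityR.HeightModel.interactionRange F.J with hρ₁
  have hn0 : (0 : ℝ) < (N * ρ₁ : ℕ) := by
    have : 0 < N := by exact_mod_cast one_pos.trans_le hN1
    exact_mod_cast Nat.mul_pos this (by omega)
  refine ⟨min (min δ₁ δ₂) (min δ₃ (1 / (N * ρ₁ : ℕ))), by positivity, fun Λ hΛ l L hW μ a S S' h1 h2 hF => ?_⟩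
  have ok := hΛ.ok
  have hθ := (hT1 Λ hΛ l L (hW.mono_d ((min_le_left _ _).trans (min_le_left _ _)))).2.1
  replace hTv := hTv Λ hΛ l L (hW.mono_d ((min_le_left _ _).trans (min_le_right _ _)))
  replace hFf := hFf Λ hΛ l L (hW.mono_d ((min_le_right _ _).trans (min_le_left _ _)))
  have hL : N * ρ₁ ≤ L := by
    have k := hW.sep.mono ((min_le_right _ _).trans (min_le_right _ _))
    exact (Nat.le_mul_of_pos_right _ k.one_le_l).trans (k.large (by rw [mul_one_div_cancel hn0.ne'])).2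
  have hL0 := hW.L_pos'
  have hx1 : 1 ≤ μ * (L : ℝ) ^ 2 := (one_le_pow₀ hQ1).trans h1
  have hμ : 0 < μ := (mul_pos_iff_of_pos_right (by positivity)).1 (one_pos.trans_le hx1)
  have hxN : μ * (L : ℝ) ^ 2 ≤ N := by linarith [le_abs_self K, abs_nonneg K]
  refine (pr_trl ok a L μ (hSi Λ _ μ ok hμ).1.1 (hSi Λ _ μ ok hμ).1.2.1 S S').trans ?_
  replace hF := far_trl hF (-a)
  generalize S.map (Equiv.addRight (-a)).toEmbedding = S, S'.map (Equiv.addRight (-a)).toEmbedding = S' at hF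
  rcases S'.eq_empty_or_nonempty with rfl | hne
  · rw [Pr_of_forall_not fun p _ ⟨x, _, y, hy, _⟩ => absurd hy (notMem_empty _)]
    positivity
  -- the number of tiles
  obtain ⟨p, hp1, hp2⟩ := exists_nat_pow_near hx1 (by norm_num : (1 : ℝ) < 4)
  obtain ⟨j, hj⟩ := hW.dyadic
  set P : ℕ := 2 ^ (p + 1) with hP
  have hP2 : (P : ℝ) ^ 2 = 4 ^ (p + 1) := by
    rw [hP]; push_cast; rw [← pow_mul, mul_comm, pow_mul]; norm_num
  have hP0 : (1 : ℝ) ≤ P := by exact_mod_cast Nat.one_le_two_pow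
  have hPx : μ * (L : ℝ) ^ 2 ≤ (P : ℝ) ^ 2 := hP2 ▸ hp2.le
  have hxP : (P : ℝ) ^ 2 ≤ 4 * (μ * (L : ℝ) ^ 2) := by rw [hP2, pow_succ]; linarith
  have hQP : (Q : ℝ) ≤ P := le_of_sq_le_sq (h1.trans hPx) (by positivity)
  have hPN : (P : ℝ) < N := by nlinarith only [le_abs_self K, hP0, hxP, h2, hN]
  have hPN' : P < N := by exact_mod_cast hPN
  have hPL : P * ρ₁ ≤ 2 ^ j := hj ▸ (Nat.mul_le_mul_right _ hPN'.le).trans hL
  have hpj : p + 1 + 3 ≤ j := by
    refine (Nat.pow_le_pow_iff_right one_lt_two).1 (le_trans ?_ hPL)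
    rw [pow_add]; exact Nat.mul_le_mul_left _ (by omega)
  set ρ : ℕ := 2 ^ (j - (p + 1)) with hρ
  have hLP : L = P * ρ := by rw [hj, hP, hρ, ← pow_add]; congr 1; omega
  have hρ1 : ρ₁ ≤ ρ := Nat.le_of_mul_le_mul_left (by rw [← hLP, hj]; exact hPL) (by positivity)
  have h8 : 8 ∣ ρ := pow_dvd_pow 2 (by omega : 3 ≤ j - (p + 1))
  have hrg : Λ.rg ≤ ρ / 2 := by rw [Lat.rg, hΛ.1]; omega
  have hρ0 : (0 : ℝ) < ρ := by positivity
  have hLr : (L : ℝ) = P * ρ := by exact_mod_cast hLP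
  have hm1 : μ * (ρ : ℝ) ^ 2 ≤ 1 := by
    rw [hLr] at hPx
    exact le_of_mul_le_mul_left (by linarith only [hPx]) (by positivity : (0 : ℝ) < (P : ℝ) ^ 2)
  have hm2 : 1 ≤ 4 * (μ * (ρ : ℝ) ^ 2) := by
    rw [hLr] at hxP
    exact le_of_mul_le_mul_left (by linarith only [hxP]) (by positivity : (0 : ℝ) < (P : ℝ) ^ 2)
  clear_value P ρ
  obtain ⟨η, hη, hAs⟩ := hAs P (by exact_mod_cast hQ0.trans hQP) hPN'
  obtain ⟨hV, hG⟩ := hTv μ ρ P hLP hPN.le hx1 hxN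
  replace hCel := hCel Λ hΛ ρ P (by omega) h8
  rw [← hLP] at hCel
  obtain ⟨hAmb, hM, -⟩ := hSi Λ (sq 0 L) μ ok hμ
  have hαP : 80 ≤ α * P := by
    have := hQ2.trans hQP
    rwa [div_le_iff₀' hα] at this
  set n : ℕ := ⌊α * P / 40⌋₊ with hn
  have hn1 : (n : ℝ) ≤ α * P / 40 := Nat.floor_le (by positivity)
  have hn2 : α * P / 40 < n + 1 := Nat.lt_floor_add_one _
  set D : ℝ := 2 * ρ * (4 * n + 1) with hD
  have hDL : D ≤ α * L / 4 := by
    have : 2 * (4 * (n : ℝ) + 1) ≤ α * P / 4 := by linarith only [hn1, hαP]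
    calc D = ρ * (2 * (4 * (n : ℝ) + 1)) := by rw [hD]; ring
      _ ≤ ρ * (α * P / 4) := mul_le_mul_of_nonneg_left this hρ0.le
      _ = _ := by rw [hLr]; ring
  have hαL : 0 < α * L := by positivity
  set d := ds hne with hd
  set ψ : Pt → Pt → ℝ := fun i x => C' / (ρ : ℝ) ^ 2 * ind (x ∈ nb ρ i (ρ / 2) ∧ x ∈ sq 0 L) with hψ
  have hψ0 : ∀ i x, ψ i x ≠ 0 → x ∈ nb ρ i (ρ / 2) := fun i x h =>
    (ind_ne_zero.1 (right_ne_zero_of_mul h)).1
  have hψ1 : ∀ i x, 0 ≤ ψ i x ∧ ψ i x ≤ C' / (ρ : ℝ) ^ 2 := fun i x =>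
    ⟨mul_nonneg (by positivity) (ind_nonneg _), mul_le_of_le_one_right (by positivity) (ind_le_one _)⟩
  have hθ0 : 0 < Λ.tN l := (half_pos hθ₀).trans_le hθ
  have hCθ : |C₀| / Λ.tN l + 1 ≤ C' := le_trans (by gcongr) hC'
  have hit := fun d₀ ω x y K' => hHit Λ ρ P n d d₀ ω x y K' ok hrg (ds_lip hne)
  rw [← hLP] at hit
  obtain ⟨Tz, hTz⟩ : ∃ Tz : ℝ → Finset Pt, ∀ d₀ i, i ∈ Tz d₀ ↔
      i ∈ sq 0 P ∧ ∀ z ∈ nb ρ i (ρ / 2), d₀ ≤ d z ∧ d z ≤ d₀ + D := by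
    classical
    exact ⟨fun d₀ => (sq 0 P).filter fun i => ∀ z ∈ nb ρ i (ρ / 2), d₀ ≤ d z ∧ d z ≤ d₀ + D,
      fun _ _ => by simp only [mem_filter]⟩
  have hTs : ∀ d₀, Tz d₀ ⊆ sq 0 P := fun d₀ i hi => ((hTz d₀ i).1 hi).1
  refine (hAs Pt Pt Pt (ms Λ (sq 0 L) μ) S S'
    (Tz 0) (Tz (α * L - D))
    (sq 0 2) cls (fun i => fu Λ L (Λ.tN l) μ (ub ρ i)) ψ (fun i => vu Λ L (Λ.tN l) μ (ub ρ i))
    (Hit Λ.rg L ρ) n hAmb.1 hAmb.2.1 ((card_le_card (hTs _)).trans (card_sq _ _).le)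
    ((card_le_card (hTs _)).trans (card_sq _ _).le) (card_sq _ _).le (by linarith only [hn2, hαP])
    (fun t ht => ?_) (fun g hg hcol => ?_) (fun t ht t' ht' => ?_) (fun ω hω hX => ?_)
    (fun t ht x _ hx ω hω hS => ?_)).trans ?_
  · have ht' : t ∈ sq 0 P := ht.elim (fun h => hTs _ h) fun h => hTs _ h
    obtain ⟨-, u01, -, u0, uA, uE, -⟩ := hCel t ht'
    have hip : ip (sq 0 L) (ub ρ t) (ub ρ t) ≤ 4 * (ρ : ℝ) ^ 2 * 1 ^ 2 :=
      (ip_le (b := 1) (fun x => by rw [abs_of_nonneg (u01 x).1]; exact (u01 x).2) u0).trans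
        (mul_le_mul_of_nonneg_right (card_nb (by omega) t) (by positivity))
    refine ⟨fun y => ?_, ?_, ?_, fun b => ?_, fun K' => ⟨(hV t ht' K').1.trans (by linarith only [hη]),
      (hV t ht' K').2⟩⟩
    · have i0 := ind_nonneg (y ∈ nb ρ t (ρ / 2) ∧ y ∈ sq 0 L)
      have a1 : |Λ.Au (sq 0 L) (ub ρ t) y / Λ.tN l| ≤
          |C₀| / Λ.tN l / (ρ : ℝ) ^ 2 * ind (y ∈ nb ρ t (ρ / 2) ∧ y ∈ sq 0 L) := by
        rw [abs_div, abs_of_pos hθ0, div_right_comm, div_mul_eq_mul_div]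
        gcongr
        exact (uA y).trans (by gcongr; exact le_abs_self _)
      have a2 : |μ * (ind (y ∈ sq 0 L) * ub ρ t y)| ≤
          1 / (ρ : ℝ) ^ 2 * ind (y ∈ nb ρ t (ρ / 2) ∧ y ∈ sq 0 L) := by
        by_cases k : y ∈ nb ρ t (ρ / 2) ∧ y ∈ sq 0 L
        · rw [ind_pos k, ind_pos k.2, one_mul, mul_one, abs_of_nonneg (mul_nonneg hμ.le (u01 y).1),
            le_div_iff₀ (by positivity)]
          linarith only [hm1, mul_le_mul_of_nonneg_left (u01 y).2 (by positivity : 0 ≤ μ * (ρ : ℝ) ^ 2)]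
        · rw [ind_neg k, mul_zero]
          by_cases k' : y ∈ sq 0 L
          · rw [u0 y fun h => k ⟨nb_mono (by omega) t h, k'⟩]; simp
          · rw [ind_neg k']; simp
      refine (abs_add_le _ _).trans ((add_le_add a1 a2).trans ?_)
      rw [← add_mul, ← add_div]
      exact mul_le_mul_of_nonneg_right (div_le_div_of_nonneg_right hCθ (by positivity)) i0
    · exact add_nonneg (div_nonneg (sum_nonneg fun e _ => div_nonneg (mul_self_nonneg _) ok.2.le)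
        hθ0.le) (mul_nonneg hμ.le (sum_nonneg fun x _ => mul_self_nonneg _))
    · have a1 : Λ.En (sq 0 L) (ub ρ t) (ub ρ t) / Λ.tN l ≤ |C₀| / Λ.tN l := by
        gcongr; exact uE.trans (le_abs_self _)
      have a2 := mul_le_mul_of_nonneg_left hip hμ.le
      rw [vu]; nlinarith only [a1, a2, hm1, hCθ, hC'1]
    · rw [← pr_smul]
      refine (hM _).1.trans ?_
      have a1 : ip (sq 0 L) (b • ψ t) (b • ψ t) ≤ 4 * (ρ : ℝ) ^ 2 * (|b| * (C' / (ρ : ℝ) ^ 2)) ^ 2 :=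
        (ip_le (D := nb ρ t (ρ / 2)) (fun x => by
          rw [Pi.smul_apply, smul_eq_mul, abs_mul, abs_of_nonneg (hψ1 t x).1]
          exact mul_le_mul_of_nonneg_left (hψ1 t x).2 (abs_nonneg _)) fun x hx => by
          rw [Pi.smul_apply, not_not.1 (mt (hψ0 t x) hx), smul_zero]).trans
          (mul_le_mul_of_nonneg_right (card_nb (by omega) t) (by positivity))
      rw [div_le_iff₀ (by positivity)]
      refine a1.trans ?_
      rw [mul_pow, sq_abs, show 4 * (ρ : ℝ) ^ 2 * (b ^ 2 * (C' / (ρ : ℝ) ^ 2) ^ 2) =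
        4 * C' ^ 2 * b ^ 2 / (ρ : ℝ) ^ 2 by field_simp, div_le_iff₀ (by positivity)]
      linarith only [mul_le_mul_of_nonneg_left hm2 (by positivity : 0 ≤ 4 * C' ^ 2 * b ^ 2),
        (by positivity : 0 ≤ b ^ 2 * (μ * (ρ : ℝ) ^ 2))]
  · exact (hG g (hg.elim (fun h => h.trans (hTs _)) fun h => h.trans (hTs _))
      hcol).trans (by linarith only [hη])
  · have hs := sep2 (a := (ρ * t.1 - (ρ / 2 : ℕ), ρ * t.2 - (ρ / 2 : ℕ)))
      (a' := (ρ * t'.1 - (ρ / 2 : ℕ), ρ * t'.2 - (ρ / 2 : ℕ))) (s := ρ + 2 * (ρ / 2)) (by omega)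
      (β := α / 2 * L) (by positivity) fun z hz z' hz' => by
        have a1 := (((hTz _ _).1 ht).2 z hz).2
        have a2 := (((hTz _ _).1 ht').2 z' hz').1
        have a3 := ds_le hne z' z
        rw [nm_comm] at a3
        linarith only [a1, a2, a3, hDL]
    have hb : ∀ i x, 0 ≤ ((4 * C')⁻¹ • ψ i) x ∧ ((4 * C')⁻¹ • ψ i) x ≤ μ := fun i x => by
      rw [Pi.smul_apply, smul_eq_mul]
      refine ⟨mul_nonneg (by positivity) (hψ1 i x).1,
        (mul_le_mul_of_nonneg_left (hψ1 i x).2 (by positivity)).trans ?_⟩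
      rw [show (4 * C')⁻¹ * (C' / (ρ : ℝ) ^ 2) = 1 / (4 * (ρ : ℝ) ^ 2) by field_simp,
        div_le_iff₀ (by positivity)]
      linarith only [hm2]
    have hz : ∀ i x, ((4 * C')⁻¹ • ψ i) x ≠ 0 → x ∈ nb ρ i (ρ / 2) := fun i x h =>
      hψ0 i x (right_ne_zero_of_mul h)
    have key : ∀ i i', Lf (α / 2 * L) (nb ρ i (ρ / 2)) (nb ρ i' (ρ / 2)) →
        Vr ((ms Λ (sq 0 L) μ).W 0) (pr (ψ i)) (pr (ψ i')) ≤ 1 / (P : ℝ) ^ 20 := by
      rintro i i' ⟨k, t₀, b1, b2⟩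
      have e := hFf μ t₀ k _ _ hx1 hxN (hb i) (hb i') (fun x h => b1 x (hz i x h))
        fun x h => b2 x (hz i' x h)
      rw [pr_smul, pr_smul, Vr_smul_left, Vr_smul_right] at e
      have e1 := decay hκ (one_pos.trans_le hP0) (hQ3.trans hQP)
      have e2 : Real.exp (-κ * Real.sqrt (μ * (L : ℝ) ^ 2)) ≤ Real.exp (-κ * (P / 2)) := by
        have : (P : ℝ) / 2 ≤ Real.sqrt (μ * (L : ℝ) ^ 2) := Real.le_sqrt_of_sq_le (by linarith only [hxP])
        exact Real.exp_le_exp.2 (by linarith only [mul_le_mul_of_nonneg_left this hκ.le])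
      have e3 : μ * (L : ℝ) ^ 2 * Real.exp (-κ * Real.sqrt (μ * (L : ℝ) ^ 2)) ≤
          (P : ℝ) ^ 2 * Real.exp (-κ * (P / 2)) := by gcongr
      have e4 : 1 / (N : ℝ) ^ 20 ≤ 1 / (P : ℝ) ^ 20 := by gcongr
      have e5 := mul_le_mul_of_nonneg_left e (by positivity : 0 ≤ 16 * C' ^ 2)
      rw [show ∀ v : ℝ, 16 * C' ^ 2 * ((4 * C')⁻¹ * ((4 * C')⁻¹ * v)) = v from fun v => by
        field_simp; ring, mul_add, show 16 * C' ^ 2 * (1 / (32 * C' ^ 2 * (N : ℝ) ^ 20)) =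
          1 / (N : ℝ) ^ 20 / 2 by field_simp; ring] at e5
      linarith only [e5, e4, e1, mul_le_mul_of_nonneg_left e3 (by positivity : 0 ≤ 32 * C' ^ 2)]
    exact hs.elim (key t t') fun h => (Vr_comm _ _ _).trans_le (key t' t h)
  · obtain ⟨x, hx, y, hy, hxy⟩ := hX
    obtain ⟨k, hk, g, hg, g1, g2⟩ := hit 0 ω y x (cl S ω) hω (Md.conn_symm hxy) (ds_self hne hy)
      (by linarith only [le_ds hne hF hx, hDL, hαL]) fun z hz => Md.mem_cl.2 ⟨x, hx, Md.conn_trans hxy hz⟩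
    exact ⟨k, hk, g, fun i hi => (hTz _ _).2 ⟨hg hi, (g2 i hi).2.2⟩, g1,
      fun i hi => ⟨(g2 i hi).1, (g2 i hi).2.1⟩⟩
  · obtain ⟨y, hy, hyx⟩ := Md.mem_cl.1 hS
    obtain ⟨k, hk, g, hg, g1, g2⟩ := hit (α * L - D) ω x y (cl {x} ω) hω (Md.conn_symm hyx)
      (by linarith only [(((hTz _ _).1 ht).2 x (hψ0 t x hx)).2, hDL, hαL])
      (by linarith only [le_ds hne hF hy]) fun z hz => mem_cl_one.2 hz
    exact ⟨k, hk, g, fun i hi => (hTz _ _).2 ⟨hg hi, (g2 i hi).2.2⟩, g1,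
      fun i hi => ⟨(g2 i hi).1, (g2 i hi).2.1⟩⟩
  · rw [show (P : ℝ) ^ 8 = ((P : ℝ) ^ 2) ^ 4 by ring]
    gcongr

end Crest.Agent.T145.Mx
end

-- ▼ part T145/MxUnf_15

/-!
# Row 145, module Mx: unfolding of the zero mode (`unfStmt`) and its Poisson resummation (`zmStmt`)
(helper15)
-/

set_option autoImplicit false

namespace Crest.Agent.T145.Mx

open Finset

namespace Un15

/-- unfolding: a free model without site weights against the same model pinned at the root -/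
theorem unf {V : Type} [DecidableEq V] {m : Mdl V} {r : V} (hr : r ∈ m.A)
    (he : ∀ e ∈ m.ed, e.1 ∈ m.A ∧ e.2 ∈ m.A) (h1 : ∀ x k, m.site x k = 1)
    (hW : Wt ((m.free (m.A.erase r)).W 0)) {Φ : Cfg V → ℝ} {C : ℝ}
    (s1 : ∀ t, Summable fun k : ℤ => |Φ (t + cst m.A k)|)
    (s2 : ∀ t, ∑' k : ℤ, |Φ (t + cst m.A k)| ≤ C) :
    HasSum (fun s => m.W 0 s * Φ s)
      (∑' t, (m.free (m.A.erase r)).W 0 t * ∑' k : ℤ, Φ (t + cst m.A k)) := by
  set u := (m.free (m.A.erase r)).W 0 with hu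
  have hs : Summable fun p : Cfg V × ℤ => u p.1 * Φ (p.1 + cst m.A p.2) := by
    refine Summable.of_abs ((summable_prod_of_nonneg fun p => abs_nonneg _).2 ⟨fun a => ?_, ?_⟩)
    · simpa only [abs_mul] using (s1 a).mul_left |u a|
    · refine Summable.of_nonneg_of_le (fun a => tsum_nonneg fun i => abs_nonneg _) (fun a => ?_)
        (hW.summ.mul_right C)
      simp only [abs_mul, tsum_mul_left, abs_of_nonneg (hW.nonneg a)]
      exact mul_le_mul_of_nonneg_left (s2 a) (hW.nonneg a)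
  have h4 : ∑' p : Cfg V × ℤ, u p.1 * Φ (p.1 + cst m.A p.2) =
      ∑' t, u t * ∑' k : ℤ, Φ (t + cst m.A k) := by
    rw [hs.tsum_prod]
    exact tsum_congr fun a => tsum_mul_left (a := u a) (f := fun k : ℤ => Φ (a + cst m.A k))
  rw [← h4]
  let i : Cfg V → Cfg V × ℤ := fun s => (s - cst m.A (s r), s r)
  have hi : Function.Injective i := fun s s' h => by
    simp only [i, Prod.mk.injEq] at h
    have := h.1
    rw [h.2] at this
    exact sub_left_injective this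
  have h3 := (hi.hasSum_iff (f := fun p : Cfg V × ℤ => u p.1 * Φ (p.1 + cst m.A p.2)) fun p hp => by
    by_contra h0
    have h4 : p.1 r = 0 := Md.W_off (left_ne_zero_of_mul h0) r (Finset.notMem_erase r m.A)
    refine hp ⟨p.1 + cst m.A p.2, ?_⟩
    simp [i, Md.cst_mem hr, h4]).2 hs.hasSum
  refine h3.congr_fun fun s => ?_
  simp only [Function.comp, i, sub_add_cancel, hu, X56.W_shift hr he h1]

theorem v_summ : Summable fun q : ℤ => Real.exp (-|(q : ℝ)| / 2) := by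
  have h : Summable fun n : ℕ => Real.exp (-(n : ℝ) / 2) :=
    (summable_geometric_of_lt_one (Real.exp_pos (-1 / 2)).le
      (Real.exp_lt_one_iff.2 (by norm_num))).congr fun n => by
        rw [← Real.exp_nat_mul]; congr 1; ring
  refine Summable.of_nat_of_neg (h.congr fun n => ?_) (h.congr fun n => ?_) <;> simp

/-- the Fourier coefficients decay uniformly -/
theorem gam_le {K a ω : ℝ} (ha : 1 ≤ a) (hK : a ≤ K) (hω : |ω| ≤ K) (q : ℤ) :
    Real.exp (-(2 * Real.pi * q - ω) ^ 2 / (2 * a)) ≤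
      Real.exp (-|(q : ℝ)| / 2) * (Real.exp (3 * K / 2) * Real.exp (-|(q : ℝ)| / 2)) := by
  rw [← Real.exp_add, ← Real.exp_add, Real.exp_le_exp, div_le_iff₀ (by linarith), ← sq_abs]
  have h1 : |(q : ℝ)| - K ≤ |2 * Real.pi * q - ω| := by
    have h2 := abs_sub_abs_le_abs_sub (2 * Real.pi * q) ω
    rw [abs_mul, abs_of_pos (by positivity : 0 < 2 * Real.pi)] at h2
    nlinarith [Real.pi_gt_three, abs_nonneg (q : ℝ)]
  nlinarith [sq_nonneg (|2 * Real.pi * q - ω| - a), mul_le_mul_of_nonneg_left h1 (by linarith : 0 ≤ a),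
    mul_le_mul_of_nonneg_left hK (by linarith : 0 ≤ a)]

theorem pois {a : ℝ} (ha : 0 < a) (ξ ω b : ℝ) :
    ∑' k : ℤ, Real.cos (ξ + ω * (b + k)) * Real.exp (-a * (b + k) ^ 2 / 2) =
      Real.sqrt (2 * Real.pi / a) * ∑' q : ℤ, Real.exp (-(2 * Real.pi * q - ω) ^ 2 / (2 * a)) *
        Real.cos (ξ + 2 * Real.pi * q * b) := by
  have h := Spr.poisson ha b ω (ξ + ω * b)
  simp only [show ∀ q : ℤ, (2 * Real.pi * q - ω) * b + (ξ + ω * b) = ξ + 2 * Real.pi * q * b from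
    fun q => by ring, show ∀ k : ℤ, ω * k + (ξ + ω * b) = ξ + ω * (b + k) from fun k => by ring] at h
  rw [← h]
  exact tsum_congr fun k => mul_comm _ _

/-- removal of a nearly constant factor -/
theorem cs {α : Type} {ρ T G H : α → ℝ} (hρ : Wt ρ) {Γ K η : ℝ} (hT : ∀ s, |T s| ≤ Γ)
    (hG : ∀ s, 0 < G s ∧ G s ≤ 1) (hH : ∀ s, 0 < H s ∧ H s ≤ 1) (hK : 0 ≤ K) (hη : 0 ≤ η)
    (h1 : Ex ρ (fun s => G s ^ 2) ≤ K * Ex ρ G ^ 2)
    (h2 : Ex ρ (fun s => H s ^ 2) ≤ (1 + η) * Ex ρ H ^ 2) :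
    |Ex ρ (fun s => T s * (G s * H s)) - Ex ρ (fun s => T s * G s) * Ex ρ H| ≤
      Γ * Real.sqrt (K * η) * (Ex ρ G * Ex ρ H) := by
  have bG : ∀ s, |G s| ≤ 1 := fun s => by rw [abs_of_pos (hG s).1]; exact (hG s).2
  have bH : ∀ s, |H s| ≤ 1 := fun s => by rw [abs_of_pos (hH s).1]; exact (hH s).2
  have iG := hρ.ig_bdd bG
  have iH := hρ.ig_bdd bH
  have iG2 : Ig ρ fun s => G s ^ 2 := (iG.mul_bdd hρ.nonneg bG).congr fun s _ => (pow_two _).symm
  have iH2 : Ig ρ fun s => H s ^ 2 := (iH.mul_bdd hρ.nonneg bH).congr fun s _ => (pow_two _).symm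
  have iT := (hρ.ig_bdd hT).mul_bdd hρ.nonneg bG
  have pG := hρ.ex_pos' iG fun s => (hG s).1
  have pH := hρ.ex_pos' iH fun s => (hH s).1
  have g0 : 0 ≤ Γ := by
    obtain ⟨s, -⟩ := hρ.exists_pos
    exact (abs_nonneg _).trans (hT s)
  have bT : ∀ s, (T s * G s) ^ 2 ≤ Γ ^ 2 * G s ^ 2 := fun s => by
    rw [mul_pow]
    exact mul_le_mul_of_nonneg_right (sq_le_sq' (abs_le.1 (hT s)).1 (abs_le.1 (hT s)).2) (sq_nonneg _)
  have iT2 : Ig ρ fun s => (T s * G s) ^ 2 :=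
    Ig.of_le hρ.nonneg (iG2.const_mul _) (fun _ => sq_nonneg _) bT
  have e : ∀ s, (H s - Ex ρ H) ^ 2 = H s ^ 2 - 2 * Ex ρ H * H s + Ex ρ H ^ 2 := fun s => by ring
  have iD : Ig ρ fun s => (H s - Ex ρ H) ^ 2 := by
    simp only [e]; exact (iH2.sub (iH.const_mul _)).add (hρ.ig_const _)
  have c1 := Ex_mul_sq_le hρ.nonneg iT2 iD
  have c2 : Ex ρ (fun s => (H s - Ex ρ H) ^ 2) ≤ η * Ex ρ H ^ 2 := by
    simp only [e]
    rw [hρ.ex_add_const (iH2.sub (iH.const_mul _)), Ex_sub iH2 (iH.const_mul _), Ex_const_mul]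
    linarith
  have c3 : Ex ρ (fun s => (T s * G s) ^ 2) ≤ Γ ^ 2 * (K * Ex ρ G ^ 2) :=
    (Ex_mono hρ.nonneg iT2 (iG2.const_mul _) bT).trans (by
      rw [Ex_const_mul]; exact mul_le_mul_of_nonneg_left h1 (sq_nonneg _))
  have e2 : Ex ρ (fun s => T s * G s * (H s - Ex ρ H)) =
      Ex ρ (fun s => T s * (G s * H s)) - Ex ρ (fun s => T s * G s) * Ex ρ H := by
    simp only [mul_sub]
    rw [Ex_sub (iT.mul_bdd hρ.nonneg bH) (iT.mul_const _), Ex_mul_const]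
    simp only [mul_assoc]
  rw [← e2]
  refine abs_le_of_sq_le_sq' (c1.trans ((mul_le_mul c3 c2
    (Ex_nonneg hρ.nonneg fun _ _ => sq_nonneg _) (by positivity)).trans_eq ?_)) (by positivity) |> abs_le.2
  rw [mul_pow, mul_pow, Real.sq_sqrt (mul_nonneg hK hη)]
  ring

end Un15

open Un15

theorem unfStmt : UnfStmt := by
  intro Λ L μ ξ hΛ hL hμ _
  have h0 : (0 : Pt) ∈ sq 0 L := by rw [mem_sq]; simp only [Prod.fst_zero, Prod.snd_zero]; omega
  have hW : Wt (Λ.WN L) := ((hΛ.ctr_Nr _ _).cen (hΛ.anch_Nr h0)).wt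
  have key : ∀ F : Cfg Pt → ℝ, (∀ s, |F s| ≤ 1) → ∑' s, (ms Λ (sq 0 L) μ).W 0 s * F s =
      Zs (Λ.WN L) * Ex (Λ.WN L) fun s => ∑' k : ℤ, F (s + cst (sq 0 L) k) *
        Real.exp (-(μ * ∑ x ∈ sq 0 L, ((s x : ℝ) + k) ^ 2) / 2) := fun F hF => by
    have e : ∀ (s : Cfg Pt) (k : ℤ), ∑ x ∈ sq 0 L, (((s + cst (sq 0 L) k : Cfg Pt) x : ℤ) : ℝ) ^ 2 =
        ∑ x ∈ sq 0 L, ((s x : ℝ) + k) ^ 2 := fun s k => sum_congr rfl fun x hx => by
      rw [Finsupp.add_apply, cst_of_mem k hx, Int.cast_add]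
    have b : ∀ (s : Cfg Pt) (k : ℤ), |F (s + cst (sq 0 L) k) * Real.exp (-(μ * ∑ x ∈ sq 0 L,
        (((s + cst (sq 0 L) k : Cfg Pt) x : ℤ) : ℝ) ^ 2) / 2)| ≤
        Real.exp (-μ * ((s 0 : ℝ) + k) ^ 2 / 2) := fun s k => by
      rw [e, abs_mul, abs_of_pos (Real.exp_pos _)]
      refine (mul_le_of_le_one_left (Real.exp_pos _).le (hF _)).trans (Real.exp_le_exp.2 ?_)
      have := single_le_sum (f := fun x => ((s x : ℝ) + k) ^ 2) (fun _ _ => sq_nonneg _) h0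
      nlinarith
    have s1 := fun s => Summable.of_nonneg_of_le (fun _ => abs_nonneg _) (b s) (Spr.summable_gs hμ _)
    have h := unf (m := Λ.N (sq 0 L)) (r := 0) h0 (fun e he => (mem_filter.1 he).2) (fun _ _ => rfl) hW
      (Φ := fun s => F s * Real.exp (-(μ * ∑ x ∈ sq 0 L, (s x : ℝ) ^ 2) / 2)) s1 fun s =>
        ((s1 s).tsum_le_tsum (b s) (Spr.summable_gs hμ _)).trans (Spr.tsum_gs_le hμ _)
    rw [← hW.tsum_eq]
    simp only [← e]
    refine Eq.trans (tsum_congr fun s => ?_) h.tsum_eq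
    rw [ms, Mdl.W_mulSite, mul_assoc, mul_comm (F s)]
    congr 2
    simp only [gau, ← Real.exp_sum, mul_sum, neg_div, ← sum_neg_distrib, sum_div]
    congr 1
    exact sum_congr rfl fun x _ => by field_simp
  have k1 := key (fun _ => 1) fun _ => by simp
  simp only [mul_one, one_mul] at k1
  rw [Ph, Ex, key _ fun s => Real.abs_cos_le_one _, k1, mul_div_mul_left _ _ hW.ne]
  simp only [map_add, pr_cst, mul_comm (∑ x ∈ sq 0 L, ξ x)]

theorem zmStmt : ZmStmt := by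
  intro K ε hε
  set v : ℤ → ℝ := fun q => Real.exp (3 * K / 2) * Real.exp (-|(q : ℝ)| / 2) with hv
  have sv : Summable v := v_summ.mul_left _
  have v0 : ∀ q, 0 ≤ v q := fun q => by positivity
  set Γ := ∑' q, v q with hΓ
  have g0 : 0 ≤ Γ := tsum_nonneg v0
  set δ := ε / (2 * (1 + |K| + ε)) with hδ
  have d0 : 0 < δ := by positivity
  set η := min (ε / (2 * (Γ + 1))) (δ ^ 2 / ((Γ ^ 2 + 1) * (|K| + 1))) with hη
  have e0 : 0 < η := by positivity
  obtain ⟨Q, hQ⟩ := exists_nat_ge (-2 * Real.log η)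
  refine ⟨Q, η, e0, ?_⟩
  intro α ρ G H ξ b a ω A hρ hG hH ha hK hω hA hAK h1 h2 h3 h4 h5
  have K0 : 0 ≤ K := by linarith
  rw [abs_of_nonneg K0] at hδ hη
  have bG : ∀ s, |G s| ≤ 1 := fun s => by rw [abs_of_pos (hG s).1]; exact (hG s).2
  have iG := hρ.ig_bdd bG
  have pG := hρ.ex_pos' iG fun s => (hG s).1
  have pH := hρ.ex_pos' (hρ.ig_bdd (C := 1) fun s => by
    rw [abs_of_pos (hH s).1]; exact (hH s).2) fun s => (hH s).1
  have gv : ∀ w : ℝ, |w| ≤ K → ∀ q : ℤ, Real.exp (-(2 * Real.pi * q - w) ^ 2 / (2 * a)) ≤ v q :=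
    fun w hw q => (gam_le ha hK hw q).trans (mul_le_of_le_one_left (v0 q)
      (Real.exp_le_one_iff.2 (by linarith [abs_nonneg (q : ℝ)])))
  have tb : ∀ w : ℝ, |w| ≤ K → ∀ (x : ℤ → ℝ) (g : ℝ), |g| ≤ 1 → ∀ q : ℤ,
      |Real.exp (-(2 * Real.pi * q - w) ^ 2 / (2 * a)) * (Real.cos (x q) * g)| ≤ v q :=
    fun w hw x g hg q => by
      rw [abs_mul, abs_of_pos (Real.exp_pos _), abs_mul]
      exact (mul_le_of_le_one_right (Real.exp_pos _).le
        (mul_le_one₀ (Real.abs_cos_le_one _) (abs_nonneg _) hg)).trans (gv w hw q)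
  have sb := fun w hw x g hg => Summable.of_nonneg_of_le (fun _ => abs_nonneg _) (tb w hw x g hg) sv
  have main : ∀ (w : ℝ) (y : α → ℝ), |w| ≤ K →
      HasSum (fun q : ℤ => Real.exp (-(2 * Real.pi * q - w) ^ 2 / (2 * a)) *
        Ex ρ fun s => Real.cos (y s + 2 * Real.pi * q * b s) * G s)
        (Ex ρ fun s => (∑' q : ℤ, Real.exp (-(2 * Real.pi * q - w) ^ 2 / (2 * a)) *
          Real.cos (y s + 2 * Real.pi * q * b s)) * G s) ∧
      |Ex ρ (fun s => (∑' q : ℤ, Real.exp (-(2 * Real.pi * q - w) ^ 2 / (2 * a)) *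
          Real.cos (y s + 2 * Real.pi * q * b s)) * (G s * H s)) -
        Ex ρ (fun s => (∑' q : ℤ, Real.exp (-(2 * Real.pi * q - w) ^ 2 / (2 * a)) *
          Real.cos (y s + 2 * Real.pi * q * b s)) * G s) * Ex ρ H| ≤ δ * (Ex ρ G * Ex ρ H) := by
    intro w y hw
    constructor
    · have := hρ.hasSum_ex (F := fun (q : ℤ) s => Real.exp (-(2 * Real.pi * q - w) ^ 2 / (2 * a)) *
        (Real.cos (y s + 2 * Real.pi * q * b s) * G s)) (fun s => sb w hw _ _ (bG s))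
        fun s => (sb w hw _ _ (bG s)).tsum_le_tsum (tb w hw _ _ (bG s)) sv
      simp only [Ex_const_mul] at this
      simpa only [← mul_assoc, tsum_mul_right] using this
    · refine (cs hρ (Γ := Γ) (fun s => ?_) hG hH K0 e0.le h1 h2).trans
        (mul_le_mul_of_nonneg_right ?_ (by positivity))
      · have s1 := sb w hw (fun q => y s + 2 * Real.pi * q * b s) 1 abs_one.le
        have s2 := tb w hw (fun q => y s + 2 * Real.pi * q * b s) 1 abs_one.le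
        simp only [mul_one] at s1 s2
        refine le_trans ?_ (s1.tsum_le_tsum s2 sv)
        simpa only [Real.norm_eq_abs] using norm_tsum_le_tsum_norm (f := fun q : ℤ =>
          Real.exp (-(2 * Real.pi * q - w) ^ 2 / (2 * a)) * Real.cos (y s + 2 * Real.pi * q * b s))
          (by simpa only [Real.norm_eq_abs] using s1)
      · refine (abs_le_of_sq_le_sq' ?_ d0.le).2
        rw [mul_pow, Real.sq_sqrt (mul_nonneg K0 e0.le)]
        have h6 : η ≤ δ ^ 2 / ((Γ ^ 2 + 1) * (K + 1)) := hη.trans_le (min_le_right _ _)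
        rw [le_div_iff₀ (by positivity)] at h6
        nlinarith [mul_nonneg e0.le (sq_nonneg Γ), mul_nonneg e0.le K0]
  obtain ⟨n1, n2⟩ := main ω ξ hω
  obtain ⟨d1, d2⟩ := main 0 (fun _ => 0) (by simpa using K0)
  have eD : ∀ s, ∑' k : ℤ, Real.exp (-a * (b s + k) ^ 2 / 2) = Real.sqrt (2 * Real.pi / a) *
      ∑' q : ℤ, Real.exp (-(2 * Real.pi * q - 0) ^ 2 / (2 * a)) *
        Real.cos (0 + 2 * Real.pi * q * b s) := fun s => by
    rw [← pois (by linarith) 0 0 (b s)]; simp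
  simp only [eD, pois (show 0 < a by linarith), mul_assoc (Real.sqrt _), Ex_const_mul]
  rw [mul_left_comm]
  refine mul_le_mul_of_nonneg_left ?_ (Real.sqrt_nonneg _)
  have d3 := le_hasSum d1 0 fun q _ => mul_nonneg (Real.exp_pos _).le (by simpa using h5 q)
  simp only [Int.cast_zero, mul_zero, sub_zero, zero_mul, add_zero, Real.cos_zero, one_mul, ne_eq,
    OfNat.ofNat_ne_zero, not_false_eq_true, zero_pow, neg_zero, zero_div, Real.exp_zero] at d3
  have n3 := hasSum_le (fun q => ?_) n1 ((hasSum_ite_eq (0 : ℤ)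
    (Real.exp (-ω ^ 2 / (2 * a)) * A * Ex ρ G)).add (sv.hasSum.mul_left (η * Ex ρ G)))
  · have g1 : Real.exp (-ω ^ 2 / (2 * a)) ≤ 1 := Real.exp_le_one_iff.2
      (div_nonpos_of_nonpos_of_nonneg (by nlinarith) (by linarith))
    have g2 := Real.exp_pos (-ω ^ 2 / (2 * a))
    have h6 : η ≤ ε / (2 * (Γ + 1)) := min_le_left _ _
    rw [le_div_iff₀ (by positivity)] at h6
    rw [eq_div_iff (by positivity)] at hδ
    generalize Real.exp (-ω ^ 2 / (2 * a)) = γ at *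
    simp only [sub_zero] at d2 ⊢
    have t0 : 0 ≤ γ * A := by positivity
    have t1 : γ * A ≤ K := (mul_le_of_le_one_left hA g1).trans hAK
    have p := mul_pos pG pH
    have u1 := mul_le_mul_of_nonneg_right n3 pH.le
    have u2 := mul_le_mul_of_nonneg_right d3 pH.le
    refine le_trans (b := (γ * A + ε / 2 + δ) * (Ex ρ G * Ex ρ H)) ?_
      (le_trans (b := (γ * A + ε) * ((1 - δ) * (Ex ρ G * Ex ρ H))) ?_
        (mul_le_mul_of_nonneg_left ?_ (by positivity)))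
    · have : η * Γ * (Ex ρ G * Ex ρ H) ≤ ε / 2 * (Ex ρ G * Ex ρ H) :=
        mul_le_mul_of_nonneg_right (by linarith) p.le
      linarith [(abs_le.1 n2).2]
    · rw [← mul_assoc (γ * A + ε)]
      refine mul_le_mul_of_nonneg_right ?_ p.le
      nlinarith [mul_le_mul_of_nonneg_left t1 d0.le]
    · linarith [(abs_le.1 d2).1]
  · have w0 := mul_nonneg (mul_nonneg e0.le pG.le) (v0 q)
    by_cases hq : q = 0
    · subst hq
      simp only [Int.cast_zero, mul_zero, zero_sub, neg_sq, zero_mul, add_zero, if_true] at w0 ⊢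
      have := mul_le_mul_of_nonneg_left h3 (Real.exp_pos (-ω ^ 2 / (2 * a))).le
      linarith
    rw [if_neg hq, zero_add]
    by_cases hq' : |q| ≤ Q
    · refine (mul_le_mul_of_nonneg_left (h4 q hq hq') (Real.exp_pos _).le).trans ?_
      rw [mul_comm]
      exact mul_le_mul_of_nonneg_left (gv ω hω q) (by positivity)
    · have h6 : (Q : ℝ) ≤ |(q : ℝ)| := by exact_mod_cast (not_le.1 hq').le
      have h7 : Real.exp (-|(q : ℝ)| / 2) ≤ η := by
        rw [← Real.exp_log e0, Real.exp_le_exp]; linarith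
      have h8 : Ex ρ (fun s => Real.cos (ξ s + 2 * Real.pi * q * b s) * G s) ≤ Ex ρ G :=
        Ex_mono hρ.nonneg (iG.bdd_mul hρ.nonneg fun s => Real.abs_cos_le_one _) iG fun s =>
          mul_le_of_le_one_left (hG s).1.le (Real.cos_le_one _)
      refine (mul_le_mul_of_nonneg_left h8 (Real.exp_pos _).le).trans ?_
      rw [mul_right_comm η]
      exact mul_le_mul_of_nonneg_right ((gam_le ha hK hω q).trans
        (mul_le_mul_of_nonneg_right h7 (v0 q))) pG.le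

end Crest.Agent.T145.Mx
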