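import Crest.Prelude.Def_DGHeight

/-!
# Row 145 (helper27): the continuum bridge on the torus (test functions, flows, Riemann sums)
-/

set_option autoImplicit false

noncomputable section

namespace Crest.Agent.T145.Tor27

open Finset Crest.ProbabilityR.HeightModel

/-! ### smooth periodic functions -/

/-- directional derivative -/
def Dv (v : ℝ × ℝ) (u : ℝ × ℝ → ℝ) (p : ℝ × ℝ) : ℝ := fderiv ℝ u p v

theorem per_int {u : ℝ × ℝ → ℝ} (h : IsPeriodic u) (a b : ℤ) (p : ℝ × ℝ) :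
    u (p + ((a : ℝ), (b : ℝ))) = u p := by
  have h1 := (show Function.Periodic u ((1 : ℝ), (0 : ℝ)) from fun x => (h x).1).zsmul a
  have h2 := (show Function.Periodic u ((0 : ℝ), (1 : ℝ)) from fun x => (h x).2).zsmul b
  have := (h1.add_period h2) p
  simpa using this

theorem sp_Dv {u : ℝ × ℝ → ℝ} (h : IsSmoothPeriodic u) (v : ℝ × ℝ) :
    IsSmoothPeriodic (Dv v u) := by
  have key : ∀ c : ℝ × ℝ, (∀ x, u (x + c) = u x) → ∀ x, Dv v u (x + c) = Dv v u x := fun c hc x => by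
    rw [Dv, Dv, ← fderiv_comp_add_right, funext hc]
  exact ⟨fun x => ⟨key _ (fun x => (h.1 x).1) x, key _ (fun x => (h.1 x).2) x⟩,
    (h.2.fderiv_right (m := (⊤ : ℕ∞)) (by norm_cast)).clm_apply contDiff_const⟩

theorem sp_mul {u w : ℝ × ℝ → ℝ} (h : IsSmoothPeriodic u) (h' : IsSmoothPeriodic w) :
    IsSmoothPeriodic fun p => u p * w p :=
  ⟨fun x => ⟨by simp only [(h.1 x).1, (h'.1 x).1], by simp only [(h.1 x).2, (h'.1 x).2]⟩,
    h.2.mul h'.2⟩

theorem sp_add {u w : ℝ × ℝ → ℝ} (h : IsSmoothPeriodic u) (h' : IsSmoothPeriodic w) :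
    IsSmoothPeriodic fun p => u p + w p :=
  ⟨fun x => ⟨by simp only [(h.1 x).1, (h'.1 x).1], by simp only [(h.1 x).2, (h'.1 x).2]⟩,
    h.2.add h'.2⟩

theorem sp_neg {u : ℝ × ℝ → ℝ} (h : IsSmoothPeriodic u) : IsSmoothPeriodic fun p => -u p :=
  ⟨fun x => ⟨by simp only [(h.1 x).1], by simp only [(h.1 x).2]⟩, h.2.neg⟩

theorem bdd {u : ℝ × ℝ → ℝ} (h : IsSmoothPeriodic u) : ∃ K, 0 ≤ K ∧ ∀ p, |u p| ≤ K := by
  obtain ⟨K, hK⟩ := (isCompact_Icc (a := ((0 : ℝ), (0 : ℝ))) (b := (1, 1))).exists_bound_of_continuousOn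
    h.2.continuous.continuousOn
  refine ⟨|K|, abs_nonneg _, fun p => ?_⟩
  have e : p = (Int.fract p.1, Int.fract p.2) + ((⌊p.1⌋ : ℝ), (⌊p.2⌋ : ℝ)) := by ext <;> simp
  rw [e, per_int h.1]
  exact (hK _ ⟨⟨Int.fract_nonneg _, Int.fract_nonneg _⟩,
    ⟨(Int.fract_lt_one _).le, (Int.fract_lt_one _).le⟩⟩).trans (le_abs_self _)

theorem hasDerivAt_line {u : ℝ × ℝ → ℝ} (h : IsSmoothPeriodic u) (p v : ℝ × ℝ) (t : ℝ) :
    HasDerivAt (fun s : ℝ => u (p + s • v)) (Dv v u (p + t • v)) t := by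
  have h1 : HasDerivAt (fun s : ℝ => p + s • v) v t := by
    simpa using ((hasDerivAt_id t).smul_const v).const_add p
  exact (h.2.differentiable (by simp) _).hasFDerivAt.comp_hasDerivAt t h1

theorem mvt {φ φ' : ℝ → ℝ} (h : ∀ s, HasDerivAt φ (φ' s) s) (h0 : φ 0 = 0) {t C : ℝ}
    (hb : ∀ s, |s| ≤ |t| → |φ' s| ≤ C) : |φ t| ≤ C * |t| := by
  have := (convex_Icc (-|t|) |t|).norm_image_sub_le_of_norm_hasDerivWithin_le (f := φ) (f' := φ')
    (C := C) (x := 0) (y := t) (fun s _ => (h s).hasDerivWithinAt) (fun s hs => hb s (abs_le.2 hs))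
    ⟨by simp, abs_nonneg _⟩ (abs_le.1 le_rfl)
  simpa [h0] using this

theorem tay0 {u : ℝ × ℝ → ℝ} (h : IsSmoothPeriodic u) (v : ℝ × ℝ) :
    ∃ K, 0 ≤ K ∧ ∀ p (t : ℝ), |u (p + t • v) - u p| ≤ K * |t| := by
  obtain ⟨K, h0, hK⟩ := bdd (sp_Dv h v)
  exact ⟨K, h0, fun p t => mvt (φ := fun s => u (p + s • v) - u p)
    (fun s => (hasDerivAt_line h p v s).sub_const _) (by simp) fun s _ => hK _⟩

theorem tay1 {u : ℝ × ℝ → ℝ} (h : IsSmoothPeriodic u) (v : ℝ × ℝ) :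
    ∃ K, 0 ≤ K ∧ ∀ p (t : ℝ), |u (p + t • v) - u p - t * Dv v u p| ≤ K * |t| ^ 2 := by
  obtain ⟨K, h0, hK⟩ := tay0 (sp_Dv h v) v
  refine ⟨K, h0, fun p t => ?_⟩
  have := mvt (φ := fun s => u (p + s • v) - u p - s * Dv v u p)
    (φ' := fun s => Dv v u (p + s • v) - Dv v u p) (t := t) (C := K * |t|)
    (fun s => (((hasDerivAt_line h p v s).sub_const (u p)).fun_sub
      ((hasDerivAt_id' s).mul_const (Dv v u p))).congr_deriv (by ring))
    (by simp) fun s hs => (hK p s).trans (mul_le_mul_of_nonneg_left hs h0)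
  linarith

theorem tay2 {u : ℝ × ℝ → ℝ} (h : IsSmoothPeriodic u) (v : ℝ × ℝ) :
    ∃ K, 0 ≤ K ∧ ∀ p (t : ℝ),
      |u (p + t • v) + u (p - t • v) - 2 * u p - t ^ 2 * Dv v (Dv v u) p| ≤ K * |t| ^ 3 := by
  obtain ⟨K, h0, hK⟩ := tay1 (sp_Dv h v) v
  have key : ∀ p (t : ℝ), |u (p + t • v) - u p - t * Dv v u p - t ^ 2 / 2 * Dv v (Dv v u) p| ≤
      K * |t| ^ 2 * |t| := fun p t =>
    mvt (φ := fun s => u (p + s • v) - u p - s * Dv v u p - s ^ 2 / 2 * Dv v (Dv v u) p)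
      (φ' := fun s => Dv v u (p + s • v) - Dv v u p - s * Dv v (Dv v u) p)
      (fun s => ((((hasDerivAt_line h p v s).sub_const (u p)).fun_sub
        ((hasDerivAt_id' s).mul_const (Dv v u p))).fun_sub
        (((hasDerivAt_pow 2 s).div_const 2).mul_const (Dv v (Dv v u) p))).congr_deriv (by simp))
      (by simp) fun s hs => (hK p s).trans (by gcongr)
  refine ⟨2 * K, by linarith, fun p t => ?_⟩
  have h1 := abs_le.1 (key p t)
  have h2 := abs_le.1 (key p (-t))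
  rw [neg_smul, ← sub_eq_add_neg, abs_neg] at h2
  exact abs_le.2 ⟨by nlinarith [h1.1, h2.1], by nlinarith [h1.2, h2.2]⟩

/-- Lipschitz bound in the `ℓ¹` distance -/
theorem lip {u : ℝ × ℝ → ℝ} (h : IsSmoothPeriodic u) :
    ∃ K, 0 ≤ K ∧ ∀ p q : ℝ × ℝ, |u p - u q| ≤ K * (|p.1 - q.1| + |p.2 - q.2|) := by
  obtain ⟨K1, h1, hK1⟩ := tay0 h (1, 0)
  obtain ⟨K2, h2, hK2⟩ := tay0 h (0, 1)
  refine ⟨K1 + K2, by linarith, fun p q => ?_⟩
  have a1 := hK1 (q.1, p.2) (p.1 - q.1)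
  have a2 := hK2 q (p.2 - q.2)
  rw [show (q.1, p.2) + (p.1 - q.1) • ((1 : ℝ), (0 : ℝ)) = p by ext <;> simp] at a1
  rw [show q + (p.2 - q.2) • ((0 : ℝ), (1 : ℝ)) = (q.1, p.2) by ext <;> simp] at a2
  have := abs_sub_le (u p) (u (q.1, p.2)) (u q)
  nlinarith [abs_nonneg (p.1 - q.1), abs_nonneg (p.2 - q.2)]

theorem Dv_eq (u : ℝ × ℝ → ℝ) (v p : ℝ × ℝ) :
    Dv v u p = v.1 * Dv (1, 0) u p + v.2 * Dv (0, 1) u p := by
  have e : v = v.1 • ((1 : ℝ), (0 : ℝ)) + v.2 • ((0 : ℝ), (1 : ℝ)) := by ext <;> simp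
  conv_lhs => rw [Dv, e, map_add, map_smul, map_smul]
  rfl

theorem lap_eq {u : ℝ × ℝ → ℝ} (h : IsSmoothPeriodic u) (p : ℝ × ℝ) :
    flatLaplacian u p = Dv (1, 0) (Dv (1, 0) u) p + Dv (0, 1) (Dv (0, 1) u) p := by
  have k1 : ∀ {w : ℝ × ℝ → ℝ}, IsSmoothPeriodic w → ∀ y,
      deriv (fun s => w (s, y)) = fun s => Dv (1, 0) w (s, y) := fun hw y => funext fun s => by
    simpa using (hasDerivAt_line hw (0, y) (1, 0) s).deriv
  have k2 : ∀ {w : ℝ × ℝ → ℝ}, IsSmoothPeriodic w → ∀ y,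
      deriv (fun s => w (y, s)) = fun s => Dv (0, 1) w (y, s) := fun hw y => funext fun s => by
    simpa using (hasDerivAt_line hw (y, 0) (0, 1) s).deriv
  rw [flatLaplacian, iteratedDeriv_succ, iteratedDeriv_one, iteratedDeriv_succ, iteratedDeriv_one,
    k1 h, k1 (sp_Dv h _), k2 h, k2 (sp_Dv h _)]

theorem sp_lap {u : ℝ × ℝ → ℝ} (h : IsSmoothPeriodic u) :
    IsSmoothPeriodic fun p => -flatLaplacian u p := by
  simp only [lap_eq h]
  exact sp_neg (sp_add (sp_Dv (sp_Dv h _) _) (sp_Dv (sp_Dv h _) _))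

/-! ### Riemann sums -/

theorem riem1 {g : ℝ → ℝ} {K : ℝ} (h : ∀ s t, |g s - g t| ≤ K * |s - t|) {n : ℕ} (hn : 0 < n) :
    |(∫ s in (0 : ℝ)..1, g s) - (∑ i ∈ range n, g (i / n)) / n| ≤ K / n := by
  have hK : 0 ≤ K := by simpa using (abs_nonneg _).trans (h 1 0)
  have hc : Continuous g := (LipschitzWith.of_dist_le_mul (K := ⟨K, hK⟩) fun s t => h s t).continuous
  have hn' : (0 : ℝ) < n := by exact_mod_cast hn
  have e := intervalIntegral.sum_integral_adjacent_intervals (f := g) (μ := MeasureTheory.volume)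
    (a := fun k : ℕ => (k : ℝ) / n) (n := n) fun k _ => hc.intervalIntegrable _ _
  simp only [Nat.cast_zero, zero_div, div_self hn'.ne'] at e
  rw [← e, sum_div, ← sum_sub_distrib]
  refine (abs_sum_le_sum_abs _ _).trans ((sum_le_card_nsmul _ _ (K / n * (1 / n)) fun i _ => ?_).trans
    (le_of_eq (by simp; field_simp)))
  have e1 : (((i + 1 : ℕ) : ℝ) / n - (i : ℝ) / n) = 1 / n := by push_cast; ring
  have e2 : g (i / n) / n = ∫ _ in ((i : ℝ) / n)..(((i + 1 : ℕ) : ℝ) / n), g (i / n) := by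
    rw [intervalIntegral.integral_const, e1, smul_eq_mul]; ring
  rw [e2, ← intervalIntegral.integral_sub (hc.intervalIntegrable _ _) (by simp)]
  have hle : (i : ℝ) / n ≤ ((i + 1 : ℕ) : ℝ) / n := by
    have : (0 : ℝ) < 1 / n := by positivity
    linarith
  refine (intervalIntegral.norm_integral_le_of_norm_le_const (E := ℝ) (C := K / n)
    fun s hs => ?_).trans (by rw [e1, abs_of_pos (by positivity)])
  rw [Set.uIoc_of_le hle] at hs
  refine (h _ _).trans ?_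
  rw [abs_of_nonneg (by linarith [hs.1]), div_eq_mul_one_div K]
  exact mul_le_mul_of_nonneg_left (by linarith [hs.2]) hK

variable {n : ℕ} [NeZero n]

/-- the point `x / n` of the unit square -/
def pt (x : ZMod n × ZMod n) : ℝ × ℝ := ((x.1.val : ℝ) / n, (x.2.val : ℝ) / n)

theorem npos : (0 : ℝ) < n := by exact_mod_cast NeZero.pos n

theorem sum_val (g : ℕ → ℝ) : ∑ x : ZMod n, g x.val = ∑ i ∈ range n, g i :=
  sum_nbij' (fun x => x.val) (fun i => (i : ZMod n)) (fun x _ => mem_range.2 x.val_lt)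
    (fun _ _ => mem_univ _) (fun x _ => ZMod.natCast_zmod_val x)
    (fun _ hi => ZMod.val_cast_of_lt (mem_range.1 hi)) fun _ _ => rfl


theorem riem2 {F : ℝ × ℝ → ℝ} (h : IsSmoothPeriodic F) : ∃ K, 0 ≤ K ∧ ∀ (n : ℕ) [NeZero n],
    |(∑ x : ZMod n × ZMod n, F (pt x)) / (n : ℝ) ^ 2 -
      ∫ p in Set.Icc (0 : ℝ) 1 ×ˢ Set.Icc (0 : ℝ) 1, F p| ≤ K / n := by
  obtain ⟨K, h0, hK⟩ := lip h
  refine ⟨2 * K, by linarith, fun n _ => ?_⟩
  have hc := h.2.continuous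
  have hn := npos (n := n)
  have e : ∫ p in Set.Icc (0 : ℝ) 1 ×ˢ Set.Icc (0 : ℝ) 1, F p =
      ∫ s in (0 : ℝ)..1, ∫ t in (0 : ℝ)..1, F (s, t) := by
    rw [MeasureTheory.Measure.volume_eq_prod, MeasureTheory.setIntegral_prod _
      (hc.continuousOn.integrableOn_compact (isCompact_Icc.prod isCompact_Icc))]
    simp only [intervalIntegral.integral_of_le zero_le_one,
      MeasureTheory.integral_Icc_eq_integral_Ioc]
  have hi : ∀ s, IntervalIntegrable (fun t => F (s, t)) MeasureTheory.volume 0 1 := fun s =>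
    (hc.comp (by fun_prop)).intervalIntegrable _ _
  have h1 := riem1 (g := fun s => ∫ t in (0 : ℝ)..1, F (s, t)) (K := K) (fun s s' => by
    rw [← intervalIntegral.integral_sub (hi s) (hi s')]
    simpa using intervalIntegral.norm_integral_le_of_norm_le_const (a := 0) (b := 1)
      (C := K * |s - s'|) (f := fun t => F (s, t) - F (s', t)) fun t _ => by
        simpa using hK (s, t) (s', t)) (NeZero.pos n)
  have h2 : ∀ s, |(∫ t in (0 : ℝ)..1, F (s, t)) - (∑ i ∈ range n, F (s, i / n)) / n| ≤ K / n :=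
    fun s => riem1 (g := fun t => F (s, t)) (fun t t' => by simpa using hK (s, t) (s, t'))
      (NeZero.pos n)
  have e2 : (∑ x : ZMod n × ZMod n, F (pt x)) / (n : ℝ) ^ 2 =
      (∑ i ∈ range n, (∑ k ∈ range n, F (i / n, k / n)) / n) / n := by
    rw [Fintype.sum_prod_type, ← sum_div, div_div, ← sq, ← sum_val fun i => ∑ k ∈ range n, F (i / n, k / n)]
    congr 1
    exact sum_congr rfl fun x _ => sum_val fun k => F (x.val / n, k / n)
  have h3 : |(∑ i ∈ range n, ∫ t in (0 : ℝ)..1, F (i / n, t)) / n -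
      (∑ i ∈ range n, (∑ k ∈ range n, F (i / n, k / n)) / n) / n| ≤ K / n := by
    rw [← sub_div, ← sum_sub_distrib, abs_div, abs_of_pos hn, div_le_iff₀ hn]
    refine (abs_sum_le_sum_abs _ _).trans ((sum_le_card_nsmul _ _ (K / n) fun i _ => h2 _).trans ?_)
    simp [mul_comm]
  rw [e, e2, abs_le]
  rw [abs_le] at h1 h3
  have : 2 * K / n = K / n + K / n := by ring
  constructor <;> linarith [h1.1, h1.2, h3.1, h3.2]

/-! ### flows -/

theorem u_pt_add {u : ℝ × ℝ → ℝ} (h : IsPeriodic u) (x : ZMod n × ZMod n) (a b : ℤ) :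
    u (pt (x + ((a : ZMod n), (b : ZMod n)))) = u (pt x + (1 / n : ℝ) • ((a : ℝ), (b : ℝ))) := by
  have key : ∀ (z : ZMod n) (c : ℤ), ∃ k : ℤ,
      ((z + c).val : ℝ) / n = (z.val : ℝ) / n + 1 / n * c + k := fun z c => by
    obtain ⟨k, hk⟩ : (n : ℤ) ∣ ((z + c).val : ℤ) - (z.val + c) :=
      (ZMod.intCast_zmod_eq_zero_iff_dvd _ _).1 (by push_cast; simp)
    refine ⟨k, ?_⟩
    have h1 : (((z + c).val : ℤ) : ℝ) - ((z.val : ℤ) + c) = n * k := by exact_mod_cast hk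
    have := npos (n := n)
    push_cast at h1
    field_simp
    linarith
  obtain ⟨k, hk⟩ := key x.1 a
  obtain ⟨l, hl⟩ := key x.2 b
  rw [← per_int h k l (pt x + _)]
  congr 1
  ext
  · exact hk
  · exact hl

theorem flow1 (r : ZMod n → ℝ) (h0 : ∑ x, r x = 0) {δ : ℝ} (hδ : ∀ x, |r x| ≤ δ) :
    ∃ k : ZMod n → ℝ, (∀ x, r x = k (x - 1) - k x) ∧ ∀ x, |k x| ≤ n * δ := by
  refine ⟨fun x => -∑ i ∈ range (x.val + 1), r i, fun x => ?_, fun x => ?_⟩
  · have hs : ∑ i ∈ range n, r i = 0 := by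
      rw [← sum_val fun i => r i]; simpa using h0
    simp only [sum_range_succ _ x.val, ZMod.natCast_zmod_val]
    have h1 : ((x - 1).val + 1) % n = x.val := by
      have : (((x - 1).val + 1 : ℕ) : ZMod n) = x := by simp
      rw [← ZMod.val_natCast, this]
    have h2 := (x - 1).val_lt
    rcases Nat.lt_or_ge ((x - 1).val + 1) n with h | h
    · rw [Nat.mod_eq_of_lt h] at h1
      rw [h1]; ring
    · have h3 : (x - 1).val + 1 = n := by omega
      rw [h3, Nat.mod_self] at h1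
      rw [h3, hs, ← h1]; simp
  · rw [abs_neg]
    refine (abs_sum_le_sum_abs _ _).trans ((sum_le_card_nsmul _ _ δ fun i _ => hδ _).trans ?_)
    rw [card_range, nsmul_eq_mul]
    exact mul_le_mul_of_nonneg_right (by exact_mod_cast x.val_lt) ((abs_nonneg _).trans (hδ x))

/-- summation by parts -/
theorem sbp (g k : ZMod n × ZMod n → ℝ) (e : ZMod n × ZMod n) :
    ∑ x, g x * (k (x - e) - k x) = ∑ x, k x * (g (x + e) - g x) := by
  simp only [mul_sub, sum_sub_distrib]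
  congr 1
  · exact (Fintype.sum_equiv (Equiv.addRight e) _ _ fun x => by simp [mul_comm]).symm
  · exact sum_congr rfl fun x _ => mul_comm _ _

/-- a neutral function is the divergence of a small flow -/
theorem flow2 (r : ZMod n × ZMod n → ℝ) (h0 : ∑ x, r x = 0) {δ : ℝ} (hδ : ∀ x, |r x| ≤ δ) :
    ∃ k1 k2 : ZMod n × ZMod n → ℝ, (∀ x, |k1 x| ≤ 2 * n * δ ∧ |k2 x| ≤ 2 * n * δ) ∧
      ∀ x, r x = (k1 (x - (1, 0)) - k1 x) + (k2 (x - (0, 1)) - k2 x) := by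
  have hn := npos (n := n)
  have hδ0 : 0 ≤ δ := (abs_nonneg _).trans (hδ 0)
  have hR : ∀ b : ZMod n, |(∑ a, r (a, b)) / n| ≤ δ := fun b => by
    rw [abs_div, abs_of_pos hn, div_le_iff₀ hn]
    refine (abs_sum_le_sum_abs _ _).trans ((sum_le_card_nsmul _ _ δ fun i _ => hδ _).trans ?_)
    simp [mul_comm]
  choose k hk1 hk2 using fun b : ZMod n => flow1 (fun a => r (a, b) - (∑ a, r (a, b)) / n)
    (by rw [sum_sub_distrib]; simp; field_simp; ring) (δ := 2 * δ) fun a =>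
      (abs_sub _ _).trans (by linarith [hδ (a, b), hR b])
  obtain ⟨l, hl1, hl2⟩ := flow1 (fun b => (∑ a, r (a, b)) / n)
    (by rw [← sum_div, ← Fintype.sum_prod_type_right, h0, zero_div]) hR
  refine ⟨fun x => k x.2 x.1, fun x => l x.2, fun x => ⟨by linarith [hk2 x.2 x.1],
    by nlinarith [hl2 x.2]⟩, fun x => ?_⟩
  have a1 := hk1 x.2 x.1
  have a2 := hl1 x.2
  simp only [Prod.fst_sub, Prod.snd_sub, sub_zero, Prod.mk.eta] at a1 a2 ⊢
  linarith

/-- the lattice force `n⁻² (f (x / n) - mean)` -/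
def fn (f : ℝ × ℝ → ℝ) (x : ZMod n × ZMod n) : ℝ :=
  (f (pt x) - (∑ y : ZMod n × ZMod n, f (pt y)) / (n : ℝ) ^ 2) / (n : ℝ) ^ 2

theorem sum_fn (f : ℝ × ℝ → ℝ) : ∑ x : ZMod n × ZMod n, fn f x = 0 := by
  have := npos (n := n)
  simp only [fn, ← sum_div, sum_sub_distrib, sum_const, card_univ, Fintype.card_prod, ZMod.card,
    nsmul_eq_mul]
  push_cast
  field_simp
  ring

theorem pairing_eq (h : TorusConfig n) (f : ℝ × ℝ → ℝ) :
    fieldPairing h f = 2 * Real.pi * ∑ x, (h.1 x : ℝ) * fn f x := by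
  have := npos (n := n)
  simp only [fieldPairing, meanHeight, fn, pt, sub_mul, sum_sub_distrib, ← mul_div_assoc, ← sum_div,
    mul_sub, ← mul_sum, ← sum_mul, mul_assoc]
  field_simp

/-- the discrete gradients of `u (· / n)` -/
def gr (u : ℝ × ℝ → ℝ) (e x : ZMod n × ZMod n) : ℝ := u (pt (x + e)) - u (pt x)

theorem gr_tay {u : ℝ × ℝ → ℝ} (h : IsSmoothPeriodic u) (a b : ℤ) : ∃ K, 0 ≤ K ∧
    ∀ (n : ℕ) [NeZero n] (x : ZMod n × ZMod n),
      |gr u ((a : ZMod n), (b : ZMod n)) x - Dv (a, b) u (pt x) / n| ≤ K / (n : ℝ) ^ 2 ∧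
      |gr u ((a : ZMod n), (b : ZMod n)) x - 
          gr u ((a : ZMod n), (b : ZMod n)) (x - ((a : ZMod n), (b : ZMod n))) -
        Dv (a, b) (Dv (a, b) u) (pt x) / (n : ℝ) ^ 2| ≤ K / (n : ℝ) ^ 3 := by
  obtain ⟨K1, h1, hK1⟩ := tay1 h (a, b)
  obtain ⟨K2, h2, hK2⟩ := tay2 h (a, b)
  refine ⟨K1 + K2, by linarith, fun n _ x => ?_⟩
  have hn := npos (n := n)
  have a1 := hK1 (pt x) (1 / n)
  have a2 := hK2 (pt x) (1 / n)
  have e : u (pt (x - ((a : ZMod n), (b : ZMod n)))) = u (pt x - (1 / n : ℝ) • ((a : ℝ), (b : ℝ))) := by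
    have := u_pt_add h.1 x (-a) (-b)
    push_cast at this
    rw [← Prod.neg_mk, ← Prod.neg_mk, smul_neg, ← sub_eq_add_neg, ← sub_eq_add_neg] at this
    exact this
  rw [abs_of_pos (by positivity : (0 : ℝ) < 1 / n)] at a1 a2
  simp only [gr, sub_add_cancel, u_pt_add h.1, e]
  constructor
  · rw [div_eq_inv_mul (Dv _ _ _), ← one_div]
    refine a1.trans ?_
    rw [div_pow, one_pow, mul_one_div]; gcongr; linarith
  · refine le_trans (le_of_eq ?_) (a2.trans ?_)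
    · congr 1; ring
    · rw [div_pow, one_pow, mul_one_div]; gcongr; linarith

/-- **FLOW**: the lattice force of `f = -Δ u` is the divergence of a flow `∇ u / n + O(n⁻²)` -/
theorem flow {u : ℝ × ℝ → ℝ} (h : IsSmoothPeriodic u) : ∃ K, 0 ≤ K ∧ ∀ (n : ℕ) [NeZero n],
    ∃ j1 j2 : ZMod n × ZMod n → ℝ,
      (∀ x, |j1 x - Dv (1, 0) u (pt x) / n| ≤ K / (n : ℝ) ^ 2 ∧
        |j2 x - Dv (0, 1) u (pt x) / n| ≤ K / (n : ℝ) ^ 2) ∧
      (∀ x, fn (fun p => -flatLaplacian u p) x =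
        (j1 (x - (1, 0)) - j1 x) + (j2 (x - (0, 1)) - j2 x)) ∧
      ∀ g : ZMod n × ZMod n → ℝ, ∑ x, g x * fn (fun p => -flatLaplacian u p) x =
        ∑ x, (j1 x * (g (x + (1, 0)) - g x) + j2 x * (g (x + (0, 1)) - g x)) := by
  obtain ⟨K1, h1, hK1⟩ := gr_tay h 1 0
  obtain ⟨K2, h2, hK2⟩ := gr_tay h 0 1
  refine ⟨5 * (K1 + K2), by linarith, fun n _ => ?_⟩
  have hn := npos (n := n)
  have a1 := hK1 n
  have a2 := hK2 n
  simp only [Int.cast_one, Int.cast_zero] at a1 a2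
  obtain ⟨d, hd⟩ : ∃ d : ZMod n × ZMod n → ℝ, ∀ x, d x =
      (gr u (1, 0) (x - (1, 0)) - gr u (1, 0) x) + (gr u (0, 1) (x - (0, 1)) - gr u (0, 1) x) :=
    ⟨_, fun _ => rfl⟩
  have hd0 : ∑ x, d x = 0 := by
    have b1 := sbp (fun _ => 1) (gr u (1, 0)) ((1 : ZMod n), (0 : ZMod n))
    have b2 := sbp (fun _ => 1) (gr u (0, 1)) ((0 : ZMod n), (1 : ZMod n))
    simp only [one_mul, sub_self, mul_zero, sum_const_zero] at b1 b2
    simp only [hd, sum_add_distrib, b1, b2, add_zero]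
  have hr : ∀ x, |-flatLaplacian u (pt x) / (n : ℝ) ^ 2 - d x| ≤ (K1 + K2) / (n : ℝ) ^ 3 := fun x => by
    have b1 := abs_le.1 (a1 x).2
    have b2 := abs_le.1 (a2 x).2
    rw [hd, lap_eq h, add_div K1, neg_div, add_div]
    exact abs_le.2 ⟨by linarith [b1.1, b2.1], by linarith [b1.2, b2.2]⟩
  have hm : |(∑ y : ZMod n × ZMod n, -flatLaplacian u (pt y)) / (n : ℝ) ^ 2 / (n : ℝ) ^ 2| ≤
      (K1 + K2) / (n : ℝ) ^ 3 := by
    rw [abs_div, abs_of_pos (by positivity : (0 : ℝ) < (n : ℝ) ^ 2), div_le_iff₀ (by positivity),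
      ← sub_zero (_ / _), ← hd0, sum_div, ← sum_sub_distrib]
    refine (abs_sum_le_sum_abs _ _).trans ((sum_le_card_nsmul _ _ _ fun x _ => hr x).trans ?_)
    simp [sq, mul_comm]
  obtain ⟨k1, k2, hk, hk'⟩ := flow2 (fun x => fn (fun p => -flatLaplacian u p) x - d x)
    (by rw [sum_sub_distrib, sum_fn, hd0, sub_zero]) (δ := 2 * ((K1 + K2) / (n : ℝ) ^ 3)) fun x => by
      have b1 := abs_le.1 (hr x)
      have b2 := abs_le.1 hm
      rw [fn, sub_div]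
      exact abs_le.2 ⟨by linarith [b1.1, b2.2], by linarith [b1.2, b2.1]⟩
  have e : 2 * n * (2 * ((K1 + K2) / (n : ℝ) ^ 3)) = 4 * ((K1 + K2) / (n : ℝ) ^ 2) := by
    field_simp; ring
  have hdiv : ∀ x, fn (fun p => -flatLaplacian u p) x =
      ((gr u (1, 0) (x - (1, 0)) + k1 (x - (1, 0))) - (gr u (1, 0) x + k1 x)) +
        ((gr u (0, 1) (x - (0, 1)) + k2 (x - (0, 1))) - (gr u (0, 1) x + k2 x)) := fun x => by
    have := hk' x
    rw [hd] at this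
    linarith
  refine ⟨fun x => gr u (1, 0) x + k1 x, fun x => gr u (0, 1) x + k2 x, fun x => ?_, hdiv, fun g => ?_⟩
  · have b1 := abs_le.1 (a1 x).1
    have b2 := abs_le.1 (a2 x).1
    have b3 := abs_le.1 (hk x).1
    have b4 := abs_le.1 (hk x).2
    have c1 : 0 ≤ K1 / (n : ℝ) ^ 2 := by positivity
    have c2 : 0 ≤ K2 / (n : ℝ) ^ 2 := by positivity
    rw [e, add_div] at b3 b4
    rw [mul_div_assoc, add_div]
    exact ⟨abs_le.2 ⟨by linarith [b1.1, b3.1], by linarith [b1.2, b3.2]⟩,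
      abs_le.2 ⟨by linarith [b2.1, b4.1], by linarith [b2.2, b4.2]⟩⟩
  · simp only [hdiv, mul_add (g _), sum_add_distrib]
    rw [sbp g fun x => gr u (1, 0) x + k1 x, sbp g fun x => gr u (0, 1) x + k2 x]

/-! ### limits -/


theorem avg_le {a : ZMod n × ZMod n → ℝ} {K : ℝ} (h : ∀ x, |a x| ≤ K / (n : ℝ) ^ 2) :
    |∑ x, a x| ≤ K := by
  have := npos (n := n)
  refine (abs_sum_le_sum_abs _ _).trans ((sum_le_card_nsmul _ _ _ fun x _ => h x).trans ?_)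
  simp only [card_univ, Fintype.card_prod, ZMod.card, nsmul_eq_mul]
  push_cast
  field_simp
  rfl

/-- `∫ |∇ u|²` -/
def en (u : ℝ × ℝ → ℝ) : ℝ := unitSquarePairing (fun p => -flatLaplacian u p) u

/-- **TEST**: `∑ f_n u_n → ∫ f u` -/
theorem test {u : ℝ × ℝ → ℝ} (h : IsSmoothPeriodic u) : ∃ K, 0 ≤ K ∧ ∀ (n : ℕ) [NeZero n],
    |∑ x : ZMod n × ZMod n, u (pt x) * fn (fun p => -flatLaplacian u p) x - en u| ≤ K / n := by
  obtain ⟨K1, h1, hK1⟩ := riem2 (sp_mul (sp_lap h) h)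
  obtain ⟨K2, h2, hK2⟩ := bdd h
  obtain ⟨K3, h3, hK3⟩ := gr_tay h 1 0
  obtain ⟨K4, h4, hK4⟩ := gr_tay h 0 1
  refine ⟨K1 + K2 * (K3 + K4), by positivity, fun n _ => ?_⟩
  have hn := npos (n := n)
  have a1 := hK3 n
  have a2 := hK4 n
  simp only [Int.cast_one, Int.cast_zero] at a1 a2
  have b1 := sbp (fun _ => 1) (gr u (1, 0)) ((1 : ZMod n), (0 : ZMod n))
  have b2 := sbp (fun _ => 1) (gr u (0, 1)) ((0 : ZMod n), (1 : ZMod n))
  simp only [one_mul, sub_self, mul_zero, sum_const_zero] at b1 b2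
  have hm : |(∑ y : ZMod n × ZMod n, -flatLaplacian u (pt y)) / (n : ℝ) ^ 2| ≤ (K3 + K4) / n := by
    rw [← sub_zero (_ / _), ← add_zero (0 : ℝ)]
    nth_rewrite 1 [← b1]
    rw [← b2, sum_div, ← sum_add_distrib, ← sum_sub_distrib]
    refine avg_le fun x => ?_
    have c1 := abs_le.1 (a1 x).2
    have c2 := abs_le.1 (a2 x).2
    rw [lap_eq h, div_div, ← pow_succ', add_div K3, neg_div, add_div]
    exact abs_le.2 ⟨by linarith [c1.1, c2.1], by linarith [c1.2, c2.2]⟩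
  obtain ⟨m, hm'⟩ : ∃ m, m = (∑ y : ZMod n × ZMod n, -flatLaplacian u (pt y)) / (n : ℝ) ^ 2 :=
    ⟨_, rfl⟩
  have hu : |∑ x : ZMod n × ZMod n, u (pt x) * m / (n : ℝ) ^ 2| ≤ K2 * ((K3 + K4) / n) :=
    avg_le fun x => by
      rw [abs_div, abs_of_pos (by positivity : (0 : ℝ) < (n : ℝ) ^ 2), abs_mul, hm']
      gcongr
      exact hK2 _
  have e : ∑ x : ZMod n × ZMod n, u (pt x) * fn (fun p => -flatLaplacian u p) x =
      (∑ x : ZMod n × ZMod n, -flatLaplacian u (pt x) * u (pt x)) / (n : ℝ) ^ 2 -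
        ∑ x : ZMod n × ZMod n, u (pt x) * m / (n : ℝ) ^ 2 := by
    rw [sum_div, ← sum_sub_distrib]
    exact sum_congr rfl fun x _ => by rw [fn, ← hm']; ring
  have c := abs_le.1 (hK1 n)
  rw [abs_le] at hu
  rw [e, en, unitSquarePairing, add_div, mul_div_assoc, abs_le]
  constructor <;> linarith [c.1, c.2, hu.1, hu.2]

theorem mul_close {a b A B K M t : ℝ} (ht : 1 ≤ t) (hK : 0 ≤ K) (ha : |a - A / t| ≤ K / t ^ 2)
    (hb : |b - B / t| ≤ K / t ^ 2) (hA : |A| ≤ M) (hB : |B| ≤ M) :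
    |a * b - A * B / t ^ 2| ≤ (K * K + 2 * K * M) / t / t ^ 2 := by
  have h0 : 0 < t := by linarith
  have hM : 0 ≤ M := (abs_nonneg _).trans hA
  have e : a * b - A * B / t ^ 2 =
      (a - A / t) * (b - B / t) + (a - A / t) * (B / t) + A / t * (b - B / t) := by
    field_simp; ring
  have h1 : |B / t| ≤ M / t := by rw [abs_div, abs_of_pos h0]; gcongr
  have h2 : |A / t| ≤ M / t := by rw [abs_div, abs_of_pos h0]; gcongr
  have h3 : K / t ^ 2 ≤ K / t := by gcongr; nlinarith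
  rw [e]
  refine (abs_add_three _ _ _).trans ?_
  simp only [abs_mul]
  calc _ ≤ K / t * (K / t ^ 2) + K / t ^ 2 * (M / t) + M / t * (K / t ^ 2) := by
        gcongr; exact ha.trans h3
    _ = _ := by ring

/-- **ENERGY**: the Riemann sums of `|∇ u|²` converge to `∫ f u` -/
theorem grad_sq {u : ℝ × ℝ → ℝ} (h : IsSmoothPeriodic u) : ∃ K, 0 ≤ K ∧ ∀ (n : ℕ) [NeZero n],
    |(∑ x : ZMod n × ZMod n, (Dv (1, 0) u (pt x) ^ 2 + Dv (0, 1) u (pt x) ^ 2)) / (n : ℝ) ^ 2 -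
      en u| ≤ K / n := by
  obtain ⟨K0, h0, hK0⟩ := test h
  obtain ⟨K1, h1, hK1⟩ := flow h
  obtain ⟨K3, h3, hK3⟩ := gr_tay h 1 0
  obtain ⟨K4, h4, hK4⟩ := gr_tay h 0 1
  obtain ⟨M1, m1, hM1⟩ := bdd (sp_Dv h (1, 0))
  obtain ⟨M2, m2, hM2⟩ := bdd (sp_Dv h (0, 1))
  obtain ⟨K, hK⟩ : ∃ K, K = K1 + K3 + K4 := ⟨_, rfl⟩
  have hK' : 0 ≤ K := by linarith
  refine ⟨K0 + ((K * K + 2 * K * M1) + (K * K + 2 * K * M2)), by positivity, fun n _ => ?_⟩
  have hn := npos (n := n)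
  have hn1 : (1 : ℝ) ≤ n := by exact_mod_cast NeZero.pos n
  obtain ⟨j1, j2, hj, -, hg⟩ := hK1 n
  have a1 := hK3 n
  have a2 := hK4 n
  simp only [Int.cast_one, Int.cast_zero] at a1 a2
  have c := hK0 n
  rw [hg fun x => u (pt x)] at c
  have mono : ∀ {k : ℝ}, k ≤ K → k / (n : ℝ) ^ 2 ≤ K / (n : ℝ) ^ 2 := fun hk => by gcongr
  have d := avg_le (n := n) (K := (K * K + 2 * K * M1) / n + (K * K + 2 * K * M2) / n)
    (a := fun x => (j1 x * gr u (1, 0) x + j2 x * gr u (0, 1) x) -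
      (Dv (1, 0) u (pt x) ^ 2 + Dv (0, 1) u (pt x) ^ 2) / (n : ℝ) ^ 2) fun x => by
    have d1 := abs_le.1 (mul_close hn1 hK' ((hj x).1.trans (mono (by linarith)))
      ((a1 x).1.trans (mono (by linarith))) (hM1 _) (hM1 _))
    have d2 := abs_le.1 (mul_close hn1 hK' ((hj x).2.trans (mono (by linarith)))
      ((a2 x).1.trans (mono (by linarith))) (hM2 _) (hM2 _))
    rw [add_div, add_div (_ / (n : ℝ)), sq (Dv _ _ _), sq (Dv _ _ _)]
    exact abs_le.2 ⟨by linarith [d1.1, d2.1], by linarith [d1.2, d2.2]⟩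
  rw [sum_sub_distrib, ← sum_div, abs_le] at d
  rw [abs_le] at c
  simp only [gr] at d
  rw [add_div K0, add_div (K * K + 2 * K * M1), abs_le]
  constructor <;> linarith [c.1, c.2, d.1, d.2]



/-! ### the interaction `J` -/

section J
variable {J : Finset (ℤ × ℤ)}

theorem sum_rot (hJ : IsAdmissible J) (g : ℤ × ℤ → ℝ) : ∑ y ∈ J, g (-y.2, y.1) = ∑ y ∈ J, g y :=
  sum_nbij' (fun y => (-y.2, y.1)) (fun y => (y.2, -y.1)) (fun y hy => hJ.2.2.1 y hy)
    (fun y hy => by simpa using hJ.2.2.1 _ (hJ.2.2.1 _ (hJ.2.2.1 y hy))) (fun y _ => by simp)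
    (fun y _ => by simp) fun _ _ => rfl

theorem card_J_pos (hJ : IsAdmissible J) : (0 : ℝ) < #J := by
  exact_mod_cast card_pos.2 ⟨_, hJ.2.1⟩

theorem var_pos (hJ : IsAdmissible J) : 0 < varianceConst J :=
  div_pos (sum_pos' (fun _ _ => sq_nonneg _) ⟨_, hJ.2.1, by simp⟩)
    (mul_pos two_pos (card_J_pos hJ))

/-- isotropy of the second moments -/
theorem sum_J_sq (hJ : IsAdmissible J) (a b : ℝ) :
    ∑ y ∈ J, (y.1 * a + y.2 * b) ^ 2 = 2 * #J * varianceConst J * (a ^ 2 + b ^ 2) := by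
  have h1 := sum_rot hJ fun y => (y.1 : ℝ) ^ 2
  have h2 := sum_rot hJ fun y => (y.1 : ℝ) * y.2
  simp only [Int.cast_neg, neg_sq, neg_mul, sum_neg_distrib, mul_comm ((_ : ℤ × ℤ).2 : ℝ)] at h1 h2
  have h3 : ∑ y ∈ J, (y.1 : ℝ) * y.2 = 0 := by linarith
  have e : ∑ y ∈ J, (y.1 * a + y.2 * b) ^ 2 = (∑ y ∈ J, (y.1 : ℝ) ^ 2) * a ^ 2 +
      (∑ y ∈ J, (y.2 : ℝ) ^ 2) * b ^ 2 + (∑ y ∈ J, (y.1 : ℝ) * y.2) * (2 * a * b) := by
    simp only [sum_mul, ← sum_add_distrib]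
    exact sum_congr rfl fun y _ => by ring
  have := card_J_pos hJ
  rw [e, h1, h3, varianceConst]
  field_simp
  ring

/-- **J-ENERGY** of `u (· / n)` -/
theorem energy_J (hJ : IsAdmissible J) {u : ℝ × ℝ → ℝ} (h : IsSmoothPeriodic u) :
    ∃ K, 0 ≤ K ∧ ∀ (n : ℕ) [NeZero n],
      |∑ x : ZMod n × ZMod n, ∑ y ∈ J, gr u ((y.1 : ZMod n), (y.2 : ZMod n)) x ^ 2 -
        2 * #J * varianceConst J * en u| ≤ K / n := by
  obtain ⟨K0, h0, hK0⟩ := grad_sq h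
  choose K1 h1 hK1 using fun y : ℤ × ℤ => gr_tay h y.1 y.2
  choose M m hM using fun y : ℤ × ℤ => bdd (sp_Dv h ((y.1 : ℝ), (y.2 : ℝ)))
  have hc : 0 ≤ 2 * #J * varianceConst J := by have := var_pos hJ; positivity
  refine ⟨2 * #J * varianceConst J * K0 + ∑ y ∈ J, (K1 y * K1 y + 2 * K1 y * M y),
    add_nonneg (mul_nonneg hc h0) (sum_nonneg fun y _ => by have := h1 y; have := m y; positivity),
    fun n _ => ?_⟩
  have hn1 : (1 : ℝ) ≤ n := by exact_mod_cast NeZero.pos n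
  have c := abs_le.1 (hK0 n)
  have d := avg_le (n := n) (K := (∑ y ∈ J, (K1 y * K1 y + 2 * K1 y * M y)) / n)
    (a := fun x => ∑ y ∈ J, gr u ((y.1 : ZMod n), (y.2 : ZMod n)) x ^ 2 - 2 * #J * varianceConst J *
      ((Dv (1, 0) u (pt x) ^ 2 + Dv (0, 1) u (pt x) ^ 2) / (n : ℝ) ^ 2)) fun x => by
    rw [← mul_div_assoc, ← sum_J_sq hJ, sum_div, sum_div, sum_div, ← sum_sub_distrib]
    refine (abs_sum_le_sum_abs _ _).trans (sum_le_sum fun y _ => ?_)
    have := mul_close hn1 (h1 y) (hK1 y n x).1 (hK1 y n x).1 (hM y _) (hM y _)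
    rwa [← sq, ← sq, Dv_eq] at this
  rw [sum_sub_distrib, ← mul_sum, ← sum_div, abs_le] at d
  have c1 := mul_le_mul_of_nonneg_left c.1 hc
  have c2 := mul_le_mul_of_nonneg_left c.2 hc
  rw [add_div, mul_div_assoc, abs_le]
  constructor <;> linarith [d.1, d.2]

end J

end Crest.Agent.T145.Tor27
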