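import Crest.Agent.T145.Sm_58
import Crest.Agent.T145.Tor_27
import Crest.Agent.T145.GfHiA_19
import Crest.Agent.T145.GffDef_8
import Crest.Agent.T145.GeoB_51
import Crest.Agent.T145.CutC_7
import Crest.Agent.T145.ApiL_98
import Crest.Agent.T145.CorB_59
import Crest.Agent.T145.BrB_73
import Crest.Agent.T145.Route_51

-- ▼ part T145/SmB_58
section

/-!
# Row 145, module (b): `Sm2` for rescaled profiles `x ↦ û (x / L)` (helper58)
-/

set_option autoImplicit false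

namespace Crest.Agent.T145

open Finset S58 Crest.ProbabilityR.HeightModel
open Tor27 (Dv)


/-- real unit vectors -/
def evR : Fin 2 → ℝ × ℝ := ![(1, 0), (0, 1)]




namespace S58




end S58

/-- `û` has two bounded partial derivatives -/
structure C2b (u : ℝ × ℝ → ℝ) (K : ℝ) : Prop where
  d₀ : Differentiable ℝ u
  d₁ : ∀ i, Differentiable ℝ (Dv (evR i) u)
  b₁ : ∀ i p, |Dv (evR i) u p| ≤ K
  b₂ : ∀ i j p, |Dv (evR j) (Dv (evR i) u) p| ≤ K



theorem C2b.mono {u : ℝ × ℝ → ℝ} {K K' : ℝ} (h : C2b u K) (hK : K ≤ K') : C2b u K' :=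
  ⟨h.d₀, h.d₁, fun i p => (h.b₁ i p).trans hK, fun i j p => (h.b₂ i j p).trans hK⟩

namespace S58







end S58





/-! ## Composition with a function of one variable -/

/-- `g ∘ u` -/
theorem Sm2.comp {u : Pt → ℝ} {g : ℝ → ℝ} {K K' L : ℝ} (h : Sm2 u K L) (hg : C11 g K') (hL : 0 < L) :
    Sm2 (fun x => g (u x)) (K' * (K + K ^ 2)) L := by
  have hK := h.nonneg hL
  have hK' := hg.nonneg
  refine ⟨fun i x => ?_, fun i j x => ?_⟩
  · refine (mvt hg.1 hg.2.1 _ _).trans ?_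
    rw [mul_div_assoc]
    refine mul_le_mul_of_nonneg_left ((h.1 i x).trans ?_) hK'
    gcongr
    nlinarith
  · rw [df_df]
    have h1 := abs_dd_le hg.1 hg.2.2 (u x) (df i u x) (df j u x)
    have h2 := mvt hg.1 hg.2.1 (u (x + ev j + ev i)) (u x + df j u x + df i u x)
    have e1 : u (x + ev j + ev i) - (u x + df j u x + df i u x) = df j (df i u) x := by
      simp only [df]; ring
    have e2 : ∀ j, u x + df j u x = u (x + ev j) := fun j => by simp only [df]; ring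
    rw [e1] at h2
    rw [e2 i] at h1
    have e3 : g (u x + df j u x) = g (u (x + ev j)) := by rw [e2]
    rw [e3] at h1
    have h3 : K' * |df i u x| * |df j u x| ≤ K' * (K / L) * (K / L) :=
      mul_le_mul (mul_le_mul_of_nonneg_left (h.1 i x) hK') (h.1 j x) (abs_nonneg _) (by positivity)
    have h4 := mul_le_mul_of_nonneg_left (h.2 i j x) hK'
    have e4 : K' * (K + K ^ 2) / L ^ 2 = K' * (K / L ^ 2) + K' * (K / L) * (K / L) := by ring
    rw [e4]
    have := abs_add_le (g (u (x + ev j + ev i)) - g (u x + df j u x + df i u x))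
      (g (u x + df j u x + df i u x) - g (u (x + ev j)) - g (u (x + ev i)) + g (u x))
    have e5 : g (u (x + ev j + ev i)) - g (u x + df j u x + df i u x) +
      (g (u x + df j u x + df i u x) - g (u (x + ev j)) - g (u (x + ev i)) + g (u x)) =
      g (u (x + ev j + ev i)) - g (u (x + ev j)) - g (u (x + ev i)) + g (u x) := by ring
    rw [e5] at this
    linarith



end Crest.Agent.T145
end

-- ▼ part T145/GfHi_19
section

/-!
# Row 145 (helper19): `HiStmt` (T3a, high modes)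
-/

set_option autoImplicit false
set_option linter.unusedVariables false

namespace Crest.Agent.T145.Hi19

open Finset Matrix

/-! ## flows -/
section flows
variable {V : Type*} [DecidableEq V] {ed ed' : Finset (V × V)} {f g : V → ℝ} {n m : ℝ}

omit [DecidableEq V] in
theorem f2_le (h : F2 ed f n) (hn : n ≤ m) : F2 ed f m := h.imp fun φ h => ⟨h.1, h.2.trans hn⟩

omit [DecidableEq V] in
theorem f2_zero (ed : Finset (V × V)) : F2 ed (0 : V → ℝ) 0 :=
  ⟨0, by ext x; simp [dv], by simp⟩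

omit [DecidableEq V] in
theorem f2_add (h : F2 ed f n) (h' : F2 ed g m) : F2 ed (f + g) (2 * n + 2 * m) := by
  obtain ⟨φ, rfl, a⟩ := h
  obtain ⟨ψ, rfl, b⟩ := h'
  refine ⟨φ + ψ, by ext x; simp [dv, add_mul, sum_add_distrib], ?_⟩
  have : ∑ e ∈ ed, (φ + ψ) e ^ 2 ≤ ∑ e ∈ ed, (2 * φ e ^ 2 + 2 * ψ e ^ 2) :=
    sum_le_sum fun e _ => by simp only [Pi.add_apply]; nlinarith [sq_nonneg (φ e - ψ e)]
  rw [sum_add_distrib, ← mul_sum, ← mul_sum] at this
  linarith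

omit [DecidableEq V] in
theorem f2_smul (c : ℝ) (h : F2 ed f n) : F2 ed (c • f) (c ^ 2 * n) := by
  obtain ⟨φ, rfl, a⟩ := h
  refine ⟨c • φ, by ext x; simp [dv, mul_sum, mul_assoc], ?_⟩
  simp only [Pi.smul_apply, smul_eq_mul, mul_pow, ← mul_sum]
  exact mul_le_mul_of_nonneg_left a (sq_nonneg c)

theorem f2_union (hd : Disjoint ed ed') (h : F2 ed f n) (h' : F2 ed' g m) :
    F2 (ed ∪ ed') (f + g) (n + m) := by
  obtain ⟨φ, rfl, a⟩ := h
  obtain ⟨ψ, rfl, b⟩ := h'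
  have e1 : ∀ F : V × V → ℝ → ℝ, ∑ e ∈ ed ∪ ed', F e (if e ∈ ed then φ e else ψ e) =
      ∑ e ∈ ed, F e (φ e) + ∑ e ∈ ed', F e (ψ e) := fun F => by
    rw [sum_union hd]
    congr 1
    · exact sum_congr rfl fun e he => by rw [if_pos he]
    · exact sum_congr rfl fun e he => by rw [if_neg (disjoint_right.1 hd he)]
  refine ⟨fun e => if e ∈ ed then φ e else ψ e, ?_, ?_⟩
  · ext x
    exact (e1 fun e y => y * (ind (e.2 = x) - ind (e.1 = x))).symm
  · rw [e1 fun e y => y ^ 2]; linarith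

theorem f2_mono (hs : ed ⊆ ed') (h : F2 ed f n) : F2 ed' f n := by
  have := f2_union disjoint_sdiff h (f2_zero (ed' \ ed))
  rwa [union_sdiff_of_subset hs, add_zero, add_zero] at this

theorem f2_sum {κ : Type*} [DecidableEq κ] (I : Finset κ) (E : κ → Finset (V × V)) (F : κ → V → ℝ)
    (N : κ → ℝ) (hd : ∀ i ∈ I, ∀ j ∈ I, i ≠ j → Disjoint (E i) (E j))
    (h : ∀ i ∈ I, F2 (E i) (F i) (N i)) : F2 (I.biUnion E) (∑ i ∈ I, F i) (∑ i ∈ I, N i) := by
  induction I using Finset.induction_on with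
  | empty => simpa using f2_zero ∅
  | insert a I ha ih =>
    rw [biUnion_insert, sum_insert ha, sum_insert ha]
    refine f2_union ?_ (h a (mem_insert_self _ _)) (ih (fun i hi j hj => hd i (mem_insert_of_mem hi) j
      (mem_insert_of_mem hj)) fun i hi => h i (mem_insert_of_mem hi))
    exact (disjoint_biUnion_right _ _ _).2 fun i hi =>
      hd a (mem_insert_self _ _) i (mem_insert_of_mem hi) fun e => ha (e ▸ hi)

end flows

/-! ## block averages -/

/-- the block of side `r` that contains `x` -/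
noncomputable def blk (r : ℕ) (x : Pt) : Finset Pt := sq (r * (x.1 / r), r * (x.2 / r)) r

theorem Plo_eq (r : ℕ) (f : Pt → ℝ) (x : Pt) : Plo r f x = (∑ y ∈ blk r x, f y) / (r : ℝ) ^ 2 := rfl

theorem blk_eq (r : ℕ) (x : Pt) : blk r x = sq (tile 0 r (tileOf 0 r x)) r := by
  simp [blk, tile, tileOf]

variable {r R : ℕ} {x y : Pt} {D : Finset Pt}

theorem mem_blk (hr : 0 < r) : y ∈ blk r x ↔ y.1 / r = x.1 / r ∧ y.2 / r = x.2 / r := by
  rw [blk_eq, mem_tile_iff hr]; simp [tileOf]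

theorem card_blk (r : ℕ) (x : Pt) : (blk r x).card = r ^ 2 := card_sq _ _

theorem self_mem_blk (hr : 0 < r) (x : Pt) : x ∈ blk r x := (mem_blk hr).2 ⟨rfl, rfl⟩

theorem blk_of_mem (hr : 0 < r) (h : y ∈ blk r x) : blk r y = blk r x := by
  rw [mem_blk hr] at h
  rw [blk, blk, h.1, h.2]

theorem blk_comm (hr : 0 < r) : y ∈ blk r x ↔ x ∈ blk r y := by
  rw [mem_blk hr, mem_blk hr, eq_comm, eq_comm (a := y.2 / r)]

theorem blk_zero (r : ℕ) : blk r 0 = sq 0 r := by simp [blk, Prod.zero_eq_mk]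

theorem blk_top (hx : x ∈ sq 0 r) : blk r x = sq 0 r := by
  have hr : 0 < r := by rw [mem_sq] at hx; simp only [Prod.fst_zero] at hx; omega
  rw [← blk_zero] at hx ⊢
  exact blk_of_mem hr hx

/-- `D` is a union of blocks -/
def Sat (r : ℕ) (D : Finset Pt) : Prop := ∀ x ∈ D, blk r x ⊆ D

theorem sat_blk (hR : 0 < R) (h : r ∣ R) (z : Pt) : Sat r (blk R z) := by
  obtain ⟨j, rfl⟩ := h
  have hr : 0 < r := Nat.pos_of_mul_pos_right hR
  intro x hx y hy
  rw [mem_blk hr] at hy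
  rw [mem_blk hR] at hx ⊢
  push_cast at hx ⊢
  have h0 : (0 : ℤ) ≤ r := by positivity
  rw [← Int.ediv_ediv_of_nonneg h0, ← Int.ediv_ediv_of_nonneg h0,
    ← Int.ediv_ediv_of_nonneg h0, ← Int.ediv_ediv_of_nonneg h0] at hx ⊢
  rw [hy.1, hy.2]; exact hx

theorem sat_sq (hR : 0 < R) (h : r ∣ R) : Sat r (sq 0 R) := blk_zero R ▸ sat_blk hR h 0

theorem sum_Plo_mul (hr : 0 < r) (hD : Sat r D) (f g : Pt → ℝ) :
    ∑ x ∈ D, Plo r f x * g x = ∑ x ∈ D, f x * Plo r g x := by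
  have e : ∀ (f : Pt → ℝ), ∀ x ∈ D, Plo r f x = ∑ y ∈ D, ind (y ∈ blk r x) * f y / (r : ℝ) ^ 2 :=
    fun f x hx => by
      rw [Plo_eq, ← sum_div, ← sum_subset (hD x hx) fun y _ hy => by rw [ind_neg hy, zero_mul]]
      exact congrArg (· / _) (sum_congr rfl fun y hy => by rw [ind_pos hy, one_mul])
  rw [sum_congr rfl fun x hx => by rw [e f x hx, sum_mul], sum_comm]
  refine sum_congr rfl fun x hx => ?_
  rw [e g x hx, mul_sum]
  refine sum_congr rfl fun y _ => ?_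
  rw [ind_congr (blk_comm hr)]; ring

theorem Plo_const (hr : 0 < r) (c : ℝ) (x : Pt) : Plo r (fun _ => c) x = c := by
  rw [Plo_eq, sum_const, card_blk, nsmul_eq_mul]
  push_cast
  field_simp

theorem sum_Plo (hr : 0 < r) (hD : Sat r D) (f : Pt → ℝ) : ∑ x ∈ D, Plo r f x = ∑ x ∈ D, f x := by
  simpa [Plo_const hr] using sum_Plo_mul hr hD f fun _ => 1

theorem Plo_Plo (hr : 0 < r) (f : Pt → ℝ) : Plo r (Plo r f) = Plo r f := funext fun x => by
  rw [Plo_eq r (Plo r f), sum_congr rfl fun y hy => by rw [Plo_eq, blk_of_mem hr hy, ← Plo_eq]]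
  exact Plo_const hr _ x

theorem Plo_one (f : Pt → ℝ) : Plo 1 f = f := funext fun x => by
  have : blk 1 x = {x} := by ext y; rw [mem_blk one_pos]; simp [Prod.ext_iff]
  rw [Plo_eq, this]; simp

theorem abs_Plo_le (hr : 0 < r) {f : Pt → ℝ} {K : ℝ} (h : ∀ y ∈ blk r x, |f y| ≤ K) :
    |Plo r f x| ≤ K := by
  have h0 : (0 : ℝ) < (r : ℝ) ^ 2 := by positivity
  rw [Plo_eq, abs_div, abs_of_pos h0, div_le_iff₀ h0]
  refine (abs_sum_le_sum_abs _ _).trans ((sum_le_card_nsmul _ _ K h).trans (le_of_eq ?_))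
  rw [card_blk, nsmul_eq_mul]; push_cast; ring

theorem Plo_cfg (r : ℕ) (x : Pt) (s : Cfg Pt) :
    Plo r (fun z => (s z : ℝ)) x = pr (fun y => ind (y ∈ blk r x) / (r : ℝ) ^ 2) s := by
  rw [pr_of_fsupp _ s (U := blk r x) fun y hy => by rw [ind_neg hy, zero_div], Plo_eq, sum_div]
  exact sum_congr rfl fun y hy => by rw [ind_pos hy]; ring

/-! ## flows of bands -/

variable {Λ : Lat}

theorem f2_sq (hR : R1Stmt) (hΛ : Λ.Ok) {a : Pt} {f : Pt → ℝ} (hs : Sup (sq a r) f)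
    (h0 : ∑ x ∈ sq a r, f x = 0) :
    F2 (Λ.edI (sq a r)) f (2 * (r : ℝ) ^ 2 * ∑ x ∈ sq a r, f x ^ 2) :=
  f2_le (hR Λ a r r f hΛ hs h0).1 (le_of_eq (by rw [two_mul]; rfl))

theorem f2_bdd (hR : R1Stmt) (hΛ : Λ.Ok) {a : Pt} {f : Pt → ℝ} (hs : Sup (sq a r) f)
    (h0 : ∑ x ∈ sq a r, f x = 0) {κ : ℝ} (hκ : ∀ x ∈ sq a r, |f x| ≤ κ) :
    F2 (Λ.edI (sq a r)) f (2 * (r : ℝ) ^ 4 * κ ^ 2) := by
  refine f2_le (f2_sq hR hΛ hs h0) ?_
  have : ∑ x ∈ sq a r, f x ^ 2 ≤ (r : ℝ) ^ 2 * κ ^ 2 := by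
    refine (sum_le_card_nsmul _ _ (κ ^ 2) fun x hx => ?_).trans (le_of_eq ?_)
    · exact sq_le_sq' (abs_le.1 (hκ x hx)).1 (abs_le.1 (hκ x hx)).2
    · rw [card_sq, nsmul_eq_mul]; push_cast; ring
  nlinarith [mul_le_mul_of_nonneg_left this (sq_nonneg (r : ℝ))]

theorem f2_tiles (hR : R1Stmt) (hΛ : Λ.Ok) {L : ℕ} (hr : 0 < r) (hL : r ∣ L) {f : Pt → ℝ}
    (hs : Sup (sq 0 L) f) (h0 : ∀ x ∈ sq 0 L, ∑ y ∈ blk r x, f y = 0) :
    F2 (Λ.edI (sq 0 L)) f (2 * (r : ℝ) ^ 2 * ∑ x ∈ sq 0 L, f x ^ 2) := by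
  obtain ⟨k, rfl⟩ := hL
  rw [mul_comm r k] at *
  have h := f2_sum (sq 0 k) (fun i => Λ.edI (sq (tile 0 r i) r))
    (fun i x => ind (x ∈ sq (tile 0 r i) r) * f x)
    (fun i => 2 * (r : ℝ) ^ 2 * ∑ x ∈ sq (tile 0 r i) r, f x ^ 2)
    (fun i _ j _ hij => Lat.disjoint_edI (tile_disjoint 0 r hij)) fun i hi => by
      refine f2_le (f2_sq hR hΛ (fun x hx => by rw [ind_neg hx, zero_mul]) ?_) (le_of_eq ?_)
      · have hx := self_mem_sq (tile 0 r i) hr
        have := h0 _ (tile_subset 0 r hi hx)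
        rw [blk_eq, (mem_tile_iff hr).1 hx] at this
        rw [← this]
        exact sum_congr rfl fun x hx => by rw [ind_pos hx, one_mul]
      · exact congrArg (_ * ·) (sum_congr rfl fun x hx => by rw [ind_pos hx, one_mul])
  rw [← mul_sum, ← sum_tiling] at h
  have e : (∑ i ∈ sq 0 k, fun x => ind (x ∈ sq (tile 0 r i) r) * f x) = f := by
    ext x
    rw [Finset.sum_apply]
    by_cases hx : x ∈ sq 0 (k * r)
    · rw [sum_eq_single_of_mem (tileOf 0 r x) ((tileOf_mem hr).2 hx) fun i _ hi => by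
        rw [ind_neg fun h => hi ((mem_tile_iff hr).1 h).symm, zero_mul],
        ind_pos ((mem_tile_iff hr).2 rfl), one_mul]
    · simp [hs x hx]
  rw [e] at h
  exact f2_mono (biUnion_subset.2 fun i hi => Lat.edI_mono (tile_subset 0 r hi)) h

/-- difference of two block averages on the square of side `2 ^ N` -/
noncomputable def bd (N k k' : ℕ) (σ : Pt → ℝ) (x : Pt) : ℝ :=
  ind (x ∈ sq 0 (2 ^ N)) * (Plo (2 ^ k) σ x - Plo (2 ^ k') σ x)

/-- weighted sum of the squares of the bands -/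
noncomputable def Q (N k k' : ℕ) (σ : Pt → ℝ) : ℝ :=
  ∑ j ∈ Ico k k', 2 ^ j * ∑ x ∈ sq 0 (2 ^ N), bd N j (j + 1) σ x ^ 2

theorem Q_nonneg (N k k' : ℕ) (σ : Pt → ℝ) : 0 ≤ Q N k k' σ :=
  sum_nonneg fun j _ => mul_nonneg (by positivity) (sum_nonneg fun x _ => sq_nonneg _)

theorem f2_band (hR : R1Stmt) (hΛ : Λ.Ok) {N j : ℕ} (hj : j + 1 ≤ N) (σ : Pt → ℝ) :
    F2 (Λ.edI (sq 0 (2 ^ N))) (bd N j (j + 1) σ)
      (8 * 4 ^ j * ∑ x ∈ sq 0 (2 ^ N), bd N j (j + 1) σ x ^ 2) := by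
  have p : ∀ i : ℕ, 0 < 2 ^ i := fun i => by positivity
  refine f2_le (f2_tiles hR hΛ (p (j + 1)) (pow_dvd_pow 2 hj)
    (fun x hx => by rw [bd, ind_neg hx, zero_mul]) fun x hx => ?_) (le_of_eq ?_)
  · rw [sum_congr rfl fun y hy => by
      rw [bd, ind_pos (sat_sq (p N) (pow_dvd_pow 2 hj) x hx hy), one_mul], sum_sub_distrib,
      sum_Plo (p j) (sat_blk (p _) (pow_dvd_pow 2 (Nat.le_succ j)) x),
      sum_Plo (p _) (sat_blk (p _) dvd_rfl x), sub_self]
  · congr 1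
    push_cast
    rw [← pow_mul, show (4 : ℝ) = 2 ^ 2 by norm_num, ← pow_mul]; ring

theorem f2_bd (hR : R1Stmt) (hΛ : Λ.Ok) {N k k' : ℕ} (hk : k ≤ k') (hN : k' ≤ N) (σ : Pt → ℝ) :
    F2 (Λ.edI (sq 0 (2 ^ N))) (bd N k k' σ) (8 * 2 ^ k' * Q N k k' σ) := by
  induction k', hk using Nat.le_induction with
  | base =>
    have : bd N k k σ = 0 := funext fun x => by simp [bd]
    rw [this]
    simpa [Q] using f2_zero _
  | succ j hj ih =>
    have e : bd N k (j + 1) σ = bd N k j σ + bd N j (j + 1) σ := funext fun x => by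
      simp only [bd, Pi.add_apply]; ring
    rw [e]
    refine f2_le (f2_add (ih (by omega)) (f2_band hR hΛ hN σ)) (le_of_eq ?_)
    rw [Q, Q, sum_Ico_succ_top hj, show (4 : ℝ) ^ j = 2 ^ j * 2 ^ j by rw [← mul_pow]; norm_num]
    ring

theorem bare (hB : BrStmt) (hΛ : Λ.Ok) {L : ℕ} (hL : 0 < L) {f : Pt → ℝ} {n : ℝ}
    (h : F2 (Λ.edI (sq 0 L)) f n) :
    Ex (Λ.WN L) (fun s => pr f s ^ 2) ≤ Λ.τ * n ∧ M (Λ.WN L) (pr f) ≤ bb Λ.τ n := by
  have h0 := self_mem_sq (0 : Pt) hL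
  obtain ⟨φ, h1, h2⟩ := h
  have := hB.2.1 Λ (Λ.Nr (sq 0 L) 0) f n hΛ (hΛ.ctr_Nr _ _) (hΛ.anch_Nr h0) (Λ.edI (sq 0 L))
    subset_rfl (fun _ _ => rfl) ⟨φ, fun x _ => congrFun h1 x, h2⟩
  refine ⟨?_, this.2.1⟩
  have e := (hΛ.cen_Nr h0).Vr_eq (pr f) (pr f)
  simp only [← _root_.sq] at e
  exact e ▸ this.1

theorem band_cfg {N j : ℕ} (hj : j + 1 ≤ N) (hR : R1Stmt) (hΛ : Λ.Ok) (hx : x ∈ sq 0 (2 ^ N)) :
    ∃ g : Pt → ℝ, F2 (Λ.edI (sq 0 (2 ^ N))) g 32 ∧
      ∀ s : Cfg Pt, bd N j (j + 1) (fun z => (s z : ℝ)) x = pr g s := by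
  have p : ∀ i : ℕ, 0 < 2 ^ i := fun i => by positivity
  have hsub : blk (2 ^ j) x ⊆ blk (2 ^ (j + 1)) x :=
    sat_blk (p _) (pow_dvd_pow 2 (Nat.le_succ j)) x x (self_mem_blk (p _) x)
  refine ⟨fun y => ind (y ∈ blk (2 ^ j) x) / ((2 ^ j : ℕ) : ℝ) ^ 2 -
    ind (y ∈ blk (2 ^ (j + 1)) x) / ((2 ^ (j + 1) : ℕ) : ℝ) ^ 2, ?_, fun s => by
      rw [bd, ind_pos hx, one_mul, Plo_cfg, Plo_cfg, pr_sub']; rfl⟩
  have cnt : ∀ {r : ℕ} (hr : 0 < r), blk r x ⊆ blk (2 ^ (j + 1)) x →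
      ∑ y ∈ blk (2 ^ (j + 1)) x, ind (y ∈ blk r x) / (r : ℝ) ^ 2 = 1 := fun {r} hr h => by
    rw [← sum_subset h fun y _ hy => by rw [ind_neg hy, zero_div],
      sum_congr rfl fun y hy => by rw [ind_pos hy], sum_const, card_blk, nsmul_eq_mul]
    push_cast
    field_simp
  refine f2_mono (Lat.edI_mono (sat_sq (p N) (pow_dvd_pow 2 hj) x hx))
    (f2_le (f2_bdd hR hΛ (κ := 1 / ((2 : ℝ) ^ j) ^ 2) (fun y hy => ?_) ?_ fun y hy => ?_) (le_of_eq ?_))
  · have hy' : y ∉ blk (2 ^ (j + 1)) x := hy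
    rw [ind_neg fun h => hy (hsub h), ind_neg hy']; simp
  · change ∑ y ∈ blk (2 ^ (j + 1)) x, _ = _
    rw [sum_sub_distrib, cnt (p _) hsub, cnt (p _) subset_rfl, sub_self]
  · have h1 := ind_nonneg (y ∈ blk (2 ^ j) x)
    have h2 := ind_le_one (y ∈ blk (2 ^ j) x)
    have h3 : ind (y ∈ blk (2 ^ (j + 1)) x) = 1 := ind_pos hy
    have h4 : (0 : ℝ) < (2 ^ j) ^ 2 := by positivity
    push_cast
    rw [h3, pow_succ (2 : ℝ) j, mul_pow, mul_comm, ← div_div, ← sub_div, abs_div, abs_of_pos h4]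
    refine div_le_div_of_nonneg_right (abs_le.2 ⟨?_, ?_⟩) h4.le <;> linarith
  · push_cast
    field_simp
    ring

theorem ex_Q (hR : R1Stmt) (hB : BrStmt) (hΛ : Λ.Ok) {N k k' : ℕ} (hN : k' ≤ N) :
    Ig (Λ.WN (2 ^ N)) (fun s => Q N k k' fun z => (s z : ℝ)) ∧
      Ex (Λ.WN (2 ^ N)) (fun s => Q N k k' fun z => (s z : ℝ)) ≤
        32 * Λ.τ * ((2 : ℝ) ^ N) ^ 2 * 2 ^ k' := by
  have hL : 0 < 2 ^ N := by positivity
  have hW : Cen (Λ.WN (2 ^ N)) := hΛ.cen_Nr (self_mem_sq 0 hL)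
  have one : ∀ j ∈ Ico k k', ∀ x ∈ sq 0 (2 ^ N),
      Ig (Λ.WN (2 ^ N)) (fun s => bd N j (j + 1) (fun z => (s z : ℝ)) x ^ 2) ∧
        Ex (Λ.WN (2 ^ N)) (fun s => bd N j (j + 1) (fun z => (s z : ℝ)) x ^ 2) ≤ Λ.τ * 32 :=
    fun j hj x hx => by
      obtain ⟨g, g1, g2⟩ := band_cfg (j := j) (by have := (mem_Ico.1 hj).2; omega) hR hΛ hx
      simp only [g2]
      exact ⟨hW.ig ((Tame.hom _).pow 2), (bare hB hΛ hL g1).1⟩
  have two : ∀ j ∈ Ico k k', Ig (Λ.WN (2 ^ N)) fun s =>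
      2 ^ j * ∑ x ∈ sq 0 (2 ^ N), bd N j (j + 1) (fun z => (s z : ℝ)) x ^ 2 := fun j hj =>
    (Ig.sum _ fun x hx => (one j hj x hx).1).const_mul _
  refine ⟨Ig.sum _ two, ?_⟩
  unfold Q
  rw [Ex_sum _ two]
  have hτ := hΛ.2
  refine (sum_le_sum (g := fun j => 32 * Λ.τ * ((2 : ℝ) ^ N) ^ 2 * 2 ^ j) fun j hj => ?_).trans ?_
  · rw [Ex_const_mul, Ex_sum _ fun x hx => (one j hj x hx).1, mul_comm]
    refine mul_le_mul_of_nonneg_right ((sum_le_card_nsmul _ _ _ fun x hx => (one j hj x hx).2).trans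
      (le_of_eq ?_)) (by positivity)
    rw [card_sq, nsmul_eq_mul]; push_cast; ring
  · rw [← mul_sum]
    refine mul_le_mul_of_nonneg_left ?_ (by positivity)
    refine (sum_le_sum_of_subset_of_nonneg (t := range k') (fun j hj => mem_range.2 (mem_Ico.1 hj).2)
      fun j _ _ => by positivity).trans ?_
    rw [geom_sum_eq (by norm_num)]
    norm_num

/-! ## the main statement -/

theorem per_int {B : Finset Pt} {G : (B → ℝ) → ℝ} (hG : Per G) (k : ℤ) (ψ : B → ℝ) :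
    G (fun x => ψ x - k) = G ψ := by
  induction k using Int.induction_on generalizing ψ with
  | zero => simp
  | succ i ih =>
    rw [← ih ψ, ← hG.2.2 fun x => ψ x - ((i + 1 : ℤ) : ℝ)]
    congr 1; ext x; push_cast; ring
  | pred i ih =>
    rw [← ih ψ, ← hG.2.2 fun x => ψ x - ((-i : ℤ) : ℝ), ← ih fun x => ψ x - ((-i : ℤ) : ℝ) + 1,
      ← ih fun x => ψ x - ((-i - 1 : ℤ) : ℝ)]
    congr 1; ext x; push_cast; ring

/-- rescaled restriction -/
noncomputable def lf (μ : ℝ) (B : Finset Pt) (f : Pt → ℝ) : B → ℝ := fun x => Real.sqrt μ * f x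

theorem lf_dot {μ : ℝ} (hμ : 0 ≤ μ) (B : Finset Pt) (f g : Pt → ℝ) :
    lf μ B f ⬝ᵥ lf μ B g = μ * ∑ x ∈ B, f x * g x := by
  rw [← sum_coe_sort B, mul_sum]
  refine sum_congr rfl fun x _ => ?_
  simp only [lf]
  rw [mul_mul_mul_comm, Real.mul_self_sqrt hμ]

theorem lf_sub (μ : ℝ) (B : Finset Pt) (f g : Pt → ℝ) :
    lf μ B f - lf μ B g = lf μ B fun x => f x - g x := funext fun x => by
  simp only [lf, Pi.sub_apply]; ring

theorem e2_eq {μ : ℝ} (hμ : 0 < μ) {B : Finset Pt} {G : (B → ℝ) → ℝ} (hG : Per G) (m σ : Pt → ℝ)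
    (T : Cfg Pt →+ ℝ) (s : Cfg Pt) (k : ℤ) :
    ∫ ξ, res μ m T s ξ * G (obs μ σ ξ) ∂gs B =
      ob (lf μ B m) (fun ζ => G fun x => ζ x / Real.sqrt μ) (T s) (lf μ B fun x => σ x - k) := by
  have h0 : Real.sqrt μ ≠ 0 := (Real.sqrt_pos.2 hμ).ne'
  refine MeasureTheory.integral_congr_ae (Filter.Eventually.of_forall fun ξ => ?_)
  simp only [res, dotProduct, lf, mul_sum, mul_assoc]
  rw [← per_int hG k]
  congr 2
  ext x
  simp only [obs, Pi.add_apply, lf]
  field_simp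
  ring

theorem bb_mono {τ τ' n : ℝ} (h : τ ≤ τ') (hn : 0 ≤ n) : bb τ n ≤ bb τ' n := by
  have := Real.cosh_pos (Real.sqrt n)
  unfold bb
  gcongr

end Crest.Agent.T145.Hi19

namespace Crest.Agent.T145

open Finset Matrix Hi19

set_option maxHeartbeats 1000000 in
theorem hiStmt (hR : R1Stmt) (hB : BrStmt) : HiStmt := by
  intro F K ε a hε
  set τ := |F.τ₂| with hτ
  set W2 : ℝ := 4 ^ a with hW2
  obtain ⟨ζ, hζ, H⟩ := assemble (Real.exp (W2 * K ^ 2 / 2)) W2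
    (τ * (256 * W2 ^ 2 + K + 8 * K ^ 2 * W2 ^ 2)) (W2 * K) τ ε hε (abs_nonneg _)
  obtain ⟨b₀, hb₀⟩ := pow_unbounded_of_one_lt (256 * τ * W2 / ζ) (show (1 : ℝ) < 4 by norm_num)
  refine ⟨b₀, fun Λ hm b c hb => ?_⟩
  intro L μ u T G hu hT hG
  have hΛ : Λ.Ok := ⟨hm.1 ▸ F.adm, F.pos.trans_le hm.2.2.1⟩
  have hΛτ : Λ.τ ≤ τ := hm.2.2.2.trans (le_abs_self _)
  have hτ0 := hΛ.2
  set N := a + b + c with hN
  have hL : 0 < L := by positivity
  have hLR : (L : ℝ) = 2 ^ N := by simp [L, hN]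
  have hL0 : (0 : ℝ) < L := by exact_mod_cast hL
  have hr : 0 < 2 ^ c := by positivity
  have hμ : 0 < μ := by positivity
  have hμL : μ * (L : ℝ) ^ 2 = W2 := by
    simp only [μ, hW2]
    field_simp
    rw [← pow_mul, mul_comm, pow_mul]; norm_num
  have hW20 : 0 < W2 := by positivity
  have hK : 0 ≤ K := (abs_nonneg _).trans (hu 0 (self_mem_sq 0 hL))
  have hW : Cen (Λ.WN L) := hΛ.cen_Nr (self_mem_sq 0 hL)
  let B := sq 0 L
  have hBdef : B = sq 0 L := rfl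
  have hS : Sat (2 ^ c) B := sat_sq hL (pow_dvd_pow 2 (by omega))
  have hcard : (B.card : ℝ) = (L : ℝ) ^ 2 := by rw [hBdef, card_sq]; push_cast; ring
  set m := Plo (2 ^ c) u with hmdef
  have hPm : Plo (2 ^ c) m = m := Plo_Plo hr u
  have hmK : ∀ x ∈ B, |m x| ≤ K := fun x hx => abs_Plo_le hr fun y hy => hu y (hS x hx hy)
  set av : (Pt → ℝ) → ℝ := fun f => (∑ x ∈ B, f x) / (L : ℝ) ^ 2 with hav
  have hsum : ∀ f, ∑ x ∈ B, f x = (L : ℝ) ^ 2 * av f := fun f => by simp only [hav]; field_simp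
  have htop : ∀ f, ∀ x ∈ B, Plo (2 ^ N) f x = av f := fun f x hx => by
    rw [Plo_eq, blk_top hx]
  have havm : |av m| ≤ K := by
    rw [← htop m 0 (self_mem_sq 0 hL)]
    exact abs_Plo_le hL fun y hy => hmK y (by rwa [blk_zero] at hy)
  set σ : Cfg Pt → Pt → ℝ := fun s z => (s z : ℝ) with hσ
  set k : Cfg Pt → ℤ := fun s => ⌊av (σ s)⌋ with hk
  have hk0 : ∀ s, 0 ≤ av (σ s) - k s := fun s => sub_nonneg.2 (Int.floor_le _)
  have hk1 : ∀ s, av (σ s) - k s ≤ 1 := fun s => by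
    have := Int.lt_floor_add_one (av (σ s))
    simp only [hk]; linarith
  set fU : Pt → ℝ := fun x => ind (x ∈ B) * (μ * (m x - av m)) with hfU
  have FU : F2 (Λ.edI B) fU (2 * (L : ℝ) ^ 4 * (μ * (2 * K)) ^ 2) := by
    refine f2_bdd hR hΛ (fun x hx => by simp only [hfU]; rw [ind_neg hx, zero_mul]) ?_ fun x hx => ?_
    · rw [sum_congr rfl fun x hx => by simp only [hfU]; rw [ind_pos hx, one_mul], ← mul_sum,
        sum_sub_distrib, hsum, sum_const, nsmul_eq_mul, hcard, sub_self, mul_zero]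
    · simp only [hfU]
      rw [ind_pos hx, one_mul, abs_mul, abs_of_pos hμ]
      exact mul_le_mul_of_nonneg_left ((abs_sub _ _).trans (by linarith [hmK x hx])) hμ.le
  have prB : ∀ (g : Pt → ℝ) (s : Cfg Pt),
      pr (fun x => ind (x ∈ B) * g x) s = ∑ x ∈ B, σ s x * g x := fun g s => by
    rw [pr_of_fsupp _ s (U := B) fun x hx => by rw [ind_neg hx, zero_mul]]
    exact sum_congr rfl fun x hx => by rw [ind_pos hx, one_mul, mul_comm]
  have I2 : ∀ s s', ∑ x ∈ B, (σ s x - k s) * (Plo (2 ^ c) (σ s') x - k s') =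
      ∑ x ∈ B, (Plo (2 ^ c) (σ s) x - k s) * (Plo (2 ^ c) (σ s') x - k s') := fun s s' => by
    simp only [sub_mul, mul_sub, sum_sub_distrib, ← sum_mul]
    rw [sum_Plo_mul hr hS, Plo_Plo hr, sum_Plo hr hS]
  obtain ⟨q1, q2⟩ := ex_Q hR hB hΛ (N := N) (k := c) (k' := N) le_rfl
  obtain ⟨q3, q4⟩ := ex_Q hR hB hΛ (N := N) (k := 0) (k' := c) (by omega)
  have iT := hW.ig ((Tame.hom (pr T)).pow 2)
  have iU := hW.ig ((Tame.hom (pr fU)).pow 2)
  have i1 := (q1.const_mul (8 * 2 ^ N)).const_mul (μ ^ 2)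
  have key := H B (Cfg Pt) (Λ.WN L) (lf μ B m) (fun s => lf μ B fun x => σ s x - k s)
    (fun s => lf μ B fun x => Plo (2 ^ c) (σ s) x - k s) (fun s => pr T s)
    (fun s => μ ^ 2 * (8 * 2 ^ N * Q N c N (σ s)) + pr T s ^ 2 + pr fU s ^ 2)
    (fun s => μ ^ 2 * (8 * 2 ^ c * Q N 0 c (σ s))) (fun ζ => G fun x => ζ x / Real.sqrt μ) hW
    (hG.1.comp (by fun_prop)) (fun _ => hG.2.1 _)
    (fun s => by
      rw [lf_dot hμ.le, lf_dot hμ.le]
      simp only [mul_sub, sum_sub_distrib]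
      rw [← sum_Plo_mul hr hS, hPm])
    (fun s s' => by rw [lf_dot hμ.le, lf_dot hμ.le, I2])
    (by
      rw [lf_dot hμ.le]
      refine Real.exp_le_exp.2 (div_le_div_of_nonneg_right ?_ two_pos.le)
      rw [← hμL, mul_assoc, ← hcard, ← nsmul_eq_mul]
      refine mul_le_mul_of_nonneg_left (sum_le_card_nsmul _ _ _ fun x hx => ?_) hμ.le
      rw [← _root_.sq]
      exact sq_le_sq' (abs_le.1 (hmK x hx)).1 (abs_le.1 (hmK x hx)).2)
    ((i1.add iT).add iU) ((q3.const_mul _).const_mul _)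
    (fun s => by
      have := Q_nonneg N c N (σ s)
      have : 0 ≤ μ ^ 2 * (8 * 2 ^ N * Q N c N (σ s)) := by positivity
      nlinarith [sq_nonneg (pr fU s)])
    (fun s => by have := Q_nonneg N 0 c (σ s); positivity)
    (by
      rw [Ex_add (i1.add iT) iU, Ex_add i1 iT, Ex_const_mul, Ex_const_mul]
      have a1 := (bare hB hΛ hL hT).1
      have a2 := (bare hB hΛ hL FU).1
      have a3 : μ ^ 2 * (8 * 2 ^ N * Ex (Λ.WN L) fun s => Q N c N (σ s)) ≤ Λ.τ * (256 * W2 ^ 2) := by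
        refine (mul_le_mul_of_nonneg_left (mul_le_mul_of_nonneg_left q2 (by positivity))
          (by positivity)).trans (le_of_eq ?_)
        rw [← hμL, hLR]; ring
      have a4 : 2 * (L : ℝ) ^ 4 * (μ * (2 * K)) ^ 2 = 8 * K ^ 2 * W2 ^ 2 := by rw [← hμL]; ring
      rw [a4] at a2
      refine le_trans ?_ (mul_le_mul_of_nonneg_right hΛτ (by positivity))
      linarith)
    (by
      rw [Ex_const_mul, Ex_const_mul]
      refine (mul_le_mul_of_nonneg_left (mul_le_mul_of_nonneg_left q4 (by positivity))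
        (by positivity)).trans ?_
      have a1 : μ ^ 2 * (8 * 2 ^ c * (32 * Λ.τ * ((2 : ℝ) ^ N) ^ 2 * 2 ^ c)) =
          256 * Λ.τ * W2 / 4 ^ b := by
        simp only [μ, hW2, hLR, hN]
        rw [show (4 : ℝ) = 2 * 2 by norm_num, mul_pow, mul_pow, pow_add, pow_add]
        field_simp
        norm_num
      rw [a1, div_le_iff₀ (by positivity)]
      rw [div_lt_iff₀ hζ] at hb₀
      have a2 : (4 : ℝ) ^ b₀ ≤ 4 ^ b := pow_le_pow_right₀ (by norm_num) hb
      nlinarith [mul_le_mul_of_nonneg_right hΛτ hW20.le, mul_le_mul_of_nonneg_right a2 hζ.le])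
    (fun s => by
      refine ⟨pr fU s, ?_, ?_⟩
      · have := Q_nonneg N c N (σ s)
        have : 0 ≤ μ ^ 2 * (8 * 2 ^ N * Q N c N (σ s)) := by positivity
        nlinarith [sq_nonneg (pr T s)]
      · have e : lf μ B m ⬝ᵥ (lf μ B fun x => σ s x - k s) =
            pr fU s + W2 * (av m * (av (σ s) - k s)) := by
          rw [lf_dot hμ.le, hfU, prB, ← hμL]
          simp only [mul_sub, sum_sub_distrib, mul_left_comm _ μ, ← mul_sum, ← sum_mul,
            mul_comm (m _) (σ s _), hsum m, hsum (σ s)]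
          ring
        rw [e]
        refine (abs_add_le _ _).trans (add_le_add le_rfl ?_)
        rw [abs_mul, abs_of_pos hW20, abs_mul, abs_of_nonneg (hk0 s)]
        exact mul_le_mul_of_nonneg_left
          ((mul_le_of_le_one_right (abs_nonneg _) (hk1 s)).trans havm) hW20.le)
    (fun s' K' η h1 h2 => by
      have n1 : 0 ≤ μ ^ 2 * (8 * 2 ^ N * Q N c N (σ s')) := by
        have := Q_nonneg N c N (σ s'); positivity
      have n2 : 0 ≤ μ ^ 2 * (8 * 2 ^ c * Q N 0 c (σ s')) := by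
        have := Q_nonneg N 0 c (σ s'); positivity
      have h1' : μ ^ 2 * (8 * 2 ^ N * Q N c N (σ s')) ≤ K' := by
        nlinarith [sq_nonneg (pr T s'), sq_nonneg (pr fU s')]
      have f1 := f2_smul 2 (f2_le (f2_smul μ (f2_bd hR hΛ (by omega : c ≤ N) le_rfl (σ s'))) h1')
      have f2 := f2_smul 2 (f2_le (f2_smul μ (f2_bd hR hΛ (Nat.zero_le c) (by omega : c ≤ N) (σ s'))) h2)
      have g1 := (bare hB hΛ hL f1).2
      have g2 := (bare hB hΛ hL f2).2
      rw [pr_smul, show (2 : ℝ) ^ 2 = 4 by norm_num] at g1 g2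
      refine ⟨pr (μ • bd N 0 c (σ s')), pr (μ • bd N c N (σ s')), fun s => ?_, fun s => ?_,
        g1.trans (bb_mono hΛτ (by linarith)), g2.trans (bb_mono hΛτ (by linarith))⟩
      · have e : ∑ x ∈ B, (σ s x - k s) * (Plo (2 ^ c) (σ s') x - k s') =
            pr (bd N c N (σ s')) s + (L : ℝ) ^ 2 * ((av (σ s) - k s) * (av (σ s') - k s')) := by
          unfold bd
          rw [prB, sum_congr rfl (f := fun x => σ s x * (Plo (2 ^ c) (σ s') x - Plo (2 ^ N) (σ s') x))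
            fun x hx => by rw [htop _ x hx]]
          simp only [sub_mul, mul_sub, sum_sub_distrib, ← mul_sum, ← sum_mul, sum_Plo hr hS,
            hsum (σ s), hsum (σ s'), sum_const, nsmul_eq_mul, hcard]
          ring
        rw [lf_dot hμ.le, ← I2, e, pr_smul, mul_add, ← mul_assoc μ, hμL]
        refine add_le_add le_rfl (mul_le_of_le_one_right hW20.le ?_)
        exact mul_le_one₀ (hk1 s) (hk0 s') (hk1 s')
      · rw [lf_sub, lf_sub, lf_dot hμ.le, pr_smul]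
        refine congrArg (μ * ·) ?_
        unfold bd
        rw [prB, pow_zero, Plo_one]
        simp only [sub_sub_sub_cancel_right, sub_mul, mul_sub, sum_sub_distrib]
        rw [sum_Plo_mul hr hS, sum_Plo_mul hr hS, Plo_Plo hr]
        ring)
  unfold E2
  rw [funext fun s => e2_eq hμ hG m (fun z => (s z : ℝ)) (pr T) s (k s),
    funext fun s => e2_eq hμ hG m (Plo (2 ^ c) fun z => (s z : ℝ)) (pr T) s (k s)]
  exact key

end Crest.Agent.T145
end

-- ▼ part T145/SecA_62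
section

/-!
# Row 145, module (b), SEC (helper62), part A: summable RSD weights, restriction to subgroups,
products, the finite Fourier sum, theta bounds
-/

set_option autoImplicit false

namespace Crest.Agent.T145.Sec62

open Finset Real

/-- summable RSD weight, positive at `0` -/
structure RW {L : Type} [AddCommGroup L] (ρ : L → ℝ) : Prop where
  rsd : RSD ρ
  summ : Summable ρ
  pos0 : 0 < ρ 0

section
variable {L L' L'' : Type} [AddCommGroup L] [AddCommGroup L'] [AddCommGroup L''] {ρ G G' : L → ℝ}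

theorem RW.wt (h : RW ρ) : Wt ρ := Wt.of_pos h.rsd.nonneg h.summ h.pos0

theorem RW.of_cen (h : Cen ρ) : RW ρ := ⟨h.toRSD, h.se.summable, h.pos0⟩

theorem RW.comp (h : RW ρ) (ψ : L' →+ L) (hψ : Function.Injective ψ) : RW fun y => ρ (ψ y) :=
  ⟨Rsd63.rsd_comp h.rsd ψ, h.summ.comp_injective hψ, by simpa using h.pos0⟩

theorem RW.prod {ρ' : L' → ℝ} (h : RW ρ) (h' : RW ρ') : RW fun p : L × L' => ρ p.1 * ρ' p.2 :=
  ⟨Rsd63.rsd_mul (Rsd63.rsd_comp h.rsd (AddMonoidHom.fst L L'))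
    (Rsd63.rsd_comp h'.rsd (AddMonoidHom.snd L L')), summable_prod_mul h.summ h'.summ,
    mul_pos h.pos0 h'.pos0⟩

theorem rsd_prod {ι : Type} (T : Finset ι) {F : ι → L → ℝ} (h : ∀ i ∈ T, RSD (F i)) :
    RSD fun s => ∏ i ∈ T, F i s := by
  classical
  induction T using Finset.induction_on with
  | empty => simpa using Rsd63.rsd_one
  | insert a T ha ih =>
    simp only [prod_insert ha]
    exact Rsd63.rsd_mul (h a (mem_insert_self _ _)) (ih fun i hi => h i (mem_insert_of_mem hi))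

theorem RW.pi {ι : Type} [Fintype ι] {u : ι → L → ℝ} (h : ∀ i, RW (u i)) :
    RW fun x : ι → L => ∏ i, u i (x i) :=
  ⟨rsd_prod _ fun i _ => Rsd63.rsd_comp (h i).rsd (Pi.evalAddMonoidHom (fun _ => L) i),
    (hasSum_pi_prod u fun i => (h i).summ).summable, prod_pos fun i _ => (h i).pos0⟩


variable [IsAddTorsionFree L]

/-- a nonnegative PD factor raises the mean of PD functions -/
theorem RW.ex_mul (h : RW ρ) (hG : PD G) (h0 : ∀ s, 0 ≤ G s) (h1 : 0 < G 0) (hG' : PD G') :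
    Ex ρ G' ≤ Ex (fun s => ρ s * G s) G' := by
  have H := rsdPStmt L ρ G G' h.rsd h.summ hG hG'
  have hp : 0 < ∑' s, ρ s * G s :=
    Summable.tsum_pos (h.wt.ig_bdd hG.abs_le) (fun s => mul_nonneg (h.rsd.nonneg s) (h0 s)) 0
      (mul_pos h.pos0 h1)
  rw [Ex_def, Ex, div_le_div_iff₀ h.wt.pos hp]
  simp only [mul_assoc]
  rw [mul_comm, mul_comm _ (Zs ρ)]
  exact H

/-- restriction to a subgroup raises the mean of PD functions -/
theorem RW.ex_sub (h : RW ρ) (ψ : L' →+ L) (hψ : Function.Injective ψ) (hG : PD G) :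
    Ex ρ G ≤ Ex (fun y => ρ (ψ y)) fun y => G (ψ y) := by
  have key : ∀ F : L → ℝ, ∑' s, ρ s * ind (QuotientAddGroup.mk' ψ.range s = 0) * F s =
      ∑' y, ρ (ψ y) * F (ψ y) := fun F => by
    rw [← hψ.tsum_eq (f := fun s => ρ s * ind (QuotientAddGroup.mk' ψ.range s = 0) * F s)]
    · refine tsum_congr fun y => ?_
      rw [ind_pos (by simp), mul_one]
    · intro s hs
      have := ind_ne_zero.1 (right_ne_zero_of_mul (left_ne_zero_of_mul hs))
      simpa using this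
  have H := h.ex_mul (pd_ind (QuotientAddGroup.mk' ψ.range)) (fun _ => ind_nonneg _)
    (by simp [ind_pos]) hG
  have k1 := key fun _ => 1
  simp only [mul_one] at k1
  refine H.trans_eq ?_
  rw [Ex, key, k1]; rfl

theorem RW.ph_sub (h : RW ρ) (ψ : L' →+ L) (hψ : Function.Injective ψ) (ξ : L →+ ℝ) :
    Ph ρ ξ ≤ Ph (fun y => ρ (ψ y)) (ξ.comp ψ) := h.ex_sub ψ hψ (pd_cos ξ)

omit [IsAddTorsionFree L] in
theorem tsum_ker (φ : L' →+ L'') (F : L' → ℝ) :
    ∑' y : φ.ker, F y = ∑' y, ind (φ y = 0) * F y := by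
  rw [← Subtype.val_injective.tsum_eq (f := fun y => ind (φ y = 0) * F y)]
  · exact tsum_congr fun y => by rw [ind_pos (show φ y = 0 from y.2), one_mul]
  · intro y hy
    exact ⟨⟨y, ind_ne_zero.1 (left_ne_zero_of_mul hy)⟩, rfl⟩

theorem RW.ph_sub2 (h : RW ρ) (ψ : L' →+ L) (φ : L' →+ L'')
    (hψ : ∀ y, ψ y = 0 → φ y = 0 → y = 0) (ξ : L →+ ℝ) :
    RW (fun y => ind (φ y = 0) * ρ (ψ y)) ∧
      Ph ρ ξ ≤ Ph (fun y => ind (φ y = 0) * ρ (ψ y)) (ξ.comp ψ) := by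
  have hi : Function.Injective (ψ.comp φ.ker.subtype) :=
    (injective_iff_map_eq_zero _).2 fun y hy => Subtype.ext (hψ y hy y.2)
  refine ⟨⟨Rsd63.rsd_mul (Rsd63.rsd_ind φ) (Rsd63.rsd_comp h.rsd ψ), ?_, ?_⟩, ?_⟩
  · have := (h.comp _ hi).summ
    refine (Subtype.val_injective (p := (· ∈ φ.ker))).summable_iff
      (f := fun y => ind (φ y = 0) * ρ (ψ y)) (fun y hy => ?_) |>.1 ?_
    · rw [ind_neg (p := φ y = 0) fun h0 => hy ⟨⟨y, h0⟩, rfl⟩, zero_mul]
    · refine this.congr fun y => ?_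
      simp only [Function.comp]
      rw [ind_pos (show φ y = 0 from y.2), one_mul]; rfl
  · simpa [ind_pos] using h.pos0
  · refine (h.ph_sub _ hi ξ).trans_eq ?_
    simp only [Ph, Ex, mul_assoc]
    rw [← tsum_ker φ fun y => ρ (ψ y) * cos (ξ.comp ψ y), ← tsum_ker φ fun y => ρ (ψ y)]
    rfl

theorem pos_of_mul_aux {a b : ℝ} (h : 0 ≤ a * b) (ha : 0 < a) : 0 ≤ b :=
  le_of_mul_le_mul_left (by simpa using h) ha

theorem RW.ph_nonneg (h : RW ρ) (ξ : L →+ ℝ) : 0 ≤ Ph ρ ξ := by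
  have e : tilt (sl (fun p : L × PUnit => ρ p.1) 0) 0 = ρ := by funext s; simp [tilt, sl]
  have hG := pd_cos (ξ.comp (AddMonoidHom.fst L PUnit))
  simp only [AddMonoidHom.comp_apply, AddMonoidHom.coe_fst] at hG
  have hR := Rsd63.rsd_comp h.rsd (AddMonoidHom.fst L PUnit)
  simp only [AddMonoidHom.coe_fst] at hR
  have H := rsdBStmt L PUnit (fun p => ρ p.1) (fun p => cos (ξ p.1)) hR hG 0 0
    h.summ (by rw [e]; exact h.summ)
  rw [e] at H
  have H2 : 0 ≤ Zs ρ * ∑' s, ρ s * cos (ξ s) :=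
    (mul_nonneg (abs_nonneg _) (Zs_nonneg h.rsd.nonneg)).trans H
  exact div_nonneg (pos_of_mul_aux H2 h.wt.pos) h.wt.pos.le

omit [IsAddTorsionFree L] in
theorem RW.ph_le (h : RW ρ) (ξ : L →+ ℝ) : Ph ρ ξ ≤ 1 := (le_abs_self _).trans (h.wt.abs_Ph_le ξ)

end

/-! ### products -/

theorem hasSum_cis {L : Type} [AddCommGroup L] {ρ : L → ℝ} (h : RW ρ) (ξ : L →+ ℝ) :
    HasSum (fun s => (ρ s : ℂ) * Complex.exp (ξ s * Complex.I)) ((Zs ρ * Ph ρ ξ : ℝ) : ℂ) := by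
  have hc : Ig ρ fun s => cos (ξ s) := h.wt.ig_bdd fun s => abs_cos_le_one _
  have hs : Ig ρ fun s => sin (ξ s) := h.wt.ig_bdd fun s => abs_sin_le_one _
  have e0 : Ex ρ (fun s => sin (ξ s)) = 0 := Ex_odd h.rsd.even fun s => by simp
  have h1 := hc.hasSum
  have h2 := hs.hasSum
  rw [h.wt.tsum_eq] at h1 h2
  rw [e0, mul_zero] at h2
  rw [Complex.hasSum_iff]
  constructor
  · simpa [Complex.re_ofReal_mul, Complex.exp_ofReal_mul_I_re, Ph] using h1
  · simpa [Complex.im_ofReal_mul, Complex.exp_ofReal_mul_I_im] using h2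

theorem hasSum_prod_c {α β : Type*} {u : α → ℂ} {v : β → ℂ} {a b : ℂ} (hu : HasSum u a)
    (hv : HasSum v b) : HasSum (fun p : α × β => u p.1 * v p.2) (a * b) :=
  hu.mul hv (summable_mul_of_summable_norm hu.summable.norm hv.summable.norm)

theorem hasSum_pi_c {ι α : Type*} [Fintype ι] (u : ι → α → ℂ) (a : ι → ℂ)
    (hu : ∀ i, HasSum (u i) (a i)) : HasSum (fun x : ι → α => ∏ i, u i (x i)) (∏ i, a i) := by
  have key : ∀ (n : ℕ) (u : Fin n → α → ℂ) (a : Fin n → ℂ), (∀ i, HasSum (u i) (a i)) →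
      HasSum (fun x : Fin n → α => ∏ i, u i (x i)) (∏ i, a i) := by
    intro n
    induction n with
    | zero => intro u a _; simp
    | succ n ih =>
      intro u a hu
      have ih' := ih (fun i => u i.succ) (fun i => a i.succ) fun i => hu _
      have h := hasSum_prod_c (hu 0) ih'
      rw [Fin.prod_univ_succ, ← (Fin.consEquiv fun _ => α).hasSum_iff]
      convert h using 2 with p
      simp [Fin.prod_univ_succ, Fin.consEquiv]
  let e := Fintype.equivFin ι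
  have := key _ (fun j => u (e.symm j)) (fun j => a (e.symm j)) fun j => hu _
  rw [e.symm.prod_comp a, ← (Equiv.arrowCongr e (Equiv.refl α)).hasSum_iff] at this
  convert this using 2 with x
  simp only [Function.comp, Equiv.arrowCongr_apply, Equiv.coe_refl, id]
  exact (e.symm.prod_comp fun i => u i (x i)).symm

theorem ph_prod {L L' : Type} [AddCommGroup L] [AddCommGroup L'] {ρ : L → ℝ} {ρ' : L' → ℝ}
    (h : RW ρ) (h' : RW ρ') (ξ : L →+ ℝ) (ξ' : L' →+ ℝ) :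
    Ph (fun p : L × L' => ρ p.1 * ρ' p.2) (ξ.coprod ξ') = Ph ρ ξ * Ph ρ' ξ' := by
  have H := hasSum_prod_c (hasSum_cis h ξ) (hasSum_cis h' ξ')
  have H' := hasSum_cis (h.prod h') (ξ.coprod ξ')
  have e := H'.unique (by
    convert H using 2 with p
    simp only [AddMonoidHom.coprod_apply]
    push_cast
    rw [add_mul, Complex.exp_add]; ring)
  rw [Zs_prod h.summ h'.summ] at e
  have e' : Zs ρ * Zs ρ' * Ph (fun p : L × L' => ρ p.1 * ρ' p.2) (ξ.coprod ξ') =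
      Zs ρ * Ph ρ ξ * (Zs ρ' * Ph ρ' ξ') := by exact_mod_cast e
  have := h.wt.pos; have := h'.wt.pos
  apply mul_left_cancel₀ (a := Zs ρ * Zs ρ') (by positivity)
  rw [e']; ring

/-- `x ↦ ∑ i, ξ i (x i)` -/
noncomputable def piH {ι L : Type} [Fintype ι] [AddCommGroup L] (ξ : ι → L →+ ℝ) : (ι → L) →+ ℝ :=
  ∑ i, (ξ i).comp (Pi.evalAddMonoidHom (fun _ => L) i)

@[simp] theorem piH_apply {ι L : Type} [Fintype ι] [AddCommGroup L] (ξ : ι → L →+ ℝ) (x : ι → L) :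
    piH ξ x = ∑ i, ξ i (x i) := by simp [piH, AddMonoidHom.finsetSum_apply]

theorem ph_pi {ι L : Type} [Fintype ι] [AddCommGroup L] {u : ι → L → ℝ} (h : ∀ i, RW (u i))
    (ξ : ι → L →+ ℝ) : Ph (fun x : ι → L => ∏ i, u i (x i)) (piH ξ) = ∏ i, Ph (u i) (ξ i) := by
  have H := hasSum_pi_c _ _ fun i => hasSum_cis (h i) (ξ i)
  have H' := hasSum_cis (RW.pi h) (piH ξ)
  have e := H'.unique (by
    convert H using 2 with p
    rw [piH_apply, prod_mul_distrib, ← Complex.exp_sum]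
    push_cast
    rw [sum_mul])
  have z : Zs (fun x : ι → L => ∏ i, u i (x i)) = ∏ i, Zs (u i) :=
    (hasSum_pi_prod u fun i => (h i).summ).tsum_eq
  rw [z] at e
  have e' : (∏ i, Zs (u i)) * Ph (fun x : ι → L => ∏ i, u i (x i)) (piH ξ) =
      ∏ i, Zs (u i) * Ph (u i) (ξ i) := by exact_mod_cast e
  rw [prod_mul_distrib] at e'
  exact mul_left_cancel₀ (prod_pos fun i _ => (h i).wt.pos).ne' e'

/-! ### one integer variable -/

/-- `k ↦ a k` -/
noncomputable def zH (a : ℝ) : ℤ →+ ℝ := (AddMonoidHom.mulLeft a).comp (Int.castAddHom ℝ)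

@[simp] theorem zH_apply (a : ℝ) (k : ℤ) : zH a k = a * k := rfl

theorem vr_kern (xy : Bool) {τ : ℝ} (hτ : 0 < τ) (a : ℝ) :
    Vr (kern xy τ) (zH a) (zH a) ≤ τ * a ^ 2 := by
  have hC : Cen (kern xy τ) := Fam.cen ⟨xy, τ, hτ, rfl⟩
  have key : ∀ t : ℝ, 0 < t → Vr (kern xy τ) (zH a) (zH a) ≤ exp ((t * a) ^ 2 / 2) * (τ * a ^ 2) :=
    fun t ht => by
    have h2 := hC.vr_le_M (t • zH a)
    have h1 : M (kern xy τ) (t • zH a) ≤ τ * (cosh (t * a) - 1) := by
      refine le_of_eq_of_le ?_ (log_ex_kern xy hτ (t * a))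
      simp [M, mul_assoc]
    rw [Vr_smul_left, Vr_smul_right] at h2
    have h3 := Real.cosh_le_exp_half_sq (t * a)
    have h4 := Real.add_one_le_exp (-((t * a) ^ 2 / 2))
    have h5 := mul_le_mul_of_nonneg_right h4 (Real.exp_pos ((t * a) ^ 2 / 2)).le
    rw [← Real.exp_add, neg_add_cancel, Real.exp_zero] at h5
    have h6 : τ * (cosh (t * a) - 1) ≤ τ * ((t * a) ^ 2 / 2 * exp ((t * a) ^ 2 / 2)) :=
      mul_le_mul_of_nonneg_left (by linarith) hτ.le
    refine le_of_mul_le_mul_left (a := t ^ 2 / 2) ?_ (by positivity)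
    nlinarith
  have h4 : ContinuousAt (fun t : ℝ => exp ((t * a) ^ 2 / 2) * (τ * a ^ 2)) 0 := by fun_prop
  have h5 := ge_of_tendsto (h4.tendsto.mono_left (nhdsWithin_le_nhds (s := Set.Ioi 0)))
    (eventually_nhdsWithin_of_forall key)
  simpa using h5

theorem ph_kern (xy : Bool) {τ : ℝ} (hτ : 0 < τ) (a : ℝ) :
    exp (-(τ * a ^ 2) / 2) ≤ Ph (kern xy τ) (zH a) :=
  (exp_le_exp.2 (by linarith [vr_kern xy hτ a])).trans
    ((Fam.cen ⟨xy, τ, hτ, rfl⟩).ph_ge (zH a))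

theorem ph_gau {τ : ℝ} (hτ : 0 < τ) (a : ℝ) : exp (-(τ * a ^ 2) / 2) ≤ Ph (gau τ) (zH a) :=
  ph_kern false hτ a

theorem ex_sq_gau {τ : ℝ} (hτ : 0 < τ) : Ex (gau τ) (fun k => (k : ℝ) ^ 2) ≤ τ := by
  have h := vr_kern false hτ 1
  rw [Vr_even (kern_neg false τ)] at h
  refine le_of_eq_of_le (Ex_congr fun k _ => ?_) (h.trans_eq (by ring))
  rw [zH_apply]; ring

theorem rw_gau {τ : ℝ} (hτ : 0 < τ) : RW (gau τ) := RW.of_cen (gauStmt τ hτ).1.cen

/-! ### theta bounds -/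

/-- `∑ exp (-a j²)` -/
noncomputable def Th (a : ℝ) : ℝ := ∑' j : ℤ, exp (-a * (j : ℝ) ^ 2)

theorem summable_Th {a : ℝ} (ha : 0 < a) : Summable fun j : ℤ => exp (-a * (j : ℝ) ^ 2) := by
  refine (rw_gau (τ := 1 / (2 * a)) (by positivity)).summ.congr fun j => ?_
  rw [gau]; congr 1; field_simp

theorem one_le_Th {a : ℝ} (ha : 0 < a) : 1 ≤ Th a := by
  have := (summable_Th ha).le_tsum 0 fun j _ => (exp_pos _).le
  simpa [Th] using this

theorem sum_le_Th {a : ℝ} (ha : 0 < a) (R : Finset ℤ) : ∑ q ∈ R, exp (-a * (q : ℝ) ^ 2) ≤ Th a :=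
  (summable_Th ha).sum_le_tsum R fun _ _ => (exp_pos _).le

/-- Poisson summation: the characteristic function of the discrete Gaussian -/
theorem ph_gau_le {τ : ℝ} (hτ : 0 < τ) (θ : ℝ) :
    Ph (gau τ) (zH θ) ≤ ∑' p : ℤ, exp (-(τ * (θ - 2 * π * p) ^ 2) / 2) := by
  obtain ⟨α, hα⟩ : ∃ α : ℝ, α = 1 / (2 * π * τ) := ⟨_, rfl⟩
  have hα0 : 0 < α := by rw [hα]; positivity
  have h0 := Real.tsum_exp_neg_mul_int_sq hα0
  have h1 := Complex.tsum_exp_neg_quadratic (a := (α : ℂ)) (by simpa using hα0)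
    (((θ / (2 * π) : ℝ) : ℂ) * Complex.I)
  have e0 : ∀ k : ℤ, exp (-π * α * (k : ℝ) ^ 2) = gau τ k := fun k => by
    rw [gau, hα]; congr 1; field_simp
  have hπ : (π : ℂ) ≠ 0 := by exact_mod_cast pi_ne_zero
  have e1 : ∀ k : ℤ, Complex.exp (-π * α * k ^ 2 + 2 * π * (((θ / (2 * π) : ℝ) : ℂ) * Complex.I) * k) =
      (gau τ k : ℂ) * Complex.exp (zH θ k * Complex.I) := fun k => by
    rw [← e0, Complex.ofReal_exp, ← Complex.exp_add, zH_apply]
    congr 1
    push_cast; field_simp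
  have e2 : ∀ k : ℤ, Complex.exp (-π / α * (k + Complex.I * (((θ / (2 * π) : ℝ) : ℂ) * Complex.I)) ^ 2) =
      ((exp (-(τ * (θ - 2 * π * k) ^ 2) / 2) : ℝ) : ℂ) := fun k => by
    rw [Complex.ofReal_exp, mul_left_comm Complex.I, Complex.I_mul_I, hα]
    congr 1
    have : (τ : ℂ) ≠ 0 := by exact_mod_cast hτ.ne'
    push_cast; field_simp; ring
  simp only [e0] at h0
  simp only [e1, e2, ← Complex.ofReal_tsum] at h1
  rw [(hasSum_cis (rw_gau hτ) (zH θ)).tsum_eq] at h1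
  have h3 : (1 / (α : ℂ) ^ (1 / 2 : ℂ)) = ((1 / α ^ (1 / 2 : ℝ) : ℝ) : ℂ) := by
    rw [Complex.ofReal_div, Complex.ofReal_cpow hα0.le]; norm_num
  rw [h3, ← Complex.ofReal_mul, Complex.ofReal_inj] at h1
  have h4 : 1 / α ^ (1 / 2 : ℝ) ≤ Zs (gau τ) := by
    rw [Zs, h0]
    refine le_mul_of_one_le_right (by positivity) ?_
    have := one_le_Th (a := π / α) (by positivity)
    simpa [Th, neg_div] using this
  have h5 : 0 ≤ ∑' p : ℤ, exp (-(τ * (θ - 2 * π * p) ^ 2) / 2) := tsum_nonneg fun _ => (exp_pos _).le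
  have hz := (rw_gau hτ).wt.pos
  refine le_of_mul_le_mul_left ?_ hz
  rw [h1]
  exact mul_le_mul_of_nonneg_right h4 h5

/-- decay of the characteristic function at the frequencies `2 π q / N`, `|q| ≤ N / 2` -/
theorem ph_gau_decay {a τ : ℝ} (ha : 0 < a) {N : ℕ} (hN : 0 < N) (hτ : a * (N : ℝ) ^ 2 ≤ π ^ 2 * τ)
    {q : ℤ} (hq : 2 * |q| ≤ N) :
    Ph (gau τ) (zH (2 * π * q / N)) ≤ Th a * exp (-a * (q : ℝ) ^ 2) := by
  have hN' : (0 : ℝ) < N := by exact_mod_cast hN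
  have hτ0 : 0 < τ := by
    by_contra h
    have : π ^ 2 * τ ≤ 0 := mul_nonpos_of_nonneg_of_nonpos (sq_nonneg _) (not_lt.1 h)
    have : 0 < a * (N : ℝ) ^ 2 := by positivity
    linarith
  have hi : Function.Injective fun p : ℤ => q - N * p := fun p p' h => by
    have : (N : ℤ) * p = N * p' := by simpa using h
    exact mul_left_cancel₀ (by exact_mod_cast hN.ne') this
  have hS := (summable_Th ha).comp_injective hi
  have hb : ∀ p : ℤ, exp (-(τ * (2 * π * q / N - 2 * π * p) ^ 2) / 2) ≤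
      exp (-a * ((q - N * p : ℤ) : ℝ) ^ 2) * exp (-a * (q : ℝ) ^ 2) := fun p => by
    rw [← exp_add, exp_le_exp]
    have h1 : q ^ 2 ≤ (q - N * p) ^ 2 := by
      rcases eq_or_ne p 0 with rfl | hp
      · simp
      · have h2 : (N : ℤ) ≤ |(N : ℤ) * p| := by
          rw [abs_mul, Nat.abs_cast]
          exact le_mul_of_one_le_right (by positivity) (Int.one_le_abs hp)
        have h3 : |(N : ℤ) * p| ≤ |q - N * p| + |q| := by
          have := abs_sub (q - N * p) q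
          rwa [show q - N * p - q = -(N * p) by ring, abs_neg] at this
        exact sq_le_sq.2 (by omega)
    have h1' : (q : ℝ) ^ 2 ≤ ((q - N * p : ℤ) : ℝ) ^ 2 := by exact_mod_cast h1
    have e : 2 * π * q / N - 2 * π * p = 2 * π * ((q - N * p : ℤ) : ℝ) / N := by
      push_cast; field_simp
    rw [e]
    set j : ℝ := ((q - N * p : ℤ) : ℝ)
    have h4 : a * j ^ 2 ≤ τ * (π * j / N) ^ 2 := by
      rw [div_pow, ← mul_div_assoc, le_div_iff₀ (by positivity)]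
      nlinarith [mul_le_mul_of_nonneg_right hτ (sq_nonneg j)]
    have h5 : (2 * π * j / N) ^ 2 = 4 * (π * j / N) ^ 2 := by ring
    rw [h5]
    nlinarith [mul_le_mul_of_nonneg_left h1' ha.le]
  have hS2 := hS.mul_right (exp (-a * (q : ℝ) ^ 2))
  have hS3 := Summable.of_nonneg_of_le (fun _ => (exp_pos _).le) hb hS2
  refine (ph_gau_le hτ0 _).trans ((hS3.tsum_le_tsum hb hS2).trans ?_)
  rw [tsum_mul_right]
  refine mul_le_mul_of_nonneg_right ?_ (exp_pos _).le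
  exact hS.tsum_le_tsum_of_inj _ hi (fun _ _ => (exp_pos _).le) (fun _ => le_rfl) (summable_Th ha)

/-! ### the finite Fourier sum -/

/-- symmetric residues modulo `N` -/
noncomputable def Rs (N : ℕ) : Finset ℤ := Finset.Ico (-((N / 2 : ℕ) : ℤ)) (N - (N / 2 : ℕ))

theorem Rs_abs {N : ℕ} {q : ℤ} (h : q ∈ Rs N) : 2 * |q| ≤ N := by
  rw [Rs, mem_Ico] at h
  rcases abs_cases q with h1 | h1 <;> omega

theorem zero_mem_Rs {N : ℕ} (h : 2 ≤ N) : (0 : ℤ) ∈ Rs N := by rw [Rs, mem_Ico]; omega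

theorem neg_one_mem_Rs {N : ℕ} (h : 2 ≤ N) : (-1 : ℤ) ∈ Rs N := by rw [Rs, mem_Ico]; omega

theorem sum_Rs {N : ℕ} (hN : 0 < N) (n : ℤ) :
    ∑ q ∈ Rs N, Complex.exp ((2 * π * q / N * n : ℝ) * Complex.I) = (N * ind ((N : ℤ) ∣ n) : ℝ) := by
  have hN' : (N : ℂ) ≠ 0 := by exact_mod_cast hN.ne'
  set z := Complex.exp ((2 * π / N * n : ℝ) * Complex.I)
  have hz : ∀ q : ℤ, Complex.exp ((2 * π * q / N * n : ℝ) * Complex.I) = z ^ q := fun q => by
    rw [← Complex.exp_int_mul]; congr 1; push_cast; ring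
  have hz0 : z ≠ 0 := Complex.exp_ne_zero _
  have hzN : z ^ N = 1 := by
    rw [← Complex.exp_nat_mul, Complex.exp_eq_one_iff]
    exact ⟨n, by push_cast; field_simp⟩
  have e : ∑ q ∈ Rs N, z ^ q = z ^ (-((N / 2 : ℕ) : ℤ)) * ∑ j ∈ range N, z ^ j := by
    rw [mul_sum]
    refine sum_bij' (fun q _ => (q + (N / 2 : ℕ)).toNat) (fun j _ => (j : ℤ) - (N / 2 : ℕ)) ?_ ?_ ?_ ?_ ?_
    · intro q hq; rw [Rs, mem_Ico] at hq; rw [mem_range]; omega
    · intro j hj; rw [mem_range] at hj; rw [Rs, mem_Ico]; omega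
    · intro q hq; rw [Rs, mem_Ico] at hq; omega
    · intro j _; simp
    · intro q hq
      rw [Rs, mem_Ico] at hq
      rw [← zpow_natCast, ← zpow_add₀ hz0]
      congr 1; omega
  simp only [hz]
  by_cases h : (N : ℤ) ∣ n
  · obtain ⟨m, rfl⟩ := h
    have : z = 1 := by
      rw [Complex.exp_eq_one_iff]
      exact ⟨m, by push_cast; field_simp⟩
    rw [e, this, ind_pos (dvd_mul_right _ _)]
    simp
  · have h1 : z ≠ 1 := fun h1 => h (by
      obtain ⟨m, hm⟩ := Complex.exp_eq_one_iff.1 h1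
      refine ⟨m, ?_⟩
      have hπ : (π : ℂ) ≠ 0 := by exact_mod_cast pi_ne_zero
      push_cast at hm
      field_simp at hm
      exact_mod_cast hm)
    rw [e, geom_sum_eq h1, hzN, ind_neg h]
    simp

section fourier
variable {L ι : Type} [AddCommGroup L] [Fintype ι] [DecidableEq ι]

/-- the character `2 π Q · n / N` of the levels -/
noncomputable def ch (L : Type) [AddCommGroup L] (N : ℕ) (Q : ι → ℤ) : L × (ι → ℤ) →+ ℝ :=
  (0 : L →+ ℝ).coprod (piH fun i => zH (2 * π * Q i / N))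

omit [DecidableEq ι] in
theorem ch_apply (N : ℕ) (Q : ι → ℤ) (p : L × (ι → ℤ)) :
    ch L N Q p = ∑ i, 2 * π * Q i / N * p.2 i := by simp [ch]

/-- integer levels inside the refined levels -/
def sc (L ι : Type) [AddCommGroup L] (N : ℕ) : L × (ι → ℤ) →+ L × (ι → ℤ) :=
  (AddMonoidHom.id L).prodMap (DistribSMul.toAddMonoidHom _ (N : ℤ))

omit [Fintype ι] [DecidableEq ι] in
theorem sc_apply (N : ℕ) (p : L × (ι → ℤ)) : sc L ι N p = (p.1, (N : ℤ) • p.2) := rfl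

omit [Fintype ι] [DecidableEq ι] in
theorem sc_inj {N : ℕ} (hN : 0 < N) : Function.Injective (sc L ι N) := fun p p' h => by
  rw [sc_apply, sc_apply, Prod.ext_iff] at h
  refine Prod.ext h.1 (funext fun i => ?_)
  exact mul_left_cancel₀ (a := (N : ℤ)) (by exact_mod_cast hN.ne') (congrFun h.2 i)

theorem sum_cos_ch {N : ℕ} (hN : 0 < N) (y : ℝ) (p : L × (ι → ℤ)) :
    ∑ Q ∈ Fintype.piFinset fun _ : ι => Rs N, cos (y + ch L N Q p) =
      (N : ℝ) ^ Fintype.card ι * (ind (∀ i, (N : ℤ) ∣ p.2 i) * cos y) := by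
  have e : ∑ Q ∈ Fintype.piFinset fun _ : ι => Rs N, Complex.exp ((y + ch L N Q p : ℝ) * Complex.I) =
      (((N : ℝ) ^ Fintype.card ι * ind (∀ i, (N : ℤ) ∣ p.2 i) : ℝ) : ℂ) * Complex.exp (y * Complex.I) := by
    have h1 := prod_univ_sum (fun _ : ι => Rs N)
      fun i q => Complex.exp ((2 * π * q / N * p.2 i : ℝ) * Complex.I)
    simp only [sum_Rs hN] at h1
    have h2 : ind (∀ i, (N : ℤ) ∣ p.2 i) = ∏ i, ind ((N : ℤ) ∣ p.2 i) := by
      rw [← ind_forall]; simp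
    rw [h2, ← card_univ, ← prod_const, ← prod_mul_distrib, Complex.ofReal_prod, h1, sum_mul]
    refine sum_congr rfl fun Q _ => ?_
    rw [← Complex.exp_sum, ← Complex.exp_add, ch_apply, Complex.ofReal_add, Complex.ofReal_sum, add_mul,
      sum_mul, add_comm]
  have := congrArg Complex.re e
  rw [Complex.re_sum, Complex.re_ofReal_mul, Complex.exp_ofReal_mul_I_re, mul_assoc] at this
  simpa only [Complex.exp_ofReal_mul_I_re] using this

theorem fourier {ρ : L × (ι → ℤ) → ℝ} (h : RW ρ) {N : ℕ} (hN : 0 < N) (ξ : L × (ι → ℤ) →+ ℝ) :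
    ∑ Q ∈ Fintype.piFinset fun _ : ι => Rs N, Ph ρ (ξ + ch L N Q) =
      (N : ℝ) ^ Fintype.card ι * Zs (fun p => ρ (sc L ι N p)) / Zs ρ *
        Ph (fun p => ρ (sc L ι N p)) (ξ.comp (sc L ι N)) := by
  have hS := (h.comp _ (sc_inj (L := L) (ι := ι) hN)).wt
  simp only [Ph, AddMonoidHom.add_apply]
  rw [← Ex_sum _ fun Q _ => h.wt.ig_bdd fun s => abs_cos_le_one _]
  simp only [sum_cos_ch hN]
  rw [Ex_const_mul, Ex_def, mul_div_assoc, mul_assoc, div_mul_eq_mul_div, ← hS.tsum_eq,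
    ← (sc_inj hN).tsum_eq (f := fun p => ρ p * (ind (∀ i, (N : ℤ) ∣ p.2 i) * cos (ξ p)))]
  · congr 2
    refine tsum_congr fun p => ?_
    rw [ind_pos fun i => by simp [sc_apply], one_mul]; rfl
  · intro p hp
    have := ind_ne_zero.1 (left_ne_zero_of_mul (right_ne_zero_of_mul hp))
    choose m hm using this
    exact ⟨(p.1, m), Prod.ext rfl (funext fun i => (hm i).symm)⟩

end fourier

end Crest.Agent.T145.Sec62
end

-- ▼ part T145/SecB_62
section

/-!
# Row 145, module (b), SEC (helper62), part B: one box tied to the ground by springs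
-/

set_option autoImplicit false

namespace Crest.Agent.T145.Sec62

open Finset Real MeasureTheory ProbabilityTheory

theorem gauss_cos (a t : ℝ) :
    ∫ ζ, cos (a + ζ * t) ∂gaussianReal 0 1 = exp (-t ^ 2 / 2) * cos a := by
  have h := charFun_gaussianReal (μ := 0) (v := 1) t
  rw [charFun_apply_real] at h
  have hi : Integrable (fun x : ℝ => Complex.exp (a * Complex.I) * Complex.exp (t * x * Complex.I))
      (gaussianReal 0 1) := by
    refine (integrable_const (1 : ℝ)).mono' (by fun_prop) (.of_forall fun x => ?_)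
    rw [norm_mul, Complex.norm_exp_ofReal_mul_I, ← Complex.ofReal_mul, Complex.norm_exp_ofReal_mul_I,
      one_mul]
  have h2 := integral_re hi
  rw [integral_const_mul, h] at h2
  have e : Complex.exp (t * (0 : ℝ) * Complex.I - ((1 : NNReal) : ℝ) * t ^ 2 / 2) =
      ((exp (-t ^ 2 / 2) : ℝ) : ℂ) := by
    rw [Complex.ofReal_exp]; congr 1; push_cast; ring
  rw [e, mul_comm (Complex.exp _)] at h2
  simp only [RCLike.re_to_complex, Complex.re_ofReal_mul, Complex.exp_ofReal_mul_I_re] at h2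
  rw [← h2]
  refine integral_congr_ae (.of_forall fun x => ?_)
  simp only
  rw [← Complex.exp_add, ← Complex.ofReal_mul, ← add_mul, ← Complex.ofReal_add,
    Complex.exp_ofReal_mul_I_re, mul_comm x]

theorem gauss_sq : Integrable (fun ζ : ℝ => ζ ^ 2) (gaussianReal 0 1) ∧
    ∫ ζ, ζ ^ 2 ∂gaussianReal 0 1 = 1 := by
  have h := memLp_id_gaussianReal (μ := 0) (v := 1) 2
  refine ⟨by simpa using h.integrable_sq, ?_⟩
  have h1 := variance_fun_id_gaussianReal (μ := 0) (v := 1)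
  rw [variance_eq_integral (by fun_prop)] at h1
  simpa using h1

section
variable {α : Type} [Countable α] {ρ : α → ℝ}

theorem spring1 (h0 : ∀ s, 0 ≤ ρ s) (hs : Summable ρ) (y t : α → ℝ) {A K : ℝ} (hA : 0 ≤ A)
    (hK : 0 < K) (h : ∀ ζ : ℝ, |ζ| ≤ K → ∑' s, ρ s * cos (y s + ζ * t s) ≤ A) :
    ∑' s, ρ s * exp (-t s ^ 2 / 2) * cos (y s) ≤ A + Zs ρ / K ^ 2 := by
  have hb : ∀ s ζ, ‖ρ s * cos (y s + ζ * t s)‖ ≤ ρ s := fun s ζ => by
    rw [norm_mul, Real.norm_of_nonneg (h0 s)]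
    exact mul_le_of_le_one_right (h0 s) (abs_cos_le_one _)
  have hi : ∀ s, Integrable (fun ζ => ρ s * cos (y s + ζ * t s)) (gaussianReal 0 1) := fun s =>
    (integrable_const (ρ s)).mono' (by fun_prop) (.of_forall (hb s))
  have hS : Summable fun s => ∫ ζ, ‖ρ s * cos (y s + ζ * t s)‖ ∂gaussianReal 0 1 :=
    Summable.of_nonneg_of_le (fun s => integral_nonneg fun _ => norm_nonneg _)
      (fun s => (integral_mono (hi s).norm (integrable_const _) (hb s)).trans_eq (by simp)) hs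
  have H := integral_tsum_of_summable_integral_norm hi hS
  simp only [integral_const_mul, gauss_cos, ← mul_assoc] at H
  have hc : Continuous fun ζ : ℝ => ∑' s, ρ s * cos (y s + ζ * t s) :=
    continuous_tsum (fun s => by fun_prop) hs hb
  have hZ : ∀ ζ, ‖∑' s, ρ s * cos (y s + ζ * t s)‖ ≤ Zs ρ := fun ζ =>
    tsum_of_norm_bounded hs.hasSum fun s => hb s ζ
  have hZ0 : 0 ≤ Zs ρ := Zs_nonneg h0
  rw [H]
  calc _ ≤ ∫ ζ, (A + Zs ρ / K ^ 2 * ζ ^ 2) ∂gaussianReal 0 1 := by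
        refine integral_mono ((integrable_const (Zs ρ)).mono' hc.aestronglyMeasurable (.of_forall hZ))
          ((integrable_const _).add (gauss_sq.1.const_mul _)) fun ζ => ?_
        by_cases hζ : |ζ| ≤ K
        · exact (h ζ hζ).trans (le_add_of_nonneg_right (by positivity))
        · have h1 : K ^ 2 ≤ ζ ^ 2 := by
            rw [← sq_abs ζ]; exact pow_le_pow_left₀ hK.le (not_le.1 hζ).le 2
          have h2 : Zs ρ ≤ Zs ρ / K ^ 2 * ζ ^ 2 := by
            rw [div_mul_eq_mul_div, le_div_iff₀ (by positivity)]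
            exact mul_le_mul_of_nonneg_left h1 hZ0
          exact ((le_abs_self _).trans (hZ ζ)).trans (by linarith)
    _ = _ := by
        rw [integral_add (integrable_const _) (gauss_sq.1.const_mul _), integral_const_mul, gauss_sq.2]
        simp

theorem springs {J : Type} [DecidableEq J] (T : Finset J) (t : J → α → ℝ) {K : ℝ} (hK : 0 < K) :
    ∀ {ρ : α → ℝ} (y : α → ℝ) {A : ℝ}, (∀ s, 0 ≤ ρ s) → Summable ρ → 0 ≤ A →
    (∀ ζ : J → ℝ, (∀ j, |ζ j| ≤ K) → ∑' s, ρ s * cos (y s + ∑ j ∈ T, ζ j * t j s) ≤ A) →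
    ∑' s, ρ s * (∏ j ∈ T, exp (-t j s ^ 2 / 2)) * cos (y s) ≤ A + T.card * (Zs ρ / K ^ 2) := by
  induction T using Finset.induction_on with
  | empty =>
    intro ρ y A _ _ _ h
    simpa using h 0 fun _ => by simpa using hK.le
  | insert a T ha ih =>
    intro ρ y A h0 hs hA h
    have hle : ∀ s, ρ s * exp (-t a s ^ 2 / 2) ≤ ρ s := fun s =>
      mul_le_of_le_one_right (h0 s) (exp_le_one_iff.2 (by nlinarith [sq_nonneg (t a s)]))
    have h0' : ∀ s, 0 ≤ ρ s * exp (-t a s ^ 2 / 2) := fun s => mul_nonneg (h0 s) (exp_pos _).le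
    have hs' := Summable.of_nonneg_of_le h0' hle hs
    have hZ0 : 0 ≤ Zs ρ := Zs_nonneg h0
    have H := ih (ρ := fun s => ρ s * exp (-t a s ^ 2 / 2)) y (A := A + Zs ρ / K ^ 2) h0' hs'
      (by positivity) fun ζ hζ => spring1 h0 hs _ _ hA hK fun z hz => by
        refine le_of_eq_of_le (tsum_congr fun s => ?_) (h (Function.update ζ a z) fun j => ?_)
        · rw [sum_insert ha, Function.update_self, add_comm (z * _), ← add_assoc]
          congr 4
          exact sum_congr rfl fun j hj => by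
            rw [Function.update_of_ne (ne_of_mem_of_not_mem hj ha)]
        · rcases eq_or_ne j a with rfl | hj
          · rwa [Function.update_self]
          · rw [Function.update_of_ne hj]; exact hζ j
    have hZ : Zs (fun s => ρ s * exp (-t a s ^ 2 / 2)) / K ^ 2 ≤ Zs ρ / K ^ 2 :=
      div_le_div_of_nonneg_right (hs'.tsum_le_tsum hle hs) (by positivity)
    simp only [prod_insert ha, ← mul_assoc, card_insert_of_notMem ha]
    push_cast
    nlinarith [mul_le_mul_of_nonneg_left hZ (Nat.cast_nonneg (α := ℝ) T.card)]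

end

/-- real form of an integer functional -/
def cR {L : Type} [AddCommGroup L] (a : L →+ ℤ) : L →+ ℝ := (Int.castAddHom ℝ).comp a

@[simp] theorem cR_apply {L : Type} [AddCommGroup L] (a : L →+ ℤ) (s : L) : cR a s = a s := rfl

section box
variable {L J : Type} [AddCommGroup L] [IsAddTorsionFree L] [DecidableEq J] {W : L → ℝ}
  {a : J → L →+ ℤ} {T : Finset J} {σ : ℝ}

/-- a box with a refined level, tied to the ground by the springs `T` -/
noncomputable def bx (W : L → ℝ) (a : J → L →+ ℤ) (T : Finset J) (σ : ℝ) (p : L × ℤ) : ℝ :=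
  W p.1 * ∏ j ∈ T, gau σ (a j p.1 + p.2)

/-- the level -/
noncomputable def lev (L : Type) [AddCommGroup L] (θ : ℝ) : L × ℤ →+ ℝ := (0 : L →+ ℝ).coprod (zH θ)

omit [IsAddTorsionFree L] in
@[simp] theorem lev_apply (θ : ℝ) (p : L × ℤ) : lev L θ p = θ * p.2 := by simp [lev]

omit [DecidableEq J] in
theorem bx_decay (h : RW (bx W a T σ)) (hW : 0 < W 0) (hσ : 0 < σ) (hT : T.Nonempty) {c : ℝ}
    (hc : 0 < c) {N : ℕ} (hN : 0 < N) (hσ' : c * T.card * (N : ℝ) ^ 2 ≤ π ^ 2 * σ) {q : ℤ}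
    (hq : 2 * |q| ≤ N) : Ph (bx W a T σ) (lev L (2 * π * q / N)) ≤ Th c * exp (-c * (q : ℝ) ^ 2) := by
  have ht : (0 : ℝ) < T.card := by exact_mod_cast hT.card_pos
  refine (h.ph_sub (AddMonoidHom.inr L ℤ) (fun n n' e => (Prod.ext_iff.1 e).2) _).trans ?_
  have e : (fun n : ℤ => bx W a T σ (AddMonoidHom.inr L ℤ n)) = fun n => W 0 * gau (σ / T.card) n := by
    funext n
    simp only [bx, AddMonoidHom.inr_apply, map_zero, zero_add, prod_const, gau, ← exp_nat_mul]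
    congr 2; field_simp
  have e' : (lev L (2 * π * q / N)).comp (AddMonoidHom.inr L ℤ) = zH (2 * π * q / N) := by
    ext; simp
  rw [e, e', Ph, Ex_smul _ _ hW.ne']
  refine ph_gau_decay hc hN ?_ hq
  rw [← mul_div_assoc, le_div_iff₀ ht]
  linarith

/-- shear: the argument of the spring `j₀` is independent of the box -/
def shear (a : L →+ ℤ) : L × ℤ ≃ L × ℤ where
  toFun p := (p.1, p.2 - a p.1)
  invFun p := (p.1, p.2 + a p.1)
  left_inv p := by simp
  right_inv p := by simp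

omit [IsAddTorsionFree L] in
theorem bx_le [Countable L] (hW : Cen W) (hσ : 0 < σ) {j₀ : J} (hj : j₀ ∈ T) {V K A : ℝ} (hK : 0 < K)
    (hA : 0 ≤ A) (hV0 : 0 ≤ V)
    (hV : ∀ j, Vr W (cR (a j) - cR (a j₀)) (cR (a j) - cR (a j₀)) ≤ V * σ) (θ : ℝ)
    (h : ∀ ζ : J → ℝ, (∀ j, |ζ j| ≤ K) →
      Ph W (∑ j ∈ T.erase j₀, (ζ j / √σ) • (cR (a j) - cR (a j₀)) - θ • cR (a j₀)) ≤ A) :
    Ph (bx W a T σ) (lev L θ) ≤ (A + T.card / K ^ 2) * exp (T.card * (1 + V)) := by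
  have hs := Real.sqrt_pos.2 hσ
  set t : J → L × ℤ → ℝ := fun j p => ((p.2 : ℝ) + (cR (a j) - cR (a j₀)) p.1) / √σ with ht
  set ρ : L × ℤ → ℝ := fun p => W p.1 * gau σ p.2 with hρ
  have hR : RW ρ := (RW.of_cen hW).prod (rw_gau hσ)
  have hG := rw_gau hσ
  have e : ∀ p, bx W a T σ (shear (a j₀) p) = ρ p * ∏ j ∈ T.erase j₀, exp (-t j p ^ 2 / 2) := fun p => by
    simp only [bx, shear, Equiv.coe_fn_mk, hρ, ht]
    rw [← mul_prod_erase T _ hj, mul_assoc, add_sub_cancel]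
    congr 2
    refine prod_congr rfl fun j _ => ?_
    rw [gau, div_pow, Real.sq_sqrt hσ.le]
    congr 1
    simp only [AddMonoidHom.sub_apply, cR_apply]
    push_cast; field_simp; ring
  have hcard : ((T.erase j₀).card : ℝ) ≤ T.card := by exact_mod_cast card_erase_le
  -- numerator
  have hN := springs (T.erase j₀) t hK (ρ := ρ) (fun p => θ * (p.2 - a j₀ p.1 : ℤ)) (A := Zs ρ * A)
    hR.rsd.nonneg hR.summ (mul_nonneg hR.wt.pos.le hA) fun ζ hζ => by
      have h1 := ph_prod (RW.of_cen hW) hG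
        (∑ j ∈ T.erase j₀, (ζ j / √σ) • (cR (a j) - cR (a j₀)) - θ • cR (a j₀))
        (zH (θ + ∑ j ∈ T.erase j₀, ζ j / √σ))
      have h2 := mul_le_mul (h ζ hζ) (hG.ph_le (zH (θ + ∑ j ∈ T.erase j₀, ζ j / √σ)))
        (hG.ph_nonneg _) hA
      rw [← h1, mul_one, Ph] at h2
      refine le_of_eq_of_le ?_ (mul_le_mul_of_nonneg_left h2 hR.wt.pos.le)
      rw [← hR.wt.tsum_eq]
      refine tsum_congr fun p => ?_
      congr 2
      simp only [ht, AddMonoidHom.coprod_apply, AddMonoidHom.sub_apply, AddMonoidHom.finsetSum_apply,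
        AddMonoidHom.smul_apply, smul_eq_mul, cR_apply, zH_apply, add_mul, sum_mul]
      push_cast
      rw [show ∀ x y z w : ℝ, x - y + (z + w) = (z - y) + (x + w) from fun _ _ _ _ => by ring,
        ← sum_add_distrib, mul_sub]
      congr 1
      exact sum_congr rfl fun j _ => by ring
  -- denominator
  have hI1 : ∀ j, Ig ρ fun p => (cR (a j) - cR (a j₀)) p.1 ^ 2 := fun j =>
    Ig.prod_fst (hW.ig ((Tame.hom _).pow 2)) hG.summ
  have hI2 : Ig ρ fun p => (p.2 : ℝ) ^ 2 :=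
    Ig.prod_snd (Φ := fun k : ℤ => (k : ℝ) ^ 2)
      (((gauStmt σ hσ).1.cen.ig ((Tame.hom (zH 1)).pow 2)).congr fun k _ => by simp) hW.se.summable
  have hb : ∀ j p, t j p ^ 2 / 2 ≤ ((p.2 : ℝ) ^ 2 + (cR (a j) - cR (a j₀)) p.1 ^ 2) / σ := fun j p => by
    simp only [ht]
    rw [div_pow, Real.sq_sqrt hσ.le, div_div, div_le_div_iff₀ (by positivity) hσ]
    nlinarith [mul_nonneg hσ.le (sq_nonneg ((p.2 : ℝ) - (cR (a j) - cR (a j₀)) p.1))]
  have hI3 : ∀ j, Ig ρ fun p => t j p ^ 2 / 2 := fun j =>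
    Ig.of_le hR.rsd.nonneg ((hI2.add (hI1 j)).div_const σ) (fun _ => by positivity) (hb j)
  have hE : ∀ j, Ex ρ (fun p => t j p ^ 2 / 2) ≤ 1 + V := fun j => by
    refine (Ex_mono hR.rsd.nonneg (hI3 j) ((hI2.add (hI1 j)).div_const σ) (hb j)).trans ?_
    rw [Ex_div_const, Ex_add hI2 (hI1 j), div_le_iff₀ hσ]
    have h1 : Ex ρ (fun p => (p.2 : ℝ) ^ 2) ≤ σ := by
      rw [Ex_prod_snd (Φ := fun k : ℤ => (k : ℝ) ^ 2) hW.wt hG.wt
        (((gauStmt σ hσ).1.cen.ig ((Tame.hom (zH 1)).pow 2)).congr fun k _ => by simp)]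
      exact ex_sq_gau hσ
    have h2 : Ex ρ (fun p => (cR (a j) - cR (a j₀)) p.1 ^ 2) ≤ V * σ := by
      rw [Ex_prod_fst (F := fun s => (cR (a j) - cR (a j₀)) s ^ 2) hW.wt hG.wt
        (hW.ig ((Tame.hom _).pow 2))]
      have := hV j
      rw [hW.Vr_eq] at this
      simpa only [pow_two] using this
    linarith
  have hP : ∀ p, ∏ j ∈ T.erase j₀, exp (-t j p ^ 2 / 2) = exp (-∑ j ∈ T.erase j₀, t j p ^ 2 / 2) :=
    fun p => by rw [← exp_sum, ← sum_neg_distrib]; simp only [neg_div]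
  have hD : exp (-(T.card * (1 + V))) ≤ Ex ρ fun p => ∏ j ∈ T.erase j₀, exp (-t j p ^ 2 / 2) := by
    simp only [hP]
    refine le_trans (exp_le_exp.2 ?_) (hR.wt.exp_ex_le (Ig.sum _ fun j _ => hI3 j).neg
      (hR.wt.ig_bdd (C := 1) fun p => ?_))
    · rw [Ex_neg, Ex_sum _ fun j _ => hI3 j, neg_le_neg_iff]
      refine (sum_le_sum fun j _ => hE j).trans ?_
      rw [sum_const, nsmul_eq_mul]
      exact mul_le_mul_of_nonneg_right hcard (by linarith)
    · rw [abs_of_pos (exp_pos _), exp_le_one_iff, neg_nonpos]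
      exact sum_nonneg fun j _ => by positivity
  have hz := hR.wt.pos
  rw [Ph, ← Ex_equiv (shear (a j₀))]
  simp only [e, lev_apply]
  rw [Ex_def, hR.wt.Zs_mul, div_le_iff₀ (mul_pos hz ((exp_pos _).trans_le hD))]
  refine hN.trans ?_
  have h3 : 1 ≤ exp (T.card * (1 + V)) * Ex ρ fun p => ∏ j ∈ T.erase j₀, exp (-t j p ^ 2 / 2) := by
    have := mul_le_mul_of_nonneg_left hD (exp_pos (T.card * (1 + V))).le
    rwa [← exp_add, add_neg_cancel, exp_zero] at this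
  have h4 : Zs ρ * A + (T.erase j₀).card * (Zs ρ / K ^ 2) ≤ (A + T.card / K ^ 2) * Zs ρ := by
    have := mul_le_mul_of_nonneg_right hcard (by positivity : 0 ≤ Zs ρ / K ^ 2)
    have e2 : (T.card : ℝ) / K ^ 2 * Zs ρ = T.card * (Zs ρ / K ^ 2) := by ring
    rw [add_mul, e2]; linarith
  refine h4.trans ?_
  have h5 : 0 ≤ (A + T.card / K ^ 2) * Zs ρ := by positivity
  nlinarith [mul_le_mul_of_nonneg_left h3 h5]

end box

end Crest.Agent.T145.Sec62
end

-- ▼ part T145/SecC_62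
section

/-!
# Row 145, module (b), SEC (helper62), part C: boxes joined by springs, refined levels
-/

set_option autoImplicit false
set_option linter.unusedSectionVars false

namespace Crest.Agent.T145.Sec62

open Finset Real

theorem RW.smul {L : Type} [AddCommGroup L] {ρ : L → ℝ} (h : RW ρ) {c : ℝ} (hc : 0 < c) :
    RW fun s => c * ρ s :=
  ⟨Rsd63.rsd_mul ⟨fun _ => hc.le, fun _ => rfl, fun _ => psd_const (mul_self_nonneg c)⟩ h.rsd,
    h.summ.mul_left c, mul_pos hc h.pos0⟩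

/-- boxes `ι` (root `o`, weight `W`, sides `A`), springs `β` (noise `V`, `B`), levels in `ℤ / N` -/
structure Sys (ι β L K : Type) [AddCommGroup L] [AddCommGroup K] where
  o : ι
  src : β → ι
  tgt : β → ι
  dp : β → Fin 4
  dm : β → Fin 4
  W : L → ℝ
  V : K → ℝ
  A : Fin 4 → L →+ ℤ
  B : K →+ ℤ
  N : ℕ
  σ : ℝ

namespace Sys
variable {ι β L K : Type} [Fintype ι] [DecidableEq ι] [Fintype β] [DecidableEq β] [AddCommGroup L]
  [AddCommGroup K] [IsAddTorsionFree L] [IsAddTorsionFree K] (S : Sys ι β L K)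

structure Ok : Prop where
  W : Cen S.W
  V : RW S.V
  ne : ∀ b, S.src b ≠ S.tgt b
  conn : ∀ n : ι → ℤ, n S.o = 0 → (∀ b, n (S.tgt b) = n (S.src b)) → n = 0
  N : 2 ≤ S.N
  σ : 0 < S.σ

/-- the boxes with a free level -/
abbrev I : Type := {i // i ≠ S.o}

/-- extension by `0` at the root -/
def ext (n : S.I → ℤ) (i : ι) : ℤ := if h : i = S.o then 0 else n ⟨i, h⟩

theorem ext_o (n : S.I → ℤ) : S.ext n S.o = 0 := dif_pos rfl
theorem ext_I (n : S.I → ℤ) (i : S.I) : S.ext n i = n i := dif_neg i.2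
theorem ext_add (n n' : S.I → ℤ) (i : ι) : S.ext (n + n') i = S.ext n i + S.ext n' i := by
  unfold ext; split_ifs <;> simp

theorem sum_ext (c : ι → ℝ) (n : S.I → ℤ) :
    ∑ i, c i * S.ext n i = ∑ i : S.I, c i * n i := by
  rw [Fintype.sum_eq_add_sum_subtype_ne _ S.o, ext_o]
  simp [ext_I]

/-- the arguments of the springs -/
def ψ : ((ι → L) × (β → K)) × (S.I → ℤ) →+ ((ι → L) × (β → K)) × (β → ℤ) :=
  AddMonoidHom.mk' (fun p => (p.1, fun b => S.A (S.dm b) (p.1.1 (S.tgt b)) -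
    S.A (S.dp b) (p.1.1 (S.src b)) - S.B (p.1.2 b) + (S.ext p.2 (S.tgt b) - S.ext p.2 (S.src b))))
    fun p p' => Prod.ext rfl (funext fun b => by simp [ext_add]; ring)

theorem ψ_apply (p : ((ι → L) × (β → K)) × (S.I → ℤ)) : S.ψ p = (p.1, fun b =>
    S.A (S.dm b) (p.1.1 (S.tgt b)) - S.A (S.dp b) (p.1.1 (S.src b)) - S.B (p.1.2 b) +
      (S.ext p.2 (S.tgt b) - S.ext p.2 (S.src b))) := rfl

/-- independent boxes, noises and springs -/
noncomputable def U (p : ((ι → L) × (β → K)) × (β → ℤ)) : ℝ :=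
  ((∏ i, S.W (p.1.1 i)) * ∏ b, S.V (p.1.2 b)) * ∏ b, gau S.σ (p.2 b)

/-- the spring model with refined levels -/
noncomputable def ρ (p : ((ι → L) × (β → K)) × (S.I → ℤ)) : ℝ := S.U (S.ψ p)

/-- side charges -/
noncomputable def sdF : (Fin 4 → ℝ) →ₗ[ℝ] (L →+ ℝ) :=
  Fintype.linearCombination ℝ fun d => (S.N : ℝ)⁻¹ • cR (S.A d)

theorem sdF_apply (g : Fin 4 → ℝ) (s : L) : S.sdF g s = ∑ d, g d * ((S.N : ℝ)⁻¹ * S.A d s) := by
  simp [sdF, Fintype.linearCombination_apply, AddMonoidHom.finsetSum_apply]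

theorem sdF_single (d : Fin 4) : S.sdF (Pi.single d 1) = (S.N : ℝ)⁻¹ • cR (S.A d) := by
  simp [sdF]

/-- the outer charges -/
noncomputable def Ξ (ξ : ι → Fin 4 → ℝ) : ((ι → L) × (β → K)) × (S.I → ℤ) →+ ℝ :=
  ((piH fun i => S.sdF (ξ i)).coprod 0).coprod (piH fun i : S.I => zH ((∑ d, ξ i d) / S.N))

theorem Ξ_apply (ξ : ι → Fin 4 → ℝ) (p : ((ι → L) × (β → K)) × (S.I → ℤ)) :
    S.Ξ ξ p = ∑ i, ∑ d, ξ i d * ((S.N : ℝ)⁻¹ * (S.A d (p.1.1 i) + S.ext p.2 i)) := by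
  have := S.sum_ext (fun i => (∑ d, ξ i d) / S.N) p.2
  simp only [Ξ, AddMonoidHom.coprod_apply, piH_apply, zH_apply, AddMonoidHom.zero_apply, add_zero]
  rw [← this, ← sum_add_distrib]
  refine sum_congr rfl fun i _ => ?_
  rw [sdF_apply, sum_div, sum_mul, ← sum_add_distrib]
  exact sum_congr rfl fun d _ => by ring

/-- the sector of the box `i₀` -/
def Qd (i₀ : ι) (i : S.I) : ℤ := if i.1 = i₀ then -1 else 0

theorem Qd_inj : Function.Injective S.Qd := fun i j h => by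
  by_contra hij
  by_cases hi : i = S.o
  · have hj : j ≠ S.o := fun e => hij (hi.trans e.symm)
    have := congrFun h ⟨j, hj⟩
    simp [Qd, Ne.symm hij] at this
  · have := congrFun h ⟨i, hi⟩
    simp [Qd, hij] at this

structure Fx (ξ f : ι → Fin 4 → ℝ) (i₀ : ι) : Prop where
  id : ∀ u : ι → Fin 4 → ℝ, ∑ i, ∑ d, f i d * u i d = ∑ i, ∑ d, ξ i d * u i d +
    ∑ b, (f (S.tgt b) (S.dm b) * u (S.tgt b) (S.dm b) + f (S.src b) (S.dp b) * u (S.src b) (S.dp b))
  opp : ∀ b, f (S.src b) (S.dp b) = -f (S.tgt b) (S.dm b)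
  chg : ∀ i, ∑ d, f i d = if i = i₀ then 2 * π else 0
  pos : ∀ i d, 0 ≤ ξ i d * f i d

variable {S}

theorem Ok.inj (h : S.Ok) : Function.Injective S.ψ := (injective_iff_map_eq_zero _).2 fun p hp => by
  rw [ψ_apply, Prod.ext_iff] at hp
  have h1 : p.1 = 0 := hp.1
  have h2 := h.conn (S.ext p.2) (S.ext_o _) fun b => by
    have := congrFun hp.2 b
    simp only [h1, Prod.fst_zero, Prod.snd_zero, Pi.zero_apply, map_zero] at this
    omega
  exact Prod.ext h1 (funext fun i => by rw [← S.ext_I p.2 i, h2]; rfl)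

theorem Ok.rwU (h : S.Ok) : RW S.U :=
  ((RW.pi fun _ => RW.of_cen h.W).prod (RW.pi fun _ => h.V)).prod (RW.pi fun _ => rw_gau h.σ)

theorem Ok.rw (h : S.Ok) : RW S.ρ := h.rwU.comp _ h.inj

theorem Ok.Npos (h : S.Ok) : 0 < S.N := by have := h.N; omega

/-- one sector -/
theorem Ok.num (h : S.Ok) {v : ℝ} (hv0 : 0 ≤ v) (hv : ∀ ζ : ℝ, exp (-(v * ζ ^ 2) / 2) ≤ Ph S.V (ζ • cR S.B))
    {ξ f : ι → Fin 4 → ℝ} {i₀ : ι} (hf : S.Fx ξ f i₀) :
    (∏ i, Ph S.W (S.sdF (f i))) * exp (-((S.σ + v) / (S.N : ℝ) ^ 2 * (∑ i, ∑ d, f i d ^ 2) / 4)) ≤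
      Ph S.ρ (S.Ξ ξ + ch _ S.N (S.Qd i₀)) := by
  have hN : (0 : ℝ) < S.N := by exact_mod_cast h.Npos
  set ζ : β → ℝ := fun b => -(f (S.tgt b) (S.dm b) / S.N) with hζ
  have H := h.rwU.ph_sub _ h.inj (((piH fun i => S.sdF (f i)).coprod
    (piH fun b => ζ b • cR S.B)).coprod (piH fun b => zH (ζ b)))
  have e := ph_prod ((RW.pi fun _ : ι => RW.of_cen h.W).prod (RW.pi fun _ : β => h.V))
    (RW.pi fun _ : β => rw_gau h.σ) ((piH fun i => S.sdF (f i)).coprod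
    (piH fun b => ζ b • cR S.B)) (piH fun b => zH (ζ b))
  rw [ph_prod (RW.pi fun _ : ι => RW.of_cen h.W) (RW.pi fun _ : β => h.V),
    ph_pi (fun _ => RW.of_cen h.W), ph_pi (fun _ => h.V), ph_pi (fun _ => rw_gau h.σ)] at e
  refine le_trans ?_ ((e.symm.trans_le H).trans_eq ?_)
  · rw [mul_assoc, ← prod_mul_distrib]
    refine mul_le_mul_of_nonneg_left ?_ (prod_nonneg fun i _ => (h.W.ph_pos _).le)
    refine le_trans ?_ (prod_le_prod (f := fun b => exp (-((S.σ + v) * ζ b ^ 2) / 2))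
      (fun _ _ => (exp_pos _).le) fun b _ => ?_)
    · rw [← exp_sum, exp_le_exp]
      have h1 := hf.id f
      have h2 : 0 ≤ ∑ i, ∑ d, ξ i d * f i d := sum_nonneg fun i _ => sum_nonneg fun d _ => hf.pos i d
      have h3 : ∑ b, -((S.σ + v) * ζ b ^ 2) / 2 = -((S.σ + v) / (S.N : ℝ) ^ 2 *
          (∑ b, (f (S.tgt b) (S.dm b) * f (S.tgt b) (S.dm b) +
            f (S.src b) (S.dp b) * f (S.src b) (S.dp b))) / 4) := by
        rw [mul_sum, sum_div, ← sum_neg_distrib]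
        refine sum_congr rfl fun b _ => ?_
        rw [hf.opp, hζ]; field_simp; ring
      have h4 : 0 ≤ (S.σ + v) / (S.N : ℝ) ^ 2 := by have := h.σ; positivity
      simp only [pow_two (f _ _)]
      rw [h3, h1]
      nlinarith [mul_nonneg h4 h2]
    · refine le_trans (le_of_eq ?_) (mul_le_mul (hv (ζ b)) (ph_gau h.σ (ζ b)) (exp_pos _).le
        (h.V.ph_nonneg _))
      rw [← exp_add]; congr 1; ring
  · congr 1
    refine AddMonoidHom.ext fun p => ?_
    have h1 := hf.id fun i d => (S.N : ℝ)⁻¹ * (S.A d (p.1.1 i) + S.ext p.2 i)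
    have h2 : ch ((ι → L) × (β → K)) S.N (S.Qd i₀) p =
        -∑ i, (∑ d, f i d) * ((S.N : ℝ)⁻¹ * S.ext p.2 i) := by
      have := S.sum_ext (fun i => -((if i = i₀ then 2 * π else 0) * (S.N : ℝ)⁻¹)) p.2
      simp only [ch_apply, hf.chg, ← sum_neg_distrib, ← mul_assoc, ← neg_mul] at this ⊢
      rw [this]
      refine sum_congr rfl fun i _ => ?_
      unfold Qd; split_ifs <;> simp [div_eq_mul_inv]
    rw [AddMonoidHom.add_apply, Ξ_apply, h2, ← sub_eq_add_neg, eq_sub_iff_add_eq,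
      ← sub_eq_iff_eq_add.2 h1]
    simp only [AddMonoidHom.comp_apply, AddMonoidHom.coprod_apply, ψ_apply, piH_apply, sdF_apply,
      AddMonoidHom.smul_apply, smul_eq_mul, cR_apply, zH_apply, hf.opp, sum_mul]
    have e1 : ∑ i, ∑ d, f i d * ((S.N : ℝ)⁻¹ * (S.A d (p.1.1 i) + S.ext p.2 i)) =
        ∑ i, ∑ d, f i d * ((S.N : ℝ)⁻¹ * S.A d (p.1.1 i)) +
          ∑ i, ∑ d, f i d * ((S.N : ℝ)⁻¹ * S.ext p.2 i) := by
      simp only [mul_add, sum_add_distrib]
    rw [e1, add_assoc (∑ i, _), ← sum_add_distrib, add_right_comm, sub_eq_add_neg (_ + _),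
      ← sum_neg_distrib]
    congr 1
    refine sum_congr rfl fun b _ => ?_
    simp only [hζ]
    push_cast
    field_simp
    ring

/-- the springs of the box `i` -/
def adj (S : Sys ι β L K) (i : ι) : Finset β := univ.filter fun b => S.tgt b = i ∨ S.src b = i

/-- the side of the box `i` that carries the spring `b` -/
def sid (S : Sys ι β L K) (i : ι) (b : β) : Fin 4 := if S.tgt b = i then S.dm b else S.dp b

theorem Ok.adj_ne (h : S.Ok) (i : S.I) : (S.adj i).Nonempty := by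
  by_contra hn
  have h1 : ∀ b, S.tgt b ≠ i ∧ S.src b ≠ i := fun b =>
    not_or.1 fun hb => hn ⟨b, mem_filter.2 ⟨mem_univ _, hb⟩⟩
  have := congrFun (h.conn (Pi.single i.1 1) (Pi.single_eq_of_ne i.2.symm _) fun b => by
    rw [Pi.single_eq_of_ne (h1 b).1, Pi.single_eq_of_ne (h1 b).2]) i
  simp at this

/-- pin all boxes but one -/
theorem Ok.pin (h : S.Ok) (Q : S.I → ℤ) (i : S.I) :
    RW (bx S.W (fun b => S.A (S.sid i b)) (S.adj i) S.σ) ∧ Ph S.ρ (ch _ S.N Q) ≤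
      Ph (bx S.W (fun b => S.A (S.sid i b)) (S.adj i) S.σ) (lev L (2 * π * Q i / S.N)) := by
  let φ : L × ℤ →+ ((ι → L) × (β → K)) × (S.I → ℤ) :=
    AddMonoidHom.mk' (fun p => ((Pi.single i.1 p.1, 0), Pi.single i p.2))
      fun p p' => by simp [Pi.single_add]
  have hφ : Function.Injective φ := fun p p' e => by
    have e1 := congrFun (congrArg (fun x => x.1.1) e) i.1
    have e2 := congrFun (congrArg (fun x => x.2) e) i
    exact Prod.ext (by simpa [φ] using e1) (by simpa [φ] using e2)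
  set c : ℝ := (∏ _j ∈ univ.erase i.1, S.W 0) * ∏ _b : β, S.V 0
  have hc : 0 < c := mul_pos (prod_pos fun _ _ => h.W.pos0) (prod_pos fun _ _ => h.V.pos0)
  have he : ∀ (n : ℤ) (j : ι), S.ext (Pi.single i n) j = (Pi.single i.1 n : ι → ℤ) j := fun n j => by
    unfold ext
    split_ifs with hj
    · rw [hj, Pi.single_eq_of_ne i.2.symm]
    · simp [Pi.single_apply, Subtype.ext_iff]
  have e : (fun p => S.ρ (φ p)) =
      fun p => c * bx S.W (fun b => S.A (S.sid i b)) (S.adj i) S.σ p := by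
    funext p
    have e1 : ∏ j, S.W ((Pi.single i.1 p.1 : ι → L) j) = S.W p.1 * ∏ _j ∈ univ.erase i.1, S.W 0 := by
      rw [← mul_prod_erase univ _ (mem_univ i.1), Pi.single_eq_same]
      exact congrArg _ (prod_congr rfl fun j hj => by rw [Pi.single_eq_of_ne (ne_of_mem_erase hj)])
    simp only [ρ, U, ψ_apply, φ, AddMonoidHom.mk'_apply, e1, bx, adj, prod_filter, he, Pi.zero_apply,
      map_zero, sub_zero, c]
    rw [show ∀ a b c d e : ℝ, d = e → a * b * c * d = b * c * (a * e) from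
      fun _ _ _ _ _ h => by rw [h]; ring]
    refine prod_congr rfl fun b _ => ?_
    have hne := h.ne b
    by_cases h1 : S.tgt b = i
    · have h2 : S.src b ≠ i := fun e => hne (e.trans h1.symm)
      simp [h1, h2, sid]
    · by_cases h2 : S.src b = i
      · rw [← gau_neg]
        simp [h1, h2, sid, add_comm]
      · simp [h1, h2, gau]
  have hR := h.rw.comp φ hφ
  have H := h.rw.ph_sub φ hφ (ch _ S.N Q)
  rw [e] at hR H
  refine ⟨?_, H.trans_eq ?_⟩
  · have := hR.smul (inv_pos.2 hc)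
    simpa only [inv_mul_cancel_left₀ hc.ne'] using this
  · rw [Ph, Ex_smul _ _ hc.ne', Ph]
    refine Ex_congr fun p _ => ?_
    simp [ch_apply, φ, Pi.single_apply]

/-- the sectors add up -/
theorem Ok.main (h : S.Ok) (ξ : ι → Fin 4 → ℝ) (I₀ : Finset ι) {E : ℝ}
    (hE : ∀ i₀ ∈ I₀, E ≤ Ph S.ρ (S.Ξ ξ + ch _ S.N (S.Qd i₀))) :
    I₀.card * E ≤ (∑ Q ∈ Fintype.piFinset fun _ : S.I => Rs S.N, Ph S.ρ (ch _ S.N Q)) *
      Ph (fun p => S.ρ (sc _ _ S.N p)) ((S.Ξ ξ).comp (sc _ _ S.N)) := by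
  have h0 := fourier h.rw h.Npos 0
  rw [AddMonoidHom.zero_comp, (h.rw.comp _ (sc_inj h.Npos)).wt.Ph_zero, mul_one] at h0
  simp only [zero_add] at h0
  rw [h0, ← fourier h.rw h.Npos, ← nsmul_eq_mul]
  refine (card_nsmul_le_sum _ _ _ hE).trans ?_
  rw [← sum_image (f := fun Q => Ph S.ρ (S.Ξ ξ + ch _ S.N Q)) fun i _ j _ e => S.Qd_inj e]
  refine sum_le_sum_of_subset_of_nonneg (fun Q hQ => ?_) fun Q _ _ => h.rw.ph_nonneg _
  obtain ⟨i₀, -, rfl⟩ := mem_image.1 hQ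
  refine Fintype.mem_piFinset.2 fun i => ?_
  unfold Qd
  split_ifs
  exacts [neg_one_mem_Rs h.N, zero_mem_Rs h.N]

end Sys

/-- the sum over the sectors is bounded, and at most `2` unless a charge survives -/
theorem den (κ Vb : ℝ) (hκ : 0 < κ) (hVb : 0 ≤ Vb) (nb m : ℕ) : ∃ c K₀ : ℝ, 0 < c ∧
    ∀ {ι β L K : Type} [Fintype ι] [DecidableEq ι] [Fintype β] [DecidableEq β] [AddCommGroup L]
      [AddCommGroup K] [IsAddTorsionFree L] [IsAddTorsionFree K] [Countable L] (S : Sys ι β L K),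
      S.Ok → S.σ = (S.N : ℝ) ^ 2 / κ → Fintype.card β ≤ nb → Fintype.card S.I ≤ m →
      (∀ d d', Vr S.W (cR (S.A d) - cR (S.A d')) (cR (S.A d) - cR (S.A d')) ≤ Vb * S.σ) →
      ∀ D, D = ∑ Q ∈ Fintype.piFinset fun _ : S.I => Rs S.N,
          Ph S.ρ (ch ((ι → L) × (β → K)) S.N Q) →
        1 ≤ D ∧ c * D ≤ 1 ∧ (D ≤ 2 ∨ ∃ (q : ℤ) (g : Fin 4 → ℝ), q ≠ 0 ∧ (∀ d, |g d| ≤ K₀) ∧
          ∑ d, g d = 2 * π * q ∧ c ≤ Ph S.W (S.sdF g)) := by
  obtain ⟨a, ha⟩ : ∃ a : ℝ, a = π ^ 2 / (κ * (nb + 1)) := ⟨_, rfl⟩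
  have ha0 : 0 < a := by rw [ha]; positivity
  obtain ⟨a', ha'⟩ : ∃ a' : ℝ, a' = a / (2 * (m + 1)) := ⟨_, rfl⟩
  have ha0' : 0 < a' := by rw [ha']; positivity
  have hC := one_le_Th ha0
  have hT := one_le_Th ha0'
  obtain ⟨Sm, hSm⟩ : ∃ Sm : ℝ, Sm = Th a' ^ m := ⟨_, rfl⟩
  have hS1 : 1 ≤ Sm := hSm ▸ one_le_pow₀ hT
  obtain ⟨ε, hε⟩ : ∃ ε : ℝ, ε = 1 / (Th a * Sm ^ 2) := ⟨_, rfl⟩
  have hε0 : 0 < ε := by rw [hε]; positivity
  obtain ⟨ε', hε'⟩ : ∃ ε' : ℝ, ε' = ε * exp (-(nb * (1 + Vb))) / 2 := ⟨_, rfl⟩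
  have hε0' : 0 < ε' := by rw [hε']; positivity
  obtain ⟨K₁, hK₁⟩ : ∃ K₁ : ℝ, K₁ = nb / ε' + 1 := ⟨_, rfl⟩
  have hK1 : 1 ≤ K₁ := by rw [hK₁]; exact le_add_of_nonneg_left (by positivity)
  refine ⟨min (1 / (Th a * Sm)) ε', nb * (K₁ * √κ) + 2 * π * (Th a / (a * ε)),
    lt_min (by positivity) hε0', ?_⟩
  intro ι β L K _ _ _ _ _ _ _ _ _ S h hσ hb hm hV D hD
  have hN : (0 : ℝ) < S.N := by exact_mod_cast h.Npos
  have hcard : ∀ i, ((S.adj i).card : ℝ) ≤ nb := fun i => by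
    exact_mod_cast (card_le_univ _).trans hb
  set x : (S.I → ℤ) → ℝ := fun Q => Ph S.ρ (ch ((ι → L) × (β → K)) S.N Q) with hx
  set P := Fintype.piFinset fun _ : S.I => Rs S.N
  set b : (S.I → ℤ) → ℝ := fun Q => ∏ i, exp (-a' * (Q i : ℝ) ^ 2) with hb'
  have hx0 : ∀ Q, 0 ≤ x Q := fun Q => h.rw.ph_nonneg _
  have hdec : ∀ Q ∈ P, ∀ i, Ph (bx S.W (fun b => S.A (S.sid i.1 b)) (S.adj i.1) S.σ)
      (lev L (2 * π * Q i / S.N)) ≤ Th a * exp (-a * (Q i : ℝ) ^ 2) := fun Q hQ i => by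
    refine bx_decay (h.pin Q i).1 h.W.pos0 h.σ (h.adj_ne i) ha0 h.Npos ?_
      (Rs_abs (Fintype.mem_piFinset.1 hQ i))
    rw [hσ, ← mul_div_assoc, le_div_iff₀ hκ, mul_right_comm]
    refine mul_le_mul_of_nonneg_right ?_ (sq_nonneg _)
    rw [ha, div_mul_eq_mul_div, div_mul_eq_mul_div, div_le_iff₀ (by positivity)]
    have := hcard i
    have h2 : 0 ≤ π ^ 2 * κ := by positivity
    nlinarith [mul_le_mul_of_nonneg_left this h2]
  have hb0 : ∀ Q, 0 < b Q := fun Q => prod_pos fun _ _ => exp_pos _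
  have hb1 : ∀ Q, b Q ≤ 1 := fun Q => prod_le_one (fun _ _ => (exp_pos _).le) fun i _ =>
    exp_le_one_iff.2 (by nlinarith [sq_nonneg (Q i : ℝ)])
  have hxb : ∀ Q ∈ P, x Q ≤ Th a * b Q ^ 2 := fun Q hQ => by
    rcases isEmpty_or_nonempty S.I with he | he
    · simp only [hb', univ_eq_empty, prod_empty, one_pow, mul_one]
      exact (h.rw.ph_le _).trans hC
    · obtain ⟨i, -, hi⟩ := exists_max_image univ (fun i => (Q i : ℝ) ^ 2) univ_nonempty
      refine ((h.pin Q i).2.trans (hdec Q hQ i)).trans (mul_le_mul_of_nonneg_left ?_ (by linarith))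
      simp only [hb']
      rw [← exp_sum, ← exp_nat_mul, exp_le_exp, ← mul_sum]
      have h1 := sum_le_card_nsmul univ _ _ hi
      have h2 : ((univ : Finset S.I).card : ℝ) ≤ m + 1 := by
        rw [card_univ]; exact_mod_cast hm.trans (Nat.le_succ m)
      rw [nsmul_eq_mul] at h1
      have h3 := h1.trans (mul_le_mul_of_nonneg_right h2 (sq_nonneg _))
      have h4 : a = 2 * a' * (m + 1) := by rw [ha']; field_simp
      push_cast
      nlinarith [mul_le_mul_of_nonneg_left h3 ha0'.le]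
  have hsb : ∑ Q ∈ P, b Q ≤ Sm := by
    rw [← prod_univ_sum (fun _ : S.I => Rs S.N) fun _ q => exp (-a' * (q : ℝ) ^ 2), prod_const, card_univ,
      hSm]
    exact (pow_le_pow_left₀ (sum_nonneg fun _ _ => (exp_pos _).le) (sum_le_Th ha0' _) _).trans
      (pow_le_pow_right₀ hT hm)
  have h0P : (0 : S.I → ℤ) ∈ P := Fintype.mem_piFinset.2 fun _ => zero_mem_Rs h.N
  have hx1 : x 0 = 1 := by
    have : ch ((ι → L) × (β → K)) S.N (0 : S.I → ℤ) = 0 := AddMonoidHom.ext fun p => by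
      simp [ch_apply]
    simp only [hx, this, h.rw.wt.Ph_zero]
  refine ⟨hD ▸ hx1 ▸ single_le_sum (fun Q _ => hx0 Q) h0P, ?_, ?_⟩
  · have h1 : D ≤ Th a * Sm := by
      rw [hD]
      refine (sum_le_sum fun Q hQ => (hxb Q hQ).trans (mul_le_mul_of_nonneg_left
        (pow_le_of_le_one (hb0 Q).le (hb1 Q) two_ne_zero) (by linarith))).trans ?_
      rw [← mul_sum]
      exact mul_le_mul_of_nonneg_left hsb (by linarith)
    have h2 : 0 ≤ D := hD ▸ sum_nonneg fun Q _ => hx0 Q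
    refine (mul_le_mul_of_nonneg_right (min_le_left _ _) h2).trans ?_
    rw [one_div, inv_mul_le_iff₀ (by positivity), mul_one]
    exact h1
  by_cases H : ∀ Q ∈ P, Q ≠ 0 → x Q ≤ ε
  · left
    rw [hD, ← add_sum_erase _ _ h0P]
    change x 0 + ∑ Q ∈ P.erase 0, x Q ≤ 2
    have h1 : ∑ Q ∈ P.erase 0, x Q ≤ ∑ Q ∈ P, b Q / Sm := by
      refine (sum_le_sum fun Q hQ => ?_).trans (sum_le_sum_of_subset_of_nonneg (erase_subset _ _)
        fun Q _ _ => by have := hb0 Q; positivity)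
      refine abs_le_of_sq_le_sq' ?_ (by have := hb0 Q; positivity) |>.2
      have h2 := mul_le_mul (H Q (mem_of_mem_erase hQ) (ne_of_mem_erase hQ))
        (hxb Q (mem_of_mem_erase hQ)) (hx0 Q) hε0.le
      refine (pow_two _).trans_le (h2.trans_eq ?_)
      rw [hε]; field_simp
    rw [← sum_div] at h1
    have h3 := h1.trans ((div_le_one (by linarith)).2 hsb)
    linarith
  right
  push Not at H
  obtain ⟨Q, hQ, hQ0, hε1⟩ := H
  obtain ⟨i, hi⟩ := Function.ne_iff.1 hQ0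
  obtain ⟨j₀, hj₀⟩ := h.adj_ne i
  have hlt := hε1.trans_le (h.pin Q i).2
  have hq : |(Q i : ℝ)| ≤ Th a / (a * ε) := by
    have h1 := hlt.trans_le (hdec Q hQ i)
    have h2 : a * (Q i : ℝ) ^ 2 + 1 ≤ exp (a * (Q i : ℝ) ^ 2) := add_one_le_exp _
    rw [neg_mul, exp_neg, ← div_eq_mul_inv, lt_div_iff₀ (exp_pos _)] at h1
    have h3 : |(Q i : ℝ)| ≤ (Q i : ℝ) ^ 2 := by
      have : (1 : ℝ) ≤ |(Q i : ℝ)| := by exact_mod_cast Int.one_le_abs hi
      rw [← sq_abs]; nlinarith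
    rw [le_div_iff₀ (by positivity)]
    nlinarith [mul_le_mul_of_nonneg_left h2 hε0.le, mul_le_mul_of_nonneg_left h3 (mul_pos ha0 hε0).le]
  by_contra hn
  refine hlt.not_ge ((bx_le h.W h.σ hj₀ (K := K₁) (A := ε') (by linarith) hε0'.le hVb
    (fun j => hV _ _) _ fun ζ hζ => ?_).trans ?_)
  · by_contra hc
    refine hn ⟨-Q i, ∑ j ∈ (S.adj i.1).erase j₀, (ζ j * √κ) •
      (Pi.single (S.sid i.1 j) 1 - Pi.single (S.sid i.1 j₀) 1) -
        (2 * π * Q i) • Pi.single (S.sid i.1 j₀) 1, neg_ne_zero.2 hi, fun d => ?_, ?_, ?_⟩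
    · have hs : ∀ d' : Fin 4, 0 ≤ (Pi.single d' 1 : Fin 4 → ℝ) d ∧ (Pi.single d' 1 : Fin 4 → ℝ) d ≤ 1 :=
        fun d' => by rw [Pi.single_apply]; split_ifs <;> norm_num
      rw [Pi.sub_apply, Finset.sum_apply]
      refine (abs_sub _ _).trans (add_le_add ((abs_sum_le_sum_abs _ _).trans
        ((sum_le_card_nsmul _ _ (K₁ * √κ) fun j _ => ?_).trans ?_)) ?_)
      · rw [Pi.smul_apply, smul_eq_mul, abs_mul, abs_mul, abs_of_nonneg (Real.sqrt_nonneg κ)]
        refine (mul_le_of_le_one_right (by positivity) ?_).trans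
          (mul_le_mul_of_nonneg_right (hζ j) (Real.sqrt_nonneg κ))
        rw [Pi.sub_apply, abs_le]
        constructor <;> linarith [hs (S.sid i.1 j), hs (S.sid i.1 j₀)]
      · rw [nsmul_eq_mul]
        refine mul_le_mul_of_nonneg_right (le_trans ?_ (hcard i)) (by positivity)
        exact_mod_cast card_erase_le
      · rw [Pi.smul_apply, smul_eq_mul, abs_mul, abs_mul, abs_of_pos (by positivity : 0 < 2 * π),
          abs_of_nonneg (hs _).1]
        exact (mul_le_of_le_one_right (by positivity) (hs _).2).trans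
          (mul_le_mul_of_nonneg_left hq (by positivity))
    · simp only [Pi.sub_apply, Finset.sum_apply, Pi.smul_apply, smul_eq_mul, sum_sub_distrib]
      rw [sum_comm]
      simp [← mul_sum]
    · refine (min_le_right _ _).trans ((not_le.1 hc).le.trans_eq ?_)
      congr 1
      have hs : √S.σ = S.N / √κ := by
        rw [hσ, Real.sqrt_div (sq_nonneg _), Real.sqrt_sq hN.le]
      have hk := Real.sqrt_pos.2 hκ
      simp only [map_sub, map_sum, map_smul, S.sdF_single, ← smul_sub, smul_smul, hs]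
      congr 2
      funext j
      congr 1
      field_simp
  · have h1 : ((S.adj i.1).card : ℝ) / K₁ ^ 2 ≤ ε' := by
      rw [div_le_iff₀ (by positivity)]
      have h2 : (nb : ℝ) ≤ ε' * K₁ := by rw [hK₁, mul_add, mul_div_cancel₀ _ hε0'.ne']; linarith
      nlinarith [hcard i, mul_le_mul_of_nonneg_left hK1 (by positivity : 0 ≤ ε' * K₁)]
    have h3 : exp ((S.adj i.1).card * (1 + Vb)) ≤ exp (nb * (1 + Vb)) :=
      exp_le_exp.2 (mul_le_mul_of_nonneg_right (hcard i) (by linarith))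
    refine (mul_le_mul (add_le_add_right h1 ε') h3 (exp_pos _).le (by positivity)).trans_eq ?_
    rw [hε', exp_neg]
    field_simp
    ring

end Crest.Agent.T145.Sec62
end

-- ▼ part T145/SecD_62

/-!
# Row 145, module (b), SEC (helper62), part D: the geometry; `secStmt`
-/

set_option autoImplicit false

namespace Crest.Agent.T145.Sec62

open Finset Real

/-- the points of the side `d` of `sq 0 l` -/
def pt (l : ℕ) : Fin 4 → ℕ → Pt :=
  ![fun j => ((l : ℤ) - 1, j), fun j => (0, j), fun j => (j, (l : ℤ) - 1), fun j => (j, 0)]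

theorem pt_mem {l j : ℕ} (hj : j < l) (d : Fin 4) : pt l d j ∈ sq 0 l := by
  fin_cases d <;> simp [pt, mem_sq] <;> omega

theorem pt_inj (l : ℕ) (d : Fin 4) {j j' : ℕ} (h : pt l d j = pt l d j') : j = j' := by
  fin_cases d <;> simpa [pt] using h

theorem sum_Ico_range (n : ℕ) (f : ℤ → ℝ) : ∑ j ∈ Ico (0 : ℤ) n, f j = ∑ j ∈ range n, f j := by
  refine sum_bij' (fun j _ => j.toNat) (fun j _ => (j : ℤ)) ?_ ?_ ?_ ?_ ?_
  · intro j hj; rw [mem_Ico] at hj; rw [mem_range]; omega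
  · intro j hj; rw [mem_range] at hj; rw [mem_Ico]; omega
  · intro j hj; rw [mem_Ico] at hj; omega
  · intro j _; simp
  · intro j hj; rw [mem_Ico] at hj; rw [Int.toNat_of_nonneg hj.1]

theorem sum_sd_mul {L : ℕ} (hL : 1 ≤ L) (d : Fin 4) (u : Pt → ℝ) :
    ∑ x ∈ sq 0 L, sd L d x * u x = (∑ j ∈ range L, u (pt L d j)) / L := by
  have h1 : (0 : ℤ) ≤ L - 1 := by omega
  have h2 : (L : ℤ) - 1 < L := by omega
  have h3 : (0 : ℤ) < L := by omega
  rw [sq_eq_rc]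
  fin_cases d
  · exact (sum_mul_col h1 h2 u).trans (by rw [sum_Ico_range]; rfl)
  · exact (sum_mul_col le_rfl h3 u).trans (by rw [sum_Ico_range]; rfl)
  · exact (sum_mul_row h1 h2 u).trans (by rw [sum_Ico_range]; rfl)
  · exact (sum_mul_row le_rfl h3 u).trans (by rw [sum_Ico_range]; rfl)

theorem pr_sd {L : ℕ} (hL : 1 ≤ L) (d : Fin 4) (s : Cfg Pt) :
    pr (sd L d) s = (∑ j ∈ range L, (s (pt L d j) : ℝ)) / L := by
  rw [pr_of_fsupp _ s (sup_sd hL d), sum_sd_mul hL]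

theorem sum_range_mul' (W l : ℕ) (g : ℕ → ℝ) :
    ∑ j ∈ range (W * l), g j = ∑ t ∈ range W, ∑ j ∈ range l, g (l * t + j) := by
  induction W with
  | zero => simp
  | succ W ih => rw [add_mul, one_mul, sum_range_add, ih, sum_range_succ, mul_comm W l]

theorem tile_pt (W l t j : ℕ) (d : Fin 4) :
    tile 0 l (pt W d t) + pt l d j = pt (W * l) d (l * t + j) := by
  fin_cases d <;> simp [pt, tile] <;> ring

theorem tileOf_add {l : ℕ} (i : Pt) {y : Pt} (hy : y ∈ sq 0 l) : tileOf 0 l (tile 0 l i + y) = i := by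
  rw [mem_sq] at hy
  have hl : 0 < l := by simp only [Prod.fst_zero] at hy; omega
  rw [← mem_tile_iff hl, mem_sq]
  simp only [Prod.fst_zero, Prod.snd_zero, Prod.fst_add, Prod.snd_add] at hy ⊢
  omega

theorem tile_add_mem {W l : ℕ} {i y : Pt} (hi : i ∈ sq 0 W) (hy : y ∈ sq 0 l) :
    tile 0 l i + y ∈ sq 0 (W * l) := by
  have hl : 0 < l := by rw [mem_sq] at hy; simp only [Prod.fst_zero] at hy; omega
  rw [← tileOf_mem hl, tileOf_add i hy]; exact hi

/-- the seams -/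
noncomputable def Bd (W : ℕ) : Finset (Fin 2 × Pt) :=
  (univ ×ˢ sq 0 W).filter fun b => b.2 + ev b.1 ∈ sq 0 W

theorem mem_Bd {W : ℕ} {b : Fin 2 × Pt} : b ∈ Bd W ↔ b.2 ∈ sq 0 W ∧ b.2 + ev b.1 ∈ sq 0 W := by
  simp [Bd]

def dpF : Fin 2 → Fin 4 := ![0, 2]
def dmF : Fin 2 → Fin 4 := ![1, 3]

/-- the edge `j` of the seam `b` -/
def se (l : ℕ) (b : Fin 2 × Pt) (j : ℕ) : Pt × Pt :=
  (tile 0 l b.2 + pt l (dpF b.1) j, tile 0 l (b.2 + ev b.1) + pt l (dmF b.1) j)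

theorem se_sub (l : ℕ) (b : Fin 2 × Pt) (j : ℕ) : (se l b j).2 - (se l b j).1 = ev b.1 := by
  obtain ⟨u, i⟩ := b
  fin_cases u <;> simp [se, tile, pt, dpF, dmF, ev] <;> ring

theorem ev_ne (u : Fin 2) : ev u ≠ 0 := by fin_cases u <;> simp [ev]

theorem ev_inj {u u' : Fin 2} (h : ev u = ev u') : u = u' := by
  fin_cases u <;> fin_cases u' <;> simp [ev] at h ⊢

/-- the spring system of the `W × W` boxes of side `l` -/
noncomputable def sys (Λ : Lat) {W : ℕ} (hW : 1 ≤ W) (l : ℕ) (κ : ℝ) :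
    Sys (sq 0 W) (Bd W) (Cfg Pt) (Fin l → ℤ) where
  o := ⟨0, self_mem_sq 0 hW⟩
  src b := ⟨b.1.2, (mem_Bd.1 b.2).1⟩
  tgt b := ⟨b.1.2 + ev b.1.1, (mem_Bd.1 b.2).2⟩
  dp b := dpF b.1.1
  dm b := dmF b.1.1
  W := Λ.WN l
  V k := ∏ j, Λ.w (k j)
  A d := (2 : ℤ) • ∑ j ∈ range l, evZ (pt l d j)
  B := (2 : ℤ) • ∑ j, Pi.evalAddMonoidHom (fun _ => ℤ) j
  N := 2 * l
  σ := ((2 * l : ℕ) : ℝ) ^ 2 / κ

variable {Λ : Lat} {W l : ℕ} {κ : ℝ}

theorem sys_A (hW : 1 ≤ W) (d : Fin 4) (s : Cfg Pt) :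
    (sys Λ hW l κ).A d s = 2 * ∑ j ∈ range l, s (pt l d j) := by
  simp [sys, AddMonoidHom.finsetSum_apply]

theorem sys_B (hW : 1 ≤ W) (k : Fin l → ℤ) : (sys Λ hW l κ).B k = 2 * ∑ j, k j := by
  simp [sys, AddMonoidHom.finsetSum_apply]

theorem sys_ok (hΛ : Λ.Ok) (hW : 1 ≤ W) (hl : 1 ≤ l) (hκ : 0 < κ) : (sys Λ hW l κ).Ok where
  W := hΛ.cen_WN hl
  V := RW.pi fun _ => RW.of_cen hΛ.fam.cen
  ne b h := ev_ne b.1.1 (by simpa [sys] using h)
  N := by simp only [sys]; omega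
  σ := by simp only [sys]; positivity
  conn n h0 h := by
    have st : ∀ (u : Fin 2) (x y : Pt) (hx : x ∈ sq 0 W) (hy : y ∈ sq 0 W), y = x + ev u →
        n ⟨x, hx⟩ = 0 → n ⟨y, hy⟩ = 0 := by
      rintro u x y hx hy rfl e
      exact (h ⟨(u, x), mem_Bd.2 ⟨hx, hy⟩⟩).trans e
    have k1 : ∀ (b : ℕ) (hx : ((0 : ℤ), (b : ℤ)) ∈ sq 0 W), n ⟨_, hx⟩ = 0 := fun b => by
      induction b with
      | zero => exact fun _ => h0
      | succ b ih =>
        intro hx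
        have hx' : ((0 : ℤ), (b : ℤ)) ∈ sq 0 W := by
          rw [mem_sq] at hx ⊢; simp only [Prod.fst_zero, Prod.snd_zero] at hx ⊢; omega
        exact st 1 _ _ hx' hx (by simp [ev]) (ih hx')
    have k2 : ∀ (a b : ℕ) (hx : ((a : ℤ), (b : ℤ)) ∈ sq 0 W), n ⟨_, hx⟩ = 0 := fun a b => by
      induction a with
      | zero => exact k1 b
      | succ a ih =>
        intro hx
        have hx' : ((a : ℤ), (b : ℤ)) ∈ sq 0 W := by
          rw [mem_sq] at hx ⊢; simp only [Prod.fst_zero, Prod.snd_zero] at hx ⊢; omega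
        exact st 0 _ _ hx' hx (by simp [ev]) (ih hx')
    funext ⟨⟨a, b⟩, hx⟩
    have := mem_sq.1 hx
    simp only [Prod.fst_zero, Prod.snd_zero] at this
    lift a to ℕ using this.1.1
    lift b to ℕ using this.2.1
    exact k2 a b hx

theorem sys_cR (hW : 1 ≤ W) (hl : 1 ≤ l) (d : Fin 4) :
    cR ((sys Λ hW l κ).A d) = ((2 * l : ℕ) : ℝ) • pr (sd l d) := AddMonoidHom.ext fun s => by
  have : (l : ℝ) ≠ 0 := by positivity
  rw [cR_apply, sys_A, AddMonoidHom.smul_apply, pr_sd hl, smul_eq_mul]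
  push_cast; field_simp

theorem sys_sdF (hW : 1 ≤ W) (hl : 1 ≤ l) (g : Fin 4 → ℝ) :
    (sys Λ hW l κ).sdF g = pr (side l g) := by
  have : ((2 * l : ℕ) : ℝ) ≠ 0 := by positivity
  rw [pr_side, Sys.sdF, Fintype.linearCombination_apply]
  refine sum_congr rfl fun d _ => ?_
  rw [sys_cR hW hl, smul_smul (_⁻¹)]
  simp only [sys]
  rw [inv_mul_cancel₀ this, one_smul]

theorem sys_V (hΛ : Λ.Ok) (hW : 1 ≤ W) (ζ : ℝ) :
    exp (-(4 * l * Λ.τ * ζ ^ 2) / 2) ≤ Ph (sys Λ hW l κ).V (ζ • cR (sys Λ hW l κ).B) := by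
  have e : ζ • cR (sys Λ hW l κ).B = piH fun _ => zH (2 * ζ) := AddMonoidHom.ext fun k => by
    rw [AddMonoidHom.smul_apply, cR_apply, sys_B, piH_apply]
    simp only [zH_apply, smul_eq_mul, ← mul_sum]
    push_cast; ring
  rw [e]
  refine le_of_le_of_eq ?_ (ph_pi (fun _ => RW.of_cen hΛ.fam.cen) _).symm
  refine le_trans (le_of_eq ?_) (prod_le_prod (fun _ _ => (exp_pos _).le)
    fun _ _ => ph_kern Λ.xy hΛ.pos (2 * ζ))
  rw [prod_const, ← exp_nat_mul, card_univ, Fintype.card_fin]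
  congr 1; ring

theorem vr_sd (hΛ : Λ.Ok) (hl : 1 ≤ l) (d d' : Fin 4) :
    Vr (Λ.WN l) (pr (sd l d) - pr (sd l d')) (pr (sd l d) - pr (sd l d')) ≤
      Λ.τ * (Λ.J.card * 144) := by
  have h := ((hΛ.fs_sd hl d).sub (hΛ.fs_sd hl d')).f2
  rw [sub_sub_sub_cancel_right] at h
  rw [← pr_sub]
  refine (hΛ.vr_WN hl h).trans (mul_le_mul_of_nonneg_left ?_ hΛ.pos.le)
  have h1 : ((Λ.edI (sq 0 l)).card : ℝ) ≤ (l : ℝ) ^ 2 * Λ.J.card := by
    have := (card_edI_le Λ (sq 0 l)).trans (Nat.mul_le_mul_left _ (card_filter_le Λ.J posD))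
    rw [card_sq] at this
    exact_mod_cast this
  have : (l : ℝ) ≠ 0 := by positivity
  refine (mul_le_mul_of_nonneg_right h1 (sq_nonneg _)).trans_eq ?_
  field_simp; ring

/-! ### fluxes -/

/-- outward direction -/
def dir : Fin 4 → Pt := ![(1, 0), (-1, 0), (0, 1), (0, -1)]

theorem flux_pt {i₀ : Pt} {f : Pt → Fin 4 → ℝ} (hf : Flux W i₀ f) {i : Pt} (hi : i ∈ sq 0 W)
    (d : Fin 4) : if i + dir d ∈ sq 0 W then sd W d i = 0 else f i d = π / 2 * sd W d i := by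
  obtain ⟨-, h1, h2, h3, h4⟩ := hf.2.2 i hi
  have hm := mem_sq.1 hi
  simp only [Prod.fst_zero, Prod.snd_zero] at hm
  have k : ∀ p : Prop, p → π / (2 * W) = π / 2 * (ind p / W) := fun p hp => by rw [ind_pos hp]; ring
  have k0 : ∀ p : Prop, ¬ p → ind p / (W : ℝ) = 0 := fun p hp => by rw [ind_neg hp, zero_div]
  split_ifs with h
  · rw [mem_sq] at h
    fin_cases d <;> refine k0 _ ?_ <;> simp [dir] at h <;> omega
  · fin_cases d
    · have h' : i + (1, 0) ∉ sq 0 W := h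
      rw [if_neg h'] at h1
      rw [mem_sq] at h'
      exact h1.trans (k _ (by simp at h'; omega))
    · rw [mem_sq] at h
      have : i.1 = 0 := by simp [dir] at h; omega
      exact (h3 this).trans (k _ (by omega))
    · have h' : i + (0, 1) ∉ sq 0 W := h
      rw [if_neg h'] at h2
      rw [mem_sq] at h'
      exact h2.trans (k _ (by simp at h'; omega))
    · rw [mem_sq] at h
      have : i.2 = 0 := by simp [dir] at h; omega
      exact (h4 this).trans (k _ (by omega))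

theorem sum_shift (W : ℕ) (v : Pt) (g : Pt → ℝ) :
    ∑ i ∈ (sq 0 W).filter (fun i => i + v ∈ sq 0 W), g (i + v) =
      ∑ i ∈ (sq 0 W).filter (fun i => i + -v ∈ sq 0 W), g i := by
  refine sum_bij' (fun i _ => i + v) (fun i _ => i + -v) ?_ ?_ ?_ ?_ ?_ <;> simp +contextual

theorem sum_Bd (W : ℕ) (g : Pt → Fin 4 → ℝ) :
    ∑ b ∈ Bd W, (g (b.2 + ev b.1) (dmF b.1) + g b.2 (dpF b.1)) =
      ∑ i ∈ sq 0 W, ∑ d, if i + dir d ∈ sq 0 W then g i d else 0 := by
  rw [Bd, sum_filter, sum_product, sum_comm (s := sq 0 W), Fin.sum_univ_two, Fin.sum_univ_four]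
  simp only [← sum_filter, sum_add_distrib]
  rw [sum_shift W _ fun i => g i (dmF 0), sum_shift W _ fun i => g i (dmF 1)]
  exact (show ∀ a b c d : ℝ, a + b + (c + d) = b + a + d + c from fun _ _ _ _ => by ring) _ _ _ _

theorem fx (hW : 1 ≤ W) {i₀ : Pt} {f : Pt → Fin 4 → ℝ} (hf : Flux W i₀ f) :
    (sys Λ hW l κ).Fx (fun i d => π / 2 * sd W d i) (fun i => f i) ⟨i₀, hf.1⟩ where
  id u := by
    let u' : Pt → Fin 4 → ℝ := fun x => if h : x ∈ sq 0 W then u ⟨x, h⟩ else 0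
    have hu : ∀ i : sq 0 W, u i = u' i := fun i => by simp [u']
    have H := sum_Bd W fun i d => f i d * u' i d
    rw [← sum_coe_sort, ← sum_coe_sort (sq 0 W)] at H
    simp only [hu]
    refine Eq.trans ?_ (congrArg _ H.symm)
    rw [← sum_add_distrib]
    refine sum_congr rfl fun i _ => ?_
    rw [← sum_add_distrib]
    refine sum_congr rfl fun d _ => ?_
    have := flux_pt hf i.2 d
    split_ifs at this ⊢ <;> simp [this]
  opp b := by
    obtain ⟨⟨u, i⟩, hb⟩ := b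
    obtain ⟨hi, hi'⟩ := mem_Bd.1 hb
    obtain ⟨-, h1, h2, -⟩ := hf.2.2 i hi
    fin_cases u
    · rw [if_pos (show i + (1, 0) ∈ sq 0 W from hi')] at h1; exact eq_neg_of_add_eq_zero_left h1
    · rw [if_pos (show i + (0, 1) ∈ sq 0 W from hi')] at h2; exact eq_neg_of_add_eq_zero_left h2
  chg i := by
    split_ifs with h
    · simp only [h, hf.2.1, sum_const, card_univ, Fintype.card_fin, nsmul_eq_mul]
      push_cast; ring
    · exact (hf.2.2 i i.2).1 fun e => h (Subtype.ext e)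
  pos i d := by
    have := flux_pt hf i.2 d
    split_ifs at this
    · simp [this]
    · rw [this]; exact mul_self_nonneg _

/-! ### the true model -/

/-- the box `i`, translated to the origin and rooted -/
noncomputable def boxH (l : ℕ) (i : Pt) : Cfg Pt →+ Cfg Pt :=
  ∑ y ∈ sq 0 l, (Finsupp.singleAddHom y).comp (evZ (tile 0 l i + y) - evZ (tile 0 l i))

theorem boxH_apply (l : ℕ) (i : Pt) (s : Cfg Pt) (y : Pt) :
    boxH l i s y = if y ∈ sq 0 l then s (tile 0 l i + y) - s (tile 0 l i) else 0 := by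
  simp [boxH, AddMonoidHom.finsetSum_apply, Finsupp.single_apply]
  split_ifs <;> simp

theorem WN_boxH (i : Pt) (s : Cfg Pt) : Λ.WN l (boxH l i s) =
    ∏ e : Λ.edI (sq 0 l), Λ.w (dE (tile 0 l i + e.1.1, tile 0 l i + e.1.2) s) := by
  rw [prod_coe_sort _ fun e : Pt × Pt => Λ.w (dE (tile 0 l i + e.1, tile 0 l i + e.2) s), Lat.WN,
    Mdl.W_of_eq]
  · simp only [Lat.Nr, Lat.N, Mdl.free, prod_const_one, mul_one]
    refine prod_congr rfl fun e he => ?_
    obtain ⟨-, h1, h2⟩ := Lat.mem_edI.1 he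
    simp [dE, boxH_apply, h1, h2]
  · intro x hx
    simp only [Lat.Nr, Mdl.free, mem_erase, not_and_or, not_not] at hx
    rcases hx with rfl | hx <;> simp [boxH_apply, *]

/-- boxes, seam gradients and levels of a configuration -/
noncomputable def Φ (Λ : Lat) (hW : 1 ≤ W) (l : ℕ) (κ : ℝ) : Cfg Pt →+
    ((sq 0 W → Cfg Pt) × (Bd W → Fin l → ℤ)) × ((sys Λ hW l κ).I → ℤ) :=
  AddMonoidHom.mk' (fun s => ((fun i => boxH l i s, fun b j => dE (se l b j) s),
    fun i => s (tile 0 l i.1))) fun s t => by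
      refine Prod.ext (Prod.ext ?_ ?_) rfl
      · funext i; simp
      · funext b j; simp [dE_add]

theorem ext_Φ (hW : 1 ≤ W) {s : Cfg Pt} (hs : s 0 = 0) (i : sq 0 W) :
    (sys Λ hW l κ).ext (sc _ _ (2 * l) (Φ Λ hW l κ s)).2 i = 2 * l * s (tile 0 l i) := by
  unfold Sys.ext
  split_ifs with h
  · rw [h]; simp [sys, tile, show ((0, 0) : Pt) = 0 from rfl, hs]
  · simp [sc_apply, Φ]

theorem A_Φ (hW : 1 ≤ W) {s : Cfg Pt} (hs : s 0 = 0) (i : sq 0 W) (d : Fin 4) :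
    (sys Λ hW l κ).A d (boxH l i s) + (sys Λ hW l κ).ext (sc _ _ (2 * l) (Φ Λ hW l κ s)).2 i =
      2 * ∑ j ∈ range l, s (tile 0 l i + pt l d j) := by
  rw [ext_Φ hW hs, sys_A, sum_congr rfl fun j hj => by
    rw [boxH_apply, if_pos (pt_mem (mem_range.1 hj) d)], sum_sub_distrib]
  simp; ring

/-- the edges kept -/
def emb (Λ : Lat) (W l : ℕ) : (sq 0 W × Λ.edI (sq 0 l)) ⊕ (Bd W × Fin l) → Pt × Pt :=
  Sum.elim (fun p => (tile 0 l p.1 + p.2.1.1, tile 0 l p.1 + p.2.1.2)) fun p => se l p.1 p.2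

theorem emb_mem (hΛ : Λ.Ok) (t : (sq 0 W × Λ.edI (sq 0 l)) ⊕ (Bd W × Fin l)) :
    emb Λ W l t ∈ Λ.edI (sq 0 (W * l)) := by
  rw [Lat.mem_edI]
  rcases t with ⟨i, e, he⟩ | ⟨⟨b, hb⟩, j⟩
  · obtain ⟨h0, h1, h2⟩ := Lat.mem_edI.1 he
    exact ⟨by simpa [emb] using h0, tile_add_mem i.2 h1, tile_add_mem i.2 h2⟩
  · refine ⟨?_, tile_add_mem (mem_Bd.1 hb).1 (pt_mem j.2 _), tile_add_mem (mem_Bd.1 hb).2 (pt_mem j.2 _)⟩
    simp only [emb, Sum.elim_inr, se_sub]
    obtain ⟨u, i⟩ := b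
    fin_cases u
    exacts [hΛ.e1, hΛ.e2]

theorem emb_inj : Function.Injective (emb Λ W l) := by
  have k : ∀ (p : sq 0 W × Λ.edI (sq 0 l)) (q : Bd W × Fin l),
      emb Λ W l (.inl p) ≠ emb Λ W l (.inr q) := fun p q h => by
    obtain ⟨-, h1, h2⟩ := Lat.mem_edI.1 p.2.2
    have e1 := congrArg (fun e => tileOf 0 l e.1) h
    have e2 := congrArg (fun e => tileOf 0 l e.2) h
    simp only [emb, Sum.elim_inl, Sum.elim_inr, se, tileOf_add _ h1, tileOf_add _ h2,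
      tileOf_add _ (pt_mem q.2.2 _)] at e1 e2
    exact ev_ne q.1.1.1 (by simpa [e1] using e2)
  rintro (p | q) (p' | q') h
  · obtain ⟨-, h1, -⟩ := Lat.mem_edI.1 p.2.2
    obtain ⟨-, h1', -⟩ := Lat.mem_edI.1 p'.2.2
    have e1 := congrArg (fun e => tileOf 0 l e.1) h
    simp only [emb, Sum.elim_inl, tileOf_add _ h1, tileOf_add _ h1'] at e1
    simp only [emb, Sum.elim_inl, e1, Prod.mk.injEq, add_right_inj] at h
    exact congrArg _ (Prod.ext (Subtype.ext e1) (Subtype.ext (Prod.ext h.1 h.2)))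
  · exact (k _ _ h).elim
  · exact (k _ _ h.symm).elim
  · have e0 := congrArg (fun e => e.2 - e.1) h
    have e1 := congrArg (fun e => tileOf 0 l e.1) h
    simp only [emb, Sum.elim_inr, se_sub] at e0
    simp only [emb, Sum.elim_inr, se, tileOf_add _ (pt_mem q.2.2 _), tileOf_add _ (pt_mem q'.2.2 _)] at e1
    have e2 := ev_inj e0
    have e3 := congrArg Prod.fst h
    simp only [emb, Sum.elim_inr, se, e1, e2, add_right_inj] at e3
    exact congrArg _ (Prod.ext (Subtype.ext (Prod.ext e2 e1)) (Fin.ext (pt_inj _ _ e3)))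

theorem glue (hΛ : Λ.Ok) (hW : 1 ≤ W) (hl : 1 ≤ l) (hκ : 0 < κ) :
    Ph (fun p => (sys Λ hW l κ).ρ (sc _ _ (2 * l) p))
      (((sys Λ hW l κ).Ξ fun i d => π / 2 * sd W d i).comp (sc _ _ (2 * l))) ≤ Λ.Y (W * l) := by
  have hS := sys_ok (κ := κ) hΛ hW hl hκ
  set A := (sq (0 : Pt) (W * l)).erase 0 with hA
  have hφ : ∀ s : Cfg Pt, (AddMonoidHom.id _ - resH A : Cfg Pt →+ Cfg Pt) s = 0 ↔ ∀ x, x ∉ A → s x = 0 := fun s => by
    simp only [AddMonoidHom.sub_apply, AddMonoidHom.id_apply, Finsupp.ext_iff, Finsupp.sub_apply,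
      resH_apply, Finsupp.zero_apply]
    exact forall_congr' fun x => by split_ifs with h <;> simp [h]
  obtain ⟨hR, H⟩ := (hS.rw.comp _ (sc_inj hS.Npos)).ph_sub2 (Φ Λ hW l κ)
    (AddMonoidHom.id _ - resH A) (fun s h1 h2 => by
      rw [hφ] at h2
      have h0 : s 0 = 0 := h2 0 (notMem_erase _ _)
      ext x
      by_cases hx : x ∈ sq 0 (W * l)
      · have hi := (tileOf_mem (k := W) hl).2 hx
        have hy : x - tile 0 l (tileOf 0 l x) ∈ sq 0 l := by
          have := mem_sq.1 ((mem_tile_iff hl).2 (rfl : tileOf 0 l x = _))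
          rw [mem_sq]
          simp only [Prod.fst_zero, Prod.snd_zero, Prod.fst_sub, Prod.snd_sub]
          omega
        have e1 := ext_Φ (Λ := Λ) (l := l) (κ := κ) hW h0 ⟨_, hi⟩
        have e2 := congrArg (fun p => p.1.1 ⟨_, hi⟩ (x - tile 0 l (tileOf 0 l x))) h1
        rw [h1, map_zero] at e1
        have e3 : s (tile 0 l (tileOf 0 l x)) = 0 := by
          have : (0 : ℤ) = 2 * l * s (tile 0 l (tileOf 0 l x)) := by
            rw [← e1]; unfold Sys.ext; split_ifs <;> rfl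
          exact (mul_eq_zero.1 this.symm).resolve_left (by omega)
        simpa [Φ, boxH_apply, hy, e3] using e2
      · exact h2 x fun h => hx (mem_of_mem_erase h))
    (((sys Λ hW l κ).Ξ fun i d => π / 2 * sd W d i).comp (sc _ _ (2 * l)))
  have hw := hΛ.fam
  set R := Λ.edI (sq 0 (W * l)) \ univ.image (emb Λ W l)
  have H2 := hR.ex_mul (G := fun s => ∏ e ∈ R, Λ.w (dE e s))
    (PD.prod fun e _ => hw.pd.comp (dH e)) (fun s => prod_nonneg fun e _ => hw.nonneg _)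
    (prod_pos fun e _ => hw.pos _) (pd_cos (((((sys Λ hW l κ).Ξ fun i d => π / 2 * sd W d i).comp
      (sc _ _ (2 * l)))).comp (Φ Λ hW l κ)))
  refine (H.trans H2).trans_eq ?_
  have e : (fun s => ind ((AddMonoidHom.id _ - resH A : Cfg Pt →+ Cfg Pt) s = 0) *
      (sys Λ hW l κ).ρ (sc _ _ (sys Λ hW l κ).N (Φ Λ hW l κ s)) * ∏ e ∈ R, Λ.w (dE e s)) =
      Λ.WN (W * l) := by
    funext s
    by_cases hs : ∀ x, x ∉ A → s x = 0
    · have h0 : s 0 = 0 := hs 0 (notMem_erase _ _)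
      rw [ind_pos ((hφ s).2 hs), one_mul, Lat.WN, Mdl.W_of_eq _ hs]
      simp only [Lat.Nr, Lat.N, Mdl.free, prod_const_one, mul_one]
      rw [← prod_sdiff (s₁ := univ.image (emb Λ W l)) (s₂ := Λ.edI (sq 0 (W * l))) fun e he => by
        obtain ⟨t, -, rfl⟩ := mem_image.1 he; exact emb_mem hΛ t, mul_comm,
        prod_image fun _ _ _ _ h => emb_inj h, Fintype.prod_sum_type, Fintype.prod_prod_type,
        Fintype.prod_prod_type, Sys.ρ, Sys.U, Sys.ψ_apply, prod_eq_one (f := fun b => gau _ _), mul_one]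
      · congr 2
        exact prod_congr rfl fun i _ => WN_boxH i s
      · intro b _
        have e1 := A_Φ (Λ := Λ) (l := l) (κ := κ) hW h0 ((sys Λ hW l κ).tgt b) ((sys Λ hW l κ).dm b)
        have e2 := A_Φ (Λ := Λ) (l := l) (κ := κ) hW h0 ((sys Λ hW l κ).src b) ((sys Λ hW l κ).dp b)
        have e3 : (sys Λ hW l κ).B (fun j => dE (se l b j) s) =
            2 * ∑ j ∈ range l, s (se l b j).2 - 2 * ∑ j ∈ range l, s (se l b j).1 := by
          rw [sys_B, Fin.sum_univ_eq_sum_range fun j => dE (se l b j) s, ← mul_sub, ← sum_sub_distrib]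
          rfl
        refine Eq.trans (congrArg _ ?_) (by simp [gau] : gau (sys Λ hW l κ).σ 0 = 1)
        exact (show ∀ a b c d e x y : ℤ, a + d = x → b + e = y → c = x - y → a - b - c + (d - e) = 0
          from fun _ _ _ _ _ _ _ h1 h2 h3 => by omega) _ _ _ _ _ _ _ e1 e2 e3
    · rw [ind_neg (mt (hφ s).1 hs), zero_mul, zero_mul]
      by_contra hn
      exact hs fun x hx => Mdl.W_ne_zero (Ne.symm hn) hx
  rw [e]
  refine Ex_congr fun s hs => ?_
  have h0 : s 0 = 0 := Mdl.W_ne_zero hs (notMem_erase _ _)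
  have hWl : 1 ≤ W * l := Nat.mul_pos hW hl
  congr 1
  rw [AddMonoidHom.comp_apply, AddMonoidHom.comp_apply, Sys.Ξ_apply, pr_side,
    AddMonoidHom.finsetSum_apply, sum_comm]
  refine sum_congr rfl fun d _ => ?_
  have e4 : ∀ i : sq 0 W, (((sys Λ hW l κ).A d ((sc _ _ (2 * l) (Φ Λ hW l κ s)).1.1 i) : ℝ) +
      (sys Λ hW l κ).ext (sc _ _ (2 * l) (Φ Λ hW l κ s)).2 i) =
      2 * ∑ j ∈ range l, (s (tile 0 l i + pt l d j) : ℝ) := fun i => by
    exact_mod_cast A_Φ (Λ := Λ) (l := l) (κ := κ) hW h0 i d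
  simp only [e4, mul_assoc, ← mul_sum]
  rw [sum_coe_sort (sq 0 W) fun i => sd W d i * (((sys Λ hW l κ).N : ℝ)⁻¹ *
      (2 * ∑ j ∈ range l, (s (tile 0 l i + pt l d j) : ℝ))), sum_sd_mul hW, AddMonoidHom.smul_apply,
    pr_sd hWl, smul_eq_mul, sum_range_mul', ← mul_sum, ← mul_sum]
  simp only [tile_pt, sys]
  have : (l : ℝ) ≠ 0 := by positivity
  have : (W : ℝ) ≠ 0 := by positivity
  push_cast; field_simp

theorem sector (hΛ : Λ.Ok) (hW : 1 ≤ W) (hl : 1 ≤ l) (hκ : 0 < κ) {i₀ : Pt} {f : Pt → Fin 4 → ℝ}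
    (hf : Flux W i₀ f) {E : ℝ} (hE : (1 / κ + Λ.τ / l) * (∑ i ∈ sq 0 W, ∑ d, f i d ^ 2) / 4 +
      (∑ i ∈ (sq 0 W).erase i₀, Vr (Λ.WN l) (pr (side l (f i))) (pr (side l (f i)))) / 2 ≤ E) :
    exp (-E) * Λ.Y l ≤ Ph (sys Λ hW l κ).ρ (((sys Λ hW l κ).Ξ fun i d => π / 2 * sd W d i) +
      ch _ (sys Λ hW l κ).N ((sys Λ hW l κ).Qd ⟨i₀, hf.1⟩)) := by
  have hS := sys_ok (κ := κ) hΛ hW hl hκ
  have hl' : (0 : ℝ) < l := by exact_mod_cast hl
  refine le_trans ?_ (hS.num (by have := hΛ.pos; positivity) (sys_V hΛ hW) (fx hW hf))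
  have hC := hΛ.cen_WN hl
  have e : ((sys Λ hW l κ).σ + 4 * l * Λ.τ) / ((sys Λ hW l κ).N : ℝ) ^ 2 = 1 / κ + Λ.τ / l := by
    simp only [sys]; push_cast; field_simp; ring
  have e' : (sys Λ hW l κ).W = Λ.WN l := rfl
  simp only [sys_sdF hW hl, e, e']
  rw [prod_coe_sort (sq 0 W) fun i => Ph (Λ.WN l) (pr (side l (f i))),
    sum_coe_sort (sq 0 W) fun i => ∑ d, f i d ^ 2, ← mul_prod_erase _ _ hf.1,
    show f i₀ = fun _ => π / 2 from funext hf.2.1, mul_comm, mul_assoc]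
  refine mul_le_mul_of_nonneg_left ?_ (hC.ph_pos _).le
  refine le_trans ?_ (mul_le_mul_of_nonneg_right (prod_le_prod (fun _ _ => (exp_pos _).le)
    fun i _ => hC.ph_ge (pr (side l (f i)))) (exp_pos _).le)
  rw [← exp_sum, ← exp_add, exp_le_exp, ← sum_div, sum_neg_distrib]
  linarith

end Crest.Agent.T145.Sec62

namespace Crest.Agent.T145

open Finset Real Sec62

theorem secStmt : SecStmt := by
  intro F W κ hW hκ
  obtain ⟨c, K, hc, H⟩ := den κ (κ * (|F.τ₂| * (F.J.card * 144))) hκ (by positivity)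
    (Fintype.card (Bd W)) (Fintype.card (sq (0 : Pt) W))
  refine ⟨c, K, hc, fun Λ hF l hl => ?_⟩
  have hΛ : Λ.Ok := ⟨hF.1 ▸ F.adm, F.pos.trans_le hF.2.2.1⟩
  have hS := sys_ok (κ := κ) hΛ hW hl hκ
  have hl' : (0 : ℝ) < l := by exact_mod_cast hl
  obtain ⟨h1, h2, h3⟩ := H (sys Λ hW l κ) hS rfl le_rfl (Fintype.card_subtype_le _) (fun d d' => by
    rw [sys_cR hW hl, sys_cR hW hl, ← smul_sub, Vr_smul_smul]
    have := (vr_sd hΛ hl d d').trans (mul_le_mul_of_nonneg_right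
      (hF.2.2.2.trans (le_abs_self _)) (by positivity))
    refine (mul_le_mul_of_nonneg_left this (sq_nonneg _)).trans_eq ?_
    simp only [sys, hF.1]
    field_simp) _ rfl
  set D := ∑ Q ∈ Fintype.piFinset fun _ : (sys Λ hW l κ).I => Rs (sys Λ hW l κ).N,
    Ph (sys Λ hW l κ).ρ (ch _ (sys Λ hW l κ).N Q)
  have hD : 0 < D := by linarith
  refine ⟨1 / D, by rwa [le_div_iff₀ hD], h3.imp (fun h => one_div_le_one_div_of_le hD h) fun h => ?_,
    fun I₀ E hI => ?_⟩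
  · simp only [sys_sdF hW hl] at h
    exact h
  have H := hS.main (fun i d => π / 2 * sd W d i) (I₀.subtype (· ∈ sq 0 W))
    (E := exp (-E) * Λ.Y l) fun i₀ hi => by
    obtain ⟨f, hf, hE⟩ := hI i₀ (mem_subtype.1 hi)
    exact sector hΛ hW hl hκ hf hE
  rw [card_subtype, filter_true_of_mem fun i hi => (hI i hi).choose_spec.1.1] at H
  have G := mul_le_mul_of_nonneg_left (glue hΛ hW hl hκ) hD.le
  rw [mul_assoc, mul_assoc, one_div, inv_mul_le_iff₀ hD]
  exact H.trans G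

end Crest.Agent.T145
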