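import Crest.Agent.T145.T1A_40
import Crest.Agent.T145.Route_51
import Crest.Agent.T145.CutC_7
import Crest.Agent.T145.Sm_58
import Crest.Agent.T145.T1a_53
import Crest.Agent.T145.RJ_57
import Crest.Agent.T145.Soft_23
import Crest.Agent.T145.GeoB_51
import Crest.Agent.T145.CorB_59

-- ▼ part T145/T1B_40
section

/-!
# Row 145, module (b) (helper40): T1 in one box, and the average over the shifts of the grid
-/

set_option autoImplicit false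

namespace Crest.Agent.T145.T140

open Finset Sl46

/-- one constant that bounds all the parameters of the lattice -/
structure Bd (Λ : Lat) (P : ℝ) : Prop where
  ok : Λ.Ok
  one : 1 ≤ P
  N : (Λ.Jp.card : ℝ) ≤ P
  r : (Λ.rg : ℝ) ≤ P
  t : Λ.τ ≤ P
  t' : Λ.τ⁻¹ ≤ P

theorem exists_bd (F : Fa) (c c' : ℝ) : ∃ P : ℝ, c ≤ P ∧ c' ≤ P ∧ 1 ≤ P ∧ ∀ Λ, F.Mem Λ → Bd Λ P := by
  obtain ⟨P, hP⟩ := (Set.toFinite ({c, c', 1, ((F.J.filter posD).card : ℝ),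
    (ProbabilityR.HeightModel.interactionRange F.J : ℝ), F.τ₂, F.τ₁⁻¹} : Set ℝ)).bddAbove
  refine ⟨P, hP (by simp), hP (by simp), hP (by simp), fun Λ h => ?_⟩
  have h0 := F.pos.trans_le h.2.2.1
  exact ⟨⟨h.1 ▸ F.adm, h0⟩, hP (by simp), hP (by simp [Lat.Jp, h.1]), hP (by simp [Lat.rg, h.1]),
    h.2.2.2.trans (hP (by simp)), (inv_anti₀ F.pos h.2.2.1).trans (hP (by simp))⟩

variable {Λ : Lat} {P : ℝ} {l : ℕ}

theorem card_filter_edI (D : Finset Pt) (p : Pt → Prop) [DecidablePred p] :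
    ((Λ.edI D).filter fun e => p e.1).card ≤ (D.filter p).card * Λ.Jp.card := by
  rw [← card_product]
  refine card_le_card_of_injOn (fun e => (e.1, e.2 - e.1)) (fun e he => ?_) fun e _ e' _ h => ?_
  · rw [mem_coe, mem_filter, Lat.mem_edI] at he
    exact mem_coe.2 (mem_product.2 ⟨mem_filter.2 ⟨he.1.2.1, he.2⟩, he.1.1⟩)
  · obtain ⟨h1, h2⟩ := Prod.mk.inj h
    rw [h1] at h2
    exact Prod.ext h1 (sub_left_injective h2)

theorem Bd.card_filter (h : Bd Λ P) (D : Finset Pt) (p : Pt → Prop) [DecidablePred p] :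
    (((Λ.edI D).filter fun e => p e.1).card : ℝ) ≤ (D.filter p).card * P :=
  (by exact_mod_cast card_filter_edI D p : _ ≤ ((D.filter p).card * Λ.Jp.card : ℝ)).trans
    (mul_le_mul_of_nonneg_left h.N (Nat.cast_nonneg _))

theorem Bd.card_edI (h : Bd Λ P) (D : Finset Pt) : ((Λ.edI D).card : ℝ) ≤ D.card * P := by
  simpa using h.card_filter D fun _ => True

theorem co_sub (i : Fin 2) (x y : Pt) : co i (x - y) = co i x - co i y := by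
  fin_cases i <;> simp [co]

theorem Bd.abs_co (h : Bd Λ P) {y : Pt} (hy : y ∈ Λ.Jp) (i : Fin 2) : |co i y| ≤ P := by
  have h1 := Lat.le_rg (Lat.mem_Jp.1 hy).1
  refine le_trans ?_ h.r
  fin_cases i
  · exact (by exact_mod_cast h1.1 : |(y.1 : ℝ)| ≤ Λ.rg)
  · exact (by exact_mod_cast h1.2 : |(y.2 : ℝ)| ≤ Λ.rg)

theorem Bd.abs_div (h : Bd Λ P) {x c : ℝ} (hx : |x| ≤ c) : |x / Λ.τ| ≤ c * P := by
  rw [div_eq_mul_inv, abs_mul, abs_of_pos (inv_pos.2 h.ok.pos)]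
  exact mul_le_mul hx h.t' (inv_pos.2 h.ok.pos).le ((abs_nonneg _).trans hx)

theorem Bd.abs_vfl (h : Bd Λ P) {a : Fin 2 → Pt → ℝ} {e : Pt × Pt} (he : e.2 - e.1 ∈ Λ.Jp) {κ : ℝ}
    (ha : ∀ i, |a i e.1| ≤ κ) : |vfl a e| ≤ 2 * (κ * P) := by
  refine (abs_sum_le_sum_abs _ _).trans ((sum_le_card_nsmul _ _ (κ * P) fun i _ => ?_).trans (by simp))
  rw [abs_mul]
  exact mul_le_mul (ha i) (h.abs_co he i) (abs_nonneg _) ((abs_nonneg _).trans (ha i))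

theorem Bd.abs_psi (h : Bd Λ P) {a : Fin 2 → Pt → ℝ} {e : Pt × Pt} (he : e.2 - e.1 ∈ Λ.Jp)
    {κ x : ℝ} (ha : ∀ i, |a i e.1| ≤ κ) (hx : |x| ≤ κ) :
    |vfl a e / Λ.τ + x| ≤ 3 * P ^ 2 * κ := by
  have h1 := h.abs_div (h.abs_vfl he ha)
  have h2 := mul_le_mul_of_nonneg_right (one_le_pow₀ h.one (n := 2)) ((abs_nonneg _).trans hx)
  linarith [abs_add_le (vfl a e / Λ.τ) x]

theorem X_eq (Λ : Lat) (l : ℕ) (i : Fin 2) :
    Λ.X l (co i) = fl (Λ.edI (sq 0 l)) fun e => co i (e.2 - e.1) / Λ.τ := by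
  simp only [co_sub]
  exact pr_dv_eq_fl _ _

theorem cenW (hΛ : Λ.Ok) (hl : 0 < l) : Cen (Λ.WN l) := hΛ.cen_Nr (self_mem_sq 0 hl)

theorem Vr_fl_le (hΛ : Λ.Ok) (hl : 0 < l) (ψ : Pt × Pt → ℝ) :
    Vr (Λ.WN l) (fl (Λ.edI (sq 0 l)) ψ) (fl (Λ.edI (sq 0 l)) ψ) ≤
      Λ.τ * ∑ e ∈ Λ.edI (sq 0 l), ψ e ^ 2 := by
  rw [← pr_dv_eq_fl, mul_sum]
  exact bare_Vr (τ := fun _ => Λ.τ) (hΛ.ctr_Nr _ _) (hΛ.anch_Nr (self_mem_sq 0 hl))
    (fun s _ => pr_dv _ ψ s) fun _ _ => ⟨hΛ.pos, Λ.xy, rfl⟩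

theorem Bd.sum_sq (h : Bd Λ P) {ψ : Pt × Pt → ℝ} {p : ℝ} (hp : ∀ e ∈ Λ.edI (sq 0 l), |ψ e| ≤ p) :
    ∑ e ∈ Λ.edI (sq 0 l), ψ e ^ 2 ≤ (l : ℝ) ^ 2 * P * p ^ 2 := by
  have h1 := h.card_edI (sq 0 l)
  rw [card_sq, Nat.cast_pow] at h1
  refine (sum_le_card_nsmul _ _ (p ^ 2) fun e he =>
    sq_le_sq' (abs_le.1 (hp e he)).1 (abs_le.1 (hp e he)).2).trans ?_
  rw [nsmul_eq_mul]
  exact mul_le_mul_of_nonneg_right h1 (sq_nonneg _)

theorem Bd.abs_Vr (h : Bd Λ P) (hl : 0 < l) {ψ χ : Pt × Pt → ℝ} {p q : ℝ} (hp0 : 0 ≤ p) (hq0 : 0 ≤ q)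
    (hp : ∀ e ∈ Λ.edI (sq 0 l), |ψ e| ≤ p) (hq : ∀ e ∈ Λ.edI (sq 0 l), |χ e| ≤ q) :
    |Vr (Λ.WN l) (fl (Λ.edI (sq 0 l)) ψ) (fl (Λ.edI (sq 0 l)) χ)| ≤ P ^ 2 * (l : ℝ) ^ 2 * (p * q) := by
  have hc := cenW h.ok hl
  have hP := zero_le_one.trans h.one
  have h1 := (Vr_fl_le h.ok hl ψ).trans
    (mul_le_mul h.t (h.sum_sq hp) (sum_nonneg fun _ _ => sq_nonneg _) hP)
  have h2 := (Vr_fl_le h.ok hl χ).trans
    (mul_le_mul h.t (h.sum_sq hq) (sum_nonneg fun _ _ => sq_nonneg _) hP)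
  refine abs_le_of_sq_le_sq' ?_ (by positivity) |> abs_le.2
  exact ((hc.wt.Vr_sq_le hc.se _ _).trans
    (mul_le_mul h1 h2 (hc.wt.Vr_nonneg hc.se _) (by positivity))).trans_eq (by ring)

/-- covariance of the tilt with one gradient -/
noncomputable def cc (Λ : Lat) (l : ℕ) (i : Fin 2) (e : Pt × Pt) : ℝ :=
  Vr (Λ.WN l) (Λ.X l (co i)) (dR e)

theorem Vr_X_fl (hΛ : Λ.Ok) (hl : 0 < l) (i : Fin 2) (S : Finset (Pt × Pt)) (χ : Pt × Pt → ℝ) :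
    Vr (Λ.WN l) (Λ.X l (co i)) (fl S χ) = ∑ e ∈ S, χ e * cc Λ l i e := by
  rw [fl, (cenW hΛ hl).se.Vr_sum_right]
  exact sum_congr rfl fun e _ => Vr_smul_right _ _ _ _

theorem Bd.abs_cc (h : Bd Λ P) (hl : 0 < l) (i : Fin 2) {χ : Pt × Pt → ℝ} {q : ℝ} (hq0 : 0 ≤ q)
    (hq : ∀ e ∈ Λ.edI (sq 0 l), |χ e| ≤ q) :
    |∑ e ∈ Λ.edI (sq 0 l), χ e * cc Λ l i e| ≤ P ^ 4 * (l : ℝ) ^ 2 * q := by
  have hP := zero_le_one.trans h.one
  rw [← Vr_X_fl h.ok hl, X_eq]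
  exact (h.abs_Vr hl (by positivity) hq0
    (fun e he => h.abs_div (h.abs_co (Lat.mem_edI.1 he).1 i)) hq).trans_eq (by ring)

theorem e0_pos (hΛ : Λ.Ok) : 0 < Λ.e0 := div_pos (one_pos.trans_le hΛ.one_le_a) hΛ.pos

/-- T1 in one box -/
theorem Bd.box (h : Bd Λ P) (hl : 0 < l)
    (h01 : Vr (Λ.WN l) (Λ.X l (co 0)) (Λ.X l (co 1)) = 0)
    (h11 : Vr (Λ.WN l) (Λ.X l (co 1)) (Λ.X l (co 1)) = Vr (Λ.WN l) (Λ.X l (co 0)) (Λ.X l (co 0)))
    {a : Fin 2 → Pt → ℝ} {φ : Pt × Pt → ℝ} {κ ω : ℝ} (ha : ∀ i, ∀ x ∈ sq 0 l, |a i x| ≤ κ)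
    (ho : ∀ i, ∀ x ∈ sq 0 l, |a i x - a i 0| ≤ ω) (hφ : ∀ e ∈ Λ.edI (sq 0 l), |φ e| ≤ κ)
    (hs : 9 * P ^ 6 * (l * κ) ^ 2 ≤ 1) :
    M (Λ.WN l) (fl (Λ.edI (sq 0 l)) fun e => vfl a e / Λ.τ + φ e) ≤
      (Λ.tN l * Λ.e0 * (l : ℝ) ^ 2 * ∑ i, a i 0 ^ 2 +
        2 * ∑ e ∈ Λ.edI (sq 0 l), φ e * ∑ i, a i e.1 * cc Λ l i e +
        Λ.τ * ∑ e ∈ Λ.edI (sq 0 l), φ e ^ 2) / 2 +
      (3 * (9 * P ^ 6 * (l * κ) ^ 2) ^ 2 + 8 * P ^ 6 * (l : ℝ) ^ 2 * (ω * κ)) := by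
  have h0 : (0 : Pt) ∈ sq 0 l := self_mem_sq 0 hl
  have hc := cenW h.ok hl
  have hP := zero_le_one.trans h.one
  have hκ : 0 ≤ κ := (abs_nonneg _).trans (ha 0 0 h0)
  have hω : 0 ≤ ω := (abs_nonneg _).trans (ho 0 0 h0)
  have hψ : ∀ e ∈ Λ.edI (sq 0 l), |vfl a e / Λ.τ + φ e| ≤ 3 * P ^ 2 * κ := fun e he =>
    h.abs_psi (Lat.mem_edI.1 he).1 (fun i => ha i _ (Lat.mem_edI.1 he).2.1) (hφ e he)
  have h1 := M_small (h.ok.ctr_Nr (sq 0 l) 0) (h.ok.anch_Nr h0) (Subset.refl _)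
    (len_of h.ok (fun _ _ => rfl) h.t) h.one
    ((mul_le_mul_of_nonneg_left (h.sum_sq hψ) hP).trans_eq
      (show _ = 9 * P ^ 6 * (l * κ) ^ 2 by ring)) hs
  set E := Λ.edI (sq 0 l)
  set A := a 0 0 • Λ.X l (co 0) + a 1 0 • Λ.X l (co 1) with hA
  set R := fl E fun e => vfl (fun i x => a i x - a i 0) e / Λ.τ with hR
  have eA : A = fl E fun e => vfl (fun i _ => a i 0) e / Λ.τ := by
    rw [hA, X_eq, X_eq, ← fl_smul, ← fl_smul, ← fl_add]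
    exact fl_congr fun e _ => by simp only [vfl, Fin.sum_univ_two]; ring
  have e1 : (fl E fun e => vfl a e / Λ.τ + φ e) = A + fl E φ + R := by
    rw [eA, hR, ← fl_add, ← fl_add]
    exact fl_congr fun e _ => by simp only [vfl, Fin.sum_univ_two]; ring
  have h2 := h.abs_Vr hl (ψ := fun e => vfl (fun i x => a i x - a i 0) e / Λ.τ)
    (χ := fun e => (vfl a e / Λ.τ + φ e) + (vfl (fun i _ => a i 0) e / Λ.τ + φ e))
    (p := 2 * (ω * P) * P) (q := 3 * P ^ 2 * κ + 3 * P ^ 2 * κ) (by positivity) (by positivity)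
    (fun e he => h.abs_div (h.abs_vfl (Lat.mem_edI.1 he).1 fun i => ho i _ (Lat.mem_edI.1 he).2.1))
    fun e he => (abs_add_le _ _).trans (add_le_add (hψ e he)
      (h.abs_psi (Lat.mem_edI.1 he).1 (fun i => ha i _ h0) (hφ e he)))
  rw [fl_add, e1, fl_add, ← eA, ← hR] at h2
  have h3 := fun i => h.abs_cc hl i (χ := fun e => φ e * (a i e.1 - a i 0)) (q := κ * ω)
    (by positivity) fun e he => by
      rw [abs_mul]
      exact mul_le_mul (hφ e he) (ho i _ (Lat.mem_edI.1 he).2.1) (abs_nonneg _) hκ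
  have h4 := Vr_fl_le h.ok hl φ
  have e2 : Vr (Λ.WN l) A A = Λ.tN l * Λ.e0 * (l : ℝ) ^ 2 * ∑ i, a i 0 ^ 2 := by
    have hl' : (l : ℝ) ≠ 0 := by exact_mod_cast hl.ne'
    have := (e0_pos h.ok).ne'
    simp only [hA, hc.se.Vr_add_left, hc.se.Vr_add_right, Vr_smul_left, Vr_smul_right, h01, h11,
      Vr_comm _ (Λ.X l (co 1)) (Λ.X l (co 0)), Lat.tN, Fin.sum_univ_two]
    field_simp
    ring
  have e3 : Vr (Λ.WN l) A (fl E φ) = ∑ e ∈ E, φ e * ∑ i, a i e.1 * cc Λ l i e -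
      ∑ i, ∑ e ∈ E, φ e * (a i e.1 - a i 0) * cc Λ l i e := by
    simp only [hA, hc.se.Vr_add_left, Vr_smul_left, Vr_X_fl h.ok hl, Fin.sum_univ_two, mul_sum,
      ← sum_add_distrib, ← sum_sub_distrib]
    exact sum_congr rfl fun e _ => by ring
  have h5 : P ^ 4 * (l : ℝ) ^ 2 * (κ * ω) ≤ P ^ 6 * (l : ℝ) ^ 2 * (ω * κ) := by
    rw [mul_comm κ]
    gcongr
    exacts [h.one, by norm_num]
  change M (Λ.WN l) (fl E _) ≤ Vr (Λ.WN l) (fl E _) (fl E _) / 2 + _ at h1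
  rw [e1] at h1 ⊢
  simp only [hc.se.Vr_add_left, hc.se.Vr_add_right, Vr_comm _ (fl E φ) A, Vr_comm _ A R,
    Vr_comm _ (fl E φ) R] at h1 h2
  rw [Fin.sum_univ_two] at e3
  linarith [(abs_le.1 h2).2, (abs_le.1 (h3 0)).1, (abs_le.1 (h3 1)).1]

/-! ## The average over the shifts -/

/-- corners of the boxes inside `D` -/
noncomputable def Zb (D : Finset Pt) (l : ℕ) : Finset Pt := D.filter fun z => sq z l ⊆ D

/-- positions of the edge `e'` in the boxes inside `D` that contain it -/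
noncomputable def Sb (Λ : Lat) (D : Finset Pt) (l : ℕ) (e' : Pt × Pt) : Finset (Pt × Pt) :=
  (Λ.edI (sq 0 l)).filter fun e => e.2 - e.1 = e'.2 - e'.1 ∧ e'.1 - e.1 ∈ Zb D l

theorem dbl (Λ : Lat) (D : Finset Pt) (l : ℕ) (Φ : Pt × Pt → Pt × Pt → ℝ) :
    ∑ z ∈ Zb D l, ∑ e ∈ Λ.edI (sq 0 l), Φ (sh z e) e =
      ∑ e' ∈ Λ.edI D, ∑ e ∈ Sb Λ D l e', Φ e' e := by
  rw [sum_comm, sum_comm' (t' := Λ.edI (sq 0 l)) (s' := fun e => (Λ.edI D).filter fun e' =>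
    e.2 - e.1 = e'.2 - e'.1 ∧ e'.1 - e.1 ∈ Zb D l) fun e' e => by
      simp only [Sb, mem_filter]; tauto]
  refine sum_congr rfl fun e he => sum_nbij' (fun z => sh z e) (fun e' => e'.1 - e.1)
    (fun z hz => ?_) (fun e' he' => (mem_filter.1 he').2.2) (fun z _ => by simp) (fun e' he' => ?_)
    fun _ _ => rfl
  · exact mem_filter.2 ⟨Lat.edI_mono (mem_filter.1 hz).2 (sh_mem.2 he), by simp, by simpa using hz⟩
  · have h := (mem_filter.1 he').2.1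
    refine Prod.ext (by simp) ?_
    rw [sh_snd]
    linear_combination h

theorem disj_of_mod {z z' : Pt} (h : ((z.1 % l, z.2 % l) : Pt) = (z'.1 % l, z'.2 % l)) (hne : z ≠ z') :
    Disjoint (sq z l) (sq z' l) := by
  refine disjoint_left.2 fun x hx hx' => hne ?_
  rw [mem_sq] at hx hx'
  obtain ⟨h1, h2⟩ := Prod.mk.inj h
  have h3 := Int.eq_zero_of_abs_lt_dvd (Int.ModEq.dvd h1) (abs_lt.2 ⟨by omega, by omega⟩)
  have h4 := Int.eq_zero_of_abs_lt_dvd (Int.ModEq.dvd h2) (abs_lt.2 ⟨by omega, by omega⟩)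
  exact Prod.ext (by omega) (by omega)

variable {G : Type} [AddCommGroup G] {g : Pt × Pt → G →+ ℤ} {ρ : G → ℝ} {D : Finset Pt}

/-- the cut, averaged over the shifts of the grid -/
theorem avg (hΛ : Λ.Ok) (hl : 0 < l) (hG : Λ.GAmb ρ g D l) (ψ : Pt × Pt → ℝ) :
    (l : ℝ) ^ 2 * M ρ (gfl (Λ.edI D) ψ g) ≤
      ∑ z ∈ Zb D l, M (Λ.WN l) (fl (Λ.edI (sq 0 l)) fun e => ψ (sh z e)) +
        ∑ e ∈ Λ.edI D, ((l : ℝ) ^ 2 - (Sb Λ D l e).card) * (Λ.τ * (Real.cosh (ψ e) - 1)) := by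
  have h0 : (0 : ℤ) < l := by exact_mod_cast hl
  have hm : ∀ z ∈ Zb D l, ((z.1 % l, z.2 % l) : Pt) ∈ sq 0 l := fun z _ => by
    simp only [mem_sq, Prod.fst_zero, Prod.snd_zero, zero_add]
    exact ⟨⟨Int.emod_nonneg _ h0.ne', Int.emod_lt_of_pos _ h0⟩, Int.emod_nonneg _ h0.ne',
      Int.emod_lt_of_pos _ h0⟩
  have h := sum_le_sum (s := sq 0 l) fun s _ => gcut hΛ hl hG
    (Z := (Zb D l).filter fun z => ((z.1 % l, z.2 % l) : Pt) = s)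
    (fun z hz => (mem_filter.1 (mem_filter.1 hz).1).2)
    (fun z hz z' hz' => disj_of_mod ((mem_filter.1 hz).2.trans (mem_filter.1 hz').2.symm)) ψ
  rw [sum_add_distrib, sum_add_distrib, sum_fiberwise_of_maps_to hm, sum_fiberwise_of_maps_to hm,
    sum_const, sum_const, card_sq, dbl Λ D l fun e' _ => Λ.τ * (Real.cosh (ψ e') - 1)] at h
  simp only [sum_const, nsmul_eq_mul, Nat.cast_pow] at h
  simp only [sub_mul, sum_sub_distrib, ← mul_sum (a := (l : ℝ) ^ 2)]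
  linarith

theorem card_Sb_le (Λ : Lat) (D : Finset Pt) (l : ℕ) (e' : Pt × Pt) :
    ((Sb Λ D l e').card : ℝ) ≤ (l : ℝ) ^ 2 := by
  have h : (Sb Λ D l e').card ≤ (sq 0 l).card :=
    card_le_card_of_injOn Prod.fst (fun e he => (Lat.mem_edI.1 (mem_filter.1 he).1).2.1)
      fun e he e₁ he₁ h => Prod.ext h (by
        have h1 := (mem_filter.1 he).2.1.trans (mem_filter.1 he₁).2.1.symm
        rw [h] at h1
        exact sub_left_injective h1)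
  rw [card_sq] at h
  exact_mod_cast h

theorem Sb_good (hl : 0 < l) {e' : Pt × Pt} (h : bl e'.1 l ⊆ D) :
    Sb Λ D l e' = (Λ.edI (sq 0 l)).filter fun e => e.2 - e.1 = e'.2 - e'.1 := by
  refine filter_congr fun e he => and_iff_left ?_
  have h1 := mem_sq.1 (Lat.mem_edI.1 he).2.1
  have h2 : sq (e'.1 - e.1) l ⊆ D := fun x hx => h (by
    simp only [mem_sq, mem_bl, Prod.fst_sub, Prod.snd_sub, Prod.fst_zero, Prod.snd_zero] at *
    omega)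
  exact mem_filter.2 ⟨h2 (self_mem_sq _ hl), h2⟩

theorem card_dir {y : Pt} (hy : y ∈ Λ.Jp) (l : ℕ) :
    (l : ℝ) ^ 2 - 4 * Λ.rg * l ≤ ((Λ.edI (sq 0 l)).filter fun e => e.2 - e.1 = y).card := by
  have h1 := Lat.le_rg (Lat.mem_Jp.1 hy).1
  rw [abs_le, abs_le] at h1
  have h : (sq (Λ.rg, Λ.rg) (l - 2 * Λ.rg)).card ≤
      ((Λ.edI (sq 0 l)).filter fun e => e.2 - e.1 = y).card :=
    card_le_card_of_injOn (fun x => (x, x + y)) (fun x hx => by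
      simp only [mem_coe, mem_filter, Lat.mem_edI, add_sub_cancel_left, hy, mem_sq, Prod.fst_add,
        Prod.snd_add, Prod.fst_zero, Prod.snd_zero, true_and, and_true] at hx ⊢
      omega) fun x _ x' _ h => (Prod.mk.inj h).1
  rw [card_sq] at h
  refine le_trans ?_ (Nat.cast_le.2 h)
  have hr : (0 : ℝ) ≤ Λ.rg := Nat.cast_nonneg _
  have hl : (0 : ℝ) ≤ l := Nat.cast_nonneg _
  rcases le_total (2 * Λ.rg) l with h2 | h2
  · rw [Nat.cast_pow, Nat.cast_sub h2]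
    push_cast
    nlinarith
  · have h3 : (l : ℝ) ≤ 2 * Λ.rg := by exact_mod_cast h2
    exact le_trans (by nlinarith) (Nat.cast_nonneg _)

/-- good and bad edges -/
theorem Bd.sum_le (h : Bd Λ P) {L : ℕ} (hD : Reg D P l L) {F : Pt × Pt → ℝ} {c c' : ℝ} (hc : 0 ≤ c)
    (hc' : 0 ≤ c') (h1 : ∀ e ∈ Λ.edI D, bl e.1 l ⊆ D → F e ≤ c) (h2 : ∀ e ∈ Λ.edI D, F e ≤ c') :
    ∑ e ∈ Λ.edI D, F e ≤ P * L ^ 2 * P * c + P * l * L * P * c' := by
  have hP := zero_le_one.trans h.one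
  rw [← sum_filter_add_sum_filter_not _ fun e => bl e.1 l ⊆ D]
  refine add_le_add ((sum_le_card_nsmul _ _ c fun e he =>
    h1 e (mem_filter.1 he).1 (mem_filter.1 he).2).trans ?_)
    ((sum_le_card_nsmul _ _ c' fun e he => h2 e (mem_filter.1 he).1).trans ?_) <;> rw [nsmul_eq_mul]
  · exact mul_le_mul_of_nonneg_right (((Nat.cast_le.2 (card_filter_le _ _)).trans
      (h.card_edI D)).trans (mul_le_mul_of_nonneg_right hD.1 hP)) hc
  · exact mul_le_mul_of_nonneg_right ((h.card_filter D fun x => ¬ bl x l ⊆ D).trans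
      (mul_le_mul_of_nonneg_right hD.2 hP)) hc'

/-- oscillation in a box from bounds on the differences inside the box -/
theorem osc {f : Pt → ℝ} {c : ℝ} {z : Pt}
    (h : ∀ j, ∀ x ∈ sq z l, x + ev j ∈ sq z l → |df j f x| ≤ c) {x : Pt} (hx : x ∈ sq 0 l) (hc : 0 ≤ c) :
    |f (x + z) - f (0 + z)| ≤ 2 * l * c := by
  have key : ∀ (j : Fin 2) (p : Pt) (n : ℕ), (∀ k ≤ n, p + k • ev j ∈ sq z l) →
      |f (p + n • ev j) - f p| ≤ n * c := fun j p n => by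
    induction n with
    | zero => simp
    | succ n ih =>
      intro H
      have h1 := ih fun k hk => H k (hk.trans n.le_succ)
      have h2 := h j _ (H n n.le_succ) (by rw [add_assoc, ← succ_nsmul]; exact H _ le_rfl)
      rw [df, add_assoc, ← succ_nsmul] at h2
      push_cast
      linarith [abs_sub_le (f (p + (n + 1) • ev j)) (f (p + n • ev j)) (f p)]
  simp only [mem_sq, Prod.fst_zero, Prod.snd_zero, zero_add] at hx
  obtain ⟨n, hn⟩ := Int.eq_ofNat_of_zero_le hx.1.1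
  obtain ⟨m, hm⟩ := Int.eq_ofNat_of_zero_le hx.2.1
  have h1 := key 0 z n fun k hk => by simp [mem_sq, ev]; omega
  have h2 := key 1 (z + n • ev 0) m fun k hk => by simp [mem_sq, ev]; omega
  have e : x + z = z + n • ev 0 + m • ev 1 := by
    refine Prod.ext ?_ ?_ <;> simp [ev, hn, hm, add_comm]
  have hn' : (n : ℝ) ≤ l := by exact_mod_cast (by omega : n ≤ l)
  have hm' : (m : ℝ) ≤ l := by exact_mod_cast (by omega : m ≤ l)
  rw [e, zero_add]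
  nlinarith [abs_sub_le (f (z + n • ev 0 + m • ev 1)) (f (z + n • ev 0)) (f z)]

end Crest.Agent.T145.T140
end

-- ▼ part T145/T1g_40
section

/-!
# Row 145, module (b) (helper40): `t1gStmt`, the upper bound with the cross term in group form
-/

set_option autoImplicit false

namespace Crest.Agent.T145

open Finset Sl46

namespace T140

variable {Λ : Lat} {P : ℝ} {l L : ℕ} {D : Finset Pt}

theorem gam_good (hΛ : Λ.Ok) (hl : 0 < l) {e' : Pt × Pt} (h : bl e'.1 l ⊆ D) (i : Fin 2) :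
    ∑ e ∈ Sb Λ D l e', cc Λ l i e = Vr (Λ.WN l) (Λ.X l (co i))
      (pr (dv (Λ.edI (sq 0 l)) fun e => ind (e.2 - e.1 = e'.2 - e'.1))) := by
  rw [pr_dv_eq_fl, Vr_X_fl hΛ hl, Sb_good hl h, sum_filter]
  simp only [ind_eq_ite, ite_mul, one_mul, zero_mul]

theorem Bd.gam_bad (h : Bd Λ P) (hl : 0 < l) (e' : Pt × Pt) (i : Fin 2) :
    |∑ e ∈ Sb Λ D l e', cc Λ l i e| ≤ P ^ 4 * (l : ℝ) ^ 2 := by
  have h1 := h.abs_cc hl i (χ := fun e => ind (e.2 - e.1 = e'.2 - e'.1 ∧ e'.1 - e.1 ∈ Zb D l))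
    zero_le_one fun e _ => abs_ind_le _
  rw [Sb, sum_filter]
  simpa only [ind_eq_ite, ite_mul, one_mul, zero_mul, mul_one] using h1

/-- the error carried by one edge -/
theorem Bd.edge (h : Bd Λ P) {a : Fin 2 → Pt → ℝ} {e' : Pt × Pt} (he : e'.2 - e'.1 ∈ Λ.Jp)
    {κ x θ c d n : ℝ} {S : Finset (Pt × Pt)} (ha : ∀ i, |a i e'.1| ≤ κ) (hx : |x| ≤ κ)
    (hs : 3 * P ^ 2 * κ ≤ 1) (hd : 0 ≤ d) (hn : n ≤ d)
    (hc : ∀ i, |∑ e ∈ S, cc Λ l i e - co i (e'.2 - e'.1) * θ * (l : ℝ) ^ 2| ≤ c) :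
    ∑ e ∈ S, x * ∑ i, a i e'.1 * cc Λ l i e - (l : ℝ) ^ 2 * θ * (x * vfl a e') +
      n * (Λ.τ * (Real.cosh (vfl a e' / Λ.τ + x) - 1)) ≤ κ ^ 2 * (2 * c + 9 * P ^ 5 * d) := by
  have hP := zero_le_one.trans h.one
  have hκ := (abs_nonneg _).trans hx
  have h1 := h.abs_psi he ha hx
  have h2 := (cosh_le_sq (h1.trans hs)).trans (sq_le_sq' (abs_le.1 h1).1 (abs_le.1 h1).2)
  have h3 := sub_nonneg.2 (Real.one_le_cosh (vfl a e' / Λ.τ + x))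
  have h4 := mul_le_mul hn (mul_le_mul h.t h2 h3 hP) (mul_nonneg h.ok.pos.le h3) hd
  have h5 : ∀ i, x * a i e'.1 * (∑ e ∈ S, cc Λ l i e - co i (e'.2 - e'.1) * θ * (l : ℝ) ^ 2) ≤
      κ * κ * c := fun i => by
    refine (le_abs_self _).trans ?_
    rw [abs_mul, abs_mul]
    exact mul_le_mul (mul_le_mul hx (ha i) (abs_nonneg _) hκ) (hc i) (abs_nonneg _) (by positivity)
  simp only [← mul_sum, Fin.sum_univ_two, sum_add_distrib, vfl] at h4 ⊢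
  linarith [h5 0, h5 1]

theorem nums {P η l L κ : ℝ} (hP1 : 1 ≤ P) (hη : 0 < η) (hη' : 9 * P ^ 8 * η ≤ 1) (hl : 1 ≤ l)
    (hS1 : 1 ≤ η ^ 2 * l) (hS2 : l ≤ η ^ 2 * L) (hκ0 : 0 < κ) (hκL : κ * L = P) :
    l * κ ≤ P * η ∧ (l * κ) ^ 2 ≤ P ^ 2 * η ∧ 9 * P ^ 6 * (l * κ) ^ 2 ≤ 1 ∧ 3 * P ^ 2 * κ ≤ 1 ∧
      l * Real.sqrt l ≤ η * l ^ 2 ∧ l ≤ η * l ^ 2 := by
  have hP : 0 < P := one_pos.trans_le hP1
  have hη1 : η ≤ 1 := by nlinarith [one_le_pow₀ hP1 (n := 8)]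
  have hη2 : η ^ 2 ≤ η := by nlinarith
  have h1 : l * κ ≤ P * η := by
    nlinarith [mul_le_mul_of_nonneg_left hS2 hκ0.le, mul_le_mul_of_nonneg_left hη2 hP.le]
  have h2 : (l * κ) ^ 2 ≤ P ^ 2 * η := by
    nlinarith [pow_le_pow_left₀ (by positivity) h1 2, mul_le_mul_of_nonneg_left hη2 (sq_nonneg P)]
  have h3 : κ ≤ P * η := le_trans (le_mul_of_one_le_left hκ0.le hl) h1
  have h4 : Real.sqrt l ≤ η * l := Real.sqrt_le_iff.2 ⟨by positivity, by nlinarith⟩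
  refine ⟨h1, h2, ?_, ?_, by nlinarith, by nlinarith [mul_le_mul_of_nonneg_right hη2 (zero_le_one.trans hl)]⟩
  · linarith [mul_le_mul_of_nonneg_left h2 (by positivity : 0 ≤ 9 * P ^ 6)]
  · linarith [mul_le_mul_of_nonneg_left h3 (by positivity : 0 ≤ 3 * P ^ 2), mul_pos (pow_pos hP 8) hη,
      mul_le_mul_of_nonneg_right (pow_le_pow_right₀ hP1 (show 3 ≤ 8 by norm_num)) hη.le]

theorem nums2 {P η l L κ : ℝ} (hP1 : 1 ≤ P) (hη : 0 < η) (hL : 0 < L) (hκL : κ * L = P)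
    (h1 : l * κ ≤ P * η) (h2 : (l * κ) ^ 2 ≤ P ^ 2 * η) :
    P * L ^ 2 * (3 * (9 * P ^ 6 * (l * κ) ^ 2) ^ 2 + 8 * P ^ 6 * l ^ 2 * (2 * l * (P / L ^ 2) * κ)) +
      (P * L ^ 2 * P * (κ ^ 2 * (2 * (P * (η * l ^ 2)) + 9 * P ^ 5 * (4 * P * (η * l ^ 2)))) +
        P * l * L * P * (κ ^ 2 * (2 * (P ^ 4 * l ^ 2 + P * l ^ 2) + 9 * P ^ 5 * l ^ 2))) ≤
      l ^ 2 * (310 * P ^ 17 * η) := by
  have hP : 0 < P := one_pos.trans_le hP1
  have hp : ∀ j ≤ 17, P ^ j * η ≤ P ^ 17 * η := fun j hj =>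
    mul_le_mul_of_nonneg_right (pow_le_pow_right₀ hP1 hj) hη.le
  have e : _ = l ^ 2 * (243 * P ^ 15 * (l * κ) ^ 2 + (16 * P ^ 8 + 2 * P ^ 7 + 2 * P ^ 4 + 9 * P ^ 8) *
      (l * κ) + 2 * (P ^ 5 * η) + 36 * (P ^ 10 * η)) := show
    P * L ^ 2 * (3 * (9 * P ^ 6 * (l * κ) ^ 2) ^ 2 + 8 * P ^ 6 * l ^ 2 * (2 * l * (P / L ^ 2) * κ)) +
      (P * L ^ 2 * P * (κ ^ 2 * (2 * (P * (η * l ^ 2)) + 9 * P ^ 5 * (4 * P * (η * l ^ 2)))) +
        P * l * L * P * (κ ^ 2 * (2 * (P ^ 4 * l ^ 2 + P * l ^ 2) + 9 * P ^ 5 * l ^ 2))) = _ by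
    obtain rfl : κ = P / L := by rw [← hκL]; field_simp
    field_simp
    ring
  rw [e]
  refine mul_le_mul_of_nonneg_left ?_ (sq_nonneg _)
  linarith [mul_le_mul_of_nonneg_left h2 (by positivity : 0 ≤ 243 * P ^ 15),
    mul_le_mul_of_nonneg_left h1 (by positivity : 0 ≤ 16 * P ^ 8 + 2 * P ^ 7 + 2 * P ^ 4 + 9 * P ^ 8),
    hp 9 (by norm_num), hp 8 (by norm_num), hp 5 (by norm_num), hp 10 (by norm_num)]

variable {G : Type} [AddCommGroup G] {g : Pt × Pt → G →+ ℤ} {ρ : G → ℝ}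

theorem Bd.main (h : Bd Λ P) {η : ℝ} (hη : 0 < η) (hη' : 9 * P ^ 8 * η ≤ 1) (hS : Sep (η ^ 2) l L)
    (hθ : 0 ≤ Λ.tN l) (hθ' : Λ.tN l ≤ 1) (h01 : Vr (Λ.WN l) (Λ.X l (co 0)) (Λ.X l (co 1)) = 0)
    (h11 : Vr (Λ.WN l) (Λ.X l (co 1)) (Λ.X l (co 1)) = Vr (Λ.WN l) (Λ.X l (co 0)) (Λ.X l (co 0)))
    (hy : ∀ y ∈ Λ.Jp, ∀ i, |Vr (Λ.WN l) (Λ.X l (co i))
      (pr (dv (Λ.edI (sq 0 l)) fun e => ind (e.2 - e.1 = y))) - co i y * Λ.tN l * (l : ℝ) ^ 2| ≤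
        P * (l * Real.sqrt l))
    {a : Fin 2 → Pt → ℝ} {φ : Pt × Pt → ℝ} (hG : Λ.GAmb ρ g D l) (hD : Reg D P l L)
    (ha : ∀ i, ∀ x ∈ D, |a i x| ≤ P / L)
    (hd : ∀ i j, ∀ x ∈ D, x + ev j ∈ D → |df j (a i) x| ≤ P / (L : ℝ) ^ 2)
    (hφ : ∀ e ∈ Λ.edI D, |φ e| ≤ P / L) :
    M ρ (gfl (Λ.edI D) (fun e => vfl a e / Λ.τ + φ e) g) ≤
      (Λ.tN l * Λ.e0 * ∑ x ∈ D, ∑ i, a i x ^ 2 + 2 * Λ.tN l * ∑ e ∈ Λ.edI D, φ e * vfl a e +
        Λ.τ * ∑ e ∈ Λ.edI D, φ e ^ 2) / 2 + 310 * P ^ 17 * η := by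
  obtain ⟨hS1, hS2⟩ := hS
  have hP : 0 < P := one_pos.trans_le h.one
  have hl : 0 < l := Nat.pos_of_ne_zero (by rintro rfl; norm_num at hS1)
  have hl' : (0 : ℝ) < l := by exact_mod_cast hl
  have hL : (0 : ℝ) < L := by
    exact_mod_cast Nat.pos_of_ne_zero (show L ≠ 0 by rintro rfl; norm_num at hS2; omega)
  obtain ⟨κ, hκ⟩ : ∃ κ, κ = P / L := ⟨_, rfl⟩
  have hκ0 : 0 < κ := by rw [hκ]; positivity
  have hκL : κ * L = P := by rw [hκ]; field_simp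
  obtain ⟨n1, n2, hs, hs', hsq, h6⟩ := nums h.one hη hη' (by exact_mod_cast hl) hS1 hS2 hκ0 hκL
  have n3 := nums2 h.one hη hL hκL n1 n2
  rw [← hκ] at ha hφ
  -- the boxes
  have hb := sum_le_sum (s := Zb D l) fun z hz => h.box hl h01 h11 (a := fun i x => a i (x + z))
    (φ := fun e => φ (sh z e)) (κ := κ) (ω := 2 * l * (P / (L : ℝ) ^ 2))
    (fun i x hx => ha i _ ((mem_filter.1 hz).2 (add_mem_sq.2 hx)))
    (fun i x hx => osc (fun j x hx hx' => hd i j x ((mem_filter.1 hz).2 hx) ((mem_filter.1 hz).2 hx'))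
      hx (by positivity))
    (fun e he => hφ _ (Lat.edI_mono (mem_filter.1 hz).2 (sh_mem.2 he))) hs
  have hv := avg h.ok hl hG fun e => vfl a e / Λ.τ + φ e
  have e1 : ∀ z e, vfl a (sh z e) = vfl (fun i x => a i (x + z)) e := fun z e => by
    simp only [vfl, sh_fst, sh_snd, add_sub_add_right_eq_sub]
  have e2 := dbl Λ D l fun e' e => φ e' * ∑ i, a i e'.1 * cc Λ l i e
  have e3 := dbl Λ D l fun e' _ => φ e' ^ 2
  simp only [e1, sh_fst] at hv e2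
  rw [sum_add_distrib, ← sum_div, sum_add_distrib, sum_add_distrib, ← mul_sum, ← mul_sum, ← mul_sum,
    e2, e3, sum_const, nsmul_eq_mul] at hb
  have h1 : ∑ z ∈ Zb D l, ∑ i, a i (0 + z) ^ 2 ≤ ∑ x ∈ D, ∑ i, a i x ^ 2 := by
    simp only [zero_add]
    exact sum_le_sum_of_subset_of_nonneg (filter_subset _ _) fun _ _ _ => by positivity
  have h2 : ∑ e' ∈ Λ.edI D, ∑ _e ∈ Sb Λ D l e', φ e' ^ 2 ≤ (l : ℝ) ^ 2 * ∑ e ∈ Λ.edI D, φ e ^ 2 := by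
    rw [mul_sum]
    refine sum_le_sum fun e _ => ?_
    rw [sum_const, nsmul_eq_mul]
    exact mul_le_mul_of_nonneg_right (card_Sb_le _ _ _ _) (sq_nonneg _)
  have h3 : ((Zb D l).card : ℝ) ≤ P * L ^ 2 := (Nat.cast_le.2 (card_filter_le _ _)).trans hD.1
  -- the edges
  have h4 := h.sum_le hD (F := fun e' => ∑ e ∈ Sb Λ D l e', φ e' * ∑ i, a i e'.1 * cc Λ l i e -
      (l : ℝ) ^ 2 * Λ.tN l * (φ e' * vfl a e') + ((l : ℝ) ^ 2 - (Sb Λ D l e').card) *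
      (Λ.τ * (Real.cosh (vfl a e' / Λ.τ + φ e') - 1)))
    (c := κ ^ 2 * (2 * (P * (η * (l : ℝ) ^ 2)) + 9 * P ^ 5 * (4 * P * (η * (l : ℝ) ^ 2))))
    (c' := κ ^ 2 * (2 * (P ^ 4 * (l : ℝ) ^ 2 + P * (l : ℝ) ^ 2) + 9 * P ^ 5 * (l : ℝ) ^ 2))
    (by positivity) (by positivity)
    (fun e he hg => h.edge (Lat.mem_edI.1 he).1 (fun i => ha i _ (Lat.mem_edI.1 he).2.1) (hφ e he) hs'
      (by positivity) (by
        have h5 := card_dir (Lat.mem_edI.1 he).1 l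
        rw [← Sb_good hl hg] at h5
        exact (sub_le_comm.1 h5).trans (by rw [mul_assoc, mul_assoc 4 P]; gcongr; exact h.r))
      fun i => by
        rw [gam_good h.ok hl hg]
        exact (hy _ (Lat.mem_edI.1 he).1 i).trans (mul_le_mul_of_nonneg_left hsq hP.le))
    fun e he => h.edge (Lat.mem_edI.1 he).1 (fun i => ha i _ (Lat.mem_edI.1 he).2.1) (hφ e he) hs'
      (by positivity) (sub_le_self _ (Nat.cast_nonneg _)) fun i => by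
        refine (abs_sub _ _).trans (add_le_add (h.gam_bad hl e i) ?_)
        rw [abs_mul, abs_mul, abs_of_nonneg hθ, abs_of_nonneg (sq_nonneg (l : ℝ))]
        exact mul_le_mul_of_nonneg_right ((mul_le_of_le_one_right (abs_nonneg _) hθ').trans
          (h.abs_co (Lat.mem_edI.1 he).1 i)) (sq_nonneg _)
  rw [sum_add_distrib, sum_sub_distrib, ← mul_sum] at h4
  have h7 := mul_le_mul_of_nonneg_left h1
    (mul_nonneg (mul_nonneg hθ (e0_pos h.ok).le) (sq_nonneg (l : ℝ)))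
  have h8 := mul_le_mul_of_nonneg_left h2 h.ok.pos.le
  have h9 := mul_le_mul_of_nonneg_right h3 (show 0 ≤ 3 * (9 * P ^ 6 * (l * κ) ^ 2) ^ 2 +
    8 * P ^ 6 * (l : ℝ) ^ 2 * (2 * l * (P / (L : ℝ) ^ 2) * κ) by positivity)
  refine le_of_mul_le_mul_left ?_ (pow_pos hl' 2)
  linear_combination hv + hb + h4 + h7 / 2 + h8 / 2 + h9 + n3

theorem Reg.mono {K K' : ℝ} (h : Reg D K l L) (hK : K ≤ K') : Reg D K' l L :=
  ⟨h.1.trans (by gcongr), h.2.trans (by gcongr)⟩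

theorem exists_eta {P ε c : ℝ} (hP : 1 ≤ P) (hε : 0 < ε) (hc : 9 ≤ c) :
    ∃ η : ℝ, 0 < η ∧ 9 * P ^ 8 * η ≤ 1 ∧ c * P ^ 17 * η ≤ ε := by
  have h0 : 0 < c * P ^ 17 := by positivity
  have h1 : c * P ^ 17 * (min ε 1 / (c * P ^ 17)) = min ε 1 := by field_simp
  refine ⟨min ε 1 / (c * P ^ 17), by positivity, le_trans ?_ (h1.trans_le (min_le_right _ _)),
    h1.trans_le (min_le_left _ _)⟩
  gcongr
  norm_num

end T140

open T140 in
/-- T1 in group form -/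
theorem t1gStmt (hA : T1aStmt) : T1gStmt := by
  intro F K ε hε
  obtain ⟨C, hC⟩ := hA F
  obtain ⟨P, hK, hCP, hP, hB⟩ := exists_bd F K C
  obtain ⟨η, h0, h1, h2⟩ := exists_eta hP hε (c := 310) (by norm_num)
  refine ⟨η ^ 2, by positivity, fun Λ hΛ l L hS G _ ρ g D a φ hG hD ha hd hφ => ?_⟩
  have hl : 0 < l := Nat.pos_of_ne_zero (by rintro rfl; have := hS.1; norm_num at this)
  obtain ⟨t0, t1, t2, t3, t4⟩ := hC Λ hΛ l hl
  exact ((hB Λ hΛ).main h0 h1 hS t0 t1 t2 t3 (fun y hy i => (t4 y hy i).trans (by gcongr)) hG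
    (Reg.mono hD hK) (fun i x hx => (ha i x hx).trans (by gcongr))
    (fun i j x hx hx' => (hd i j x hx hx').trans (by gcongr))
    fun e he => (hφ e he).trans (by gcongr)).trans (by linarith)

end Crest.Agent.T145
end

-- ▼ part T145/T1x_40
section

/-!
# Row 145, module (b) (helper40): `t1xStmt` as an instance of `t1gStmt`
-/

set_option autoImplicit false

namespace Crest.Agent.T145

open Finset Sl46

namespace T140

variable {Λ : Lat} {P : ℝ} {l L : ℕ} {D : Finset Pt}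

/-- an ambient model is a gradient field in group form -/
theorem gamb_of_amb {m : Mdl Pt} (h : Λ.Amb m D) (l : ℕ) : Λ.GAmb (m.W 0) dH D l := by
  obtain ⟨h1, h2, -⟩ := Cut7.rem_pd pdStmt kerStmt h.1 (Λ.edI D)
  refine ⟨h.1.wt h.2.1 0, h.1.se h.2.1 0, ⟨_, h1, h2, fun s => ?_⟩, fun _ _ s => ⟨s, fun _ _ => rfl⟩⟩
  rw [Cut7.W_eq h.2.2.1, prod_congr rfl fun e he => by rw [h.2.2.2 e he]]
  rfl

theorem gfl_dH (E : Finset (Pt × Pt)) (ψ : Pt × Pt → ℝ) : gfl E ψ dH = fl E ψ := rfl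

theorem sum_iso (hΛ : Λ.Ok) (v : Fin 2 → ℝ) :
    ∑ y ∈ Λ.Jp, (∑ i, v i * co i y) ^ 2 = Λ.a * ∑ i, v i ^ 2 := by
  calc _ = v 0 ^ 2 * ∑ y ∈ Λ.Jp, (y.1 : ℝ) ^ 2 + v 1 ^ 2 * ∑ y ∈ Λ.Jp, (y.2 : ℝ) ^ 2 +
          2 * v 0 * v 1 * ∑ y ∈ Λ.Jp, (y.1 : ℝ) * y.2 := by
        simp only [mul_sum, ← sum_add_distrib, Fin.sum_univ_two]
        exact sum_congr rfl fun y _ => by simp only [S58.co_fst, S58.co_snd]; ring
    _ = _ := by rw [hΛ.sum_mixed, ← hΛ.a_eq_snd, ← Lat.a, Fin.sum_univ_two]; ring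

/-- site energy against edge energy of a vector field -/
theorem Bd.site_le (h : Bd Λ P) (hl : Λ.rg ≤ l) {a : Fin 2 → Pt → ℝ} {κ : ℝ}
    (ha : ∀ i, ∀ x ∈ D, |a i x| ≤ κ) :
    Λ.a * ∑ x ∈ D, ∑ i, a i x ^ 2 ≤ ∑ e ∈ Λ.edI D, vfl a e ^ 2 +
      P * ((D.filter fun x => ¬ bl x l ⊆ D).card * (2 * (κ * P)) ^ 2) := by
  rw [mul_sum, ← sum_congr rfl fun x _ => sum_iso h.ok fun i => a i x, sum_comm, Lat.sum_edI]
  refine le_trans (sum_le_sum fun y hy => ?_) ((sum_add_distrib (g := fun _ =>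
    ((D.filter fun x => ¬ bl x l ⊆ D).card * (2 * (κ * P)) ^ 2 : ℝ))).trans_le (add_le_add_right ?_ _))
  · rw [← sum_filter_add_sum_filter_not D fun x => x + y ∈ D]
    refine add_le_add (le_of_eq (sum_congr rfl fun x _ => by simp [vfl]))
      ((sum_le_card_nsmul _ _ ((2 * (κ * P)) ^ 2) fun x hx => ?_).trans ?_)
    · have h1 := h.abs_vfl (a := a) (e := (x, x + y)) (by simpa using hy)
        fun i => ha i x (mem_filter.1 hx).1
      simp only [vfl, add_sub_cancel_left] at h1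
      exact sq_le_sq' (abs_le.1 h1).1 (abs_le.1 h1).2
    · rw [nsmul_eq_mul]
      refine mul_le_mul_of_nonneg_right (Nat.cast_le.2 (card_le_card fun x hx => ?_)) (sq_nonneg _)
      rw [mem_filter] at hx ⊢
      exact ⟨hx.1, fun H => hx.2 (H (bl_mono x hl
        (Lat.edge_near (e := (x, x + y)) (by simpa using hy))))⟩
  · rw [sum_const, nsmul_eq_mul]
    exact mul_le_mul_of_nonneg_right h.N (by positivity)

theorem Bd.abs_rem (h : Bd Λ P) {u : Pt → ℝ} {L : ℝ} (hu : Sm2 u P L) {e : Pt × Pt}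
    (he : e.2 - e.1 ∈ Λ.Jp) : |u e.2 - u e.1 - vfl (fun i => df i u) e| ≤ P / L ^ 2 * (2 * P) ^ 2 := by
  refine (hu.taylor e.1 e.2).trans (mul_le_mul_of_nonneg_left
    (pow_le_pow_left₀ (sum_nonneg fun _ _ => abs_nonneg _) ?_ 2) ((abs_nonneg _).trans (hu.2 0 0 0)))
  rw [Fin.sum_univ_two]
  linarith [h.abs_co he 0, h.abs_co he 1]

theorem nums3 {P δ l L : ℝ} (hP1 : 1 ≤ P) (hδ : δ ≤ 1) (hl : 1 ≤ l) (hL : 0 < L) (hS : l ≤ δ * L) :
    P * (P * l * L * (2 * (P / L * P)) ^ 2) * P + P * L ^ 2 * P *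
      ((P / L ^ 2 * (2 * P) ^ 2) ^ 2 * P + 2 * (P / L * (P / L ^ 2 * (2 * P) ^ 2))) ≤
        28 * P ^ 9 * δ := by
  have hP : 0 < P := one_pos.trans_le hP1
  have h1 : l / L ≤ δ := (div_le_iff₀ hL).2 hS
  have h2 : 1 / L ≤ δ := le_trans (by gcongr) h1
  have h0 : 0 ≤ 1 / L := by positivity
  have h3 : (1 / L) ^ 2 ≤ δ := by nlinarith
  calc _ = 4 * P ^ 7 * (l / L) + 16 * P ^ 9 * (1 / L) ^ 2 + 8 * P ^ 6 * (1 / L) := by
        field_simp; ring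
    _ ≤ 4 * P ^ 9 * δ + 16 * P ^ 9 * δ + 8 * P ^ 9 * δ := by gcongr <;> first | exact hP1 | norm_num
    _ = _ := by ring

/-- the two quadratic forms differ by a small error -/
theorem Bd.forms (h : Bd Λ P) {δ θ : ℝ} (hδ : P * δ ≤ 1) (hS : Sep δ l L) (hθ : 0 ≤ θ) (hθ' : θ ≤ 1)
    (hD : Reg D P l L) {u : Pt → ℝ} (hu : Sm2 u P L) {φ : Pt × Pt → ℝ}
    (hφ : ∀ e ∈ Λ.edI D, |φ e| ≤ P / L) :
    θ * Λ.e0 * ∑ x ∈ D, ∑ i, df i u x ^ 2 +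
      2 * θ * ∑ e ∈ Λ.edI D, (φ e + (u e.2 - u e.1 - vfl (fun i => df i u) e) / Λ.τ) *
        vfl (fun i => df i u) e +
      Λ.τ * ∑ e ∈ Λ.edI D, (φ e + (u e.2 - u e.1 - vfl (fun i => df i u) e) / Λ.τ) ^ 2 ≤
    θ * Λ.En D u u + 2 * θ * ∑ e ∈ Λ.edI D, φ e * (u e.2 - u e.1) +
      Λ.τ * ∑ e ∈ Λ.edI D, φ e ^ 2 + 28 * P ^ 9 * δ := by
  have hP : 0 < P := one_pos.trans_le h.one
  have hτ := h.ok.pos
  have hl : 0 < l := Nat.pos_of_ne_zero (by rintro rfl; have := hS.1; norm_num at this)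
  have hl' : (0 : ℝ) < l := by exact_mod_cast hl
  have hL : (0 : ℝ) < L := by
    exact_mod_cast Nat.pos_of_ne_zero (show L ≠ 0 by rintro rfl; have := hS.2; norm_num at this; omega)
  have hδ0 : 0 < δ := (mul_pos_iff_of_pos_right hl').1 (one_pos.trans_le hS.1)
  have hr : Λ.rg ≤ l := by
    have : P ≤ l := by nlinarith [hS.1]
    exact_mod_cast h.r.trans this
  have h1 := (h.site_le hr (a := fun i => df i u) fun i x _ => hu.1 i x).trans (add_le_add_right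
    (mul_le_mul_of_nonneg_left (mul_le_mul_of_nonneg_right hD.2 (sq_nonneg _)) hP.le) _)
  have h2 := nums3 h.one (by nlinarith [h.one]) (by exact_mod_cast hl) hL hS.2
  have h3 : ∑ e ∈ Λ.edI D, (1 - θ) * ((u e.2 - u e.1 - vfl (fun i => df i u) e) ^ 2 / Λ.τ +
      2 * (φ e * (u e.2 - u e.1 - vfl (fun i => df i u) e))) ≤ P * L ^ 2 * P *
      ((P / L ^ 2 * (2 * P) ^ 2) ^ 2 * P + 2 * (P / L * (P / L ^ 2 * (2 * P) ^ 2))) := by
    refine (sum_le_card_nsmul _ _ _ fun e he => ?_).trans ((nsmul_eq_mul _ _).trans_le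
      (mul_le_mul_of_nonneg_right ((h.card_edI D).trans (mul_le_mul_of_nonneg_right hD.1 hP.le))
        (by positivity)))
    have h4 := h.abs_rem hu (Lat.mem_edI.1 he).1
    refine (le_abs_self _).trans ?_
    rw [abs_mul, abs_of_nonneg (sub_nonneg.2 hθ')]
    refine (mul_le_of_le_one_left (abs_nonneg _) (sub_le_self _ hθ)).trans ((abs_add_le _ _).trans
      (add_le_add (h.abs_div ?_) ?_))
    · rw [abs_pow]
      exact pow_le_pow_left₀ (abs_nonneg _) h4 2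
    · rw [abs_mul, abs_mul, abs_two]
      exact mul_le_mul_of_nonneg_left (mul_le_mul (hφ e he) h4 (abs_nonneg _) (by positivity))
        zero_le_two
  have h5 : θ / Λ.τ * ∑ e ∈ Λ.edI D, vfl (fun i => df i u) e ^ 2 +
      2 * θ * ∑ e ∈ Λ.edI D, (φ e + (u e.2 - u e.1 - vfl (fun i => df i u) e) / Λ.τ) *
        vfl (fun i => df i u) e +
      Λ.τ * ∑ e ∈ Λ.edI D, (φ e + (u e.2 - u e.1 - vfl (fun i => df i u) e) / Λ.τ) ^ 2 =
      θ * Λ.En D u u + 2 * θ * ∑ e ∈ Λ.edI D, φ e * (u e.2 - u e.1) +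
      Λ.τ * ∑ e ∈ Λ.edI D, φ e ^ 2 +
      ∑ e ∈ Λ.edI D, (1 - θ) * ((u e.2 - u e.1 - vfl (fun i => df i u) e) ^ 2 / Λ.τ +
        2 * (φ e * (u e.2 - u e.1 - vfl (fun i => df i u) e))) := by
    simp only [Lat.En, mul_sum, ← sum_add_distrib]
    refine sum_congr rfl fun e _ => ?_
    field_simp
    ring
  have h6 : θ / Λ.τ ≤ P := by
    rw [div_eq_mul_inv]
    exact (mul_le_of_le_one_left (inv_pos.2 hτ).le hθ').trans h.t'
  have h7 := mul_le_mul_of_nonneg_left h1 (div_nonneg hθ hτ.le)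
  have h8 := mul_le_mul_of_nonneg_right h6
    (show 0 ≤ P * (P * l * L * (2 * (P / L * P)) ^ 2) by positivity)
  rw [Lat.e0]
  linear_combination h2 + h3 + h5.le + h7 + h8

end T140

open T140 in
/-- T1x -/
theorem t1xStmt (hA : T1aStmt) : T1xStmt := by
  intro F K ε hε
  obtain ⟨C, hC⟩ := hA F
  obtain ⟨P, hK, -, hP, hB⟩ := exists_bd F K K
  obtain ⟨δ', h0, H⟩ := t1gStmt hA F (5 * P ^ 4) (ε / 2) (half_pos hε)
  have hP0 : 0 < P := one_pos.trans_le hP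
  have hP4 : P ≤ P ^ 4 := le_self_pow₀ hP (by norm_num)
  have hK' : K ≤ 5 * P ^ 4 := by linarith
  refine ⟨min δ' (min ε 1 / (28 * P ^ 9)), by positivity, fun Λ hΛ l L hS m D u φ hm hD hu hφ => ?_⟩
  set δ := min δ' (min ε 1 / (28 * P ^ 9))
  have h1 : 28 * P ^ 9 * δ ≤ min ε 1 := (le_div_iff₀' (by positivity)).1 (min_le_right _ _)
  have hδ0 : 0 < δ := by positivity
  have h2 : P * δ ≤ 1 := le_trans (mul_le_mul_of_nonneg_right
    (by linarith [le_self_pow₀ hP (show 9 ≠ 0 by norm_num)]) hδ0.le) (h1.trans (min_le_right _ _))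
  have hl : 0 < l := Nat.pos_of_ne_zero (by rintro rfl; have := hS.1; norm_num at this)
  have hL : 0 < L := Nat.pos_of_ne_zero (by rintro rfl; have := hS.2; norm_num at this; omega)
  have hL1 : (1 : ℝ) ≤ L := by exact_mod_cast hL
  have h := hB Λ hΛ
  have hu' : Sm2 u P L := hu.mono (by positivity) hK
  have hφ' : ∀ e ∈ Λ.edI D, |φ e| ≤ P / L := fun e he => (hφ e he).trans (by gcongr)
  obtain ⟨t0, t1, -⟩ := hC Λ hΛ l hl
  have h3 := H Λ hΛ l L ⟨hS.1.trans (by gcongr; exact min_le_left _ _),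
    hS.2.trans (by gcongr; exact min_le_left _ _)⟩ _ _ dH D (fun i => df i u)
    (fun e => φ e + (u e.2 - u e.1 - vfl (fun i => df i u) e) / Λ.τ) (gamb_of_amb hm l)
    (Reg.mono hD hK') (fun i x _ => (hu.1 i x).trans (by gcongr))
    (fun i j x _ _ => (hu.2 i j x).trans (by gcongr)) fun e he => by
      refine (abs_add_le _ _).trans ((add_le_add (hφ' e he)
        (h.abs_div (h.abs_rem hu' (Lat.mem_edI.1 he).1))).trans ?_)
      calc _ = P / L + 4 * P ^ 4 / L ^ 2 := by ring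
        _ ≤ P ^ 4 / L + 4 * P ^ 4 / L := by gcongr; exact le_self_pow₀ hL1 two_ne_zero
        _ = _ := by ring
  have h4 := h.forms h2 hS t0 t1 (Reg.mono hD hK) hu' hφ'
  rw [gfl_dH, fl_congr (φ := fun e => (u e.2 - u e.1) / Λ.τ + φ e) fun e _ => by ring, fl_add] at h3
  rw [Lat.Au, pr_dv_eq_fl, pr_dv_eq_fl]
  linarith [min_le_left ε 1]

end Crest.Agent.T145
end

-- ▼ part T145/T1U_40
section

/-!
# Row 145, module (b) (helper40): T1 without hypotheses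
-/

set_option autoImplicit false

namespace Crest.Agent.T145

theorem t1aU : T1aStmt := t1aStmt r2Stmt

theorem t1gU : T1gStmt := t1gStmt t1aU

theorem t1xU : T1xStmt := t1xStmt t1aU

end Crest.Agent.T145
end

-- ▼ part T145/T1m_23

/-!
# Row 145, module (b): T1m, the limit stiffness and windows (helper23)
-/

set_option autoImplicit false

namespace Crest.Agent.T145

open Finset Filter Topology

namespace T1m23

theorem sm2_co (L : ℝ) (hL : 0 < L) : Sm2 (fun x => co 0 x / L) 1 L := by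
  have h (i : Fin 2) (x : Pt) : df i (fun x => co 0 x / L) x = co 0 (ev i) / L := by
    simp only [df, co, Matrix.cons_val_zero, Prod.fst_add, Int.cast_add]; ring
  refine ⟨fun i x => ?_, fun i j x => ?_⟩
  · rw [h, abs_div, abs_of_pos hL]
    refine div_le_div_of_nonneg_right ?_ hL.le
    fin_cases i <;> simp [co, ev]
  · rw [df, h, h, sub_self, abs_zero]; positivity

theorem X_div (Λ : Lat) (n : ℕ) (u : Pt → ℝ) (c : ℝ) :
    Λ.X n (fun x => u x / c) = c⁻¹ • Λ.X n u := by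
  rw [Lat.X, Lat.X, ← pr_smul]
  congr 1
  funext x
  simp only [Lat.Au, dv, Pi.smul_apply, smul_eq_mul, mul_sum]
  exact sum_congr rfl fun e _ => by ring

theorem En_co_le {Λ : Lat} (h : Λ.Ok) {L : ℕ} (hL : 1 ≤ L) :
    Λ.En (sq 0 L) (fun x => co 0 x / L) (fun x => co 0 x / L) ≤ Λ.e0 := by
  have hL' : (0 : ℝ) < L := by exact_mod_cast hL
  have hτ := h.2
  rw [Lat.En, Lat.sum_edI, Lat.e0, Lat.a, sum_div]
  refine sum_le_sum fun y _ => ?_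
  have e (x : Pt) : (co 0 (x + y) / L - co 0 x / L) * (co 0 (x + y) / L - co 0 x / L) / Λ.τ =
      (y.1 : ℝ) ^ 2 / Λ.τ / (L : ℝ) ^ 2 := by
    simp only [co, Matrix.cons_val_zero, Prod.fst_add, Int.cast_add]; field_simp; ring
  simp only [e, sum_const, nsmul_eq_mul]
  have hc : (((sq 0 L).filter fun x => x + y ∈ sq 0 L).card : ℝ) ≤ (L : ℝ) ^ 2 := by
    exact_mod_cast (card_filter_le _ _).trans (card_sq 0 L).le
  calc _ ≤ (L : ℝ) ^ 2 * ((y.1 : ℝ) ^ 2 / Λ.τ / (L : ℝ) ^ 2) :=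
        mul_le_mul_of_nonneg_right hc (by positivity)
    _ = _ := by field_simp

/-- quasi-monotonicity of the stiffness -/
theorem quasi (hx : T1xStmt) (ha : T1aStmt) (hb : BrStmt) (F : Fa) {ε : ℝ} (hε : 0 < ε) :
    ∃ δ : ℝ, 0 < δ ∧ ∀ Λ, F.Mem Λ → ∀ l L, Sep δ l L → Λ.tN L ≤ Λ.tN l + ε := by
  obtain ⟨C, hC, hC'⟩ := F.exists_bound
  obtain ⟨δ, hδ, h⟩ := hx F 4 (ε / (2 * C)) (by positivity)
  obtain ⟨_, ha⟩ := ha F
  refine ⟨δ, hδ, fun Λ hΛ l L hs => ?_⟩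
  have hL := hs.L_pos'
  have h0 : (0 : Pt) ∈ sq 0 L := self_mem_sq 0 hs.one_le_L
  have hsm : Sm2 (fun x => co 0 x / L) 4 L := by
    obtain ⟨h1, h2⟩ := sm2_co L hL
    exact ⟨fun i x => (h1 i x).trans (by gcongr; norm_num),
      fun i j x => (h2 i j x).trans (by gcongr; norm_num)⟩
  have hreg : Reg (sq 0 L) 4 l L := by
    have := hb.2.2.2.2.2.1 0 L L l L 1 le_rfl (by simp) (by simp)
    rwa [one_pow, mul_one] at this
  have key := h Λ hΛ l L hs (Λ.Nr (sq 0 L) 0) (sq 0 L) (fun x => co 0 x / L) (fun _ => 0)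
    (hb.2.2.1 Λ 0 0 L L hΛ.ok h0) hreg hsm (fun e _ => by rw [abs_zero]; positivity)
  have hz : dv (Λ.edI (sq 0 L)) (fun _ => (0 : ℝ)) = 0 := by funext x; simp [dv]
  rw [hz, pr_zero, add_zero] at key
  have hv := (hΛ.ok.cen_Nr h0).vr_le_M (Λ.X L fun x => co 0 x / L)
  have hX := hΛ.ok.vr_X hs.one_le_L
  rw [X_div, Vr_smul_left, Vr_smul_right] at hv
  change _ * (_ * Vr (Λ.WN L) _ _) / 2 ≤ _ at hv
  rw [hX, ← X_div] at hv
  have e1 : (L : ℝ)⁻¹ * ((L : ℝ)⁻¹ * (Λ.tN L * (Λ.e0 * (L : ℝ) ^ 2))) = Λ.tN L * Λ.e0 := by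
    field_simp
  rw [e1] at hv
  have hE := mul_le_mul_of_nonneg_left (En_co_le hΛ.ok hs.one_le_L) (ha Λ hΛ l hs.one_le_l).1
  have he := hΛ.e0_pos
  have h3 : 1 ≤ C * Λ.e0 := (div_le_iff₀ he).1 (hC' Λ hΛ).2.2.2.1
  have h4 : Λ.tN L * Λ.e0 ≤ Λ.tN l * Λ.e0 + ε / C := by
    have := hv.trans key
    simp only [zero_mul, sum_const_zero, mul_zero, add_zero, ne_eq, OfNat.ofNat_ne_zero,
      not_false_eq_true, zero_pow] at this
    have e2 : ε / C = 2 * (ε / (2 * C)) := by field_simp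
    linarith
  have h5 : ε / C ≤ ε * Λ.e0 := by
    rw [div_le_iff₀ (by linarith)]; nlinarith
  exact le_of_mul_le_mul_right (by linarith) he

theorem bdd (ha : T1aStmt) {Λ : Lat} (h : Λ.Ok) :
    ∀ᶠ l in atTop, 0 ≤ Λ.tN l ∧ Λ.tN l ≤ 1 := by
  obtain ⟨_, ha⟩ := ha (Λ.fa h)
  filter_upwards [eventually_ge_atTop 1] with l hl
  exact ⟨(ha Λ (Lat.mem_fa h) l hl).1, (ha Λ (Lat.mem_fa h) l hl).2.1⟩

theorem part2 (hx : T1xStmt) (ha : T1aStmt) (hb : BrStmt) (F : Fa) (ε : ℝ) (hε : 0 < ε) :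
    ∃ δ : ℝ, 0 < δ ∧ ∀ Λ, F.Mem Λ →
      (∀ l L, Sep δ l L → Λ.tN L ≤ Λ.tN l + ε) ∧ ∀ l : ℕ, 1 ≤ δ * l → Λ.tI ≤ Λ.tN l + ε := by
  obtain ⟨δ, hδ, h⟩ := quasi hx ha hb F hε
  refine ⟨δ, hδ, fun Λ hΛ => ⟨h Λ hΛ, fun l hl => ?_⟩⟩
  refine liminf_le_of_frequently_le (Eventually.frequently ?_)
    (isBoundedUnder_of_eventually_ge ((bdd ha hΛ.ok).mono fun _ h => h.1))
  filter_upwards [(tendsto_natCast_atTop_atTop.const_mul_atTop hδ).eventually_ge_atTop (l : ℝ)]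
    with L hL using h Λ hΛ l L ⟨hl, hL⟩

theorem tendsto_tN (hx : T1xStmt) (ha : T1aStmt) (hb : BrStmt) {Λ : Lat} (h : Λ.Ok) :
    Tendsto Λ.tN atTop (𝓝 Λ.tI) := by
  have b1 : IsBoundedUnder (· ≥ ·) atTop Λ.tN :=
    isBoundedUnder_of_eventually_ge ((bdd ha h).mono fun _ h => h.1)
  have b2 : IsBoundedUnder (· ≤ ·) atTop Λ.tN :=
    isBoundedUnder_of_eventually_le ((bdd ha h).mono fun _ h => h.2)
  refine tendsto_of_le_liminf_of_limsup_le le_rfl (le_of_forall_pos_le_add fun ε hε => ?_) b2 b1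
  obtain ⟨δ, hδ, hq⟩ := quasi hx ha hb (Λ.fa h) hε
  have h1 : ∀ᶠ l in atTop, limsup Λ.tN atTop - ε ≤ Λ.tN l := by
    filter_upwards [ev_sep_atTop hδ] with l hl
    rw [sub_le_iff_le_add]
    exact limsup_le_of_le b1.isCoboundedUnder_le (hl.mono fun L hL => hq Λ (Lat.mem_fa h) l L hL)
  exact sub_le_iff_le_add.1 (le_liminf_of_le b2.isCoboundedUnder_ge h1)

theorem tendsto_gN (hx : T1xStmt) (ha : T1aStmt) (hb : BrStmt) {Λ : Lat} (h : Λ.Ok) :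
    Tendsto Λ.gN atTop (𝓝 Λ.gI) := (tendsto_tN hx ha hb h).div_const _

theorem usc (hx : T1xStmt) (ha : T1aStmt) (hd : T1dStmt) (hb : BrStmt) {Λ : Lat} (h : Λ.Ok) :
    UpperSemicontinuousOn (fun τ => (Λ.at' τ).gI) (Set.Ioi 0) := by
  intro τ hτ y hy
  have h' : (Λ.at' τ).Ok := h.at' hτ
  obtain ⟨C, hC, hC'⟩ := ((Λ.at' τ).fa2 h').exists_bound
  have hy' : (Λ.at' τ).gI < y := hy
  set η := (y - (Λ.at' τ).gI) / 3 with hη
  have hη0 : 0 < η := by rw [hη]; linarith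
  obtain ⟨δ, hδ, hq⟩ := part2 hx ha hb ((Λ.at' τ).fa2 h') (η / C) (by positivity)
  obtain ⟨l, hl1, hl2⟩ :=
    (((tendsto_natCast_atTop_atTop.const_mul_atTop hδ).eventually_ge_atTop (1 : ℝ)).and
      ((tendsto_gN hx ha hb h').eventually_lt_const (lt_add_of_pos_right _ hη0))).exists
  have hc : ContinuousWithinAt (fun τ => (Λ.at' τ).gN l) (Set.Ioi 0) τ := (hd.2.2 Λ l h).1 τ hτ
  filter_upwards [hc.eventually_lt_const hl2,
    mem_nhdsWithin_of_mem_nhds (Lat.ev_mem_fa2 h')] with τ' h1 h2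
  change ((Λ.at' τ).fa2 h').Mem (Λ.at' τ') at h2
  have h3 := (hq _ h2).2 l hl1
  have he := h2.e0_pos
  have h4 : (Λ.at' τ').gI ≤ (Λ.at' τ').gN l + η / C * (1 / (Λ.at' τ').e0) := by
    rw [Lat.gI, Lat.gN, mul_one_div, ← add_div]
    exact div_le_div_of_nonneg_right h3 he.le
  have h5 : η / C * (1 / (Λ.at' τ').e0) ≤ η / C * C :=
    mul_le_mul_of_nonneg_left (hC' _ h2).2.2.2.1 (by positivity)
  rw [div_mul_cancel₀ _ (by linarith)] at h5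
  change (Λ.at' τ').gI < y
  linarith

theorem part3 (hx : T1xStmt) (ha : T1aStmt) (hd : T1dStmt) (hb : BrStmt) (F : Fa) (θ₀ δ' : ℝ)
    (k : ℕ) (hθ : 0 < θ₀) (hδ' : 0 < δ') : ∃ δ : ℝ, 0 < δ ∧ ∀ Λ, F.Mem Λ → ∀ l L,
    Λ.Win θ₀ δ l L → |Λ.tN l - Λ.tN L| ≤ δ' ∧ θ₀ / 2 ≤ Λ.tN l ∧
      ∀ j : ℕ, 2 ^ j ≤ L → (L ≤ 2 ^ (j + k) ∨ Sep δ' l (2 ^ j)) →
        Λ.Win (θ₀ / 2) δ' l (2 ^ j) := by
  have hε : 0 < min (δ' / 2) (θ₀ / 2) := lt_min (half_pos hδ') (half_pos hθ)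
  have e1 := min_le_left (δ' / 2) (θ₀ / 2)
  have e2 := min_le_right (δ' / 2) (θ₀ / 2)
  obtain ⟨l₀, h₀⟩ := hd.2.1 F _ hε
  refine exists_of_ev ?_
  filter_upwards [ev_sep_mem (quasi hx ha hb F hε), ev_large l₀, ev_le (half_pos hδ'),
    ev_mul_le ((2 : ℝ) ^ k) hδ', ev_large' (δ' * l₀)] with δ hq hl hδ hk hl' Λ hΛ l L hw
  have hs := hw.sep
  have q1 := hq Λ hΛ l L hs
  have q2 := hq Λ hΛ l (2 * L) (hs.mono_right (by omega))
  have q3 := h₀ Λ hΛ L 2 (hl l L hs).2.2 one_le_two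
  have q4 := hw.low
  have q5 := hw.drop
  refine ⟨abs_le.2 ⟨by linarith, by linarith⟩, by linarith, fun j hj hj' => ?_⟩
  have hs' : Sep δ' l (2 ^ j) := by
    refine hj'.elim (fun h => hs.down (c := 2 ^ k) ?_ (one_le_pow₀ one_le_two) hk) id
    rw [pow_add, mul_comm] at h
    exact_mod_cast h
  obtain ⟨J, rfl⟩ := hw.dyadic
  obtain ⟨d, rfl⟩ := Nat.exists_eq_add_of_le ((pow_le_pow_iff_right₀ one_lt_two).1 hj)
  have hl0 : l₀ ≤ 2 * 2 ^ j := by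
    have h1 : δ' * l₀ ≤ δ' * ((2 ^ j : ℕ) : ℝ) := (hl' _ _ hs).1.trans hs'.2
    have h2 : l₀ ≤ 2 ^ j := by exact_mod_cast le_of_mul_le_mul_left h1 hδ'
    omega
  have q6 := h₀ Λ hΛ (2 * 2 ^ j) (2 ^ d) hl0 Nat.one_le_two_pow
  rw [show 2 ^ d * (2 * 2 ^ j) = 2 * 2 ^ (j + d) by ring] at q6
  exact ⟨⟨j, rfl⟩, hs', by linarith, by linarith⟩

end T1m23

open T1m23 in
theorem t1mStmt (hx : T1xStmt) (ha : T1aStmt) (hd : T1dStmt) (hb : BrStmt) : T1mStmt := by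
  refine ⟨fun Λ h => ?_, part2 hx ha hb, part3 hx ha hd hb⟩
  have ht := tendsto_tN hx ha hb h
  have h0 : 0 ≤ Λ.tI := ge_of_tendsto ht ((bdd ha h).mono fun _ h => h.1)
  have h1 : Λ.tI ≤ 1 := le_of_tendsto ht ((bdd ha h).mono fun _ h => h.2)
  refine ⟨ht, div_nonneg h0 h.e0_pos.le, ?_, fun τ hτ τ' hτ' hle => ?_, usc hx ha hd hb h,
    fun hp δ hδ => ?_⟩
  · rw [← h.inv_e0]; exact div_le_div_of_nonneg_right h1 h.e0_pos.le
  · exact le_of_tendsto_of_tendsto' (tendsto_gN hx ha hb (h.at' hτ)) (tendsto_gN hx ha hb (h.at' hτ'))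
      fun l => (hd.2.2 Λ l h).2.2 hτ hτ' hle
  · have h2 : Tendsto (fun j : ℕ => Λ.tN (2 * 2 ^ j)) atTop (𝓝 Λ.tI) :=
      ht.comp (tendsto_two_pow.const_mul_atTop' two_pos)
    filter_upwards [ev_sep_atTop hδ, ht.eventually_lt_const (lt_add_of_pos_right _ (half_pos hδ))]
      with l hl hl'
    filter_upwards [tendsto_two_pow.eventually hl, h2.eventually_const_lt (half_lt_self hp),
      h2.eventually_const_lt (sub_lt_self _ (half_pos hδ))] with j a b c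
    exact ⟨⟨j, rfl⟩, a, b.le, by linarith⟩

end Crest.Agent.T145
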