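import Crest.Agent.T145.PeiB_33
import Crest.Agent.T145.GffDef_8
import Crest.Agent.T145.GeoB_51
import Crest.Agent.T145.Cut_7
import Crest.Agent.T145.CorB_59

-- ▼ part T145/PeiC_33
section

/-!
# Row 145, Peierls argument, part C: the block-spring model satisfies the Peierls hypotheses (helper33)
-/

set_option autoImplicit false

namespace Crest.Agent.T145.Pei

open Finset
open scoped ENNReal

/-- properties of the (smeared) spring factor -/
structure Spr (φ : ℝ → ℝ≥0∞) (a δ : ℝ) : Prop where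
  le1 : ∀ x, φ x ≤ 1
  ge : ∀ x, |x| ≤ 2 * δ → ENNReal.ofReal (3 / 4) ≤ φ x
  tail : ∀ x, φ x ≤ ENNReal.ofReal (Real.exp (1 - a * |x|))

/-- sum of the squares of the four side fluctuations; `u true` = upper sides, `u · true` = horizontal -/
def T0 {Ω : Type} (u : Bool → Bool → Ω → ℝ) (ω : Ω) : ℝ :=
  u true true ω ^ 2 + u true false ω ^ 2 + u false true ω ^ 2 + u false false ω ^ 2

open Classical in
/-- the block-spring model -/
noncomputable def mkB {Ω : Type} (Λ Λ' : Finset P) (μ : Ω → ℝ≥0∞) (o : Ω) (q : ℕ)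
    (φ : ℝ → ℝ≥0∞) (u : Bool → Bool → Ω → ℝ) (δ : ℝ) (Γ : ℝ≥0∞) : Bm Ω where
  Λ := Λ
  Λ' := Λ'
  μ := μ
  gd := fun ω => T0 u ω ≤ δ ^ 2
  o := o
  F := fun _ η a b c => φ (-(η.1 : ℝ) / q + u true true a - u false true b) *
    φ (-(η.2 : ℝ) / q + u true false a - u false false c)
  G := fun ω => if T0 u ω ≤ δ ^ 2 then 1 else Γ

noncomputable def SS : ℝ≥0∞ := ∑' m : ℤ, ENNReal.ofReal ((1 + (m : ℝ) ^ 2) * Real.exp (-|(m : ℝ)|))

theorem SS_ne_top : SS ≠ ⊤ := by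
  have h1 : Summable fun n : ℕ => (1 + (n : ℝ) ^ 2) * Real.exp (-(n : ℝ)) := by
    have a0 := Real.summable_pow_mul_exp_neg_nat_mul 0 one_pos
    have a2 := Real.summable_pow_mul_exp_neg_nat_mul 2 one_pos
    refine (a0.add a2).congr fun n => ?_
    simp only [pow_zero, neg_mul, one_mul]; ring
  have h2 : Summable fun m : ℤ => (1 + (m : ℝ) ^ 2) * Real.exp (-|(m : ℝ)|) :=
    summable_int_iff_summable_nat_and_neg.2 ⟨by simpa using h1, by simpa using h1⟩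
  rw [SS, ← ENNReal.ofReal_tsum_of_nonneg (fun _ => by positivity) h2]
  exact ENNReal.ofReal_ne_top

theorem T0_nonneg {Ω : Type} (u : Bool → Bool → Ω → ℝ) (ω : Ω) : 0 ≤ T0 u ω := by
  unfold T0; positivity

theorem sq_le_T0 {Ω : Type} (u : Bool → Bool → Ω → ℝ) (ω : Ω) (i d : Bool) : u i d ω ^ 2 ≤ T0 u ω := by
  unfold T0
  have := sq_nonneg (u true true ω)
  have := sq_nonneg (u true false ω)
  have := sq_nonneg (u false true ω)
  have := sq_nonneg (u false false ω)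
  cases i <;> cases d <;> linarith

section
variable {φ : ℝ → ℝ≥0∞} {A δ : ℝ} {q : ℕ}

theorem Spr.tail' (h : Spr φ (q * A) δ) (hq : 0 < q) (η : ℤ) (d : ℝ) :
    φ (-(η : ℝ) / q + d) ≤ ENNReal.ofReal (Real.exp (1 - A * |(η : ℝ) - q * d|)) := by
  have hq' : (0 : ℝ) < q := by exact_mod_cast hq
  refine (h.tail _).trans (le_of_eq ?_)
  have : (η : ℝ) - q * d = -(q * (-(η : ℝ) / q + d)) := by field_simp; ring
  rw [this, abs_neg, abs_mul, abs_of_pos hq']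
  congr 2; ring

theorem Spr.small (h : Spr φ (q * A) δ) (hq : 0 < q) (hA : 4 ≤ A) {d : ℝ} (hd : |q * d| ≤ 1 / 2) :
    ∑' η : ℤ, (if η = 0 then 0 else φ (-(η : ℝ) / q + d)) ≤
      ENNReal.ofReal (Real.exp (1 - A / 4)) * SS := by
  rw [SS, ← ENNReal.tsum_mul_left]
  refine ENNReal.tsum_le_tsum fun η => ?_
  split_ifs with h0
  · exact zero_le
  refine (h.tail' hq η d).trans ?_
  rw [← ENNReal.ofReal_mul (Real.exp_pos _).le]
  refine ENNReal.ofReal_le_ofReal ?_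
  have h1 : (1 : ℝ) ≤ |(η : ℝ)| := by exact_mod_cast Int.one_le_abs h0
  have h2 : |(η : ℝ)| - |q * d| ≤ |(η : ℝ) - q * d| := abs_sub_abs_le_abs_sub _ _
  calc _ ≤ Real.exp (1 - A / 4) * Real.exp (-|(η : ℝ)|) := by
        rw [← Real.exp_add]
        refine Real.exp_le_exp.2 ?_
        nlinarith
    _ ≤ _ := by
        refine mul_le_mul_of_nonneg_left (le_mul_of_one_le_left (Real.exp_pos _).le ?_)
          (Real.exp_pos _).le
        nlinarith [sq_nonneg (η : ℝ)]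

theorem Spr.big (h : Spr φ (q * A) δ) (hq : 0 < q) (hA : 4 ≤ A) (d : ℝ) :
    ∑' η : ℤ, φ (-(η : ℝ) / q + d) ≤ ENNReal.ofReal (Real.exp (1 + A / 2)) * SS ∧
    ∑' η : ℤ, φ (-(η : ℝ) / q + d) * ((η.natAbs ^ 2 : ℕ) : ℝ≥0∞) ≤
      ENNReal.ofReal (Real.exp (1 + A / 2)) * SS * ENNReal.ofReal (4 * q ^ 2 * (1 + d ^ 2)) := by
  set n := round (q * d) with hn
  have hr : |q * d - n| ≤ 1 / 2 := abs_sub_round _
  have hq' : (1 : ℝ) ≤ q := by exact_mod_cast hq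
  have key : ∀ m : ℤ, φ (-((m + n : ℤ) : ℝ) / q + d) ≤
      ENNReal.ofReal (Real.exp (1 + A / 2) * Real.exp (-|(m : ℝ)|)) := by
    intro m
    refine (h.tail' hq _ d).trans (ENNReal.ofReal_le_ofReal ?_)
    rw [← Real.exp_add]
    refine Real.exp_le_exp.2 ?_
    have h2 : |(m : ℝ)| - |q * d - n| ≤ |(m : ℝ) - (q * d - n)| := abs_sub_abs_le_abs_sub _ _
    have h3 : ((m + n : ℤ) : ℝ) - q * d = m - (q * d - n) := by push_cast; ring
    rw [h3]
    nlinarith [abs_nonneg (m : ℝ)]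
  constructor
  · rw [← (Equiv.addRight n).tsum_eq, SS, ← ENNReal.tsum_mul_left]
    refine ENNReal.tsum_le_tsum fun m => (key m).trans ?_
    rw [← ENNReal.ofReal_mul (Real.exp_pos _).le]
    refine ENNReal.ofReal_le_ofReal (mul_le_mul_of_nonneg_left
      (le_mul_of_one_le_left (Real.exp_pos _).le ?_) (Real.exp_pos _).le)
    nlinarith [sq_nonneg (m : ℝ)]
  · rw [← (Equiv.addRight n).tsum_eq, SS, ← ENNReal.tsum_mul_left, ← ENNReal.tsum_mul_right]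
    refine ENNReal.tsum_le_tsum fun m => (mul_le_mul' (key m) le_rfl).trans ?_
    rw [← ENNReal.ofReal_natCast, ← ENNReal.ofReal_mul (by positivity),
      ← ENNReal.ofReal_mul (by positivity), ← ENNReal.ofReal_mul (by positivity)]
    refine ENNReal.ofReal_le_ofReal ?_
    have e : ((((Equiv.addRight n) m).natAbs ^ 2 : ℕ) : ℝ) = ((m : ℝ) + n) ^ 2 := by
      rw [Nat.cast_pow, Nat.cast_natAbs]; simp
    have h4 : ((m : ℝ) + n) ^ 2 ≤ (1 + (m : ℝ) ^ 2) * (4 * q ^ 2 * (1 + d ^ 2)) := by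
      have h5 : (n : ℝ) ^ 2 ≤ 2 * (q * d) ^ 2 + 1 / 2 := by
        have := abs_le.1 hr
        nlinarith [sq_nonneg (q * d - (n - q * d))]
      have h6 : 1 + (n : ℝ) ^ 2 ≤ 2 * q ^ 2 * (1 + d ^ 2) := by nlinarith
      have h7 : ((m : ℝ) + n) ^ 2 ≤ 2 * ((1 + (m : ℝ) ^ 2) * (1 + (n : ℝ) ^ 2)) := by
        nlinarith [sq_nonneg ((m : ℝ) - n), sq_nonneg ((m : ℝ) * n)]
      nlinarith [sq_nonneg (m : ℝ)]
    rw [e]
    calc _ ≤ Real.exp (1 + A / 2) * Real.exp (-|(m : ℝ)|) *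
          ((1 + (m : ℝ) ^ 2) * (4 * q ^ 2 * (1 + d ^ 2))) := by gcongr
      _ = _ := by ring

end

theorem eps_ne_zero : eps ≠ 0 := by simp [eps]
theorem eps_ne_top : eps ≠ ⊤ := by simp [eps]
theorem eps_le_one : eps ≤ 1 := pow_le_one₀ zero_le (by norm_num)

theorem exists_A : ∃ A : ℝ, 4 ≤ A ∧ 4 * (ENNReal.ofReal (Real.exp (1 - A / 4)) * SS) ≤ eps := by
  have h1 : Filter.Tendsto (fun A : ℝ => 4 * (ENNReal.ofReal (Real.exp (1 - A / 4)) * SS))
      Filter.atTop (nhds (4 * (ENNReal.ofReal 0 * SS))) := by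
    refine ENNReal.Tendsto.const_mul (ENNReal.Tendsto.mul_const
      (ENNReal.tendsto_ofReal (Real.tendsto_exp_atBot.comp ?_)) (Or.inr SS_ne_top)) (Or.inr (by simp))
    exact Filter.tendsto_atBot_add_const_left _ _
      (Filter.tendsto_neg_atTop_atBot.comp (Filter.tendsto_id.atTop_div_const (by norm_num)))
  simp only [ENNReal.ofReal_zero, zero_mul, mul_zero] at h1
  exact ((Filter.eventually_ge_atTop 4).and
    (h1.eventually (eventually_le_nhds (pos_iff_ne_zero.2 eps_ne_zero)))).exists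

/-- choice of the parameters -/
theorem exists_par {q : ℕ} (hq : 0 < q) : ∃ a : ℝ, 1 ≤ a ∧ ∀ δ : ℝ, 0 < δ → 4 * q * δ ≤ 1 →
    ∃ δ₃ : ℝ, 0 < δ₃ ∧ ∃ Γ K : ℝ≥0∞, K ≠ ⊤ ∧ ∀ (Ω : Type) (μ : Ω → ℝ≥0∞) (o : Ω) (φ : ℝ → ℝ≥0∞)
      (u : Bool → Bool → Ω → ℝ), Spr φ a δ → ∑' ω, μ ω = 1 → T0 u o = 0 →
      ∑' ω, μ ω * ENNReal.ofReal (T0 u ω) ≤ ENNReal.ofReal δ₃ → ∀ Λ Λ' : Finset P, Rect Λ →
      (∀ y, (y ∈ Λ ∨ y + e1 ∈ Λ ∨ y + e2 ∈ Λ) → y ∈ Λ') →
      (mkB Λ Λ' μ o q φ u δ Γ).Ok ∧ ∃ H, (mkB Λ Λ' μ o q φ u δ Γ).Mo H K := by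
  classical
  obtain ⟨A, hA, hs⟩ := exists_A
  have hq' : (1 : ℝ) ≤ q := by exact_mod_cast hq
  refine ⟨q * A, by nlinarith, fun δ hδ hδq => ?_⟩
  set s := ENNReal.ofReal (Real.exp (1 - A / 4)) * SS with hsdef
  set C := ENNReal.ofReal (Real.exp (1 + A / 2)) * SS with hC
  have hC' : C ≠ ⊤ := ENNReal.mul_ne_top ENNReal.ofReal_ne_top SS_ne_top
  set Γ := 1 + C * C * eps⁻¹ with hΓ
  have hei : eps⁻¹ ≠ ⊤ := ENNReal.inv_ne_top.2 eps_ne_zero
  have hΓ' : Γ ≠ ⊤ := ENNReal.add_ne_top.2 ⟨by simp, ENNReal.mul_ne_top (ENNReal.mul_ne_top hC' hC') hei⟩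
  have hΓ1 : 1 ≤ Γ := le_self_add
  set Γ₂ := 1 + C * C * ENNReal.ofReal (8 * q ^ 2) * eps⁻¹ with hΓ₂
  have hΓ₂' : Γ₂ ≠ ⊤ := ENNReal.add_ne_top.2 ⟨by simp, ENNReal.mul_ne_top
    (ENNReal.mul_ne_top (ENNReal.mul_ne_top hC' hC') ENNReal.ofReal_ne_top) hei⟩
  set g := (Γ ^ 3).toReal with hg
  have hg3 : Γ ^ 3 = ENNReal.ofReal g := (ENNReal.ofReal_toReal (ENNReal.pow_ne_top hΓ')).symm
  have hg1 : 1 ≤ g := by
    rw [← ENNReal.ofReal_le_ofReal_iff (by rw [hg]; positivity), ← hg3, ENNReal.ofReal_one]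
    exact one_le_pow₀ hΓ1
  refine ⟨δ ^ 2 / (2 * g), by positivity, Γ, Γ ^ 3 * Γ₂ * 2,
    ENNReal.mul_ne_top (ENNReal.mul_ne_top (ENNReal.pow_ne_top hΓ') hΓ₂') (by simp), ?_⟩
  intro Ω μ o φ u hφ hμ ho hT Λ Λ' hΛ hΛ'
  have hee : ∀ x : ℝ≥0∞, x ≤ eps * (1 + x * eps⁻¹) := fun x => by
    rw [mul_add, mul_left_comm, ENNReal.mul_inv_cancel eps_ne_zero eps_ne_top, mul_one x]
    exact le_add_self
  have hδ1 : δ ≤ 1 / 4 := by nlinarith
  have hbad : ∑' ω, μ ω * (if T0 u ω ≤ δ ^ 2 then 0 else 1) ≤ ENNReal.ofReal (1 / (2 * g)) := by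
    have h1 : ENNReal.ofReal (δ ^ 2) * ∑' ω, μ ω * (if T0 u ω ≤ δ ^ 2 then 0 else 1) ≤
        ENNReal.ofReal (δ ^ 2) * ENNReal.ofReal (1 / (2 * g)) := by
      rw [← ENNReal.ofReal_mul (by positivity), mul_one_div, ← ENNReal.tsum_mul_left]
      refine le_trans (ENNReal.tsum_le_tsum fun ω => ?_) hT
      rw [mul_left_comm]
      refine mul_le_mul' le_rfl ?_
      split_ifs with h2
      · simp
      · rw [mul_one]; exact ENNReal.ofReal_le_ofReal (not_le.1 h2).le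
    exact (ENNReal.mul_le_mul_iff_right (by simp; positivity) ENNReal.ofReal_ne_top).1 h1
  have hhalf : ENNReal.ofReal (1 / (2 * g)) ≤ 2⁻¹ := by
    rw [← ENNReal.ofReal_ofNat, ← ENNReal.ofReal_inv_of_pos (by norm_num)]
    refine ENNReal.ofReal_le_ofReal ?_
    rw [one_div]; exact inv_anti₀ (by norm_num) (by linarith)
  have hsm : ∀ {a b : Ω} {i d i' d' : Bool}, T0 u a ≤ δ ^ 2 → T0 u b ≤ δ ^ 2 →
      |u i d a - u i' d' b| ≤ 2 * δ := by
    intro a b i d i' d' ha hb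
    have h1 := abs_le_of_sq_le_sq' ((sq_le_T0 u a i d).trans ha) hδ.le
    have h2 := abs_le_of_sq_le_sq' ((sq_le_T0 u b i' d').trans hb) hδ.le
    rw [abs_le]; constructor <;> linarith
  have hG1 : ∀ a, (1 : ℝ≥0∞) ≤ if T0 u a ≤ δ ^ 2 then 1 else Γ := fun a => by
    split_ifs
    · rfl
    · exact hΓ1
  have hprod : ∀ (f g : ℤ → ℝ≥0∞), ∑' η : ℤ × ℤ, f η.1 * g η.2 = (∑' a, f a) * ∑' b, g b := by
    intro f g
    rw [ENNReal.tsum_prod (f := fun a b => f a * g b)]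
    simp only [ENNReal.tsum_mul_left, ENNReal.tsum_mul_right]
  refine ⟨⟨hΛ, hΛ', hμ, ?_, ?_, hG1, ?_, ?_, ?_, ?_, ?_⟩,
    fun ω => Γ₂ * ENNReal.ofReal (1 + T0 u ω), ?_, ?_, ?_⟩
  · have h1 : (∑' ω, μ ω * (if T0 u ω ≤ δ ^ 2 then 1 else 0)) +
        ∑' ω, μ ω * (if T0 u ω ≤ δ ^ 2 then 0 else 1) = 2⁻¹ + 2⁻¹ := by
      rw [← ENNReal.tsum_add, ENNReal.inv_two_add_inv_two]
      refine (tsum_congr fun ω => ?_).trans hμ
      split_ifs <;> simp
    have h2 : (2⁻¹ : ℝ≥0∞) + 2⁻¹ ≤ (∑' ω, μ ω * (if T0 u ω ≤ δ ^ 2 then 1 else 0)) + 2⁻¹ := by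
      rw [← h1]; exact add_le_add le_rfl (hbad.trans hhalf)
    have h3 := (ENNReal.add_le_add_iff_right (by simp)).1 h2
    convert h3 using 4 with ω
    · rfl
    · exact if_congr Iff.rfl rfl rfl
  · show T0 u o ≤ δ ^ 2
    rw [ho]; positivity
  · show (if T0 u o ≤ δ ^ 2 then 1 else Γ) = 1
    rw [if_pos (by rw [ho]; positivity)]
  · show ∑' a, μ a * (if T0 u a ≤ δ ^ 2 then 1 else Γ) ^ 3 ≤ 2
    calc _ ≤ ∑' a, (μ a + Γ ^ 3 * (μ a * (if T0 u a ≤ δ ^ 2 then 0 else 1))) := by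
          refine ENNReal.tsum_le_tsum fun a => ?_
          split_ifs
          · simp
          · rw [mul_one, mul_comm]; exact le_add_self
      _ ≤ 1 + ENNReal.ofReal g * ENNReal.ofReal (1 / (2 * g)) := by
          rw [ENNReal.tsum_add, ENNReal.tsum_mul_left, hμ, hg3]
          exact add_le_add le_rfl (mul_le_mul' le_rfl hbad)
      _ ≤ 1 + 1 := by
          refine add_le_add le_rfl ?_
          rw [← ENNReal.ofReal_mul (by positivity), ENNReal.ofReal_le_one]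
          rw [mul_one_div, div_le_one (by positivity)]; linarith
      _ = 2 := one_add_one_eq_two
  · intro y a b c _ _ _
    exact mul_le_one' (hφ.le1 _) (hφ.le1 _)
  · intro y a b c ha hb hc
    show 2⁻¹ ≤ φ _ * φ _
    simp only [Prod.fst_zero, Prod.snd_zero, Int.cast_zero, neg_zero, zero_div, zero_add]
    refine le_trans ?_ (mul_le_mul' (hφ.ge _ (hsm ha hb)) (hφ.ge _ (hsm ha hc)))
    rw [← ENNReal.ofReal_mul (by norm_num), ← ENNReal.ofReal_ofNat,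
      ← ENNReal.ofReal_inv_of_pos (by norm_num)]
    exact ENNReal.ofReal_le_ofReal (by norm_num)
  · intro y a b c
    have e : ∀ η : ℤ × ℤ, (mkB Λ Λ' μ o q φ u δ Γ).F y η a b c =
        φ (-(η.1 : ℝ) / q + (u true true a - u false true b)) *
          φ (-(η.2 : ℝ) / q + (u true false a - u false false c)) := fun η => by
      simp only [mkB, add_sub_assoc]
    simp only [e]
    by_cases hg : T0 u a ≤ δ ^ 2 ∧ T0 u b ≤ δ ^ 2 ∧ T0 u c ≤ δ ^ 2
    · set d₁ := u true true a - u false true b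
      set d₂ := u true false a - u false false c
      have hd : ∀ {d : ℝ}, |d| ≤ 2 * δ → |q * d| ≤ 1 / 2 := fun {d} h => by
        rw [abs_mul, abs_of_pos (by positivity)]; nlinarith
      have s1 := hφ.small hq hA (hd (hsm hg.1 hg.2.1) : |q * d₁| ≤ 1 / 2)
      have s2 := hφ.small hq hA (hd (hsm hg.1 hg.2.2) : |q * d₂| ≤ 1 / 2)
      have hs1 : s ≤ 1 := (le_mul_of_one_le_left' (by norm_num)).trans (hs.trans eps_le_one)
      have t : ∀ d : ℝ, ∑' η : ℤ, (if η = 0 then 0 else φ (-(η : ℝ) / q + d)) ≤ s →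
          ∑' η : ℤ, φ (-(η : ℝ) / q + d) ≤ 2 := by
        intro d hd
        rw [ENNReal.tsum_eq_add_tsum_ite 0, ← one_add_one_eq_two]
        refine add_le_add (hφ.le1 _) (le_trans (le_of_eq ?_) (hd.trans hs1))
        convert rfl
      calc _ ≤ ∑' η : ℤ × ℤ, ((if η.1 = 0 then 0 else φ (-(η.1 : ℝ) / q + d₁)) *
            φ (-(η.2 : ℝ) / q + d₂) + φ (-(η.1 : ℝ) / q + d₁) *
              (if η.2 = 0 then 0 else φ (-(η.2 : ℝ) / q + d₂))) := by
            refine ENNReal.tsum_le_tsum fun η => ?_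
            by_cases h1 : η.1 = 0
            · by_cases h2 : η.2 = 0
              · rw [if_pos ⟨Prod.ext h1 h2, hg⟩]; exact zero_le
              · rw [if_neg h2]; split_ifs <;> first | exact zero_le | exact le_add_self
            · rw [if_neg h1]; split_ifs <;> first | exact zero_le | exact le_self_add
        _ ≤ s * 2 + 2 * s := by
            rw [ENNReal.tsum_add,
              hprod (fun η => if η = 0 then 0 else φ (-(η : ℝ) / q + d₁)) fun η => φ (-(η : ℝ) / q + d₂),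
              hprod (fun η => φ (-(η : ℝ) / q + d₁)) fun η => if η = 0 then 0 else φ (-(η : ℝ) / q + d₂)]
            exact add_le_add (mul_le_mul' s1 (t _ s2)) (mul_le_mul' (t _ s1) s2)
        _ = 4 * s := by ring
        _ ≤ _ := hs.trans (le_mul_of_one_le_right'
            (one_le_mul (one_le_mul (hG1 _) (hG1 _)) (hG1 _)))
    · calc _ ≤ ∑' η : ℤ × ℤ, φ (-(η.1 : ℝ) / q + (u true true a - u false true b)) *
            φ (-(η.2 : ℝ) / q + (u true false a - u false false c)) := by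
            refine ENNReal.tsum_le_tsum fun η => ?_
            split_ifs
            · exact zero_le
            · rfl
        _ ≤ C * C := by
            rw [hprod (fun η => φ (-(η : ℝ) / q + _)) fun η => φ (-(η : ℝ) / q + _)]
            exact mul_le_mul' (hφ.big hq hA _).1 (hφ.big hq hA _).1
        _ ≤ _ := by
            refine (hee _).trans (mul_le_mul' le_rfl ?_)
            show Γ ≤ (if T0 u a ≤ δ ^ 2 then 1 else Γ) * (if T0 u b ≤ δ ^ 2 then 1 else Γ) *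
              (if T0 u c ≤ δ ^ 2 then 1 else Γ)
            by_cases h1 : T0 u a ≤ δ ^ 2
            · by_cases h2 : T0 u b ≤ δ ^ 2
              · simp [h1, h2, show ¬T0 u c ≤ δ ^ 2 from fun h3 => hg ⟨h1, h2, h3⟩]
              · rw [if_pos h1, if_neg h2, one_mul]; exact le_mul_of_one_le_right' (hG1 _)
            · rw [if_neg h1, mul_assoc]
              exact le_mul_of_one_le_right' (one_le_mul (hG1 _) (hG1 _))
  · show Γ₂ * ENNReal.ofReal (1 + T0 u o) ≤ _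
    rw [ho, add_zero, ENNReal.ofReal_one, mul_one]
    exact (le_mul_of_one_le_left' (one_le_pow₀ hΓ1)).trans (le_mul_of_one_le_right' (by norm_num))
  · show ∑' a, μ a * ((if T0 u a ≤ δ ^ 2 then 1 else Γ) ^ 3 * (Γ₂ * ENNReal.ofReal (1 + T0 u a))) ≤ _
    calc _ ≤ ∑' a, Γ ^ 3 * Γ₂ * (μ a + μ a * ENNReal.ofReal (T0 u a)) := by
          refine ENNReal.tsum_le_tsum fun a => ?_
          rw [ENNReal.ofReal_add zero_le_one (T0_nonneg u a), ENNReal.ofReal_one]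
          have : (if T0 u a ≤ δ ^ 2 then 1 else Γ) ≤ Γ := by
            split_ifs
            · exact hΓ1
            · rfl
          calc _ ≤ μ a * (Γ ^ 3 * (Γ₂ * (1 + ENNReal.ofReal (T0 u a)))) := by gcongr
            _ = _ := by ring
      _ ≤ _ := by
          rw [ENNReal.tsum_mul_left, ENNReal.tsum_add, hμ, ← one_add_one_eq_two]
          refine mul_le_mul' le_rfl (add_le_add le_rfl (hT.trans ?_))
          rw [ENNReal.ofReal_le_one, div_le_one (by positivity)]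
          nlinarith
  · intro y a b c
    have e : ∀ η : ℤ × ℤ, (mkB Λ Λ' μ o q φ u δ Γ).F y η a b c * ((η.1.natAbs ^ 2 : ℕ) : ℝ≥0∞) =
        (φ (-(η.1 : ℝ) / q + (u true true a - u false true b)) * ((η.1.natAbs ^ 2 : ℕ) : ℝ≥0∞)) *
          φ (-(η.2 : ℝ) / q + (u true false a - u false false c)) := fun η => by
      simp only [mkB, add_sub_assoc]; ring
    simp only [e]
    rw [hprod (fun η => φ (-(η : ℝ) / q + _) * ((η.natAbs ^ 2 : ℕ) : ℝ≥0∞))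
      fun η => φ (-(η : ℝ) / q + _)]
    refine (mul_le_mul' (hφ.big hq hA _).2 (hφ.big hq hA _).1).trans ?_
    have h1 : ENNReal.ofReal (4 * q ^ 2 * (1 + (u true true a - u false true b) ^ 2)) ≤
        ENNReal.ofReal (8 * q ^ 2) * (ENNReal.ofReal (1 + T0 u a) * ENNReal.ofReal (1 + T0 u b)) := by
      have a0 := T0_nonneg u a
      have b0 := T0_nonneg u b
      rw [← ENNReal.ofReal_mul (by positivity), ← ENNReal.ofReal_mul (by positivity)]
      refine ENNReal.ofReal_le_ofReal ?_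
      have a1 := sq_le_T0 u a true true
      have b1 := sq_le_T0 u b false true
      have : 1 + (u true true a - u false true b) ^ 2 ≤ 2 * ((1 + T0 u a) * (1 + T0 u b)) := by
        nlinarith [sq_nonneg (u true true a + u false true b), mul_nonneg a0 b0]
      nlinarith [sq_nonneg (q : ℝ)]
    have h2 : ∀ ω, 1 ≤ ENNReal.ofReal (1 + T0 u ω) := fun ω =>
      ENNReal.one_le_ofReal.2 (le_add_of_nonneg_right (T0_nonneg u ω))
    have h3 : 1 ≤ Γ₂ := le_self_add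
    calc _ ≤ (C * C * ENNReal.ofReal (8 * q ^ 2)) *
          (ENNReal.ofReal (1 + T0 u a) * ENNReal.ofReal (1 + T0 u b)) := by
          refine (mul_le_mul' (mul_le_mul' le_rfl h1) le_rfl).trans (le_of_eq ?_)
          ring
      _ ≤ eps * Γ₂ * (ENNReal.ofReal (1 + T0 u a) * ENNReal.ofReal (1 + T0 u b)) :=
          mul_le_mul' (hee _) le_rfl
      _ = eps * (Γ₂ * ENNReal.ofReal (1 + T0 u a) * (1 * ENNReal.ofReal (1 + T0 u b)) * 1) := by ring
      _ ≤ _ := mul_le_mul' le_rfl (mul_le_mul' (mul_le_mul' le_rfl (mul_le_mul' h3 le_rfl))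
          (one_le_mul h3 (h2 _)))

end Crest.Agent.T145.Pei
end

-- ▼ part T145/PeiD_33
section

/-!
# Row 145, Peierls argument, part D: springs, restriction to a subgroup (helper33)
-/

set_option autoImplicit false

namespace Crest.Agent.T145.Pei

open Finset
open scoped ENNReal

theorem ker_mgf (xy : Bool) {τ : ℝ} (hτ : 0 < τ) {a : ℝ} (ha : |a| ≤ 1) :
    ∑' k : ℤ, kern xy τ k * Real.exp (a * k) ≤ Real.exp (τ * a ^ 2) * ∑' k : ℤ, kern xy τ k := by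
  have ha2 : a ^ 2 ≤ 1 := by rw [← sq_abs]; exact pow_le_one₀ (abs_nonneg a) ha
  cases xy
  · refine ((gauStmt τ hτ).2 a).trans (mul_le_mul_of_nonneg_right (Real.exp_le_exp.2 ?_)
      (tsum_nonneg fun k => (Real.exp_pos _).le))
    nlinarith [sq_nonneg a]
  · have h1 := ((besStmt τ hτ).2.1 a).tsum_eq
    have h0 := ((besStmt τ hτ).2.1 0).tsum_eq
    simp only [zero_mul, Real.exp_zero, mul_one, Real.cosh_zero] at h0
    simp only [kern, if_true]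
    rw [h1, h0, ← Real.exp_add]
    refine Real.exp_le_exp.2 ?_
    have h2 := Real.cosh_le_exp_half_sq a
    have h3 := Real.abs_exp_sub_one_le (x := a ^ 2 / 2) (by rw [abs_of_nonneg (by positivity)]; linarith)
    rw [abs_of_nonneg (a := a ^ 2 / 2) (by positivity)] at h3
    have h4 := (abs_le.1 h3).2
    nlinarith

/-- product weight of the noise -/
noncomputable def nu (w : ℤ → ℝ) (n : ℕ) (k : Fin n → ℤ) : ℝ := ∏ j, w (k j)

/-- mean of the noise -/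
noncomputable def av (n : ℕ) : (Fin n → ℤ) →+ ℝ :=
  AddMonoidHom.mk' (fun k => (∑ j, (k j : ℝ)) / n) fun k k' => by
    simp only [Pi.add_apply, Int.cast_add, sum_add_distrib, add_div]

theorem av_apply (n : ℕ) (k : Fin n → ℤ) : av n k = (∑ j, (k j : ℝ)) / n := rfl

theorem cen_nu {w : ℤ → ℝ} (hw : Fam w) (n : ℕ) : Cen (nu w n) :=
  Cut7.cen_pi rsdStmt fun _ => hw.cen

theorem nu_mgf (xy : Bool) {τ : ℝ} (hτ : 0 < τ) {n : ℕ} (hn : 0 < n) {a : ℝ} (ha : |a| ≤ n) :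
    Ex (nu (kern xy τ) n) (fun k => Real.exp (a * av n k)) ≤ Real.exp (τ * a ^ 2 / n) := by
  have hw : Fam (kern xy τ) := ⟨xy, τ, hτ, rfl⟩
  have hn' : (0 : ℝ) < n := by exact_mod_cast hn
  have e1 := (Cut7.hasSum_pi fun _ : Fin n => Cut7.se_int hw.cen.se (a / n)).tsum_eq
  have e2 := (Cut7.hasSum_pi fun _ : Fin n => hw.cen.se.summable).tsum_eq
  have e3 : ∀ k : Fin n → ℤ, nu (kern xy τ) n k * Real.exp (a * av n k) =
      ∏ j, kern xy τ (k j) * Real.exp (a / n * k j) := fun k => by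
    rw [nu, prod_mul_distrib, ← Real.exp_sum, ← mul_sum, av_apply]
    congr 2; ring
  have hZ : 0 < ∑' k, kern xy τ k := hw.cen.wt.pos
  rw [Ex]
  simp only [e3]
  simp only [nu]
  rw [e1, e2, prod_const, prod_const, card_univ, Fintype.card_fin, div_le_iff₀ (by positivity)]
  have h1 := ker_mgf xy hτ (a := a / n) (by rw [abs_div, abs_of_pos hn', div_le_one hn']; exact ha)
  refine (pow_le_pow_left₀ (tsum_nonneg fun k => mul_nonneg (hw.pos k).le (Real.exp_pos _).le) h1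
    n).trans (le_of_eq ?_)
  rw [mul_pow, ← Real.exp_nat_mul]
  congr 2; field_simp

theorem sq_le_exp (x : ℝ) : x ^ 2 ≤ Real.exp x + Real.exp (-x) - 2 := by
  have h1 := sum_le_hasSum (range 2) (fun n _ => by rw [pow_mul]; positivity) (Real.hasSum_cosh x)
  simp only [sum_range_succ, sum_range_zero] at h1
  norm_num [Nat.factorial] at h1
  rw [Real.cosh_eq] at h1
  linarith

theorem spr_eq (w : ℤ → ℝ) (n : ℕ) (κ t : ℝ) :
    spr w n κ t = Ex (nu w n) fun k => Real.exp (-κ * (t - av n k) ^ 2 / 2) := rfl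

theorem sp_le (κ y : ℝ) (hκ : 0 ≤ κ) : |Real.exp (-κ * y ^ 2 / 2)| ≤ 1 := by
  rw [abs_of_pos (Real.exp_pos _), Real.exp_le_one_iff]
  have := mul_nonneg hκ (sq_nonneg y)
  linarith

theorem spr_ok (xy : Bool) {τ a δ : ℝ} (hτ : 0 < τ) {n : ℕ} (ha : 1 ≤ a) (han : a ≤ n)
    (hδ : 32 * a ^ 2 * δ ^ 2 ≤ 1) (hn : 32 * τ * a ^ 2 ≤ n) :
    Spr (fun x => ENNReal.ofReal (spr (kern xy τ) n (a ^ 2) (-x))) a δ := by
  have hw : Fam (kern xy τ) := ⟨xy, τ, hτ, rfl⟩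
  have hc := cen_nu hw n
  have hn' : (0 : ℝ) < n := by linarith
  have hn0 : 0 < n := by exact_mod_cast hn'
  have hig : ∀ t, Ig (nu (kern xy τ) n) fun k => Real.exp (-a ^ 2 * (t - av n k) ^ 2 / 2) :=
    fun t => hc.wt.ig_bdd fun k => sp_le _ _ (sq_nonneg a)
  have hie : ∀ b : ℝ, Ig (nu (kern xy τ) n) fun k => Real.exp (b * av n k) :=
    fun b => hc.se (b • av n)
  refine ⟨fun x => ?_, fun x hx => ENNReal.ofReal_le_ofReal ?_, fun x => ENNReal.ofReal_le_ofReal ?_⟩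
  · rw [ENNReal.ofReal_le_one, spr_eq]
    exact hc.wt.ex_le (hig _) fun k _ => (le_abs_self _).trans (sp_le _ _ (sq_nonneg a))
  · rw [spr_eq]
    have h1 := nu_mgf xy hτ hn0 (a := 1) (by rw [abs_one]; linarith)
    have h2 := nu_mgf xy hτ hn0 (a := -1) (by rw [abs_neg, abs_one]; linarith)
    have h3 : τ / n ≤ 1 / (32 * a ^ 2) := by
      rw [div_le_div_iff₀ hn' (by positivity)]; nlinarith
    have h4 : 1 / (32 * a ^ 2) ≤ 1 := by rw [div_le_one (by positivity)]; nlinarith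
    have h5 := (abs_le.1 (Real.abs_exp_sub_one_le (x := τ / n)
      (by rw [abs_of_pos (by positivity)]; linarith))).2
    rw [abs_of_pos (by positivity)] at h5
    simp only [one_pow, mul_one, even_two, Even.neg_pow] at h1 h2
    have h6 := Ex_mono hc.nonneg ((hc.wt.ig_const (1 - a ^ 2 * x ^ 2 + 2 * a ^ 2)).sub
      (((hie 1).add (hie (-1))).const_mul (a ^ 2))) (hig (-x)) fun k => by
        have a1 := sq_le_exp (av n k)
        have a2 := Real.add_one_le_exp (-a ^ 2 * (-x - av n k) ^ 2 / 2)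
        simp only [one_mul, neg_mul] at a2 ⊢
        nlinarith [mul_nonneg (sq_nonneg a) (sq_nonneg (x - av n k)),
          mul_le_mul_of_nonneg_left a1 (sq_nonneg a)]
    rw [Ex_sub (hc.wt.ig_const _) (((hie 1).add (hie (-1))).const_mul _), hc.wt.ex_const,
      Ex_const_mul, Ex_add (hie 1) (hie (-1))] at h6
    have h7 : x ^ 2 ≤ (2 * δ) ^ 2 := by rw [← sq_abs]; exact pow_le_pow_left₀ (abs_nonneg _) hx 2
    have h8 : a ^ 2 * (τ / n) ≤ 1 / 32 := by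
      refine (mul_le_mul_of_nonneg_left h3 (sq_nonneg a)).trans (le_of_eq ?_)
      field_simp
    nlinarith [mul_le_mul_of_nonneg_left h7 (sq_nonneg a), mul_le_mul_of_nonneg_left h1 (sq_nonneg a),
      mul_le_mul_of_nonneg_left h2 (sq_nonneg a), mul_le_mul_of_nonneg_left h5 (sq_nonneg a)]
  · rw [spr_eq]
    obtain ⟨b, hb, hbx⟩ : ∃ b : ℝ, b ^ 2 = a ^ 2 ∧ b * -x = a * |x| := by
      rcases le_total 0 x with h | h
      · exact ⟨-a, by ring, by rw [abs_of_nonneg h]; ring⟩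
      · exact ⟨a, rfl, by rw [abs_of_nonpos h]⟩
    have hb' : |b| ≤ n := by
      rw [← sq_eq_sq₀ (abs_nonneg b) (by linarith : 0 ≤ a) |>.1 (by rw [sq_abs, hb])] at han
      exact han
    have h1 := nu_mgf xy hτ hn0 hb'
    have h2 := Ex_mono hc.nonneg (hig (-x)) ((hie b).const_mul (Real.exp (1 / 2 - a * |x|)))
      fun k => by
        rw [← Real.exp_add]
        refine Real.exp_le_exp.2 ?_
        rw [← hbx, ← hb]
        nlinarith [sq_nonneg (b * (-x - av n k) - 1)]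
    rw [Ex_const_mul] at h2
    refine h2.trans ((mul_le_mul_of_nonneg_left h1 (Real.exp_pos _).le).trans ?_)
    rw [← Real.exp_add]
    refine Real.exp_le_exp.2 ?_
    have : τ * b ^ 2 / n ≤ 1 / 2 := by rw [hb, div_le_iff₀ hn']; nlinarith
    linarith

theorem tsum_norm {α : Type*} {W F : α → ℝ} (hW : Wt W) (hF : Ig W F) (h0 : ∀ a, 0 ≤ F a) :
    ∑' a, ENNReal.ofReal (W a / Zs W) * ENNReal.ofReal (F a) = ENNReal.ofReal (Ex W F) := by
  have e : ∀ a, ENNReal.ofReal (W a / Zs W) * ENNReal.ofReal (F a) =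
      ENNReal.ofReal (W a * F a / Zs W) := fun a => by
    rw [← ENNReal.ofReal_mul (div_nonneg (hW.nonneg a) hW.pos.le)]; congr 1; ring
  simp only [e]
  rw [← ENNReal.ofReal_tsum_of_nonneg (fun a => div_nonneg (mul_nonneg (hW.nonneg a) (h0 a))
    hW.pos.le) (Summable.div_const hF _), tsum_div_const, Ex_def]

theorem tsum_nu {w : ℤ → ℝ} (hw : Fam w) (n : ℕ) {κ : ℝ} (hκ : 0 ≤ κ) (t : ℝ) :
    ∑' k, ENNReal.ofReal (nu w n k / Zs (nu w n)) *
      ENNReal.ofReal (Real.exp (-κ * (t - av n k) ^ 2 / 2)) = ENNReal.ofReal (spr w n κ t) :=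
  tsum_norm (cen_nu hw n).wt ((cen_nu hw n).wt.ig_bdd fun _ => sp_le _ _ hκ)
    fun _ => (Real.exp_pos _).le

theorem tsum_norm_one {α : Type*} {W : α → ℝ} (hW : Wt W) :
    ∑' a, ENNReal.ofReal (W a / Zs W) = 1 := by
  have := tsum_norm hW (hW.ig_const 1) fun _ => zero_le_one
  simpa [hW.ex_const] using this

/-! ## restriction to a subgroup -/
section restr
variable {L L' : Type} [AddCommGroup L] [AddCommGroup L'] [IsAddTorsionFree L']

omit [IsAddTorsionFree L'] in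
theorem tsum_range (a : L →+ L') (ha : Function.Injective a) (b : L') (f : L' → ℝ) :
    ∑' p, f p * ind (QuotientAddGroup.mk' a.range (p - b) = 0) = ∑' s, f (a s + b) := by
  have hinj : Function.Injective fun s => a s + b := fun s t h => ha (add_right_cancel h)
  rw [← hinj.tsum_eq (f := fun p => f p * ind (QuotientAddGroup.mk' a.range (p - b) = 0))]
  · refine tsum_congr fun s => ?_
    rw [ind_pos, mul_one]
    simp
  · intro p hp
    have h1 : QuotientAddGroup.mk' a.range (p - b) = 0 := by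
      by_contra h2
      exact hp (by simp only [ind_neg h2, mul_zero])
    obtain ⟨s, hs⟩ := (QuotientAddGroup.eq_zero_iff _).1 h1
    exact ⟨s, by simp [hs]⟩

theorem restr_seam (a : L →+ L') (ha : Function.Injective a) (b : L') {ρ : L' × ℤ → ℝ} (h : RSD ρ)
    (h0 : Summable (sl ρ 0)) (h1 : Summable (sl ρ 1)) :
    (∑' s, ρ (a s + b, 1)) * Zs (sl ρ 0) ≤ Zs (sl ρ 1) * ∑' s, ρ (a s, 0) := by
  let ψ : L' × ℤ →+ L' := AddMonoidHom.fst L' ℤ - (zmultiplesHom L' b).comp (AddMonoidHom.snd L' ℤ)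
  have h2 := rsdBStmt L' ℤ ρ _ h (pd_ind ((QuotientAddGroup.mk' a.range).comp ψ)) 1 0 h0
    (by rwa [tilt_zero])
  have e : ∀ (p : L') (c : ℤ), (QuotientAddGroup.mk' a.range).comp ψ (p, c) =
      QuotientAddGroup.mk' a.range (p - c • b) := fun p c => rfl
  simp only [tilt_zero, e, one_smul, zero_smul] at h2
  rw [tsum_range a ha b (sl ρ 1), tsum_range a ha 0 fun p => ρ (p, 0)] at h2
  simp only [add_zero] at h2
  exact (mul_le_mul_of_nonneg_right (le_abs_self _) (tsum_nonneg fun s => h.nonneg _)).trans h2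

theorem restr_cos (a : L →+ L') (ha : Function.Injective a) {ρ : L' → ℝ} (h : RSD ρ)
    (h0 : Summable ρ) (X : L' →+ ℝ) :
    (∑' p, ρ p * Real.cos (X p)) * ∑' s, ρ (a s) ≤ Zs ρ * ∑' s, ρ (a s) * Real.cos (X (a s)) := by
  have h2 := rsdPStmt L' ρ _ _ h h0 (pd_cos X) (pd_ind (QuotientAddGroup.mk' a.range))
  have h3 := tsum_range a ha 0 ρ
  have h4 := tsum_range a ha 0 fun p => ρ p * Real.cos (X p)
  simp only [sub_zero, add_zero, mul_assoc] at h3 h4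
  rwa [h3, h4] at h2

end restr

theorem cos_le_quart (x : ℝ) : Real.cos x ≤ 1 - x ^ 2 / 2 + x ^ 4 := by
  by_cases h : |x| ≤ 1
  · have h1 := (abs_le.1 (Real.cos_bound h)).2
    have : |x| ^ 4 = x ^ 4 := by rw [← abs_pow]; exact abs_of_nonneg (by positivity)
    nlinarith [sq_nonneg (x ^ 2)]
  · have h1 : 1 ≤ x ^ 2 := by rw [← sq_abs]; exact one_le_pow₀ (not_le.1 h).le
    nlinarith [Real.cos_le_one x]

/-- a lower bound on the characteristic function bounds the second moment -/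
theorem sq_of_cos {α : Type*} {W Y : α → ℝ} (hW : Wt W) (h2 : Ig W fun a => Y a ^ 2)
    (h4 : Ig W fun a => Y a ^ 4) {B : ℝ}
    (h : ∀ t : ℝ, 1 - t ^ 2 * B / 2 ≤ Ex W fun a => Real.cos (t * Y a)) :
    Ex W (fun a => Y a ^ 2) ≤ B := by
  have key : ∀ t : ℝ, 0 < t → Ex W (fun a => Y a ^ 2) ≤ B + 2 * t ^ 2 * Ex W fun a => Y a ^ 4 := by
    intro t ht
    have h1 := Ex_mono hW.nonneg (hW.ig_bdd fun a => Real.abs_cos_le_one (t * Y a))
      (((hW.ig_const 1).sub (h2.const_mul (t ^ 2 / 2))).add (h4.const_mul (t ^ 4))) fun a => by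
        have := cos_le_quart (t * Y a)
        nlinarith
    rw [Ex_add ((hW.ig_const 1).sub (h2.const_mul _)) (h4.const_mul _),
      Ex_sub (hW.ig_const 1) (h2.const_mul _), hW.ex_const, Ex_const_mul, Ex_const_mul] at h1
    have h3 := (h t).trans h1
    have h5 : 0 < t ^ 2 := by positivity
    refine le_of_mul_le_mul_left ?_ h5
    nlinarith
  have h5 : Filter.Tendsto (fun t : ℝ => B + 2 * t ^ 2 * Ex W fun a => Y a ^ 4)
      (nhdsWithin 0 (Set.Ioi 0)) (nhds (B + 2 * 0 ^ 2 * Ex W fun a => Y a ^ 4)) :=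
    (Continuous.tendsto (by fun_prop) 0).mono_left nhdsWithin_le_nhds
  simp only [ne_eq, OfNat.ofNat_ne_zero, not_false_eq_true, zero_pow, mul_zero, zero_mul,
    add_zero] at h5
  exact ge_of_tendsto h5 (eventually_nhdsWithin_of_forall key)

/-- second moment of a gradient -/
theorem edge_sq {m : Mdl Pt} (hc : m.Ctr) (ha : m.Anch) {w : ℤ → ℝ} {e : Pt × Pt} (he : e ∈ m.ed)
    (hw : m.w e = w) : Ex (m.W 0) (fun s => (dE e s : ℝ) ^ 2) ≤
      (Ex w fun k => Real.exp (1 * k)) + Ex w fun k => Real.exp (-1 * k) := by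
  classical
  have hC := hc.cen ha
  have key : ∀ c : ℝ, Ex (m.W 0) (fun s => Real.exp (c * dE e s)) ≤ Ex w fun k => Real.exp (c * k) := by
    intro c
    have h1 := bareStmt pdStmt rsdStmt kerStmt mdlStmt monoStmt Pt m (fun e' => if e' = e then c else 0)
      (fun x => (c • dR e) (Finsupp.single x 1)) hc ha fun s _ => by
        rw [← Md.hom_eq]; simp [he]
    rw [← Md.hom_eq, sum_eq_single_of_mem e he] at h1
    · simp only [if_true, hw] at h1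
      have hk := (hw ▸ hc.1 e he : Fam w).cen
      have h2 := hC.wt.exp_M hC.se (c • dR e)
      have h3 := Real.exp_le_exp.2 h1
      rw [h2, Real.exp_log (hk.wt.ex_pos' (Cut7.se_int hk.se c) fun _ => Real.exp_pos _)] at h3
      exact h3
    · intro e' he' hne
      simp [hne, (hc.1 e' he').cen.wt.ex_const]
  have i1 : ∀ c : ℝ, Ig (m.W 0) fun s => Real.exp (c * dE e s) := fun c => hC.se (c • dR e)
  refine le_trans ?_ (add_le_add (key 1) (key (-1)))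
  rw [← Ex_add (i1 1) (i1 (-1))]
  refine Ex_mono hC.nonneg (hC.ig ((Tame.dE e).pow 2)) ((i1 1).add (i1 (-1))) fun s => ?_
  have := sq_le_exp (dE e s : ℝ)
  simp only [one_mul, neg_mul]
  linarith

theorem sub_le_of_conn {E : Finset (Pt × Pt)} {x y : Pt} (h : Conn E x y) :
    ∃ n : ℕ, ∀ s : Cfg Pt, |(s x : ℝ) - s y| ≤ n * ∑ e ∈ E, |(dE e s : ℝ)| := by
  induction h with
  | refl => exact ⟨0, fun s => by simp⟩
  | @tail b c _ h2 ih =>
    obtain ⟨n, hn⟩ := ih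
    refine ⟨n + 1, fun s => ?_⟩
    have h3 : |(s b : ℝ) - s c| ≤ ∑ e ∈ E, |(dE e s : ℝ)| := by
      rcases h2 with h2 | h2
      · refine le_trans (le_of_eq ?_) (single_le_sum (f := fun e => |(dE e s : ℝ)|)
          (fun _ _ => abs_nonneg _) h2)
        simp [dE, abs_sub_comm]
      · refine le_trans (le_of_eq ?_) (single_le_sum (f := fun e => |(dE e s : ℝ)|)
          (fun _ _ => abs_nonneg _) h2)
        simp [dE]
    have := abs_sub_le (s x : ℝ) (s b) (s c)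
    have := hn s
    push_cast
    linarith

end Crest.Agent.T145.Pei
end

-- ▼ part T145/PeiE_33
section

/-!
# Row 145, Peierls argument, part E: the unglued, refined block model (helper33)
-/

set_option autoImplicit false

namespace Crest.Agent.T145.Pei

open Finset
open scoped ENNReal

/-- points of the four sides -/
def pt (L : ℕ) (up d : Bool) (i : Fin L) : Pt :=
  if d then (if up then (L : ℤ) - 1 else 0, (i : ℤ)) else ((i : ℤ), if up then (L : ℤ) - 1 else 0)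

theorem pt_mem (L : ℕ) (up d : Bool) (i : Fin L) : pt L up d i ∈ sq 0 L := by
  have := i.2
  rw [mem_sq]
  cases up <;> cases d <;> simp [pt] <;> omega

/-- side averages -/
noncomputable def ell (L : ℕ) (up d : Bool) : Cfg Pt →+ ℝ :=
  AddMonoidHom.mk' (fun s => (∑ i, (s (pt L up d i) : ℝ)) / L) fun s t => by
    simp only [Finsupp.add_apply, Int.cast_add, sum_add_distrib, add_div]

theorem ell_apply (L : ℕ) (up d : Bool) (s : Cfg Pt) :
    ell L up d s = (∑ i, (s (pt L up d i) : ℝ)) / L := rfl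

theorem pr_line {L : ℕ} (p : Fin L → Pt) (hp : Function.Injective p) (f : Pt → ℝ)
    (hf : ∀ x, f x = ind (∃ i, p i = x) / L) (s : Cfg Pt) : pr f s = (∑ i, (s (p i) : ℝ)) / L := by
  rw [pr_of_fsupp f s (U := univ.image p) fun x hx => by
    rw [hf, ind_neg (by simpa using hx), zero_div], sum_image hp.injOn, sum_div]
  refine sum_congr rfl fun i _ => ?_
  rw [hf, ind_pos ⟨i, rfl⟩]; ring

theorem pr_col (L : ℕ) (c : ℤ) (s : Cfg Pt) :
    pr (col L c) s = (∑ i : Fin L, (s (c, (i : ℤ)) : ℝ)) / L := by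
  refine pr_line (fun i : Fin L => ((c, (i : ℤ)) : Pt)) (fun i j h => ?_) _ (fun x => ?_) s
  · simp only [Prod.mk.injEq, true_and, Nat.cast_inj] at h; exact Fin.ext h
  · rw [col]; congr 1
    refine ind_congr ⟨fun h => ⟨⟨x.2.toNat, by omega⟩, Prod.ext h.1.symm (by simp; omega)⟩, ?_⟩
    rintro ⟨i, rfl⟩
    have := i.2
    simp

theorem pr_row (L : ℕ) (c : ℤ) (s : Cfg Pt) :
    pr (row L c) s = (∑ i : Fin L, (s ((i : ℤ), c) : ℝ)) / L := by
  refine pr_line (fun i : Fin L => (((i : ℤ), c) : Pt)) (fun i j h => ?_) _ (fun x => ?_) s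
  · simp only [Prod.mk.injEq, and_true, Nat.cast_inj] at h; exact Fin.ext h
  · rw [row]; congr 1
    refine ind_congr ⟨fun h => ⟨⟨x.1.toNat, by omega⟩, Prod.ext (by simp; omega) h.1.symm⟩, ?_⟩
    rintro ⟨i, rfl⟩
    have := i.2
    simp

theorem ell_sd (L : ℕ) (up d : Bool) : ∃ k : Fin 4, ∀ s, ell L up d s = pr (sd L k) s := by
  cases up <;> cases d
  · exact ⟨3, fun s => (pr_row L _ s).symm⟩
  · exact ⟨1, fun s => (pr_col L _ s).symm⟩
  · exact ⟨2, fun s => (pr_row L _ s).symm⟩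
  · exact ⟨0, fun s => (pr_col L _ s).symm⟩

theorem ell_sd0 (L : ℕ) (s : Cfg Pt) : ell L true true s = pr (sd L 0) s := (pr_col L _ s).symm

/-- corner of a block -/
def cn (L : ℕ) (y : P) : Pt := (L * y.1, L * y.2)

def dir (d : Bool) : P := if d then e1 else e2

/-- the nearest neighbour edges between two blocks -/
def se (L : ℕ) (y : P) (d : Bool) (i : Fin L) : Pt × Pt :=
  (pt L true d i + cn L y, pt L false d i + cn L (y + dir d))

theorem tile_of {L : ℕ} (hL : 0 < L) {z : Pt} (hz : z ∈ sq 0 L) (y : P) :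
    tileOf 0 L (z + cn L y) = y := by
  rw [← mem_tile_iff hL]
  rw [mem_sq] at hz ⊢
  simp only [tile, cn, Prod.fst_add, Prod.snd_add, Prod.fst_zero, Prod.snd_zero] at hz ⊢
  omega

theorem se_sub (L : ℕ) (y : P) (d : Bool) (i : Fin L) : (se L y d i).2 - (se L y d i).1 = dir d := by
  cases d <;> simp [se, pt, cn, dir, e1, e2, mul_add] <;> ring

theorem dir_ne (d : Bool) : dir d ≠ 0 := by cases d <;> simp [dir, e1, e2]

theorem se_inj {L : ℕ} (hL : 0 < L) :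
    Function.Injective fun z : P × (Bool × Fin L) => se L z.1 z.2.1 z.2.2 := by
  rintro ⟨y, d, i⟩ ⟨y', d', i'⟩ h
  simp only at h
  have h1 : y = y' := by
    have := tile_of hL (pt_mem L true d i) y
    rw [show pt L true d i + cn L y = _ from congrArg Prod.fst h] at this
    exact this.symm.trans (tile_of hL (pt_mem L true d' i') y')
  have h2 : d = d' := by
    have := se_sub L y d i
    rw [h, se_sub] at this
    cases d <;> cases d' <;> simp_all [dir, e1, e2]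
  subst h1 h2
  have h3 : pt L true d i = pt L true d i' := add_right_cancel (congrArg Prod.fst h)
  cases d <;> simp [pt] at h3 <;> simp [Fin.ext h3]

/-- translate of an edge -/
def tr (c : Pt) (e : Pt × Pt) : Pt × Pt := (e.1 + c, e.2 + c)

/-- data of the block decomposition -/
structure Dt where
  Λt : Lat
  L : ℕ
  q : ℕ
  a : ℝ
  Λ : Finset P
  Λ' : Finset P
  D : Finset Pt
  sm : P → Bool → ℤ
  σ : Pt × Pt → ℤ

namespace Dt
variable (X : Dt)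

noncomputable def I : Finset (Pt × Pt) :=
  (X.Λ ×ˢ X.Λt.edI (sq 0 X.L)).image fun z => tr (cn X.L z.1) z.2
noncomputable def S : Finset (Pt × Pt) :=
  (X.Λ' ×ˢ (univ : Finset (Bool × Fin X.L))).image fun z => se X.L z.1 z.2.1 z.2.2
noncomputable def R : Finset (Pt × Pt) := X.Λt.edT X.D \ (X.I ∪ X.S)

structure Ok : Prop where
  ok : X.Λt.Ok
  L0 : 0 < X.L
  q0 : 0 < X.q
  hD : ∀ x ∈ X.D, tileOf 0 X.L x ∈ X.Λ
  σS : ∀ y d i, X.σ (se X.L y d i) = X.sm y d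
  σI : ∀ e ∈ X.I, X.σ e = 0
  σR : ∀ e ∈ X.R, X.σ e = 0
  σD : ∀ e : Pt × Pt, e.1 ∉ X.D → e.2 ∉ X.D → X.σ e = 0

abbrev Bl : Type := X.Λ → ℤ × Cfg Pt
abbrev G : Type := (X.Bl × (X.Λ' → Bool → Fin X.L → ℤ)) × (X.R → ℤ)

noncomputable def U (up d : Bool) (y : P) : X.Bl →+ ℝ :=
  AddMonoidHom.mk' (fun x => xt X.Λ 0 (fun v => ((x v).1 : ℝ) / X.q + ell X.L up d (x v).2) y)
    fun x x' => by
      unfold xt
      split_ifs
      · simp only [Pi.add_apply, Prod.fst_add, Prod.snd_add, Int.cast_add, map_add]; ring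
      · simp

theorem U_apply (up d : Bool) (y : P) (x : X.Bl) :
    X.U up d y x = xt X.Λ 0 (fun v => ((x v).1 : ℝ) / X.q + ell X.L up d (x v).2) y := rfl

noncomputable def tt (y : P) (d : Bool) (x : X.Bl) (c : ℤ) : ℝ :=
  X.U false d (y + dir d) x - X.U true d y x + c * X.sm y d

noncomputable def arg (y : X.Λ') (d : Bool) : X.G × ℤ →+ ℝ :=
  AddMonoidHom.mk' (fun p => X.tt y d p.1.1.1 p.2 - av X.L (p.1.1.2 y d)) fun p p' => by
    simp only [tt, Prod.fst_add, Prod.snd_add, Pi.add_apply, map_add, Int.cast_add]; ring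

/-- the unglued, refined weight -/
noncomputable def ρ (p : X.G × ℤ) : ℝ :=
  ((∏ v, X.Λt.WN X.L (p.1.1.1 v).2 / Zs (X.Λt.WN X.L)) *
    ∏ y : X.Λ', ∏ d, nu X.Λt.w X.L (p.1.1.2 y d) / Zs (nu X.Λt.w X.L) *
      Real.exp (-X.a ^ 2 * X.arg y d p ^ 2 / 2)) * ∏ e, X.Λt.w (p.1.2 e) / Zs X.Λt.w

variable {X}

theorem cenN (h : X.Ok) : Cen (X.Λt.WN X.L) := h.ok.cen_Nr (self_mem_sq 0 h.L0)

theorem rsd_div {L : Type} [AddCommGroup L] {W : L → ℝ} (h : Cen W) : RSD fun s => W s / Zs W :=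
  Md.rsd_mul h.toRSD (Md.rsd_const (inv_nonneg.2 h.wt.pos.le))

theorem rsd_sp {L : Type} [AddCommGroup L] (a : ℝ) (ℓ : L →+ ℝ) :
    RSD fun s => Real.exp (-a ^ 2 * ℓ s ^ 2 / 2) := by
  have := Rsd63.rsd_gq (univ : Finset Unit) fun _ => a • ℓ
  convert this using 2 with s
  simp [gq, mul_pow]

theorem rsd_ρ (h : X.Ok) : RSD X.ρ := by
  refine Md.rsd_mul (Md.rsd_mul (Md.rsd_prod fun v _ => ?_) (Md.rsd_prod fun y _ =>
    Md.rsd_prod fun d _ => Md.rsd_mul ?_ (rsd_sp _ _))) (Md.rsd_prod fun e _ => ?_)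
  · exact Md.rsd_comp (rsd_div (cenN h))
      (AddMonoidHom.mk' (fun p : X.G × ℤ => (p.1.1.1 v).2) fun _ _ => rfl)
  · exact Md.rsd_comp (rsd_div (cen_nu h.ok.fam X.L))
      (AddMonoidHom.mk' (fun p : X.G × ℤ => p.1.1.2 y d) fun _ _ => rfl)
  · exact Md.rsd_comp (rsd_div h.ok.fam.cen)
      (AddMonoidHom.mk' (fun p : X.G × ℤ => p.1.2 e) fun _ _ => rfl)

/-! ### the block-spring model -/

variable (X)
noncomputable def rd (t : Cfg Pt) : ℤ := round (X.q * ell X.L true true t)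
noncomputable def u (up d : Bool) (t : Cfg Pt) : ℝ := ell X.L up d t - X.rd t / X.q
noncomputable def μ (t : Cfg Pt) : ℝ≥0∞ := ENNReal.ofReal (X.Λt.WN X.L t / Zs (X.Λt.WN X.L))
noncomputable def φ (x : ℝ) : ℝ≥0∞ := ENNReal.ofReal (spr X.Λt.w X.L (X.a ^ 2) (-x))
noncomputable def bm (δ : ℝ) (Γ : ℝ≥0∞) : Bm (Cfg Pt) := mkB X.Λ X.Λ' X.μ 0 X.q X.φ X.u δ Γ
def σb (c : ℤ) (y : P) : ℤ × ℤ := (X.q * c * X.sm y true, X.q * c * X.sm y false)

noncomputable def eqv : X.Bl ≃ (X.Λ → ℤ) × (X.Λ → Cfg Pt) where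
  toFun x := (fun v => (x v).1 + X.rd (x v).2, fun v => (x v).2)
  invFun z := fun v => (z.1 v - X.rd (z.2 v), z.2 v)
  left_inv x := by funext v; simp
  right_inv z := by ext v <;> simp

variable {X}

theorem u_zero (up d : Bool) : X.u up d 0 = 0 := by simp [u, rd]

theorem U_eqv (up d : Bool) (y : P) (x : X.Bl) : X.U up d y x =
    (xt X.Λ 0 (X.eqv x).1 y : ℤ) / X.q + X.u up d (xt X.Λ 0 (X.eqv x).2 y) := by
  rw [U_apply]
  unfold xt
  split_ifs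
  · simp only [eqv, u, Equiv.coe_fn_mk, Int.cast_add]; ring
  · simp [u_zero]

theorem Wt_eqv (h : X.Ok) (δ : ℝ) (Γ : ℝ≥0∞) (c : ℤ) (x : X.Bl) :
    (X.bm δ Γ).Wt (X.σb c) (X.eqv x) = (∏ v, X.μ (x v).2) *
      ∏ y : X.Λ', ∏ d, ENNReal.ofReal (spr X.Λt.w X.L (X.a ^ 2) (X.tt y d x c)) := by
  have hq : (X.q : ℝ) ≠ 0 := by exact_mod_cast h.q0.ne'
  show (∏ v, X.μ (x v).2) * ∏ y ∈ X.Λ', (X.bm δ Γ).Fa y
    ((X.bm δ Γ).fld (X.σb c) (X.eqv x).1 y) ((X.bm δ Γ).st (X.eqv x).2) = _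
  rw [← prod_coe_sort X.Λ']
  refine congrArg₂ _ rfl (prod_congr rfl fun y _ => ?_)
  rw [Fintype.prod_bool]
  set n := xt X.Λ 0 (X.eqv x).1 with hn
  set w := xt X.Λ 0 (X.eqv x).2 with hw
  show X.φ (-(((grad n + X.σb c) y).1 : ℝ) / X.q + X.u true true (w y) - X.u false true (w (y + e1))) *
    X.φ (-(((grad n + X.σb c) y).2 : ℝ) / X.q + X.u true false (w y) - X.u false false (w (y + e2))) = _
  have e1' : -(-(((grad n + X.σb c) y).1 : ℝ) / X.q + X.u true true (w y) -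
      X.u false true (w (y + e1))) = X.tt y true x c := by
    simp only [tt, U_eqv, ← hn, ← hw, grad, σb, dir, Pi.add_apply, Prod.fst_add, if_true]
    push_cast
    field_simp
    ring
  have e2' : -(-(((grad n + X.σb c) y).2 : ℝ) / X.q + X.u true false (w y) -
      X.u false false (w (y + e2))) = X.tt y false x c := by
    simp only [tt, U_eqv, ← hn, ← hw, grad, σb, dir, Pi.add_apply, Prod.snd_add,
      Bool.false_eq_true, if_false]
    push_cast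
    field_simp
    ring
  rw [φ, φ, e1', e2']

theorem tsum_ρ (h : X.Ok) (δ : ℝ) (Γ : ℝ≥0∞) (c : ℤ) (Φ : X.Bl → ℝ≥0∞) :
    ∑' p : X.G, ENNReal.ofReal (X.ρ (p, c)) * Φ p.1.1 =
      ∑' z, (X.bm δ Γ).Wt (X.σb c) z * Φ (X.eqv.symm z) := by
  have hN := (cenN h).wt
  have hν := (cen_nu h.ok.fam X.L).wt
  have hw := h.ok.fam.cen.wt
  have e : ∀ p : X.G, ENNReal.ofReal (X.ρ (p, c)) * Φ p.1.1 =
      ((∏ v, X.μ (p.1.1 v).2) * Φ p.1.1 *
        ∏ y : X.Λ', ∏ d, ENNReal.ofReal (nu X.Λt.w X.L (p.1.2 y d) / Zs (nu X.Λt.w X.L)) *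
          ENNReal.ofReal (Real.exp (-X.a ^ 2 * (X.tt y d p.1.1 c - av X.L (p.1.2 y d)) ^ 2 / 2))) *
        ∏ e, ENNReal.ofReal (X.Λt.w (p.2 e) / Zs X.Λt.w) := by
    intro p
    have n1 : ∀ t, 0 ≤ X.Λt.WN X.L t / Zs (X.Λt.WN X.L) := fun t => div_nonneg (hN.nonneg _) hN.pos.le
    have n2 : ∀ k, 0 ≤ nu X.Λt.w X.L k / Zs (nu X.Λt.w X.L) :=
      fun k => div_nonneg (hν.nonneg _) hν.pos.le
    have n3 : ∀ k, 0 ≤ X.Λt.w k / Zs X.Λt.w := fun k => div_nonneg (hw.nonneg _) hw.pos.le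
    have n4 : ∀ y d, 0 ≤ nu X.Λt.w X.L (p.1.2 y d) / Zs (nu X.Λt.w X.L) *
        Real.exp (-X.a ^ 2 * X.arg y d (p, c) ^ 2 / 2) :=
      fun y d => mul_nonneg (n2 _) (Real.exp_pos _).le
    rw [ρ, ENNReal.ofReal_mul (mul_nonneg (prod_nonneg fun _ _ => n1 _)
        (prod_nonneg fun _ _ => prod_nonneg fun _ _ => n4 _ _)),
      ENNReal.ofReal_mul (prod_nonneg fun _ _ => n1 _),
      ENNReal.ofReal_prod_of_nonneg fun _ _ => n1 _, ENNReal.ofReal_prod_of_nonneg fun _ _ => n3 _,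
      ENNReal.ofReal_prod_of_nonneg fun _ _ => prod_nonneg fun _ _ => n4 _ _]
    have : ∀ y : X.Λ', ENNReal.ofReal (∏ d, nu X.Λt.w X.L (p.1.2 y d) / Zs (nu X.Λt.w X.L) *
        Real.exp (-X.a ^ 2 * X.arg y d (p, c) ^ 2 / 2)) =
        ∏ d, ENNReal.ofReal (nu X.Λt.w X.L (p.1.2 y d) / Zs (nu X.Λt.w X.L)) *
          ENNReal.ofReal (Real.exp (-X.a ^ 2 * (X.tt y d p.1.1 c - av X.L (p.1.2 y d)) ^ 2 / 2)) := by
      intro y
      rw [ENNReal.ofReal_prod_of_nonneg fun _ _ => n4 _ _]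
      exact prod_congr rfl fun d _ => ENNReal.ofReal_mul (n2 _)
    simp only [this, μ]
    ring
  simp only [e]
  rw [ENNReal.tsum_prod (f := fun (p : X.Bl × (X.Λ' → Bool → Fin X.L → ℤ)) (r : X.R → ℤ) =>
    ((∏ v, X.μ (p.1 v).2) * Φ p.1 *
        ∏ y : X.Λ', ∏ d, ENNReal.ofReal (nu X.Λt.w X.L (p.2 y d) / Zs (nu X.Λt.w X.L)) *
          ENNReal.ofReal (Real.exp (-X.a ^ 2 * (X.tt y d p.1 c - av X.L (p.2 y d)) ^ 2 / 2))) *
        ∏ e, ENNReal.ofReal (X.Λt.w (r e) / Zs X.Λt.w))]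
  simp only [ENNReal.tsum_mul_left]
  rw [tsum_pi fun (_ : X.R) k => ENNReal.ofReal (X.Λt.w k / Zs X.Λt.w)]
  simp only [tsum_norm_one hw, prod_const_one, mul_one]
  rw [ENNReal.tsum_prod (f := fun (x : X.Bl) (j : X.Λ' → Bool → Fin X.L → ℤ) =>
    (∏ v, X.μ (x v).2) * Φ x *
        ∏ y : X.Λ', ∏ d, ENNReal.ofReal (nu X.Λt.w X.L (j y d) / Zs (nu X.Λt.w X.L)) *
          ENNReal.ofReal (Real.exp (-X.a ^ 2 * (X.tt y d x c - av X.L (j y d)) ^ 2 / 2)))]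
  refine Eq.trans ?_ (X.eqv.tsum_eq fun z => (X.bm δ Γ).Wt (X.σb c) z * Φ (X.eqv.symm z))
  refine tsum_congr fun x => ?_
  rw [ENNReal.tsum_mul_left, tsum_pi fun (y : X.Λ') (j : Bool → Fin X.L → ℤ) =>
    ∏ d, ENNReal.ofReal (nu X.Λt.w X.L (j d) / Zs (nu X.Λt.w X.L)) *
      ENNReal.ofReal (Real.exp (-X.a ^ 2 * (X.tt y d x c - av X.L (j d)) ^ 2 / 2)),
    Wt_eqv h, Equiv.symm_apply_apply, mul_right_comm]
  refine congrArg₂ _ (congrArg₂ _ rfl (prod_congr rfl fun y _ => ?_)) rfl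
  rw [tsum_pi fun (d : Bool) (k : Fin X.L → ℤ) =>
    ENNReal.ofReal (nu X.Λt.w X.L k / Zs (nu X.Λt.w X.L)) *
      ENNReal.ofReal (Real.exp (-X.a ^ 2 * (X.tt y d x c - av X.L k) ^ 2 / 2))]
  exact prod_congr rfl fun d _ => tsum_nu h.ok.fam X.L (sq_nonneg _) _

/-! ### the embedding of the true model -/

/-- the heights of a block, seen from its corner -/
noncomputable def tb (L : ℕ) (c : Pt) (s : Cfg Pt) : Cfg Pt :=
  Finsupp.onFinset (sq 0 L) (fun y => if y ∈ sq 0 L then s (y + c) - s c else 0)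
    fun y hy => by by_contra h; exact hy (if_neg h)

theorem tb_apply (L : ℕ) (c : Pt) (s : Cfg Pt) (y : Pt) :
    tb L c s y = if y ∈ sq 0 L then s (y + c) - s c else 0 := rfl

variable (X)
noncomputable def emb : Cfg Pt →+ X.G :=
  AddMonoidHom.mk' (fun s => ((fun v => (X.q * s (cn X.L v), tb X.L (cn X.L v) s),
    fun y d i => dE (se X.L y d i) s), fun e => dE e s)) fun s t => by
      refine Prod.ext (Prod.ext (funext fun v => Prod.ext ?_ ?_) ?_) ?_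
      · simp [mul_add]
      · ext y
        simp only [Pi.add_apply, Prod.fst_add, Prod.snd_add, Finsupp.add_apply, tb_apply]
        split_ifs <;> ring
      · funext y d i; exact dE_add _ _ _
      · funext e; exact dE_add _ _ _

def bb : X.G := ((0, fun y d _ => X.sm y d), 0)

/-- configurations supported in `D` -/
def K : AddSubgroup (Cfg Pt) where
  carrier := {s | ∀ x, x ∉ X.D → s x = 0}
  add_mem' := fun ha hb x hx => by simp [ha x hx, hb x hx]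
  zero_mem' := fun _ _ => rfl
  neg_mem' := fun ha x hx => by simp [ha x hx]

variable {X}

theorem emb_inj (h : X.Ok) : Function.Injective (X.emb.comp X.K.subtype) := by
  refine (injective_iff_map_eq_zero _).2 fun s hs => Subtype.ext ?_
  ext x
  by_cases hx : x ∈ X.D
  swap
  · exact s.2 x hx
  have h1 := congrFun (congrArg (fun p : X.G => p.1.1) hs) ⟨_, h.hD x hx⟩
  have h2 : (X.q : ℤ) * s.1 (cn X.L (tileOf 0 X.L x)) = 0 := congrArg Prod.fst h1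
  have h3 : tb X.L (cn X.L (tileOf 0 X.L x)) s.1 = 0 := congrArg Prod.snd h1
  have h4 : x - cn X.L (tileOf 0 X.L x) ∈ sq 0 X.L := by
    have := (mem_tile_iff (a := 0) (x := x) h.L0).2 rfl
    rw [mem_sq] at this ⊢
    simp only [tile, cn, Prod.fst_sub, Prod.snd_sub, Prod.fst_zero, Prod.snd_zero] at this ⊢
    omega
  have h5 := DFunLike.congr_fun h3 (x - cn X.L (tileOf 0 X.L x))
  rw [tb_apply, if_pos h4, sub_add_cancel] at h5
  have h6 := (mul_eq_zero.1 h2).resolve_left (by exact_mod_cast h.q0.ne')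
  simpa [h6] using h5

theorem U_emb (h : X.Ok) {s : Cfg Pt} (hs : s ∈ X.K) (up d : Bool) (y : P) :
    X.U up d y (X.emb s).1.1 = (∑ i, (s (pt X.L up d i + cn X.L y) : ℝ)) / X.L := by
  have hq : (X.q : ℝ) ≠ 0 := by exact_mod_cast h.q0.ne'
  have hL : (X.L : ℝ) ≠ 0 := by exact_mod_cast h.L0.ne'
  rw [U_apply]
  unfold xt
  split_ifs with hy
  · show ((X.q * s (cn X.L y) : ℤ) : ℝ) / X.q + ell X.L up d (tb X.L (cn X.L y) s) = _
    simp only [ell_apply, tb_apply, pt_mem, if_true, Int.cast_sub, sum_sub_distrib, sum_const,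
      card_univ, Fintype.card_fin, nsmul_eq_mul, Int.cast_mul, Int.cast_natCast]
    field_simp
    ring
  · rw [sum_eq_zero, zero_div]
    intro i _
    rw [hs _ fun hD => hy (tile_of h.L0 (pt_mem _ _ _ _) y ▸ h.hD _ hD), Int.cast_zero]

theorem prod_edges (h : X.Ok) (f : Pt × Pt → ℝ) :
    (∏ e ∈ X.Λt.edT X.D, f e) * ∏ e ∈ (X.I ∪ X.S) \ X.Λt.edT X.D, f e =
      ((∏ v : X.Λ, ∏ e ∈ X.Λt.edI (sq 0 X.L), f (tr (cn X.L v) e)) *
        ∏ y : X.Λ', ∏ d, ∏ i, f (se X.L y d i)) * ∏ e : X.R, f e := by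
  have hI : ∏ e ∈ X.I, f e = ∏ v : X.Λ, ∏ e ∈ X.Λt.edI (sq 0 X.L), f (tr (cn X.L v) e) := by
    rw [I, prod_image, prod_product, prod_coe_sort X.Λ
      fun v => ∏ e ∈ X.Λt.edI (sq 0 X.L), f (tr (cn X.L v) e)]
    rintro ⟨v, e⟩ h1 ⟨v', e'⟩ h2 he
    have a1 := (Lat.mem_edI.1 (mem_product.1 (mem_coe.1 h1)).2).2.1
    have a2 := (Lat.mem_edI.1 (mem_product.1 (mem_coe.1 h2)).2).2.1
    have h3 : v = v' := by
      have := tile_of h.L0 a1 v
      rw [show e.1 + cn X.L v = _ from congrArg Prod.fst he] at this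
      exact this.symm.trans (tile_of h.L0 a2 v')
    subst h3
    exact Prod.ext rfl (Prod.ext (add_right_cancel (congrArg Prod.fst he))
      (add_right_cancel (congrArg Prod.snd he)))
  have hS : ∏ e ∈ X.S, f e = ∏ y : X.Λ', ∏ d, ∏ i, f (se X.L y d i) := by
    rw [S, prod_image (se_inj h.L0).injOn, prod_product, prod_coe_sort X.Λ'
      fun y => ∏ d, ∏ i, f (se X.L y d i)]
    exact prod_congr rfl fun y _ => Fintype.prod_prod_type _
  have hd : Disjoint X.I X.S := by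
    rw [disjoint_left]
    intro e h1 h2
    obtain ⟨⟨v, e'⟩, hv, rfl⟩ := mem_image.1 h1
    obtain ⟨⟨y, d, i⟩, -, he⟩ := mem_image.1 h2
    have a := (Lat.mem_edI.1 (mem_product.1 hv).2).2
    have b1 := tile_of h.L0 (pt_mem X.L true d i) y
    have b2 := tile_of h.L0 (pt_mem X.L false d i) (y + dir d)
    rw [show pt X.L true d i + cn X.L y = _ from congrArg Prod.fst he] at b1
    rw [show pt X.L false d i + cn X.L (y + dir d) = _ from congrArg Prod.snd he] at b2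
    have c1 := (tile_of h.L0 a.1 v).symm.trans b1
    have c2 := (tile_of h.L0 a.2 v).symm.trans b2
    exact dir_ne d (by simpa [c1] using c2)
  rw [← hI, ← hS, ← prod_union hd, prod_coe_sort X.R f, R, ← prod_union disjoint_sdiff,
    ← prod_union disjoint_sdiff, union_sdiff_self_eq_union, union_sdiff_self_eq_union, union_comm]

theorem ρ_emb (h : X.Ok) : ∃ C : ℝ, 0 < C ∧ ∀ (c : ℤ) (s : Cfg Pt), s ∈ X.K →
    X.ρ (X.emb s + c • X.bb, c) = C * (X.Λt.D X.D).Ws 0 (c • X.σ) s := by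
  have hN := (cenN h).wt.pos
  have hν := (cen_nu h.ok.fam X.L).wt.pos
  have hw := h.ok.fam.cen.wt.pos
  have hL : (X.L : ℝ) ≠ 0 := by exact_mod_cast h.L0.ne'
  refine ⟨(∏ _e ∈ (X.I ∪ X.S) \ X.Λt.edT X.D, X.Λt.w 0) /
    (((∏ _v : X.Λ, Zs (X.Λt.WN X.L)) * ∏ _y : X.Λ', ∏ _d : Bool, Zs (nu X.Λt.w X.L)) *
      ∏ _e : X.R, Zs X.Λt.w), div_pos (prod_pos fun _ _ => h.ok.fam.pos 0) (mul_pos (mul_pos
        (prod_pos fun _ _ => hN) (prod_pos fun _ _ => prod_pos fun _ _ => hν))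
        (prod_pos fun _ _ => hw)), fun c s hs => ?_⟩
  set f : Pt × Pt → ℝ := fun e => X.Λt.w (dE e s + (c • X.σ) e) with hf
  have h1 : (X.Λt.D X.D).Ws 0 (c • X.σ) s = ∏ e ∈ X.Λt.edT X.D, f e := by
    rw [Mdl.Ws, ind_pos (p := ∀ x, x ∉ (X.Λt.D X.D).A → s x = (0 : Cfg Pt) x) hs, one_mul]
    simp [Lat.D, hf]
  have h2 : ∏ _e ∈ (X.I ∪ X.S) \ X.Λt.edT X.D, X.Λt.w 0 =
      ∏ e ∈ (X.I ∪ X.S) \ X.Λt.edT X.D, f e := by
    refine prod_congr rfl fun e he => ?_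
    have a1 : e.2 - e.1 ∈ X.Λt.Jp := by
      rcases mem_union.1 (mem_sdiff.1 he).1 with a | a
      · obtain ⟨⟨v, e'⟩, hv, rfl⟩ := mem_image.1 a
        simpa [tr] using (Lat.mem_edI.1 (mem_product.1 hv).2).1
      · obtain ⟨⟨y, d, i⟩, -, rfl⟩ := mem_image.1 a
        rw [se_sub]
        cases d
        · exact h.ok.e2
        · exact h.ok.e1
    have a2 := (mem_sdiff.1 he).2
    rw [Lat.mem_edT] at a2
    push Not at a2
    have a3 := a2 a1
    simp [hf, dE, hs _ a3.1, hs _ a3.2, h.σD e a3.1 a3.2]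
  have h3 : ∀ v : X.Λ, X.Λt.WN X.L ((X.emb s + c • X.bb).1.1 v).2 =
      ∏ e ∈ X.Λt.edI (sq 0 X.L), f (tr (cn X.L v) e) := by
    intro v
    have e0 : ((X.emb s + c • X.bb).1.1 v).2 = tb X.L (cn X.L v) s := by
      simp [bb]; rfl
    rw [e0, Lat.WN, Mdl.W, ind_pos, one_mul]
    · simp only [Lat.Nr, Lat.N, Mdl.free, prod_const_one, mul_one]
      refine prod_congr rfl fun e he => ?_
      have a := (Lat.mem_edI.1 he).2
      have b := h.σI _ (mem_image.2 ⟨(v, e), mem_product.2 ⟨v.2, he⟩, rfl⟩)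
      simp only at b
      simp only [hf, Pi.smul_apply, b, smul_zero, add_zero]
      simp only [dE, tb_apply, a.1, a.2, if_true, tr]
      congr 1; ring
    · intro x hx
      rw [tb_apply]
      split_ifs with h4
      · have : x = 0 := by
          by_contra h5
          exact hx (mem_erase.2 ⟨h5, h4⟩)
        simp [this]
      · rfl
  have h4 : ∀ (y : X.Λ') d, nu X.Λt.w X.L ((X.emb s + c • X.bb).1.2 y d) = ∏ i, f (se X.L y d i) := by
    intro y d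
    refine prod_congr rfl fun i _ => ?_
    simp only [hf, Pi.smul_apply, h.σS]
    rfl
  have h5 : ∀ (y : X.Λ') d, X.arg y d (X.emb s + c • X.bb, c) = 0 := by
    intro y d
    have e0 : (X.emb s + c • X.bb).1.1 = (X.emb s).1.1 := by simp [bb]
    have e1 : ∀ i, (X.emb s + c • X.bb).1.2 y d i = dE (se X.L y d i) s + c * X.sm y d :=
      fun i => rfl
    show X.tt y d (X.emb s + c • X.bb).1.1 c - av X.L ((X.emb s + c • X.bb).1.2 y d) = 0
    rw [e0, tt, U_emb h hs, U_emb h hs, av_apply]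
    simp only [e1, dE, se, Int.cast_add, Int.cast_sub, Int.cast_mul, sum_add_distrib,
      sum_sub_distrib, sum_const, card_univ, Fintype.card_fin, nsmul_eq_mul]
    field_simp
    ring
  have h6 : ∀ e : X.R, X.Λt.w ((X.emb s + c • X.bb).2 e) = f e := by
    intro e
    have e0 : (X.emb s + c • X.bb).2 e = dE e s := by simp [bb]; rfl
    simp [e0, hf, h.σR e e.2]
  rw [h1, h2, div_mul_eq_mul_div, mul_comm (∏ e ∈ _ \ _, f e), prod_edges h, ρ]
  simp only [h3, h4, h5, h6, prod_div_distrib]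
  simp only [ne_eq, OfNat.ofNat_ne_zero, not_false_eq_true, zero_pow, mul_zero, zero_div,
    Real.exp_zero, mul_one, prod_div_distrib]
  rw [div_mul_div_comm, div_mul_div_comm]

end Dt

end Crest.Agent.T145.Pei
end

-- ▼ part T145/PeiF_33
section

/-!
# Row 145, Peierls argument, part F: transfer to the true model (helper33)
-/

set_option autoImplicit false

namespace Crest.Agent.T145.Pei

open Finset
open scoped ENNReal

namespace Dt
variable {X : Dt} {δ : ℝ} {Γ : ℝ≥0∞}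

theorem u_sq (h : X.Ok) (t : Cfg Pt) : X.u true true t ^ 2 ≤ 1 / 4 ∧
    8 * X.u true true t ^ 2 ≤ 1 - Real.cos (2 * Real.pi * X.q * ell X.L true true t) := by
  have hq : (1 : ℝ) ≤ X.q := by exact_mod_cast h.q0
  set y := X.q * ell X.L true true t - X.rd t with hy
  have h1 : |y| ≤ 1 / 2 := abs_sub_round _
  have h2 : X.q * X.u true true t = y := by rw [u, hy]; field_simp
  have h3 : X.u true true t ^ 2 ≤ y ^ 2 := by
    rw [← h2, mul_pow]
    exact le_mul_of_one_le_left (sq_nonneg _) (one_le_pow₀ hq)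
  have h4 : y ^ 2 ≤ 1 / 4 := by have := abs_le.1 h1; nlinarith
  refine ⟨h3.trans h4, ?_⟩
  have h5 : |2 * Real.pi * y| ≤ Real.pi := by
    rw [abs_mul, abs_of_pos (by positivity)]; nlinarith [Real.pi_pos]
  have h6 := Real.cos_le_one_sub_mul_cos_sq h5
  have h7 : 2 / Real.pi ^ 2 * (2 * Real.pi * y) ^ 2 = 8 * y ^ 2 := by field_simp; ring
  have h8 : 2 * Real.pi * X.q * ell X.L true true t = 2 * Real.pi * y + X.rd t * (2 * Real.pi) := by
    rw [hy]; ring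
  rw [h8, Real.cos_add_int_mul_two_pi]
  linarith

theorem T0_mom (h : X.Ok) (hl : X.Λt.Lok X.L X.q δ) :
    ∑' ω, X.μ ω * ENNReal.ofReal (T0 X.u ω) ≤ ENNReal.ofReal (12 * δ) := by
  have hc := cenN h
  have key : ∀ up d, Ig (X.Λt.WN X.L) (fun t => X.u up d t ^ 2) ∧
      Ex (X.Λt.WN X.L) (fun t => X.u up d t ^ 2) ≤ 3 * δ := by
    intro up d
    obtain ⟨k, hk⟩ := ell_sd X.L up d
    set f := pr (sd X.L 0 - sd X.L k) with hf
    set g := (2 * Real.pi * ((X.q : ℤ) : ℝ)) • pr (sd X.L 0) with hg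
    have i1 : Ig (X.Λt.WN X.L) fun t => Real.cos (g t) := hc.ig (Tame.cos _)
    have i2 : Ig (X.Λt.WN X.L) fun t => f t * f t := hc.ig ((Tame.hom f).mul (Tame.hom f))
    have i3 := (((hc.wt.ig_const 1).sub i1).const_mul (1 / 4)).add (i2.const_mul 2)
    have b : ∀ t, X.u up d t ^ 2 ≤ 1 / 4 * (1 - Real.cos (g t)) + 2 * (f t * f t) := by
      intro t
      have h1 := (u_sq h t).2
      have h2 : X.u up d t = X.u true true t - f t := by
        rw [hf, pr_sub, AddMonoidHom.sub_apply, ← hk, ← ell_sd0, u, u]; ring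
      have h3 : g t = 2 * Real.pi * X.q * ell X.L true true t := by
        rw [hg, ell_sd0]; simp
      rw [h2, h3]
      nlinarith [sq_nonneg (X.u true true t + f t)]
    have i4 := Ig.of_le hc.wt.nonneg i3 (fun _ => sq_nonneg _) b
    refine ⟨i4, (Ex_mono hc.wt.nonneg i4 i3 b).trans ?_⟩
    rw [Ex_add (((hc.wt.ig_const 1).sub i1).const_mul _) (i2.const_mul _), Ex_const_mul, Ex_const_mul,
      Ex_sub (hc.wt.ig_const 1) i1, hc.wt.ex_const, ← hc.Vr_eq]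
    have h1 : 1 - δ ≤ Ex (X.Λt.WN X.L) fun t => Real.cos (g t) := hl.1
    have h2 : Vr (X.Λt.WN X.L) f f ≤ δ := hl.2 k
    have h3 := hc.wt.Vr_nonneg hc.se f
    linarith
  have i : Ig (X.Λt.WN X.L) (T0 X.u) :=
    (((key true true).1.add (key true false).1).add (key false true).1).add (key false false).1
  refine (tsum_norm hc.wt i (T0_nonneg _)).le.trans (ENNReal.ofReal_le_ofReal ?_)
  show Ex _ (fun t => _ + _ + _ + _) ≤ _
  rw [Ex_add (((key true true).1.add (key true false).1).add (key false true).1) (key false false).1,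
    Ex_add ((key true true).1.add (key true false).1) (key false true).1,
    Ex_add (key true true).1 (key true false).1]
  linarith [(key true true).2, (key true false).2, (key false true).2, (key false false).2]

theorem σb_zero : X.σb 0 = 0 := by funext y; simp [σb]

theorem Z_eq (h : X.Ok) (hb : (X.bm δ Γ).Ok) {c : ℤ} (hσ : (X.bm δ Γ).Sm (X.σb c)) :
    Summable (sl X.ρ c) ∧ ENNReal.ofReal (Zs (sl X.ρ c)) = (X.bm δ Γ).Z (X.σb c) := by
  have h0 := (rsd_ρ h).nonneg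
  have h1 := tsum_ρ h δ Γ c fun _ => 1
  simp only [mul_one] at h1
  have h2 : Summable (sl X.ρ c) := by
    have := ENNReal.summable_toReal (h1.trans_ne (Bm.Z_ne_top hb hσ))
    simp only [ENNReal.toReal_ofReal (h0 _)] at this
    exact this
  exact ⟨h2, (ENNReal.ofReal_tsum_of_nonneg (fun _ => h0 _) h2).trans h1⟩

theorem sum_emb (h : X.Ok) : ∃ C : ℝ, 0 < C ∧ 0 < X.ρ (0, 0) ∧ ∀ (c : ℤ) (F : Cfg Pt → ℝ),
    ∑' s : X.K, X.ρ (X.emb s + c • X.bb, c) * F s =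
      C * ∑' s, (X.Λt.D X.D).Ws 0 (c • X.σ) s * F s := by
  obtain ⟨C, hC, e⟩ := ρ_emb h
  refine ⟨C, hC, ?_, fun c F => ?_⟩
  · have := e 0 0 X.K.zero_mem
    simp only [map_zero, zero_smul, add_zero, ← Mdl.W_eq_Ws] at this
    rw [this]
    exact mul_pos hC (h.ok.cen_D _).pos0
  · rw [← tsum_mul_left, ← tsum_subtype_eq_of_support_subset (s := X.K)
      (f := fun s => C * ((X.Λt.D X.D).Ws 0 (c • X.σ) s * F s))]
    · exact tsum_congr fun s => by rw [e c s s.2, mul_assoc]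
    · intro s hs x hx
      exact Mdl.Ws_ne_zero (left_ne_zero_of_mul (right_ne_zero_of_mul hs)) hx

theorem wt0 (h : X.Ok) (hb : (X.bm δ Γ).Ok) :
    Wt (sl X.ρ 0) ∧ ENNReal.ofReal (Zs (sl X.ρ 0)) = (X.bm δ Γ).Z 0 := by
  have := Z_eq h hb (c := 0) (by rw [σb_zero]; exact Bm.sm_zero)
  rw [σb_zero] at this
  obtain ⟨C, -, h0, -⟩ := sum_emb h
  exact ⟨Wt.of_pos (fun _ => (rsd_ρ h).nonneg _) this.1 (a := 0) h0, this.2⟩

theorem seam_le (h : X.Ok) (hb : (X.bm δ Γ).Ok) (hσ : (X.bm δ Γ).Sm (X.σb 1)) {r : ℝ} (hr : 0 ≤ r)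
    (hZ : (X.bm δ Γ).Z (X.σb 1) ≤ ENNReal.ofReal r * (X.bm δ Γ).Z 0) :
    Zs ((X.Λt.D X.D).Ws 0 X.σ) ≤ r * Zs ((X.Λt.D X.D).W 0) := by
  obtain ⟨w0, z0⟩ := wt0 h hb
  obtain ⟨s1, z1⟩ := Z_eq h hb hσ
  obtain ⟨C, hC, -, e⟩ := sum_emb h
  have h1 := restr_seam _ (emb_inj h) X.bb (rsd_ρ h) w0.summ s1
  have e1 := e 1 fun _ => 1
  have e0 := e 0 fun _ => 1
  simp only [mul_one, one_smul, zero_smul, add_zero, ← Mdl.W_eq_Ws] at e1 e0
  rw [← z0, ← z1, ← ENNReal.ofReal_mul hr,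
    ENNReal.ofReal_le_ofReal_iff (mul_nonneg hr w0.pos.le)] at hZ
  have h2 : C * Zs ((X.Λt.D X.D).Ws 0 X.σ) * Zs (sl X.ρ 0) ≤
      Zs (sl X.ρ 1) * (C * Zs ((X.Λt.D X.D).W 0)) := by
    unfold Zs; rw [← e1, ← e0]; exact h1
  have h3 := h2.trans (mul_le_mul_of_nonneg_right hZ (mul_nonneg hC.le (h.ok.cen_D _).wt.pos.le))
  refine le_of_mul_le_mul_left ?_ (mul_pos hC w0.pos)
  linarith

theorem var_le (h : X.Ok) (hb : (X.bm δ Γ).Ok) {H : Cfg Pt → ℝ≥0∞} {K : ℝ≥0∞}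
    (hM : (X.bm δ Γ).Mo H K) (hK : K ≠ ⊤) :
    Ex ((X.Λt.D X.D).W 0) (fun s => ell X.L true true s ^ 2) ≤ 2 * K.toReal ^ 3 + 1 := by
  obtain ⟨w0, z0⟩ := wt0 h hb
  obtain ⟨C, hC, -, e⟩ := sum_emb h
  have hq : (1 : ℝ) ≤ X.q := by exact_mod_cast h.q0
  have hc := h.ok.cen_D X.D
  let Y : X.G →+ ℝ := (X.U true true 0).comp ((AddMonoidHom.fst _ _).comp (AddMonoidHom.fst _ _))
  have h1 : ∑' p : X.G, ENNReal.ofReal (sl X.ρ 0 p * Y p ^ 2) ≤
      ENNReal.ofReal (Zs (sl X.ρ 0) * (2 * K.toReal ^ 3 + 1)) := by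
    have a1 := tsum_ρ h δ Γ 0 fun x => ENNReal.ofReal (X.U true true 0 x ^ 2)
    rw [σb_zero] at a1
    simp only [ENNReal.ofReal_mul (w0.nonneg _)]
    refine a1.le.trans ?_
    calc _ ≤ ∑' z, (2 * ((X.bm δ Γ).Wt 0 z *
          ((((X.bm δ Γ).lev z.1 0).natAbs ^ 2 : ℕ) : ℝ≥0∞)) + (X.bm δ Γ).Wt 0 z) := by
          refine ENNReal.tsum_le_tsum fun z => ?_
          rw [mul_left_comm, ← mul_add_one]
          refine mul_le_mul' le_rfl ?_
          rw [U_eqv, X.eqv.apply_symm_apply z, ← ENNReal.ofReal_natCast, ← ENNReal.ofReal_ofNat,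
            ← ENNReal.ofReal_mul (by norm_num), ← ENNReal.ofReal_one,
            ← ENNReal.ofReal_add (by positivity) zero_le_one]
          refine ENNReal.ofReal_le_ofReal ?_
          rw [Nat.cast_pow, Nat.cast_natAbs, Int.cast_abs, sq_abs]
          have b1 := (u_sq h (xt X.Λ 0 z.2 0)).1
          have b2 : (((xt X.Λ 0 z.1 0 : ℤ) : ℝ) / X.q) ^ 2 ≤ ((xt X.Λ 0 z.1 0 : ℤ) : ℝ) ^ 2 := by
            rw [div_pow]; exact div_le_self (sq_nonneg _) (one_le_pow₀ hq)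
          show _ ≤ 2 * ((xt X.Λ 0 z.1 0 : ℤ) : ℝ) ^ 2 + 1
          nlinarith [sq_nonneg (((xt X.Λ 0 z.1 0 : ℤ) : ℝ) / X.q - X.u true true (xt X.Λ 0 z.2 0))]
      _ ≤ 2 * ((X.bm δ Γ).Z 0 * K ^ 3) + (X.bm δ Γ).Z 0 := by
          rw [ENNReal.tsum_add, ENNReal.tsum_mul_left]
          exact add_le_add (mul_le_mul' le_rfl (Bm.var hb hM 0)) le_rfl
      _ = _ := by
          rw [ENNReal.ofReal_mul w0.pos.le, z0, ENNReal.ofReal_add (by positivity) zero_le_one,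
            ENNReal.ofReal_mul (by norm_num), ENNReal.ofReal_pow ENNReal.toReal_nonneg,
            ENNReal.ofReal_toReal hK, ENNReal.ofReal_one, ENNReal.ofReal_ofNat]
          ring
  have n1 : ∀ p, 0 ≤ sl X.ρ 0 p * Y p ^ 2 := fun p => mul_nonneg (w0.nonneg _) (sq_nonneg _)
  have i1 : Ig (sl X.ρ 0) fun p => Y p ^ 2 := by
    have := ENNReal.summable_toReal (ne_top_of_le_ne_top ENNReal.ofReal_ne_top h1)
    simp only [ENNReal.toReal_ofReal (n1 _)] at this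
    exact this
  have h2 : Ex (sl X.ρ 0) (fun p => Y p ^ 2) ≤ 2 * K.toReal ^ 3 + 1 := by
    rw [← ENNReal.ofReal_tsum_of_nonneg n1 i1,
      ENNReal.ofReal_le_ofReal_iff (mul_nonneg w0.pos.le (by positivity)), w0.tsum_eq] at h1
    exact le_of_mul_le_mul_left h1 w0.pos
  refine sq_of_cos hc.wt (hc.ig ((Tame.hom _).pow 2)) (hc.ig ((Tame.hom _).pow 4)) fun t => ?_
  have h3 : 1 - t ^ 2 * (2 * K.toReal ^ 3 + 1) / 2 ≤ Ex (sl X.ρ 0) fun p => Real.cos ((t • Y) p) := by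
    refine le_trans ?_ (Ex_mono w0.nonneg ((w0.ig_const 1).sub (i1.const_mul (t ^ 2 / 2)))
      (w0.ig_bdd fun p => Real.abs_cos_le_one _) fun p => ?_)
    · rw [Ex_sub (w0.ig_const 1) (i1.const_mul _), w0.ex_const, Ex_const_mul]
      nlinarith [sq_nonneg t]
    · refine le_trans (le_of_eq ?_) Real.one_sub_sq_div_two_le_cos
      simp only [AddMonoidHom.smul_apply, smul_eq_mul]; ring
  have h4 := restr_cos _ (emb_inj h) (Md.rsd_comp (rsd_ρ h) (AddMonoidHom.inl X.G ℤ)) w0.summ (t • Y)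
  have e0 := e 0 fun _ => 1
  have e1 := e 0 fun s => Real.cos (t * ell X.L true true s)
  simp only [mul_one, zero_smul, add_zero, ← Mdl.W_eq_Ws] at e1 e0
  have e2 : ∀ s : X.K, (t • Y) (X.emb s) = t * ell X.L true true s := fun s => by
    show t * X.U true true 0 (X.emb s).1.1 = _
    rw [U_emb h s.2, ell_apply, show cn X.L 0 = 0 by simp [cn]]
    simp only [add_zero]
  have h5 : (∑' p, sl X.ρ 0 p * Real.cos ((t • Y) p)) * (C * Zs ((X.Λt.D X.D).W 0)) ≤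
      Zs (sl X.ρ 0) * (C * ∑' s, (X.Λt.D X.D).W 0 s * Real.cos (t * ell X.L true true s)) := by
    unfold Zs
    rw [← e1, ← e0]
    simp only [← e2]
    exact h4
  rw [w0.tsum_eq, hc.wt.tsum_eq] at h5
  refine h3.trans (le_of_mul_le_mul_left ?_ (mul_pos w0.pos (mul_pos hC hc.wt.pos)))
  linarith

end Dt

end Crest.Agent.T145.Pei
end

-- ▼ part T145/Pei_33
section

/-!
# Row 145, Peierls argument: `peiStmt` (helper33)
-/

set_option autoImplicit false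

namespace Crest.Agent.T145.Pei

open Finset
open scoped ENNReal

/-- the seam at the level of the blocks -/
def smn (n : ℕ) (y : P) (d : Bool) : ℤ := if d = false ∧ y.2 = -1 ∧ 0 ≤ y.1 ∧ y.1 < n then 1 else 0

/-- the block decomposition of a domain in `bl 0 R` -/
noncomputable def mkD (Λt : Lat) (L q : ℕ) (a : ℝ) (R n : ℕ) (D : Finset Pt) : Dt :=
  ⟨Λt, L, q, a, bl 0 R, bl 0 (R + 1), D, smn n, seam (n * L)⟩

theorem mem_bl0 {x : Pt} {r : ℕ} : x ∈ bl 0 r ↔ (-(r : ℤ) ≤ x.1 ∧ x.1 ≤ r) ∧ -(r : ℤ) ≤ x.2 ∧ x.2 ≤ r := by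
  rw [mem_bl]; simp

theorem blk_iff {L : ℤ} {i y n : ℤ} (h0 : 0 ≤ i) (h1 : i < L) :
    (0 ≤ i + L * y ↔ 0 ≤ y) ∧ (i + L * y < n * L ↔ y < n) := by
  refine ⟨⟨fun h => ?_, fun h => by nlinarith⟩, fun h => ?_, fun h => by nlinarith⟩
  · by_contra h2; nlinarith
  · by_contra h2; nlinarith

theorem seam_se {L n : ℕ} (y : P) (d : Bool) (i : Fin L) : seam (n * L) (se L y d i) = smn n y d := by
  have hi : ((i : ℕ) : ℤ) < L := by exact_mod_cast i.2
  have h0 : (0 : ℤ) ≤ (i : ℕ) := by positivity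
  have h1 := blk_iff (y := y.1) (n := n) h0 hi
  have h2 : (L : ℤ) * (y.2 + 1) = 0 ↔ y.2 = -1 := by
    rw [mul_eq_zero]; omega
  unfold seam smn
  refine if_congr ?_ rfl rfl
  cases d
  · simp only [se, pt, cn, dir, e2, Bool.false_eq_true, if_false, if_true, Prod.fst_add,
      Prod.snd_add, add_zero, zero_add, Nat.cast_mul, h1.1, h1.2, h2, true_and]
    refine ⟨fun h => h.2, fun h => ⟨?_, h⟩⟩
    rw [h.1]; ring
  · simp only [se, pt, cn, dir, e1, if_true, Prod.fst_add, Prod.snd_add, add_zero]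
    constructor
    · intro h; omega
    · intro h; simp at h

theorem mkD_ok {Λt : Lat} (hΛ : Λt.Ok) {L q : ℕ} (hL : 0 < L) (hq : 0 < q) (a : ℝ) {R n : ℕ}
    (hn : n ≤ R) {D : Finset Pt} (hD : D ⊆ bl 0 R)
    (hD2 : ∀ x : ℤ, 0 ≤ x → x < (n * L : ℕ) → ((x, 0) : Pt) ∈ D) : (mkD Λt L q a R n D).Ok := by
  have hL' : (0 : ℤ) < L := by exact_mod_cast hL
  refine ⟨hΛ, hL, hq, fun x hx => ?_, seam_se, fun e he => ?_, fun e he => ?_, fun e h1 h2 => ?_⟩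
  · have := mem_bl0.1 (hD hx)
    have key : ∀ u : ℤ, -(R : ℤ) ≤ u → u ≤ R → -(R : ℤ) ≤ u / L ∧ u / L ≤ R := fun u h1 h2 =>
      ⟨(Int.le_ediv_iff_mul_le hL').2 (by nlinarith),
        Int.le_of_lt_add_one ((Int.ediv_lt_iff_lt_mul hL').2 (by nlinarith))⟩
    refine mem_bl0.2 ?_
    simp only [mkD, tileOf, Prod.fst_zero, Prod.snd_zero, sub_zero]
    exact ⟨key _ this.1.1 this.1.2, key _ this.2.1 this.2.2⟩
  · obtain ⟨⟨v, e'⟩, hv, rfl⟩ := mem_image.1 he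
    have a := (Lat.mem_edI.1 (mem_product.1 hv).2).2
    have a1 := mem_sq0.1 a.1
    have a2 := mem_sq0.1 a.2
    refine if_neg fun h => ?_
    have b1 : e'.1.2 + L * v.2 = -1 := h.1
    have b2 : e'.2.2 + L * v.2 = 0 := h.2.1
    have c1 := (blk_iff (y := v.2) (n := 0) a1.2.2.1 a1.2.2.2).1
    have c2 := (blk_iff (y := v.2) (n := 0) a2.2.2.1 a2.2.2.2).1
    simp only [mkD] at c1 c2
    omega
  · refine if_neg fun h => (mem_sdiff.1 he).2 (mem_union_right _ ?_)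
    have h1 := Int.emod_nonneg e.1.1 hL'.ne'
    have h2 := Int.emod_lt_of_pos e.1.1 hL'
    have h3 := Int.emod_add_mul_ediv e.1.1 L
    have h4 := blk_iff (y := e.1.1 / L) (n := n) h1 h2
    have h5 : e.1.1 < n * L := by exact_mod_cast h.2.2.2.2
    refine mem_image.2 ⟨((e.1.1 / L, -1), false, ⟨(e.1.1 % L).toNat, by simp only [mkD]; omega⟩),
      mem_product.2 ⟨mem_bl0.2 ?_, mem_univ _⟩, ?_⟩
    · simp only; omega
    · simp only [se, pt, cn, dir, e2, mkD, Bool.false_eq_true, if_false, if_true, Prod.mk_add_mk,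
        Int.toNat_of_nonneg h1, add_zero, h3]
      exact Prod.ext (Prod.ext rfl (by simp only; omega))
        (Prod.ext (by simp only; omega) (by simp only; omega))
  · refine if_neg fun h => h2 ?_
    have : e.2 = (e.1.1, 0) := Prod.ext h.2.2.1.symm h.2.1
    rw [this]
    exact hD2 _ h.2.2.2.1 h.2.2.2.2

theorem vD_bdd {Λ : Lat} (h : Λ.Ok) {L : ℕ} (hL : 0 < L) {B : ℝ}
    (hB : ∀ R, Ex ((Λ.D (bl 0 R)).W 0) (fun s => ell L true true s ^ 2) ≤ B) : ¬ Λ.Rough := by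
  have hL' : (0 : ℝ) < L := by exact_mod_cast hL
  set E := Λ.edI (sq 0 L) with hE
  choose N hN using fun i : Fin L =>
    sub_le_of_conn (h.conn_sq (self_mem_sq 0 hL) (pt_mem L true true i))
  set c := (Ex Λ.w fun k => Real.exp (1 * k)) + Ex Λ.w fun k => Real.exp (-1 * k) with hc
  set N' : ℝ := ((∑ i, (N i : ℝ)) / L) ^ 2 * E.card with hN'
  refine Lat.not_rough_iff.2 ⟨2 * B + 2 * N' * (E.card * c), fun R => ?_⟩
  refine (h.vD_mono (le_add_self : R ≤ L + R)).trans ?_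
  have hC := h.cen_D (bl 0 (L + R))
  have i1 : Ig ((Λ.D (bl 0 (L + R))).W 0) fun s => ell L true true s ^ 2 :=
    hC.ig ((Tame.hom _).pow 2)
  have i2 : ∀ e ∈ E, Ig ((Λ.D (bl 0 (L + R))).W 0) fun s => (dE e s : ℝ) ^ 2 := fun e _ =>
    hC.ig ((Tame.hom (dR e)).pow 2)
  have i3 := Ig.sum E i2
  have b : ∀ s : Cfg Pt, (s 0 : ℝ) ^ 2 ≤
      2 * ell L true true s ^ 2 + 2 * N' * ∑ e ∈ E, (dE e s : ℝ) ^ 2 := by
    intro s
    have b1 : |(s 0 : ℝ) - ell L true true s| ≤ (∑ i, (N i : ℝ)) / L * ∑ e ∈ E, |(dE e s : ℝ)| := by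
      have : (s 0 : ℝ) - ell L true true s = (∑ i, ((s 0 : ℝ) - s (pt L true true i))) / L := by
        rw [ell_apply, sum_sub_distrib, sum_const, card_univ, Fintype.card_fin, nsmul_eq_mul]
        field_simp
      rw [this, abs_div, abs_of_pos hL', div_mul_eq_mul_div, sum_mul]
      exact div_le_div_of_nonneg_right
        ((abs_sum_le_sum_abs _ _).trans (sum_le_sum fun i _ => hN i s)) hL'.le
    have b2 : (∑ e ∈ E, |(dE e s : ℝ)|) ^ 2 ≤ E.card * ∑ e ∈ E, (dE e s : ℝ) ^ 2 := by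
      simpa only [sq_abs] using sq_sum_le_card_mul_sum_sq (s := E) (f := fun e => |(dE e s : ℝ)|)
    have b3 : ((s 0 : ℝ) - ell L true true s) ^ 2 ≤ N' * ∑ e ∈ E, (dE e s : ℝ) ^ 2 := by
      rw [← sq_abs, hN', mul_assoc]
      refine (pow_le_pow_left₀ (abs_nonneg _) b1 2).trans ?_
      rw [mul_pow]
      exact mul_le_mul_of_nonneg_left b2 (sq_nonneg _)
    nlinarith [sq_nonneg ((s 0 : ℝ) - 2 * ell L true true s)]
  refine (Ex_mono hC.wt.nonneg (hC.ig ((Tame.hom (evH 0)).pow 2))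
    ((i1.const_mul 2).add (i3.const_mul _)) b).trans ?_
  rw [Ex_add (i1.const_mul 2) (i3.const_mul _), Ex_const_mul, Ex_const_mul, Ex_sum E i2]
  refine add_le_add (by linarith [hB (L + R)]) (mul_le_mul_of_nonneg_left ?_ (by positivity))
  rw [← nsmul_eq_mul]
  refine sum_le_card_nsmul _ _ _ fun e he => edge_sq (h.ctr_D _) (h.anch_D _) ?_ rfl
  refine Lat.edT_mono (fun x hx => ?_) (Lat.edI_subset_edT _ he)
  rw [mem_sq0] at hx
  rw [mem_bl0]; push_cast; omega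

theorem rect_bl0 (R : ℕ) : Rect (bl 0 R) := ⟨-R, R, -R, R, fun y => by rw [mem_bl0]; tauto⟩

theorem pei_one (F : Fa) {q : ℕ} (hq : 0 < q) : ∃ (δ : ℝ) (L₀ : ℕ), 0 < δ ∧
    ∀ Λ, F.Mem Λ → ∀ L : ℕ, L₀ ≤ L → Λ.Lok L q δ →
      ¬ Λ.Rough ∧ ∀ n R : ℕ, n * L ≤ R → Zs ((Λ.D (faces R)).Ws 0 (seam (n * L))) ≤
        3 * Real.exp (-Real.log 4 * n) * Zs ((Λ.D (faces R)).W 0) := by
  obtain ⟨a, ha, h⟩ := exists_par hq
  have hq' : (1 : ℝ) ≤ q := by exact_mod_cast hq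
  obtain ⟨δ₃, h3, Γ, K, hK, h⟩ := h (1 / (6 * a * q)) (by positivity) (by
    rw [mul_one_div, div_le_one (by positivity)]; nlinarith)
  refine ⟨δ₃ / 12, ⌈a + 32 * |F.τ₂| * a ^ 2⌉₊, by positivity, fun Λ hΛ L hL hl => ?_⟩
  have hτ : 0 < Λ.τ := F.pos.trans_le hΛ.2.2.1
  have hok : Λ.Ok := ⟨hΛ.1 ▸ F.adm, hτ⟩
  have hL1 : a + 32 * |F.τ₂| * a ^ 2 ≤ L := Nat.ceil_le.1 hL
  have hL2 : 0 ≤ 32 * |F.τ₂| * a ^ 2 := by positivity
  have hL0 : 0 < L := by exact_mod_cast (by linarith : (0 : ℝ) < L)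
  have hsp := spr_ok Λ.xy (δ := 1 / (6 * a * q)) hτ ha (n := L) (by linarith) (by
    rw [div_pow, mul_div_assoc', div_le_one (by positivity), mul_pow, mul_pow]
    nlinarith [sq_nonneg a, mul_le_mul_of_nonneg_left (one_le_pow₀ hq' : 1 ≤ (q : ℝ) ^ 2) (sq_nonneg a)])
    (by nlinarith [mul_le_mul_of_nonneg_right (hΛ.2.2.2.trans (le_abs_self _)) (sq_nonneg a)])
  have key : ∀ {R n : ℕ} {D : Finset Pt}, (mkD Λ L q a R n D).Ok →
      ((mkD Λ L q a R n D).bm (1 / (6 * a * q)) Γ).Ok ∧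
        ∃ H, ((mkD Λ L q a R n D).bm (1 / (6 * a * q)) Γ).Mo H K := by
    intro R n D hX
    refine h _ _ _ _ _ hsp (tsum_norm_one (Dt.cenN hX).wt) (by simp [T0, Dt.u_zero])
      ((Dt.T0_mom hX hl).trans (le_of_eq (by congr 1; ring))) _ _ (rect_bl0 R) fun y hy => ?_
    simp only [mkD, mem_bl0, e1, e2, Prod.fst_add, Prod.snd_add] at hy ⊢
    push_cast; omega
  refine ⟨vD_bdd hok hL0 (B := 2 * K.toReal ^ 3 + 1) fun R => ?_, fun n R hn => ?_⟩
  · have hX := mkD_ok hok hL0 hq a (Nat.zero_le R) (Subset.refl _) fun x h1 h2 => by omega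
    obtain ⟨hb, H, hM⟩ := key hX
    exact Dt.var_le hX hb hM hK
  have hn' : n ≤ R := (Nat.le_mul_of_pos_right n hL0).trans hn
  have hX := mkD_ok hok hL0 hq a hn' (D := faces R) (fun x hx => by
    rw [faces, mem_sq] at hx; rw [mem_bl0]; push_cast at hx; omega) fun x h1 h2 => by
    rw [faces, mem_sq]; push_cast at h2 ⊢; omega
  obtain ⟨hb, -⟩ := key hX
  have hσ : ((mkD Λ L q a R n (faces R)).bm (1 / (6 * a * q)) Γ).Sm
      ((mkD Λ L q a R n (faces R)).σb 1) := by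
    refine ⟨fun y _ => ⟨fun _ => by simp [Dt.σb, mkD, smn], fun h1 => ?_⟩, fun y h1 => ?_⟩
    · refine mul_eq_zero_of_right _ (if_neg fun h2 => h1 (mem_bl0.2 ?_))
      simp only [e2, Prod.fst_add, Prod.snd_add]; omega
    · refine Prod.ext (by simp [Dt.σb, mkD, smn])
        (mul_eq_zero_of_right _ (if_neg fun h2 => h1 (mem_bl0.2 ?_)))
      push_cast; omega
  refine Dt.seam_le hX hb hσ (by positivity) ?_
  have e : (3 : ℝ≥0∞) * 2⁻¹ ^ (2 * n) = ENNReal.ofReal (3 * Real.exp (-Real.log 4 * n)) := by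
    rw [mul_comm (-Real.log 4), Real.exp_nat_mul, Real.exp_neg, Real.exp_log (by norm_num),
      ENNReal.ofReal_mul (by norm_num), ENNReal.ofReal_pow (by norm_num), pow_mul,
      ENNReal.ofReal_inv_of_pos (by norm_num), ← ENNReal.inv_pow]
    norm_num
  rw [← e]
  rcases Nat.eq_zero_or_pos n with rfl | hn0
  · have : (mkD Λ L q a R 0 (faces R)).σb 1 = 0 := by
      funext y
      refine Prod.ext (by simp [Dt.σb, mkD, smn]) (mul_eq_zero_of_right _ (if_neg fun h2 => ?_))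
      omega
    rw [this]
    exact le_mul_of_one_le_left' (by norm_num)
  have hc : ∀ p, curl ((mkD Λ L q a R n (faces R)).σb 1) p =
      q * (smn n (p + e1) false - smn n p false) := fun p => by
    simp [curl, Dt.σb, mkD, smn, mul_sub]
  refine Bm.seam hb hσ (p₁ := (-1, -1)) (p₂ := (n - 1, -1)) ?_ (fun p h1 h2 => ?_) (by simp)
  · rw [hc]; simp [smn, e1, hn0, hq.ne']
  · rw [hc, smn, smn, if_congr (Q := false = false ∧ p.2 = -1 ∧ 0 ≤ p.1 ∧ p.1 < n) _ rfl rfl,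
      sub_self, mul_zero]
    simp only [ne_eq, Prod.ext_iff, e1, Prod.fst_add, Prod.snd_add, true_and] at h1 h2 ⊢
    constructor <;> intro h <;> omega

end Crest.Agent.T145.Pei

namespace Crest.Agent.T145

theorem Pei.lok_mono {Λ : Lat} {L : ℕ} {q : ℤ} {δ δ' : ℝ} (h : Λ.Lok L q δ) (hδ : δ ≤ δ') :
    Λ.Lok L q δ' := ⟨by linarith [h.1], fun d => (h.2 d).trans hδ⟩

theorem peiStmt : PeiStmt := by
  intro F q₀
  suffices h : ∃ (δ : ℝ) (L₀ : ℕ), 0 < δ ∧ ∀ Λ, F.Mem Λ → ∀ (L : ℕ) (q : ℤ), L₀ ≤ L → 1 ≤ q →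
      q ≤ q₀ → Λ.Lok L q δ → ¬ Λ.Rough ∧ ∀ n R : ℕ, n * L ≤ R →
        Zs ((Λ.D (faces R)).Ws 0 (seam (n * L))) ≤
          3 * Real.exp (-Real.log 4 * n) * Zs ((Λ.D (faces R)).W 0) by
    obtain ⟨δ, L₀, h0, h⟩ := h
    exact ⟨δ, 3, Real.log 4, L₀, h0, Real.log_pos (by norm_num), fun Λ hΛ L q a b c d =>
      ⟨(h Λ hΛ L q a b c d).1, fun _ => (h Λ hΛ L q a b c d).2⟩⟩
  induction q₀ with
  | zero => exact ⟨1, 0, one_pos, fun _ _ _ _ _ _ _ => by omega⟩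
  | succ k ih =>
    obtain ⟨δ, L₀, h0, h⟩ := ih
    obtain ⟨δ', L₁, h1, h'⟩ := Pei.pei_one F k.succ_pos
    refine ⟨min δ δ', max L₀ L₁, lt_min h0 h1, fun Λ hΛ L q a b c d => ?_⟩
    by_cases hq : q ≤ k
    · exact h Λ hΛ L q ((le_max_left _ _).trans a) b hq (Pei.lok_mono d (min_le_left _ _))
    · obtain rfl : q = (k.succ : ℕ) := by omega
      exact h' Λ hΛ L ((le_max_right _ _).trans a) (Pei.lok_mono d (min_le_right _ _))

end Crest.Agent.T145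
end

-- ▼ part T145/T2A_89
section

/-!
# Row 145, T2 (charges vanish in a window), part A: the abstract core and the seam (helper89)
-/

set_option autoImplicit false

namespace Crest.Agent.T145.T289

open Finset Crest.ProbabilityR.HeightModel

theorem pair_ge {P Q G : ℝ} (hP : 0 ≤ P) (hP1 : P ≤ 1) (hQ : 0 ≤ Q) (h : G ^ 2 ≤ P * Q) :
    (P - G) ^ 2 ≤ P + Q - 2 * G := by
  have h0 : 0 ≤ P + Q - 2 * G := by
    have : (2 * G) ^ 2 ≤ (P + Q) ^ 2 := by nlinarith [sq_nonneg (P - Q)]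
    linarith [(abs_le_of_sq_le_sq' this (by linarith)).2]
  nlinarith [mul_nonneg (sub_nonneg.2 hP1) h0]

/-- the abstract core of T2 -/
theorem core {c a P : ℤ → ℝ} {g Ψ : ℝ} (hc0 : ∀ p, 0 ≤ c p) (hce : ∀ p, c (-p) = c p)
    (hcs : Summable c) (ha : ∀ p, a p ^ 2 ≤ 1) (hP0 : ∀ p, 0 ≤ P p) (hP1 : ∀ p, P p ≤ 1)
    (hPP : ∀ p, (g * a p ^ 2) ^ 2 ≤ P p * P (-p))
    (h : ∑' p, c p * P p ≤ Ψ * ∑' p, c p * a p ^ 2) (q : ℤ) :
    c q * (P q - g * a q ^ 2) ^ 2 ≤ 2 * (Ψ - g) * ∑' p, c p * a p ^ 2 := by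
  have s1 : Summable fun p => c p * P p :=
    Summable.of_nonneg_of_le (fun p => mul_nonneg (hc0 p) (hP0 p))
      (fun p => mul_le_of_le_one_right (hc0 p) (hP1 p)) hcs
  have s2 : Summable fun p => c p * P (-p) :=
    Summable.of_nonneg_of_le (fun p => mul_nonneg (hc0 p) (hP0 _))
      (fun p => mul_le_of_le_one_right (hc0 p) (hP1 _)) hcs
  have s3 : Summable fun p => c p * a p ^ 2 :=
    Summable.of_nonneg_of_le (fun p => mul_nonneg (hc0 p) (sq_nonneg _))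
      (fun p => mul_le_of_le_one_right (hc0 p) (ha _)) hcs
  have e2 : ∑' p, c p * P (-p) = ∑' p, c p * P p := by
    rw [← (Equiv.neg ℤ).tsum_eq fun p => c p * P p]
    exact tsum_congr fun p => by simp [hce]
  have hs : HasSum (fun p => c p * (P p + P (-p) - 2 * (g * a p ^ 2)))
      (2 * ∑' p, c p * P p - 2 * g * ∑' p, c p * a p ^ 2) := by
    have := (s1.hasSum.add s2.hasSum).sub (s3.hasSum.mul_left (2 * g))
    rw [e2] at this
    have e3 : (fun p => c p * (P p + P (-p) - 2 * (g * a p ^ 2))) =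
        fun b => c b * P b + c b * P (-b) - 2 * g * (c b * a b ^ 2) := by
      ext p; ring
    rw [e3, two_mul (∑' p, c p * P p)]
    exact this
  have hq := le_hasSum hs q fun p _ => mul_nonneg (hc0 p)
    ((sq_nonneg _).trans (pair_ge (hP0 p) (hP1 p) (hP0 (-p)) (hPP p)))
  have := mul_le_mul_of_nonneg_left (pair_ge (hP0 q) (hP1 q) (hP0 (-q)) (hPP q)) (hc0 q)
  linarith

theorem prod_ge {A B a η : ℝ} (hA : 0 ≤ A) (hB : 0 ≤ B) (ha : 0 ≤ a) (ha1 : a ≤ 1) (hη : 0 ≤ η)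
    (h1 : a - η ≤ A) (h2 : a - η ≤ B) : a ^ 2 - 2 * η ≤ A * B := by
  rcases le_total η a with h | h
  · nlinarith [mul_le_mul h1 h2 (by linarith) hA]
  · nlinarith [mul_nonneg hA hB]

theorem sqrt_step {b y c : ℝ} (hb : 0 ≤ b) (hy : 0 ≤ y) (hc : 0 ≤ c)
    (h : Real.sqrt b ≤ Real.sqrt y + c) : b - 2 * c * Real.sqrt b ≤ y := by
  have e1 := Real.sq_sqrt hb
  have e2 := Real.sq_sqrt hy
  have p1 := Real.sqrt_nonneg b
  have p2 := Real.sqrt_nonneg y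
  rcases le_total (Real.sqrt b) c with h' | h'
  · nlinarith
  · nlinarith

/-! ## flows -/

theorem dv_smul (ed : Finset (Pt × Pt)) (c : ℝ) (φ : Pt × Pt → ℝ) :
    dv ed (fun e => c * φ e) = c • dv ed φ := by
  ext x; simp only [dv, Pi.smul_apply, smul_eq_mul, mul_sum, mul_assoc]

theorem dv_zero (ed : Finset (Pt × Pt)) : dv ed (fun _ => (0 : ℝ)) = 0 := by
  ext x; simp [dv]

theorem sup_dv {Λ : Lat} (D : Finset Pt) (φ : Pt × Pt → ℝ) : Sup D (dv (Λ.edI D) φ) := by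
  intro x hx
  refine sum_eq_zero fun e he => ?_
  obtain ⟨-, h1, h2⟩ := Lat.mem_edI.1 he
  rw [ind_neg fun h : e.2 = x => hx (h ▸ h2), ind_neg fun h : e.1 = x => hx (h ▸ h1)]
  simp

theorem sum_dv {Λ : Lat} (D : Finset Pt) (φ : Pt × Pt → ℝ) :
    ∑ x ∈ D, dv (Λ.edI D) φ x = 0 := by
  unfold dv
  rw [sum_comm]
  refine sum_eq_zero fun e he => ?_
  obtain ⟨-, h1, h2⟩ := Lat.mem_edI.1 he
  rw [← mul_sum, sum_sub_distrib]
  have k : ∀ y ∈ D, ∑ x ∈ D, ind (y = x) = 1 := fun y hy => by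
    rw [sum_eq_single_of_mem y hy fun x _ hx => ind_neg fun h => hx h.symm, ind_pos rfl]
  rw [k _ h1, k _ h2]; simp

theorem Au_smul (Λ : Lat) (D : Finset Pt) (c : ℝ) (u : Pt → ℝ) :
    Λ.Au D (fun x => c * u x) = c • Λ.Au D u := by
  unfold Lat.Au
  rw [← dv_smul]
  congr 1; ext e; ring

theorem En_smul (Λ : Lat) (D : Finset Pt) (c : ℝ) (u : Pt → ℝ) :
    Λ.En D (fun x => c * u x) (fun x => c * u x) = c ^ 2 * Λ.En D u u := by
  unfold Lat.En
  rw [mul_sum]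
  exact sum_congr rfl fun e _ => by ring

theorem co0 (x : Pt) : co 0 x = x.1 := rfl

theorem En_le {Λ : Lat} (h : Λ.Ok) (D : Finset Pt) : Λ.En D (co 0) (co 0) ≤ D.card * Λ.e0 := by
  unfold Lat.En Lat.e0 Lat.a
  rw [Lat.sum_edI, sum_div, mul_sum]
  refine sum_le_sum fun y _ => ?_
  have e : ∀ x : Pt, (co 0 (x + y) - co 0 x) * (co 0 (x + y) - co 0 x) / Λ.τ =
      (y.1 : ℝ) ^ 2 / Λ.τ := fun x => by
    simp only [co0, Prod.fst_add, Int.cast_add]; ring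
  simp only [e, sum_const, nsmul_eq_mul]
  have := h.pos
  gcongr
  exact filter_subset _ _

theorem sm2_co {c K L : ℝ} (hL : 0 < L) (h : |c| ≤ K) :
    Sm2 (fun x => c / L * co 0 x) K L := by
  have hK : 0 ≤ K := (abs_nonneg _).trans h
  have e : ∀ i x, df i (fun x => c / L * co 0 x) x = c / L * co 0 (ev i) := fun i x => by
    simp only [df, co0, Prod.fst_add, Int.cast_add]; ring
  refine ⟨fun i x => ?_, fun i j x => ?_⟩
  · rw [e, abs_mul, abs_div, abs_of_pos hL]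
    have : |co 0 (ev i)| ≤ 1 := by fin_cases i <;> simp [co0, ev]
    calc |c| / L * |co 0 (ev i)| ≤ |c| / L * 1 := by gcongr
      _ ≤ K / L := by rw [mul_one]; gcongr
  · have : df j (df i fun x => c / L * co 0 x) x = 0 := by
      unfold df at e ⊢; rw [e, e, sub_self]
    rw [this, abs_zero]; positivity

theorem mem_rc {a x : Pt} {n₁ n₂ : ℕ} :
    x ∈ rc a n₁ n₂ ↔ (a.1 ≤ x.1 ∧ x.1 < a.1 + n₁) ∧ a.2 ≤ x.2 ∧ x.2 < a.2 + n₂ := by
  simp [rc]

theorem card_rc (a : Pt) (n₁ n₂ : ℕ) : (rc a n₁ n₂).card = n₁ * n₂ := by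
  simp [rc]

/-- translation of a divergence -/
theorem dv_shift {Λ : Lat} (n₁ n₂ : ℕ) (v x : Pt) :
    Λ.Au (rc 0 n₁ n₂) (co 0) (x - v) = Λ.Au (rc v n₁ n₂) (co 0) x := by
  unfold Lat.Au dv
  refine sum_bij' (fun e _ => (e.1 + v, e.2 + v)) (fun e _ => (e.1 - v, e.2 - v)) ?_ ?_ ?_ ?_ ?_
  · intro e he
    simp only [Lat.mem_edI, mem_rc, Prod.fst_add, Prod.snd_add, Prod.fst_zero, Prod.snd_zero,
      add_sub_add_right_eq_sub] at he ⊢
    refine ⟨he.1, ?_, ?_⟩ <;> omega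
  · intro e he
    simp only [Lat.mem_edI, mem_rc, Prod.fst_sub, Prod.snd_sub, Prod.fst_zero, Prod.snd_zero,
      sub_sub_sub_cancel_right] at he ⊢
    refine ⟨he.1, ?_, ?_⟩ <;> omega
  · intro e _; simp
  · intro e _; simp
  · intro e _
    simp only [co0, Prod.fst_add, Int.cast_add, eq_sub_iff_add_eq]
    ring

/-- the edges across the seam -/
noncomputable def cr (Λ : Lat) (n₁ n₂ : ℕ) : Finset (Pt × Pt) :=
  (Λ.edI (rc 0 (2 * n₁) n₂)).filter fun e => ¬ (e.1.1 < n₁ ↔ e.2.1 < n₁)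

theorem card_cr (Λ : Lat) (n₁ n₂ : ℕ) : (cr Λ n₁ n₂).card ≤ 2 * (2 * Λ.rg * n₂ * Λ.Jp.card) := by
  have : cr Λ n₁ n₂ ⊆ Λ.edT (rc ((n₁ : ℤ) - Λ.rg, 0) (2 * Λ.rg) n₂) := by
    intro e he
    obtain ⟨he, h⟩ := mem_filter.1 he
    obtain ⟨h0, h1, h2⟩ := Lat.mem_edI.1 he
    have hn := mem_bl.1 (Lat.edge_near h0)
    refine Lat.mem_edT.2 ⟨h0, Or.inl ?_⟩
    simp only [mem_rc, Prod.fst_zero, Prod.snd_zero] at h1 h2 ⊢
    push_cast
    omega
  refine (card_le_card this).trans ((Lat.card_edT_le _).trans ?_)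
  rw [card_rc]

/-- the tilt of the double rectangle is the sum of the two tilts and of the seam -/
theorem seam_eq (Λ : Lat) (n₁ n₂ : ℕ) :
    Λ.Au (rc 0 (2 * n₁) n₂) (co 0) =
      (fun x => Λ.Au (rc 0 n₁ n₂) (co 0) x + Λ.Au (rc 0 n₁ n₂) (co 0) (x - ((n₁ : ℤ), 0))) +
        dv (cr Λ n₁ n₂) fun e => (co 0 e.2 - co 0 e.1) / Λ.τ := by
  ext x
  rw [Pi.add_apply, dv_shift]
  unfold Lat.Au dv
  have e1 : Λ.edI (rc 0 n₁ n₂) =
      (Λ.edI (rc 0 (2 * n₁) n₂)).filter fun e : Pt × Pt => e.1.1 < n₁ ∧ e.2.1 < n₁ := by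
    ext e
    simp only [mem_filter, Lat.mem_edI, mem_rc, Prod.fst_zero, Prod.snd_zero]
    push_cast
    constructor
    · rintro ⟨h0, h1, h2⟩; refine ⟨⟨h0, ?_, ?_⟩, ?_⟩ <;> omega
    · rintro ⟨⟨h0, h1, h2⟩, h3⟩; refine ⟨h0, ?_, ?_⟩ <;> omega
  have e2 : Λ.edI (rc ((n₁ : ℤ), 0) n₁ n₂) =
      (Λ.edI (rc 0 (2 * n₁) n₂)).filter fun e : Pt × Pt => ¬ e.1.1 < n₁ ∧ ¬ e.2.1 < n₁ := by
    ext e
    simp only [mem_filter, Lat.mem_edI, mem_rc, Prod.fst_zero, Prod.snd_zero]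
    push_cast
    constructor
    · rintro ⟨h0, h1, h2⟩; refine ⟨⟨h0, ?_, ?_⟩, ?_⟩ <;> omega
    · rintro ⟨⟨h0, h1, h2⟩, h3⟩; refine ⟨h0, ?_, ?_⟩ <;> omega
  rw [e1, e2, cr, sum_filter, sum_filter, sum_filter, ← sum_add_distrib, ← sum_add_distrib]
  refine sum_congr rfl fun e _ => ?_
  by_cases h1 : e.1.1 < n₁ <;> by_cases h2 : e.2.1 < n₁ <;> simp [h1, h2]

theorem seam_sq {Λ : Lat} (h : Λ.Ok) (n₁ n₂ : ℕ) :
    ∑ e ∈ cr Λ n₁ n₂, ((co 0 e.2 - co 0 e.1) / Λ.τ) ^ 2 ≤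
      4 * (Λ.rg : ℝ) ^ 3 * Λ.Jp.card / Λ.τ ^ 2 * n₂ := by
  have hτ := h.pos
  have k : ∀ e ∈ cr Λ n₁ n₂, ((co 0 e.2 - co 0 e.1) / Λ.τ) ^ 2 ≤ (Λ.rg : ℝ) ^ 2 / Λ.τ ^ 2 := by
    intro e he
    obtain ⟨h0, -, -⟩ := Lat.mem_edI.1 (mem_filter.1 he).1
    have := (Lat.le_rg (Lat.mem_Jp.1 h0).1).1
    have h' : |co 0 e.2 - co 0 e.1| ≤ (Λ.rg : ℝ) := by
      simp only [co0]; rw [Prod.fst_sub] at this; exact_mod_cast this
    rw [div_pow, ← sq_abs]
    gcongr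
  refine (sum_le_card_nsmul _ _ _ k).trans ?_
  rw [nsmul_eq_mul]
  have : ((cr Λ n₁ n₂).card : ℝ) ≤ 2 * (2 * Λ.rg * n₂ * Λ.Jp.card) := by
    exact_mod_cast card_cr Λ n₁ n₂
  calc _ ≤ 2 * (2 * Λ.rg * n₂ * Λ.Jp.card) * ((Λ.rg : ℝ) ^ 2 / Λ.τ ^ 2) := by gcongr
    _ = _ := by ring

end Crest.Agent.T145.T289
end

-- ▼ part T145/T2_89

/-!
# Row 145, T2: charges vanish in a window (helper89)
-/

set_option autoImplicit false

namespace Crest.Agent.T145.T289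

open Finset Crest.ProbabilityR.HeightModel

/-- the reference member of a family -/
def base (F : Fa) : Lat := ⟨F.J, F.xy, F.τ₁⟩

theorem base_ok (F : Fa) : (base F).Ok := ⟨F.adm, F.pos⟩

theorem mem_ok {F : Fa} {Λ : Lat} (h : F.Mem Λ) : Λ.Ok :=
  ⟨h.1 ▸ F.adm, F.pos.trans_le h.2.2.1⟩

theorem mem_Jp {F : Fa} {Λ : Lat} (h : F.Mem Λ) : Λ.Jp = (base F).Jp := by
  unfold Lat.Jp; rw [h.1]; rfl

theorem mem_a {F : Fa} {Λ : Lat} (h : F.Mem Λ) : Λ.a = (base F).a := by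
  unfold Lat.a; rw [mem_Jp h]

theorem mem_rg {F : Fa} {Λ : Lat} (h : F.Mem Λ) : Λ.rg = (base F).rg := by
  unfold Lat.rg; rw [h.1]; rfl

theorem e0_pos {Λ : Lat} (h : Λ.Ok) : 0 < Λ.e0 := div_pos (one_pos.trans_le h.one_le_a) h.pos

theorem e0_le {F : Fa} {Λ : Lat} (h : F.Mem Λ) : Λ.e0 ≤ (base F).e0 := by
  unfold Lat.e0
  rw [mem_a h]
  exact div_le_div_of_nonneg_left (zero_le_one.trans (base_ok F).one_le_a) F.pos h.2.2.1

theorem sep_mono {δ δ' : ℝ} {l L : ℕ} (h : Sep δ l L) (hδ : δ ≤ δ') : Sep δ' l L :=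
  ⟨h.1.trans (by gcongr), h.2.trans (by gcongr)⟩

theorem sep_two {δ : ℝ} {l L : ℕ} (h : Sep δ l L) (hδ : 0 ≤ δ) : Sep δ l (2 * L) :=
  ⟨h.1, h.2.trans (by gcongr; omega)⟩

theorem sep_sq {δ : ℝ} {l L : ℕ} (h : Sep δ l L) (hδ : 0 ≤ δ) : 1 ≤ δ ^ 2 * L := by
  have := mul_le_mul_of_nonneg_left h.2 hδ
  linarith [h.1]

theorem sep_pos {δ : ℝ} {l L : ℕ} (h : Sep δ l L) (hδ : 0 ≤ δ) : 1 ≤ l ∧ 1 ≤ L := by
  constructor
  · rcases Nat.eq_zero_or_pos l with rfl | hl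
    · have := h.1; norm_num at this
    · exact hl
  · rcases Nat.eq_zero_or_pos L with rfl | hl
    · have := sep_sq h hδ; norm_num at this
    · exact hl

theorem VR_eq {Λ : Lat} (h : Λ.Ok) {l : ℕ} (hl : 1 ≤ l) :
    Λ.VR l l = Λ.tN l * (Λ.e0 * (l : ℝ) ^ 2) := by
  have := e0_pos h
  have : (0 : ℝ) < l := by exact_mod_cast hl
  unfold Lat.tN
  rw [div_mul_cancel₀ _ (by positivity)]
  rfl

theorem zero_mem_rc {n₁ n₂ : ℕ} (h1 : 1 ≤ n₁) (h2 : 1 ≤ n₂) : (0 : Pt) ∈ rc 0 n₁ n₂ := by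
  simp only [mem_rc, Prod.fst_zero, Prod.snd_zero]; omega

/-- a functional with a flow of energy `C L`, scaled by `t / L`, has a small variance -/
theorem small_vr (hB : BrStmt) {Λ : Lat} (h : Λ.Ok) {n₁ n₂ L : ℕ} (h1 : 1 ≤ n₁) (h2 : 1 ≤ n₂)
    {ed : Finset (Pt × Pt)} (hed : ed ⊆ Λ.edI (rc 0 n₁ n₂)) {f : Pt → ℝ} {C t K δ : ℝ}
    (hf : F2 ed f (C * L)) (ht : |t| ≤ K) (hδ : 0 ≤ δ) (hL : 1 ≤ δ ^ 2 * L) :
    Real.sqrt (Vr (Λ.WR n₁ n₂) ((t / L) • pr f) ((t / L) • pr f)) ≤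
      K * Real.sqrt (Λ.τ * |C|) * δ := by
  obtain ⟨hc, ha, -, -⟩ := hB.2.2.1 Λ 0 0 n₁ n₂ h (zero_mem_rc h1 h2)
  obtain ⟨φ, hφ, hn⟩ := hf
  have hv := (hB.2.1 Λ _ f (C * L) h hc ha ed hed (fun _ _ => rfl) ⟨φ, fun x _ => by rw [hφ], hn⟩).1
  have hτ := h.pos
  have hK : 0 ≤ K := (abs_nonneg _).trans ht
  have hL0 : (0 : ℝ) < L := by
    rcases Nat.eq_zero_or_pos L with rfl | hl
    · norm_num at hL
    · exact_mod_cast hl
  rw [Real.sqrt_le_left (by positivity), Vr_smul_left, Vr_smul_right, ← mul_assoc, ← pow_two, mul_pow,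
    mul_pow, Real.sq_sqrt (by positivity)]
  have e1 : (t / L) ^ 2 ≤ K ^ 2 / L ^ 2 := by
    rw [div_pow, ← sq_abs t]; gcongr
  have e2 : Vr (Λ.WR n₁ n₂) (pr f) (pr f) ≤ Λ.τ * (|C| * L) :=
    hv.trans (by gcongr; exact le_abs_self _)
  have e3 : 1 / (L : ℝ) ≤ δ ^ 2 := by rw [div_le_iff₀ hL0]; exact hL
  calc _ ≤ (t / L) ^ 2 * (Λ.τ * (|C| * L)) := by gcongr
    _ ≤ K ^ 2 / L ^ 2 * (Λ.τ * (|C| * L)) := by gcongr
    _ = K ^ 2 * (Λ.τ * |C|) * (1 / L) := by field_simp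
    _ ≤ _ := by gcongr

theorem arith {L y e0 e1 θ θ' δ t K C ε : ℝ} (hL : 0 < L) (hy : 0 ≤ y) (he0 : 0 < e0) (he : e0 ≤ e1)
    (θ0 : 0 ≤ θ') (θ1 : θ' ≤ 1) (hδ : 0 < δ) (hsq : 1 ≤ δ ^ 2 * L) (ht2 : t ^ 2 ≤ K ^ 2)
    (hw : θ - θ' ≤ δ) (hδA : (2 * (K ^ 2 * e1) + 2 * K ^ 2 * |C| * Real.sqrt (6 * e1)) * δ ≤ ε)
    (k : Real.sqrt (θ' * (e0 * (2 * L) ^ 2)) ≤ Real.sqrt (2 * y) + C * Real.sqrt (2 * (2 * L + L))) :
    2 * (t ^ 2 * e0 * θ) - ε ≤ (t / L) ^ 2 * y := by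
  have he1 := he0.trans_le he
  have k2 := sqrt_step (c := |C| * Real.sqrt (6 * L)) (y := 2 * y) (by positivity) (by positivity)
    (by positivity) (k.trans (by
      rw [show (2 : ℝ) * (2 * L + L) = 6 * L by ring]
      gcongr
      exact le_abs_self _))
  have k3 : Real.sqrt (θ' * (e0 * (2 * L) ^ 2)) ≤ Real.sqrt e1 * (2 * L) := by
    rw [Real.sqrt_le_left (by positivity), mul_pow (Real.sqrt e1), Real.sq_sqrt he1.le]
    calc _ ≤ 1 * (e1 * (2 * L) ^ 2) := by gcongr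
      _ = _ := one_mul _
  have k4 : Real.sqrt (6 * L) * Real.sqrt e1 ≤ Real.sqrt (6 * e1) * δ * L := by
    rw [← Real.sqrt_mul (by positivity), Real.sqrt_le_left (by positivity), mul_pow, mul_pow,
      Real.sq_sqrt (by positivity)]
    nlinarith [mul_le_mul_of_nonneg_left hsq (by positivity : (0 : ℝ) ≤ 6 * e1 * L)]
  have k5 : 2 * (|C| * Real.sqrt (6 * L)) * Real.sqrt (θ' * (e0 * (2 * L) ^ 2)) ≤
      4 * |C| * (Real.sqrt (6 * e1) * δ * L) * L := by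
    calc _ ≤ 2 * (|C| * Real.sqrt (6 * L)) * (Real.sqrt e1 * (2 * L)) := by gcongr
      _ = 4 * |C| * (Real.sqrt (6 * L) * Real.sqrt e1) * L := by ring
      _ ≤ _ := by gcongr
  have k6 : (2 * (e0 * θ') - 2 * |C| * Real.sqrt (6 * e1) * δ) * L ^ 2 ≤ y := by linarith
  have k7 : t ^ 2 * (2 * (e0 * θ') - 2 * |C| * Real.sqrt (6 * e1) * δ) ≤ (t / L) ^ 2 * y := by
    calc _ = (t / L) ^ 2 * ((2 * (e0 * θ') - 2 * |C| * Real.sqrt (6 * e1) * δ) * L ^ 2) := by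
          field_simp
      _ ≤ _ := by gcongr
  have k8 : t ^ 2 * e0 * (θ - θ') ≤ K ^ 2 * e1 * δ :=
    (mul_le_mul_of_nonneg_left hw (by positivity)).trans (by gcongr)
  have k9 : t ^ 2 * (2 * |C| * Real.sqrt (6 * e1) * δ) ≤
      K ^ 2 * (2 * |C| * Real.sqrt (6 * e1) * δ) := by gcongr
  linarith

theorem ar5 {δ ε A : ℝ} (hA : 0 ≤ A) (h0 : 0 < δ) (h : δ ≤ ε / (A + 1)) : A * δ ≤ ε := by
  rw [le_div_iff₀ (by positivity)] at h
  nlinarith

/-- the tilt of the double rectangle is Gaussian -/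
theorem gauss_R (hX : T1xStmt) (hA : T1aStmt) (hD : T1dStmt) (hF : AFacStmt) (hB : BrStmt)
    (F : Fa) (K ε : ℝ) (hK : 0 ≤ K) (hε : 0 < ε) : ∃ δ : ℝ, 0 < δ ∧ ∀ Λ, F.Mem Λ → ∀ l L,
      Sep δ l L → Λ.tN l - Λ.tN (2 * L) ≤ δ → ∀ t : ℝ, |t| ≤ K →
        Ph (Λ.WR (2 * L) L) ((t / L) • pr (Λ.Au (rc 0 (2 * L) L) (co 0))) ≤
          Real.exp (-(t ^ 2 * Λ.e0 * Λ.tN l)) + ε := by
  have he1 := e0_pos (base_ok F)
  set e1 := (base F).e0
  obtain ⟨R, ε₁, hR, hε₁, hG⟩ := hF.2.2 (2 * (K ^ 2 * e1)) ε hε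
  obtain ⟨δ₁, hδ₁, hx⟩ := hX F (R * K + 16) ε₁ hε₁
  obtain ⟨C, hd⟩ := hD.1 F
  obtain ⟨_, ha⟩ := hA F
  set A : ℝ := 2 * (K ^ 2 * e1) + 2 * K ^ 2 * |C| * Real.sqrt (6 * e1) with hAe
  have hA0 : 0 ≤ A := by positivity
  refine ⟨min δ₁ (ε₁ / (A + 1)), by positivity, fun Λ hΛ l L hs hw t ht => ?_⟩
  set δ := min δ₁ (ε₁ / (A + 1)) with hδe
  have hδ : 0 < δ := by positivity
  have hδA : A * δ ≤ ε₁ := ar5 hA0 hδ (min_le_right _ _)
  have h := mem_ok hΛ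
  have he0 := e0_pos h
  have he := e0_le hΛ
  obtain ⟨hl, hL⟩ := sep_pos hs hδ.le
  have hL0 : (0 : ℝ) < L := by exact_mod_cast hL
  have hsq := sep_sq hs hδ.le
  obtain ⟨θ0, θ1, -⟩ := ha Λ hΛ l hl
  obtain ⟨θ0', θ1', -⟩ := ha Λ hΛ (2 * L) (by omega)
  have ht2 : t ^ 2 ≤ K ^ 2 := by rw [← sq_abs t]; gcongr
  have hte : t ^ 2 * Λ.e0 ≤ K ^ 2 * e1 := by gcongr
  have hamb := hB.2.2.1 Λ 0 0 (2 * L) L h (zero_mem_rc (by omega) hL)
  have hc : Cen (Λ.WR (2 * L) L) := Mdl.Ctr.cen hamb.1 hamb.2.1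
  have := (hG (Cfg Pt) (Λ.WR (2 * L) L) ((t / L) • pr (Λ.Au (rc 0 (2 * L) L) (co 0))) 0
    (2 * (t ^ 2 * Λ.e0 * Λ.tN l)) hc ?_ (fun z hz => ?_) ?_ (fun z _ => ?_)).2.2
  · rw [add_zero] at this
    have e : -(2 * (t ^ 2 * Λ.e0 * Λ.tN l)) / 2 = -(t ^ 2 * Λ.e0 * Λ.tN l) := by ring
    rw [e] at this
    linarith [(abs_le.1 this).2]
  · rw [abs_of_nonneg (by positivity)]
    have : t ^ 2 * Λ.e0 * Λ.tN l ≤ K ^ 2 * e1 * 1 := by gcongr
    linarith
  · have hreg : Reg (rc 0 (2 * L) L) (R * K + 16) l L := by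
      obtain ⟨r1, r2⟩ := hB.2.2.2.2.2.1 0 (2 * L) L l L 2 (by norm_num) (by push_cast; rfl)
        (by linarith)
      have : 4 * (2 : ℝ) ^ 2 ≤ R * K + 16 := by linarith [mul_nonneg hR.le hK]
      exact ⟨r1.trans (by gcongr), r2.trans (by gcongr)⟩
    have hzt : |z * t| ≤ R * K + 16 := by
      rw [abs_mul]; linarith [mul_le_mul hz ht (abs_nonneg _) hR.le]
    have := hx Λ hΛ l L (sep_mono hs (min_le_left _ _)) _ _ (fun x => z * t / L * co 0 x)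
      (fun _ => 0) hamb hreg (sm2_co hL0 hzt) (fun _ _ => by rw [abs_zero]; positivity)
    rw [dv_zero, pr_zero, add_zero, Au_smul, pr_smul, En_smul] at this
    have e : z • (t / L) • pr (Λ.Au (rc 0 (2 * L) L) (co 0)) =
        (z * t / L) • pr (Λ.Au (rc 0 (2 * L) L) (co 0)) := by
      rw [smul_smul, mul_div_assoc]
    rw [e]
    refine this.trans ?_
    have hE := En_le h (rc 0 (2 * L) L)
    rw [card_rc] at hE
    push_cast at hE
    have : Λ.tN l * ((z * t / L) ^ 2 * Λ.En (rc 0 (2 * L) L) (co 0) (co 0)) ≤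
        Λ.tN l * ((z * t / L) ^ 2 * (2 * L * L * Λ.e0)) := by gcongr
    have e2 : Λ.tN l * ((z * t / L) ^ 2 * (2 * L * L * Λ.e0)) =
        2 * (t ^ 2 * Λ.e0 * Λ.tN l) * z ^ 2 := by field_simp
    simp only [zero_mul, sum_const_zero, mul_zero, add_zero, ne_eq, OfNat.ofNat_ne_zero,
      not_false_eq_true, zero_pow]
    linarith
  · rw [Vr_smul_left, Vr_smul_right, ← mul_assoc (t / L : ℝ), ← pow_two]
    change _ ≤ (t / L) ^ 2 * Λ.VR (2 * L) L
    have hy : 0 ≤ Λ.VR (2 * L) L := hc.wt.Vr_nonneg hc.se _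
    have k := hd Λ hΛ (2 * L) L 1 2 (by omega) hL le_rfl (by norm_num)
    rw [one_mul, VR_eq h (by omega)] at k
    push_cast at k
    exact arith hL0 hy he0 he θ0' θ1' hδ hsq ht2 hw (hAe ▸ hδA) (by simpa using k)
  · rw [smul_zero, hc.wt.M_zero]; exact hε₁.le

theorem summable_gau1 : Summable (gau 1) :=
  (Fam.cen ⟨false, 1, one_pos, rfl⟩ : Cen (gau 1)).se.summable

theorem exp_le_gau (p : ℤ) : Real.exp (-(2 * Real.pi * p) ^ 2 / (2 * 1)) ≤ gau 1 p := by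
  unfold gau
  have : (1 : ℝ) ≤ (2 * Real.pi) ^ 2 := by nlinarith [Real.pi_gt_three]
  refine Real.exp_le_exp.2 (div_le_div_of_nonneg_right ?_ (by norm_num))
  rw [mul_pow]
  nlinarith [sq_nonneg (p : ℝ)]

/-- T2 for one model -/
theorem one (hTb : TbStmt) (hS : SprStmt) {Λ : Lat} (h : Λ.Ok) {L : ℕ} (hL : 1 ≤ L) (hc : Cen (Λ.WN L))
    {f : Pt → ℝ} (hf : Sup (sq 0 L) f) (h0 : ∑ x ∈ sq 0 L, f x = 0) {g Ψ : ℝ} (hg0 : 0 ≤ g)
    (hg : g ≤ Ph (Λ.WN L) (pr f) ^ 2) (hgΨ : g ≤ Ψ)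
    (hΨ : Ph (Λ.WR (2 * L) L) (pr fun x => f x + f (x - ((L : ℤ), 0))) ≤ Ψ) (q : ℤ) :
    Real.exp (-(2 * Real.pi * q) ^ 2 / (2 * 1)) * Real.exp (-Λ.τ * (2 * Real.pi * q) ^ 2 / (2 * L)) *
      (Ph (Λ.WN L) (pr f - (2 * Real.pi * q) • pr (sd L 0)) *
        Ph (Λ.WN L) (pr f + (2 * Real.pi * q) • pr (sd L 1)) - g * Λ.aq L q ^ 2) ^ 2 ≤
      2 * (Ψ - g) * ∑' p, gau 1 p := by
  obtain ⟨t1, t2⟩ := hTb Λ L L 1 h hL hL one_pos
  have t3 := (t2 f f hf hf).2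
  have h0' : ∑ x ∈ rc 0 L L, f x = 0 := h0
  simp only [h0', sub_zero] at t3
  obtain ⟨s1, -⟩ := hS Λ.xy Λ.τ 1 L h.pos one_pos hL
  set c : ℤ → ℝ := fun p => Real.exp (-(2 * Real.pi * p) ^ 2 / (2 * 1)) *
    chi Λ.w L (2 * Real.pi * p) with hce
  have c0 : ∀ p, 0 ≤ c p := fun p =>
    mul_nonneg (Real.exp_pos _).le ((Real.exp_pos _).le.trans (s1 _).1)
  have c1 : ∀ p, c p ≤ gau 1 p := fun p =>
    (mul_le_of_le_one_right (Real.exp_pos _).le (s1 _).2.1).trans (exp_le_gau p)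
  have cs : Summable c := Summable.of_nonneg_of_le c0 c1 summable_gau1
  have p0 : ∀ ξ, 0 ≤ Ph (Λ.WN L) ξ := fun ξ => (hc.ph_pos ξ).le
  have p1 : ∀ ξ, Ph (Λ.WN L) ξ ≤ 1 := fun ξ => (abs_le.1 (hc.wt.abs_Ph_le ξ)).2
  have a1 : ∀ p, Λ.aq L p ^ 2 ≤ 1 := fun p => pow_le_one₀ (p0 _) (p1 _)
  have hD0 : 0 ≤ ∑' p, c p * Λ.aq L p ^ 2 := tsum_nonneg fun p => mul_nonneg (c0 p) (sq_nonneg _)
  have hD1 : ∑' p, c p * Λ.aq L p ^ 2 ≤ ∑' p, gau 1 p :=
    Summable.tsum_le_tsum (fun p => (mul_le_of_le_one_right (c0 p) (a1 p)).trans (c1 p))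
      (Summable.of_nonneg_of_le (fun p => mul_nonneg (c0 p) (sq_nonneg _))
        (fun p => mul_le_of_le_one_right (c0 p) (a1 p)) cs) summable_gau1
  have key := core (c := c) (a := Λ.aq L) (g := g) (Ψ := Ψ)
    (P := fun p => Ph (Λ.WN L) (pr f - (2 * Real.pi * p) • pr (sd L 0)) *
      Ph (Λ.WN L) (pr f + (2 * Real.pi * p) • pr (sd L 1))) c0 (fun p => ?_) cs a1
    (fun p => mul_nonneg (p0 _) (p0 _)) (fun p => mul_le_one₀ (p1 _) (p0 _) (p1 _)) (fun p => ?_)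
    (t3.trans (mul_le_mul_of_nonneg_right hΨ hD0)) q
  · refine le_trans ?_ (key.trans (by gcongr))
    gcongr
    exact mul_le_mul_of_nonneg_left (s1 _).1 (Real.exp_pos _).le
  · simp only [hce, Int.cast_neg, mul_neg, neg_sq]
    rw [show chi Λ.w L (-(2 * Real.pi * p)) = chi Λ.w L (2 * Real.pi * p) from (s1 _).2.2]
  · have e1 := hc.ph_par (pr f) ((2 * Real.pi * p) • pr (sd L 0))
    have e2 := hc.ph_par (pr f) ((2 * Real.pi * p) • pr (sd L 1))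
    have e3 : Ph (Λ.WN L) ((2 * Real.pi * p) • pr (sd L 1)) = Λ.aq L p := t1 _ ⟨p, rfl⟩
    rw [e3] at e2
    change _ * Λ.aq L p ^ 2 ≤ _ at e1
    simp only [Int.cast_neg, mul_neg, neg_smul, sub_neg_eq_add, ← sub_eq_add_neg]
    have e4 : g * Λ.aq L p ^ 2 ≤ Ph (Λ.WN L) (pr f) ^ 2 * Λ.aq L p ^ 2 := by gcongr
    have e5 := mul_le_mul (e4.trans e1) (e4.trans e2) (by positivity) (mul_nonneg (p0 _) (p0 _))
    calc _ = g * Λ.aq L p ^ 2 * (g * Λ.aq L p ^ 2) := pow_two _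
      _ ≤ _ := e5
      _ = _ := by ring

theorem ar1 {a b e : ℝ} (ha : 0 ≤ a) (hb : b ≤ e) (he : 0 ≤ e) :
    Real.exp (-a) ≤ Real.exp (-a) * Real.exp (-b) + e := by
  have j1 : Real.exp (-a) ≤ 1 := Real.exp_le_one_iff.2 (neg_nonpos.2 ha)
  have j2 := Real.add_one_le_exp (-b)
  have j4 := Real.exp_pos (-a)
  nlinarith

theorem ar2 {γ ε a g P : ℝ} (hγ : 0 < γ) (k2 : ε ^ 2 ≤ a ^ 2) (hg : g ≤ 1 - γ)
    (k1 : a ^ 2 - 2 * (γ * ε ^ 2 / 4) ≤ P) : γ * ε ^ 2 / 2 ≤ P - g * a ^ 2 := by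
  nlinarith [mul_le_mul_of_nonneg_left k2 hγ.le, mul_le_mul_of_nonneg_right hg (sq_nonneg a)]

theorem ar3 {q : ℤ} (hq : q ≠ 0) : (2 * Real.pi) ^ 2 ≤ (2 * Real.pi * q) ^ 2 := by
  have : (1 : ℝ) ≤ (q : ℝ) ^ 2 := by
    have : 1 ≤ q ^ 2 := by nlinarith [Int.one_le_abs hq, sq_abs q]
    exact_mod_cast this
  rw [mul_pow _ (q : ℝ)]; nlinarith [sq_nonneg (2 * Real.pi)]

theorem ar4 {τ T a : ℝ} (h0 : 0 < τ) (h : τ ≤ T) (ha : 1 ≤ a) : 1 / (a / τ) ≤ T := by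
  rw [one_div_div, div_le_iff₀ (by linarith)]
  nlinarith

end T289

set_option maxHeartbeats 800000 in
open T289 in
theorem t2Stmt (hTb : TbStmt) (hX : T1xStmt) (hA : T1aStmt) (hD : T1dStmt) (hM : T1mStmt)
    (hR : R2Stmt) (hF : AFacStmt) (hB : BrStmt) (hS : SprStmt) : T2Stmt := by
  intro F θ₀ K ε hθ hK hε
  have hb := base_ok F
  have hτ₁ := F.pos
  have hπ := Real.pi_pos
  have ha1 := hb.one_le_a
  set T : ℝ := |F.τ₂| + 1 with hT
  have hT0 : 0 < T := by positivity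
  set γ : ℝ := 1 - Real.exp (-((2 * Real.pi) ^ 2 / (base F).e0 * θ₀)) with hγ
  have hγ0 : 0 < γ := by
    have := e0_pos hb
    rw [hγ, sub_pos, Real.exp_lt_one_iff, neg_lt_zero]; positivity
  set cm : ℝ := Real.exp (-(2 * Real.pi * K) ^ 2 / (2 * 1)) *
    Real.exp (-T * (2 * Real.pi * K) ^ 2 / 2) with hcm
  have hcm0 : 0 < cm := by positivity
  set D0 : ℝ := ∑' p, gau 1 p with hD0
  have hD0p : 0 < D0 := summable_gau1.tsum_pos (fun p => (gau_pos _ _).le) 0 (gau_pos _ _)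
  set ε₃ : ℝ := cm * (γ * ε ^ 2 / 2) ^ 2 / (12 * D0) with hε₃
  have hε₃0 : 0 < ε₃ := by positivity
  set t₁ : ℝ := 2 * Real.pi * K * T with ht₁
  set κ₁ : ℝ := (2 * Real.pi * K) ^ 2 * T with hκ₁
  have hκ₁0 : 0 < κ₁ := by positivity
  obtain ⟨δ₁, hδ₁, h1⟩ := gauss_R hX hA hD hF hB F t₁ ε₃ (by positivity) hε₃0
  obtain ⟨δ₂, hδ₂, h2⟩ := hM.2.1 F (ε₃ / κ₁) (by positivity)
  obtain ⟨C₂, h3⟩ := hR F
  obtain ⟨_, h4⟩ := hA F
  set C₃ : ℝ := 4 * ((base F).rg : ℝ) ^ 3 * (base F).Jp.card / F.τ₁ ^ 2 with hC₃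
  set A₂ : ℝ := t₁ * Real.sqrt (T * |C₂|) + 1 with hA₂
  set A₃ : ℝ := t₁ * Real.sqrt (T * |C₃|) + 1 with hA₃
  refine ⟨min (min δ₁ δ₂) (min (γ * ε ^ 2 / 4 / A₂) (ε₃ / A₃)), by positivity,
    fun Λ hΛ l L hW q hq hqK => ?_⟩
  set δ := min (min δ₁ δ₂) (min (γ * ε ^ 2 / 4 / A₂) (ε₃ / A₃)) with hδe
  have hδ : 0 < δ := by positivity
  have d1 : δ ≤ δ₁ := (min_le_left _ _).trans (min_le_left _ _)
  have d2 : δ ≤ δ₂ := (min_le_left _ _).trans (min_le_right _ _)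
  have d3 : A₂ * δ ≤ γ * ε ^ 2 / 4 := by
    rw [mul_comm, ← le_div_iff₀ (by positivity)]
    exact (min_le_right _ _).trans (min_le_left _ _)
  have d4 : A₃ * δ ≤ ε₃ := by
    rw [mul_comm, ← le_div_iff₀ (by positivity)]
    exact (min_le_right _ _).trans (min_le_right _ _)
  obtain ⟨-, hs, hθ', hw⟩ := hW
  have h := mem_ok hΛ
  have hτ := h.pos
  have hτT : Λ.τ ≤ T := by linarith [hΛ.2.2.2, le_abs_self F.τ₂]
  have he0 := e0_pos h
  obtain ⟨hl, hL⟩ := sep_pos hs hδ.le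
  have hL1 : (1 : ℝ) ≤ L := by exact_mod_cast hL
  have hsq := sep_sq hs hδ.le
  have hc : Cen (Λ.WN L) := h.cen_Nr (self_mem_sq _ hL)
  have hamb := hB.2.2.1 Λ 0 0 (2 * L) L h (zero_mem_rc (by omega) hL)
  have hcR : Cen (Λ.WR (2 * L) L) := Mdl.Ctr.cen hamb.1 hamb.2.1
  set ξ : ℝ := 2 * Real.pi * q with hξ
  have hξK : |ξ| ≤ 2 * Real.pi * K := by
    rw [hξ, abs_mul, abs_of_pos (by positivity)]; gcongr
  have hξ2 : ξ ^ 2 ≤ (2 * Real.pi * K) ^ 2 := by rw [← sq_abs ξ]; gcongr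
  have hξ1 : (2 * Real.pi) ^ 2 ≤ ξ ^ 2 := ar3 hq
  have hie : 1 / Λ.e0 ≤ T := ar4 hτ hτT h.one_le_a
  set t : ℝ := ξ / Λ.e0 with hte
  have ht : |t| ≤ t₁ := by
    rw [hte, abs_div, abs_of_pos he0, div_eq_mul_one_div]
    exact mul_le_mul hξK hie (by positivity) (by positivity)
  have hκ : t ^ 2 * Λ.e0 = ξ ^ 2 / Λ.e0 := by rw [hte]; field_simp
  have hκu : ξ ^ 2 / Λ.e0 ≤ κ₁ := by
    rw [div_eq_mul_one_div]
    exact mul_le_mul hξ2 hie (by positivity) (by positivity)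
  have hκl : (2 * Real.pi) ^ 2 / (base F).e0 ≤ ξ ^ 2 / Λ.e0 := by
    gcongr; exact e0_le hΛ
  have m1 := (h2 Λ hΛ).1 l L (sep_mono hs d2)
  have m2 := (h2 Λ hΛ).1 l (2 * L) (sep_two (sep_mono hs d2) hδ₂.le)
  obtain ⟨θ0, -⟩ := h4 Λ hΛ l hl
  set g : ℝ := Real.exp (-(ξ ^ 2 / Λ.e0 * (Λ.tN l + ε₃ / κ₁))) with hg
  have hgγ : g ≤ 1 - γ := by
    rw [hγ, sub_sub_cancel, hg]
    gcongr
    linarith
  set f : Pt → ℝ := (t / L) • Λ.Au (sq 0 L) (co 0) with hf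
  have hpf : pr f = (t / L) • pr (Λ.Au (sq 0 L) (co 0)) := pr_smul _ _
  -- the sides
  have hside := small_vr hB h hL hL subset_rfl (h3 Λ hΛ L hL).1 ht hδ.le hsq
  set ν := (t / L) • pr (Λ.Au (sq 0 L) (co 0) - (Λ.e0 * L) • (sd L 0 - sd L 1)) with hν
  have hνe : pr f = ξ • pr (sd L 0) - ξ • pr (sd L 1) + ν := by
    have : ξ = t / L * (Λ.e0 * L) := by rw [hte]; field_simp
    rw [hν, hpf, pr_sub, pr_smul, pr_sub, smul_sub, smul_smul, ← this, smul_sub]; abel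
  have hη : Real.sqrt (Vr (Λ.WN L) ν ν) ≤ γ * ε ^ 2 / 4 := by
    refine hside.trans (le_trans ?_ d3)
    gcongr
    rw [hA₂]
    have : t₁ * Real.sqrt (Λ.τ * |C₂|) ≤ t₁ * Real.sqrt (T * |C₂|) := by gcongr
    linarith
  have e3 : Ph (Λ.WN L) (ξ • pr (sd L 1)) = Λ.aq L q := (hTb Λ L L 1 h hL hL one_pos).1 _ ⟨q, rfl⟩
  have b1 : Λ.aq L q - γ * ε ^ 2 / 4 ≤ Ph (Λ.WN L) (pr f - ξ • pr (sd L 0)) := by
    have := (hF.2.1 _ (Λ.WN L) 0 (-(ξ • pr (sd L 1))) ν hc).2.2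
    rw [Ph_neg, e3, show -(ξ • pr (sd L 1)) + ν = pr f - ξ • pr (sd L 0) by rw [hνe]; abel] at this
    linarith [(abs_le.1 this).1]
  have b2 : Λ.aq L q - γ * ε ^ 2 / 4 ≤ Ph (Λ.WN L) (pr f + ξ • pr (sd L 1)) := by
    have := (hF.2.1 _ (Λ.WN L) 0 (ξ • pr (sd L 0)) ν hc).2.2
    rw [show ξ • pr (sd L 0) + ν = pr f + ξ • pr (sd L 1) by rw [hνe]; abel] at this
    change |_ - Λ.aq L q| ≤ _ at this
    linarith [(abs_le.1 this).1]
  -- the seam
  have hC : F2 (cr Λ L L) (dv (cr Λ L L) fun e => (co 0 e.2 - co 0 e.1) / Λ.τ) (C₃ * L) := by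
    refine ⟨_, rfl, (seam_sq h L L).trans ?_⟩
    rw [hC₃, mem_rg hΛ, mem_Jp hΛ]
    gcongr
    exact hΛ.2.2.1
  have hseam := small_vr hB h (by omega : 1 ≤ 2 * L) hL (Finset.filter_subset _ _) hC ht hδ.le hsq
  have hΨ : Ph (Λ.WR (2 * L) L) (pr fun x => f x + f (x - ((L : ℤ), 0))) ≤ g + 3 * ε₃ := by
    have k1 := h1 Λ hΛ l L (sep_mono hs d1) (hw.trans d1) t ht
    have k2 := (hF.2.1 _ (Λ.WR (2 * L) L) 0 (pr fun x => f x + f (x - ((L : ℤ), 0)))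
      ((t / L) • pr (dv (cr Λ L L) fun e => (co 0 e.2 - co 0 e.1) / Λ.τ)) hcR).2.2
    have k3 : (pr fun x => f x + f (x - ((L : ℤ), 0))) +
        (t / L) • pr (dv (cr Λ L L) fun e => (co 0 e.2 - co 0 e.1) / Λ.τ) =
        (t / L) • pr (Λ.Au (rc 0 (2 * L) L) (co 0)) := by
      rw [seam_eq, pr_add, smul_add, ← pr_smul _ fun x => _ + _]
      congr 2
      ext x
      simp only [hf, Pi.smul_apply, smul_eq_mul, mul_add]
      rfl
    rw [k3] at k2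
    have k4 : t₁ * Real.sqrt (Λ.τ * |C₃|) * δ ≤ ε₃ := by
      refine le_trans ?_ d4
      gcongr
      rw [hA₃]
      have : t₁ * Real.sqrt (Λ.τ * |C₃|) ≤ t₁ * Real.sqrt (T * |C₃|) := by gcongr
      linarith
    have k5 : Real.exp (-(t ^ 2 * Λ.e0 * Λ.tN l)) ≤ g + ε₃ := by
      rw [hκ, hg, mul_add, neg_add, Real.exp_add]
      refine ar1 (by positivity) ?_ hε₃0.le
      calc _ ≤ κ₁ * (ε₃ / κ₁) := by gcongr
        _ = _ := by field_simp
    linarith [(abs_le.1 k2).1]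
  have hgP : g ≤ Ph (Λ.WN L) (pr f) ^ 2 := by
    have k1 := hc.ph_ge (pr f)
    have k2 : Vr (Λ.WN L) (pr f) (pr f) = ξ ^ 2 / Λ.e0 * Λ.tN L := by
      rw [hpf, Vr_smul_left, Vr_smul_right, ← hκ]
      change _ * (_ * Λ.VR L L) = _
      rw [VR_eq h hL]; field_simp
    rw [k2] at k1
    refine le_trans ?_ (pow_le_pow_left₀ (Real.exp_pos _).le k1 2)
    rw [← Real.exp_nat_mul, hg]
    gcongr
    have : ξ ^ 2 / Λ.e0 * Λ.tN L ≤ ξ ^ 2 / Λ.e0 * (Λ.tN l + ε₃ / κ₁) := by gcongr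
    push_cast
    linarith
  have key := one hTb hS h hL hc (f := f)
    (fun x hx => by rw [hf, Pi.smul_apply, Lat.Au, sup_dv _ _ x hx, smul_zero])
    (by simp only [hf, Pi.smul_apply, smul_eq_mul, ← Finset.mul_sum, Lat.Au, sum_dv, mul_zero])
    (Real.exp_pos _).le hgP (by linarith) hΨ q
  by_contra hcon
  rw [not_le] at hcon
  have a1 : Λ.aq L q ≤ 1 := (abs_le.1 (hc.wt.abs_Ph_le _)).2
  have k1 := prod_ge (hc.ph_pos _).le (hc.ph_pos _).le (hε.le.trans hcon.le) a1 (by positivity) b1 b2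
  have k2 : ε ^ 2 ≤ Λ.aq L q ^ 2 := by gcongr
  have k3 : γ * ε ^ 2 / 2 ≤ Ph (Λ.WN L) (pr f - ξ • pr (sd L 0)) *
      Ph (Λ.WN L) (pr f + ξ • pr (sd L 1)) - g * Λ.aq L q ^ 2 := ar2 hγ0 k2 hgγ k1
  have k4 : cm ≤ Real.exp (-ξ ^ 2 / (2 * 1)) * Real.exp (-Λ.τ * ξ ^ 2 / (2 * L)) := by
    rw [hcm]
    gcongr Real.exp (-?_ / _) * Real.exp ?_
    rw [neg_mul, neg_mul, neg_div, neg_div, neg_le_neg_iff]
    gcongr
    linarith
  have k5 : cm * (γ * ε ^ 2 / 2) ^ 2 ≤ 2 * (g + 3 * ε₃ - g) * D0 := le_trans (by gcongr) key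
  have k6 : 2 * (g + 3 * ε₃ - g) * D0 = cm * (γ * ε ^ 2 / 2) ^ 2 / 2 := by
    rw [add_sub_cancel_left, hε₃]; field_simp; ring
  have k7 : 0 < cm * (γ * ε ^ 2 / 2) ^ 2 := by positivity
  linarith

end Crest.Agent.T145
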