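import Crest.Agent.T145.GffDef2_8
import Crest.Agent.T145.GeoB_51
import Crest.Agent.T145.Brg_14
import Crest.Agent.T145.FsAsm_70

/-!
# Row 145, module (b): the gap, T5, EXIT, and the statements S0200, S0202 (helper11)
-/

set_option autoImplicit false

namespace Crest.Agent.T145

open Finset Filter Topology Crest.ProbabilityR.HeightModel

namespace T511

/-- the one-point family -/
def fa (Λ : Lat) (h : Λ.Ok) : Fa := ⟨Λ.J, Λ.xy, Λ.τ, Λ.τ, h.1, h.2⟩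

theorem fa_mem {Λ : Lat} (h : Λ.Ok) : (fa Λ h).Mem Λ := ⟨rfl, rfl, le_rfl, le_rfl⟩

theorem mem_ok {F : Fa} {Λ : Lat} (h : F.Mem Λ) : Λ.Ok :=
  ⟨h.1 ▸ F.adm, F.pos.trans_le h.2.2.1⟩

theorem e0_pos {Λ : Lat} (h : Λ.Ok) : 0 < Λ.e0 :=
  div_pos (lt_of_lt_of_le one_pos h.one_le_a) h.pos

theorem inv_e0_le {Λ : Lat} (h : Λ.Ok) : 1 / Λ.e0 ≤ Λ.τ := by
  have := h.one_le_a
  have h2 := h.pos
  rw [Lat.e0, one_div_div, div_le_iff₀ (by linarith)]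
  nlinarith

theorem tI_eq {Λ : Lat} (h : Λ.Ok) : Λ.tI = Λ.gI * Λ.e0 := by
  rw [Lat.gI, div_mul_cancel₀ _ (e0_pos h).ne']

theorem tendsto_gN (h1 : T1mStmt) {Λ : Lat} (h : Λ.Ok) : Tendsto Λ.gN atTop (𝓝 Λ.gI) :=
  (h1.1 Λ h).1.div_const _

theorem tendsto_pow2 : Tendsto (fun j : ℕ => 2 ^ j) atTop atTop :=
  tendsto_pow_atTop_atTop_of_one_lt (by norm_num)

/-- a positive sequence bounded by `1` cannot double `M` times -/
theorem no_double {y : ℕ → ℝ} {c : ℝ} {M : ℕ} (hc : c ≤ y 0) (hM : 1 < 2 ^ M * c) (h1 : y M ≤ 1) :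
    ∃ n < M, ¬ 2 * y n ≤ y (n + 1) := by
  by_contra hn
  push Not at hn
  have key : ∀ n ≤ M, 2 ^ n * y 0 ≤ y n := fun n => by
    induction n with
    | zero => simp
    | succ n ih =>
      intro h
      have := hn n (by omega)
      have := ih (by omega)
      rw [pow_succ]; linarith
  have := key M le_rfl
  have h2 : (2 : ℝ) ^ M * c ≤ 2 ^ M * y 0 := by gcongr
  linarith

theorem exists_pow (c : ℝ) (hc : 0 < c) : ∃ M : ℕ, 1 < 2 ^ M * c := by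
  obtain ⟨M, hM⟩ := pow_unbounded_of_one_lt (1 / c) (one_lt_two (α := ℝ))
  exact ⟨M, (div_lt_iff₀ hc).1 hM⟩

/-- below the critical stiffness a charge is non-small at arbitrarily large dyadic scales -/
theorem charge (h1 : T1mStmt) (hS : StepStmt) {Λ : Lat} (h : Λ.Ok) (hg : Λ.gI < 2 / Real.pi) :
    ∃ (q₀ : ℕ) (c : ℝ), 0 < c ∧ ∃ᶠ j in atTop, ∃ q : ℤ, 1 ≤ q ∧ q ≤ q₀ ∧ c ≤ Λ.aq (2 ^ j) q := by
  obtain ⟨k, q₀, l₀, c, hk, hc, H⟩ := hS (fa Λ h) ((2 / Real.pi - Λ.gI) / 2) (by linarith)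
  refine ⟨q₀, c, hc, ?_⟩
  have e1 : ∀ᶠ l in atTop, Λ.gN l ≤ 2 / Real.pi - (2 / Real.pi - Λ.gI) / 2 :=
    (tendsto_gN h1 h).eventually (ge_mem_nhds (by linarith))
  obtain ⟨j₀, hj₀⟩ := eventually_atTop.1 (tendsto_pow2.eventually (e1.and (eventually_ge_atTop l₀)))
  refine frequently_atTop.2 fun j₁ => ?_
  have hh : ∀ n, j₀ ≤ max j₀ j₁ + k * n := fun n => le_add_right (le_max_left _ _)
  have hp := (H Λ (fa_mem h) _ (hj₀ _ (hh 0)).2).1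
  obtain ⟨M, hM⟩ := exists_pow _ hp
  obtain ⟨n, -, hn⟩ := no_double (y := fun n => Λ.Y (2 ^ (max j₀ j₁ + k * n))) le_rfl hM
    (H Λ (fa_mem h) _ (hj₀ _ (hh M)).2).2.1
  refine ⟨max j₀ j₁ + k * n, le_add_right (le_max_right _ _), ?_⟩
  refine ((H Λ (fa_mem h) _ (hj₀ _ (hh n)).2).2.2.2 (hj₀ _ (hh n)).1).resolve_left fun h2 => hn ?_
  have e : 2 ^ k * 2 ^ (max j₀ j₁ + k * n) = 2 ^ (max j₀ j₁ + k * (n + 1)) := by ring
  rwa [e] at h2

end T511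

open T511

/-- **T5a**: the gap -/
theorem gapStmt (h1 : T1mStmt) (h2 : T2Stmt) (hS : StepStmt) : GapStmt := by
  intro Λ h
  by_contra hn
  push Not at hn
  have hg : 0 < Λ.gI := lt_of_le_of_ne (h1.1 Λ h).2.1 (Ne.symm hn.1)
  have ht : 0 < Λ.tI := by rw [tI_eq h]; exact mul_pos hg (e0_pos h)
  obtain ⟨q₀, c, hc, hf⟩ := charge h1 hS h hn.2
  obtain ⟨δ, hδ, H⟩ := h2 (fa Λ h) (Λ.tI / 2) (q₀ + 1) (c / 2) (by linarith)
    (by have : (0 : ℝ) ≤ q₀ := Nat.cast_nonneg _; linarith) (by linarith)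
  obtain ⟨l, hl⟩ := ((h1.1 Λ h).2.2.2.2.2 ht δ hδ).exists
  obtain ⟨j, ⟨q, q1, q2, q3⟩, hw⟩ := (hf.and_eventually hl).exists
  have q4 : |(q : ℝ)| ≤ q₀ + 1 := by
    have a1 : (1 : ℝ) ≤ q := by exact_mod_cast q1
    have a2 : (q : ℝ) ≤ q₀ := by exact_mod_cast q2
    rw [abs_of_pos (by linarith)]; linarith
  have := H Λ (fa_mem h) l _ hw q (by omega) q4
  linarith

/-- zero stiffness gives the finite-size criterion at arbitrarily large scales -/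
theorem lok_of_zero (h1 : T1mStmt) (hS : StepStmt) (hG : G2Stmt) {Λ : Lat} (h : Λ.Ok)
    (hg : Λ.gI = 0) : ∃ q₀ : ℕ, ∀ δ : ℝ, 0 < δ → ∀ L₀ : ℕ, ∃ (L : ℕ) (q : ℤ), L₀ ≤ L ∧ 1 ≤ L ∧
      1 ≤ q ∧ q ≤ q₀ ∧ Λ.Lok L q δ := by
  obtain ⟨q₀, c, hc, hf⟩ := charge h1 hS h (by rw [hg]; positivity)
  refine ⟨q₀, fun δ hδ L₀ => ?_⟩
  obtain ⟨ε, k, hε, HG⟩ := hG (fa Λ h) q₀ c δ hc hδ
  have ht : Tendsto Λ.tN atTop (𝓝 0) := by
    have := (h1.1 Λ h).1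
    rwa [tI_eq h, hg, zero_mul] at this
  have c1 : Tendsto (fun l : ℕ => ε * l) atTop atTop :=
    tendsto_natCast_atTop_atTop.const_mul_atTop hε
  obtain ⟨l, hl1, hl2⟩ := ((ht.eventually (ge_mem_nhds hε)).and
    (c1.eventually (eventually_ge_atTop 1))).exists
  obtain ⟨j, ⟨q, q1, q2, q3⟩, hj1, hj2⟩ := (hf.and_eventually (tendsto_pow2.eventually
    ((c1.eventually (eventually_ge_atTop (l : ℝ))).and (eventually_ge_atTop L₀)))).exists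
  exact ⟨2 ^ k * 2 ^ j, q, hj2.trans (Nat.le_mul_of_pos_left _ (by positivity)),
    Nat.one_le_iff_ne_zero.2 (by positivity), q1, q2,
    HG Λ (fa_mem h) l (2 ^ j) q q1 q2 ⟨hl2, hj1⟩ hl1 q3⟩

/-- **T5** without the seam -/
theorem t5aStmt (h1 : T1mStmt) (h2 : T2Stmt) (hS : StepStmt) (hG : G2Stmt) (hP : PeiAStmt)
    (hR : RghStmt) : T5AStmt := by
  intro Λ h
  have hpi : 0 < 2 / Real.pi := by positivity
  have key : Λ.gI = 0 → ¬ Λ.Rough := fun hg => by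
    obtain ⟨q₀, H⟩ := lok_of_zero h1 hS hG h hg
    obtain ⟨δ, L₀, hδ, HP⟩ := hP (fa Λ h) q₀
    obtain ⟨L, q, a1, -, a2, a3, a4⟩ := H δ hδ L₀
    exact HP Λ (fa_mem h) L q a1 a2 a3 a4
  have hgap := gapStmt h1 h2 hS Λ h
  exact ⟨⟨fun hr => hgap.resolve_left fun h0 => key h0 hr, fun hg => hR Λ h (by linarith)⟩,
    ⟨fun hr => hgap.resolve_right fun hg => hr (hR Λ h (by linarith)), key⟩⟩

theorem PeiStmt.peiA (hP : PeiStmt) : PeiAStmt := fun F q₀ => by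
  obtain ⟨δ, C, c, L₀, hδ, -, H⟩ := hP F q₀
  exact ⟨δ, L₀, hδ, fun Λ hΛ L q a1 a2 a3 a4 => (H Λ hΛ L q a1 a2 a3 a4).1⟩

theorem T5Stmt.t5A (h : T5Stmt) : T5AStmt := fun Λ hΛ => ⟨(h Λ hΛ).1, (h Λ hΛ).2.1⟩

/-- **T5** -/
theorem t5Stmt (h1 : T1mStmt) (h2 : T2Stmt) (hS : StepStmt) (hG : G2Stmt) (hP : PeiStmt)
    (hR : RghStmt) : T5Stmt := by
  intro Λ h
  have := t5aStmt h1 h2 hS hG hP.peiA hR Λ h
  refine ⟨this.1, this.2, fun hg hJ => ?_⟩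
  obtain ⟨q₀, H⟩ := lok_of_zero h1 hS hG h hg
  obtain ⟨δ, C, c, L₀, hδ, hc, HP⟩ := hP (fa Λ h) q₀
  obtain ⟨L, q, a1, a0, a2, a3, a4⟩ := H δ hδ L₀
  exact ⟨C, c, L, hc, a0, (HP Λ (fa_mem h) L q a1 a2 a3 a4).2 hJ⟩


namespace T511

theorem isRough_iff (h5 : T5AStmt) {J : Finset Pt} (hJ : IsAdmissible J) {β : ℝ} (hβ : 0 < β) :
    IsRough J β ↔ 2 / Real.pi ≤ (dg J β).gI :=
  ((boxStmt mdlStmt geoStmt J β hJ hβ).2).trans (h5 _ (dg_ok hJ hβ)).1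

/-- `β_eff ≤ β` -/
theorem gI_le (h1 : T1mStmt) {J : Finset Pt} (hJ : IsAdmissible J) {β : ℝ} (hβ : 0 < β) :
    4 * Real.pi ^ 2 * varianceConst J * (dg J β).gI ≤ β := by
  have h := dg_ok hJ hβ
  have a1 := (h1.1 _ h).2.2.1
  have a2 := h.a_eq
  have a3 : (0 : ℝ) < J.card := by exact_mod_cast h.card_pos
  have hv := FS.varianceConst_pos hJ
  have e : (dg J β).τ / (dg J β).a = β / (4 * Real.pi ^ 2 * varianceConst J) := by
    rw [a2]; simp only [dg]; field_simp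
  rw [e, le_div_iff₀ (by positivity)] at a1
  linarith

theorem le_of_rough (h1 : T1mStmt) (h5 : T5AStmt) {J : Finset Pt} (hJ : IsAdmissible J) {β : ℝ}
    (hβ : 0 < β) (hr : IsRough J β) : 8 * Real.pi * varianceConst J ≤ β := by
  have a1 := (isRough_iff h5 hJ hβ).1 hr
  have a2 := gI_le h1 hJ hβ
  have hv := FS.varianceConst_pos hJ
  have a3 : 4 * Real.pi ^ 2 * varianceConst J * (2 / Real.pi) = 8 * Real.pi * varianceConst J := by
    field_simp; ring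
  have a4 : 4 * Real.pi ^ 2 * varianceConst J * (2 / Real.pi) ≤
      4 * Real.pi ^ 2 * varianceConst J * (dg J β).gI := by gcongr
  linarith

theorem le_crit (h1 : T1mStmt) (h5 : T5AStmt) (hE : FS.E1Stmt) {J : Finset Pt}
    (hJ : IsAdmissible J) : 8 * Real.pi * varianceConst J ≤ criticalTemp J :=
  le_csInf (hE J hJ) fun _ hb => le_of_rough h1 h5 hJ hb.1 hb.2

theorem crit_le {J : Finset Pt} {β : ℝ} (hβ : 0 < β) (hr : IsRough J β) : criticalTemp J ≤ β :=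
  csInf_le ⟨0, fun _ hb => hb.1.le⟩ ⟨hβ, hr⟩

theorem crit_pos (h1 : T1mStmt) (h5 : T5AStmt) (hE : FS.E1Stmt) {J : Finset Pt}
    (hJ : IsAdmissible J) : 0 < criticalTemp J :=
  lt_of_lt_of_le (by have := FS.varianceConst_pos hJ; positivity) (le_crit h1 h5 hE hJ)

theorem dg_at (J : Finset Pt) (β β' : ℝ) :
    (dg J β).at' (β' * J.card / (4 * Real.pi ^ 2)) = dg J β' := rfl

/-- `β ↦ g_∞` is monotone -/
theorem gI_mono (h1 : T1mStmt) {J : Finset Pt} (hJ : IsAdmissible J) {β β' : ℝ} (hβ : 0 < β)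
    (h : β ≤ β') : (dg J β).gI ≤ (dg J β').gI :=
  (h1.1 _ (dg_ok hJ hβ)).2.2.2.1 (dg_ok hJ hβ).pos (dg_ok hJ (hβ.trans_le h)).pos
    (by simp only [dg]; gcongr)

/-- the stiffness is at least critical from the threshold on -/
theorem le_gI (h1 : T1mStmt) (h5 : T5AStmt) (hE : FS.E1Stmt) {J : Finset Pt}
    (hJ : IsAdmissible J) {β : ℝ} (hβ : criticalTemp J ≤ β) : 2 / Real.pi ≤ (dg J β).gI := by
  have hc := crit_pos h1 h5 hE hJ
  refine le_trans ?_ (gI_mono h1 hJ hc hβ)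
  by_contra hn
  push Not at hn
  have hu := (h1.1 _ (dg_ok hJ hc)).2.2.2.2.1 _ (dg_ok hJ hc).pos _ hn
  have hcont : Tendsto (fun b : ℝ => b * J.card / (4 * Real.pi ^ 2)) (𝓝[>] criticalTemp J)
      (𝓝[Set.Ioi 0] (dg J (criticalTemp J)).τ) := by
    refine tendsto_nhdsWithin_iff.2 ⟨?_, ?_⟩
    · exact ((by fun_prop : Continuous fun b : ℝ => b * J.card / (4 * Real.pi ^ 2)).tendsto _).mono_left
        nhdsWithin_le_nhds
    · filter_upwards [self_mem_nhdsWithin] with b hb using (dg_ok hJ (hc.trans hb)).pos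
  obtain ⟨b, hb1, hb2⟩ := ((hcont.eventually hu).and self_mem_nhdsWithin).exists
  obtain ⟨b', hb', hlt⟩ := exists_lt_of_csInf_lt (hE J hJ) hb2
  have a1 := (isRough_iff h5 hJ hb'.1).1 hb'.2
  have a2 := gI_mono h1 hJ hb'.1 hlt.le
  have a3 : (dg J b).gI < 2 / Real.pi := hb1
  linarith

/-- below the threshold the stiffness vanishes -/
theorem gI_eq_zero (h5 : T5AStmt) {J : Finset Pt} (hJ : IsAdmissible J) {β : ℝ} (hβ : 0 < β)
    (h : β < criticalTemp J) : (dg J β).gI = 0 :=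
  (h5 _ (dg_ok hJ hβ)).2.1 fun hr =>
    not_lt.2 (crit_le hβ ((boxStmt mdlStmt geoStmt J β hJ hβ).2.2 hr)) h

end T511

/-- **S0200** -/
theorem s0200_of (h1 : T1mStmt) (h5 : T5AStmt) (hE : FS.E1Stmt) (J : Finset Pt)
    (hJ : IsAdmissible J) :
    {β : ℝ | 0 < β ∧ IsRough J β}.Nonempty ∧ 0 < criticalTemp J ∧
      (∀ β : ℝ, 0 < β → β < criticalTemp J → ⨆ R : ℕ, boxVariance J β (R + 1) < ⊤) ∧
      ∀ β : ℝ, criticalTemp J ≤ β → IsRough J β :=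
  ⟨hE J hJ, crit_pos h1 h5 hE hJ, fun _ hβ h => lt_top_iff_ne_top.2 fun hr =>
    not_lt.2 (crit_le hβ hr) h, fun _ hβ =>
    (isRough_iff h5 hJ ((crit_pos h1 h5 hE hJ).trans_le hβ)).2 (le_gI h1 h5 hE hJ hβ)⟩

/-- **S0202** -/
theorem s0202_of (h1 : T1mStmt) (h5 : T5AStmt) (hE : FS.E1Stmt) (h2 : FS.E2Stmt) :
    Tendsto (fun ρ : ℕ => criticalTemp (boxInteraction ρ) /
      (8 * Real.pi * varianceConst (boxInteraction ρ))) atTop (𝓝 1) := by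
  rw [Metric.tendsto_nhds]
  intro ε hε
  filter_upwards [h2 (ε / 2) (by linarith), eventually_ge_atTop 1] with ρ hR hρ
  have hJ := FS.isAdmissible_box hρ
  have hv : 0 < 8 * Real.pi * varianceConst (boxInteraction ρ) := by
    have := FS.varianceConst_pos hJ; positivity
  have lo := le_crit h1 h5 hE hJ
  have hi : criticalTemp (boxInteraction ρ) ≤
      (1 + ε / 2) * (8 * Real.pi * varianceConst (boxInteraction ρ)) :=
    csInf_le ⟨0, fun β hβ => hβ.1.le⟩ ⟨by positivity, hR⟩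
  rw [Real.dist_eq, abs_lt]
  have a1 := (one_le_div hv).2 lo
  have a2 := (div_le_iff₀ hv).2 hi
  constructor <;> linarith

end Crest.Agent.T145
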