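import Crest.Agent.T145.T3A_84
import Crest.Agent.T145.Brg_14
import Crest.Agent.T145.Tor_27
import Crest.Agent.T145.ApiT_98
import Crest.Agent.T145.GffDef_8
import Crest.Agent.T145.GeoB_51
import Crest.Agent.T145.CorB_59
import Crest.Agent.T145.Short_53
import Crest.Agent.T145.ApiL_98
import Crest.Agent.T145.Cut_7
import Crest.Agent.T145.Loc_51

-- ▼ part T145/T3_84
section

/-!
# Row 145 (b): `T3Stmt` from T3a, T3b, Cramér–Rao (helper84)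
-/

set_option autoImplicit false

namespace Crest.Agent.T145
namespace T84

open Finset

theorem En_sub_const (Λ : Lat) (B : Finset Pt) (u : Pt → ℝ) (c : ℝ) :
    Λ.En B (fun x => u x - c) (fun x => u x - c) = Λ.En B u u :=
  sum_congr rfl fun e _ => by ring

theorem Au_sub_const (Λ : Lat) (B : Finset Pt) (u : Pt → ℝ) (c : ℝ) :
    Λ.Au B (fun x => u x - c) = Λ.Au B u := by
  unfold Lat.Au; congr 1; funext e; ring

theorem Sm2.sub_const {u : Pt → ℝ} {K L : ℝ} (h : Sm2 u K L) (c : ℝ) :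
    Sm2 (fun x => u x - c) K L := by
  have : ∀ i, df i (fun x => u x - c) = df i u := fun i => funext fun x => by simp [df]
  exact ⟨fun i x => by rw [this]; exact h.1 i x, fun i j x => by rw [this]; exact h.2 i j x⟩

theorem sm2_const (c : ℝ) {K L : ℝ} (hK : 0 ≤ K) (hL : 0 ≤ L) : Sm2 (fun _ => c) K L :=
  ⟨fun i x => by simp only [df, sub_self, abs_zero]; positivity,
    fun i j x => by simp only [df, sub_self, abs_zero]; positivity⟩

theorem co_add (i : Fin 2) (x y : Pt) : co i (x + y) = co i x + co i y := by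
  fin_cases i <;> simp [co]

theorem sm2_co (i : Fin 2) {K L : ℝ} (hK : 1 ≤ K) (hL : 0 < L) :
    Sm2 (fun x => co i x / L) K L := by
  have h : ∀ j, df j (fun x => co i x / L) = fun _ => co i (ev j) / L := fun j =>
    funext fun x => by simp only [df, co_add]; ring
  refine ⟨fun j x => ?_, fun j k x => ?_⟩
  · rw [h, abs_div, abs_of_pos hL]
    gcongr
    refine le_trans ?_ hK
    fin_cases i <;> fin_cases j <;> simp [co, ev]
  · rw [h]; simp only [df, sub_self, abs_zero]; positivity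

theorem co_le (i : Fin 2) {L : ℕ} {x : Pt} (hx : x ∈ sq 0 L) : |co i x / L| ≤ 1 := by
  rw [mem_sq] at hx
  simp only [Prod.fst_zero, Prod.snd_zero, zero_add] at hx
  have hL : (0 : ℝ) < L := by
    have : (0 : ℤ) < L := by omega
    exact_mod_cast this
  rw [abs_div, abs_of_pos hL, div_le_one hL]
  have h1 : |x.1| ≤ L := by rw [abs_le]; omega
  have h2 : |x.2| ≤ L := by rw [abs_le]; omega
  fin_cases i
  · show |(x.1 : ℝ)| ≤ L; exact_mod_cast h1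
  · show |(x.2 : ℝ)| ≤ L; exact_mod_cast h2

theorem En_co {Λ : Lat} (h : Λ.Ok) (i : Fin 2) {L : ℕ} (hL : 1 ≤ L) :
    Λ.En (sq 0 L) (fun x => co i x / L) (fun x => co i x / L) ≤ Λ.e0 := by
  have hL0 : (0 : ℝ) < L := by exact_mod_cast hL
  have hτ := h.pos
  have ha : Λ.a = ∑ y ∈ Λ.Jp, co i y ^ 2 := by
    fin_cases i
    · simp [co, Lat.a]
    · simpa [co] using h.a_eq_snd
  rw [Lat.En, Lat.sum_edI, Lat.e0, ha, sum_div]
  refine sum_le_sum fun y _ => ?_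
  have e : ∀ x : Pt, (co i (x + y) / L - co i x / L) * (co i (x + y) / L - co i x / L) / Λ.τ =
      co i y ^ 2 / Λ.τ / (L : ℝ) ^ 2 := fun x => by rw [co_add]; field_simp; ring
  simp only [e, sum_const, nsmul_eq_mul]
  have hc : (((sq (0 : Pt) L).filter fun x => x + y ∈ sq 0 L).card : ℝ) ≤ (L : ℝ) ^ 2 := by
    have := card_filter_le (sq (0 : Pt) L) fun x => x + y ∈ sq 0 L
    rw [card_sq] at this
    exact_mod_cast this
  calc _ ≤ (L : ℝ) ^ 2 * (co i y ^ 2 / Λ.τ / (L : ℝ) ^ 2) := by gcongr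
    _ = _ := by field_simp

theorem X_div (Λ : Lat) (L : ℕ) (u : Pt → ℝ) (c : ℝ) :
    Λ.X L (fun x => u x / c) = c⁻¹ • Λ.X L u := by
  rw [Lat.X, Lat.X, ← pr_smul]
  congr 1
  funext x
  simp only [Lat.Au, dv, Pi.smul_apply, smul_eq_mul, mul_sum]
  exact sum_congr rfl fun e _ => by ring

theorem Au_zero {Λ : Lat} {B : Finset Pt} {u : Pt → ℝ} {x : Pt} (h : ∀ y ∈ bl x Λ.rg, u y = 0) :
    Λ.Au B u x = 0 := by
  refine sum_eq_zero fun e he => ?_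
  have he' := (Lat.mem_edI.1 he).1
  have hx := h x (self_mem_bl _ _)
  dsimp only
  by_cases h1 : e.1 = x
  · rw [h e.2 (h1 ▸ Lat.edge_near he'), h1, hx]; simp
  · by_cases h2 : e.2 = x
    · rw [h e.1 (h2 ▸ Lat.edge_near' he'), h2, hx]; simp
    · simp [ind, h1, h2]

theorem cr_alg {E θ e Q : ℝ} (hE : 0 ≤ E) (hθ : 0 < θ) (he : 0 < e) (h : E ^ 2 ≤ (θ * E + e) * Q) :
    E / θ - e / θ ^ 2 ≤ Q := by
  have h1 : 0 < θ * E + e := by positivity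
  have h2 : (θ * E + e) * (E / θ - e / θ ^ 2) = E ^ 2 - (e / θ) ^ 2 := by field_simp; ring
  refine le_of_mul_le_mul_left ?_ h1
  rw [h2]; linarith [sq_nonneg (e / θ)]

theorem t3_alg {E B θ V e p Vf n Q ε : ℝ} (hE : 0 ≤ E) (hB : E ≤ B) (hθ : 0 < θ) (hθ1 : θ ≤ 1)
    (hV : 0 ≤ V) (he : 0 < e) (he1 : e ≤ 1) (hVf : 0 ≤ Vf)
    (hp : |p - E| ≤ e) (h1 : Real.sqrt Vf ≤ Real.sqrt V + e) (hn : n ≤ e) (hQ0 : 0 ≤ Q)
    (hQ : Q ≤ E / θ + e) (h : p ^ 2 ≤ (Vf + n) * Q) (hε : 0 < ε)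
    (h2 : e * (2 * B + 4) ≤ ε / 2) (h3 : 3 * B * e < ε ^ 2 / 2) : θ * E - ε ≤ V := by
  by_contra hc
  push Not at hc
  have hθE : θ * E ≤ E := by nlinarith
  have hVB : Real.sqrt V ≤ B + 1 := Real.sqrt_le_iff.2 ⟨by linarith, by nlinarith⟩
  have h4 : Vf ≤ V + 2 * e * (B + 1) + e := by
    have := pow_le_pow_left₀ (Real.sqrt_nonneg _) h1 2
    rw [Real.sq_sqrt hVf] at this
    nlinarith [Real.sq_sqrt hV, Real.sqrt_nonneg V]
  have h5 : Vf + n ≤ θ * E - ε / 2 := by nlinarith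
  have h6 : p ^ 2 ≤ (θ * E - ε / 2) * (E / θ + e) :=
    h.trans (mul_le_mul h5 hQ hQ0 (by linarith))
  have h7 : (θ * E - ε / 2) * (E / θ + e) = E ^ 2 + θ * E * e - ε / 2 * (E / θ) - ε / 2 * e := by
    field_simp; ring
  have h8 : E ≤ E / θ := by rw [le_div_iff₀ hθ]; linarith
  have h9 : E ^ 2 - 2 * e * E ≤ p ^ 2 := by
    obtain ⟨h10, h11⟩ := abs_le.1 hp
    nlinarith [sq_nonneg (p - E)]
  have h10 : ε ≤ E := by linarith
  have h11 : θ * E * e ≤ B * e := by gcongr; linarith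
  have h12 : ε / 2 * ε ≤ ε / 2 * (E / θ) := by gcongr; linarith
  have h13 : e * E ≤ e * B := by gcongr
  nlinarith

/-- the lower bound hypothesis of T3b -/
theorem low (hJ : JStmt) (hx : T1xStmt) (hB : BrStmt) (hM : T1mStmt) (hR : RJStmt) (F : Fa)
    {θ₀ K ε : ℝ} (h0 : 0 < θ₀) (hK : 1 ≤ K) (hε : 0 < ε) : ∃ W₀ δ : ℝ, 0 < δ ∧ ∀ W, W₀ ≤ W → 0 < W →
      ∀ Λ, F.Mem Λ → ∀ l L, Λ.Win θ₀ δ l L → ∀ m : Pt → ℝ, Sm2 m K L →
        (∀ x, m x ≠ 0 → bl x ⌊(L : ℝ) / K⌋₊ ⊆ sq 0 L) →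
        Λ.e0 / Λ.tN l * nnL.En (sq 0 L) m m - ε ≤ qf (Λ.Jm L ((W / L) ^ 2)) m := by
  obtain ⟨C, hC0, hC⟩ := En_le hR F
  set t : ℝ := θ₀ / 2 with ht
  have ht0 : 0 < t := by positivity
  set e : ℝ := ε * t ^ 2 / 6 with he
  have he0 : 0 < e := by positivity
  obtain ⟨δ₁, hδ₁, hX⟩ := hx F (4 * K) e he0
  obtain ⟨δ₂, hδ₂, hT⟩ := hM.2.2 F θ₀ 1 0 h0 one_pos
  set r : ℕ := ProbabilityR.HeightModel.interactionRange F.J with hr
  set M₀ : ℝ := 1 + 2 * r * K + 2 * C * K ^ 2 / (t * ε) with hM₀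
  have hM₁ : 1 ≤ M₀ := by
    have : 0 ≤ 2 * r * K + 2 * C * K ^ 2 / (t * ε) := by positivity
    linarith
  refine ⟨C * K / Real.sqrt e, min (min δ₁ δ₂) (1 / M₀), by positivity,
    fun W hW hW0 Λ hΛ l L hWin m hm hs => ?_⟩
  have hΛo := ok_of hΛ
  have hτ := hΛo.pos
  have hθ : t ≤ Λ.tN l :=
    (hT Λ hΛ l L (Win.mono hWin ((min_le_left _ _).trans (min_le_right _ _)))).2.1
  have hθ0 : 0 < Λ.tN l := ht0.trans_le hθ
  have hLge : M₀ ≤ L := Sep.le (Sep.mono hWin.2.1 (min_le_right _ _)) (by positivity)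
    (by rw [div_le_one (by positivity)]; exact hM₁) (by field_simp; rfl)
  have hL1' : (1 : ℝ) ≤ L := hM₁.trans hLge
  have hL1 : 1 ≤ L := by exact_mod_cast hL1'
  have hL0 : (0 : ℝ) < L := by linarith
  obtain ⟨-, hE2, hE3⟩ := hC Λ hΛ L hL1 m K hm
  have hE0 := En_nonneg hΛo (sq 0 L) m
  have hμ0 : 0 < (W / L) ^ 2 := by positivity
  obtain ⟨hKer, hb, -⟩ := hJ Λ L _ hΛo hL1 hμ0
  have h1 := hb (Λ.Au (sq 0 L) m) m (sum_Au _ _ _)
  rw [ip_Au] at h1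
  have hReg : Reg (sq 0 L) (4 * K) l L := by
    have := hB.2.2.2.2.2.1 0 L L l L 1 le_rfl (by simp) (by simp)
    exact ⟨this.1.trans (by gcongr; linarith), this.2.trans (by gcongr; linarith)⟩
  have h2 := hX Λ hΛ l L (Sep.mono hWin.2.1 ((min_le_left _ _).trans (min_le_left _ _)))
    (Λ.Nr (sq 0 L) 0) (sq 0 L) m 0 (hB.2.2.1 Λ 0 0 L L hΛo (self_mem_sq 0 hL1)) hReg
    (Sm2.mono hm (by linarith) hL0.le) (fun e _ => by simp only [Pi.zero_apply, abs_zero]; positivity)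
  have hdv : dv (Λ.edI (sq 0 L)) 0 = 0 := funext fun x => by simp [dv]
  simp only [hdv, pr_zero, add_zero, Pi.zero_apply, zero_mul, sum_const_zero, mul_zero, ne_eq,
    OfNat.ofNat_ne_zero, not_false_eq_true, zero_pow] at h2
  have h3 := (cen_WN hΛo hL1).vr_le_M (pr (Λ.Au (sq 0 L) m))
  have h4 : ∀ x ∈ sq (0 : Pt) L, |Λ.Au (sq 0 L) m x| ≤ C * K / (L : ℝ) ^ 2 := fun x _ => by
    by_cases h5 : ∀ y ∈ bl x Λ.rg, m y = 0
    · rw [Au_zero h5, abs_zero]; positivity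
    · push Not at h5
      obtain ⟨y, hy, hy0⟩ := h5
      refine hE3 x (Subset.trans (bl_subset_bl (mem_bl_comm.1 hy) ?_) (hs y hy0))
      have hrg : Λ.rg = r := by rw [hr, Lat.rg, hΛ.1]
      refine Nat.le_floor ?_
      rw [le_div_iff₀ (by linarith), hrg]
      push_cast
      have : 0 ≤ 2 * C * K ^ 2 / (t * ε) := by positivity
      linarith
  have h5 : ip (sq 0 L) (Λ.Au (sq 0 L) m) (Λ.Au (sq 0 L) m) / (W / L) ^ 2 ≤ e := by
    have h6 := ip_le h4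
    rw [card_sq] at h6
    push_cast at h6
    have h7 : C * K ≤ W * Real.sqrt e := (div_le_iff₀ (Real.sqrt_pos.2 he0)).1 hW
    have h8 : (C * K) ^ 2 ≤ W ^ 2 * e := by
      have := pow_le_pow_left₀ (by positivity) h7 2
      rwa [mul_pow W, Real.sq_sqrt he0.le] at this
    rw [div_le_iff₀ hμ0]
    refine h6.trans ?_
    rw [show (L : ℝ) ^ 2 * (C * K / (L : ℝ) ^ 2) ^ 2 = (C * K) ^ 2 / (L : ℝ) ^ 2 by field_simp,
      show e * (W / L) ^ 2 = W ^ 2 * e / (L : ℝ) ^ 2 by field_simp]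
    gcongr
  set θ := Λ.tN l
  set E := Λ.En (sq 0 L) m m
  have h6 : E ^ 2 ≤ (θ * E + 3 * e) * qf (Λ.Jm L ((W / L) ^ 2)) m :=
    h1.trans (mul_le_mul_of_nonneg_right (by unfold Lat.WN at h3 ⊢; linarith) (hKer.2.2 _).1)
  have h7 := cr_alg hE0 hθ0 (by positivity) h6
  have h8 : 3 * e / θ ^ 2 ≤ ε / 2 := by
    rw [div_le_iff₀ (by positivity), he]
    have : t ^ 2 ≤ θ ^ 2 := by gcongr
    nlinarith
  have h9 : C * K ^ 2 / L / θ ≤ ε / 2 := by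
    have h10 : 2 * C * K ^ 2 / (t * ε) ≤ L := by
      have : 0 ≤ 2 * r * K := by positivity
      linarith
    rw [div_le_iff₀ (by positivity)] at h10
    rw [div_le_iff₀ hθ0, div_le_iff₀ hL0]
    have : (L : ℝ) * (t * ε) ≤ L * (θ * ε) := by gcongr
    linarith
  have h10 : Λ.e0 / θ * nnL.En (sq 0 L) m m ≤ E / θ + C * K ^ 2 / L / θ := by
    rw [div_mul_eq_mul_div, ← add_div]
    gcongr
    linarith [(abs_le.1 hE2).1]
  linarith

end T84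

open T84 in
theorem t3Stmt (hA : T3aStmt) (hb : T3bStmt) (hJ : JStmt) (hx : T1xStmt) (h1a : T1aStmt)
    (hM : T1mStmt) (hB : BrStmt) (hR : RJStmt) (h3 : R3Stmt) (hS : SmStmt) : T3Stmt := by
  intro F θ₀ K ε h0 hK hε
  obtain ⟨C, hC0, hC⟩ := En_le hR F
  obtain ⟨C₁, h1a⟩ := h1a F
  have hτ₁ := F.pos
  set t : ℝ := θ₀ / 2 with ht
  have ht0 : 0 < t := by positivity
  set a₀ : ℝ := ∑ y ∈ F.J.filter posD, (y.1 : ℝ) ^ 2 with ha₀
  have ha0 : 0 ≤ a₀ := Finset.sum_nonneg fun _ _ => sq_nonneg _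
  set B : ℝ := C * K ^ 2 with hBd
  have hB0 : 0 ≤ B := by positivity
  set e : ℝ := min 1 (min (ε / 2 / (2 * B + 4)) (ε ^ 2 / 2 / (3 * B + 1))) with he
  have he0 : 0 < e := by positivity
  have he1 : e ≤ 1 := min_le_left _ _
  have he2 : e * (2 * B + 4) ≤ ε / 2 :=
    (le_div_iff₀ (by positivity)).1 ((min_le_right _ _).trans (min_le_left _ _))
  have he3 : 3 * B * e < ε ^ 2 / 2 := by
    have : e * (3 * B + 1) ≤ ε ^ 2 / 2 :=
      (le_div_iff₀ (by positivity)).1 ((min_le_right _ _).trans (min_le_right _ _))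
    linarith
  set T : ℝ := max F.τ₂ 1 with hT
  have hT0 : 0 < T := lt_max_of_lt_right one_pos
  set eR : ℝ := e ^ 2 / (T * (B + 1)) with heR
  obtain ⟨KR, LR, hR3⟩ := h3 F K eR (by positivity)
  set Kb : ℝ := max (2 * K) (a₀ / F.τ₁ / t) with hKb
  obtain ⟨K', ε₂, hK', hε₂, hb⟩ := hb Kb (e / 2) (by positivity)
  obtain ⟨W₀, δ₁, hδ₁, hlow⟩ := low hJ hx hB hM hR F h0 hK' hε₂
  obtain ⟨a, ha⟩ := pow_unbounded_of_one_lt (max W₀ (|KR| / Real.sqrt e)) (one_lt_two : (1 : ℝ) < 2)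
  have hW1 : (1 : ℝ) ≤ 2 ^ a := one_le_pow₀ one_le_two
  obtain ⟨ε₁, L₀, hε₁, hb⟩ := hb (2 ^ a) (by positivity)
  obtain ⟨δ₂, hδ₂, hA⟩ := hA F θ₀ (2 ^ a) ε₁ h0 hW1 hε₁
  obtain ⟨δ₃, hδ₃, hT3⟩ := hM.2.2 F θ₀ (δ₂ / (a₀ / F.τ₁ + 1)) 0 h0 (by positivity)
  set M₀ : ℝ := 1 + LR + L₀ + 2 * B / (t * e) with hM₀
  have hM₂ : 0 ≤ 2 * B / (t * e) := by positivity
  have hLR : (0 : ℝ) ≤ LR := Nat.cast_nonneg _
  have hL₀ : (0 : ℝ) ≤ L₀ := Nat.cast_nonneg _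
  have hM₁ : 1 ≤ M₀ := by linarith
  refine ⟨min (min δ₁ δ₂) (min δ₃ (1 / M₀)), by positivity, fun Λ hΛ l L hW u₀ hu₀ => ?_⟩
  have hΛo := ok_of hΛ
  have hτ := hΛo.pos
  have hW₁ := Win.mono hW ((min_le_left _ _).trans (min_le_left _ _))
  have hW₂ := Win.mono hW ((min_le_left _ _).trans (min_le_right _ _))
  have hW₃ := Win.mono hW ((min_le_right _ _).trans (min_le_left _ _))
  have hW₄ := Win.mono hW ((min_le_right _ _).trans (min_le_right _ _))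
  obtain ⟨hd, hθ, -⟩ := hT3 Λ hΛ l L hW₃
  have hθ0 : 0 < Λ.tN l := ht0.trans_le hθ
  have hLge : M₀ ≤ L := Sep.le hW₄.2.1 (by positivity)
    (by rw [div_le_one (by positivity)]; exact hM₁) (by field_simp; rfl)
  have hL1' : (1 : ℝ) ≤ L := hM₁.trans hLge
  have hL1 : 1 ≤ L := by exact_mod_cast hL1'
  have hL0 : (0 : ℝ) < L := by linarith
  have hl1 : 1 ≤ l := by
    by_contra hl
    have : l = 0 := by omega
    have h5 := hW.2.1.1
    rw [this] at h5; norm_num at h5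
  have hθ1 : Λ.tN l ≤ 1 := (h1a Λ hΛ l hl1).2.1
  have hcen := cen_WN hΛo hL1
  have he00 : 0 ≤ Λ.e0 := div_nonneg (zero_le_one.trans hΛo.one_le_a) hτ.le
  have he0le : Λ.e0 ≤ a₀ / F.τ₁ := by
    have : Λ.a = a₀ := by rw [ha₀, Lat.a, Lat.Jp, hΛ.1]
    have h5 := hΛ.2.2.1
    rw [Lat.e0, this]; gcongr
  set u : Pt → ℝ := fun x => u₀ x - u₀ 0 with hud
  have hu : Sm2 u K L := Sm2.sub_const hu₀ _
  have hub : ∀ x ∈ sq 0 L, |u x| ≤ 2 * K := fun x hx =>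
    (osc_sq hS hu₀ (self_mem_sq 0 hL1) hx).trans_eq (by field_simp)
  show Λ.tN l * Λ.En (sq 0 L) u₀ u₀ - ε ≤ Vr (Λ.WN L) (pr (Λ.Au _ u₀)) (pr (Λ.Au _ u₀))
  rw [← En_sub_const Λ _ u₀ (u₀ 0), ← Au_sub_const Λ _ u₀ (u₀ 0), ← hud]
  obtain ⟨hE1, hE2, -⟩ := hC Λ hΛ L hL1 u K hu
  have hE0 := En_nonneg hΛo (sq 0 L) u
  have hμ0 : 0 < ((2 : ℝ) ^ a / L) ^ 2 := by positivity
  obtain ⟨hKer, hcr, -⟩ := hJ Λ L _ hΛo hL1 hμ0
  have hQ := hb L (by exact_mod_cast (by linarith : (L₀ : ℝ) ≤ L)) (Λ.e0 / Λ.tN l)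
    (Λ.Jm L ((2 ^ a / L) ^ 2)) (by positivity) (le_max_of_le_right (by gcongr)) hKer
    (by
      have hE : Λ.En (sq 0 L) (fun _ => 1) (fun _ => 1) = 0 := by simp [Lat.En]
      have := hA Λ hΛ l L hW₂ a (fun _ => 1) le_rfl (sm2_const 1 (by positivity) hL0.le)
        (fun _ _ => by rwa [abs_one]) (by
          rw [hE]; linarith [hcen.wt.Vr_nonneg hcen.se (Λ.X L fun _ => 1)])
      rwa [hE, zero_div, zero_add] at this)
    (fun i => by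
      have hE := En_co hΛo i hL1
      have hE' := En_nonneg hΛo (sq 0 L) fun x => co i x / L
      refine (hA Λ hΛ l L hW₂ a _ le_rfl (sm2_co i hW1 hL0) (fun x hx => (co_le i hx).trans hW1)
        ?_).trans (by gcongr)
      have h5 : Vr (Λ.WN L) (Λ.X L (co i)) (Λ.X L (co i)) = Λ.tN L * Λ.e0 * (L : ℝ) ^ 2 := by
        have h6 : Vr (Λ.WN L) (Λ.X L (co 0)) (Λ.X L (co 0)) = Λ.tN L * Λ.e0 * (L : ℝ) ^ 2 := by
          have : 0 < Λ.e0 := div_pos (one_pos.trans_le hΛo.one_le_a) hτ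
          rw [Lat.tN]; field_simp
        fin_cases i
        · exact h6
        · exact (h1a Λ hΛ L hL1).2.2.2.1.trans h6
      rw [X_div, Vr_smul_left, Vr_smul_right, h5,
        show (L : ℝ)⁻¹ * ((L : ℝ)⁻¹ * (Λ.tN L * Λ.e0 * (L : ℝ) ^ 2)) = Λ.tN L * Λ.e0 by field_simp]
      have h6 : δ₂ / (a₀ / F.τ₁ + 1) * Λ.e0 ≤ δ₂ := by
        rw [div_mul_eq_mul_div, div_le_iff₀ (by positivity)]
        exact mul_le_mul_of_nonneg_left (by linarith) hδ₂.le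
      have h7 := mul_le_mul_of_nonneg_right (abs_le.1 hd).2 he00
      have h8 := mul_le_mul_of_nonneg_left hE hθ0.le
      linarith)
    (fun m hm _ hs => hlow _ ((le_max_left _ _).trans ha.le) (by positivity) Λ hΛ l L hW₁ m hm hs)
    u (Sm2.mono hu (le_max_of_le_left (by linarith)) hL0.le)
    (fun x hx => (hub x hx).trans (le_max_left _ _))
  obtain ⟨f, hf, hF2⟩ := hR3 Λ hΛ L (by exact_mod_cast (by linarith : (LR : ℝ) ≤ L)) u hu
  have hV := (bare_WN hB hΛo hL1 hF2).1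
  obtain ⟨φ, hφ, hφ2⟩ := hF2
  have hfe : f = Λ.Au (sq 0 L) u - dv (Λ.edI (sq 0 L)) φ := by rw [← hφ]; abel
  have hτT : Λ.τ ≤ T := hΛ.2.2.2.trans (le_max_left _ _)
  have heT : eR * (T * (B + 1)) = e ^ 2 := by rw [heR]; field_simp
  have heR0 : 0 < eR := by positivity
  set θ := Λ.tN l
  set E := Λ.En (sq 0 L) u u with hEd
  refine t3_alg (B := B) (e := e) hE0 hE1 hθ0 hθ1 (hcen.wt.Vr_nonneg hcen.se _) he0 he1
    (hcen.wt.Vr_nonneg hcen.se (pr f)) ?_ ?_ ?_ (hKer.2.2 _).1 (hQ.trans ?_) (hcr f u ?_) hε he2 he3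
  · have h5 : ip (sq 0 L) f u - E = -∑ e ∈ Λ.edI (sq 0 L), φ e * (u e.2 - u e.1) := by
      rw [hEd, ← ip_Au, ← ip_dv (ends Λ _), hfe]
      simp only [ip, Pi.sub_apply, sub_mul, Finset.sum_sub_distrib]; ring
    rw [h5, abs_neg]
    refine abs_le_of_sq_le_sq' ?_ he0.le |> abs_le.2
    refine (Finset.sum_mul_sq_le_sq_mul_sq _ _ _).trans ?_
    have h6 : ∑ e ∈ Λ.edI (sq 0 L), (u e.2 - u e.1) ^ 2 = Λ.τ * E := by
      rw [hEd, Lat.En, Finset.mul_sum]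
      exact Finset.sum_congr rfl fun e _ => by field_simp
    rw [h6, ← heT]
    gcongr
    linarith
  · have h5 := Vr_tri hcen (pr (Λ.Au (sq 0 L) u)) (-pr (Λ.Au (sq 0 L) u - f))
    rw [← pr_neg, ← pr_add, show Λ.Au (sq 0 L) u + -(Λ.Au (sq 0 L) u - f) = f by abel, pr_neg,
      Vr_neg_left, Vr_neg_right, neg_neg] at h5
    refine h5.trans (add_le_add le_rfl (Real.sqrt_le_iff.2 ⟨he0.le, hV.trans ?_⟩))
    rw [← heT]
    nlinarith [mul_nonneg heR0.le (mul_nonneg hT0.le hB0)]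
  · have h6 := ip_le (B := sq 0 L) (f := f) (C := KR / (L : ℝ) ^ 2) fun x _ => hf x
    rw [card_sq] at h6
    push_cast at h6
    have h7 : |KR| ≤ 2 ^ a * Real.sqrt e :=
      (div_le_iff₀ (Real.sqrt_pos.2 he0)).1 ((le_max_right _ _).trans ha.le)
    have h8 : KR ^ 2 ≤ (2 ^ a) ^ 2 * e := by
      have := pow_le_pow_left₀ (abs_nonneg _) h7 2
      rwa [mul_pow, Real.sq_sqrt he0.le, sq_abs] at this
    rw [div_le_iff₀ hμ0]
    refine h6.trans ?_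
    rw [show (L : ℝ) ^ 2 * (KR / (L : ℝ) ^ 2) ^ 2 = KR ^ 2 / (L : ℝ) ^ 2 by field_simp,
      show e * (2 ^ a / L) ^ 2 = (2 ^ a) ^ 2 * e / (L : ℝ) ^ 2 by field_simp]
    gcongr
  · have h9 : B / L / θ ≤ e / 2 := by
      have h10 : 2 * B / (t * e) ≤ L := by linarith
      rw [div_le_iff₀ (by positivity)] at h10
      rw [div_le_iff₀ hθ0, div_le_iff₀ hL0]
      have : (L : ℝ) * (t * e) ≤ L * (θ * e) := by gcongr
      linarith
    have h10 : Λ.e0 / θ * nnL.En (sq 0 L) u u ≤ E / θ + B / L / θ := by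
      rw [div_mul_eq_mul_div, ← add_div]
      gcongr
      linarith [(abs_le.1 hE2).1]
    linarith
  · rw [hfe]
    simp only [Pi.sub_apply, Finset.sum_sub_distrib, sum_Au, sum_dv (ends Λ _), sub_zero]

end Crest.Agent.T145
end

-- ▼ part T145/TorB_27
section

/-!
# Row 145 (helper27): the bridge for tori, `TorStmt`
-/

set_option autoImplicit false

noncomputable section

namespace Crest.Agent.T145

open Finset hiding box
open Crest.ProbabilityR.HeightModel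

namespace Tor27

variable {n : ℕ} [NeZero n]

/-- reduction modulo `n` -/
def cz (n : ℕ) (x : Pt) : ZMod n × ZMod n := ((x.1 : ZMod n), (x.2 : ZMod n))

/-- the representative in `[0, n)²` -/
def lf (x : ZMod n × ZMod n) : Pt := ((x.1.val : ℤ), (x.2.val : ℤ))

omit [NeZero n] in
theorem mem_sq0 {x : Pt} : x ∈ sq 0 n ↔ (0 ≤ x.1 ∧ x.1 < n) ∧ 0 ≤ x.2 ∧ x.2 < n := by
  simp [sq]

@[simp] theorem cz_lf (x : ZMod n × ZMod n) : cz n (lf x) = x := by simp [cz, lf]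

theorem lf_mem (x : ZMod n × ZMod n) : lf x ∈ sq 0 n :=
  mem_sq0.2 ⟨⟨Int.natCast_nonneg _, Int.ofNat_lt.2 x.1.val_lt⟩, Int.natCast_nonneg _,
    Int.ofNat_lt.2 x.2.val_lt⟩

theorem lf_cz' (x : Pt) : lf (cz n x) = (x.1 % n, x.2 % n) :=
  Prod.ext (ZMod.val_intCast _) (ZMod.val_intCast _)

theorem lf_cz {x : Pt} (hx : x ∈ sq 0 n) : lf (cz n x) = x := by
  obtain ⟨⟨h1, h2⟩, h3, h4⟩ := mem_sq0.1 hx
  rw [lf_cz', Int.emod_eq_of_lt h1 h2, Int.emod_eq_of_lt h3 h4]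

omit [NeZero n] in
theorem cz_add (x y : Pt) : cz n (x + y) = cz n x + cz n y := by simp [cz]

/-- sums over the representatives -/
theorem sum_sq0 (g : Pt → ℝ) : ∑ x ∈ sq 0 n, g x = ∑ x : ZMod n × ZMod n, g (lf x) :=
  sum_nbij' (cz n) lf (fun _ _ => mem_univ _) (fun x _ => lf_mem x) (fun _ hx => lf_cz hx)
    (fun x _ => cz_lf x) fun x hx => by rw [lf_cz hx]

theorem torF_lf (f : ℝ × ℝ → ℝ) (x : ZMod n × ZMod n) :
    torF n f (lf x) = 2 * Real.pi * fn f x := by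
  rw [torF, sum_sq0, fn]
  simp only [lf, pt, Int.cast_natCast]
  ring

theorem pr_eq_sum {V : Type*} [DecidableEq V] (f : V → ℝ) {s : Cfg V} {U : Finset V}
    (h : s.support ⊆ U) : pr f s = ∑ x ∈ U, f x * s x := by
  rw [pr, Finsupp.liftAddHom_apply, Finsupp.sum_of_support_subset _ h _ (by simp)]
  rfl

/-- products and sums over the edges of the torus -/
theorem sum_edges {Λ : Lat} (h : 2 * Λ.rg < n) (g : Pt × Pt → ℝ) :
    ∑ e ∈ (Λ.T n).ed, g e = ∑ x : ZMod n × ZMod n, ∑ y ∈ Λ.Jp, g (lf x, lf (x + cz n y)) := by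
  have key : ∀ {a b c : ℤ}, b.natAbs ≤ Λ.rg → c.natAbs ≤ Λ.rg → (a + b) % n = (a + c) % n →
      b = c := fun {a b c} hb hc e => by
    have h1 : (n : ℤ) ∣ c - b := by
      simpa using (Int.emod_emod_eq_zero_iff_dvd' e)
    exact (sub_eq_zero.1 (Int.eq_zero_of_abs_lt_dvd h1 (by rw [Int.abs_eq_natAbs]; omega))).symm
  rw [Lat.T, sum_image, sum_product, sum_sq0]
  · refine sum_congr rfl fun x _ => sum_congr rfl fun y _ => ?_
    rw [show x + cz n y = cz n (lf x + y) by rw [cz_add, cz_lf], lf_cz']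
    rfl
  · rintro ⟨p, y⟩ hp ⟨q, z⟩ hq e
    obtain ⟨rfl, e2⟩ := Prod.mk.inj e
    obtain ⟨e3, e4⟩ := Prod.mk.inj e2
    have h1 := B14.le_range (mem_filter.1 (mem_product.1 hp).2).1
    have h2 := B14.le_range (mem_filter.1 (mem_product.1 hq).2).1
    exact Prod.ext rfl (Prod.ext (key h1.1 h2.1 e3) (key h1.2 h2.2 e4))
where Int.emod_emod_eq_zero_iff_dvd' {a b c m : ℤ} (e : (a + b) % m = (a + c) % m) :
    m ∣ (a + c) - (a + b) := Int.ModEq.dvd e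

/-- a torus configuration as a finitely supported one -/
def emb (h : TorusConfig n) : Cfg Pt :=
  Finsupp.onFinset (sq 0 n) (fun x => if x ∈ sq 0 n then h.1 (cz n x) else 0) fun x hx => by
    by_contra hc
    exact hx (if_neg hc)

omit [NeZero n] in
theorem emb_apply (h : TorusConfig n) (x : Pt) :
    emb h x = if x ∈ sq 0 n then h.1 (cz n x) else 0 := rfl

@[simp] theorem emb_lf (h : TorusConfig n) (x : ZMod n × ZMod n) : emb h (lf x) = h.1 x := by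
  rw [emb_apply, if_pos (lf_mem x), cz_lf]

theorem emb_inj : Function.Injective (emb (n := n)) := fun h h' e =>
  Subtype.ext (funext fun x => by rw [← emb_lf, e, emb_lf])

omit [NeZero n] in
theorem emb_off (h : TorusConfig n) (x : Pt) (hx : x ∉ (sq 0 n).erase 0) : emb h x = 0 := by
  rw [emb_apply]
  split_ifs with h1
  · obtain rfl : x = 0 := by simpa [h1] using hx
    exact (congrArg h.1 (by simp [cz, Prod.ext_iff])).trans h.2
  · rfl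

theorem mem_range_emb {s : Cfg Pt} (hs : ∀ x, x ∉ (sq 0 n).erase 0 → s x = 0) :
    s ∈ Set.range (emb (n := n)) :=
  ⟨⟨fun x => s (lf x), hs _ (by simp [lf, Prod.ext_iff])⟩, Finsupp.ext fun x => by
    rw [emb_apply]
    split_ifs with hx
    · exact congrArg s (lf_cz hx)
    · exact (hs x fun h => hx (mem_of_mem_erase h)).symm⟩

theorem pr_emb (h : TorusConfig n) (f : ℝ × ℝ → ℝ) : pr (torF n f) (emb h) = fieldPairing h f := by
  rw [pr_eq_sum _ (s := emb h) (U := sq 0 n) Finsupp.support_onFinset_subset, sum_sq0, pairing_eq, mul_sum]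
  exact sum_congr rfl fun x _ => by rw [torF_lf, emb_lf]; ring

theorem W_emb {J : Finset Pt} {β : ℝ} (hJ : IsAdmissible J) (hβ : 0 < β)
    (hn : 2 * interactionRange J < n) (h : TorusConfig n) :
    ((dg J β).T n).W 0 (emb h) = torusWeight J β h := by
  have hc := card_J_pos hJ
  have e1 : ind (∀ x, x ∉ ((dg J β).T n).A → emb h x = (0 : Cfg Pt) x) = 1 := if_pos (emb_off h)
  have e2 : torusEnergy J h = 2 * ∑ x : ZMod n × ZMod n, ∑ y ∈ (dg J β).Jp,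
      (2 * Real.pi * ((h.1 (x + cz n y) : ℝ) - h.1 x)) ^ 2 := by
    refine (sum_congr rfl fun x _ => B14.sum_J (Λ := dg J β) hJ fun y =>
      (2 * Real.pi * ((h.1 (x + cz n y) : ℝ) - h.1 x)) ^ 2).trans ?_
    rw [two_mul (∑ x, _), sum_add_distrib]
    congr 1
    rw [sum_comm, sum_comm (s := univ)]
    refine sum_congr rfl fun y _ => (Fintype.sum_equiv (Equiv.addRight (cz n y)) _ _ fun x => ?_).symm
    simp only [Equiv.coe_addRight, add_assoc, ← cz_add, add_neg_cancel,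
      show cz n 0 = 0 by simp [cz, Prod.ext_iff], add_zero]
    ring
  rw [Mdl.W, e1, one_mul, torusWeight, e2]
  have e3 : ∀ e, ((dg J β).T n).w e (dE e (emb h)) =
      Real.exp (-((dE e (emb h) : ℤ) : ℝ) ^ 2 / (2 * (β * J.card / (4 * Real.pi ^ 2)))) :=
    fun e => rfl
  have e4 : ∏ x ∈ ((dg J β).T n).A, ((dg J β).T n).site x (emb h x) = 1 := prod_const_one
  simp only [e3, e4, mul_one, ← Real.exp_sum]
  rw [sum_edges (Λ := dg J β) hn]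
  simp only [dE, emb_lf, mul_sum, ← sum_neg_distrib, sum_div]
  refine congrArg _ (sum_congr rfl fun x _ => sum_congr rfl fun y _ => ?_)
  have := Real.pi_pos
  push_cast
  field_simp
  ring

theorem tsum_emb (Λ : Lat) (F : Cfg Pt → ℝ) :
    ∑' h : TorusConfig n, (Λ.T n).W 0 (emb h) * F (emb h) = ∑' s, (Λ.T n).W 0 s * F s := by
  refine emb_inj.tsum_eq (f := fun s => (Λ.T n).W 0 s * F s) fun s hs => mem_range_emb ?_
  by_contra hc
  refine hs ?_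
  have : ind (∀ x, x ∉ (Λ.T n).A → s x = (0 : Cfg Pt) x) = 0 := if_neg hc
  simp only [Mdl.W, this, zero_mul]

end Tor27

open Tor27

/-- **bridge for tori** -/
theorem torStmt (hM : MdlStmt) (hG : GeoStmt) : TorStmt := by
  intro J β hJ hβ n f hn
  have : NeZero n := ⟨by omega⟩
  have hπ : 0 < 4 * Real.pi ^ 2 := by have := Real.pi_pos; positivity
  obtain ⟨g1, g2⟩ := (hG (dg J β) ⟨hJ, div_pos (mul_pos hβ (card_J_pos hJ)) hπ⟩).2.2.1 n
  have hC := (hM Pt _).2.2 g1 g2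
  have s1 : Summable (((dg J β).T n).W 0) := by simpa using hC.se 0
  have z1 := tsum_emb (n := n) (dg J β) fun _ => 1
  have z2 := tsum_emb (n := n) (dg J β) fun s => Real.exp (pr (torF n f) s)
  have t1 := s1.comp_injective (emb_inj (n := n))
  have t2 := (hC.se (pr (torF n f))).comp_injective (emb_inj (n := n))
  simp only [mul_one, Function.comp_def, W_emb hJ hβ hn, pr_emb] at z1 z2 t1 t2
  have hb : ∀ h : TorusConfig n, 0 ≤ torusWeight J β h := fun h => (Real.exp_pos _).le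
  rw [torusLaplace, dif_pos (NeZero.ne n), torusLaplaceENN]
  simp only [mul_comm (Real.exp _)]
  rw [← ENNReal.ofReal_tsum_of_nonneg (fun h => by have := hb h; positivity) t2,
    ← ENNReal.ofReal_tsum_of_nonneg hb t1, ENNReal.toReal_div,
    ENNReal.toReal_ofReal (tsum_nonneg fun h => by have := hb h; positivity),
    ENNReal.toReal_ofReal (tsum_nonneg hb), z1, z2]
  rfl

end Crest.Agent.T145
end
end

-- ▼ part T145/TbA_32
section

/-!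
# Row 145, module (b): analysis for TB and G1 (helper32)
-/

set_option autoImplicit false

namespace Crest.Agent.T145

open Finset

namespace B32

/-- share of the edge `x y` given to the end `x` (times `(1 + α) ^ 2`) -/
noncomputable def sh (α x y : ℝ) : ℝ := if x ≤ y then 2 * α else 1 + α ^ 2

theorem mixed {α x y z : ℝ} (h0 : 0 ≤ α) (h1 : α ≤ 1) (hx : 0 ≤ x) (hy : x ≤ y) (hz : 0 ≤ z)
    (h : α ^ 2 * x ^ 2 ≤ y * z) : 2 * α * (1 + α ^ 2) * x ≤ 2 * α * y + (1 + α ^ 2) * z := by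
  rcases (hx.trans hy).eq_or_lt with e | hy0
  · have : x = 0 := le_antisymm (e ▸ hy) hx
    rw [this, ← e, mul_zero, mul_zero, zero_add]; positivity
  refine le_of_mul_le_mul_left ?_ hy0
  obtain ⟨d, rfl⟩ : ∃ d, y = x + d := ⟨y - x, by ring⟩
  have hd : 0 ≤ d := by linarith
  have a1 : 0 ≤ x ^ 2 * α ^ 2 * (1 - α) ^ 2 := by positivity
  have a2 : 0 ≤ α * (1 - α) * (1 + α) * x * d :=
    mul_nonneg (mul_nonneg (mul_nonneg (mul_nonneg h0 (by linarith)) (by linarith)) hx) hd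
  have a3 : 0 ≤ α * d ^ 2 := by positivity
  have a4 := mul_le_mul_of_nonneg_left h (by positivity : 0 ≤ 1 + α ^ 2)
  nlinarith

theorem pt_ineq {α x y z : ℝ} (h0 : 0 ≤ α) (h1 : α ≤ 1) (hx : 0 ≤ x) (hy : 0 ≤ y) (hz : 0 ≤ z)
    (h : α ^ 2 * x ^ 2 ≤ y * z) :
    2 * α * (1 + α ^ 2) * x ^ 2 ≤ sh α x y * (x * y) + sh α x z * (x * z) := by
  have key : 2 * α * (1 + α ^ 2) * x ≤ sh α x y * y + sh α x z * z := by
    unfold sh
    split_ifs with a b b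
    · have : α ^ 2 ≤ 1 := by nlinarith
      have h2 : α * (α ^ 2 * x) ≤ α * x :=
        mul_le_mul_of_nonneg_left (by nlinarith) h0
      nlinarith [mul_le_mul_of_nonneg_left a h0, mul_le_mul_of_nonneg_left b h0]
    · exact mixed h0 h1 hx a hz h
    · have := mixed h0 h1 hx b hy (by rwa [mul_comm z])
      linarith
    · have h2 : 2 * α * x ≤ y + z :=
        (pow_le_pow_iff_left₀ (by positivity) (by positivity) two_ne_zero).1
          (by nlinarith [sq_nonneg (y - z)])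
      nlinarith [mul_le_mul_of_nonneg_left h2 (by positivity : 0 ≤ 1 + α ^ 2)]
  nlinarith [mul_le_mul_of_nonneg_left key hx]

theorem sh_add (α x y : ℝ) : sh α x y + sh α y x ≤ (1 + α) ^ 2 := by
  unfold sh
  split_ifs with a b b
  · nlinarith [sq_nonneg (1 - α)]
  · nlinarith
  · nlinarith
  · exact absurd (le_of_not_ge a) b

theorem sh_bd {α : ℝ} (h0 : 0 ≤ α) (x y : ℝ) : 0 ≤ sh α x y ∧ sh α x y ≤ (1 + α) ^ 2 := by
  unfold sh
  split_ifs <;> constructor <;> nlinarith [sq_nonneg α]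

theorem summable_shift {a : ℤ → ℝ} (h0 : ∀ p, 0 ≤ a p) (hs : Summable fun p => a p ^ 2) (q : ℤ) :
    Summable fun p => a p * a (p + q) := by
  have h2 := (Equiv.addRight q).summable_iff.2 hs
  simp only [Function.comp_def, Equiv.coe_addRight] at h2
  exact Summable.of_nonneg_of_le (fun p => mul_nonneg (h0 _) (h0 _))
    (fun p => by nlinarith [sq_nonneg (a p - a (p + q)), mul_nonneg (h0 p) (h0 (p + q))])
    (hs.add h2)

/-- the sequence lemma -/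
theorem seq {a : ℤ → ℝ} {α : ℝ} {q : ℤ} (h0 : ∀ p, 0 ≤ a p) (hs : Summable fun p => a p ^ 2)
    (hα0 : 0 ≤ α) (hα1 : α ≤ 1) (h : ∀ p, α ^ 2 * a p ^ 2 ≤ a (p + q) * a (p + -q)) :
    2 * α * (1 + α ^ 2) * ∑' p, a p ^ 2 ≤ (1 + α) ^ 2 * ∑' p, a p * a (p + -q) := by
  have hu : ∀ r : ℤ, Summable fun p => sh α (a p) (a (p + r)) * (a p * a (p + r)) := fun r =>
    Summable.of_nonneg_of_le (fun p => mul_nonneg (sh_bd hα0 _ _).1 (mul_nonneg (h0 _) (h0 _)))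
      (fun p => mul_le_mul_of_nonneg_right (sh_bd hα0 _ _).2 (mul_nonneg (h0 _) (h0 _)))
      ((summable_shift h0 hs r).mul_left _)
  have hv := (Equiv.addRight (-q)).summable_iff.2 (hu q)
  have e := (Equiv.addRight (-q)).tsum_eq fun p => sh α (a p) (a (p + q)) * (a p * a (p + q))
  simp only [Function.comp_def, Equiv.coe_addRight, neg_add_cancel_right] at hv e
  rw [← tsum_mul_left, ← tsum_mul_left]
  refine ((hs.mul_left _).tsum_le_tsum (fun p => pt_ineq hα0 hα1 (h0 p) (h0 _) (h0 _) (h p))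
    ((hu q).add (hu (-q)))).trans ?_
  rw [(hu q).tsum_add (hu (-q)), ← e, ← hv.tsum_add (hu (-q))]
  refine (hv.add (hu (-q))).tsum_le_tsum (fun p => ?_) ((summable_shift h0 hs (-q)).mul_left _)
  have := mul_le_mul_of_nonneg_right (sh_add α (a p) (a (p + -q)))
    (mul_nonneg (h0 p) (h0 (p + -q)))
  nlinarith

theorem summable_exp_abs : Summable fun p : ℤ => Real.exp (-|(p : ℝ)|) := by
  refine summable_int_iff_summable_nat_and_neg.2 ⟨?_, ?_⟩ <;>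
    simpa using Real.summable_exp_neg_nat

theorem summable_gauss {s : ℝ} (hs : 0 < s) (b α : ℝ) (hb : 1 ≤ b) :
    Summable fun p : ℤ => Real.exp (-(b * p - α) ^ 2 / s) := by
  refine Summable.of_nonneg_of_le (fun p => (Real.exp_pos _).le) (fun p => ?_)
    (summable_exp_abs.mul_left (Real.exp (s + |α|)))
  rw [← Real.exp_add, Real.exp_le_exp, div_le_iff₀ hs]
  have h1 : |(p : ℝ)| ≤ |b * p - α| + |α| := by
    have : |b * p| ≤ |b * p - α| + |α| := by simpa using abs_add_le (b * p - α) α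
    rw [abs_mul, abs_of_pos (by linarith : 0 < b)] at this
    nlinarith [abs_nonneg (p : ℝ)]
  rw [← sq_abs (b * p - α)]
  nlinarith [sq_nonneg (|b * p - α| - s), mul_le_mul_of_nonneg_left h1 hs.le, abs_nonneg (b * p - α)]

theorem prod_cos {L : Type*} [AddCommGroup L] {W : L → ℝ} (hW : Wt W) (hs : SE W)
    (g₁ g₂ : L →+ ℝ) (A B : L → ℝ) :
    HasSum (fun a : L × L => (W a.1 * Real.exp (g₁ a.1)) * (W a.2 * Real.exp (g₂ a.2)) *
      Real.cos (A a.1 + B a.2)) (Zs W ^ 2 *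
      (Ex W (fun s => Real.exp (g₁ s) * Real.cos (A s)) *
        Ex W (fun s => Real.exp (g₂ s) * Real.cos (B s)) -
      Ex W (fun s => Real.exp (g₁ s) * Real.sin (A s)) *
        Ex W (fun s => Real.exp (g₂ s) * Real.sin (B s)))) := by
  have key : ∀ F G : L → ℝ, Ig W F → Ig W G →
      HasSum (fun a : L × L => (W a.1 * F a.1) * (W a.2 * G a.2))
        ((Zs W * Ex W F) * (Zs W * Ex W G)) := fun F G hF hG => by
    rw [← hW.tsum_eq, ← hW.tsum_eq]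
    exact (Summable.hasSum hF).mul (Summable.hasSum hG) (summable_mul_of_summable_norm
      (f := fun a => W a * F a) (g := fun a => W a * G a) (Summable.norm hF) (Summable.norm hG))
  have t := (key _ _ (hs.ig ((Tame.exp g₁).mul (Tame.cos A)))
    (hs.ig ((Tame.exp g₂).mul (Tame.cos B)))).sub (key _ _ (hs.ig ((Tame.exp g₁).mul (Tame.sin A)))
    (hs.ig ((Tame.exp g₂).mul (Tame.sin B))))
  have e : ∀ {f g : L × L → ℝ} {a b : ℝ}, HasSum f a → g = f → b = a → HasSum g b :=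
    fun h h1 h2 => h1 ▸ h2 ▸ h
  refine e t (funext fun a => ?_) (by ring)
  rw [Real.cos_add]; ring

theorem fubini {ι : Type*} {u : ι → ℝ} {c : ℤ → ℝ} (hu : Summable u) (hc : Summable c)
    (θ : ι → ℤ → ℝ) : ∑' a, u a * ∑' p, c p * Real.cos (θ a p) =
      ∑' p, c p * ∑' a, u a * Real.cos (θ a p) := by
  have h1 : Summable fun p : ι × ℤ => u p.1 * c p.2 :=
    summable_mul_of_summable_norm (f := u) (g := c) hu.norm hc.norm
  have h2 : Summable (Function.uncurry fun a p => u a * (c p * Real.cos (θ a p))) := by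
    refine Summable.of_norm_bounded h1.norm fun p => ?_
    simp only [Function.uncurry, norm_mul]
    refine mul_le_mul_of_nonneg_left ?_ (norm_nonneg _)
    exact mul_le_of_le_one_right (norm_nonneg _) (Real.abs_cos_le_one _)
  simp only [← tsum_mul_left]
  rw [← h2.tsum_comm]
  exact tsum_congr fun p => tsum_congr fun a => by ring

/-- two independent copies, one spring, Poisson summation over the relative height -/
theorem poisson {L : Type*} [AddCommGroup L] {W : L → ℝ} (hW : Wt W) (hs : SE W) {S : ℝ → ℝ}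
    {c ζ : ℤ → ℝ} {K α : ℝ} (hc : Summable c)
    (hP : ∀ t β, ∑' k : ℤ, S (t + k) * Real.cos (α * k + β) =
      K * ∑' p, c p * Real.cos (ζ p * t + β))
    (sE sW g₁ g₂ h₁ h₂ : L →+ ℝ) {x : ℝ}
    (hx : HasSum (fun p : (L × L) × ℤ => W p.1.1 * W p.1.2 * S (sW p.1.2 - sE p.1.1 + p.2) *
      (Real.exp (g₁ p.1.1 + g₂ p.1.2) * Real.cos (α * p.2 + (h₁ p.1.1 + h₂ p.1.2)))) x) :
    x = K * Zs W ^ 2 * ∑' p, c p *
      (Ex W (fun s => Real.exp (g₁ s) * Real.cos ((h₁ - ζ p • sE) s)) *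
        Ex W (fun s => Real.exp (g₂ s) * Real.cos ((h₂ + ζ p • sW) s)) -
      Ex W (fun s => Real.exp (g₁ s) * Real.sin ((h₁ - ζ p • sE) s)) *
        Ex W (fun s => Real.exp (g₂ s) * Real.sin ((h₂ + ζ p • sW) s))) := by
  have hus : Summable fun a : L × L =>
      (W a.1 * Real.exp (g₁ a.1)) * (W a.2 * Real.exp (g₂ a.2)) :=
    summable_mul_of_summable_norm (f := fun a => W a * Real.exp (g₁ a))
      (g := fun a => W a * Real.exp (g₂ a)) (hs g₁).norm (hs g₂).norm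
  have e1 : x = ∑' a : L × L, K * ((W a.1 * Real.exp (g₁ a.1)) * (W a.2 * Real.exp (g₂ a.2)) *
      ∑' p, c p * Real.cos ((h₁ - ζ p • sE) a.1 + (h₂ + ζ p • sW) a.2)) := by
    rw [← hx.tsum_eq, hx.summable.tsum_prod]
    refine tsum_congr fun a => ?_
    have e : ∀ p, (h₁ - ζ p • sE) a.1 + (h₂ + ζ p • sW) a.2 =
        ζ p * (sW a.2 - sE a.1) + (h₁ a.1 + h₂ a.2) := fun p => by
      simp only [AddMonoidHom.sub_apply, AddMonoidHom.add_apply, AddMonoidHom.smul_apply,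
        smul_eq_mul]
      ring
    simp only [e]
    rw [mul_left_comm, ← hP, ← tsum_mul_left]
    refine tsum_congr fun k => ?_
    rw [Real.exp_add]
    ring
  rw [e1, tsum_mul_left, fubini hus hc, mul_assoc, ← tsum_mul_left (a := Zs W ^ 2)]
  congr 1
  refine tsum_congr fun p => ?_
  rw [(prod_cos hW hs g₁ g₂ (fun s => (h₁ - ζ p • sE) s) fun s => (h₂ + ζ p • sW) s).tsum_eq]
  ring

end B32

end Crest.Agent.T145
end

-- ▼ part T145/Tb_32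
section

/-!
# Row 145, module (b): TB (two rectangles, one spring) and G1 (growth of the charge) (helper32)
-/

set_option autoImplicit false

namespace Crest.Agent.T145

open Finset

namespace B32

theorem mem_rc {a x : Pt} {n₁ n₂ : ℕ} :
    x ∈ rc a n₁ n₂ ↔ (a.1 ≤ x.1 ∧ x.1 < a.1 + n₁) ∧ a.2 ≤ x.2 ∧ x.2 < a.2 + n₂ := by
  simp only [rc, mem_product, mem_Ico]

theorem rect_rc {a x y : Pt} {n₁ n₂ : ℕ} (hx : x ∈ rc a n₁ n₂) (hy : y ∈ rc a n₁ n₂) :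
    Rect (rc a n₁ n₂) x y := fun z => by rw [mem_rc] at *; omega

theorem zero_mem {n₁ n₂ : ℕ} (h₁ : 1 ≤ n₁) (h₂ : 1 ≤ n₂) : (0 : Pt) ∈ rc 0 n₁ n₂ := by
  rw [mem_rc]; simp only [Prod.fst_zero, Prod.snd_zero]; omega

theorem anch {Λ : Lat} (h : Λ.Ok) {a r : Pt} {n₁ n₂ : ℕ} (hr : r ∈ rc a n₁ n₂) :
    (Λ.Nr (rc a n₁ n₂) r).Anch := h.anch_Nr_rect fun _ hx => rect_rc hx hr

theorem cen_WR {Λ : Lat} (h : Λ.Ok) {n₁ n₂ : ℕ} (h₁ : 1 ≤ n₁) (h₂ : 1 ≤ n₂) : Cen (Λ.WR n₁ n₂) :=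
  (h.ctr_Nr _ _).cen (anch h (zero_mem h₁ h₂))

theorem osc {Λ : Lat} (h : Λ.Ok) {B : Finset Pt} {x y : Pt} (hB : Rect B x y) (s : Cfg Pt) :
    |(s y : ℝ) - s x| ≤ ∑ e ∈ Λ.edI B, |(dE e s : ℝ)| := by
  obtain ⟨φ, h1, -, -, -, h5⟩ := h.exists_flow _ x rfl hB
  rw [h5 fun z => (s z : ℝ)]
  refine (abs_sum_le_sum_abs _ _).trans (sum_le_sum fun e _ => ?_)
  rw [zsmul_eq_mul, abs_mul, dE_cast]
  exact mul_le_of_le_one_left (abs_nonneg _) (by exact_mod_cast h1 e)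

/-- the column `{c} × [0, n)` -/
noncomputable def cm (n : ℕ) (c : ℤ) : Finset Pt :=
  (Finset.Ico (0 : ℤ) n).map ⟨fun j => (c, j), fun _ _ h => (Prod.mk.inj h).2⟩

theorem mem_cm {n : ℕ} {c : ℤ} {x : Pt} : x ∈ cm n c ↔ x.1 = c ∧ 0 ≤ x.2 ∧ x.2 < n := by
  simp only [cm, mem_map, mem_Ico]
  exact ⟨fun ⟨j, hj, e⟩ => e ▸ ⟨rfl, hj⟩, fun ⟨e, hj⟩ => ⟨x.2, hj, e ▸ rfl⟩⟩

theorem col_off {n : ℕ} {c : ℤ} {x : Pt} (h : x ∉ cm n c) : col n c x = 0 := by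
  rw [col, ind_neg fun h' => h (mem_cm.2 h'), zero_div]

theorem pr_col (n : ℕ) (c : ℤ) (s : Cfg Pt) :
    pr (col n c) s = (∑ j ∈ Finset.Ico (0 : ℤ) n, (s (c, j) : ℝ)) / n := by
  rw [pr_of_fsupp _ s fun x hx => col_off hx, cm, sum_map, sum_div]
  refine sum_congr rfl fun j hj => ?_
  change col n c (c, j) * (s (c, j) : ℝ) = _
  rw [col, ind_pos ⟨rfl, mem_Ico.1 hj⟩]; ring

theorem col_sup {n₁ n₂ : ℕ} {c : ℤ} (h0 : 0 ≤ c) (h1 : c < n₁) : Sup (rc 0 n₁ n₂) (col n₂ c) :=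
  fun x hx => col_off fun h => hx (by
    rw [mem_cm] at h; rw [mem_rc]; simp only [Prod.fst_zero, Prod.snd_zero]; omega)

theorem sum_col {n₁ n₂ : ℕ} {c : ℤ} (h0 : 0 ≤ c) (h1 : c < n₁) (h₂ : 1 ≤ n₂) :
    ∑ x ∈ rc 0 n₁ n₂, col n₂ c x = 1 := by
  rw [← pr_cst_one, pr_col, sum_congr rfl fun j hj => by
    rw [cst_of_mem 1 (by
      rw [mem_Ico] at hj; rw [mem_rc]; simp only [Prod.fst_zero, Prod.snd_zero]; omega)]]
  have : (n₂ : ℝ) ≠ 0 := by positivity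
  simp [this]

theorem ph_refl {Λ : Lat} (h : Λ.Ok) {n₁ n₂ : ℕ} (h₁ : 1 ≤ n₁) (h₂ : 1 ≤ n₂) (p : ℤ) :
    Ph (Λ.WR n₁ n₂) ((2 * Real.pi * p) • pr (col n₂ 0)) =
      Ph (Λ.WR n₁ n₂) ((2 * Real.pi * p) • pr (col n₂ (n₁ - 1))) := by
  have hB : (rc 0 n₁ n₂).map (Lat.rf1 (n₁ - 1)).toEmbedding = rc 0 n₁ n₂ := by
    ext x
    rw [mem_map_equiv, mem_rc, mem_rc]
    simp only [Lat.rf1, Equiv.prodCongr_symm, Equiv.prodCongr_apply, Prod.map_fst, Prod.map_snd,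
      Equiv.subLeft_symm_apply, Equiv.refl_symm, Equiv.coe_refl, id, Prod.fst_zero, Prod.snd_zero]
    omega
  have := (h.sym_rf1 (n₁ - 1)).Ph_Nr h hB (zero_mem h₁ h₂) (zero_mem h₁ h₂)
    (f := (2 * Real.pi * p) • col n₂ 0) (q := p) (by
      simp only [Pi.smul_apply, smul_eq_mul]
      rw [← mul_sum, sum_col le_rfl (by omega) h₂, mul_one])
  rw [← pr_smul, ← pr_smul, Lat.WR, this]
  congr 2
  funext x
  simp only [Pi.smul_apply, Lat.rf1_apply, col]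
  rw [ind_congr (q := x.1 = n₁ - 1 ∧ 0 ≤ x.2 ∧ x.2 < n₂) (by omega)]

/-- the seam -/
noncomputable def sm (n₁ n₂ : ℕ) : Finset (Pt × Pt) :=
  (Finset.Ico (0 : ℤ) n₂).map ⟨fun j => (((n₁ : ℤ) - 1, j), ((n₁ : ℤ), j)),
    fun _ _ h => (Prod.mk.inj (Prod.mk.inj h).1).2⟩

/-- gluing two configurations and a relative height -/
noncomputable def gl (n₁ n₂ : ℕ) (p : (Cfg Pt × Cfg Pt) × ℤ) : Cfg Pt :=
  p.1.1 + mapH (Equiv.addRight ((n₁ : ℤ), (0 : ℤ))) p.1.2 + cst (rc ((n₁ : ℤ), 0) n₁ n₂) p.2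

/-- rooted configurations on the rectangle -/
def Sp (n₁ n₂ : ℕ) (s : Cfg Pt) : Prop := ∀ x, x ∉ (rc 0 n₁ n₂).erase 0 → s x = 0

variable {Λ : Lat} {n₁ n₂ : ℕ}

theorem Sp.off {s : Cfg Pt} (h : Sp n₁ n₂ s) {x : Pt} (hx : x ∉ rc 0 n₁ n₂) : s x = 0 :=
  h x fun h' => hx (mem_of_mem_erase h')

theorem Sp.root {s : Cfg Pt} (h : Sp n₁ n₂ s) : s 0 = 0 := h 0 (notMem_erase _ _)

theorem gl_apply (p : (Cfg Pt × Cfg Pt) × ℤ) (x : Pt) : gl n₁ n₂ p x =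
    p.1.1 x + p.1.2 (x - ((n₁ : ℤ), 0)) + cst (rc ((n₁ : ℤ), 0) n₁ n₂) p.2 x := by
  simp only [gl, Finsupp.add_apply, mapH_apply, sub_eq_add_neg]; rfl

theorem gl_left {p : (Cfg Pt × Cfg Pt) × ℤ} (hb : Sp n₁ n₂ p.1.2) {x : Pt}
    (hx : x ∈ rc 0 n₁ n₂) : gl n₁ n₂ p x = p.1.1 x := by
  rw [mem_rc] at hx
  simp only [Prod.fst_zero, Prod.snd_zero] at hx
  rw [gl_apply, hb.off, cst_of_notMem, add_zero, add_zero] <;> rw [mem_rc] <;>
    simp only [Prod.fst_zero, Prod.snd_zero, Prod.fst_sub, Prod.snd_sub] <;> omega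

theorem gl_right {p : (Cfg Pt × Cfg Pt) × ℤ} (ha : Sp n₁ n₂ p.1.1) {x : Pt}
    (hx : x ∈ rc 0 n₁ n₂) : gl n₁ n₂ p (x + ((n₁ : ℤ), 0)) = p.1.2 x + p.2 := by
  rw [mem_rc] at hx
  simp only [Prod.fst_zero, Prod.snd_zero] at hx
  rw [gl_apply, ha.off, cst_of_mem, zero_add, add_sub_cancel_right] <;> rw [mem_rc] <;>
    simp only [Prod.fst_zero, Prod.snd_zero, Prod.fst_add, Prod.snd_add] <;> omega

theorem gl_sp {p : (Cfg Pt × Cfg Pt) × ℤ} (h₁ : 1 ≤ n₁) (h₂ : 1 ≤ n₂) (ha : Sp n₁ n₂ p.1.1)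
    (hb : Sp n₁ n₂ p.1.2) : Sp (2 * n₁) n₂ (gl n₁ n₂ p) := fun x hx => by
  by_cases h0 : x = 0
  · rw [h0, gl_left hb (zero_mem h₁ h₂), ha.root]
  have hx' : x ∉ rc 0 (2 * n₁) n₂ := fun h => hx (mem_erase.2 ⟨h0, h⟩)
  rw [mem_rc] at hx'
  simp only [Prod.fst_zero, Prod.snd_zero] at hx'
  push_cast at hx'
  rw [gl_apply, ha.off, hb.off, cst_of_notMem, add_zero, add_zero] <;> rw [mem_rc] <;>
    simp only [Prod.fst_zero, Prod.snd_zero, Prod.fst_sub, Prod.snd_sub] <;> omega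

theorem gl_inj (h₁ : 1 ≤ n₁) (h₂ : 1 ≤ n₂) {p p' : (Cfg Pt × Cfg Pt) × ℤ} (ha : Sp n₁ n₂ p.1.1)
    (hb : Sp n₁ n₂ p.1.2) (ha' : Sp n₁ n₂ p'.1.1) (hb' : Sp n₁ n₂ p'.1.2)
    (h : gl n₁ n₂ p = gl n₁ n₂ p') : p = p' := by
  have hk : p.2 = p'.2 := by
    have := gl_right ha (zero_mem h₁ h₂)
    rwa [h, gl_right ha' (zero_mem h₁ h₂), hb.root, hb'.root, zero_add, zero_add, eq_comm] at this
  refine Prod.ext (Prod.ext ?_ ?_) hk <;> ext x <;> by_cases hx : x ∈ rc 0 n₁ n₂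
  · rw [← gl_left hb hx, h, gl_left hb' hx]
  · rw [ha.off hx, ha'.off hx]
  · have := gl_right ha hx
    rw [h, gl_right ha' hx, hk] at this
    exact (add_right_cancel this).symm
  · rw [hb.off hx, hb'.off hx]

theorem gl_surj {s : Cfg Pt} (hs : Sp (2 * n₁) n₂ s) :
    ∃ p, Sp n₁ n₂ p.1.1 ∧ Sp n₁ n₂ p.1.2 ∧ gl n₁ n₂ p = s := by
  let b : Cfg Pt := pw (rc 0 n₁ n₂) (mapH (Equiv.addRight ((n₁ : ℤ), (0 : ℤ))).symm s) 0 -
    cst (rc 0 n₁ n₂) (s ((n₁ : ℤ), 0))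
  have hb1 : ∀ x ∈ rc 0 n₁ n₂, b x = s (x + ((n₁ : ℤ), 0)) - s ((n₁ : ℤ), 0) := fun x hx => by
    simp only [b, Finsupp.sub_apply, pw_of_mem _ _ hx, cst_of_mem _ hx]; rfl
  have hb2 : ∀ x, x ∉ rc 0 n₁ n₂ → b x = 0 := fun x hx => by
    simp only [b, Finsupp.sub_apply, pw_of_notMem _ _ hx, cst_of_notMem _ hx]; rfl
  have ha : Sp n₁ n₂ (pw (rc 0 n₁ n₂) s 0) := fun x hx => by
    rw [pw_apply]; split_ifs with h
    · rw [show x = 0 from by_contra fun h0 => hx (mem_erase.2 ⟨h0, h⟩), hs.root]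
    · rfl
  have hb : Sp n₁ n₂ b := fun x hx => by
    by_cases h : x ∈ rc 0 n₁ n₂
    · rw [hb1 x h, show x = 0 from by_contra fun h0 => hx (mem_erase.2 ⟨h0, h⟩), zero_add, sub_self]
    · exact hb2 x h
  refine ⟨((pw (rc 0 n₁ n₂) s 0, b), s ((n₁ : ℤ), 0)), ha, hb, ?_⟩
  ext x
  by_cases h : x ∈ rc 0 n₁ n₂
  · rw [gl_left hb h]; exact pw_of_mem _ _ h
  by_cases h' : x - ((n₁ : ℤ), 0) ∈ rc 0 n₁ n₂
  · have := gl_right (p := ((pw (rc 0 n₁ n₂) s 0, b), s ((n₁ : ℤ), 0))) ha h'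
    rw [sub_add_cancel] at this
    rw [this]
    simp only [hb1 _ h', sub_add_cancel]
  · rw [gl_apply, ha.off h, hb.off h', cst_of_notMem, hs.off, add_zero, add_zero] <;>
      rw [mem_rc] at * <;>
      simp only [Prod.fst_zero, Prod.snd_zero, Prod.fst_sub, Prod.snd_sub] at * <;> omega

theorem WR_eq {s : Cfg Pt} (hs : Sp n₁ n₂ s) :
    Λ.WR n₁ n₂ s = ∏ e ∈ Λ.edI (rc 0 n₁ n₂), Λ.w (dE e s) := by
  simp only [Lat.WR, Mdl.W, Lat.Nr_A, Lat.Nr_ed, Lat.Nr_w, Lat.Nr_site, prod_const_one, mul_one]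
  rw [ind_pos (by exact hs), one_mul]

theorem WR_sp {s : Cfg Pt} (hs : Λ.WR n₁ n₂ s ≠ 0) : Sp n₁ n₂ s := Md.W_off hs

/-- the unglued weight -/
noncomputable def U (Λ : Lat) (n₁ n₂ : ℕ) (κ : ℝ) : Cfg Pt → ℝ :=
  (Λ.Nr (rc 0 (2 * n₁) n₂) 0).ung (Λ.edI (rc 0 n₁ n₂) ∪ Λ.edI (rc ((n₁ : ℤ), 0) n₁ n₂))
    ({()} : Finset Unit) (fun _ => sm n₁ n₂) Λ.w κ 0

theorem card_sm : (sm n₁ n₂).card = n₂ := by simp [sm]

theorem sum_sm (s : Cfg Pt) : ∑ e ∈ sm n₁ n₂, (dE e s : ℝ) =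
    ∑ j ∈ Finset.Ico (0 : ℤ) n₂, ((s ((n₁ : ℤ), j) : ℝ) - s ((n₁ : ℤ) - 1, j)) := by
  simp only [sm, sum_map, dE_cast]; rfl

theorem disj : Disjoint (rc 0 n₁ n₂) (rc ((n₁ : ℤ), 0) n₁ n₂) :=
  disjoint_left.2 fun x h h' => by
    rw [mem_rc] at *; simp only [Prod.fst_zero, Prod.snd_zero] at *; omega

theorem mem_add {x : Pt} : x + ((n₁ : ℤ), 0) ∈ rc ((n₁ : ℤ), 0) n₁ n₂ ↔ x ∈ rc 0 n₁ n₂ := by
  rw [mem_rc, mem_rc]
  simp only [Prod.fst_zero, Prod.snd_zero, Prod.fst_add, Prod.snd_add]; omega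

theorem U_sp {κ : ℝ} {s : Cfg Pt} (hs : U Λ n₁ n₂ κ s ≠ 0) : Sp (2 * n₁) n₂ s :=
  Md.of_ind_ne (left_ne_zero_of_mul (left_ne_zero_of_mul (left_ne_zero_of_mul hs)))

theorem U_gl (h₁ : 1 ≤ n₁) (h₂ : 1 ≤ n₂) (κ : ℝ) {p : (Cfg Pt × Cfg Pt) × ℤ} (ha : Sp n₁ n₂ p.1.1)
    (hb : Sp n₁ n₂ p.1.2) : U Λ n₁ n₂ κ (gl n₁ n₂ p) = Λ.WR n₁ n₂ p.1.1 * Λ.WR n₁ n₂ p.1.2 *
      spr Λ.w n₂ κ (pr (col n₂ 0) p.1.2 - pr (col n₂ (n₁ - 1)) p.1.1 + p.2) := by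
  simp only [U, Mdl.ung, Mdl.Ws, Mdl.keep_A, Mdl.keep_ed, Mdl.keep_w, Mdl.keep_site, Lat.Nr_A,
    Lat.Nr_w, Lat.Nr_site, prod_const_one, mul_one, Pi.zero_apply, add_zero, prod_singleton, card_sm]
  rw [ind_pos (by exact gl_sp h₁ h₂ ha hb), one_mul, prod_union (Lat.disjoint_edI disj), WR_eq ha, WR_eq hb]
  congr 2
  · refine prod_congr rfl fun e he => ?_
    rw [Lat.mem_edI] at he
    rw [Md.dE_congr (gl_left hb he.2.1) (gl_left hb he.2.2)]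
  · symm
    refine prod_nbij' (fun e => (e.1 + ((n₁ : ℤ), 0), e.2 + ((n₁ : ℤ), 0)))
      (fun e => (e.1 - ((n₁ : ℤ), 0), e.2 - ((n₁ : ℤ), 0))) (fun e he => ?_) (fun e he => ?_)
      (fun e _ => by simp) (fun e _ => by simp) fun e he => ?_
    · rw [Lat.mem_edI] at he ⊢
      exact ⟨by simpa using he.1, mem_add.2 he.2.1, mem_add.2 he.2.2⟩
    · rw [Lat.mem_edI] at he ⊢
      exact ⟨by simpa using he.1, mem_add.1 (by simpa using he.2.1), mem_add.1 (by simpa using he.2.2)⟩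
    · rw [Lat.mem_edI] at he
      simp only [dE, gl_right ha he.2.1, gl_right ha he.2.2, add_sub_add_right_eq_sub]
  · have hn : (n₂ : ℝ) ≠ 0 := by positivity
    have e : ∀ j ∈ Finset.Ico (0 : ℤ) n₂, ((gl n₁ n₂ p ((n₁ : ℤ), j) : ℝ) -
        gl n₁ n₂ p ((n₁ : ℤ) - 1, j)) = p.1.2 (0, j) - p.1.1 ((n₁ : ℤ) - 1, j) + p.2 := by
      intro j hj
      rw [mem_Ico] at hj
      have e1 := gl_right ha (x := (0, j)) (by
        rw [mem_rc]; simp only [Prod.fst_zero, Prod.snd_zero]; omega)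
      simp only [Prod.mk_add_mk, zero_add, add_zero] at e1
      rw [e1, gl_left hb (by rw [mem_rc]; simp only [Prod.fst_zero, Prod.snd_zero]; omega)]
      push_cast; ring
    rw [sum_sm, sum_congr rfl e, pr_col, pr_col, sum_add_distrib, sum_sub_distrib]
    simp only [sum_const, Int.card_Ico, sub_zero, Int.toNat_natCast, nsmul_eq_mul]
    field_simp

theorem pr_gl {f₁ f₂ : Pt → ℝ} (hf₁ : Sup (rc 0 n₁ n₂) f₁) (hf₂ : Sup (rc 0 n₁ n₂) f₂)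
    {p : (Cfg Pt × Cfg Pt) × ℤ} (ha : Sp n₁ n₂ p.1.1) (hb : Sp n₁ n₂ p.1.2) :
    pr (fun x => f₁ x + f₂ (x - ((n₁ : ℤ), 0))) (gl n₁ n₂ p) =
      (∑ x ∈ rc 0 n₁ n₂, f₂ x) * p.2 + (pr f₁ p.1.1 + pr f₂ p.1.2) := by
  have e := pr_mapH (Equiv.addRight ((n₁ : ℤ), (0 : ℤ))).symm f₂ (gl n₁ n₂ p)
  have e' : (fun x => f₂ (x - ((n₁ : ℤ), 0))) =
      fun x => f₂ ((Equiv.addRight ((n₁ : ℤ), (0 : ℤ))).symm x) := by
    funext x; rw [sub_eq_add_neg]; rfl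
  rw [pr_add', AddMonoidHom.add_apply, e', ← e, pr_of_fsupp _ _ hf₁, pr_of_fsupp _ _ hf₂,
    pr_of_fsupp _ _ hf₁, pr_of_fsupp _ _ hf₂, sum_mul, ← sum_add_distrib, ← sum_add_distrib,
    ← sum_add_distrib]
  refine sum_congr rfl fun x hx => ?_
  rw [gl_left hb hx, mapH_apply, Equiv.symm_symm, Equiv.coe_addRight]
  simp only [gl_right ha hx]
  push_cast; ring

theorem hasSum_U (h₁ : 1 ≤ n₁) (h₂ : 1 ≤ n₂) (κ : ℝ) {F : Cfg Pt → ℝ}
    {G : (Cfg Pt × Cfg Pt) × ℤ → ℝ} (hF : Ig (U Λ n₁ n₂ κ) F)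
    (hG : ∀ p, Sp n₁ n₂ p.1.1 → Sp n₁ n₂ p.1.2 → F (gl n₁ n₂ p) = G p) :
    HasSum (fun p : (Cfg Pt × Cfg Pt) × ℤ => Λ.WR n₁ n₂ p.1.1 * Λ.WR n₁ n₂ p.1.2 *
      spr Λ.w n₂ κ (pr (col n₂ 0) p.1.2 - pr (col n₂ (n₁ - 1)) p.1.1 + p.2) * G p)
      (∑' s, U Λ n₁ n₂ κ s * F s) := by
  have k : ∀ p : (Cfg Pt × Cfg Pt) × ℤ, Λ.WR n₁ n₂ p.1.1 * Λ.WR n₁ n₂ p.1.2 *
      spr Λ.w n₂ κ (pr (col n₂ 0) p.1.2 - pr (col n₂ (n₁ - 1)) p.1.1 + p.2) * G p ≠ 0 →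
      Sp n₁ n₂ p.1.1 ∧ Sp n₁ n₂ p.1.2 := fun p hp =>
    have := left_ne_zero_of_mul (left_ne_zero_of_mul hp)
    ⟨WR_sp (left_ne_zero_of_mul this), WR_sp (right_ne_zero_of_mul this)⟩
  refine (hasSum_iff_hasSum_of_ne_zero_bij (fun p => gl n₁ n₂ p.1) ?_ ?_ ?_).1 (Summable.hasSum hF)
  · rintro ⟨p, hp⟩ ⟨p', hp'⟩ h
    exact Subtype.ext (gl_inj h₁ h₂ (k p hp).1 (k p hp).2 (k p' hp').1 (k p' hp').2 h)
  · intro s hs
    obtain ⟨p, ha, hb, rfl⟩ := gl_surj (U_sp (left_ne_zero_of_mul hs))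
    refine ⟨⟨p, ?_⟩, rfl⟩
    rw [Function.mem_support, ← U_gl h₁ h₂ κ ha hb, ← hG p ha hb]
    exact hs
  · rintro ⟨p, hp⟩
    simp only
    rw [U_gl h₁ h₂ κ (k p hp).1 (k p hp).2, hG p (k p hp).1 (k p hp).2]

theorem ung (hU : UngStmt) (h : Λ.Ok) (h₁ : 1 ≤ n₁) (h₂ : 1 ≤ n₂) {κ : ℝ} (hκ : 0 < κ) :
    Cen (U Λ n₁ n₂ κ) ∧ Loc (Λ.WR (2 * n₁) n₂) (U Λ n₁ n₂ κ) := by
  have hs : ∀ e ∈ sm n₁ n₂, ∃ j : ℤ, 0 ≤ j ∧ j < n₂ ∧ e = (((n₁ : ℤ) - 1, j), ((n₁ : ℤ), j)) :=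
    fun e he => by
      obtain ⟨j, hj, rfl⟩ := mem_map.1 he
      exact ⟨j, (mem_Ico.1 hj).1, (mem_Ico.1 hj).2, rfl⟩
  have := hU Pt Unit (Λ.Nr (rc 0 (2 * n₁) n₂) 0)
    (Λ.edI (rc 0 n₁ n₂) ∪ Λ.edI (rc ((n₁ : ℤ), 0) n₁ n₂)) {()} (fun _ => sm n₁ n₂) Λ.w κ
    (h.ctr_Nr _ _) (anch h (zero_mem (by omega) h₂)) h.fam hκ
    (union_subset (Lat.edI_mono fun x hx => ?_) (Lat.edI_mono fun x hx => ?_))
    (fun _ _ => ⟨card_pos.1 (by rw [card_sm]; omega), fun e he => ?_, ?_, fun _ _ => rfl⟩)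
    (fun _ _ _ _ hb => absurd rfl hb) ⟨2, fun s hs x => ?_⟩
  · exact ⟨this.1, this.2.2.1⟩
  · rw [mem_rc] at *; simp only [Prod.fst_zero, Prod.snd_zero] at *; omega
  · rw [mem_rc] at *; simp only [Prod.fst_zero, Prod.snd_zero] at *; omega
  · obtain ⟨j, h0, h1, rfl⟩ := hs e he
    refine Lat.mem_edI.2 ⟨by simpa using h.e1, ?_, ?_⟩ <;> rw [mem_rc] <;>
      simp only [Prod.fst_zero, Prod.snd_zero] <;> omega
  · refine disjoint_left.2 fun e he he' => ?_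
    obtain ⟨j, h0, h1, rfl⟩ := hs e he
    rcases mem_union.1 he' with h' | h' <;> rw [Lat.mem_edI, mem_rc, mem_rc] at h' <;>
      simp only [Prod.fst_zero, Prod.snd_zero] at h' <;> omega
  · have hs : Sp (2 * n₁) n₂ s := hs
    rw [sum_union (Lat.disjoint_edI disj), sum_singleton, sum_sm]
    set D₁ := ∑ e ∈ Λ.edI (rc 0 n₁ n₂), |(dE e s : ℝ)|
    set D₂ := ∑ e ∈ Λ.edI (rc ((n₁ : ℤ), 0) n₁ n₂), |(dE e s : ℝ)|
    set T := ∑ j ∈ Finset.Ico (0 : ℤ) n₂, ((s ((n₁ : ℤ), j) : ℝ) - s ((n₁ : ℤ) - 1, j)) with hT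
    have d1 : 0 ≤ D₁ := sum_nonneg fun _ _ => abs_nonneg _
    have d2 : 0 ≤ D₂ := sum_nonneg fun _ _ => abs_nonneg _
    have d3 := abs_nonneg T
    have a1 : ∀ y ∈ rc 0 n₁ n₂, |(s y : ℝ)| ≤ D₁ := fun y hy => by
      simpa [hs.root] using osc h (rect_rc (zero_mem h₁ h₂) hy) s
    by_cases hx : x ∈ rc 0 n₁ n₂
    · linarith [a1 x hx]
    by_cases hx' : x ∈ rc ((n₁ : ℤ), 0) n₁ n₂
    · have a2 : |(n₂ : ℝ) * s x - T| ≤ n₂ * (D₁ + D₂) := by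
        have e1 : ∀ c : ℝ, (n₂ : ℝ) * c = ∑ _j ∈ Finset.Ico (0 : ℤ) n₂, c := fun c => by simp
        rw [e1, e1, hT, ← sum_sub_distrib]
        refine (abs_sum_le_sum_abs _ _).trans (sum_le_sum fun j hj => ?_)
        rw [mem_Ico] at hj
        have b1 := a1 ((n₁ : ℤ) - 1, j) (by
          rw [mem_rc]; simp only [Prod.fst_zero, Prod.snd_zero]; omega)
        have b2 := osc h (rect_rc (x := ((n₁ : ℤ), j)) (by rw [mem_rc]; simp only []; omega) hx') s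
        rw [abs_le] at *
        constructor <;> linarith [b1.1, b1.2, b2.1, b2.2]
      have hn : (1 : ℝ) ≤ n₂ := by exact_mod_cast h₂
      have a3 : (n₂ : ℝ) * |(s x : ℝ)| ≤ n₂ * (D₁ + D₂) + |T| := by
        have := abs_add_le ((n₂ : ℝ) * s x - T) T
        rw [sub_add_cancel, abs_mul, abs_of_pos (by linarith : (0 : ℝ) < n₂)] at this
        linarith
      have : |(s x : ℝ)| ≤ D₁ + D₂ + |T| :=
        le_of_mul_le_mul_left (by nlinarith) (by linarith : (0 : ℝ) < n₂)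
      linarith
    · rw [hs.off (by
        rw [mem_rc] at *; simp only [Prod.fst_zero, Prod.snd_zero] at *; omega)]
      simp only [Int.cast_zero, abs_zero]
      positivity

theorem c_bd (hS : SprStmt) (h : Λ.Ok) (h₂ : 1 ≤ n₂) {κ : ℝ} (hκ : 0 < κ) (ζ : ℝ) :
    Real.exp (-(1 / κ + Λ.τ / n₂) * ζ ^ 2 / 2) ≤ Real.exp (-ζ ^ 2 / (2 * κ)) * chi Λ.w n₂ ζ ∧
      Real.exp (-ζ ^ 2 / (2 * κ)) * chi Λ.w n₂ ζ ≤ Real.exp (-ζ ^ 2 / (2 * κ)) := by
  have := (hS Λ.xy Λ.τ κ n₂ h.pos hκ h₂).1 ζ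
  refine ⟨le_of_eq_of_le ?_ (mul_le_mul_of_nonneg_left this.1 (Real.exp_pos _).le),
    mul_le_of_le_one_right (Real.exp_pos _).le this.2.1⟩
  rw [← Real.exp_add]; congr 1; ring

theorem two_pi : 1 ≤ 2 * Real.pi := by linarith [Real.pi_gt_three]

theorem c_summable (hS : SprStmt) (h : Λ.Ok) (h₂ : 1 ≤ n₂) {κ : ℝ} (hκ : 0 < κ) (α : ℝ) :
    Summable fun p : ℤ => Real.exp (-(2 * Real.pi * p - α) ^ 2 / (2 * κ)) *
      chi Λ.w n₂ (2 * Real.pi * p - α) :=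
  Summable.of_nonneg_of_le (fun _ => (Real.exp_pos _).le.trans (c_bd hS h h₂ hκ _).1)
    (fun _ => (c_bd hS h h₂ hκ _).2) (summable_gauss (by positivity) _ α two_pi)

theorem sum_U (hU : UngStmt) (hS : SprStmt) (h : Λ.Ok) (h₁ : 1 ≤ n₁) (h₂ : 1 ≤ n₂) {κ : ℝ}
    (hκ : 0 < κ) (G H g₁ g₂ k₁ k₂ : Cfg Pt →+ ℝ) (α : ℝ)
    (hG : ∀ p, Sp n₁ n₂ p.1.1 → Sp n₁ n₂ p.1.2 → G (gl n₁ n₂ p) = g₁ p.1.1 + g₂ p.1.2)
    (hH : ∀ p, Sp n₁ n₂ p.1.1 → Sp n₁ n₂ p.1.2 →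
      H (gl n₁ n₂ p) = α * p.2 + (k₁ p.1.1 + k₂ p.1.2)) :
    ∑' s, U Λ n₁ n₂ κ s * (Real.exp (G s) * Real.cos (H s)) =
      Real.sqrt (2 * Real.pi / κ) * Zs (Λ.WR n₁ n₂) ^ 2 * ∑' p : ℤ,
        Real.exp (-(2 * Real.pi * p - α) ^ 2 / (2 * κ)) * chi Λ.w n₂ (2 * Real.pi * p - α) *
      (Ex (Λ.WR n₁ n₂) (fun s => Real.exp (g₁ s) *
          Real.cos ((k₁ - (2 * Real.pi * p - α) • pr (col n₂ (n₁ - 1))) s)) *
        Ex (Λ.WR n₁ n₂) (fun s => Real.exp (g₂ s) *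
          Real.cos ((k₂ + (2 * Real.pi * p - α) • pr (col n₂ 0)) s)) -
      Ex (Λ.WR n₁ n₂) (fun s => Real.exp (g₁ s) *
          Real.sin ((k₁ - (2 * Real.pi * p - α) • pr (col n₂ (n₁ - 1))) s)) *
        Ex (Λ.WR n₁ n₂) (fun s => Real.exp (g₂ s) *
          Real.sin ((k₂ + (2 * Real.pi * p - α) • pr (col n₂ 0)) s))) :=
  poisson (cen_WR h h₁ h₂).wt (cen_WR h h₁ h₂).se (S := spr Λ.w n₂ κ) (c_summable hS h h₂ hκ α)
    (fun t β => (hS Λ.xy Λ.τ κ n₂ h.pos hκ h₂).2.2.2.1 t α β) _ _ g₁ g₂ k₁ k₂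
    (hasSum_U h₁ h₂ κ ((ung hU h h₁ h₂ hκ).1.ig ((Tame.exp G).mul (Tame.cos _)))
      fun p ha hb => by rw [hG p ha hb, hH p ha hb])

theorem sum_cos (hU : UngStmt) (hS : SprStmt) (h : Λ.Ok) (h₁ : 1 ≤ n₁) (h₂ : 1 ≤ n₂) {κ : ℝ}
    (hκ : 0 < κ) (H k₁ k₂ : Cfg Pt →+ ℝ) (α : ℝ)
    (hH : ∀ p, Sp n₁ n₂ p.1.1 → Sp n₁ n₂ p.1.2 →
      H (gl n₁ n₂ p) = α * p.2 + (k₁ p.1.1 + k₂ p.1.2)) :
    ∑' s, U Λ n₁ n₂ κ s * Real.cos (H s) =
      Real.sqrt (2 * Real.pi / κ) * Zs (Λ.WR n₁ n₂) ^ 2 * ∑' p : ℤ,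
        Real.exp (-(2 * Real.pi * p - α) ^ 2 / (2 * κ)) * chi Λ.w n₂ (2 * Real.pi * p - α) *
      (Ph (Λ.WR n₁ n₂) (k₁ - (2 * Real.pi * p - α) • pr (col n₂ (n₁ - 1))) *
        Ph (Λ.WR n₁ n₂) (k₂ + (2 * Real.pi * p - α) • pr (col n₂ 0))) := by
  have := sum_U hU hS h h₁ h₂ hκ 0 H 0 0 k₁ k₂ α (fun _ _ _ => by simp) hH
  have o : ∀ f : Cfg Pt →+ ℝ, Ex (Λ.WR n₁ n₂) (fun s => Real.sin (f s)) = 0 := fun f =>
    (cen_WR h h₁ h₂).ex_odd fun s => by rw [map_neg, Real.sin_neg]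
  simp only [AddMonoidHom.zero_apply, Real.exp_zero, one_mul, o, mul_zero, sub_zero] at this
  exact this

theorem Zs_U (hU : UngStmt) (hS : SprStmt) (h : Λ.Ok) (h₁ : 1 ≤ n₁) (h₂ : 1 ≤ n₂) {κ : ℝ}
    (hκ : 0 < κ) : Zs (U Λ n₁ n₂ κ) =
      Real.sqrt (2 * Real.pi / κ) * Zs (Λ.WR n₁ n₂) ^ 2 * ∑' p : ℤ,
        Real.exp (-(2 * Real.pi * p) ^ 2 / (2 * κ)) * chi Λ.w n₂ (2 * Real.pi * p) *
          Ph (Λ.WR n₁ n₂) ((2 * Real.pi * p) • pr (col n₂ (n₁ - 1))) ^ 2 := by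
  have := sum_cos hU hS h h₁ h₂ hκ 0 0 0 0 fun _ _ _ => by simp
  simp only [AddMonoidHom.zero_apply, Real.cos_zero, mul_one, sub_zero, zero_sub, zero_add, Ph_neg,
    ph_refl h h₁ h₂, ← pow_two] at this
  exact this

theorem hfun {a l : ℝ} (ha0 : 0 ≤ a) (ha1 : a ≤ 1) (hl0 : 0 ≤ l) (hl1 : l ≤ 1) :
    2 * a * (1 + a ^ 2) / (1 + a) ^ 2 - (1 - l ^ 3) ≤
      2 * (a * l) * (1 + (a * l) ^ 2) / (1 + a * l) ^ 2 := by
  have h1 : 2 * a * (1 + a ^ 2) / (1 + a) ^ 2 ≤ 1 := by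
    rw [div_le_one (by positivity)]
    nlinarith [mul_nonneg (sq_nonneg a) (sub_nonneg.2 ha1), mul_nonneg ha0 (sub_nonneg.2 ha1)]
  have h3 : l ^ 3 ≤ l := pow_le_of_le_one hl0 hl1 three_ne_zero
  have h2 : l ^ 3 * (2 * a * (1 + a ^ 2)) / (1 + a) ^ 2 ≤
      2 * (a * l) * (1 + (a * l) ^ 2) / (1 + a * l) ^ 2 :=
    div_le_div₀ (by positivity) (by nlinarith [mul_le_mul_of_nonneg_left h3 ha0]) (by positivity)
      (pow_le_pow_left₀ (by positivity) (by nlinarith) 2)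
  rw [mul_div_assoc] at h2
  nlinarith [mul_le_mul_of_nonneg_left h1 (sub_nonneg.2 (h3.trans hl1))]

theorem g1_abs {A : ℤ → ℝ} {c : ℝ → ℝ} {κ u P : ℝ} {q : ℤ} (hκ : 0 < κ) (hu : 0 ≤ u)
    (h0 : ∀ p, 0 ≤ A p) (h1 : ∀ p, A p ≤ 1) (hA : A 0 = 1)
    (hp : ∀ p, A p ^ 2 * A q ^ 2 ≤ A (p + q) * A (p + -q))
    (hc : ∀ ζ, Real.exp (-(1 / κ + u) * ζ ^ 2 / 2) ≤ c ζ ∧ c ζ ≤ Real.exp (-ζ ^ 2 / (2 * κ)))
    (hP0 : 0 ≤ P) (hP1 : P ≤ 1)
    (h : ∑' p : ℤ, c (2 * Real.pi * p - Real.pi * q) * (A (p + -q) * A p) ≤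
      P * ∑' p : ℤ, c (2 * Real.pi * p) * A p ^ 2) :
    2 * A q * (1 + A q ^ 2) / (1 + A q) ^ 2 - 3 * ((1 / κ + u) * Real.pi ^ 2 * q ^ 2) -
      2 * κ * u * ∑' p : ℤ, Real.exp (-(2 * Real.pi * p - 0) ^ 2 / (4 * κ)) ≤ P := by
  obtain ⟨s, hs⟩ : ∃ s, s = 1 / κ + u := ⟨_, rfl⟩
  have hs0 : 0 < s := hs ▸ add_pos_of_pos_of_nonneg (by positivity) hu
  rw [← hs] at hc ⊢
  have c0 : ∀ ζ, 0 ≤ c ζ := fun ζ => (Real.exp_pos _).le.trans (hc ζ).1
  obtain ⟨b, hb⟩ : ∃ b : ℤ → ℝ, ∀ p, b p = A p * Real.exp (-(s * Real.pi ^ 2 * p ^ 2)) :=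
    ⟨_, fun _ => rfl⟩
  have b0 : ∀ p, 0 ≤ b p := fun p => hb p ▸ mul_nonneg (h0 p) (Real.exp_pos _).le
  have b2 : ∀ p, b p ^ 2 = Real.exp (-s * (2 * Real.pi * p) ^ 2 / 2) * A p ^ 2 := fun p => by
    rw [hb, mul_pow, ← Real.exp_nat_mul, mul_comm]; congr 2; push_cast; ring
  have a2 : ∀ p, A p ^ 2 ≤ 1 := fun p => pow_le_one₀ (h0 p) (h1 p)
  have sg := fun α => summable_gauss (s := 2 * κ) (by positivity) _ α two_pi
  have sc : Summable fun p : ℤ => c (2 * Real.pi * p) * A p ^ 2 :=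
    Summable.of_nonneg_of_le (fun p => mul_nonneg (c0 _) (sq_nonneg _))
      (fun p => (mul_le_of_le_one_right (c0 _) (a2 p)).trans (by simpa using (hc _).2)) (sg 0)
  have sb : Summable fun p => b p ^ 2 := Summable.of_nonneg_of_le (fun p => sq_nonneg _)
    (fun p => b2 p ▸ mul_le_mul_of_nonneg_right (hc _).1 (sq_nonneg _)) sc
  have sd : Summable fun p : ℤ => c (2 * Real.pi * p - Real.pi * q) * (A (p + -q) * A p) :=
    Summable.of_nonneg_of_le (fun p => mul_nonneg (c0 _) (mul_nonneg (h0 _) (h0 _)))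
      (fun p => (mul_le_of_le_one_right (c0 _) (mul_le_one₀ (h1 _) (h0 _) (h1 _))).trans (hc _).2)
      (sg _)
  have se := summable_gauss (s := 4 * κ) (by positivity) _ 0 two_pi
  obtain ⟨S, hS⟩ : ∃ S, S = ∑' p : ℤ, Real.exp (-(2 * Real.pi * p - 0) ^ 2 / (4 * κ)) := ⟨_, rfl⟩
  have hS0 : 0 ≤ S := hS ▸ tsum_nonneg fun _ => (Real.exp_pos _).le
  obtain ⟨l, hl⟩ : ∃ l, l = Real.exp (-(s * Real.pi ^ 2 * q ^ 2)) := ⟨_, rfl⟩
  have l0 : 0 ≤ l := hl ▸ (Real.exp_pos _).le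
  have l1 : l ≤ 1 := hl ▸ Real.exp_le_one_iff.2 (neg_nonpos.2 (by positivity))
  have l3 : 1 - l ^ 3 ≤ 3 * (s * Real.pi ^ 2 * q ^ 2) := by
    rw [hl, ← Real.exp_nat_mul]
    have := Real.add_one_le_exp ((3 : ℕ) * -(s * Real.pi ^ 2 * q ^ 2))
    push_cast at this ⊢
    linarith
  have k1 := seq (α := A q * l) (q := q) b0 sb (mul_nonneg (h0 q) l0)
    (mul_le_one₀ (h1 q) l0 l1) fun p => by
      have e : Real.exp (-(s * Real.pi ^ 2 * ((p + q : ℤ) : ℝ) ^ 2)) *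
          Real.exp (-(s * Real.pi ^ 2 * ((p + -q : ℤ) : ℝ) ^ 2)) =
          l ^ 2 * Real.exp (-(s * Real.pi ^ 2 * p ^ 2)) ^ 2 := by
        rw [hl, ← mul_pow, ← Real.exp_add, ← Real.exp_add, ← Real.exp_nat_mul]
        congr 1; push_cast; ring
      rw [hb, hb, hb, mul_mul_mul_comm, e]
      calc _ = A p ^ 2 * A q ^ 2 * (l ^ 2 * Real.exp (-(s * Real.pi ^ 2 * p ^ 2)) ^ 2) := by ring
        _ ≤ _ := mul_le_mul_of_nonneg_right (hp p) (by positivity)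
  have k2 : ∑' p, b p * b (p + -q) ≤
      ∑' p : ℤ, c (2 * Real.pi * p - Real.pi * q) * (A (p + -q) * A p) :=
    (summable_shift b0 sb (-q)).tsum_le_tsum (fun p => by
      rw [hb, hb, mul_mul_mul_comm, ← Real.exp_add, mul_comm, mul_comm (A p)]
      refine mul_le_mul_of_nonneg_right (le_trans (Real.exp_le_exp.2 ?_) (hc _).1)
        (mul_nonneg (h0 _) (h0 _))
      push_cast
      nlinarith [mul_nonneg hs0.le (sq_nonneg (Real.pi * q))]) sd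
  have k3 : ∑' p : ℤ, c (2 * Real.pi * p) * A p ^ 2 ≤ ∑' p, b p ^ 2 + 2 * κ * u * S := by
    rw [hS, ← tsum_mul_left, ← sb.tsum_add (se.mul_left _)]
    refine sc.tsum_le_tsum (fun p => ?_) (sb.add (se.mul_left _))
    rw [b2, sub_zero]
    obtain ⟨z, hz⟩ : ∃ z, z = (2 * Real.pi * p) ^ 2 := ⟨_, rfl⟩
    have z0 : 0 ≤ z := hz ▸ sq_nonneg _
    have m1 := mul_le_mul_of_nonneg_right (hc (2 * Real.pi * p)).2 (sq_nonneg (A p))
    rw [← hz] at m1 ⊢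
    obtain ⟨E, hE⟩ : ∃ E, E = Real.exp (-z / (4 * κ)) := ⟨_, rfl⟩
    have E0 : 0 < E := hE ▸ Real.exp_pos _
    have m2 : Real.exp (-z / (2 * κ)) = E ^ 2 := by
      rw [hE, ← Real.exp_nat_mul]; congr 1; push_cast; ring
    have m3 : E ^ 2 * (1 - u * z / 2) ≤ Real.exp (-s * z / 2) := by
      rw [show -s * z / 2 = -z / (2 * κ) + -(u * z / 2) by rw [hs]; ring, Real.exp_add, m2]
      exact mul_le_mul_of_nonneg_left (by linarith [Real.add_one_le_exp (-(u * z / 2))])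
        (sq_nonneg _)
    have m4 : E * z ≤ 4 * κ := by
      have := Real.add_one_le_exp (z / (4 * κ))
      rw [hE, neg_div, Real.exp_neg, inv_mul_le_iff₀ (Real.exp_pos _), ← div_le_iff₀ (by positivity)]
      linarith
    have m5 : E ^ 2 * (u * z / 2) * A p ^ 2 ≤ 2 * κ * u * E :=
      (mul_le_of_le_one_right (by positivity) (a2 p)).trans (by
        nlinarith [mul_le_mul_of_nonneg_left m4 (mul_nonneg hu E0.le)])
    rw [← hE]
    rw [m2] at m1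
    nlinarith [mul_le_mul_of_nonneg_right m3 (sq_nonneg (A p))]
  have k4 : 1 ≤ ∑' p, b p ^ 2 := by
    have := sb.le_tsum 0 fun p _ => sq_nonneg _
    rwa [hb, hA, Int.cast_zero, zero_pow two_ne_zero, mul_zero, neg_zero, Real.exp_zero, one_mul,
      one_pow] at this
  rw [← hS]
  have k5 := hfun (h0 q) (h1 q) l0 l1
  have k6 : 2 * (A q * l) * (1 + (A q * l) ^ 2) / (1 + A q * l) ^ 2 ≤ P + 2 * κ * u * S := by
    have d0 : 0 < (1 + A q * l) ^ 2 := pow_pos (by linarith [mul_nonneg (h0 q) l0]) 2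
    have η0 : 0 ≤ 2 * κ * u * S := by positivity
    rw [div_le_iff₀ d0]
    refine le_of_mul_le_mul_right (k1.trans ?_) (zero_lt_one.trans_le k4)
    rw [mul_comm (P + _), mul_assoc]
    refine mul_le_mul_of_nonneg_left ((k2.trans h).trans ?_) d0.le
    nlinarith [mul_le_mul_of_nonneg_left k3 hP0, mul_le_mul_of_nonneg_left k4 η0,
      mul_le_mul_of_nonneg_left hP1 η0]
  linarith

end B32

open B32 in
theorem tbStmt (hU : UngStmt) (hS : SprStmt) : TbStmt := by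
  intro Λ n₁ n₂ κ h h₁ h₂ hκ W sE sW c Dn
  refine ⟨?_, fun f₁ f₂ hf₁ hf₂ => ?_⟩
  · rintro _ ⟨p, rfl⟩
    exact ph_refl h h₁ h₂ p
  intro f α
  obtain ⟨hc, hl⟩ := ung hU h h₁ h₂ hκ
  have hZ : Zs (U Λ n₁ n₂ κ) = Real.sqrt (2 * Real.pi / κ) * Zs W ^ 2 * Dn := Zs_U hU hS h h₁ h₂ hκ
  have hK : 0 < Real.sqrt (2 * Real.pi / κ) * Zs W ^ 2 :=
    mul_pos (Real.sqrt_pos.2 (div_pos (by positivity) hκ)) (pow_pos (cen_WR h h₁ h₂).wt.pos 2)
  have hD : 0 < Dn := (mul_pos_iff_of_pos_left hK).1 (hZ ▸ hc.wt.pos)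
  refine ⟨fun hα => ?_, ?_⟩
  · have e := sum_U hU hS h h₁ h₂ hκ (pr f) 0 (pr f₁) (pr f₂) 0 0 0
      (fun p ha hb => by
        rw [pr_gl hf₁ hf₂ ha hb, show ∑ x ∈ rc 0 n₁ n₂, f₂ x = 0 from hα, zero_mul, zero_add])
      fun _ _ _ => by simp
    simp only [AddMonoidHom.zero_apply, Real.cos_zero, mul_one, sub_zero, zero_sub, zero_add,
      AddMonoidHom.neg_apply, AddMonoidHom.smul_apply, smul_eq_mul, Real.cos_neg, Real.sin_neg,
      mul_neg, Ex_neg, neg_mul, sub_neg_eq_add] at e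
    have e2 := Real.exp_le_exp.2 (hl.M_le (pr f))
    rw [hc.wt.exp_M hc.se, Ex_def, e, hZ, mul_div_mul_left _ _ hK.ne', le_div_iff₀ hD] at e2
    exact e2
  · have e := sum_cos hU hS h h₁ h₂ hκ (pr f) (pr f₁) (pr f₂) α fun p ha hb => pr_gl hf₁ hf₂ ha hb
    have e2 := hl.Ph_le (pr f)
    rw [Ph, Ex_def, e, hZ, mul_div_mul_left _ _ hK.ne', div_le_iff₀ hD] at e2
    exact e2

open B32 in
theorem g1Stmt (hT : TbStmt) (hS : SprStmt) : G1Stmt := by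
  intro F q₀ ε hε
  obtain ⟨η, hη⟩ : ∃ η, η = ε / (12 * Real.pi ^ 2 * (q₀ ^ 2 + 1)) := ⟨_, rfl⟩
  have η0 : 0 < η := hη ▸ by positivity
  obtain ⟨S, hS'⟩ : ∃ S, S = ∑' p : ℤ, Real.exp (-(2 * Real.pi * p - 0) ^ 2 / (4 * η⁻¹)) := ⟨_, rfl⟩
  have hS0 : 0 ≤ S := hS' ▸ tsum_nonneg fun _ => (Real.exp_pos _).le
  obtain ⟨δ, hδ⟩ : ∃ δ, δ = min η (ε / (4 * η⁻¹ * (S + 1))) := ⟨_, rfl⟩
  have δ0 : 0 < δ := hδ ▸ lt_min η0 (by positivity)
  refine ⟨⌈F.τ₂ / δ⌉₊ + 1, fun Λ hΛ n₁ n₂ q h₁ hn hq hq₀ => ?_⟩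
  intro a
  have h : Λ.Ok := ⟨hΛ.1 ▸ F.adm, F.pos.trans_le hΛ.2.2.1⟩
  have h₂ : 1 ≤ n₂ := by omega
  have hu : Λ.τ / n₂ ≤ δ := by
    have e : F.τ₂ / δ ≤ n₂ := (Nat.le_ceil _).trans (by exact_mod_cast (by omega))
    rw [div_le_iff₀ δ0] at e
    rw [div_le_iff₀ (by positivity)]
    linarith [hΛ.2.2.2]
  have hu0 : 0 ≤ Λ.τ / n₂ := div_nonneg h.pos.le (by positivity)
  have hW := cen_WR h h₁ h₂
  have hW2 := cen_WR h (n₁ := 2 * n₁) (by omega) h₂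
  have t := ((hT Λ n₁ n₂ η⁻¹ h h₁ h₂ (inv_pos.2 η0)).2 ((Real.pi * q) • col n₂ (n₁ - 1))
    ((Real.pi * q) • col n₂ 0)
    (fun x hx => by rw [Pi.smul_apply, col_sup (by omega) (by omega) x hx, smul_zero])
    (fun x hx => by rw [Pi.smul_apply, col_sup le_rfl (by omega) x hx, smul_zero])).2
  have e1 : ∑ x ∈ rc 0 n₁ n₂, ((Real.pi * q) • col n₂ 0) x = Real.pi * q := by
    simp only [Pi.smul_apply, smul_eq_mul]
    rw [← mul_sum, sum_col le_rfl (by omega) h₂, mul_one]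
  have e2 : (fun x => ((Real.pi * q) • col n₂ (n₁ - 1)) x +
      ((Real.pi * q) • col n₂ 0) (x - ((n₁ : ℤ), 0))) =
      (Real.pi * q) • (col n₂ (n₁ - 1) + col n₂ n₁) := by
    funext x
    simp only [Pi.smul_apply, Pi.add_apply, smul_eq_mul, col, Prod.fst_sub, Prod.snd_sub, sub_zero]
    rw [ind_congr (p := x.1 - n₁ = 0 ∧ 0 ≤ x.2 ∧ x.2 < n₂) (q := x.1 = n₁ ∧ 0 ≤ x.2 ∧ x.2 < n₂)
      (by omega)]
    ring
  have e3 : ∀ p : ℤ, Ph (Λ.WR n₁ n₂) ((Real.pi * q) • pr (col n₂ (n₁ - 1)) -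
      (2 * Real.pi * p - Real.pi * q) • pr (col n₂ (n₁ - 1))) =
      Ph (Λ.WR n₁ n₂) ((2 * Real.pi * ((p + -q : ℤ) : ℝ)) • pr (col n₂ (n₁ - 1))) := fun p => by
    rw [← Ph_neg, ← sub_smul, ← neg_smul]; congr 2; push_cast; ring
  have e4 : ∀ p : ℤ, Ph (Λ.WR n₁ n₂) ((Real.pi * q) • pr (col n₂ 0) +
      (2 * Real.pi * p - Real.pi * q) • pr (col n₂ 0)) =
      Ph (Λ.WR n₁ n₂) ((2 * Real.pi * p) • pr (col n₂ (n₁ - 1))) := fun p => by
    rw [← add_smul, add_sub_cancel, ph_refl h h₁ h₂]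
  simp only [e1, e2, pr_smul, e3, e4] at t
  have g := g1_abs (A := fun p : ℤ => Ph (Λ.WR n₁ n₂) ((2 * Real.pi * p) • pr (col n₂ (n₁ - 1))))
    (c := fun ζ => Real.exp (-ζ ^ 2 / (2 * η⁻¹)) * chi Λ.w n₂ ζ) (q := q) (inv_pos.2 η0) hu0
    (fun _ => (hW.ph_pos _).le) (fun _ => (le_abs_self _).trans (hW.wt.abs_Ph_le _))
    (by simp only [Int.cast_zero, mul_zero, zero_smul]; exact hW.wt.Ph_zero)
    (fun p => by
      have := hW.ph_par ((2 * Real.pi * p) • pr (col n₂ (n₁ - 1)))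
        ((2 * Real.pi * q) • pr (col n₂ (n₁ - 1)))
      rw [← add_smul, ← sub_smul, ← mul_add, ← mul_sub, sub_eq_add_neg (p : ℝ)] at this
      push_cast
      exact this)
    (c_bd hS h h₂ (inv_pos.2 η0)) (hW2.ph_pos _).le ((le_abs_self _).trans (hW2.wt.abs_Ph_le _)) t
  rw [← hS', one_div, inv_inv] at g
  have q2 : (q : ℝ) ^ 2 ≤ q₀ ^ 2 + 1 := by
    have : (q : ℝ) ≤ q₀ := by exact_mod_cast hq₀
    have : (1 : ℝ) ≤ q := by exact_mod_cast hq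
    nlinarith
  have r1 : 3 * ((η + Λ.τ / n₂) * Real.pi ^ 2 * q ^ 2) ≤ ε / 2 :=
    calc _ ≤ 3 * ((η + η) * Real.pi ^ 2 * (q₀ ^ 2 + 1)) := by
          have := hu.trans (hδ ▸ min_le_left _ _ : δ ≤ η)
          gcongr
      _ = ε / 2 := by rw [hη]; field_simp; ring
  have r2 : 2 * η⁻¹ * (Λ.τ / n₂) * S ≤ ε / 2 :=
    calc _ ≤ 2 * η⁻¹ * (ε / (4 * η⁻¹ * (S + 1))) * (S + 1) := by
          have := hu.trans (hδ ▸ min_le_right _ _ : δ ≤ ε / (4 * η⁻¹ * (S + 1)))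
          gcongr
          linarith
      _ = ε / 2 := by field_simp; ring
  linarith

end Crest.Agent.T145
end

-- ▼ part T145/Ung_86

/-!
# Row 145, module (b): un-gluing seams by Gaussian springs (`ungStmt`) (helper86)

The extended weight `xw` lives on heights, seam and noise (`Nz I S`: one integer per bundle edge); it is RSD,
its noise marginal is `zc * ung`, and the model is obtained from it by the PD factor `xg`.
-/

set_option autoImplicit false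
set_option linter.unusedSectionVars false

namespace Crest.Agent.T145

open Finset

namespace Ung86

/-- sum of a product over a finite dependent function space -/
theorem hasSum_dpi {ι : Type*} [Fintype ι] {α : ι → Type*} {u : ∀ i, α i → ℝ} {z : ι → ℝ}
    (hu : ∀ i, HasSum (u i) (z i)) : HasSum (fun x : ∀ i, α i => ∏ i, u i (x i)) (∏ i, z i) := by
  have key : ∀ (n : ℕ) (α : Fin n → Type _) (u : ∀ i, α i → ℝ) (z : Fin n → ℝ),
      (∀ i, HasSum (u i) (z i)) → HasSum (fun x : ∀ i, α i => ∏ i, u i (x i)) (∏ i, z i) := by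
    intro n
    induction n with
    | zero => intro α u z _; simp
    | succ n ih =>
      intro α u z hu
      have h := hasSum_prod_mul (hu 0) (ih _ (fun i => u i.succ) _ fun i => hu i.succ)
      rw [Fin.prod_univ_succ, ← (Fin.consEquiv α).hasSum_iff]
      convert h using 2 with p
      simp [Fin.prod_univ_succ, Fin.consEquiv]
  let e := Fintype.equivFin ι
  have := key _ (fun j => α (e.symm j)) (fun j => u (e.symm j)) _ fun j => hu (e.symm j)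
  rw [e.symm.prod_comp z, ← (Equiv.piCongrLeft' α e).hasSum_iff] at this
  convert this using 2 with x
  exact (e.symm.prod_comp fun i => u i (x i)).symm

section spr
variable {w : ℤ → ℝ} {κ : ℝ}

/-- independent edges -/
noncomputable def iw (w : ℤ → ℝ) (J : Type) [Fintype J] (k : J → ℤ) : ℝ := ∏ j, w (k j)

/-- the Gaussian spring -/
noncomputable def gs1 (κ t : ℝ) : ℝ := Real.exp (-κ * t ^ 2 / 2)

theorem gs1_pos (κ t : ℝ) : 0 < gs1 κ t := Real.exp_pos _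

theorem gs1_le_one (hκ : 0 ≤ κ) (t : ℝ) : gs1 κ t ≤ 1 :=
  Real.exp_le_one_iff.2 (by nlinarith [sq_nonneg t])

@[simp] theorem gs1_zero (κ : ℝ) : gs1 κ 0 = 1 := by simp [gs1]

theorem gs1_eq (hκ : 0 ≤ κ) :
    gs1 κ = gq ({()} : Finset Unit) fun _ => AddMonoidHom.mulLeft (Real.sqrt κ) := by
  funext t
  simp only [gs1, gq, sum_singleton, AddMonoidHom.coe_mulLeft, mul_pow, Real.sq_sqrt hκ, neg_mul]

theorem rsd_gs1 (hκ : 0 ≤ κ) : RSD (gs1 κ) := by rw [gs1_eq hκ]; exact Rsd63.rsd_gq _ _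


theorem cen_iw (hw : Cen w) (J : Type) [Fintype J] : Cen (iw w J) :=
  Cut7.cen_pi rsdStmt fun _ => hw

/-- mean of the noise -/
noncomputable def av (J : Type) [Fintype J] (n : ℝ) : (J → ℤ) →+ ℝ where
  toFun k := (∑ j, (k j : ℝ)) / n
  map_zero' := by simp
  map_add' a b := by simp [sum_add_distrib, add_div]

theorem av_apply (J : Type) [Fintype J] (n : ℝ) (k : J → ℤ) : av J n k = (∑ j, (k j : ℝ)) / n := rfl

/-- the spring for any index type -/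
theorem spr_eq (w : ℤ → ℝ) (J : Type) [Fintype J] {n : ℕ} (hn : Fintype.card J = n) (κ t : ℝ) :
    spr w n κ t = Ex (iw w J) fun k => gs1 κ (t - av J n k) := by
  let e : J ≃ Fin n := Fintype.equivFinOfCardEq hn
  rw [spr, ← Ex_equiv (Equiv.arrowCongr e (Equiv.refl ℤ))]
  congr 1
  · funext k
    exact e.symm.prod_comp fun j => w (k j)
  · funext k
    simp only [gs1, av_apply, Equiv.arrowCongr_apply, Equiv.coe_refl, Function.comp, id]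
    rw [e.symm.sum_comp fun j => (k j : ℝ)]

theorem hasSum_spr (hw : Cen w) (hκ : 0 ≤ κ) (J : Type) [Fintype J] {n : ℕ} (hn : Fintype.card J = n)
    (t : ℝ) : HasSum (fun k => iw w J k * gs1 κ (t - av J n k)) (Zs (iw w J) * spr w n κ t) := by
  have hW := (cen_iw hw J).wt
  rw [spr_eq w J hn, ← hW.tsum_eq]
  exact (hW.ig_bdd (C := 1) fun k => by
    rw [abs_of_pos (gs1_pos _ _)]; exact gs1_le_one hκ _).hasSum

theorem spr_pos (hw : Cen w) (hκ : 0 ≤ κ) (n : ℕ) (t : ℝ) : 0 < spr w n κ t := by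
  have hW := (cen_iw hw (Fin n)).wt
  rw [spr_eq w (Fin n) (Fintype.card_fin n)]
  exact hW.ex_pos' (hW.ig_bdd (C := 1) fun k => by
    rw [abs_of_pos (gs1_pos _ _)]; exact gs1_le_one hκ _) fun k => gs1_pos _ _


/-- superexponential decay of the spring -/
theorem spr_le (hw : Cen w) (hκ : 0 < κ) (n : ℕ) (a : ℝ) :
    ∃ C : ℝ, 0 ≤ C ∧ ∀ t, spr w n κ t ≤ C * Real.exp (-(a * |t|)) := by
  have hC := cen_iw hw (Fin n)
  have hW := hC.wt
  have hi : Ig (iw w (Fin n)) fun k => Real.exp |(|a| • av (Fin n) n) k| := hC.ig (Tame.exp_abs _)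
  refine ⟨Real.exp (a ^ 2 / (2 * κ)) * Ex (iw w (Fin n)) fun k => Real.exp |(|a| • av (Fin n) n) k|,
    mul_nonneg (Real.exp_pos _).le (Ex_nonneg hW.nonneg fun _ _ => (Real.exp_pos _).le), fun t => ?_⟩
  rw [spr_eq w (Fin n) (Fintype.card_fin n), mul_right_comm, ← Ex_const_mul]
  refine Ex_mono hW.nonneg (hW.ig_bdd (C := 1) fun k => by
    rw [abs_of_pos (gs1_pos _ _)]; exact gs1_le_one hκ.le _) (hi.const_mul _) fun k => ?_
  rw [gs1, ← Real.exp_add, ← Real.exp_add]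
  refine Real.exp_le_exp.2 ?_
  set x := av (Fin n) n k
  have e1 : |(|a| • av (Fin n) n) k| = |a| * |x| := by
    rw [AddMonoidHom.smul_apply, smul_eq_mul, abs_mul, abs_abs]
  have h1 : |t| ≤ |t - x| + |x| := by simpa using abs_add_le (t - x) x
  have h2 : a * |t| ≤ |a| * (|t - x| + |x|) :=
    (mul_le_mul_of_nonneg_right (le_abs_self a) (abs_nonneg t)).trans
      (mul_le_mul_of_nonneg_left h1 (abs_nonneg a))
  have h3 : |a| * |t - x| ≤ a ^ 2 / (2 * κ) + κ * (t - x) ^ 2 / 2 := by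
    rw [← sq_abs a, ← sq_abs (t - x), ← sub_nonneg]
    have : |a| ^ 2 / (2 * κ) + κ * |t - x| ^ 2 / 2 - |a| * |t - x| =
        (|a| - κ * |t - x|) ^ 2 / (2 * κ) := by field_simp; ring
    rw [this]; positivity
  rw [e1]
  linarith

/-- the spring is RSD on the real line -/
theorem rsd_spr (hw : Cen w) (hκ : 0 ≤ κ) (n : ℕ) : RSD (spr w n κ) := by
  have hC := cen_iw hw (Fin n)
  have h := Rsd63.rsd_mg (ρ := fun p : (Fin n → ℤ) × ℝ =>
      iw w (Fin n) p.1 * gs1 κ (p.2 - av (Fin n) n p.1))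
    (Md.rsd_mul (Md.rsd_comp hC.toRSD (AddMonoidHom.fst _ ℝ)) (Md.rsd_comp (rsd_gs1 hκ)
      (AddMonoidHom.snd _ ℝ - (av (Fin n) n).comp (AddMonoidHom.fst _ ℝ))))
    fun t => (hasSum_spr hw hκ (Fin n) (Fintype.card_fin n) t).summable
  refine Pp.rsd (Pp.symm ⟨Zs (iw w (Fin n)), hC.wt.pos, fun t => ?_⟩) h
  exact (hasSum_spr hw hκ (Fin n) (Fintype.card_fin n) t).tsum_eq

end spr

section ext
variable {V ι : Type} [DecidableEq V]

/-- the noise: one integer for every edge of a bundle -/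
abbrev Nz (I : Finset ι) (S : ι → Finset (V × V)) : Type := ∀ b : I, S b → ℤ

/-- mean gradient (with seam) over a bundle -/
noncomputable def mean (T : Finset (V × V)) : Cfg V × (V × V → ℤ) →+ ℝ where
  toFun p := (∑ e ∈ T, ((dE e p.1 + p.2 e : ℤ) : ℝ)) / T.card
  map_zero' := by simp [dE]
  map_add' a b := by
    rw [← add_div, ← sum_add_distrib]
    congr 1
    refine sum_congr rfl fun e _ => ?_
    simp only [dE, Prod.fst_add, Prod.snd_add, Finsupp.add_apply, Pi.add_apply]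
    push_cast; ring

theorem mean_apply (T : Finset (V × V)) (s : Cfg V) (σ : V × V → ℤ) :
    mean T (s, σ) = (∑ e ∈ T, ((dE e s + σ e : ℤ) : ℝ)) / T.card := rfl

/-- the true gradients on the bundles -/
noncomputable def tg (I : Finset ι) (S : ι → Finset (V × V)) : Cfg V × (V × V → ℤ) →+ Nz I S where
  toFun p := fun _ e => dE e.1 p.1 + p.2 e.1
  map_zero' := by funext b e; simp [dE]
  map_add' a b := by
    funext c e
    simp only [dE, Prod.fst_add, Prod.snd_add, Finsupp.add_apply, Pi.add_apply]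
    ring

variable (m : Mdl V) (E₀ : Finset (V × V)) (I : Finset ι) (S : ι → Finset (V × V)) (w : ℤ → ℝ) (κ : ℝ)

/-- the extended weight: heights `s`, seam `σ`, noise `k` -/
noncomputable def xw (σ : V × V → ℤ) (s : Cfg V) (k : Nz I S) : ℝ :=
  (m.keep E₀).Ws 0 σ s *
    ∏ b : I, iw w (S b) (k b) * gs1 κ (mean (S b) (s, σ) - av (S b) (S b).card (k b))

/-- the gluing factor -/
noncomputable def xg (σ : V × V → ℤ) (s : Cfg V) (k : Nz I S) : ℝ :=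
  ind (k = tg I S (s, σ)) * ∏ e ∈ m.ed \ (E₀ ∪ I.biUnion S), m.w e (dE e s + σ e)

/-- the mass of the noise -/
noncomputable def zn : ℝ := ∏ b : I, Zs (iw w (S b))

variable {m E₀ I S w κ}

theorem zn_pos (hw : Cen w) : 0 < zn I S w := prod_pos fun b _ => (cen_iw hw (S b)).wt.pos

theorem ung_eq (σ : V × V → ℤ) (s : Cfg V) : m.ung E₀ I S w κ σ s =
    (m.keep E₀).Ws 0 σ s * ∏ b ∈ I, spr w (S b).card κ (mean (S b) (s, σ)) := rfl

/-- the noise marginal of the extended weight -/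
theorem hasSum_xw (hw : Cen w) (hκ : 0 ≤ κ) (σ : V × V → ℤ) (s : Cfg V) :
    HasSum (xw m E₀ I S w κ σ s) (zn I S w * m.ung E₀ I S w κ σ s) := by
  have h := (hasSum_dpi (ι := I) (α := fun b => S b → ℤ) fun b =>
    hasSum_spr hw hκ (S b) (Fintype.card_coe (S b)) (mean (S b) (s, σ))).mul_left
      ((m.keep E₀).Ws 0 σ s)
  rw [prod_mul_distrib, prod_coe_sort I fun b => spr w (S b).card κ (mean (S b) (s, σ))] at h
  rw [ung_eq, zn, mul_left_comm]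
  exact h

/-- the extended weight is RSD jointly in heights, seam and noise -/
theorem rsd_xw (hm : (m.keep E₀).Ctr) (hw : Cen w) (hκ : 0 ≤ κ) :
    RSD fun p : (Cfg V × (V × V → ℤ)) × Nz I S => xw m E₀ I S w κ p.1.2 p.1.1 p.2 := by
  let π1 : (Cfg V × (V × V → ℤ)) × Nz I S →+ Cfg V × (V × V → ℤ) := AddMonoidHom.fst _ _
  let π2 : ∀ b : I, (Cfg V × (V × V → ℤ)) × Nz I S →+ (S b → ℤ) := fun b =>
    (Pi.evalAddMonoidHom (fun b : I => S b → ℤ) b).comp (AddMonoidHom.snd _ _)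
  exact Md.rsd_mul (Md.rsd_comp (Md.ctr_rsd_seam hm) π1)
    (Md.rsd_prod (T := univ) fun b _ => Md.rsd_mul (Md.rsd_comp (cen_iw hw (S b)).toRSD (π2 b))
      (Md.rsd_comp (rsd_gs1 hκ) ((mean (S b)).comp π1 - (av (S b) (S b).card).comp (π2 b))))

theorem xw_nonneg (hm : (m.keep E₀).Ctr) (hw : Cen w) (hκ : 0 ≤ κ) (σ : V × V → ℤ) (s : Cfg V)
    (k : Nz I S) : 0 ≤ xw m E₀ I S w κ σ s k := (rsd_xw hm hw hκ).nonneg ((s, σ), k)

/-- the gluing factor is PD jointly in heights, seam and noise -/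
theorem pd_xg (hm : m.Fm) :
    PD fun p : (Cfg V × (V × V → ℤ)) × Nz I S => xg m E₀ I S p.1.2 p.1.1 p.2 := by
  have h1 := pd_ind (AddMonoidHom.snd (Cfg V × (V × V → ℤ)) (Nz I S) -
    (tg I S).comp (AddMonoidHom.fst _ (Nz I S)))
  have h2 := PD.prod (T := m.ed \ (E₀ ∪ I.biUnion S)) fun e he =>
    (Md.fm_ker hm (mem_sdiff.1 he).1).pd.comp
      (((Md.dH e).comp (AddMonoidHom.fst _ _) +
        (Pi.evalAddMonoidHom (fun _ : V × V => ℤ) e).comp (AddMonoidHom.snd _ _)).comp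
          (AddMonoidHom.fst (Cfg V × (V × V → ℤ)) (Nz I S)))
  refine PSD.congr (h1.mul h2) fun a b => ?_
  simp only [xg]
  congr 1
  exact ind_congr sub_eq_zero.symm

theorem xg_nonneg (hm : m.Fm) (σ : V × V → ℤ) (s : Cfg V) (k : Nz I S) : 0 ≤ xg m E₀ I S σ s k :=
  mul_nonneg (ind_nonneg _) (prod_nonneg fun _ he => (Md.fm_pos hm (mem_sdiff.1 he).1 _).le)

/-- gluing gives the model back -/
theorem hasSum_xwg (hE : E₀ ⊆ m.ed)
    (hS : ∀ b ∈ I, S b ⊆ m.ed ∧ Disjoint (S b) E₀ ∧ ∀ e ∈ S b, m.w e = w)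
    (hd : ∀ b ∈ I, ∀ b' ∈ I, b ≠ b' → Disjoint (S b) (S b')) (σ : V × V → ℤ) (s : Cfg V) :
    HasSum (fun k => xw m E₀ I S w κ σ s k * xg m E₀ I S σ s k) (m.Ws 0 σ s) := by
  have h := hasSum_single (f := fun k => xw m E₀ I S w κ σ s k * xg m E₀ I S σ s k) (tg I S (s, σ))
    fun k hk => by rw [xg, ind_neg hk, zero_mul, mul_zero]
  convert h using 1
  have e1 : ∀ b : I, iw w (S b) (tg I S (s, σ) b) *
      gs1 κ (mean (S b) (s, σ) - av (S b) (S b).card (tg I S (s, σ) b)) =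
        ∏ e ∈ S b, m.w e (dE e s + σ e) := by
    intro b
    have : av (S b) (S b).card (tg I S (s, σ) b) = mean (S b) (s, σ) := by
      rw [av_apply, mean_apply, ← sum_coe_sort (S b)]; rfl
    rw [this, sub_self, gs1_zero, mul_one, ← prod_coe_sort (S b)]
    exact prod_congr rfl fun e _ => by rw [(hS b b.2).2.2 e e.2]; rfl
  have hsub : E₀ ∪ I.biUnion S ⊆ m.ed := union_subset hE (biUnion_subset.2 fun b hb => (hS b hb).1)
  have hdis : Disjoint E₀ (I.biUnion S) := (disjoint_biUnion_right _ _ _).2 fun b hb => (hS b hb).2.1.symm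
  rw [xw, xg, ind_pos rfl, one_mul, prod_congr rfl fun b _ => e1 b,
    prod_coe_sort I fun b => ∏ e ∈ S b, m.w e (dE e s + σ e),
    ← prod_biUnion fun b hb b' hb' hne => hd b hb b' hb' hne]
  simp only [Mdl.Ws, Mdl.keep_A, Mdl.keep_ed, Mdl.keep_w, Mdl.keep_site]
  rw [← prod_sdiff hsub, prod_union hdis]
  ring

/-- the unglued weight is RSD jointly in heights and seam -/
theorem rsd_ung (hm : (m.keep E₀).Ctr) (hw : Cen w) (hκ : 0 ≤ κ) :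
    RSD fun p : Cfg V × (V × V → ℤ) => m.ung E₀ I S w κ p.2 p.1 :=
  Md.rsd_mul (Md.ctr_rsd_seam hm)
    (Md.rsd_prod fun b _ => Md.rsd_comp (rsd_spr hw hκ (S b).card) (mean (S b)))

theorem rsd_ung0 (hm : (m.keep E₀).Ctr) (hw : Cen w) (hκ : 0 ≤ κ) : RSD (m.ung E₀ I S w κ 0) :=
  Md.rsd_comp (rsd_ung hm hw hκ) ((AddMonoidHom.id (Cfg V)).prod 0)

theorem ung_nonneg (hm : (m.keep E₀).Ctr) (hw : Cen w) (hκ : 0 ≤ κ) (σ : V × V → ℤ) (s : Cfg V) :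
    0 ≤ m.ung E₀ I S w κ σ s := (rsd_ung hm hw hκ).nonneg (s, σ)

theorem ung_pos (hm : (m.keep E₀).Ctr) (hw : Cen w) (hκ : 0 ≤ κ) (σ : V × V → ℤ) :
    0 < m.ung E₀ I S w κ σ 0 :=
  mul_pos (Md.Ws_pos hm.1 (fun _ _ => rfl) (fun x hx => (hm.2 x hx).2.2) σ)
    (prod_pos fun _ _ => spr_pos hw hκ _ _)

/-- coercivity: the kept gradients and the bundle sums control the heights -/
def Coer (m : Mdl V) (E₀ : Finset (V × V)) (I : Finset ι) (S : ι → Finset (V × V)) : Prop :=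
  ∃ C : ℝ, ∀ s : Cfg V, (∀ x, x ∉ m.A → s x = 0) → ∀ x, |(s x : ℝ)| ≤
    C * (∑ e ∈ E₀, |(dE e s : ℝ)| + ∑ b ∈ I, |∑ e ∈ S b, (dE e s : ℝ)|)

/-- exponential moments of the unglued weight -/
theorem se_ung (hm : (m.keep E₀).Ctr) (hw : Cen w) (hκ : 0 < κ) (hne : ∀ b ∈ I, (S b).Nonempty)
    (hC : Coer m E₀ I S) (σ : V × V → ℤ) : SE (m.ung E₀ I S w κ σ) := by
  classical
  intro f
  rw [Md.hom_eq f]
  set g : V → ℝ := fun x => f (Finsupp.single x 1)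
  obtain ⟨C, hC⟩ := hC
  set K : ℝ := (∑ x ∈ m.A, (|g x| + 1)) * |C| with hK
  have hK0 : 0 ≤ K := mul_nonneg (sum_nonneg fun _ _ => by positivity) (abs_nonneg C)
  choose! D hD0 hD using fun e (he : e ∈ E₀) => Md.se_bound (Md.fm_ker hm.1 he).cen.se K
  choose D' hD0' hD' using fun b : ι => spr_le hw hκ (S b).card (K * (S b).card)
  have hsum := (Md.hasSum_sites (0 : Cfg V) (g := fun _ k => Real.exp (-|(k : ℝ)|)) m.A
    fun _ _ => Bes66.summable_exp_neg_abs.hasSum).summable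
  refine Summable.of_norm_bounded (hsum.mul_left ((∏ e ∈ E₀, D e) * (∏ y ∈ m.A, m.site y 0) *
    (∏ b ∈ I, D' b) * Real.exp (K * (∑ e ∈ E₀, |(σ e : ℝ)| + ∑ b ∈ I, |∑ e ∈ S b, (σ e : ℝ)|))))
    fun s => ?_
  by_cases hs : ∀ y, y ∉ m.A → s y = (0 : Cfg V) y
  swap
  · have hs' : ¬ ∀ y, y ∉ (m.keep E₀).A → s y = (0 : Cfg V) y := hs
    simp only [ung_eq, Mdl.Ws, ind_neg hs, ind_neg hs', zero_mul, norm_zero, mul_zero, le_refl]
  have hs' : ∀ y, y ∉ (m.keep E₀).A → s y = (0 : Cfg V) y := hs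
  rw [Real.norm_eq_abs, abs_of_nonneg (mul_nonneg (ung_nonneg hm hw hκ.le σ s) (Real.exp_pos _).le),
    ung_eq, Mdl.Ws, ind_pos hs, ind_pos hs', one_mul, one_mul]
  simp only [Mdl.keep_A, Mdl.keep_ed, Mdl.keep_w, Mdl.keep_site]
  set P := ∑ e ∈ E₀, |((dE e s + σ e : ℤ) : ℝ)| with hP
  set Q := ∑ b ∈ I, |∑ e ∈ S b, ((dE e s + σ e : ℤ) : ℝ)| with hQ
  have e1 : ∏ e ∈ E₀, m.w e (dE e s + σ e) ≤ (∏ e ∈ E₀, D e) * Real.exp (-(K * P)) := by
    rw [hP, mul_sum, ← sum_neg_distrib, Real.exp_sum, ← prod_mul_distrib]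
    exact prod_le_prod (fun e he => (Md.fm_pos hm.1 he _).le) fun e he =>
      (le_abs_self _).trans (hD e he _)
  have e2 : ∏ y ∈ m.A, m.site y (s y) ≤ ∏ y ∈ m.A, m.site y 0 :=
    prod_le_prod (fun y hy => (hm.2 y hy).1.nonneg _) fun y hy => (hm.2 y hy).2.1.le _
  have e3 : ∏ b ∈ I, spr w (S b).card κ (mean (S b) (s, σ)) ≤
      (∏ b ∈ I, D' b) * Real.exp (-(K * Q)) := by
    rw [hQ, mul_sum, ← sum_neg_distrib, Real.exp_sum, ← prod_mul_distrib]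
    refine prod_le_prod (fun b _ => (spr_pos hw hκ.le _ _).le) fun b hb => (hD' b _).trans_eq ?_
    have hc : (0 : ℝ) < (S b).card := Nat.cast_pos.2 (hne b hb).card_pos
    rw [mean_apply, abs_div, abs_of_pos hc, mul_assoc, mul_div_cancel₀ _ hc.ne']
  have e4 : pr g s ≤ ∑ x ∈ m.A, |g x| * |(s x : ℝ)| := by
    rw [Md.pr_eq g s (T := m.A) fun x hx => Or.inl (hs x hx)]
    exact sum_le_sum fun x _ => by rw [← abs_mul]; exact le_abs_self _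
  have e5 : ∑ e ∈ E₀, |(dE e s : ℝ)| ≤ P + ∑ e ∈ E₀, |(σ e : ℝ)| := by
    rw [hP, ← sum_add_distrib]
    refine sum_le_sum fun e _ => ?_
    have := abs_sub (((dE e s + σ e : ℤ) : ℝ)) (σ e)
    rwa [show ((dE e s + σ e : ℤ) : ℝ) - σ e = dE e s by push_cast; ring] at this
  have e6 : ∑ b ∈ I, |∑ e ∈ S b, (dE e s : ℝ)| ≤ Q + ∑ b ∈ I, |∑ e ∈ S b, (σ e : ℝ)| := by
    rw [hQ, ← sum_add_distrib]
    refine sum_le_sum fun b _ => ?_
    have := abs_sub (∑ e ∈ S b, ((dE e s + σ e : ℤ) : ℝ)) (∑ e ∈ S b, (σ e : ℝ))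
    rwa [← sum_sub_distrib, sum_congr rfl fun e _ =>
      show ((dE e s + σ e : ℤ) : ℝ) - σ e = dE e s by push_cast; ring] at this
  have e7 : ∑ x ∈ m.A, (|g x| + 1) * |(s x : ℝ)| ≤
      K * (∑ e ∈ E₀, |(dE e s : ℝ)| + ∑ b ∈ I, |∑ e ∈ S b, (dE e s : ℝ)|) := by
    rw [hK, mul_assoc, sum_mul]
    refine sum_le_sum fun x _ => mul_le_mul_of_nonneg_left ((hC s hs x).trans
      (mul_le_mul_of_nonneg_right (le_abs_self C) (add_nonneg (sum_nonneg fun _ _ => abs_nonneg _)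
        (sum_nonneg fun _ _ => abs_nonneg _)))) (by positivity)
  have e8 : ∑ x ∈ m.A, (|g x| + 1) * |(s x : ℝ)| =
      ∑ x ∈ m.A, |g x| * |(s x : ℝ)| + ∑ x ∈ m.A, |(s x : ℝ)| := by
    rw [← sum_add_distrib]; exact sum_congr rfl fun x _ => by ring
  have hD1 : 0 ≤ ∏ e ∈ E₀, D e := prod_nonneg hD0
  have hD2 : 0 ≤ ∏ y ∈ m.A, m.site y 0 := prod_nonneg fun y hy => (hm.2 y hy).1.nonneg _
  have hD3 : 0 ≤ ∏ b ∈ I, D' b := prod_nonneg fun b _ => hD0' b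
  have e9 := mul_le_mul_of_nonneg_left (add_le_add e5 e6) hK0
  refine (mul_le_mul_of_nonneg_right (mul_le_mul (mul_le_mul e1 e2
    (prod_nonneg fun y hy => (hm.2 y hy).1.nonneg _) (by positivity)) e3
    (prod_nonneg fun b _ => (spr_pos hw hκ.le _ _).le) (by positivity)) (Real.exp_pos _).le).trans ?_
  rw [← Real.exp_sum, sum_neg_distrib]
  calc _ = ((∏ e ∈ E₀, D e) * (∏ y ∈ m.A, m.site y 0) * ∏ b ∈ I, D' b) *
        Real.exp (-(K * P) + -(K * Q) + pr g s) := by rw [Real.exp_add, Real.exp_add]; ring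
    _ ≤ _ := by
      rw [mul_assoc (_ * _ * _), ← Real.exp_add]
      refine mul_le_mul_of_nonneg_left (Real.exp_le_exp.2 ?_) (by positivity)
      linarith

theorem cen_ung (hm : (m.keep E₀).Ctr) (hw : Cen w) (hκ : 0 < κ) (hne : ∀ b ∈ I, (S b).Nonempty)
    (hC : Coer m E₀ I S) : Cen (m.ung E₀ I S w κ 0) :=
  ⟨rsd_ung0 hm hw hκ.le, ung_pos hm hw hκ.le 0, se_ung hm hw hκ hne hC 0⟩


/-- the model is more localised than the unglued one -/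
theorem loc_ung (hm : m.Ctr) (hw : Cen w) (hκ : 0 ≤ κ) (hE : E₀ ⊆ m.ed)
    (hS : ∀ b ∈ I, S b ⊆ m.ed ∧ Disjoint (S b) E₀ ∧ ∀ e ∈ S b, m.w e = w)
    (hd : ∀ b ∈ I, ∀ b' ∈ I, b ≠ b' → Disjoint (S b) (S b')) (hse : SE (m.ung E₀ I S w κ 0)) :
    Loc (m.W 0) (m.ung E₀ I S w κ 0) := by
  let φ : Cfg V × Nz I S →+ (Cfg V × (V × V → ℤ)) × Nz I S :=
    ((AddMonoidHom.id (Cfg V)).prod 0).prodMap (AddMonoidHom.id _)
  have hp : Pp (fun s => zn I S w * m.ung E₀ I S w κ 0 s) (m.ung E₀ I S w κ 0) :=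
    ⟨_, zn_pos hw, fun _ => rfl⟩
  have h := Mix53.loc_ext (W := fun s => zn I S w * m.ung E₀ I S w κ 0 s) (W' := m.Ws 0 0)
    (Md.rsd_comp (rsd_xw (hm.keep hE) hw hκ) φ) ((pd_xg (E₀ := E₀) hm.1).comp φ)
    (fun p => xg_nonneg hm.1 _ _ _) (fun s => hasSum_xw hw hκ 0 s)
    (fun s => hasSum_xwg hE hS hd 0 s) (hp.se hse) (a := 0)
    (Md.Ws_pos hm.1 (fun _ _ => rfl) (fun x hx => (hm.2 x hx).2.2) 0)
  rw [Mdl.W_eq_Ws]
  exact h.2.2.pp_right hp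

/-- seam and force ratios grow under un-gluing -/
theorem seam_ung (hm : m.Ctr) (hA : m.Anch) (hw : Cen w) (hκ : 0 ≤ κ) (hE : E₀ ⊆ m.ed)
    (hS : ∀ b ∈ I, S b ⊆ m.ed ∧ Disjoint (S b) E₀ ∧ ∀ e ∈ S b, m.w e = w)
    (hd : ∀ b ∈ I, ∀ b' ∈ I, b ≠ b' → Disjoint (S b) (S b')) (σ : V × V → ℤ) (f : Cfg V →+ ℝ)
    (h0 : Summable (m.ung E₀ I S w κ 0)) (h1 : Summable (tilt (m.ung E₀ I S w κ σ) f)) :
    Zs (tilt (m.Ws 0 σ) f) * Zs (m.ung E₀ I S w κ 0) ≤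
      Zs (tilt (m.ung E₀ I S w κ σ) f) * Zs (m.W 0) := by
  let φ : (Cfg V × Nz I S) × (V × V → ℤ) →+ (Cfg V × (V × V → ℤ)) × Nz I S :=
    (((AddMonoidHom.fst _ _).comp (AddMonoidHom.fst _ _)).prod (AddMonoidHom.snd _ _)).prod
      ((AddMonoidHom.snd _ _).comp (AddMonoidHom.fst _ _))
  have hk := hm.keep hE
  have n1 : ∀ σ, ∀ p : Cfg V × Nz I S, 0 ≤ xw m E₀ I S w κ σ p.1 p.2 := fun σ p =>
    xw_nonneg hk hw hκ _ _ _
  have n2 : ∀ σ, ∀ p : Cfg V × Nz I S, 0 ≤ xw m E₀ I S w κ σ p.1 p.2 * xg m E₀ I S σ p.1 p.2 :=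
    fun σ p => mul_nonneg (n1 σ p) (xg_nonneg hm.1 _ _ _)
  have a0 := Mix53.hasSum_ext (n1 0) (fun s => hasSum_xw hw hκ 0 s) (F := fun _ => 1)
    (Ig.const (h0.mul_left _) 1)
  have a1 := Mix53.hasSum_ext (n1 σ) (fun s => hasSum_xw hw hκ σ s) (F := fun s => Real.exp (f s))
    ((h1.mul_left (zn I S w)).congr fun s => by simp only [tilt, mul_assoc])
  have b0 := Mix53.hasSum_ext (n2 0) (fun s => hasSum_xwg hE hS hd 0 s) (F := fun _ => 1)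
    (Ig.const (Md.ctr_ses hm hA 0 0).summable 1)
  have b1 := Mix53.hasSum_ext (n2 σ) (fun s => hasSum_xwg hE hS hd σ s)
    (F := fun s => Real.exp (f s)) (Md.ctr_ses hm hA 0 σ f)
  simp only [mul_one] at a0 b0
  have key := Rsd63.rsd_bp (Md.rsd_comp (rsd_xw hk hw hκ) φ) ((pd_xg (E₀ := E₀) hm.1).comp φ) pd_one σ
    (f.comp (AddMonoidHom.fst _ _)) a0.summable a1.summable
  simp only [mul_one] at key
  have c1 : (∑' p : Cfg V × Nz I S, xw m E₀ I S w κ σ p.1 p.2 * Real.exp (f p.1) *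
      xg m E₀ I S σ p.1 p.2) = Zs (tilt (m.Ws 0 σ) f) :=
    (tsum_congr fun p => mul_right_comm _ _ _).trans b1.tsum_eq
  have c2 : (∑' s, zn I S w * m.ung E₀ I S w κ σ s * Real.exp (f s)) =
      zn I S w * Zs (tilt (m.ung E₀ I S w κ σ) f) := by
    rw [← Zs_smul]; exact tsum_congr fun s => mul_assoc _ _ _
  have key' : Zs (tilt (m.Ws 0 σ) f) * (zn I S w * Zs (m.ung E₀ I S w κ 0)) ≤
      zn I S w * Zs (tilt (m.ung E₀ I S w κ σ) f) * Zs (m.Ws 0 0) := by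
    rw [← c1, ← c2, ← a1.tsum_eq, ← Zs_smul, Zs, Zs, ← a0.tsum_eq, ← b0.tsum_eq]
    exact (le_abs_self _).trans key
  rw [Mdl.W_eq_Ws]
  refine le_of_mul_le_mul_left ?_ (zn_pos (I := I) (S := S) hw)
  linarith

end ext

end Ung86

open Ung86 in
/-- **UNG** -/
theorem ungStmt : UngStmt := by
  intro V ι _ m E₀ I S w κ hm hA hw hκ hE hS hd hC
  have hw' := (kerStmt w hw).cen
  have hk := hm.keep hE
  have hne := fun b hb => (hS b hb).1
  have hS' := fun b hb => (hS b hb).2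
  have hse := se_ung hk hw' hκ hne hC
  refine ⟨cen_ung hk hw' hκ hne hC, hse, loc_ung hm hw' hκ.le hE hS' hd (hse 0), fun σ => ?_⟩
  have e : ∀ W : Cfg V → ℝ, tilt W 0 = W := fun W => funext fun s => by simp [tilt]
  have := seam_ung hm hA hw' hκ.le hE hS' hd σ 0 (hse 0).summable (hse σ 0)
  rwa [e, e] at this

end Crest.Agent.T145
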