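import Crest.Agent.T145.LoA_21
import Crest.Agent.T145.BrB_73
import Crest.Agent.T145.RJ_57
import Crest.Agent.T145.Br_73
import Crest.Agent.T145.CorB_59
import Crest.Agent.T145.Ung_86_Mg

-- ▼ part T145/Lo_21
section

/-!
# Row 145, (b) T3a, low modes: `loStmt : LoStmt` (helper21)
-/

set_option autoImplicit false
set_option linter.unusedVariables false
set_option linter.unusedSectionVars false
set_option linter.style.haveILetI false

namespace Crest.Agent.T145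

open MeasureTheory Finset Matrix

namespace Lo21

/-! ## Gaussian noise -/
section noise
variable {κ : Type} [Fintype κ] [DecidableEq κ]

theorem cm (h : κ → ℝ) (F : (κ → ℝ) → ℝ) :
    ∫ ξ, F (ξ + h) ∂Gs.gm (1 : Matrix κ κ ℝ) = ∫ ξ, F ξ * Gs.cmd 1 h ξ ∂Gs.gm (1 : Matrix κ κ ℝ) := by
  have := Gs.integral_shift (C := (1 : Matrix κ κ ℝ)) PosSemidef.one h F
  simpa only [one_mulVec, smul_eq_mul, mul_comm] using this

theorem abs_dot_norm (a ξ : κ → ℝ) : |a ⬝ᵥ ξ| ≤ l1 a * ‖ξ‖ := by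
  rw [l1, Finset.sum_mul]
  refine (Finset.abs_sum_le_sum_abs _ _).trans (Finset.sum_le_sum fun i _ => ?_)
  rw [abs_mul]
  exact mul_le_mul_of_nonneg_left (norm_le_pi_norm ξ i) (abs_nonneg _)

theorem int_dot (a : κ → ℝ) {F : (κ → ℝ) → ℝ} (mF : Measurable F) (hF : ∀ ξ, |F ξ| ≤ 1) :
    Integrable (fun ξ => a ⬝ᵥ ξ * F ξ) (Gs.gm (1 : Matrix κ κ ℝ)) ∧
      |∫ ξ, a ⬝ᵥ ξ * F ξ ∂Gs.gm (1 : Matrix κ κ ℝ)| ≤ 2 * Real.exp (a ⬝ᵥ a / 2) := by
  have hb : Integrable (fun ξ => Real.exp (a ⬝ᵥ ξ) + Real.exp ((-a) ⬝ᵥ ξ))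
      (Gs.gm (1 : Matrix κ κ ℝ)) := (Gs.int_exp _ a).add (Gs.int_exp _ (-a))
  have hp : ∀ ξ, |a ⬝ᵥ ξ * F ξ| ≤ Real.exp (a ⬝ᵥ ξ) + Real.exp ((-a) ⬝ᵥ ξ) := fun ξ => by
    rw [abs_mul, neg_dotProduct]
    refine (mul_le_of_le_one_right (abs_nonneg _) (hF ξ)).trans ?_
    linarith [Real.add_one_le_exp |a ⬝ᵥ ξ|, exp_abs_le (a ⬝ᵥ ξ)]
  refine ⟨int_of ((Gs.cont_dot a).measurable.mul mF) hb hp, (abs_int_le hb hp).trans_eq ?_⟩
  rw [integral_add (Gs.int_exp _ a) (Gs.int_exp _ (-a)), Gs.mgf PosSemidef.one,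
    Gs.mgf PosSemidef.one]
  simp only [one_mulVec, neg_dotProduct, dotProduct_neg, neg_neg]
  ring

theorem der_cm (a : κ → ℝ) {F : (κ → ℝ) → ℝ} (mF : Measurable F) (hF : ∀ ξ, |F ξ| ≤ 1) :
    HasDerivAt (fun t : ℝ => ∫ ξ, F (ξ + t • a) ∂Gs.gm (1 : Matrix κ κ ℝ))
      (∫ ξ, a ⬝ᵥ ξ * F ξ ∂Gs.gm (1 : Matrix κ κ ℝ)) 0 := by
  have ha := Gs.dot_self_nonneg a
  have e : ∀ (t : ℝ) (ξ : κ → ℝ),
      Gs.cmd 1 (t • a) ξ = Real.exp (t * (a ⬝ᵥ ξ) - t ^ 2 * (a ⬝ᵥ a) / 2) := fun t ξ => by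
    simp only [Gs.cmd, one_mulVec, smul_dotProduct, dotProduct_smul, smul_eq_mul]
    congr 1; ring
  simp only [cm, e]
  have mc : ∀ t : ℝ, Measurable fun ξ : κ → ℝ =>
      Real.exp (t * (a ⬝ᵥ ξ) - t ^ 2 * (a ⬝ᵥ a) / 2) := fun t =>
    (((Gs.cont_dot a).measurable.const_mul t).sub_const _).exp
  have := (hasDerivAt_integral_of_dominated_loc_of_deriv_le (μ := Gs.gm (1 : Matrix κ κ ℝ))
    (x₀ := (0 : ℝ)) (s := Metric.ball 0 1)
    (F := fun t ξ => F ξ * Real.exp (t * (a ⬝ᵥ ξ) - t ^ 2 * (a ⬝ᵥ a) / 2))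
    (F' := fun t ξ => F ξ * (Real.exp (t * (a ⬝ᵥ ξ) - t ^ 2 * (a ⬝ᵥ a) / 2) *
      (a ⬝ᵥ ξ - t * (a ⬝ᵥ a))))
    (bound := fun ξ => (1 + a ⬝ᵥ a) * Real.exp (2 * l1 a * ‖ξ‖))
    (Metric.ball_mem_nhds _ one_pos)
    (Filter.Eventually.of_forall fun t => (mF.mul (mc t)).aestronglyMeasurable)
    (Gs.int_bdd (c := 1) (mF.mul (mc 0)) fun ξ => by simpa using hF ξ)
    (mF.mul ((mc 0).mul ((Gs.cont_dot a).measurable.sub_const _))).aestronglyMeasurable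
    (Filter.Eventually.of_forall fun ξ t ht => ?_) ((Gs.int_exp_norm _ _).const_mul _)
    (Filter.Eventually.of_forall fun ξ t _ => ?_)).2
  · simpa [mul_comm] using this
  · have ht1 : |t| ≤ 1 := by simpa using (mem_ball_zero_iff.1 ht).le
    have h1 := abs_dot_norm a ξ
    set x := l1 a * ‖ξ‖
    have h2 : Real.exp (t * (a ⬝ᵥ ξ) - t ^ 2 * (a ⬝ᵥ a) / 2) ≤ Real.exp x := by
      refine Real.exp_le_exp.2 ?_
      have h3 : t * (a ⬝ᵥ ξ) ≤ |a ⬝ᵥ ξ| := (le_abs_self _).trans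
        (by rw [abs_mul]; exact mul_le_of_le_one_left (abs_nonneg _) ht1)
      have : 0 ≤ t ^ 2 * (a ⬝ᵥ a) / 2 := by positivity
      linarith
    have h3 : |a ⬝ᵥ ξ - t * (a ⬝ᵥ a)| ≤ (1 + a ⬝ᵥ a) * Real.exp x := by
      have h4 : |t * (a ⬝ᵥ a)| ≤ a ⬝ᵥ a := by
        rw [abs_mul, abs_of_nonneg ha]; exact mul_le_of_le_one_left ha ht1
      have h5 := Real.add_one_le_exp x
      have h6 := (abs_nonneg _).trans h1
      refine (abs_sub _ _).trans ?_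
      nlinarith
    rw [Real.norm_eq_abs, abs_mul, abs_mul, abs_of_pos (Real.exp_pos _), mul_assoc 2, two_mul,
      Real.exp_add]
    refine (mul_le_of_le_one_left (by positivity) (hF ξ)).trans ?_
    calc _ ≤ Real.exp x * ((1 + a ⬝ᵥ a) * Real.exp x) :=
          mul_le_mul h2 h3 (abs_nonneg _) (Real.exp_pos _).le
      _ = _ := by ring
  · refine HasDerivAt.const_mul _ (HasDerivAt.exp ?_)
    have h1 := ((hasDerivAt_id t).mul_const (a ⬝ᵥ ξ)).sub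
      (((hasDerivAt_pow 2 t).mul_const (a ⬝ᵥ a)).div_const 2)
    exact h1.congr_deriv (by norm_num; ring)

end noise

/-! ## blocks -/
section blocks
variable {n r : ℕ}

/-- extension by zero -/
noncomputable def ext (η : sq 0 n → ℝ) (i : Pt) : ℝ := if h : i ∈ sq 0 n then η ⟨i, h⟩ else 0

/-- block average -/
noncomputable def avg (n r : ℕ) (f : Pt → ℝ) (i : sq 0 n) : ℝ :=
  (∑ y ∈ sq (tile 0 r i) r, f y) / (r : ℝ) ^ 2

/-- block constant density -/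
noncomputable def lift (r : ℕ) (η : sq 0 n → ℝ) (x : Pt) : ℝ := ext η (tileOf 0 r x) / (r : ℝ) ^ 2

/-- block of a site -/
def bk (hr : 0 < r) (x : sq 0 (n * r)) : sq 0 n := ⟨tileOf 0 r x, (tileOf_mem hr).2 x.2⟩

theorem ext_bk (hr : 0 < r) (η : sq 0 n → ℝ) (x : sq 0 (n * r)) :
    ext η (tileOf 0 r x) = η (bk hr x) := dif_pos _

theorem plo_eq (hr : 0 < r) (f : Pt → ℝ) (x : sq 0 (n * r)) : Plo r f x = avg n r f (bk hr x) := by
  simp [Plo, avg, bk, tile, tileOf]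

theorem sup_lift (hr : 0 < r) (η : sq 0 n → ℝ) : Sup (sq 0 (n * r)) (lift r η) := fun x hx => by
  rw [lift, ext, dif_neg (mt (tileOf_mem hr).1 hx), zero_div]

theorem sum_lift (hr : 0 < r) (η : sq 0 n → ℝ) (f : Pt → ℝ) :
    ∑ x ∈ sq 0 (n * r), lift r η x * f x = η ⬝ᵥ avg n r f := by
  rw [sum_tiling, ← Finset.sum_coe_sort]
  refine Finset.sum_congr rfl fun i _ => ?_
  rw [avg, ← mul_div_assoc, Finset.mul_sum, Finset.sum_div]
  refine Finset.sum_congr rfl fun x hx => ?_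
  rw [lift, (mem_tile_iff hr).1 hx, ext, dif_pos i.2]
  ring

theorem avg_ext (hr : 0 < r) (w : sq 0 n → ℝ) : avg n r (fun x => ext w (tileOf 0 r x)) = w := by
  funext i
  have h : (0 : ℝ) < r := by exact_mod_cast hr
  rw [avg, Finset.sum_congr rfl fun x hx => by rw [(mem_tile_iff hr).1 hx, ext, dif_pos i.2],
    Finset.sum_const, card_sq, nsmul_eq_mul]
  push_cast
  field_simp

theorem avg_one (hr : 0 < r) : avg n r (fun _ => 1) = fun _ => 1 := by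
  funext i
  have h : (0 : ℝ) < r := by exact_mod_cast hr
  rw [avg, Finset.sum_const, card_sq, nsmul_eq_mul]
  push_cast
  field_simp

theorem sum_lift1 (hr : 0 < r) (η : sq 0 n → ℝ) : ∑ x ∈ sq 0 (n * r), lift r η x = ∑ i, η i := by
  simpa [avg_one hr, dotProduct] using sum_lift hr η fun _ => 1

theorem pr_lift (hr : 0 < r) (η : sq 0 n → ℝ) (s : Cfg Pt) :
    pr (lift r η) s = η ⬝ᵥ avg n r fun z => (s z : ℝ) := by
  rw [pr_of_fsupp _ s (sup_lift hr η), sum_lift hr]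

theorem abs_lift {η : sq 0 n → ℝ} {c : ℝ} (hc : 0 ≤ c) (h : ∀ i, |η i| ≤ c) (x : Pt) :
    |lift r η x| ≤ c / (r : ℝ) ^ 2 := by
  rw [lift, abs_div, abs_of_nonneg (sq_nonneg (r : ℝ))]
  refine div_le_div_of_nonneg_right ?_ (sq_nonneg _)
  unfold ext
  split_ifs
  · exact h _
  · simpa using hc

theorem abs_avg (hr : 0 < r) {u : Pt → ℝ} {K : ℝ} (h : ∀ x ∈ sq 0 (n * r), |u x| ≤ K) (i : sq 0 n) :
    |avg n r u i| ≤ K := by
  have h0 : (0 : ℝ) < r := by exact_mod_cast hr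
  rw [avg, abs_div, abs_of_nonneg (sq_nonneg (r : ℝ)), div_le_iff₀ (by positivity)]
  refine (Finset.abs_sum_le_sum_abs _ _).trans ((Finset.sum_le_card_nsmul _ _ K fun x hx =>
    h x (tile_subset 0 r i.2 hx)).trans_eq ?_)
  rw [card_sq, nsmul_eq_mul]
  push_cast
  ring

/-- isometric embedding of the block space -/
noncomputable def up (hr : 0 < r) (v : sq 0 n → ℝ) (x : sq 0 (n * r)) : ℝ := v (bk hr x) / r

theorem up_dot (hr : 0 < r) (v w : sq 0 n → ℝ) : up hr v ⬝ᵥ up hr w = v ⬝ᵥ w := by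
  have h := sum_lift hr v fun x => ext w (tileOf 0 r x)
  rw [avg_ext hr, ← Finset.sum_coe_sort] at h
  rw [← h]
  refine Finset.sum_congr rfl fun x _ => ?_
  rw [lift, ext_bk hr, ext_bk hr, up, up]
  ring

/-- normalised block sums -/
noncomputable def SS (n : ℕ) (hr : 0 < r) : Matrix (sq 0 n) (sq 0 (n * r)) ℝ :=
  Matrix.of fun i => up hr (Pi.single i 1)

theorem dot_SS (hr : 0 < r) (v : sq 0 n → ℝ) (ξ : sq 0 (n * r) → ℝ) :
    v ⬝ᵥ (SS n hr *ᵥ ξ) = up hr v ⬝ᵥ ξ := by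
  rw [dotProduct_mulVec]
  congr 1
  funext x
  simp [vecMul, dotProduct, SS, up, Pi.single_apply, div_eq_mul_inv]

theorem mp_SS (hr : 0 < r) : MeasurePreserving (fun ξ => SS n hr *ᵥ ξ)
    (Gs.gm (1 : Matrix (sq 0 (n * r)) (sq 0 (n * r)) ℝ)) (Gs.gm (1 : Matrix (sq 0 n) (sq 0 n) ℝ)) := by
  refine ⟨Gs.meas_mulVec _, ?_⟩
  rw [Gs.map_mulVec PosSemidef.one, Matrix.mul_one]
  congr 1
  ext i j
  have := up_dot hr (Pi.single i 1) (Pi.single j 1 : sq 0 n → ℝ)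
  rw [single_dotProduct, one_mul, Pi.single_apply] at this
  rw [Matrix.one_apply, ← this]
  rfl

end blocks

theorem core (F : Fa) (θ₀ K ε W : ℝ) (n : ℕ) (hn : 0 < n) (hθ₀ : 0 < θ₀) (hε : 0 < ε) (hW : 0 < W) :
    ∃ K' ε₁ : ℝ, 1 ≤ K' ∧ 0 < ε₁ ∧ ∀ Λ, F.Mem Λ → ∀ (r L : ℕ) (θ : ℝ), 0 < r → L = n * r → θ₀ ≤ θ →
    ∀ (u : Pt → ℝ) (G : (sq 0 L → ℝ) → ℝ), (∀ x ∈ sq 0 L, |u x| ≤ K) → Sm2 u K L →
    Λ.Stein L θ u K' ε₁ → Per G →
    |E2 (Λ.WN L) (sq 0 L) fun s ξ => res ((W / L) ^ 2) (Plo r u) (θ⁻¹ • Λ.X L u) s ξ *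
      G (obs ((W / L) ^ 2) (Plo r fun z => (s z : ℝ)) ξ)| ≤ ε := by
  obtain ⟨CE, hCE⟩ := rjStmt F
  haveI : Nonempty (sq 0 n) := ⟨⟨0, self_mem_sq 0 hn⟩⟩
  have hn0 : (1 : ℝ) ≤ n := by exact_mod_cast hn
  set α : ℝ := W / n with hα
  set C : ℝ := 1 + |K| + 2 * Real.exp (α ^ 2 * (dd (sq 0 n) * K ^ 2) / 2) +
    θ₀⁻¹ ^ 2 * (|CE| * K ^ 2) + |F.τ₂| * (2 * (n : ℝ) ^ 4) with hC
  have c1 : 0 ≤ |K| := abs_nonneg _
  have c2 : 0 ≤ 2 * Real.exp (α ^ 2 * (dd (sq 0 n) * K ^ 2) / 2) := by positivity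
  have c3 : 0 ≤ θ₀⁻¹ ^ 2 * (|CE| * K ^ 2) := by positivity
  have c4 : 0 ≤ |F.τ₂| * (2 * (n : ℝ) ^ 4) := by positivity
  obtain ⟨T, ε₁, hT, hε₁, H⟩ := main (sq 0 n) α (C := C) (by linarith) hε
  have hTn : T ≤ T * n ^ 2 := le_mul_of_one_le_right (by linarith) (one_le_pow₀ hn0)
  refine ⟨100 * (T * n ^ 2), θ₀ * ε₁, by linarith, by positivity, ?_⟩
  rintro Λ hΛ r L θ hr rfl hθ u G hu hsm hst ⟨mG, bG, pG⟩
  have ok : Λ.Ok := ⟨hΛ.1 ▸ F.adm, F.pos.trans_le hΛ.2.2.1⟩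
  have hL : 1 ≤ n * r := Nat.mul_pos hn hr
  have hr0 : (0 : ℝ) < r := by exact_mod_cast hr
  have hL1 : (1 : ℝ) ≤ (n * r : ℕ) := by exact_mod_cast hL
  have hθ0 := hθ₀.trans_le hθ
  have cen := ok.cen_WN hL
  haveI := law_prob cen.wt
  set μ : ℝ := (W / (n * r : ℕ)) ^ 2 with hμ
  have hs : Real.sqrt μ = α / r := by
    rw [hμ, Real.sqrt_sq (by positivity), hα]; push_cast; field_simp
  have hα0 : 0 < α := by positivity
  set P := Gs.gm (1 : Matrix (sq 0 (n * r)) (sq 0 (n * r)) ℝ) with hP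
  set m := avg n r u with hm
  set a := α • up hr m with ha
  set Gv : (sq 0 n → ℝ) → (sq 0 (n * r) → ℝ) → ℝ :=
    fun v ξ => G fun x => v (bk hr x) + ξ x / Real.sqrt μ with hGv
  have mGv : ∀ v, Measurable (Gv v) := fun v => mG.comp (by fun_prop)
  have bGv : ∀ v ξ, |Gv v ξ| ≤ 1 := fun v ξ => bG _
  have sh : ∀ v w ξ, Gv (v + w) ξ = Gv v (ξ + α • up hr w) := fun v w ξ => by
    simp only [hGv, Pi.add_apply, Pi.smul_apply, smul_eq_mul, up, hs]
    congr 1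
    funext x
    field_simp
    ring
  have hmK : ∀ i, |m i| ≤ K := abs_avg hr hu
  have key := H _ P (fun ξ => SS n hr *ᵥ ξ) (Gv 0) (fun v => ∫ ξ, Gv v ξ ∂P)
    (fun v => ∫ ξ, a ⬝ᵥ ξ * Gv v ξ ∂P) m (Cfg Pt) (law (Λ.WN (n * r)))
    (fun s => avg n r fun z => (s z : ℝ)) (fun s => θ⁻¹ * Λ.X (n * r) u s) (mp_SS hr) (mGv 0)
    (bGv 0) (fun v => ?_) (fun k v => ?_) (fun v => ?_) (fun v => ?_)
    (fun i => (hmK i).trans (by linarith [le_abs_self K])) Measurable.of_discrete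
    Measurable.of_discrete Measurable.of_discrete Measurable.of_discrete
    ((law_integrable cen.wt).2 (cen.ig (((Tame.hom _).const_mul _).pow 2))) ?_ (fun i j => ?_) ?_
  · rw [St, law_integral cen.wt] at key
    refine le_trans (le_of_eq ?_) key
    unfold E2
    congr 2
    funext s
    have e : gs (sq 0 (n * r)) = P := Gs.gm_one.symm
    rw [e, ← integral_const_mul, ← integral_sub (int_dot a (mGv _) (bGv _)).1
      ((Gs.int_bdd (mGv _) (bGv _)).const_mul _)]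
    refine integral_congr_ae (Filter.Eventually.of_forall fun ξ => ?_)
    have e1 : Real.sqrt μ * ∑ x : sq 0 (n * r), Plo r u x * ξ x = a ⬝ᵥ ξ := by
      simp only [ha, dotProduct, Finset.mul_sum, plo_eq hr, Pi.smul_apply, up, smul_eq_mul, hs]
      exact Finset.sum_congr rfl fun x _ => by ring
    have e2 : G (obs μ (Plo r fun z => (s z : ℝ)) ξ) = Gv (avg n r fun z => (s z : ℝ)) ξ := by
      simp only [hGv, ← plo_eq hr]; rfl
    simp only [res, e1, e2, AddMonoidHom.smul_apply, smul_eq_mul]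
    ring
  · have e : ∀ ξ, Gv v ξ = Gv 0 (ξ + α • up hr v) := fun ξ => by rw [← sh, zero_add]
    simp only [e]
    rw [hP, cm]
    refine integral_congr_ae (Filter.Eventually.of_forall fun ξ => ?_)
    simp only [Gs.cmd, one_mulVec, smul_dotProduct, dotProduct_smul, dot_SS, up_dot]
  · have hp : Function.Periodic G 1 := pG
    refine integral_congr_ae (Filter.Eventually.of_forall fun ξ => ?_)
    simp only [hGv]
    rw [← hp.zsmul k fun x => v (bk hr x) + ξ x / Real.sqrt μ]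
    congr 1
    funext x
    simp [add_right_comm]
  · have e : ∀ (t : ℝ) ξ, Gv (v + t • m) ξ = Gv v (ξ + t • a) := fun t ξ => by
      rw [sh, ha]
      congr 2
      funext x
      simp only [Pi.smul_apply, up, smul_eq_mul]
      ring
    simp only [e]
    exact der_cm a (mGv v) (bGv v)
  · refine (int_dot a (mGv v) (bGv v)).2.trans ?_
    have h1 : m ⬝ᵥ m ≤ dd (sq 0 n) * K ^ 2 := by
      rw [← sum_cst]
      exact Finset.sum_le_sum fun i _ => by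
        rw [← pow_two, ← sq_abs]; exact pow_le_pow_left₀ (abs_nonneg _) (hmK i) 2
    have h2 : a ⬝ᵥ a ≤ α ^ 2 * (dd (sq 0 n) * K ^ 2) := by
      rw [ha, smul_dotProduct, dotProduct_smul, up_dot, smul_eq_mul, smul_eq_mul, ← mul_assoc,
        ← pow_two]
      exact mul_le_mul_of_nonneg_left h1 (sq_nonneg _)
    have h3 := Real.exp_le_exp.2 (div_le_div_of_nonneg_right h2 two_pos.le)
    linarith
  · have h1 := ok.vr_WN hL (ok.f2_Au (sq 0 (n * r)) u)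
    have h2 := ((hCE Λ hΛ 0 (n * r) (n * r)).2 u u K _ hL1 hsm hsm).2.2.1
    have h3 : ((n * r : ℕ) : ℝ) * (n * r : ℕ) / ((n * r : ℕ) : ℝ) ^ 2 = 1 := by field_simp
    rw [h3, mul_one] at h2
    rw [mul_div_cancel₀ _ ok.pos.ne', cen.Vr_eq] at h1
    have h4 : Λ.En (sq 0 (n * r)) u u ≤ |CE| * K ^ 2 :=
      ((le_abs_self _).trans h2).trans (mul_le_mul_of_nonneg_right (le_abs_self _) (sq_nonneg _))
    rw [law_integral cen.wt]
    simp only [mul_pow]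
    rw [Ex_const_mul]
    simp only [pow_two (Λ.X _ _ _)]
    have h5 : θ⁻¹ ^ 2 ≤ θ₀⁻¹ ^ 2 := by gcongr
    have h6 := mul_le_mul h5 (h1.trans h4)
      (by rw [← cen.Vr_eq]; exact cen.vr_nonneg _) (sq_nonneg _)
    exact h6.trans (by linarith)
  · set η : sq 0 n → ℝ := Pi.single i 1 - Pi.single j 1 with hη
    have e : ∀ s : Cfg Pt, avg n r (fun z => (s z : ℝ)) i - avg n r (fun z => (s z : ℝ)) j =
        pr (lift r η) s := fun s => by
      rw [pr_lift hr, hη, sub_dotProduct, single_dotProduct, single_dotProduct, one_mul, one_mul]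
    simp only [e]
    refine ⟨(law_integrable cen.wt).2 (cen.ig ((Tame.hom _).pow 2)), ?_⟩
    have h0 : ∀ k, |η k| ≤ 1 := fun k => by
      simp only [hη, Pi.sub_apply, Pi.single_apply]
      split_ifs <;> simp
    have h1 := ok.vr_WN hL (ok.r1_f2 (a := 0) (n₁ := n * r) (n₂ := n * r) (sup_lift hr η)
      ((sum_lift1 hr η).trans (by simp [hη, Finset.sum_sub_distrib])))
    have h2 : ∑ x ∈ rc 0 (n * r) (n * r), lift r η x ^ 2 ≤ ((n : ℝ) * r) ^ 2 * (1 / (r : ℝ) ^ 2) ^ 2 := by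
      refine (Finset.sum_le_card_nsmul _ _ ((1 / (r : ℝ) ^ 2) ^ 2) fun x _ => ?_).trans_eq ?_
      · rw [← sq_abs]; exact pow_le_pow_left₀ (abs_nonneg _) (abs_lift zero_le_one h0 x) 2
      · rw [show rc 0 (n * r) (n * r) = sq 0 (n * r) from rfl, card_sq, nsmul_eq_mul]
        push_cast
        ring
    rw [law_integral cen.wt]
    simp only [pow_two (pr _ _)]
    rw [← cen.Vr_eq]
    refine h1.trans (le_trans (mul_le_mul (hΛ.2.2.2.trans (le_abs_self _))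
      ((mul_le_mul_of_nonneg_left h2 (by positivity)).trans_eq
        (?_ : _ = 2 * (n : ℝ) ^ 4)) (by positivity) (abs_nonneg _)) (by linarith))
    push_cast
    field_simp
    ring
  · intro η q hq hqT hη φ
    have h0 : ∀ i, |η i| ≤ T := fun i => (Finset.single_le_sum (f := fun i => |η i|)
      (fun _ _ => abs_nonneg _) (Finset.mem_univ i)).trans hη
    have h1 := r1cStmt Λ (n * r) (T * n ^ 2) q (lift r η) 0 ok hL (sup_lift hr η)
      (fun x => (abs_lift (by linarith) h0 x).trans_eq (by push_cast; field_simp))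
      (fun d => by simp; positivity) (by rw [sum_lift1 hr, hq]; simp)
    have e0 : lift r η + side (n * r) 0 = lift r η := by funext x; simp [side]
    rw [e0] at h1
    have h2 := hst q _ (by linarith) h1
    rw [ip, sum_lift hr, ← hm] at h2
    rw [law_integral cen.wt]
    simp only [← pr_lift hr]
    set X := Λ.X (n * r) u
    set f := pr (lift r η)
    have e : (fun s => -(η ⬝ᵥ m) * Real.sin (f s - φ) - θ⁻¹ * X s * Real.cos (f s - φ)) =
        fun s => Real.cos φ * (-(η ⬝ᵥ m) * Real.sin (f s) - θ⁻¹ * X s * Real.cos (f s)) -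
          Real.sin φ * θ⁻¹ * (X s * Real.sin (f s) - θ * (η ⬝ᵥ m) * Real.cos (f s)) := by
      funext s
      rw [Real.sin_sub, Real.cos_sub]
      field_simp
      ring
    have t1 : Tame fun s => X s * Real.sin (f s) := (Tame.hom X).mul (Tame.sin _)
    have t2 : Tame fun s => θ * (η ⬝ᵥ m) * Real.cos (f s) := (Tame.cos _).const_mul _
    rw [e, Ex_sub (cen.ig ((((Tame.sin _).const_mul _).sub
      (((Tame.hom X).const_mul _).mul (Tame.cos _))).const_mul _))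
      (cen.ig ((t1.sub t2).const_mul _)), cen.ex_odd fun s => by simp; ring, zero_sub, abs_neg,
      Ex_const_mul, Ex_sub (cen.ig t1) (cen.ig t2), Ex_const_mul, abs_mul, abs_mul,
      abs_of_pos (inv_pos.2 hθ0)]
    calc _ ≤ 1 * θ₀⁻¹ * (θ₀ * ε₁) := mul_le_mul (mul_le_mul (Real.abs_sin_le_one _)
          (inv_anti₀ hθ₀ hθ) (by positivity) zero_le_one) h2 (abs_nonneg _) (by positivity)
      _ = ε₁ := by field_simp

end Lo21

/-- T3a, low modes -/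
theorem loStmt : LoStmt := by
  intro F θ₀ K ε a b hθ₀ hε
  obtain ⟨K', ε₁, h1, h2, H⟩ := Lo21.core F θ₀ K ε (2 ^ a) (2 ^ (a + b)) (by positivity) hθ₀ hε
    (by positivity)
  refine ⟨K', ε₁, h1, h2, fun Λ hΛ c θ hθ => ?_⟩
  exact H Λ hΛ (2 ^ c) _ θ (by positivity) (pow_add _ _ _) hθ

end Crest.Agent.T145
end

-- ▼ part T145/TLimA_87
section

/-!
# Row 145, module (b): the torus limit, part A (helper87)

Asymptotic upper and lower bounds `Up`, `Lo`; rescaled smooth periodic functions on the lattice torus.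
-/

set_option autoImplicit false

noncomputable section

namespace Crest.Agent.T145.TL87

open Finset Filter Topology Crest.ProbabilityR.HeightModel Tor27

section abs
variable {ι L : Type} [AddCommGroup L] [IsAddTorsionFree L] {𝓕 : Filter ι} {W : ι → L → ℝ}
  {X ν : ι → L →+ ℝ} {v : ι → ℝ} {C : ℝ}

/-- asymptotic Gaussian upper bound -/
def Up (𝓕 : Filter ι) (W : ι → L → ℝ) (X : ι → L →+ ℝ) (v : ι → ℝ) : Prop :=
  ∀ t ε : ℝ, 0 < ε → ∀ᶠ i in 𝓕, M (W i) (t • X i) ≤ t ^ 2 * v i / 2 + ε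

/-- asymptotic lower bound of the variance -/
def Lo (𝓕 : Filter ι) (W : ι → L → ℝ) (X : ι → L →+ ℝ) (v : ι → ℝ) : Prop :=
  ∀ ε : ℝ, 0 < ε → ∀ᶠ i in 𝓕, v i - ε ≤ Vr (W i) (X i) (X i)

omit [IsAddTorsionFree L] in
theorem Up.mono {𝓖 : Filter ι} (h : Up 𝓕 W X v) (hle : 𝓖 ≤ 𝓕) : Up 𝓖 W X v :=
  fun t ε hε => (h t ε hε).filter_mono hle

omit [IsAddTorsionFree L] in
theorem Up.add (hW : ∀ i, Cen (W i)) (hv : ∀ᶠ i in 𝓕, v i ≤ C) (hX : Up 𝓕 W X v)
    (hν : Up 𝓕 W ν fun _ => 0) : Up 𝓕 W (fun i => X i + ν i) v := fun t ε hε => by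
  obtain ⟨s, hs, hsε⟩ : ∃ s : ℝ, 0 < s ∧ s * (t ^ 2 * |C|) ≤ ε :=
    ⟨ε / (t ^ 2 * |C| + 1), by positivity, by
      rw [div_mul_eq_mul_div, div_le_iff₀ (by positivity)]; nlinarith⟩
  filter_upwards [hv, hX (t * (1 + s)) (ε / 2) (half_pos hε),
    hν (t * (1 + s) / s) (ε / 2) (half_pos hε)] with i h0 h1 h2
  have h3 := ((hW i).wt.convexOn_M (hW i).se).2 (Set.mem_univ ((t * (1 + s)) • X i))
    (Set.mem_univ ((t * (1 + s) / s) • ν i)) (by positivity : 0 ≤ 1 / (1 + s))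
    (by positivity : 0 ≤ s / (1 + s)) (by field_simp)
  rw [smul_smul, smul_smul, show 1 / (1 + s) * (t * (1 + s)) = t by field_simp,
    show s / (1 + s) * (t * (1 + s) / s) = t by field_simp, ← smul_add, smul_eq_mul,
    smul_eq_mul] at h3
  have h4 : 1 / (1 + s) * ((t * (1 + s)) ^ 2 * v i / 2 + ε / 2) +
      s / (1 + s) * ((t * (1 + s) / s) ^ 2 * 0 / 2 + ε / 2) =
      t ^ 2 * v i / 2 + s * (t ^ 2 * v i) / 2 + ε / 2 := by field_simp; ring
  have h5 := mul_le_mul_of_nonneg_left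
    (mul_le_mul_of_nonneg_left (h0.trans (le_abs_self C)) (sq_nonneg t)) hs.le
  have h6 := add_le_add (mul_le_mul_of_nonneg_left h1 (by positivity : 0 ≤ 1 / (1 + s)))
    (mul_le_mul_of_nonneg_left h2 (by positivity : 0 ≤ s / (1 + s)))
  linarith

theorem Up.vr (hW : ∀ i, Cen (W i)) (hX : Up 𝓕 W X v) {ε : ℝ} (hε : 0 < ε) :
    ∀ᶠ i in 𝓕, Vr (W i) (X i) (X i) ≤ v i + ε := by
  filter_upwards [hX 1 (ε / 2) (half_pos hε)] with i h
  have := (hW i).vr_le_M (X i)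
  rw [one_smul] at h
  linarith

theorem Lo.add (hW : ∀ i, Cen (W i)) (hv : ∀ᶠ i in 𝓕, v i ≤ C) (hX : Lo 𝓕 W X v)
    (hν : Up 𝓕 W ν fun _ => 0) : Lo 𝓕 W (fun i => X i + ν i) v := fun ε hε => by
  obtain ⟨s, hs, hs1, hsε⟩ : ∃ s : ℝ, 0 < s ∧ s ≤ 1 ∧ s * |C| ≤ ε / 3 :=
    ⟨ε / 3 / (|C| + ε / 3), by positivity, by
      rw [div_le_one (by positivity)]; linarith [abs_nonneg C], by
      rw [div_mul_eq_mul_div, div_le_iff₀ (by positivity)]; nlinarith⟩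
  filter_upwards [hv, hX (ε / 3) (by positivity), hν.vr hW (ε := s * (ε / 3)) (by positivity)]
    with i h0 h1 h2
  have hs' := (hW i).se
  have h3 := (hW i).wt.Vr_nonneg hs' (s • X i + ν i)
  have h4 := (hW i).wt.Vr_nonneg hs' (ν i)
  simp only [hs'.Vr_add_left, hs'.Vr_add_right, Vr_smul_left, Vr_smul_right,
    Vr_comm (W i) (ν i) (X i)] at h3 ⊢
  have h5 := mul_le_mul_of_nonneg_left (h0.trans (le_abs_self C)) hs.le
  have h6 := mul_le_mul_of_nonneg_left h1 (sub_nonneg.2 hs1)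
  have h7 : -(s * Vr (W i) (X i) (X i)) - ε / 3 ≤ 2 * Vr (W i) (X i) (ν i) :=
    le_of_mul_le_mul_left (by nlinarith) hs
  nlinarith

theorem tendsto_M (hW : ∀ i, Cen (W i)) (hU : Up 𝓕 W X v) (hL : Lo 𝓕 W X v) {a : ℝ}
    (hv : Tendsto v 𝓕 (𝓝 a)) : Tendsto (fun i => M (W i) (X i)) 𝓕 (𝓝 (a / 2)) := by
  refine Metric.tendsto_nhds.2 fun ε hε => ?_
  filter_upwards [hU 1 (ε / 2) (half_pos hε), hL (ε / 2) (half_pos hε),
    Metric.tendsto_nhds.1 hv (ε / 2) (half_pos hε)] with i h1 h2 h3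
  have := (hW i).vr_le_M (X i)
  rw [one_smul] at h1
  rw [Real.dist_eq, abs_lt] at h3 ⊢
  constructor <;> linarith [h3.1, h3.2]

end abs

variable {Λ : Lat} {n : ℕ} {w : ℝ × ℝ → ℝ}

/-- the pinned torus -/
def WT (Λ : Lat) (n : ℕ) : Cfg Pt → ℝ := (Λ.T n).W 0

theorem small (hΛ : Λ.Ok) {f : ℕ → Pt → ℝ} {c : ℕ → ℝ} (hc : Tendsto c atTop (𝓝 0))
    (h : ∀ᶠ n in atTop, F2A (Λ.T n).ed (Λ.T n).A (f n) (c n)) :
    Up atTop (WT Λ) (fun n => pr (f n)) fun _ => 0 := fun t ε hε => by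
  have hg : Continuous fun x : ℝ => Λ.τ * (t ^ 2 * x) * Real.cosh (|t| * Real.sqrt x) / 2 := by
    fun_prop
  have h1 := (hg.tendsto 0).comp hc
  simp only [mul_zero, zero_mul, zero_div] at h1
  filter_upwards [h, h1.eventually (gt_mem_nhds hε)] with n h2 h3
  have := h2.M_smul_le hΛ.pos (hΛ.ctr_T n) (hΛ.anch_T n) Subset.rfl (fun _ _ => rfl) t
  simp only [Function.comp] at h3
  simp only [WT, mul_zero, zero_div, zero_add]
  exact this.trans h3.le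

/-- `A v` on the torus -/
def AT (Λ : Lat) (n : ℕ) (v : Pt → ℝ) : Pt → ℝ := dv (Λ.T n).ed fun e => (v e.2 - v e.1) / Λ.τ

/-- energy on the torus -/
def ET (Λ : Lat) (n : ℕ) (v : Pt → ℝ) : ℝ :=
  ∑ e ∈ (Λ.T n).ed, (v e.2 - v e.1) * (v e.2 - v e.1) / Λ.τ

/-- the rescaled function `w (x / n)` -/
def sc (n : ℕ) (w : ℝ × ℝ → ℝ) (x : Pt) : ℝ := w ((x.1 : ℝ) / n, (x.2 : ℝ) / n)

theorem AT_lin (a b : ℝ) (u v : Pt → ℝ) :
    AT Λ n (fun x => a * u x + b * v x) = a • AT Λ n u + b • AT Λ n v := by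
  rw [AT, AT, AT, ← dv_smul, ← dv_smul, ← dv_add]
  exact dv_congr fun e _ => by ring

theorem AT_smul (a : ℝ) (u : Pt → ℝ) : AT Λ n (fun x => a * u x) = a • AT Λ n u := by
  rw [AT, AT, ← dv_smul]
  exact dv_congr fun e _ => by ring

theorem ET_smul (a : ℝ) (u : Pt → ℝ) : ET Λ n (fun x => a * u x) = a ^ 2 * ET Λ n u := by
  rw [ET, ET, mul_sum]
  exact sum_congr rfl fun e _ => by ring

theorem ET_par (u v : Pt → ℝ) : ET Λ n (fun x => 1 * u x + 1 * v x) +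
    ET Λ n (fun x => 1 * u x + -1 * v x) = 2 * ET Λ n u + 2 * ET Λ n v := by
  simp only [ET, mul_sum, ← sum_add_distrib]
  exact sum_congr rfl fun e _ => by ring

theorem sum_AT (u : Pt → ℝ) : ∑ x ∈ sq 0 n, AT Λ n u x = 0 := sum_dv _ fun _ => Lat.T_ed_mem

theorem sum_T_tsh (v : Pt) (F : Pt × Pt → ℝ) :
    ∑ e ∈ (Λ.T n).ed, F e = ∑ e ∈ (Λ.T n).ed, F (tsh n v e.1, tsh n v e.2) := by
  have h : (Λ.T n).ed = (Λ.T n).ed.map ((tsh n v).prodCongr (tsh n v)).toEmbedding :=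
    (Lat.iso_T (Λ := Λ) n v ∅).2.1
  conv_lhs => rw [h, sum_map]
  rfl

theorem tsh_inv (hΛ : Λ.Ok) (hn : 0 < n) (v : Pt) {g g' : Pt → ℝ}
    (h : ∀ x ∈ sq 0 n, g' x = g (tsh n v x)) :
    Vr (WT Λ n) (pr (AT Λ n g')) (pr (AT Λ n g')) = Vr (WT Λ n) (pr (AT Λ n g)) (pr (AT Λ n g)) ∧
      ET Λ n g' = ET Λ n g := by
  have h1 : AT Λ n g' = fun x => AT Λ n g (tsh n v x) := funext fun x => by
    simp only [AT, dv]
    rw [sum_T_tsh v fun e => (g e.2 - g e.1) / Λ.τ * (ind (e.2 = tsh n v x) - ind (e.1 = tsh n v x))]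
    refine sum_congr rfl fun e he => ?_
    simp only [EmbeddingLike.apply_eq_iff_eq, h _ (Lat.T_ed_mem he).1, h _ (Lat.T_ed_mem he).2]
  refine ⟨by rw [h1]; exact hΛ.Vr_T hn v (sum_AT g) (sum_AT g), ?_⟩
  rw [ET, ET, sum_T_tsh v fun e => (g e.2 - g e.1) * (g e.2 - g e.1) / Λ.τ]
  exact sum_congr rfl fun e he => by rw [h _ (Lat.T_ed_mem he).1, h _ (Lat.T_ed_mem he).2]

theorem sc_add (x y : Pt) : sc n w (x + y) =
    w (((x.1 : ℝ) / n, (x.2 : ℝ) / n) + (1 / n : ℝ) • ((y.1 : ℝ), (y.2 : ℝ))) := by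
  rw [sc]; congr 1; ext <;> simp <;> ring

theorem sc_tsh (h : IsPeriodic w) (y : Pt) {x : Pt} (hx : x ∈ sq 0 n) :
    sc n w (tsh n y x) = sc n w (x + y) := by
  have hn : (n : ℝ) ≠ 0 := Nat.cast_ne_zero.2 (pos_of_mem_sq hx).ne'
  have key : ∀ a : ℤ, (a : ℝ) / n = ((a % n : ℤ) : ℝ) / n + ((a / n : ℤ) : ℝ) := fun a => by
    have : ((a % n : ℤ) : ℝ) + n * ((a / n : ℤ) : ℝ) = a := by
      exact_mod_cast Int.emod_add_mul_ediv a n
    field_simp
    linarith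
  rw [tsh_apply, tshF_mem y hx, sc, sc, ← per_int h ((x.1 + y.1) / n) ((x.2 + y.2) / n)]
  congr 1
  exact Prod.ext (key _).symm (key _).symm

theorem sc_lf [NeZero n] (z : ZMod n × ZMod n) : sc n w (lf z) = w (pt z) := by
  simp [sc, lf, pt]

theorem tay11 (h : IsSmoothPeriodic w) (v v' : ℝ × ℝ) : ∃ K, 0 ≤ K ∧ ∀ p (s t : ℝ),
    |w (p + s • v + t • v') - w (p + t • v') - (w (p + s • v) - w p)| ≤ K * |s| * |t| := by
  obtain ⟨K, h0, hK⟩ := tay0 (sp_Dv h v') v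
  refine ⟨K, h0, fun p s t => mvt
    (φ := fun t => w (p + s • v + t • v') - w (p + t • v') - (w (p + s • v) - w p))
    (fun t => ((hasDerivAt_line h _ v' t).sub (hasDerivAt_line h p v' t)).sub_const _) (by simp)
    fun r _ => ?_⟩
  rw [add_right_comm]
  exact hK _ s

theorem sm2_sc (h : IsSmoothPeriodic w) : ∃ K : ℝ, 1 ≤ K ∧ ∀ n : ℕ, 0 < n → Sm2 (sc n w) K n := by
  choose K0 h0 hK0 using fun i : Fin 2 => tay0 h (((ev i).1 : ℝ), ((ev i).2 : ℝ))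
  choose K1 h1 hK1 using fun i j : Fin 2 =>
    tay11 h (((ev i).1 : ℝ), ((ev i).2 : ℝ)) (((ev j).1 : ℝ), ((ev j).2 : ℝ))
  have a0 : 0 ≤ ∑ i, K0 i := sum_nonneg fun i _ => h0 i
  have a1 : 0 ≤ ∑ p : Fin 2 × Fin 2, K1 p.1 p.2 := sum_nonneg fun p _ => h1 _ _
  refine ⟨1 + ∑ i, K0 i + ∑ p : Fin 2 × Fin 2, K1 p.1 p.2, by linarith, fun n hn => ?_⟩
  have hn' : (0 : ℝ) < n := by exact_mod_cast hn
  have e : |(1 / n : ℝ)| = 1 / n := abs_of_pos (by positivity)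
  refine ⟨fun i x => ?_, fun i j x => ?_⟩
  · have := hK0 i ((x.1 : ℝ) / n, (x.2 : ℝ) / n) (1 / n)
    rw [e, mul_one_div] at this
    rw [df, sc_add]
    refine this.trans (div_le_div_of_nonneg_right ?_ hn'.le)
    linarith [single_le_sum (fun i _ => h0 i) (mem_univ i)]
  · have := hK1 i j ((x.1 : ℝ) / n, (x.2 : ℝ) / n) (1 / n) (1 / n)
    rw [e, mul_assoc, div_mul_div_comm, mul_one, mul_one_div, ← pow_two] at this
    have e2 : sc n w (x + ev j + ev i) = w (((x.1 : ℝ) / n, (x.2 : ℝ) / n) +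
        (1 / n : ℝ) • (((ev i).1 : ℝ), ((ev i).2 : ℝ)) +
        (1 / n : ℝ) • (((ev j).1 : ℝ), ((ev j).2 : ℝ))) := by
      rw [sc]; congr 1; ext <;> simp <;> ring
    rw [df, df, df, e2, sc_add, sc_add]
    refine this.trans (div_le_div_of_nonneg_right ?_ (by positivity))
    linarith [single_le_sum (f := fun p : Fin 2 × Fin 2 => K1 p.1 p.2) (fun p _ => h1 _ _)
      (mem_univ (i, j))]

theorem Sm2.mono' {u : Pt → ℝ} {K K' L : ℝ} (h : Sm2 u K L) (hK : K ≤ K') (hL : 0 ≤ L) :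
    Sm2 u K' L :=
  ⟨fun i x => (h.1 i x).trans (div_le_div_of_nonneg_right hK hL),
    fun i j x => (h.2 i j x).trans (div_le_div_of_nonneg_right hK (sq_nonneg L))⟩

/-- the energy converges -/
theorem tendsto_ET (hΛ : Λ.Ok) (h : IsSmoothPeriodic w) :
    Tendsto (fun n => ET Λ n (sc n w)) atTop (𝓝 (Λ.e0 * en w)) := by
  obtain ⟨K, -, hK⟩ := energy_J hΛ.1 h
  rw [tendsto_iff_norm_sub_tendsto_zero]
  refine squeeze_zero' (Eventually.of_forall fun _ => norm_nonneg _)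
    (eventually_atTop.2 ⟨2 * Λ.rg + 1, fun n hn => ?_⟩)
    (tendsto_const_div_atTop_nhds_zero_nat (K / (2 * Λ.τ)))
  have : NeZero n := ⟨by omega⟩
  have hτ := hΛ.pos
  have e : ∑ x : ZMod n × ZMod n, ∑ y ∈ Λ.J, gr w ((y.1 : ZMod n), (y.2 : ZMod n)) x ^ 2 =
      2 * ∑ x : ZMod n × ZMod n, ∑ y ∈ Λ.Jp, gr w (cz n y) x ^ 2 := by
    refine (sum_congr rfl fun x _ => hΛ.sum_J fun y => gr w (cz n y) x ^ 2).trans ?_
    simp only [sum_add_distrib]
    rw [two_mul]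
    congr 1
    rw [sum_comm, sum_comm (s := univ)]
    refine sum_congr rfl fun y _ => (Fintype.sum_equiv (Equiv.addRight (cz n y)) _ _ fun x => ?_).symm
    simp only [gr, Equiv.coe_addRight, add_assoc, ← cz_add, add_neg_cancel,
      show cz n 0 = 0 by simp [cz, Prod.ext_iff], add_zero]
    ring
  have e2 : ET Λ n (sc n w) = (∑ x : ZMod n × ZMod n, ∑ y ∈ Λ.Jp, gr w (cz n y) x ^ 2) / Λ.τ := by
    rw [ET, sum_edges (by omega)]
    simp only [sc_lf, sum_div, gr, pow_two]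
  have h1 := hK n
  rw [e, mul_assoc 2, ← hΛ.a_eq, mul_assoc, ← mul_sub, abs_mul, abs_two] at h1
  rw [Real.norm_eq_abs, e2, Lat.e0, div_mul_eq_mul_div, ← sub_div, abs_div, abs_of_pos hτ,
    div_le_iff₀ hτ]
  calc _ ≤ K / n / 2 := by linarith
    _ = _ := by field_simp

theorem ET_bdd (hΛ : Λ.Ok) (h : IsSmoothPeriodic w) :
    ∀ᶠ n in atTop, ET Λ n (sc n w) ≤ |Λ.e0 * en w| + 1 :=
  ((tendsto_ET hΛ h).eventually (gt_mem_nhds (by linarith [le_abs_self (Λ.e0 * en w)]))).mono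
    fun _ => le_of_lt

/-- the edges across the seam carry little energy -/
theorem wrap (hΛ : Λ.Ok) (h : IsSmoothPeriodic w) : ∃ C : ℝ, ∀ n : ℕ, 0 < n →
    F2 (Λ.T n).ed (AT Λ n (sc n w) - Λ.Au (sq 0 n) (sc n w)) (C / n) := by
  obtain ⟨K, h0, hK⟩ := lip h
  have hτ := hΛ.pos
  refine ⟨4 * Λ.rg * Λ.Jp.card * (2 * K * Λ.rg / Λ.τ) ^ 2, fun n hn => ?_⟩
  have hn' : (0 : ℝ) < n := by exact_mod_cast hn
  have e : AT Λ n (sc n w) - Λ.Au (sq 0 n) (sc n w) =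
      dv ((Λ.T n).ed \ Λ.edI (sq 0 n)) fun e => (sc n w e.2 - sc n w e.1) / Λ.τ := by
    rw [AT, Lat.Au, sub_eq_iff_eq_add, dv_sdiff (Lat.edI_subset_T n)]
  have hf : Fs ((Λ.T n).ed \ Λ.edI (sq 0 n)) (AT Λ n (sc n w) - Λ.Au (sq 0 n) (sc n w))
      (2 * K * Λ.rg / Λ.τ / n) := ⟨_, e, fun e he => by
    obtain ⟨h1, y, hy, h2⟩ := Lat.mem_T_ed'.1 (mem_sdiff.1 he).1
    have h3 := Lat.le_rg (Lat.mem_Jp.1 hy).1
    have h4 : |(y.1 : ℝ)| ≤ Λ.rg := by exact_mod_cast h3.1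
    have h5 : |(y.2 : ℝ)| ≤ Λ.rg := by exact_mod_cast h3.2
    rw [h2, sc_tsh h.1 y h1, sc_add, abs_div, abs_of_pos hτ, div_right_comm]
    refine div_le_div_of_nonneg_right ((hK _ _).trans ?_) hτ.le
    simp only [Prod.fst_add, Prod.snd_add, Prod.smul_fst, Prod.smul_snd, add_sub_cancel_left,
      smul_eq_mul, abs_mul, abs_of_pos (one_div_pos.2 hn')]
    calc _ ≤ K * (1 / n * Λ.rg + 1 / n * Λ.rg) := by gcongr
      _ = _ := by ring⟩
  refine (hf.f2.subset sdiff_subset).mono ?_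
  have hs : (Λ.T n).ed \ Λ.edI (sq 0 n) ⊆
      (((sq 0 n).filter fun x => ¬ bl x Λ.rg ⊆ sq 0 n) ×ˢ Λ.Jp).image
        fun p => (p.1, tsh n p.2 p.1) := fun e he => by
    obtain ⟨he1, he2⟩ := mem_sdiff.1 he
    obtain ⟨h1, y, hy, h2⟩ := Lat.mem_T_ed'.1 he1
    refine mem_image.2 ⟨(e.1, y), mem_product.2 ⟨mem_filter.2 ⟨h1, fun hb => he2 ?_⟩, hy⟩,
      Prod.ext rfl h2.symm⟩
    have hD : ∀ x ∈ ({e.1} : Finset Pt), bl x Λ.rg ⊆ sq 0 n := fun x hx => mem_singleton.1 hx ▸ hb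
    exact Lat.edT_subset_edI hD (Lat.T_ed_touch hD he1 (Or.inl (mem_singleton_self _)))
  have h1 := (card_le_card hs).trans card_image_le
  rw [card_product] at h1
  have h2 := (Nat.cast_le (α := ℝ)).2 h1
  have h3 := (reg_rc 0 Λ.rg n (n₁ := n) (n₂ := n) (K := 1) le_rfl (by simp) (by simp)).2
  rw [← sq_eq_rc] at h3
  push_cast at h2
  calc _ ≤ (4 * 1 ^ 2 * Λ.rg * n * Λ.Jp.card) * (2 * K * Λ.rg / Λ.τ / n) ^ 2 := by
        gcongr
        exact h2.trans (by gcongr)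
    _ = _ := by field_simp

end Crest.Agent.T145.TL87
end
end

-- ▼ part T145/TLim_87

/-!
# Row 145, module (b): the torus limit of S0201, `TLimStmt` (helper87)
-/

set_option autoImplicit false

noncomputable section

namespace Crest.Agent.T145

open Finset Filter Topology Crest.ProbabilityR.HeightModel Tor27

namespace TL87

variable {Λ : Lat} {n : ℕ} {w : ℝ × ℝ → ℝ}

theorem sp_smul (h : IsSmoothPeriodic w) (a : ℝ) : IsSmoothPeriodic fun p => a * w p :=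
  sp_mul ⟨fun _ => ⟨rfl, rfl⟩, contDiff_const⟩ h

theorem cen (hΛ : Λ.Ok) (n : ℕ) : Cen (WT Λ n) := hΛ.cen_T n

theorem tI_nonneg (hm : T1mStmt) (hΛ : Λ.Ok) : 0 ≤ Λ.tI :=
  hΛ.gI_mul ▸ mul_nonneg (hm.1 Λ hΛ).2.1 hΛ.e0_pos.le

theorem ET_le (hΛ : Λ.Ok) (h : IsSmoothPeriodic w) {c : ℝ} (hc : 0 ≤ c) :
    ∀ᶠ n in atTop, c * ET Λ n (sc n w) ≤ c * (|Λ.e0 * en w| + 1) :=
  (ET_bdd hΛ h).mono fun _ h => mul_le_mul_of_nonneg_left h hc

/-- upper bound without the edges across the seam -/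
theorem up_D (hx : T1xStmt) (hm : T1mStmt) (hΛ : Λ.Ok) (h : IsSmoothPeriodic w) {ε : ℝ}
    (hε : 0 < ε) : ∀ᶠ n in atTop,
      M (WT Λ n) (pr (Λ.Au (sq 0 n) (sc n w))) ≤ Λ.tI * ET Λ n (sc n w) / 2 + ε := by
  obtain ⟨K, hK1, hK⟩ := sm2_sc h
  obtain ⟨δ, hδ, h1⟩ := hx (Λ.fa hΛ) (4 * K ^ 2) (ε / 2) (half_pos hε)
  obtain ⟨C, hC⟩ : ∃ C, C = |Λ.e0 * en w| + 1 := ⟨_, rfl⟩
  have hC0 : 0 < C := hC ▸ by positivity
  obtain ⟨l, h2, h3⟩ := ((ev_sep_atTop hδ).and ((hm.1 Λ hΛ).1.eventually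
    (gt_mem_nhds (lt_add_of_pos_right _ (div_pos hε hC0))))).exists
  filter_upwards [h2, ET_bdd hΛ h] with n h4 h5
  have hn := h4.L_pos'
  have hτ := hΛ.pos
  have hKn : (n : ℝ) ≤ K * n := le_mul_of_one_le_left hn.le hK1
  have h6 := h1 Λ (Lat.mem_fa hΛ) l n h4 (Λ.T n) (sq 0 n) (sc n w) (fun _ => 0) (hΛ.amb_T n)
    (reg_rc 0 l n hK1 hKn hKn) (Sm2.mono' (hK n h4.one_le_L) (by nlinarith) hn.le)
    fun _ _ => by rw [abs_zero]; positivity
  rw [dv_zero, pr_zero, add_zero] at h6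
  simp only [zero_mul, sum_const_zero, mul_zero, add_zero, ne_eq, OfNat.ofNat_ne_zero,
    not_false_eq_true, zero_pow] at h6
  have h7 : 0 ≤ Λ.En (sq 0 n) (sc n w) (sc n w) :=
    sum_nonneg fun _ _ => div_nonneg (mul_self_nonneg _) hτ.le
  have h8 : Λ.En (sq 0 n) (sc n w) (sc n w) ≤ ET Λ n (sc n w) :=
    sum_le_sum_of_subset_of_nonneg (Lat.edI_subset_T n) fun _ _ _ =>
      div_nonneg (mul_self_nonneg _) hτ.le
  have h9 := mul_le_mul_of_nonneg_left h8 (tI_nonneg hm hΛ)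
  have h10 := mul_le_mul_of_nonneg_left (h8.trans (hC ▸ h5)) (div_pos hε hC0).le
  rw [div_mul_cancel₀ _ hC0.ne'] at h10
  have h11 := mul_le_mul_of_nonneg_right h3.le h7
  change M ((Λ.T n).W 0) _ ≤ _
  nlinarith

theorem up_T (hx : T1xStmt) (hm : T1mStmt) (hΛ : Λ.Ok) (h : IsSmoothPeriodic w) :
    Up atTop (WT Λ) (fun n => pr (AT Λ n (sc n w))) fun n => Λ.tI * ET Λ n (sc n w) := by
  obtain ⟨C, hC⟩ := wrap hΛ h
  have h1 : Up atTop (WT Λ) (fun n => pr (Λ.Au (sq 0 n) (sc n w)))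
      fun n => Λ.tI * ET Λ n (sc n w) := fun t ε hε => by
    filter_upwards [up_D hx hm hΛ (sp_smul h t) hε] with n hn
    have e : Λ.Au (sq 0 n) (sc n fun p => t * w p) = t • Λ.Au (sq 0 n) (sc n w) := by
      rw [Lat.Au, Lat.Au, ← dv_smul]
      exact dv_congr fun e _ => by simp only [sc]; ring
    have e2 : ET Λ n (sc n fun p => t * w p) = t ^ 2 * ET Λ n (sc n w) := ET_smul t _
    rw [e, e2, pr_smul, mul_left_comm] at hn
    exact hn
  have h2 := h1.add (cen hΛ) (ET_le hΛ h (tI_nonneg hm hΛ))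
    (small hΛ (tendsto_const_div_atTop_nhds_zero_nat C)
      (eventually_atTop.2 ⟨1, fun n hn => (hC n hn).f2a _⟩))
  simpa only [← pr_add, add_sub_cancel] using h2

/-- dyadic sides -/
def dy : Filter ℕ := map (fun j : ℕ => 2 ^ j) atTop

theorem dy_le : dy ≤ atTop := tendsto_two_pow

/-- the lower bound holds for `w` -/
def G (Λ : Lat) (w : ℝ × ℝ → ℝ) : Prop :=
  Lo dy (WT Λ) (fun n => pr (AT Λ n (sc n w))) fun n => Λ.tI * ET Λ n (sc n w)

theorem G.add (hx : T1xStmt) (hm : T1mStmt) (hΛ : Λ.Ok) {w' : ℝ × ℝ → ℝ} (h : IsSmoothPeriodic w)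
    (h' : IsSmoothPeriodic w') (g : G Λ w) (g' : G Λ w') : G Λ fun p => 1 * w p + 1 * w' p :=
  fun ε hε => by
    filter_upwards [g (ε / 5) (by positivity), g' (ε / 5) (by positivity),
      ((up_T hx hm hΛ (sp_add (sp_smul h 1) (sp_smul h' (-1)))).mono dy_le).vr
        (cen hΛ) (ε := ε / 5) (by positivity)] with n h1 h2 h3
    have e : ∀ b : ℝ, (sc n fun p => 1 * w p + b * w' p) =
        fun x => 1 * sc n w x + b * sc n w' x := fun _ => rfl
    have h4 := congrArg (Λ.tI * ·) (ET_par (Λ := Λ) (n := n) (sc n w) (sc n w'))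
    have hs : SE (WT Λ n) := (hΛ.cen_T n).se
    simp only [e, AT_lin, pr_add, pr_smul, hs.Vr_add_left, hs.Vr_add_right, Vr_smul_left,
      Vr_smul_right] at h3 h4 ⊢
    linarith

theorem G.shift (hΛ : Λ.Ok) (h : IsPeriodic w) (c : Pt)
    (g : G Λ fun p => w (p + (1 / 2 : ℝ) • ((c.1 : ℝ), (c.2 : ℝ)))) : G Λ w := fun ε hε => by
  have h0 := g ε hε
  rw [dy, eventually_map] at h0 ⊢
  filter_upwards [h0, eventually_ge_atTop 1] with j h1 hj
  obtain ⟨j, rfl⟩ := Nat.exists_eq_add_of_le' hj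
  have h2 := tsh_inv hΛ (n := 2 ^ (j + 1)) (by positivity) (2 ^ j * c.1, 2 ^ j * c.2)
    (g := sc (2 ^ (j + 1)) w)
    (g' := sc (2 ^ (j + 1)) fun p => w (p + (1 / 2 : ℝ) • ((c.1 : ℝ), (c.2 : ℝ)))) fun x hx => by
      rw [sc_tsh h _ hx, sc_add, sc]
      congr 2
      ext <;> simp <;> field_simp <;> ring
  rwa [h2.1, h2.2] at h1

theorem trunc {u : Pt → ℝ} {K L : ℝ} {B : Finset Pt} (h : Sm2 u K L)
    (hB : ∀ x ∈ B, u x ≠ 0 → bl x 2 ⊆ B) : Sm2 (fun x => if x ∈ B then u x else 0) K L := by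
  have key : ∀ x y : Pt, y ∉ B → y ∈ bl x 2 → (if x ∈ B then u x else 0) = 0 := fun x y hy hxy => by
    split_ifs with hx
    · by_contra hu
      exact hy (hB x hx hu hxy)
    · rfl
  have all : ∀ x : Pt, (∀ y ∈ sq x 3, (if y ∈ B then u y else 0) = u y) ∨
      ∀ y ∈ sq x 3, (if y ∈ B then u y else 0) = 0 := fun x => by
    by_cases hs : sq x 3 ⊆ B
    · exact Or.inl fun y hy => if_pos (hs hy)
    · obtain ⟨z, hz, hz'⟩ := not_subset.1 hs
      exact Or.inr fun y hy => key y z hz' (by rw [mem_sq] at hy hz; rw [mem_bl]; omega)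
  have hK : 0 ≤ K / L := (abs_nonneg _).trans (h.1 0 0)
  have hK2 : 0 ≤ K / L ^ 2 := (abs_nonneg _).trans (h.2 0 0 0)
  have m : ∀ (x : Pt) (i j : Fin 2), x ∈ sq x 3 ∧ x + ev i ∈ sq x 3 ∧ x + ev j + ev i ∈ sq x 3 :=
    fun x i j => by
      simp only [mem_sq]
      fin_cases i <;> fin_cases j <;> simp [ev] <;> omega
  refine ⟨fun i x => ?_, fun i j x => ?_⟩
  · rcases all x with a | a <;> simp only [df, a _ (m x i i).1, a _ (m x i i).2.1]
    · exact h.1 i x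
    · simpa using hK
  · rcases all x with a | a <;>
      simp only [df, a _ (m x i j).1, a _ (m x i j).2.1, a _ (m x j i).2.1, a _ (m x i j).2.2]
    · exact h.2 i j x
    · simpa using hK2

theorem cos_lt {a : ℤ} (h0 : 0 ≤ a) (h1 : a < n)
    (h : Real.cos (2 * Real.pi * ((a : ℝ) / n)) < 1 / 2) : (n : ℤ) < 8 * a ∧ 8 * a < 7 * n := by
  have hn : (0 : ℝ) < n := by exact_mod_cast h0.trans_lt h1
  have key : ∀ t : ℝ, |t| ≤ 1 / 8 → 1 / 2 ≤ Real.cos (2 * Real.pi * t) := fun t ht => by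
    have h2 : |2 * Real.pi * t| ≤ 1 := by
      rw [abs_mul, abs_of_pos Real.two_pi_pos]
      nlinarith [Real.pi_le_four, Real.pi_pos, abs_nonneg t]
    have := Real.one_sub_sq_div_two_le_cos (x := 2 * Real.pi * t)
    nlinarith [abs_le.1 h2]
  have h0' : (0 : ℝ) ≤ a := by exact_mod_cast h0
  have h1' : (a : ℝ) < n := by exact_mod_cast h1
  constructor <;> by_contra! hc
  · have hc' : 8 * (a : ℝ) ≤ n := by exact_mod_cast hc
    refine h.not_ge (key _ ?_)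
    rw [abs_of_nonneg (by positivity), div_le_iff₀ hn]
    linarith
  · have hc' : 7 * (n : ℝ) ≤ 8 * a := by exact_mod_cast hc
    have h2 := key ((a - n) / n) (by
      rw [abs_div, abs_of_pos hn, div_le_iff₀ hn, abs_le]; constructor <;> linarith)
    rw [sub_div, div_self hn.ne', mul_sub, mul_one, Real.cos_sub_two_pi] at h2
    exact h.not_ge h2

/-- functions that vanish near the seams: the Dirichlet limit -/
theorem G.van (hD : DlgStmt) (hm : T1mStmt) (hΛ : Λ.Ok) (h0 : 0 < Λ.tI) (h : IsSmoothPeriodic w)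
    (h1 : ∀ p, 1 / 2 ≤ Real.cos (2 * Real.pi * p.1) → w p = 0)
    (h2 : ∀ p, 1 / 2 ≤ Real.cos (2 * Real.pi * p.2) → w p = 0) : G Λ w := fun ε hε => by
  obtain ⟨K, hK1, hK⟩ := sm2_sc h
  obtain ⟨C, hC⟩ : ∃ C, C = |Λ.e0 * en w| + 1 := ⟨_, rfl⟩
  have hC0 : 0 < C := hC ▸ by positivity
  obtain ⟨δ, l, -, hl, h3⟩ := Soft.exists_l hm hD hΛ h0 (K := 16 * K) (by linarith) (half_pos hε)
    (div_pos (half_pos hε) hC0)
  rw [dy, eventually_map]
  filter_upwards [h3, tendsto_two_pow.eventually (ET_bdd hΛ h),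
    tendsto_two_pow.eventually_ge_atTop (16 * Λ.rg + 16)] with j h4 h5 h6
  have h7 := h4.2
  generalize 2 ^ j = n at h5 h6 h7
  have hn : (0 : ℝ) < n := by exact_mod_cast (by omega : 0 < n)
  have hτ := hΛ.pos
  have key : ∀ x ∈ sq 0 n, sc n w x ≠ 0 → ∀ r s : ℕ, 8 * (r + s) ≤ n →
      ∀ y ∈ bl x r, bl y s ⊆ sq 0 n := fun x hx hw r s hrs y hy z hz => by
    have hx' := mem_sq0.1 hx
    have a1 := cos_lt hx'.1 hx'.2.1 (not_le.1 fun hc => hw (h1 _ hc))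
    have a2 := cos_lt hx'.2.2.1 hx'.2.2.2 (not_le.1 fun hc => hw (h2 _ hc))
    rw [mem_bl] at hy hz
    rw [mem_sq0]
    omega
  obtain ⟨D, hD'⟩ : ∃ D, D = (sq 0 n).filter fun x => bl x Λ.rg ⊆ sq 0 n := ⟨_, rfl⟩
  have hD1 : D ⊆ sq 0 n := hD' ▸ filter_subset _ _
  have hD2 : ∀ x ∈ D, bl x Λ.rg ⊆ sq 0 n := fun x hx => by
    rw [hD', mem_filter] at hx
    exact hx.2
  have hD3 : ∀ x ∈ sq 0 n, sc n w x ≠ 0 → ∀ r : ℕ, 16 * r ≤ n → bl x r ⊆ D :=
    fun x hx hw r hr y hy => by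
      have := key x hx hw r Λ.rg (by omega) y hy
      rw [hD', mem_filter]
      exact ⟨this (self_mem_bl _ _), this⟩
  have hE : Λ.edI D ⊆ (Λ.T n).ed := (Lat.edI_mono hD1).trans (Lat.edI_subset_T n)
  have hz : ∀ e ∈ (Λ.T n).ed, e ∉ Λ.edI D → sc n w e.2 - sc n w e.1 = 0 := fun e he he' => by
    have a : ∀ x ∈ sq 0 n, e.1 = x ∨ e.2 = x → sc n w x = 0 := fun x hx hex => by
      by_contra hw
      have b := hD3 x hx hw Λ.rg (by omega)
      refine he' (Lat.edT_subset_edI (D := {x}) (fun y hy => mem_singleton.1 hy ▸ b)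
        (Lat.T_ed_touch (fun y hy => mem_singleton.1 hy ▸ b.trans hD1) he ?_))
      simpa only [mem_singleton] using hex
    rw [a _ (Lat.T_ed_mem he).1 (Or.inl rfl), a _ (Lat.T_ed_mem he).2 (Or.inr rfl), sub_zero]
  obtain ⟨u, hu⟩ : ∃ u : Pt → ℝ, u = fun x => if x ∈ sq 0 n then sc n w x else 0 := ⟨_, rfl⟩
  have hu1 : ∀ e ∈ Λ.edI D, u e.2 - u e.1 = sc n w e.2 - sc n w e.1 := fun e he => by
    simp only [hu, if_pos (hD1 (Lat.mem_edI.1 he).2.1), if_pos (hD1 (Lat.mem_edI.1 he).2.2)]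
  have e1 : Λ.Au D u = AT Λ n (sc n w) :=
    (dv_congr fun e he => by rw [hu1 e he]).trans
      (dv_subset hE fun e he he' => by rw [hz e he he', zero_div])
  have e2 : Λ.En D u u = ET Λ n (sc n w) :=
    (sum_congr rfl fun e he => by rw [hu1 e he]).trans
      (sum_subset hE fun e he he' => by rw [hz e he he', zero_mul, zero_div])
  have h8 := (h7 (Λ.T n) D 0 u ⟨hΛ.ctr_T n, hΛ.anch_T n, hE, fun _ _ => rfl⟩ (hΛ.loc_D_T hD2)
    (hu ▸ trunc (Sm2.mono' (hK n (by omega)) (by linarith) hn.le) fun x hx hw =>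
      key x hx hw 0 2 (by omega) x (self_mem_bl _ _)) fun x hx => by
      have hx1 : x ∈ sq 0 n := by
        by_contra hc
        exact hx (by simp only [hu, if_neg hc])
      have hx2 : sc n w x ≠ 0 := by simpa only [hu, if_pos hx1] using hx
      have b1 : n ≤ ⌊16 * K * n⌋₊ := Nat.le_floor (by nlinarith)
      have b2 : (16 : ℝ) * ⌊(n : ℝ) / (16 * K)⌋₊ ≤ n := by
        have := Nat.floor_le (a := (n : ℝ) / (16 * K)) (by positivity)
        rw [le_div_iff₀ (by positivity)] at this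
        nlinarith [Nat.cast_nonneg (α := ℝ) ⌊(n : ℝ) / (16 * K)⌋₊]
      refine ⟨?_, hD3 x hx1 hx2 _ (by exact_mod_cast b2)⟩
      have := mem_sq0.1 hx1
      rw [mem_bl]
      simp only [Prod.fst_zero, Prod.snd_zero]
      omega).1
  rw [e1, e2] at h8
  have h9 : 0 ≤ ET Λ n (sc n w) := sum_nonneg fun _ _ => div_nonneg (mul_self_nonneg _) hτ.le
  have h10 := mul_le_mul_of_nonneg_left (hC ▸ h5 : ET Λ n (sc n w) ≤ C)
    (div_pos (half_pos hε) hC0).le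
  rw [div_mul_cancel₀ _ hC0.ne'] at h10
  have h11 := mul_le_mul_of_nonneg_right (abs_le.1 hl).1 h9
  change _ ≤ Vr ((Λ.T n).W 0) _ _
  nlinarith [(abs_le.1 h8).1]

/-- periodic cut-off: `0` near `ℤ`, `1` near `ℤ + 1 / 2` -/
def ch (t : ℝ) : ℝ := Real.smoothTransition (1 / 2 - Real.cos (2 * Real.pi * t))

theorem ch_add (t : ℝ) : ch (t + 1) = ch t := by
  rw [ch, ch, mul_add, mul_one, Real.cos_add_two_pi]

theorem ch_smooth : ContDiff ℝ (⊤ : ℕ∞) ch :=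
  Real.smoothTransition.contDiff.comp (by fun_prop)

theorem ch_zero {t : ℝ} (h : 1 / 2 ≤ Real.cos (2 * Real.pi * t)) : ch t = 0 :=
  Real.smoothTransition.zero_of_nonpos (by linarith)

theorem ch_one {t : ℝ} (h : 1 / 2 ≤ Real.cos (2 * Real.pi * t)) : ch (t + 1 / 2) = 1 :=
  Real.smoothTransition.one_of_one_le (by
    rw [mul_add, show 2 * Real.pi * (1 / 2) = Real.pi by ring, Real.cos_add_pi]; linarith)

theorem sp_ch1 (a b : ℝ) : IsSmoothPeriodic fun p => a + b * ch p.1 :=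
  ⟨fun _ => ⟨by simp [ch_add], by simp⟩,
    contDiff_const.add (contDiff_const.mul (ch_smooth.comp contDiff_fst))⟩

theorem sp_ch2 (a b : ℝ) : IsSmoothPeriodic fun p => a + b * ch p.2 :=
  ⟨fun _ => ⟨by simp, by simp [ch_add]⟩,
    contDiff_const.add (contDiff_const.mul (ch_smooth.comp contDiff_snd))⟩

theorem sp_shift (h : IsSmoothPeriodic w) (c : ℝ × ℝ) : IsSmoothPeriodic fun p => w (p + c) :=
  ⟨fun x => ⟨by simp only [add_right_comm x _ c, (h.1 _).1],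
    by simp only [add_right_comm x _ c, (h.1 _).2]⟩, h.2.comp (contDiff_id.add contDiff_const)⟩

theorem G.all (hx : T1xStmt) (hD : DlgStmt) (hm : T1mStmt) (hΛ : Λ.Ok) (h0 : 0 < Λ.tI)
    (h : IsSmoothPeriodic w) : G Λ w := by
  have step : ∀ w, IsSmoothPeriodic w →
      (∀ p, 1 / 2 ≤ Real.cos (2 * Real.pi * p.1) → w p = 0) → G Λ w := fun w h h1 => by
    have a := sp_mul (sp_ch2 0 1) h
    have b := sp_mul (sp_ch2 1 (-1)) h
    have := G.add hx hm hΛ a b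
      (G.van hD hm hΛ h0 a (fun p hp => by simp [h1 p hp]) fun p hp => by simp [ch_zero hp])
      (G.shift hΛ b.1 (0, 1) (G.van hD hm hΛ h0 (sp_shift b _)
        (fun p hp => mul_eq_zero_of_right _ (h1 _ (by simpa using hp)))
        fun p hp => mul_eq_zero_of_left (by have := ch_one hp; simp at this ⊢; linarith) _))
    convert this using 2 with p
    ring
  have a := sp_mul (sp_ch1 0 1) h
  have b := sp_mul (sp_ch1 1 (-1)) h
  have := G.add hx hm hΛ a b (step _ a fun p hp => by simp [ch_zero hp])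
    (G.shift hΛ b.1 (1, 0) (step _ (sp_shift b _)
      fun p hp => mul_eq_zero_of_left (by have := ch_one hp; simp at this ⊢; linarith) _))
  convert this using 2 with p
  ring

theorem Dv_lin {f g : ℝ × ℝ → ℝ} (hf : IsSmoothPeriodic f) (hg : IsSmoothPeriodic g) (a b : ℝ)
    (v q : ℝ × ℝ) : Dv v (fun p => a * f p + b * g p) q = a * Dv v f q + b * Dv v g q := by
  have h1 := ((hf.2.differentiable (by simp) q).hasFDerivAt.const_mul a).fun_add
    ((hg.2.differentiable (by simp) q).hasFDerivAt.const_mul b)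
  rw [Dv, h1.fderiv]
  simp [Dv]

theorem sum_Dv (hΛ : Λ.Ok) (h : IsSmoothPeriodic w) (q : ℝ × ℝ) :
    ∑ y ∈ Λ.Jp, Dv ((y.1 : ℝ), (y.2 : ℝ)) (Dv ((y.1 : ℝ), (y.2 : ℝ)) w) q =
      Λ.a * flatLaplacian w q := by
  have e : ∀ y : ℝ × ℝ, Dv y (Dv y w) q = y.1 ^ 2 * Dv (1, 0) (Dv (1, 0) w) q +
      y.2 ^ 2 * Dv (0, 1) (Dv (0, 1) w) q +
      y.1 * y.2 * (Dv (1, 0) (Dv (0, 1) w) q + Dv (0, 1) (Dv (1, 0) w) q) := fun y => by
    rw [Dv_eq, show Dv y w = _ from funext (Dv_eq w y), Dv_lin (sp_Dv h _) (sp_Dv h _),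
      Dv_lin (sp_Dv h _) (sp_Dv h _)]
    ring
  rw [sum_congr rfl fun y _ => e _]
  simp only [sum_add_distrib, ← sum_mul, hΛ.sum_mixed]
  rw [lap_eq h, ← hΛ.a_eq_snd, ← Lat.a]
  ring

theorem AT_lf [NeZero n] (hn : 2 * Λ.rg < n) (z : ZMod n × ZMod n) : AT Λ n (sc n w) (lf z) =
    (∑ y ∈ Λ.Jp, (gr w (cz n y) (z - cz n y) - gr w (cz n y) z)) / Λ.τ := by
  have inj : ∀ a b : ZMod n × ZMod n, lf a = lf b ↔ a = b := fun a b =>
    ⟨fun h => by rw [← cz_lf a, h, cz_lf], fun h => h ▸ rfl⟩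
  rw [AT, dv, sum_edges hn, sum_comm, sum_div]
  refine sum_congr rfl fun y _ => ?_
  simp only [sc_lf, inj, ← eq_sub_iff_add_eq, ind_eq_ite, mul_sub, mul_ite, mul_one, mul_zero,
    sum_sub_distrib, sum_ite_eq', mem_univ, if_true, gr, sub_div]

/-- the force of the statement is `A û` up to a small flow -/
theorem rest (hΛ : Λ.Ok) (h : IsSmoothPeriodic w) : ∃ C : ℝ, ∀ n : ℕ, 2 * Λ.rg < n →
    F2A (Λ.T n).ed (Λ.T n).A (torF n (fun p => -flatLaplacian w p) -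
      AT Λ n (sc n fun p => 2 * Real.pi / Λ.e0 * w p)) (C / n) := by
  choose K h0 hK using fun y : Pt => gr_tay h y.1 y.2
  obtain ⟨C, hC⟩ : ∃ C, C = 2 * Real.pi / Λ.a * ∑ y ∈ Λ.Jp, K y := ⟨_, rfl⟩
  refine ⟨8 * C ^ 2, fun n hn => ?_⟩
  have : NeZero n := ⟨by omega⟩
  have hn0 := npos (n := n)
  have hn1 : (1 : ℝ) ≤ n := by exact_mod_cast NeZero.pos n
  have ha := hΛ.a_pos
  have hτ := hΛ.pos
  obtain ⟨g, hg⟩ : ∃ g, g = AT Λ n (sc n fun p => 2 * Real.pi / Λ.e0 * w p) := ⟨_, rfl⟩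
  have hg0 : ∑ z : ZMod n × ZMod n, g (lf z) = 0 := by rw [← sum_sq0, hg, sum_AT]
  have h1 : ∀ z : ZMod n × ZMod n,
      |2 * Real.pi * -flatLaplacian w (pt z) / (n : ℝ) ^ 2 - g (lf z)| ≤ C / n / (n : ℝ) ^ 2 :=
    fun z => by
      have e : 2 * Real.pi * -flatLaplacian w (pt z) / (n : ℝ) ^ 2 - g (lf z) =
          2 * Real.pi / Λ.a * ∑ y ∈ Λ.Jp, (gr w (cz n y) z - gr w (cz n y) (z - cz n y) -
            Dv ((y.1 : ℝ), (y.2 : ℝ)) (Dv ((y.1 : ℝ), (y.2 : ℝ)) w) (pt z) / (n : ℝ) ^ 2) := by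
        have e1 : g = (2 * Real.pi / Λ.e0) • AT Λ n (sc n w) := hg.trans (AT_smul _ _)
        rw [e1, Pi.smul_apply, AT_lf hn, smul_eq_mul, Lat.e0]
        simp only [sum_sub_distrib, ← sum_div, sum_Dv hΛ h]
        field_simp
        ring
      rw [e, abs_mul, abs_of_pos (by positivity), hC, div_div _ (n : ℝ), ← pow_succ',
        mul_div_assoc _ (∑ y ∈ Λ.Jp, K y), sum_div]
      exact mul_le_mul_of_nonneg_left
        ((abs_sum_le_sum_abs _ _).trans (sum_le_sum fun y _ => (hK y n z).2)) (by positivity)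
  have h2 := avg_le h1
  rw [sum_sub_distrib, hg0, sub_zero, ← sum_div, ← mul_sum] at h2
  have h3 : ∀ z : ZMod n × ZMod n, |torF n (fun p => -flatLaplacian w p) (lf z) - g (lf z)| ≤
      2 * (C / n / (n : ℝ) ^ 2) := fun z => by
    have b1 := abs_le.1 (h1 z)
    have b2 : |2 * Real.pi * (∑ y : ZMod n × ZMod n, -flatLaplacian w (pt y)) / (n : ℝ) ^ 2 /
        (n : ℝ) ^ 2| ≤ C / n / (n : ℝ) ^ 2 := by
      rw [abs_div, abs_of_pos (by positivity : (0 : ℝ) < (n : ℝ) ^ 2)]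
      gcongr
    rw [torF_lf, fn, sub_div, mul_sub, ← mul_div_assoc, ← mul_div_assoc, ← mul_div_assoc]
    rw [abs_le] at b2 ⊢
    constructor <;> linarith [b1.1, b1.2, b2.1, b2.2]
  obtain ⟨φ, h4, h5⟩ := (r1Stmt Λ 0 n n
    (fun x => if x ∈ sq 0 n then torF n (fun p => -flatLaplacian w p) x - g x else 0) hΛ
    (fun x hx => if_neg hx) (by
      rw [← sq_eq_rc, sum_congr rfl fun x hx => if_pos hx, sum_sq0, sum_sub_distrib, hg0]
      simp only [torF_lf, ← mul_sum, Tor27.sum_fn, mul_zero, sub_zero])).1.subset (Lat.edI_subset_T n)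
  refine ⟨φ, fun x hx => ?_, h5.trans ?_⟩
  · rw [← h4, ← hg]
    exact (if_pos (mem_of_mem_erase hx)).symm
  · have h6 := avg_le (n := n) (K := 4 * C ^ 2 / (n : ℝ) ^ 4) (a := fun z =>
      (torF n (fun p => -flatLaplacian w p) (lf z) - g (lf z)) ^ 2) fun z => by
        rw [abs_pow]
        exact (pow_le_pow_left₀ (abs_nonneg _) (h3 z) 2).trans_eq (by field_simp; ring)
    rw [← sq_eq_rc, sum_congr rfl fun x hx => by rw [if_pos hx], sum_sq0]
    calc _ ≤ ((n : ℝ) ^ 2 + (n : ℝ) ^ 2) * (4 * C ^ 2 / (n : ℝ) ^ 4) := by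
          gcongr
          exact (le_abs_self _).trans h6
      _ = 8 * C ^ 2 / n / n := by field_simp; ring
      _ ≤ _ := div_le_self (by positivity) hn1

/-- the torus limit for every lattice -/
theorem lim (hx : T1xStmt) (hD : DlgStmt) (hm : T1mStmt) (hΛ : Λ.Ok) (h0 : 0 < Λ.gI)
    (h : IsSmoothPeriodic w) :
    Tendsto (fun n => M (WT Λ n) (pr (torF n fun p => -flatLaplacian w p))) dy
      (𝓝 (2 * Real.pi ^ 2 * Λ.gI * en w)) := by
  have h1 := hΛ.gI_pos_iff.1 h0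
  have h2 := sp_smul h (2 * Real.pi / Λ.e0)
  obtain ⟨C, hC⟩ := rest hΛ h
  have hs := (small hΛ (tendsto_const_div_atTop_nhds_zero_nat C)
    (eventually_atTop.2 ⟨2 * Λ.rg + 1, hC⟩)).mono dy_le
  have hb := (ET_le hΛ h2 h1.le).filter_mono dy_le
  have hv : Tendsto (fun n => Λ.tI * ET Λ n (sc n fun p => 2 * Real.pi / Λ.e0 * w p)) dy
      (𝓝 (Λ.tI * ((2 * Real.pi / Λ.e0) ^ 2 * (Λ.e0 * en w)))) :=
    ((((tendsto_ET hΛ h).const_mul _).congr fun n => (ET_smul _ _).symm).const_mul _).mono_left dy_le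
  have h3 := tendsto_M (cen hΛ)
    (((up_T hx hm hΛ h2).mono dy_le).add (cen hΛ) hb hs)
    (Lo.add (cen hΛ) hb (G.all hx hD hm hΛ h1 h2) hs) hv
  simp only [← pr_add, add_sub_cancel] at h3
  have := hΛ.e0_pos
  rw [show Λ.tI * ((2 * Real.pi / Λ.e0) ^ 2 * (Λ.e0 * en w)) / 2 = 2 * Real.pi ^ 2 * Λ.gI * en w by
    rw [← hΛ.gI_mul]; field_simp] at h3
  exact h3

end TL87

open TL87 in
/-- **the torus limit of S0201** -/
theorem tLimStmt (hx : T1xStmt) (hD : DlgStmt) (hm : T1mStmt) : TLimStmt := fun J β hJ hβ h0 w h => by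
  have hΛ : (dg J β).Ok := ⟨hJ, div_pos (mul_pos hβ (card_J_pos hJ)) (by positivity)⟩
  have h1 := (lim hx hD hm hΛ h0 h).congr' (f₂ := fun n : ℕ =>
    Real.log (torusLaplace J β n fun x => -flatLaplacian w x)) (by
      filter_upwards [dy_le (eventually_gt_atTop (2 * interactionRange J))] with n hn
      exact (torStmt mdlStmt geoStmt J β hJ hβ n _ hn).symm)
  have := var_pos hJ
  rw [show 2 * Real.pi ^ 2 * (dg J β).gI * en w = 4 * Real.pi ^ 2 * varianceConst J * (dg J β).gI /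
    (2 * varianceConst J) * en w by field_simp; ring, dy, tendsto_map'_iff] at h1
  exact h1

end Crest.Agent.T145
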