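import Crest.Agent.T145.BrB_73
import Crest.Agent.T145.AFac_66
import Crest.Agent.T145.J_88_Mg
import Crest.Agent.T145.Dlg_74
import Crest.Agent.T145.Fac_45
import Crest.Agent.T145.GfSpr_80
import Crest.Agent.T145.Line_52
import Crest.Agent.T145.T2_89_Mg
import Crest.Agent.T145.RJ_57
import Crest.Agent.T145.Rgh_74
import Crest.Agent.T145.SecD_62_Mg
import Crest.Agent.T145.Step_29
import Crest.Agent.T145.T1m_23_Mg
import Crest.Agent.T145.T3b_50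
import Crest.Agent.T145.TLim_87_Mg
import Crest.Agent.T145.T1a_53
import Crest.Agent.T145.Ung_86_Mg
import Crest.Agent.T145.T5_11
import Crest.Agent.T145.MxDef_9
import Crest.Agent.T145.MxC_31
import Crest.Agent.T145.RJa_57
import Crest.Agent.T145.T3A_84
import Crest.Agent.T145.Route_51
import Crest.Agent.T145.MxAsm_9
import Crest.Agent.T145.MxUnf_15_Mg
import Crest.Agent.T145.MxRg_31
import Crest.Agent.T145.UvE_49
import Crest.Agent.T145.NcAll_78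
import Crest.Agent.T145.NcT4Def_78

-- ▼ part T145/AllB_55
section

/-!
# Row 145: module (b) chained (helper55)

Unconditional, except for `DlStmt` (argument `hD`, from the module Mx).
-/

set_option autoImplicit false

namespace Crest.Agent.T145.All

theorem br : BrStmt := brStmt
theorem sm : SmStmt := smStmt
theorem afac : AFacStmt := aFacStmt
theorem r1 : R1Stmt := r1Stmt
theorem r1c : R1cStmt := r1cStmt
theorem rj : RJStmt := rjStmt
theorem r2 : R2Stmt := r2Stmt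
theorem r3 : R3Stmt := r3Stmt
theorem apx : ApxStmt := apxStmt rj sm
theorem t1a : T1aStmt := t1aStmt r2
theorem t1d : T1dStmt := t1dStmt
theorem spr : SprStmt := sprStmt
theorem ung : UngStmt := ungStmt
theorem tb : TbStmt := tbStmt ung spr
theorem g1 : G1Stmt := g1Stmt tb spr
theorem jj : JStmt := jStmt
theorem flux : FluxStmt := fluxStmt
theorem vb : VbStmt := vbStmt r2 t1a
theorem pei : PeiStmt := peiStmt
theorem brg : BrgStmt := brgStmt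

theorem t1x : T1xStmt := t1xU
theorem t1g : T1gStmt := t1gU
theorem t1m : T1mStmt := t1mStmt t1x t1a t1d br
theorem t2 : T2Stmt := t2Stmt tb t1x t1a t1d t1m r2 afac br spr
theorem t2p : T2pStmt := t2pStmt t2 afac br
theorem fac : FacStmt := facStmt t2p afac t1x t1a br rj
theorem hi : HiStmt := hiStmt r1 br
theorem t3b : T3bStmt := t3bStmt sm
theorem sec : SecStmt := secStmt
theorem line : LineStmt := lineStmt br rj t1x
theorem g2 : G2Stmt := g2Stmt g1 line afac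
theorem step2 : Step2Stmt := step2Stmt sec flux vb t1a
theorem step : StepStmt := step2.step

theorem lo : LoStmt := loStmt
theorem t3a : T3aStmt := t3aStmt jj hi lo fac br t1m rj sm
theorem t3 : T3Stmt := t3Stmt t3a t3b jj t1x t1a t1m br rj r3 sm
theorem sd : SdStmt := sdStmt fac t3

theorem dlg_of (hD : DlStmt) : DlgStmt := dlgStmt br sm afac t1a t1x t1m hD
theorem gffD_of (hD : DlStmt) : GffDStmt := gffDStmt apx afac t1x (dlg_of hD) t1a br rj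
theorem rgh_of (hD : DlStmt) : RghStmt := rghStmt t1m (gffD_of hD)
theorem t5_of (hD : DlStmt) : T5Stmt := t5Stmt t1m t2 step g2 pei (rgh_of hD)
theorem t5A_of (hD : DlStmt) : T5AStmt := (t5_of hD).t5A
theorem tLim_of (hD : DlStmt) : TLimStmt := tLimStmt t1x (dlg_of hD) t1m

end Crest.Agent.T145.All
end

-- ▼ part T145/MxCell_53
section

/-!
# Row 145, module Mx: the bumps of the tiles (CEL) and the tiles hit by a long cluster (HIT) (helper53)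
-/

set_option autoImplicit false

namespace Crest.Agent.T145.Mx

open Finset

namespace C53

variable {Λ : Lat}

theorem mem_nb {ρ r : ℕ} {i x : Pt} : x ∈ nb ρ i r ↔
    (ρ * i.1 - r ≤ x.1 ∧ x.1 < ρ * i.1 + ρ + r) ∧ ρ * i.2 - r ≤ x.2 ∧ x.2 < ρ * i.2 + ρ + r := by
  rw [nb, mem_sq]; push_cast; omega

theorem nb_mono (ρ : ℕ) (i : Pt) {r r' : ℕ} (h : r ≤ r') : nb ρ i r ⊆ nb ρ i r' := fun x => by
  rw [mem_nb, mem_nb]; omega

theorem card_nb (ρ : ℕ) (i : Pt) (r : ℕ) : #(nb ρ i r) = (ρ + 2 * r) ^ 2 := card_sq _ _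

theorem mem_nb_tileOf {ρ : ℕ} (hρ : 0 < ρ) (z : Pt) : z ∈ nb ρ (tileOf 0 ρ z) 0 := by
  have := mem_sq.1 ((mem_tile_iff (a := 0) (x := z) hρ).2 rfl)
  simp only [tile, Prod.fst_zero, Prod.snd_zero, zero_add] at this
  rw [mem_nb]; omega

/-- `A u` at a point of the domain, as a sum over all steps -/
theorem Au_eq (h : Λ.Ok) {B : Finset Pt} (u : Pt → ℝ) {z : Pt} (hz : z ∈ B) :
    Λ.Au B u z = (∑ y ∈ Λ.J, ind (z + y ∈ B) * (u z - u (z + y))) / Λ.τ := by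
  rw [Lat.Au, RJ57.dv_edI, h.sum_J, sum_div]
  refine sum_congr rfl fun y _ => ?_
  rw [RJ57.gt, RJ57.gt, sub_add_cancel, ind_congr (and_iff_left hz), ind_congr (and_iff_right hz),
    ← sub_eq_add_neg]
  ring

/-- second order bound on `A u`, also at the boundary if the first order term vanishes -/
theorem abs_Au_le (h : Λ.Ok) {B : Finset Pt} {u : Pt → ℝ} {K L : ℝ} (hu : Sm2 u K L) {z : Pt}
    (hz : z ∈ B) (h0 : ∀ i, df i u z = 0 ∨ ∑ y ∈ Λ.J, ind (z + y ∈ B) * co i y = 0) :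
    |Λ.Au B u z| ≤ #Λ.J * (K / L ^ 2 * (2 * Λ.rg) ^ 2) / Λ.τ := by
  have hc : 0 ≤ K / L ^ 2 := (abs_nonneg _).trans (hu.2 0 0 0)
  have e : ∑ y ∈ Λ.J, ind (z + y ∈ B) * (u z - u (z + y)) =
      -∑ y ∈ Λ.J, ind (z + y ∈ B) * (u (z + y) - u z - ∑ i, df i u z * co i y) -
        ∑ i, df i u z * ∑ y ∈ Λ.J, ind (z + y ∈ B) * co i y := by
    simp only [Fin.sum_univ_two, mul_sum, ← sum_neg_distrib, ← sum_add_distrib, ← sum_sub_distrib]
    exact sum_congr rfl fun y _ => by ring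
  rw [Au_eq h u hz, e, sum_eq_zero (s := univ) fun i _ => mul_eq_zero.2 (h0 i), sub_zero, abs_div,
    abs_neg, abs_of_pos h.pos]
  refine div_le_div_of_nonneg_right ((abs_sum_le_sum_abs _ _).trans ?_) h.pos.le
  rw [← nsmul_eq_mul]
  refine sum_le_card_nsmul _ _ _ fun y hy => ?_
  have h1 := hu.taylor z (z + y)
  have h2 := Lat.le_rg hy
  have h3 : ∑ i, |co i y| ≤ 2 * Λ.rg := by
    have a1 : |(y.1 : ℝ)| ≤ Λ.rg := by exact_mod_cast h2.1
    have a2 : |(y.2 : ℝ)| ≤ Λ.rg := by exact_mod_cast h2.2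
    simp only [Fin.sum_univ_two, co, Matrix.cons_val_zero, Matrix.cons_val_one]
    linarith
  rw [add_sub_cancel_left] at h1
  rw [abs_mul]
  refine (mul_le_of_le_one_left (abs_nonneg _) (abs_ind_le _)).trans (h1.trans ?_)
  have : 0 ≤ ∑ i, |co i y| := by positivity
  gcongr

theorem sum_sym0 (h : Λ.Ok) {L : ℕ} {z : Pt} (h1 : (Λ.rg : ℤ) ≤ z.1) (h2 : z.1 + Λ.rg < L) :
    ∑ y ∈ Λ.J, ind (z + y ∈ sq 0 L) * co 0 y = 0 := by
  refine sum_involution (fun y _ => (-y.1, y.2)) (fun y hy => ?_) (fun y _ hy e => hy ?_)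
    (fun y hy => h.fl1 hy) fun y _ => by simp
  · have := abs_le.1 (Lat.le_rg hy).1
    rw [ind_congr (p := z + (-y.1, y.2) ∈ sq 0 L) (q := z + y ∈ sq 0 L) (by
      simp only [mem_sq0, Prod.fst_add, Prod.snd_add]; omega)]
    simp [co]
  · have : y.1 = 0 := by have := congrArg Prod.fst e; simp only at this; omega
    simp [co, this]

theorem sum_sym1 (h : Λ.Ok) {L : ℕ} {z : Pt} (h1 : (Λ.rg : ℤ) ≤ z.2) (h2 : z.2 + Λ.rg < L) :
    ∑ y ∈ Λ.J, ind (z + y ∈ sq 0 L) * co 1 y = 0 := by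
  refine sum_involution (fun y _ => (y.1, -y.2)) (fun y hy => ?_) (fun y _ hy e => hy ?_)
    (fun y hy => h.fl2 hy) fun y _ => by simp
  · have := abs_le.1 (Lat.le_rg hy).2
    rw [ind_congr (p := z + (y.1, -y.2) ∈ sq 0 L) (q := z + y ∈ sq 0 L) (by
      simp only [mem_sq0, Prod.fst_add, Prod.snd_add]; omega)]
    simp [co]
  · have : y.2 = 0 := by have := congrArg Prod.snd e; simp only at this; omega
    simp [co, this]

/-- the one-dimensional profile -/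
noncomputable def p1 (ρ : ℕ) (i t : ℤ) : ℝ :=
  plat ((ρ * i - ρ / 4) / (ρ / 8)) ((ρ * (i + 1) + ρ / 8 - 1) / (ρ / 8)) (t / (ρ / 8))

theorem ub_eq (ρ : ℕ) (i x : Pt) : ub ρ i x = p1 ρ i.1 x.1 * p1 ρ i.2 x.2 := rfl

theorem p1_one {k : ℕ} (hk : 0 < k) {i t : ℤ} (h1 : (8 * k : ℕ) * i - k ≤ t)
    (h2 : t < (8 * k : ℕ) * i + (8 * k : ℕ) + k) : p1 (8 * k) i t = 1 := by
  have a0 : (0 : ℝ) < k := by exact_mod_cast hk
  have a1 : (8 * k : ℝ) * i - k ≤ t := by exact_mod_cast h1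
  have a2 : (t : ℝ) + 1 ≤ 8 * k * i + 8 * k + k := by exact_mod_cast h2
  refine plat_one ?_ ?_ <;> push_cast
  · rw [div_add_one (by positivity)]; gcongr; linarith
  · gcongr; linarith

theorem p1_zero {k : ℕ} (hk : 0 < k) {i t : ℤ} (h : t ≤ (8 * k : ℕ) * i - 2 * k ∨
    (8 * k : ℕ) * i + (8 * k : ℕ) + 2 * k ≤ t + 1) : p1 (8 * k) i t = 0 := by
  have a0 : (1 : ℝ) ≤ k := by exact_mod_cast hk
  by_contra h0
  have h1 := plat_ne (div_le_div_of_nonneg_right (by push_cast; linarith) (by positivity)) h0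
  push_cast at h1
  rw [div_add_one (by positivity), div_lt_div_iff_of_pos_right (by positivity),
    div_lt_div_iff_of_pos_right (by positivity)] at h1
  rcases h with h | h
  · have : (t : ℝ) ≤ 8 * k * i - 2 * k := by exact_mod_cast h
    linarith [h1.1]
  · have : (8 * k : ℝ) * i + 8 * k + 2 * k ≤ t + 1 := by exact_mod_cast h
    linarith [h1.2]

/-- the profile is constant near the sides of the box -/
theorem p1_side {k P g : ℕ} (hk : 0 < k) (hg : g ≤ k) {i t : ℤ} (hi : 0 ≤ i) (hP : i < P)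
    (h0 : 0 ≤ t) (hL : t < (P * (8 * k) : ℕ)) (h : t < g ∨ (P * (8 * k) : ℕ) ≤ t + g) :
    p1 (8 * k) i (t + 1) = p1 (8 * k) i t := by
  have hk' : (0 : ℤ) ≤ (8 * k : ℕ) := by positivity
  rcases h with h | h
  · rcases hi.eq_or_lt with rfl | hi
    · rw [p1_one hk (by omega) (by omega), p1_one hk (by omega) (by omega)]
    · have := mul_le_mul_of_nonneg_left (show 1 ≤ i from hi) hk'
      rw [p1_zero hk (by omega), p1_zero hk (by omega)]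
  · rcases (show i + 1 ≤ P from hP).eq_or_lt with e | hP
    · have : ((P * (8 * k) : ℕ) : ℤ) = (8 * k : ℕ) * i + (8 * k : ℕ) := by
        rw [Nat.cast_mul P, ← e]; ring
      rw [p1_one hk (by omega) (by omega), p1_one hk (by omega) (by omega)]
    · have : ((8 * k : ℕ) : ℤ) * i + 2 * (8 * k : ℕ) ≤ (P * (8 * k) : ℕ) := by
        have := mul_le_mul_of_nonneg_left (show i + 2 ≤ P by omega) hk'
        rw [Nat.cast_mul P]; linarith
      rw [p1_zero hk (by omega), p1_zero hk (by omega)]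

theorem ub_one {k : ℕ} (hk : 0 < k) {i x : Pt} (hx : x ∈ nb (8 * k) i k) : ub (8 * k) i x = 1 := by
  rw [mem_nb] at hx
  rw [ub_eq, p1_one hk hx.1.1 hx.1.2, p1_one hk hx.2.1 hx.2.2, mul_one]

theorem ub_zero {k : ℕ} (hk : 0 < k) {i x : Pt} (hx : x ∉ nb (8 * k) i (2 * k)) :
    ub (8 * k) i x = 0 := by
  rw [mem_nb] at hx
  rw [ub_eq, mul_eq_zero]
  by_cases h : (8 * k : ℕ) * i.1 - (2 * k : ℕ) ≤ x.1 ∧ x.1 < (8 * k : ℕ) * i.1 + (8 * k : ℕ) + (2 * k : ℕ)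
  · exact Or.inr (p1_zero hk (by omega))
  · exact Or.inl (p1_zero hk (by omega))

theorem ub_sm2 {ρ : ℕ} (hρ : 0 < ρ) (i : Pt) : Sm2 (ub ρ i) (576 * 8 ^ 2) ρ :=
  bump_sm2' _ _ _ _ (by positivity) (by positivity) (by norm_num) (by linarith)

theorem ub_nonneg {ρ : ℕ} (hρ : 0 < ρ) (i x : Pt) : 0 ≤ ub ρ i x := by
  have : (1 : ℝ) ≤ ρ := by exact_mod_cast hρ
  exact bump_nonneg (by positivity) (by linarith) (by linarith) x

theorem Au_ub_zero (h : Λ.Ok) {k : ℕ} (hk : 0 < k) (hg : Λ.rg ≤ k) (B : Finset Pt) {i x : Pt}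
    (hx : ¬ (x ∈ nb (8 * k) i (4 * k) ∧ x ∈ B)) : Λ.Au B (ub (8 * k) i) x = 0 := by
  by_cases hB : x ∈ B
  · have hx' : x ∉ nb (8 * k) i (4 * k) := fun h => hx ⟨h, hB⟩
    rw [Au_eq h _ hB, sum_eq_zero fun y hy => ?_, zero_div]
    have h1 := Lat.le_rg hy
    rw [abs_le, abs_le] at h1
    rw [ub_zero hk fun h => hx' (nb_mono _ _ (by omega) h), ub_zero hk fun h => hx' ?_, sub_zero,
      mul_zero]
    rw [mem_nb] at h ⊢
    simp only [Prod.fst_add, Prod.snd_add] at h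
    omega
  · exact Λ.sup_Au _ _ x hB

theorem abs_Au_ub (h : Λ.Ok) {k P : ℕ} (hk : 0 < k) (hg : Λ.rg ≤ k) {i x : Pt} (hi : i ∈ sq 0 P)
    (hx : x ∈ sq 0 (P * (8 * k))) : |Λ.Au (sq 0 (P * (8 * k))) (ub (8 * k) i) x| ≤
      #Λ.J * (576 * 8 ^ 2 / ((8 * k : ℕ) : ℝ) ^ 2 * (2 * Λ.rg) ^ 2) / Λ.τ := by
  refine abs_Au_le h (ub_sm2 (by omega) i) hx (Fin.forall_fin_two.2 ⟨?_, ?_⟩) <;>
    rw [mem_sq0] at hi hx
  · by_cases hb : (Λ.rg : ℤ) ≤ x.1 ∧ x.1 + Λ.rg < (P * (8 * k) : ℕ)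
    · exact Or.inr (sum_sym0 h hb.1 hb.2)
    · refine Or.inl ?_
      have := p1_side hk hg hi.1 hi.2.1 hx.1 hx.2.1 (by omega)
      simp [df, ev, ub_eq, this]
  · by_cases hb : (Λ.rg : ℤ) ≤ x.2 ∧ x.2 + Λ.rg < (P * (8 * k) : ℕ)
    · exact Or.inr (sum_sym1 h hb.1 hb.2)
    · refine Or.inl ?_
      have := p1_side hk hg hi.2.2.1 hi.2.2.2 hx.2.2.1 hx.2.2.2 (by omega)
      simp [df, ev, ub_eq, this]

/-- tiles of one colour are far apart -/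
theorem nb_disjoint {ρ r r' : ℕ} (h : r + r' ≤ ρ) {i j : Pt} (hij : i ≠ j) (hc : cls i = cls j) :
    Disjoint (nb ρ i r) (nb ρ j r') := by
  have key : ∀ u v x : ℤ, u % 2 = v % 2 → ρ * u - r ≤ x → x < ρ * u + ρ + r → ρ * v - r' ≤ x →
      x < ρ * v + ρ + r' → u = v := fun u v x h0 h1 h2 h3 h4 => by
    by_contra hne
    rcases (show u + 2 ≤ v ∨ v + 2 ≤ u by omega) with h5 | h5 <;>
      have h6 := mul_le_mul_of_nonneg_left h5 (Int.natCast_nonneg ρ) <;>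
      rw [mul_add] at h6 <;> omega
  refine disjoint_left.2 fun x hi hj => hij ?_
  rw [mem_nb] at hi hj
  exact Prod.ext (key _ _ _ (congrArg Prod.fst hc) hi.1.1 hi.1.2 hj.1.1 hj.1.2)
    (key _ _ _ (congrArg Prod.snd hc) hi.2.1 hi.2.2 hj.2.1 hj.2.2)

/-- first exit from a set along a bond path -/
theorem exit {V : Type*} {ω : Finset (V × V)} {p : V → Prop} {x y : V} (h : Conn ω x y) (hx : p x)
    (hy : ¬ p y) : ∃ u v, Conn ω x v ∧ ((u, v) ∈ ω ∨ (v, u) ∈ ω) ∧ p u ∧ ¬ p v := by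
  induction h with
  | refl => exact absurd hx hy
  | @tail a b hxa hab ih =>
    by_cases ha : p a
    · exact ⟨a, b, hxa.tail hab, hab, ha, hy⟩
    · exact ih ha

theorem lip {d : Pt → ℝ} (hd : ∀ z z', |d z - d z'| ≤ max |co 0 (z - z')| |co 1 (z - z')|)
    {z z' : Pt} {c : ℤ} (h1 : |z.1 - z'.1| ≤ c) (h2 : |z.2 - z'.2| ≤ c) : |d z - d z'| ≤ c := by
  refine (hd z z').trans (max_le ?_ ?_)
  · simpa [co] using (by exact_mod_cast h1 : |(z.1 : ℝ) - z'.1| ≤ c)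
  · simpa [co] using (by exact_mod_cast h2 : |(z.2 : ℝ) - z'.2| ≤ c)

end C53

open C53

theorem celStmt : CelStmt := fun F => by
  obtain ⟨T, hT, hF⟩ := F.exists_bound
  obtain ⟨g, hg⟩ := exists_nat_ge T
  refine ⟨4 * (576 * 8 ^ 2 * 4 * T ^ 4), 8 * (g + 1), fun Λ hΛ ρ P hρ h8 i hi => ?_⟩
  obtain ⟨k, rfl⟩ := h8
  obtain ⟨-, b1, -, -, -, b2, b3, -⟩ := hF Λ hΛ
  have h := hΛ.ok
  have hk : 0 < k := by omega
  have hk' : (0 : ℝ) < (8 * k : ℕ) := by positivity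
  have hr : Λ.rg ≤ k := by
    have : Λ.rg ≤ g := by exact_mod_cast b2.trans hg
    omega
  have hT4 : 1 ≤ T ^ 4 := one_le_pow₀ hT
  have hA : ∀ x, |Λ.Au (sq 0 (P * (8 * k))) (ub (8 * k) i) x| ≤ 576 * 8 ^ 2 * 4 * T ^ 4 /
      ((8 * k : ℕ) : ℝ) ^ 2 * ind (x ∈ nb (8 * k) i (4 * k) ∧ x ∈ sq 0 (P * (8 * k))) := fun x => by
    by_cases hx : x ∈ nb (8 * k) i (4 * k) ∧ x ∈ sq 0 (P * (8 * k))
    · rw [ind_pos hx, mul_one]
      refine (abs_Au_ub h hk hr hi hx.2).trans ?_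
      rw [div_eq_mul_one_div _ Λ.τ]
      have := h.pos
      calc _ ≤ T * (576 * 8 ^ 2 / ((8 * k : ℕ) : ℝ) ^ 2 * (2 * T) ^ 2) * T := by gcongr
        _ = _ := by ring
    · rw [Au_ub_zero h hk hr _ hx, ind_neg hx, abs_zero, mul_zero]
  rw [show 8 * k / 8 = k by omega, show 8 * k / 4 = 2 * k by omega, show 8 * k / 2 = 4 * k by omega]
  refine ⟨(ub_sm2 (by omega) i).mono hk' (by linarith), fun x => ⟨ub_nonneg (by omega) i x, bump_le_one x⟩,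
    fun x => ub_one hk, fun x => ub_zero hk, fun x => (hA x).trans ?_, ?_, fun j _ hij hc => ⟨?_, ?_⟩⟩
  · exact mul_le_mul_of_nonneg_right (div_le_div_of_nonneg_right (by linarith) (by positivity))
      (ind_nonneg _)
  · rw [← Lat.ip_Au, ip]
    calc _ ≤ ∑ x ∈ sq 0 (P * (8 * k)), 576 * 8 ^ 2 * 4 * T ^ 4 / ((8 * k : ℕ) : ℝ) ^ 2 *
          ind (x ∈ nb (8 * k) i (4 * k)) := sum_le_sum fun x hx => by
          refine (le_abs_self _).trans ?_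
          rw [abs_mul, ← ind_congr (and_iff_left hx)]
          exact (mul_le_of_le_one_right (abs_nonneg _) (abs_bump_le x)).trans (hA x)
      _ ≤ 576 * 8 ^ 2 * 4 * T ^ 4 / ((8 * k : ℕ) : ℝ) ^ 2 * #(nb (8 * k) i (4 * k)) := by
          rw [← mul_sum]
          gcongr
          simp only [ind_eq_ite, sum_boole, Nat.cast_le]
          exact card_le_card fun x hx => (mem_filter.1 hx).2
      _ = _ := by rw [card_nb]; push_cast; field_simp; ring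
  · rw [← Lat.ip_Au]
    refine sum_eq_zero fun x _ => ?_
    by_cases hx : x ∈ nb (8 * k) i (4 * k)
    · rw [ub_zero hk (disjoint_left.1 (nb_disjoint (by omega) hij hc) hx), mul_zero]
    · rw [Au_ub_zero h hk hr _ fun h => hx h.1, zero_mul]
  · refine sum_eq_zero fun x _ => ?_
    by_cases hx : x ∈ nb (8 * k) i (2 * k)
    · rw [ub_zero hk (disjoint_left.1 (nb_disjoint (by omega) hij hc) hx), mul_zero]
    · rw [ub_zero hk hx, zero_mul]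

theorem hitStmt : HitStmt := fun Λ ρ P n d d₀ ω x y K h hr hd hω hxy hx hy hK => by
  have h1 := h.one_le_rg
  have hρ : 0 < ρ := by omega
  have hρ' : (2 : ℝ) ≤ ρ := by exact_mod_cast (by omega : 2 ≤ ρ)
  have hr' : (Λ.rg : ℝ) ≤ ρ / 2 := (Nat.cast_le.2 hr).trans Nat.cast_div_le
  have he : ∀ e ∈ ω, (|e.2.1 - e.1.1| ≤ Λ.rg ∧ |e.2.2 - e.1.2| ≤ Λ.rg) ∧
      e.1 ∈ sq 0 (P * ρ) ∧ e.2 ∈ sq 0 (P * ρ) := fun e he =>
    ⟨Lat.le_rg (Lat.mem_Jp.1 (Lat.mem_edI.1 (hω he)).1).1, (Lat.mem_edI.1 (hω he)).2⟩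
  have hz : ∀ k ∈ range (4 * n), ∃ z, Conn ω x z ∧ d₀ + 2 * ρ * (k + 1) ≤ d z ∧
      d z < d₀ + 2 * ρ * (k + 1) + Λ.rg ∧ z ∈ sq 0 (P * ρ) := fun k hk => by
    have hk' : (k : ℝ) ≤ 4 * n := by exact_mod_cast (mem_range.1 hk).le
    have : (0 : ℝ) < 2 * ρ * (k + 1) := by positivity
    obtain ⟨z, a1, -, a2, a3, e, a4, a5⟩ := Mx31.conn_mid (t := d₀ + 2 * ρ * (k + 1))
      (fun e h => by
        rw [abs_sub_comm]; exact_mod_cast lip hd (he e h).1.1 (he e h).1.2) hxy (by linarith)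
      (le_trans (by gcongr) hy)
    exact ⟨z, a1, a2, a3, a5.elim (fun e' => e' ▸ (he e a4).2.1) fun e' => e' ▸ (he e a4).2.2⟩
  choose! z z1 z2 z3 z4 using hz
  have hn : ∀ w, ∀ w' ∈ nb ρ (tileOf 0 ρ w) (ρ / 2), |d w' - d w| ≤ ρ + ρ / 2 - 1 := fun w w' hw => by
    have a1 := mem_nb_tileOf hρ w
    rw [mem_nb] at a1 hw
    have a2 := lip hd (z := w') (z' := w) (c := ρ + (ρ / 2 : ℕ) - 1) (abs_le.2 ⟨by omega, by omega⟩)
      (abs_le.2 ⟨by omega, by omega⟩)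
    have a3 : ((ρ / 2 : ℕ) : ℝ) ≤ ρ / 2 := Nat.cast_div_le
    rw [Int.cast_sub, Int.cast_add, Int.cast_natCast, Int.cast_natCast, Int.cast_one] at a2
    linarith
  have hinj : Set.InjOn (fun k => tileOf 0 ρ (z k)) (range (4 * n) : Finset ℕ) := by
    have key : ∀ k ∈ range (4 * n), ∀ k' ∈ range (4 * n), tileOf 0 ρ (z k) = tileOf 0 ρ (z k') →
        k' ≤ k := fun k hk k' hk' e => by
      by_contra hlt
      have a1 : (k : ℝ) + 1 ≤ k' := by exact_mod_cast not_le.1 hlt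
      have a2 := (abs_le.1 (hn (z k) (z k') (e ▸ nb_mono _ _ (Nat.zero_le _) (mem_nb_tileOf hρ _)))).2
      have a3 := mul_le_mul_of_nonneg_left a1 (by positivity : (0 : ℝ) ≤ 2 * ρ)
      linarith [z2 k' hk', z3 k hk]
    exact fun k hk k' hk' e => le_antisymm (key k' hk' k hk e.symm) (key k hk k' hk' e)
  obtain ⟨c, hc, hcard⟩ := exists_le_card_fiber_of_mul_le_card_of_maps_to
    (s := (range (4 * n)).image fun k => tileOf 0 ρ (z k)) (t := sq 0 2) (f := cls) (n := n)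
    (fun i _ => by rw [mem_sq0, cls]; simp only; omega) ⟨0, self_mem_sq _ two_pos⟩
    (by rw [card_image_of_injOn hinj, card_range, card_sq]; omega)
  refine ⟨c, hc, _, fun i hi => ?_, hcard, fun i hi => ?_⟩ <;>
    obtain ⟨k, hk, rfl⟩ := mem_image.1 (mem_filter.1 hi).1
  · exact (tileOf_mem hρ).2 (z4 k hk)
  have hk' : (k : ℝ) + 1 ≤ 4 * n := by exact_mod_cast mem_range.1 hk
  have a0 : (0 : ℝ) ≤ ρ * k := by positivity
  have a1 := mul_le_mul_of_nonneg_left hk' (by positivity : (0 : ℝ) ≤ 2 * ρ)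
  have hw : ∀ w ∈ nb ρ (tileOf 0 ρ (z k)) (ρ / 2), d₀ < d w ∧ d w ≤ d₀ + 2 * ρ * (4 * n + 1) :=
    fun w hw => by
      have := abs_le.1 (hn _ w hw)
      constructor <;> linarith [z2 k hk, z3 k hk]
  refine ⟨(mem_filter.1 hi).2, fun r hr => ?_, fun w h => ⟨(hw w h).1.le, (hw w h).2⟩⟩
  obtain ⟨u, v, b1, b2, b3, b4⟩ := exit (p := (· ∈ nb ρ (tileOf 0 ρ (z k)) r)) (z1 k hk).symm
    (nb_mono _ _ (Nat.zero_le _) (mem_nb_tileOf hρ _))
    fun h => (hw x (nb_mono _ _ (by omega) h)).1.not_ge hx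
  refine ⟨v, hK v ((z1 k hk).trans b1), b2.elim (fun h => (he _ h).2.2) fun h => (he _ h).2.1, ?_, b4⟩
  rw [mem_nb] at b3 ⊢
  rcases b2 with b2 | b2 <;> have := (he _ b2).1 <;> simp only [abs_le] at this <;> push_cast <;> omega

end Crest.Agent.T145.Mx
end

-- ▼ part T145/MxHit_58
section

/-!
# Row 145, module Mx: `rowStmt`, `tvStmt` (the variance gain of a hit cell) (helper58)
-/

set_option autoImplicit false

namespace Crest.Agent.T145.Mx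

open Finset

namespace Hit58


/-- at most one point in each column, or at most one point in each row -/
def Thin (P : Finset Pt) : Prop := Set.InjOn Prod.fst (P : Set Pt) ∨ Set.InjOn Prod.snd (P : Set Pt)

/-- `2 N` shells contain a thin set of `N` points -/
theorem thin_of_shells (d₁ d₂ : ℤ → ℤ) (p : Pt → Prop) (α : ℤ) (g N : ℕ)
    (h : ∀ j : ℕ, j < 2 * N → ∃ z : Pt, p z ∧ α + j * g < max (d₁ z.1) (d₂ z.2) ∧
      max (d₁ z.1) (d₂ z.2) ≤ α + j * g + g) :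
    ∃ P : Finset Pt, P.card = N ∧ Thin P ∧ ∀ z ∈ P, p z ∧ α < max (d₁ z.1) (d₂ z.2) ∧
      max (d₁ z.1) (d₂ z.2) ≤ α + 2 * N * g := by
  classical
  choose! z hz using h
  have sep : ∀ i j, i < 2 * N → j < 2 * N →
      max (d₁ (z i).1) (d₂ (z i).2) = max (d₁ (z j).1) (d₂ (z j).2) → i = j := by
    intro i j hi hj e
    have a := hz i hi
    have b := hz j hj
    by_contra hne
    rcases lt_or_gt_of_ne hne with hlt | hlt
    · have : ((i : ℤ) + 1) * g ≤ j * g := by gcongr; omega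
      linarith [a.2.2, b.2.1]
    · have : ((j : ℤ) + 1) * g ≤ i * g := by gcongr; omega
      linarith [b.2.2, a.2.1]
  have key : ∀ S ⊆ range (2 * N), N ≤ S.card → (∀ i ∈ S, ∀ j ∈ S, (z i).1 = (z j).1 → i = j) ∨
      (∀ i ∈ S, ∀ j ∈ S, (z i).2 = (z j).2 → i = j) →
      ∃ P : Finset Pt, P.card = N ∧ Thin P ∧ ∀ z ∈ P, p z ∧ α < max (d₁ z.1) (d₂ z.2) ∧
        max (d₁ z.1) (d₂ z.2) ≤ α + 2 * N * g := by
    intro S hS hN hinj
    obtain ⟨T, hT, hc⟩ := exists_subset_card_eq hN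
    refine ⟨T.image z, ?_, ?_, ?_⟩
    · rw [card_image_of_injOn, hc]
      intro i hi j hj e
      exact sep i j (mem_range.1 (hS (hT hi))) (mem_range.1 (hS (hT hj))) (by rw [e])
    · refine hinj.imp (fun hi => ?_) fun hi => ?_ <;>
      · intro x hx y hy e
        obtain ⟨i, hi', rfl⟩ := mem_image.1 hx
        obtain ⟨j, hj', rfl⟩ := mem_image.1 hy
        rw [hi i (hT hi') j (hT hj') e]
    · intro x hx
      obtain ⟨i, hi, rfl⟩ := mem_image.1 hx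
      have hi' := mem_range.1 (hS (hT hi))
      have a := hz i hi'
      have b : ((i : ℤ) + 1) * g ≤ 2 * N * g := by gcongr; omega
      have c : (0 : ℤ) ≤ i * g := by positivity
      exact ⟨a.1, by linarith [a.2.1], by linarith [a.2.2]⟩
  set S := (range (2 * N)).filter fun j => d₂ (z j).2 ≤ d₁ (z j).1 with hS
  set S' := (range (2 * N)).filter fun j => ¬ d₂ (z j).2 ≤ d₁ (z j).1 with hS'
  have hc : S.card + S'.card = 2 * N := by rw [hS, hS', card_filter_add_card_filter_not, card_range]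
  by_cases hN : N ≤ S.card
  · refine key S (filter_subset _ _) hN (Or.inl fun i hi j hj e => ?_)
    have a := mem_filter.1 hi
    have b := mem_filter.1 hj
    exact sep i j (mem_range.1 a.1) (mem_range.1 b.1) (by rw [max_eq_left a.2, max_eq_left b.2, e])
  · refine key S' (filter_subset _ _) (by omega) (Or.inr fun i hi j hj e => ?_)
    have a := mem_filter.1 hi
    have b := mem_filter.1 hj
    exact sep i j (mem_range.1 a.1) (mem_range.1 b.1) (by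
      rw [max_eq_right (not_le.1 a.2).le, max_eq_right (not_le.1 b.2).le, e])

/-- uniform density on `P` -/
noncomputable def un (P : Finset Pt) (x : Pt) : ℝ := ind (x ∈ P) / P.card

theorem un_nonneg (P : Finset Pt) (x : Pt) : 0 ≤ un P x :=
  div_nonneg (ind_nonneg _) (Nat.cast_nonneg _)

theorem sup_un (P : Finset Pt) : Sup P (un P) := fun x hx => by rw [un, ind_neg hx, zero_div]

theorem sum_un_mul {P B : Finset Pt} (h : P ⊆ B) (u : Pt → ℝ) :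
    ∑ x ∈ B, un P x * u x = (∑ x ∈ P, u x) / P.card := by
  rw [← sum_subset h fun x _ hx => by rw [sup_un P x hx, zero_mul], sum_div]
  exact sum_congr rfl fun x hx => by rw [un, ind_pos hx]; ring

theorem sum_un {P B : Finset Pt} (h : P ⊆ B) (hP : P.Nonempty) : ∑ x ∈ B, un P x = 1 := by
  have := sum_un_mul h fun _ => 1
  have hc : (P.card : ℝ) ≠ 0 := by exact_mod_cast hP.card_pos.ne'
  simpa [div_self hc] using this

theorem sum_un_le (P T : Finset Pt) {k : ℕ} (h : (T.filter (· ∈ P)).card ≤ k) :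
    ∑ x ∈ T, un P x ≤ k / P.card := by
  classical
  simp only [un, ← sum_div, ind_eq_ite, sum_boole]
  gcongr

/-- a thin set is routed to the uniform density -/
theorem fs_un {Λ : Lat} (hΛ : Λ.Ok) {a : Pt} {n : ℕ} {P : Finset Pt} (hP : P ⊆ sq a n)
    (hne : P.Nonempty) (ht : Thin P) :
    Fs (Λ.edI (sq a n)) (un P - un (sq a n)) (3 * (1 / P.card + 1 / n)) := by
  classical
  have hB : (sq a n).Nonempty := hne.mono hP
  have hn : 0 < n := by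
    obtain ⟨x, hx⟩ := hB
    rw [mem_sq] at hx; omega
  have hn' : (0 : ℝ) < n := by exact_mod_cast hn
  have hs : Sup (rc a n n) (un P - un (sq a n)) := fun x hx => by
    rw [Pi.sub_apply, sup_un P x fun h => hx (hP h), sup_un (sq a n) x hx, sub_self]
  have h0 : ∑ x ∈ rc a n n, (un P - un (sq a n)) x = 0 := by
    simp only [Pi.sub_apply, sum_sub_distrib]
    rw [← sq_eq_rc, sum_un hP hne, sum_un Subset.rfl hB, sub_self]
  have hcard : ((sq a n).card : ℝ) = n * n := by rw [sq_eq_rc, card_rc]; push_cast; ring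
  have key : ∀ T : Finset Pt, (T.filter (· ∈ P)).card ≤ 1 → T.card ≤ n →
      ∑ x ∈ T, |(un P - un (sq a n)) x| ≤ 1 / P.card + 1 / n := by
    intro T h1 h2
    have a1 := sum_un_le P T h1
    have a2 := sum_un_le (sq a n) T ((card_filter_le _ _).trans h2)
    rw [hcard] at a2
    have e : (n : ℝ) / (n * n) = 1 / n := by field_simp
    rw [e] at a2
    rw [Nat.cast_one] at a1
    refine le_trans (sum_le_sum fun x _ => ?_) ((sum_add_distrib).le.trans (add_le_add a1 a2))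
    refine (abs_sub _ _).trans ?_
    rw [abs_of_nonneg (un_nonneg _ _), abs_of_nonneg (un_nonneg _ _)]
  have e3 : ∀ c : ℝ, c * (2 + (n : ℝ) / n) = 3 * c := fun c => by rw [div_self hn'.ne']; ring
  rw [← e3]
  rcases ht with ht | ht
  · refine hΛ.r1_cols hs h0 fun t => key _ (card_le_one.2 fun x hx y hy => ?_) (card_col_le _ _ _ _)
    have a := mem_filter.1 hx
    have b := mem_filter.1 hy
    exact ht a.2 b.2 ((mem_filter.1 a.1).2.trans (mem_filter.1 b.1).2.symm)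
  · refine hΛ.r1_rows hs h0 fun t => key _ (card_le_one.2 fun x hx y hy => ?_) (card_row_le _ _ _ _)
    have a := mem_filter.1 hx
    have b := mem_filter.1 hy
    exact ht a.2 b.2 ((mem_filter.1 a.1).2.trans (mem_filter.1 b.1).2.symm)

/-- the set `p` meets, inside the cell `B`, every shell of width `g` between the levels `α` and `α + w` -/
def Meets (B : Finset Pt) (p : Pt → Prop) (d : Pt → ℤ) (g : ℕ) (α : ℤ) (w : ℕ) : Prop :=
  ∀ t, α ≤ t → t < α + w → ∃ z ∈ B, p z ∧ t < d z ∧ d z ≤ t + g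

theorem Meets.thin {B : Finset Pt} {p : Pt → Prop} {d₁ d₂ : ℤ → ℤ} {g w : ℕ} {α : ℤ}
    (h : Meets B p (fun x => max (d₁ x.1) (d₂ x.2)) g α w) (hg : 1 ≤ g) (hw : 2 * g ≤ w) :
    ∃ P : Finset Pt, P ⊆ B ∧ P.Nonempty ∧ (w : ℝ) ≤ 4 * g * P.card ∧ Thin P ∧
      ∀ z ∈ P, p z ∧ α < max (d₁ z.1) (d₂ z.2) ∧ max (d₁ z.1) (d₂ z.2) ≤ α + w := by
  set N := w / (2 * g) with hN
  have h1 : 1 ≤ N := (Nat.one_le_div_iff (by omega)).2 hw
  have h2 : N * (2 * g) ≤ w := Nat.div_mul_le_self _ _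
  have h3 : w < (N + 1) * (2 * g) := by
    rw [mul_comm]; exact Nat.lt_mul_div_succ _ (by omega)
  have h2' : 2 * (N : ℤ) * g ≤ w := by
    have : ((N * (2 * g) : ℕ) : ℤ) ≤ w := by exact_mod_cast h2
    push_cast at this; linarith
  obtain ⟨P, hc, ht, hP⟩ := thin_of_shells d₁ d₂ (fun z => z ∈ B ∧ p z) α g N fun j hj => by
    have a : ((j : ℤ) + 1) * g ≤ 2 * N * g := by gcongr; omega
    have b : (0 : ℤ) ≤ j * g := by positivity
    obtain ⟨z, hz, h4, h5, h6⟩ := h (α + j * g) (by linarith) (by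
      have : (1 : ℤ) ≤ g := by exact_mod_cast hg
      linarith)
    exact ⟨z, ⟨hz, h4⟩, h5, h6⟩
  refine ⟨P, fun z hz => (hP z hz).1.1, card_pos.1 (by omega), ?_, ht, fun z hz =>
    ⟨(hP z hz).1.2, (hP z hz).2.1, by linarith [(hP z hz).2.2]⟩⟩
  rw [hc]
  have : w ≤ 4 * g * N := by nlinarith
  exact_mod_cast this

/-- ROWS: a neutral charge on `p`, spread at the scale of the cell, that sees the jump of `u` -/
theorem rows {Λ : Lat} (hΛ : Λ.Ok) {a : Pt} {n g w M : ℕ} {p : Pt → Prop} {d₁ d₂ : ℤ → ℤ} {α β : ℤ}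
    (hg : 1 ≤ g) (hw : 2 * g ≤ w) (hM : n ≤ M * w)
    (h₁ : Meets (sq a n) p (fun x => max (d₁ x.1) (d₂ x.2)) g α w)
    (h₂ : Meets (sq a n) p (fun x => max (d₁ x.1) (d₂ x.2)) g β w) :
    ∃ η : Pt → ℝ, (∀ x, η x ≠ 0 → p x) ∧ Fs (Λ.edI (sq a n)) η (6 * (4 * g * M + 1) / n) ∧
      ∀ u : Pt → ℝ,
        (∀ x ∈ sq a n, α < max (d₁ x.1) (d₂ x.2) → max (d₁ x.1) (d₂ x.2) ≤ α + w → u x = 1) →
        (∀ x ∈ sq a n, β < max (d₁ x.1) (d₂ x.2) → max (d₁ x.1) (d₂ x.2) ≤ β + w → u x = 0) →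
        ip (sq a n) η u = 1 := by
  obtain ⟨P, hP, pne, pc, pt, pz⟩ := h₁.thin hg hw
  obtain ⟨Q, hQ, qne, qc, qt, qz⟩ := h₂.thin hg hw
  have hn : 0 < n := by
    obtain ⟨x, hx⟩ := pne.mono hP
    rw [mem_sq] at hx; omega
  have hn' : (0 : ℝ) < n := by exact_mod_cast hn
  have hM' : (n : ℝ) ≤ M * w := by exact_mod_cast hM
  have bd : ∀ R : Finset Pt, R.Nonempty → (w : ℝ) ≤ 4 * g * R.card →
      1 / (R.card : ℝ) ≤ 4 * g * M / n := fun R hR hc => by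
    have : (0 : ℝ) < R.card := by exact_mod_cast hR.card_pos
    rw [div_le_div_iff₀ this hn']
    have := mul_le_mul_of_nonneg_left hc (Nat.cast_nonneg M : (0 : ℝ) ≤ M)
    nlinarith
  refine ⟨un P - un Q, fun x hx => ?_, ?_, fun u h1 h0 => ?_⟩
  · by_cases h : x ∈ P
    · exact (pz x h).1
    · by_cases h' : x ∈ Q
      · exact (qz x h').1
      · exact absurd (by rw [Pi.sub_apply, sup_un P x h, sup_un Q x h', sub_self]) hx
  · refine (((fs_un hΛ hP pne pt).sub (fs_un hΛ hQ qne qt)).congr (by abel)).mono ?_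
    have := bd P pne pc
    have := bd Q qne qc
    have e : 6 * (4 * (g : ℝ) * M + 1) / n = 6 * (4 * g * M / n + 1 / n) := by ring
    rw [e]; linarith
  · have hc : (P.card : ℝ) ≠ 0 := by exact_mod_cast pne.card_pos.ne'
    simp only [ip, Pi.sub_apply, sub_mul, sum_sub_distrib]
    rw [sum_un_mul hP, sum_un_mul hQ, sum_congr rfl fun x hx => h1 x (hP hx) (pz x hx).2.1 (pz x hx).2.2,
      sum_congr rfl fun x hx => h0 x (hQ hx) (qz x hx).2.1 (qz x hx).2.2]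
    simp [div_self hc]

/-- forces on pinned sites are not seen -/
theorem vr_off {V : Type*} [DecidableEq V] (m : Mdl V) {f g : V → ℝ} (h : ∀ x ∈ m.A, f x = g x) :
    Vr (m.W 0) (pr f) (pr f) = Vr (m.W 0) (pr g) (pr g) := by
  have e : ∀ s, m.W 0 s ≠ 0 → pr f s = pr g s := fun s hs =>
    pr_congr fun x hx => h x (by_contra fun h' => hx (by simpa using Mdl.W_ne_zero hs h'))
  exact Vr_congr e e

theorem mem_nb {ρ r : ℕ} {i x : Pt} : x ∈ nb ρ i r ↔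
    max (max (ρ * i.1 - x.1) (x.1 - (ρ * i.1 + ρ - 1))) (max (ρ * i.2 - x.2) (x.2 - (ρ * i.2 + ρ - 1))) ≤ r := by
  rw [nb, mem_sq]
  simp only [max_le_iff]
  push_cast
  omega

/-- a square inside the box that contains the part of the cell inside the box -/
theorem exists_cell {ρ P : ℕ} {i : Pt} (hi : i ∈ sq 0 P) : ∃ (a : Pt) (n : ℕ), ρ ≤ n ∧ n ≤ 2 * ρ ∧
    sq a n ⊆ sq 0 (P * ρ) ∧ ∀ x ∈ sq 0 (P * ρ), x ∈ nb ρ i (ρ / 2) → x ∈ sq a n := by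
  rw [mem_sq] at hi
  simp only [Prod.fst_zero, Prod.snd_zero, zero_add] at hi
  have hP : 1 ≤ P := by omega
  have h0 : ρ ≤ P * ρ := Nat.le_mul_of_pos_left _ hP
  refine ⟨(max 0 (min (ρ * i.1 - (ρ / 2 : ℕ)) ((P * ρ : ℕ) - (min (2 * ρ) (P * ρ) : ℕ))),
    max 0 (min (ρ * i.2 - (ρ / 2 : ℕ)) ((P * ρ : ℕ) - (min (2 * ρ) (P * ρ) : ℕ)))),
    min (2 * ρ) (P * ρ), by omega, by omega, fun x => ?_, fun x => ?_⟩
  · simp only [mem_sq, Prod.fst_zero, Prod.snd_zero]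
    generalize P * ρ = N at *
    generalize (ρ : ℤ) * i.1 = A
    generalize (ρ : ℤ) * i.2 = B
    omega
  · simp only [nb, mem_sq, Prod.fst_zero, Prod.snd_zero]
    generalize P * ρ = N at *
    generalize (ρ : ℤ) * i.1 = A
    generalize (ρ : ℤ) * i.2 = B
    omega

theorem ms_ctr {Λ : Lat} (h : Λ.Ok) (B : Finset Pt) {μ : ℝ} (hμ : 0 < μ) : (ms Λ B μ).Ctr :=
  (h.ctr_N B).mulSite fun _ _ =>
    ⟨(gauStmt _ (inv_pos.2 hμ)).1.cen.toRSD, (gauStmt _ (inv_pos.2 hμ)).1.pd, gau_pos _ _⟩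

theorem ms_anch (Λ : Lat) (B : Finset Pt) {μ : ℝ} (hμ : 0 < μ) : (ms Λ B μ).Anch := fun x _ =>
  ⟨x, Relation.ReflTransGen.refl, Or.inr (by
    have : (ms Λ B μ).site x = gau μ⁻¹ := funext fun k => by simp [ms]
    rw [this]; exact (gauStmt _ (inv_pos.2 hμ)).1.cen.se)⟩

theorem pr_fu (Λ : Lat) (L : ℕ) (θ μ : ℝ) (u : Pt → ℝ) : pr (fu Λ L θ μ u) =
    Λ.X L (θ⁻¹ • u) + pr fun x => μ * (ind (x ∈ sq 0 L) * u x) := by
  rw [Lat.X, Lat.Au_smul, ← pr_add]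
  congr 1
  funext x
  simp only [fu, Pi.add_apply, Pi.smul_apply, smul_eq_mul]
  ring

theorem fu_sum {ι : Type*} (Λ : Lat) (L : ℕ) (θ μ : ℝ) (T : Finset ι) (z : ι → ℝ) (u : ι → Pt → ℝ) :
    pr (fu Λ L θ μ (∑ j ∈ T, z j • u j)) = zl T (fun j => pr (fu Λ L θ μ (u j))) z := by
  simp only [zl, ← pr_smul, ← pr_sum]
  congr 1
  funext x
  simp only [fu, Lat.Au_sum, Lat.Au_smul, Finset.sum_apply, Pi.smul_apply, smul_eq_mul, sum_div,
    mul_sum, ← sum_add_distrib]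
  exact sum_congr rfl fun j _ => by ring

theorem vu_sum {ι : Type*} (Λ : Lat) (L : ℕ) (θ μ : ℝ) (T : Finset ι) (z : ι → ℝ) (u : ι → Pt → ℝ)
    (h : ∀ i ∈ T, ∀ j ∈ T, i ≠ j → Λ.En (sq 0 L) (u i) (u j) = 0 ∧ ip (sq 0 L) (u i) (u j) = 0) :
    vu Λ L θ μ (∑ j ∈ T, z j • u j) = ∑ j ∈ T, vu Λ L θ μ (u j) * z j ^ 2 := by
  have key : ∀ {α : Type} (E : Finset α) (a : ι → α → ℝ) (c : ℝ),
      ∑ e ∈ E, (∑ j ∈ T, z j * a j e) * (∑ j ∈ T, z j * a j e) / c =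
        ∑ i ∈ T, ∑ j ∈ T, z i * z j * ∑ e ∈ E, a i e * a j e / c := by
    intro α E a c
    simp only [sum_mul_sum, sum_div]
    rw [sum_comm]
    refine sum_congr rfl fun i _ => ?_
    rw [sum_comm]
    refine sum_congr rfl fun j _ => ?_
    rw [mul_sum]
    exact sum_congr rfl fun e _ => by ring
  have e1 : Λ.En (sq 0 L) (∑ j ∈ T, z j • u j) (∑ j ∈ T, z j • u j) =
      ∑ i ∈ T, ∑ j ∈ T, z i * z j * Λ.En (sq 0 L) (u i) (u j) := by
    simp only [Lat.En, Finset.sum_apply, Pi.smul_apply, smul_eq_mul, ← sum_sub_distrib, ← mul_sub]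
    exact key (Λ.edI (sq 0 L)) (fun i (e : Pt × Pt) => u i e.2 - u i e.1) Λ.τ
  have e2 : ip (sq 0 L) (∑ j ∈ T, z j • u j) (∑ j ∈ T, z j • u j) =
      ∑ i ∈ T, ∑ j ∈ T, z i * z j * ip (sq 0 L) (u i) (u j) := by
    simp only [ip, Finset.sum_apply, Pi.smul_apply, smul_eq_mul]
    simpa only [div_one] using key (sq 0 L) u 1
  rw [vu, e1, e2, sum_div, mul_sum, ← sum_add_distrib]
  refine sum_congr rfl fun i hi => ?_
  rw [sum_eq_single_of_mem i hi fun j hj hne => by rw [(h i hi j hj hne.symm).1, mul_zero],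
    sum_eq_single_of_mem i hi fun j hj hne => by rw [(h i hi j hj hne.symm).2, mul_zero], vu]
  ring

theorem vu_nonneg {Λ : Lat} (h : Λ.Ok) (L : ℕ) {θ μ : ℝ} (hθ : 0 ≤ θ) (hμ : 0 ≤ μ) (u : Pt → ℝ) :
    0 ≤ vu Λ L θ μ u :=
  add_nonneg (div_nonneg (h.En_nonneg _ _) hθ)
    (mul_nonneg hμ (sum_nonneg fun _ _ => mul_self_nonneg _))

/-- the variance form of MUP, after pinning a set that carries the charge of the flow -/
theorem mup_vr {Λ : Lat} (hΛ : Λ.Ok) {L : ℕ} {θ μ ε : ℝ} (hθ : 0 < θ) (hμ : 0 < μ) {u : Pt → ℝ}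
    {φ : Pt × Pt → ℝ} {S : Finset Pt} (hS : Sup S (dv (Λ.edI (sq 0 L)) φ))
    (h : M ((ms Λ (sq 0 L) μ).W 0) (Λ.X L (θ⁻¹ • u) + pr (dv (Λ.edI (sq 0 L)) φ) +
        pr fun x => μ * (ind (x ∈ sq 0 L) * u x)) ≤
      (θ * Λ.En (sq 0 L) (θ⁻¹ • u) (θ⁻¹ • u) +
        2 * θ * ∑ e ∈ Λ.edI (sq 0 L), φ e * ((θ⁻¹ • u) e.2 - (θ⁻¹ • u) e.1) +
        Λ.τ * ∑ e ∈ Λ.edI (sq 0 L), φ e ^ 2 +
        ip (sq 0 L) (fun x => μ * (ind (x ∈ sq 0 L) * u x)) (fun x => μ * (ind (x ∈ sq 0 L) * u x)) / μ) /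
        2 + ε) :
    Vr (((ms Λ (sq 0 L) μ).free ((ms Λ (sq 0 L) μ).A \ S)).W 0) (pr (fu Λ L θ μ u)) (pr (fu Λ L θ μ u)) ≤
      vu Λ L θ μ u + 2 * ∑ e ∈ Λ.edI (sq 0 L), φ e * (u e.2 - u e.1) +
        Λ.τ * ∑ e ∈ Λ.edI (sq 0 L), φ e ^ 2 + 2 * ε := by
  have hc := ms_ctr hΛ (sq 0 L) hμ
  have ha := ms_anch Λ (sq 0 L) hμ
  set m := ms Λ (sq 0 L) μ
  rw [vr_off (m.free (m.A \ S)) (g := fu Λ L θ μ u + dv (Λ.edI (sq 0 L)) φ) fun x hx => by
    rw [Pi.add_apply, hS x (mem_sdiff.1 hx).2, add_zero]]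
  refine ((loc_free hc ha sdiff_subset).vr_le'
    ((hc.free sdiff_subset).cen (ha.free sdiff_subset)) (hc.cen ha) _).trans ?_
  have h1 := (hc.cen ha).vr_le_M (pr (fu Λ L θ μ u + dv (Λ.edI (sq 0 L)) φ))
  have e0 : pr (fu Λ L θ μ u + dv (Λ.edI (sq 0 L)) φ) = Λ.X L (θ⁻¹ • u) + pr (dv (Λ.edI (sq 0 L)) φ) +
      pr fun x => μ * (ind (x ∈ sq 0 L) * u x) := by rw [pr_add, pr_fu, add_right_comm]
  rw [← e0] at h
  have e1 : θ * Λ.En (sq 0 L) (θ⁻¹ • u) (θ⁻¹ • u) = Λ.En (sq 0 L) u u / θ := by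
    rw [Lat.En_smul_smul]; field_simp
  have e2 : 2 * θ * ∑ e ∈ Λ.edI (sq 0 L), φ e * ((θ⁻¹ • u) e.2 - (θ⁻¹ • u) e.1) =
      2 * ∑ e ∈ Λ.edI (sq 0 L), φ e * (u e.2 - u e.1) := by
    rw [mul_assoc, mul_sum]
    congr 1
    refine sum_congr rfl fun e _ => ?_
    simp only [Pi.smul_apply, smul_eq_mul]
    field_simp
  have e3 : ip (sq 0 L) (fun x => μ * (ind (x ∈ sq 0 L) * u x))
      (fun x => μ * (ind (x ∈ sq 0 L) * u x)) / μ = μ * ip (sq 0 L) u u := by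
    simp only [ip, sum_div, mul_sum]
    refine sum_congr rfl fun x hx => ?_
    rw [ind_pos hx]
    field_simp
  rw [e1, e2, e3] at h
  unfold vu
  linarith

end Hit58

open Hit58

theorem rowStmt : RowStmt := by
  intro F
  set K₁ : ℝ := 6 * (4 * F.base.rg * (32 : ℕ) + 1) with hK₁
  have k1 : 0 < K₁ := by positivity
  refine ⟨K₁ + F.base.Jp.card * K₁ ^ 2, 16 * F.base.rg + 8,
    fun Λ hΛ ρ P hρ i hi K u u1 u0 hit => ?_⟩
  obtain ⟨a, n, n1, n2, hsub, hin⟩ := exists_cell (ρ := ρ) hi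
  rw [← hΛ.rg_eq] at hρ
  have meets : ∀ α : ℕ, α ≤ ρ / 4 → Meets (sq a n) (· ∈ K) (fun x =>
      max (max (ρ * i.1 - x.1) (x.1 - (ρ * i.1 + ρ - 1)))
        (max (ρ * i.2 - x.2) (x.2 - (ρ * i.2 + ρ - 1)))) Λ.rg α (ρ / 8) := by
    intro α hα t h1 h2
    lift t to ℕ using by omega
    obtain ⟨x, hK, hx, h3, h4⟩ := hit t (by omega)
    refine ⟨x, hin x hx (mem_nb.2 ((mem_nb.1 h3).trans (by omega))), hK,
      not_le.1 fun h => h4 (mem_nb.2 h), by exact_mod_cast mem_nb.1 h3⟩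
  obtain ⟨η, hη, hf, hip⟩ := rows (d₁ := fun t => max (ρ * i.1 - t) (t - (ρ * i.1 + ρ - 1)))
    (d₂ := fun t => max (ρ * i.2 - t) (t - (ρ * i.2 + ρ - 1))) (M := 32) hΛ.ok hΛ.ok.one_le_rg
    (by omega) (by omega) (meets 0 (by omega)) (meets (ρ / 4) le_rfl)
  rw [hΛ.rg_eq, ← hK₁] at hf
  obtain ⟨φ, rfl, hφ⟩ := hf
  have hE := Lat.edI_mono (Λ := Λ) hsub
  have hρ0 : (0 : ℝ) < ρ := by exact_mod_cast (by omega : 0 < ρ)
  have hn0 : (0 : ℝ) < n := by exact_mod_cast (by omega : 0 < n)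
  have n1' : (ρ : ℝ) ≤ n := by exact_mod_cast n1
  have hA : (0 : ℝ) ≤ F.base.Jp.card * K₁ ^ 2 := by positivity
  refine ⟨fun e => if e ∈ Λ.edI (sq a n) then φ e else 0, fun e _ => ?_, ?_, ?_, ?_⟩
  · dsimp only
    split_ifs with h
    · exact (hφ e h).trans (by gcongr; linarith)
    · rw [abs_zero]; positivity
  · simp only [ite_pow, ne_eq, OfNat.ofNat_ne_zero, not_false_eq_true, zero_pow, sum_ite_mem,
      inter_eq_right.2 hE]
    refine (sum_le_card_nsmul _ _ ((K₁ / n) ^ 2) fun e he =>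
      sq_le_sq' (abs_le.1 (hφ e he)).1 (abs_le.1 (hφ e he)).2).trans ?_
    have h4 : ((Λ.edI (sq a n)).card : ℝ) ≤ n * n * F.base.Jp.card := by
      have := card_edI_le Λ (sq a n)
      rw [sq_eq_rc, card_rc, hΛ.Jp_eq] at this
      exact_mod_cast this
    rw [nsmul_eq_mul]
    refine (mul_le_mul_of_nonneg_right h4 (sq_nonneg _)).trans ?_
    have e : (n : ℝ) * n * F.base.Jp.card * (K₁ / n) ^ 2 = F.base.Jp.card * K₁ ^ 2 := by field_simp
    rw [e]; linarith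
  · rw [← dv_extend hE]
    exact fun x hx => by_contra fun h => hx (hη x h)
  · simp only [ite_mul, zero_mul, sum_ite_mem, inter_eq_right.2 hE]
    rw [← ip_dv φ (Lat.edI_ends _)]
    refine hip u (fun x _ _ h => u1 x (mem_nb.2 (by simpa using h))) fun x _ h _ =>
      u0 x fun h' => absurd (mem_nb.1 h') (not_le.2 h)

theorem tvStmt (hR : RowStmt) (hC : CelStmt) (hM : MupStmt) (hP : PhmStmt) (hH : HsStmt)
    (hT : T1mStmt) : TvStmt := by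
  intro F
  obtain ⟨C₁, ρ₁, hR⟩ := hR F
  obtain ⟨C₂, ρ₂, hC⟩ := hC F
  set A : ℝ := |F.τ₂| * |C₁| + 1 with hA
  have A0 : 0 < A := by positivity
  refine ⟨1 / (2 * A), by positivity, fun θ₀ K ε hθ hK hε => ?_⟩
  have K0 : 0 < K := by linarith
  obtain ⟨R, η, R0, η0, hH⟩ := hH (⌈K⌉₊ ^ 2) K ε hε
  obtain ⟨δ₁, d1, hT⟩ := hT.2.2 F θ₀ 1 0 hθ one_pos
  set ε' : ℝ := min ε (1 / (2 * A)) / 2 with hε'
  have e0 : 0 < ε' := by rw [hε']; exact half_pos (lt_min hε (by positivity))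
  set K₁ : ℝ := 2 / θ₀ * (|C₂| * K ^ 2) + |C₁| * K / A with hK₁
  set K₂ : ℝ := K + K ^ 2 * (R * (|C₂| * K ^ 2)) + K ^ 2 * R with hK₂
  have hK₂1 : 1 ≤ K₂ := by
    have : 0 ≤ K ^ 2 * (R * (|C₂| * K ^ 2)) + K ^ 2 * R := by positivity
    linarith
  refine exists_of_ev ?_
  filter_upwards [ev_sep_mem (hM F K₁ ε' e0), Soft.ev hP F hθ hK₂1 η0, ev_le d1,
    ev_large' (K * (ρ₁ + ρ₂ + 8))] with δ hM hP hδ hL Λ hΛ l L hw μ ρ P hLP hPK μ1 μ2
  have L0 := hw.L_pos'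
  have θ1 : θ₀ / 2 ≤ Λ.tN l := (hT Λ hΛ l L (hw.mono_d hδ)).2.1
  have θ0 : 0 < Λ.tN l := by linarith
  have μ0 : 0 < μ := by
    by_contra h
    have : μ * (L : ℝ) ^ 2 ≤ 0 := mul_nonpos_of_nonpos_of_nonneg (not_lt.1 h) (sq_nonneg _)
    linarith
  have hLP' : (L : ℝ) = P * ρ := by exact_mod_cast hLP
  have ρ0 : (0 : ℝ) ≤ ρ := Nat.cast_nonneg ρ
  have hLK : (L : ℝ) ≤ K * ρ := hLP'.le.trans (by gcongr)
  have hρ : ρ₁ + ρ₂ + 8 ≤ ρ := by
    have := le_of_mul_le_mul_left ((hL l L hw.sep).2.2.trans hLK) K0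
    exact_mod_cast this
  have ρp : (0 : ℝ) < ρ := by exact_mod_cast (by omega : 0 < ρ)
  have h8 : 8 ∣ ρ := by
    obtain ⟨j, hj⟩ := hw.dyadic
    obtain ⟨k, -, rfl⟩ := (Nat.dvd_prime_pow Nat.prime_two).1 (⟨P, by rw [← hj, hLP, mul_comm]⟩ : ρ ∣ 2 ^ j)
    have : 3 ≤ k := by
      by_contra h
      have : 2 ^ k ≤ 2 ^ 2 := Nat.pow_le_pow_right two_pos (by omega)
      omega
    exact pow_dvd_pow 2 this
  have cel := hC Λ hΛ ρ P (by omega) h8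
  have sm : ∀ i ∈ sq 0 P, Sm2 (ub ρ i) (|C₂| * K ^ 2) L := fun i hi =>
    ((cel i hi).1.mono ρp (le_abs_self _)).scale_up ρp L0 hK hLK
  subst hLP
  refine ⟨fun i hi S => ?_, fun g hg hcl => ?_⟩
  · have a1 : 0 ≤ 2 / θ₀ * (|C₂| * K ^ 2) := by positivity
    have a2 : 0 ≤ |C₁| * K / A := by positivity
    have smθ : Sm2 ((Λ.tN l)⁻¹ • ub ρ i) K₁ (P * ρ : ℕ) := ((sm i hi).smul _).mono L0 (by
      have : |(Λ.tN l)⁻¹| ≤ 2 / θ₀ := by
        rw [abs_of_pos (inv_pos.2 θ0), inv_le_comm₀ θ0 (by positivity), inv_div]; exact θ1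
      have := mul_le_mul_of_nonneg_right this (by positivity : 0 ≤ |C₂| * K ^ 2)
      linarith)
    have e1 : 2 * ε' ≤ ε := by rw [hε']; linarith [min_le_left ε (1 / (2 * A))]
    have e2 : 2 * ε' ≤ 1 / (2 * A) := by rw [hε']; linarith [min_le_right ε (1 / (2 * A))]
    refine ⟨?_, fun hit => ?_⟩
    · have := mup_vr (S := S) hΛ.ok θ0 μ0 (by rw [dv_zero]; exact fun _ _ => rfl)
        (hM Λ hΛ l _ hw.sep μ _ _ (fun _ => 0) μ0 smθ fun e _ => by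
          rw [abs_zero]; exact div_nonneg (by linarith) L0.le)
      simp only [zero_mul, sum_const_zero, mul_zero, add_zero, ne_eq, OfNat.ofNat_ne_zero,
        not_false_eq_true, zero_pow] at this
      exact this.trans (by linarith)
    · obtain ⟨φ, h1, h2, h3, h4⟩ := hR Λ hΛ ρ P (by omega) i hi S (ub ρ i) (cel i hi).2.2.1
        (cel i hi).2.2.2.1 hit
      have := mup_vr (S := S) (φ := fun e => -(1 / A) * φ e) hΛ.ok θ0 μ0 (by
          rw [dv_smul]; intro x hx; simp [h3 x hx])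
        (hM Λ hΛ l _ hw.sep μ _ _ _ μ0 smθ fun e he => by
          rw [abs_mul, abs_neg, abs_of_pos (by positivity)]
          have b1 : |φ e| ≤ |C₁| * K / (P * ρ : ℕ) := (h1 e he).trans (by
            rw [div_le_div_iff₀ ρp L0]
            have := mul_le_mul (le_abs_self C₁) hLK L0.le (abs_nonneg _)
            linarith)
          refine (mul_le_mul_of_nonneg_left b1 (by positivity)).trans ?_
          have : 1 / A * (|C₁| * K / (P * ρ : ℕ)) = |C₁| * K / A / (P * ρ : ℕ) := by ring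
          rw [this]
          gcongr
          linarith)
      simp only [mul_assoc, ← mul_sum, h4, mul_pow, neg_sq] at this
      refine this.trans ?_
      have b2 : Λ.τ * ∑ e ∈ Λ.edI (sq 0 (P * ρ)), φ e ^ 2 ≤ A := by
        have := mul_le_mul (hΛ.tau_le.trans (le_abs_self _)) (h2.trans (le_abs_self _))
          (sum_nonneg fun _ _ => sq_nonneg _) (abs_nonneg _)
        linarith
      have b3 : Λ.τ * ((1 / A) ^ 2 * ∑ e ∈ Λ.edI (sq 0 (P * ρ)), φ e ^ 2) ≤ 1 / A := by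
        have := mul_le_mul_of_nonneg_left b2 (sq_nonneg (1 / A))
        have e : (1 / A) ^ 2 * A = 1 / A := by field_simp
        linarith
      have e3 : 1 / A = 2 * (1 / (2 * A)) := by field_simp
      linarith
  · have hcard : g.card ≤ P * P := by
      have := card_le_card hg
      rwa [sq_eq_rc, card_rc] at this
    have hPK' : P ≤ ⌈K⌉₊ := by exact_mod_cast hPK.trans (Nat.le_ceil K)
    have hcard' : (g.card : ℝ) ≤ K ^ 2 := by
      have : (g.card : ℝ) ≤ P * P := by exact_mod_cast hcard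
      nlinarith [mul_le_mul hPK hPK (Nat.cast_nonneg P) K0.le]
    refine (hH (Cfg Pt) Pt _ g _ ((ms_ctr hΛ.ok _ μ0).cen (ms_anch Λ _ μ0))
      (hcard.trans (by rw [pow_two]; exact Nat.mul_le_mul hPK' hPK'))).2.1 _
      (fun j _ => vu_nonneg hΛ.ok _ θ0.le μ0.le _) fun z hz => ?_
    rw [← fu_sum, ← vu_sum Λ _ _ _ g z _ fun i hi j hj hne =>
      (cel i (hg hi)).2.2.2.2.2.2 j (hg hj) hne (hcl i hi j hj)]
    have a1 : 0 ≤ K ^ 2 * (R * (|C₂| * K ^ 2)) := by positivity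
    have a2 : 0 ≤ K ^ 2 * R := by positivity
    refine hP Λ hΛ l _ hw μ _ μ1 (by linarith) ?_ fun x _ => ?_
    · have := Sm2.sum g (f := fun j => z j • ub ρ j) (k := fun _ => R * (|C₂| * K ^ 2)) L0.le
        fun j hj => ((sm j (hg hj)).smul _).mono L0 (by gcongr; exact hz j hj)
      rw [sum_const, nsmul_eq_mul] at this
      have e : (fun x => ∑ j ∈ g, (z j • ub ρ j) x) = ∑ j ∈ g, z j • ub ρ j :=
        funext fun x => (Finset.sum_apply _ _ _).symm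
      rw [e] at this
      refine this.mono L0 ?_
      have := mul_le_mul_of_nonneg_right hcard' (by positivity : 0 ≤ R * (|C₂| * K ^ 2))
      linarith
    · rw [Finset.sum_apply]
      refine (abs_sum_le_sum_abs _ _).trans ((sum_le_card_nsmul _ _ R fun j hj => ?_).trans ?_)
      · have := (cel j (hg hj)).2.1 x
        rw [Pi.smul_apply, smul_eq_mul, abs_mul, abs_of_nonneg this.1]
        exact (mul_le_of_le_one_right (abs_nonneg _) this.2).trans (hz j hj)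
      · rw [nsmul_eq_mul]
        have := mul_le_mul_of_nonneg_right hcard' R0.le
        linarith

end Crest.Agent.T145.Mx
end

-- ▼ part T145/MxPhm_66
section

/-!
# Row 145, module Mx: PHM, the characteristic function of `f_u` in the massive box (helper66)
-/

set_option autoImplicit false

namespace Crest.Agent.T145.Mx

open Finset Uv Filter Topology

namespace Phm66

/-- the normalised Haar function -/
noncomputable def hg (μ : ℝ) (t : Ix) : Pt → ℝ := (Real.sqrt μ * 2 ^ t.2.1) • hf t.1 t.2.1 t.2.2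

theorem pr_hg (μ : ℝ) (t : Ix) : pr (hg μ t) = hl μ t := pr_smul _ _

theorem hc_ip (μ : ℝ) (L : ℕ) (v : Pt → ℝ) (t : Ix) : hc μ L v t = ip (sq 0 L) (hg μ t) v := by
  simp only [hc, hg, ip, mul_sum, Pi.smul_apply, smul_eq_mul, mul_assoc]

theorem hc_add (μ : ℝ) (L : ℕ) (v w : Pt → ℝ) (t : Ix) :
    hc μ L (v + w) t = hc μ L v t + hc μ L w t := by
  simp only [hc_ip, ip, Pi.add_apply, mul_add, sum_add_distrib]

theorem mn_add' (a : Pt) (n : ℕ) (v w : Pt → ℝ) : mn a n (v + w) = mn a n v + mn a n w := by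
  simp only [mn, Pi.add_apply, sum_add_distrib, add_div]

variable {μ : ℝ} {c : ℕ}

theorem par_sub {t : Ix} (ht : t ∈ terms {0} c (range c)) :
    sq (tile t.1 (2 ^ (t.2.1 + 1)) (par t.2.2)) (2 ^ (t.2.1 + 1)) ⊆ sq 0 (2 ^ c) := by
  obtain ⟨h1, h2, h3⟩ := mem_terms.1 ht
  rw [mem_singleton.1 h1]
  exact par_sub_top (mem_range.1 h2) h3

theorem terms_mono {J J' : Finset ℕ} (h : J ⊆ J') : terms {0} c J ⊆ terms {0} c J' := fun _ ht =>
  mem_terms.2 ⟨(mem_terms.1 ht).1, h (mem_terms.1 ht).2.1, (mem_terms.1 ht).2.2⟩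

theorem hg_off {t : Ix} (ht : t ∈ terms {0} c (range c)) {x : Pt} (hx : x ∉ sq 0 (2 ^ c)) :
    hg μ t x = 0 := by
  rw [hg, Pi.smul_apply, hf_off fun h => hx (par_sub ht h), smul_zero]

theorem sum_hg {t : Ix} (ht : t ∈ terms {0} c (range c)) : ∑ x ∈ sq 0 (2 ^ c), hg μ t x = 0 := by
  simp only [hg, Pi.smul_apply, smul_eq_mul, ← mul_sum, sum_hf (par_sub ht), mul_zero]

theorem hc_eq (v : Pt → ℝ) {t : Ix} (ht : t ∈ terms {0} c (range c)) : hc μ (2 ^ c) v t =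
    Real.sqrt μ * 2 ^ t.2.1 * (mn (tile t.1 (2 ^ t.2.1) t.2.2) (2 ^ t.2.1) v -
      mn (tile t.1 (2 ^ (t.2.1 + 1)) (par t.2.2)) (2 ^ (t.2.1 + 1)) v) := by
  simp only [hc, ip, hf, Pi.sub_apply, sub_mul, sum_sub_distrib]
  rw [sum_ua_mul (par_sub ht), sum_ua_mul ((child_sub_par _ _ _).trans (par_sub ht))]

theorem hi_eq (hμ : 0 ≤ μ) (v : Pt → ℝ) {J : ℕ} (hJ : J ≤ c) :
    ∑ t ∈ terms {0} c (range J), hc μ (2 ^ c) v t ^ 2 =
      μ * ∑ x ∈ sq 0 (2 ^ c), (v x - pj 0 J v x) ^ 2 := by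
  rw [haar_aux 0 c v hJ,
    sum_congr rfl fun t ht => by rw [hc_eq v (terms_mono (range_subset_range.2 hJ) ht)]]
  simp only [terms, sum_sigma, sum_singleton, mul_pow, Real.sq_sqrt hμ, mul_sum, mul_assoc]

theorem pars (hμ : 0 ≤ μ) (v : Pt → ℝ) : μ * ip (sq 0 (2 ^ c)) v v =
    μ * ((2 ^ c : ℕ) : ℝ) ^ 2 * mn 0 (2 ^ c) v ^ 2 +
      ∑ t ∈ terms {0} c (range c), hc μ (2 ^ c) v t ^ 2 := by
  have h := sq_split 0 (n := 2 ^ c) (by positivity) v 0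
  simp only [sub_zero] at h
  rw [hi_eq hμ v le_rfl, sum_congr rfl fun x hx => by rw [pj_top hx]]
  simp only [ip, ← pow_two]
  rw [h]; ring

theorem pol (hμ : 0 ≤ μ) (v w : Pt → ℝ) : μ * ip (sq 0 (2 ^ c)) v w =
    μ * ((2 ^ c : ℕ) : ℝ) ^ 2 * (mn 0 (2 ^ c) v * mn 0 (2 ^ c) w) +
      ∑ t ∈ terms {0} c (range c), hc μ (2 ^ c) v t * hc μ (2 ^ c) w t := by
  have h1 := pars (c := c) hμ (v + w)
  have h2 := pars (c := c) hμ v
  have h3 := pars (c := c) hμ w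
  have e1 : ip (sq 0 (2 ^ c)) (v + w) (v + w) =
      ip (sq 0 (2 ^ c)) v v + 2 * ip (sq 0 (2 ^ c)) v w + ip (sq 0 (2 ^ c)) w w := by
    simp only [ip, mul_sum, ← sum_add_distrib, Pi.add_apply]
    exact sum_congr rfl fun x _ => by ring
  simp only [hc_add, mn_add', add_sq, sum_add_distrib, mul_assoc, ← mul_sum] at h1
  rw [e1] at h1
  linarith

theorem rep (hμ : 0 ≤ μ) (v : Pt → ℝ) (x : Pt) : μ * (ind (x ∈ sq 0 (2 ^ c)) * v x) =
    μ * ((2 ^ c : ℕ) : ℝ) ^ 2 * mn 0 (2 ^ c) v * ua 0 (2 ^ c) x +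
      ∑ t ∈ terms {0} c (range c), hc μ (2 ^ c) v t * hg μ t x := by
  by_cases hx : x ∈ sq 0 (2 ^ c)
  · have e : ∀ f : Pt → ℝ, ip (sq 0 (2 ^ c)) f (Pi.single x 1) = f x := fun f => by
      rw [ip, sum_eq_single_of_mem x hx fun y _ hy => by rw [Pi.single_eq_of_ne hy, mul_zero]]
      simp
    have h := pol (c := c) hμ v (Pi.single x 1)
    simp only [hc_ip μ _ (Pi.single x 1), e] at h
    rw [← sum_ua_mul subset_rfl (Pi.single x 1)] at h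
    rw [ind_pos hx, one_mul, h, ← e (ua 0 (2 ^ c)), ip, mul_assoc _ (mn _ _ _)]
  · rw [ind_neg hx, ua_off hx, sum_eq_zero fun t ht => by rw [hg_off ht hx, mul_zero]]
    simp

theorem bessel (hμ : 0 ≤ μ) {T : Finset Ix} (hT : T ⊆ terms {0} c (range c)) (z : Ix → ℝ) :
    ip (sq 0 (2 ^ c)) (∑ t ∈ T, z t • hg μ t) (∑ t ∈ T, z t • hg μ t) ≤ μ * ∑ t ∈ T, z t ^ 2 := by
  set ν := ∑ t ∈ T, z t • hg μ t with hν
  have e : ip (sq 0 (2 ^ c)) ν ν = ∑ t ∈ T, z t * hc μ (2 ^ c) ν t := by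
    have e0 : ∀ x, ν x * ν x = ∑ t ∈ T, (z t • hg μ t) x * ν x := fun x => by
      rw [← sum_mul, ← Finset.sum_apply]
    rw [ip, sum_congr rfl fun x _ => e0 x, sum_comm]
    simp only [hc_ip, ip, mul_sum, Pi.smul_apply, smul_eq_mul, mul_assoc]
  have h0 : 0 ≤ ip (sq 0 (2 ^ c)) ν ν := sum_nonneg fun _ _ => mul_self_nonneg _
  have h1 := sum_mul_sq_le_sq_mul_sq T z (hc μ (2 ^ c) ν)
  have h2 : ∑ t ∈ T, hc μ (2 ^ c) ν t ^ 2 ≤ μ * ip (sq 0 (2 ^ c)) ν ν := by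
    rw [pars hμ]
    exact (sum_le_sum_of_subset_of_nonneg hT fun _ _ _ => sq_nonneg _).trans
      (le_add_of_nonneg_left (by positivity))
  have h3 : 0 ≤ ∑ t ∈ T, z t ^ 2 := sum_nonneg fun _ _ => sq_nonneg _
  rw [← e] at h1
  by_contra hn
  have h4 := h1.trans (mul_le_mul_of_nonneg_left h2 h3)
  nlinarith [mul_nonneg hμ h3]

theorem abs_mn_le {a : Pt} {n : ℕ} (hn : 0 < n) {v : Pt → ℝ} {K : ℝ} (h : ∀ x ∈ sq a n, |v x| ≤ K) :
    |mn a n v| ≤ K := by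
  have h0 : (0 : ℝ) < (n : ℝ) ^ 2 := by positivity
  rw [mn, abs_div, abs_of_pos h0, div_le_iff₀ h0]
  refine (abs_sum_le_sum_abs _ _).trans ((sum_le_card_nsmul _ _ _ h).trans_eq ?_)
  rw [card_sq, nsmul_eq_mul]; push_cast; ring

theorem abs_sub_pj {u : Pt → ℝ} {K L : ℝ} (hu : Sm2 u K L) (hL : 0 < L) (J : ℕ) (x : Pt) :
    |u x - pj 0 J u x| ≤ K / L * (2 * 2 ^ J) := by
  have hK := hu.nonneg hL
  have hx : x ∈ sq (tile 0 (2 ^ J) (tileOf 0 (2 ^ J) x)) (2 ^ J) := (mem_tile_iff (by positivity)).2 rfl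
  rw [abs_sub_comm, pj, sub_eq_add_neg, ← mn_add (by positivity)]
  refine abs_mn_le (by positivity) fun y hy => ?_
  rw [← sub_eq_add_neg]
  refine (hu.lip x y).trans (mul_le_mul_of_nonneg_left ?_ (by positivity))
  rw [S58.l1_eq]
  rw [mem_sq] at hx hy
  have h1 : |(y - x).1| ≤ ((2 ^ J : ℕ) : ℤ) := by rw [Prod.fst_sub, abs_le]; omega
  have h2 : |(y - x).2| ≤ ((2 ^ J : ℕ) : ℤ) := by rw [Prod.snd_sub, abs_le]; omega
  have h3 : |((y - x).1 : ℝ)| ≤ 2 ^ J := by exact_mod_cast h1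
  have h4 : |((y - x).2 : ℝ)| ≤ 2 ^ J := by exact_mod_cast h2
  linarith

theorem hi_le (hμ : 0 ≤ μ) {u : Pt → ℝ} {K : ℝ} (hu : Sm2 u K ((2 ^ c : ℕ) : ℝ))
    (hK : μ * ((2 ^ c : ℕ) : ℝ) ^ 2 ≤ K) (c₀ : ℕ) :
    ∑ t ∈ terms {0} c (range (c - c₀)), hc μ (2 ^ c) u t ^ 2 ≤ 4 * K ^ 3 / 2 ^ c₀ := by
  have hL : (0 : ℝ) < ((2 ^ c : ℕ) : ℝ) := by positivity
  have hK0 := hu.nonneg hL
  rcases le_or_gt c c₀ with h | h
  · rw [Nat.sub_eq_zero_of_le h]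
    simp only [terms, range_zero, sum_sigma, sum_empty, sum_const_zero]; positivity
  rw [hi_eq hμ u (Nat.sub_le _ _)]
  have e : ((2 ^ c : ℕ) : ℝ) = 2 ^ (c - c₀) * 2 ^ c₀ := by
    rw [← pow_add, Nat.sub_add_cancel h.le]; push_cast; rfl
  have h1 : ∀ x ∈ sq 0 (2 ^ c), (u x - pj 0 (c - c₀) u x) ^ 2 ≤ 4 * K ^ 2 / 2 ^ c₀ := fun x _ => by
    have h2 := abs_sub_pj hu hL (c - c₀) x
    refine (sq_le_sq' (abs_le.1 h2).1 (abs_le.1 h2).2).trans ?_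
    have h3 : (1 : ℝ) ≤ 2 ^ c₀ := one_le_pow₀ one_le_two
    rw [e, show K / (2 ^ (c - c₀) * 2 ^ c₀) * (2 * 2 ^ (c - c₀)) = 2 * K / 2 ^ c₀ by field_simp,
      div_pow, pow_two ((2 : ℝ) ^ c₀)]
    refine (div_le_div_of_nonneg_left (by positivity) (by positivity)
      (le_mul_of_one_le_left (by positivity) h3)).trans_eq (by ring)
  have h2 := sum_le_card_nsmul _ _ _ h1
  rw [card_sq, nsmul_eq_mul, Nat.cast_pow _ 2] at h2
  refine (mul_le_mul_of_nonneg_left h2 hμ).trans ?_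
  rw [← mul_assoc]
  exact (mul_le_mul_of_nonneg_right hK (by positivity)).trans_eq (by ring)

/-- the clean part of the rooted box -/
noncomputable def cu (Λ : Lat) (L : ℕ) : Finset Pt := (sq 0 L).filter fun x => bl x Λ.rg ⊆ sq 0 L

theorem amb_cu {Λ : Lat} (h : Λ.Ok) {L : ℕ} (hL : 1 ≤ L) : Nc.Amb Λ (Λ.Nr (sq 0 L) 0) (cu Λ L) := by
  refine ⟨(h.amb_WN hL).1, (h.amb_WN hL).2.1, fun x hx => ?_,
    Lat.near_Nr (Lat.edT_subset_edI fun x hx => (mem_filter.1 hx).2) 0⟩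
  refine mem_erase.2 ⟨?_, (mem_filter.1 hx).1⟩
  rintro rfl
  have h1 := h.one_le_rg
  have := mem_sq.1 ((mem_filter.1 hx).2 (mem_bl.2 (show _ from ?_) : ((-1, 0) : Pt) ∈ _))
  · simp at this
  · simp; omega

theorem thn_cu (Λ : Lat) (L : ℕ) : Thn (sq 0 L) (cu Λ L) (4 * (1 + Λ.rg) * L) := fun ρ hρ => by
  have h := (reg_rc 0 (n₁ := L) (n₂ := L) (ρ + Λ.rg) L le_rfl (by simp) (by simp)).2
  have hs : ((sq 0 L).filter fun x => ¬ bl x ρ ⊆ cu Λ L) ⊆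
      (rc 0 L L).filter fun x => ¬ bl x (ρ + Λ.rg) ⊆ rc 0 L L := fun x hx => by
    refine mem_filter.2 ⟨(mem_filter.1 hx).1, fun h' => (mem_filter.1 hx).2 fun y hy => ?_⟩
    have h2 : bl y Λ.rg ⊆ sq 0 L := (bl_subset_bl hy (by omega)).trans h'
    exact mem_filter.2 ⟨h2 (self_mem_bl _ _), h2⟩
  refine ((Nat.cast_le.2 (card_le_card hs)).trans h).trans ?_
  have h1 : (1 : ℝ) ≤ ρ := by exact_mod_cast hρ
  have h2 : (0 : ℝ) ≤ (Λ.rg : ℝ) * L := by positivity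
  push_cast
  nlinarith

theorem exp_lip {x y : ℝ} (hx : 0 ≤ x) (h : x ≤ y) : Real.exp (-x) ≤ Real.exp (-y) + (y - x) := by
  have h1 := Real.add_one_le_exp (x - y)
  have h2 : Real.exp (-x) ≤ 1 := Real.exp_le_one_iff.2 (by linarith)
  have h3 : Real.exp (-y) = Real.exp (-x) * Real.exp (x - y) := by rw [← Real.exp_add]; ring_nf
  nlinarith [Real.exp_pos (-x)]

end Phm66

open Phm66

set_option maxHeartbeats 400000 in
/-- **PHM** -/
theorem phmStmt (hP : PloStmt) (hU : UnfStmt) (hZ : ZmStmt) (hV : UvStmt) (hG : GdStmt)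
    (hS : SiteStmt) (hA : AFacStmt) (hm : T1mStmt) : PhmStmt := by
  refine Soft.of_ev fun F θ₀ K ε h1 h2 h3 => ?_
  obtain ⟨W, r₀, δG, hδG, hG⟩ := hG F θ₀ h1
  obtain ⟨C, hV⟩ := hV F W r₀ (K + 4 * (1 + F.base.rg))
  obtain ⟨Q, η, hη, hZ⟩ := hZ (Real.exp C + K ^ 2 + 2) (ε / 4) (by positivity)
  obtain ⟨δU, L₀, hδU, hV⟩ := hV (Real.log (1 + η)) (Real.log_pos (by linarith))
  obtain ⟨c₀, hc₁, hc₂, hc₃⟩ : ∃ c₀ : ℕ, 1 / δU ≤ 2 ^ c₀ ∧ 4 * K ^ 3 / (ε / 4) ^ 2 ≤ 2 ^ c₀ ∧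
      4 * K ^ 3 / (ε / 4) ≤ 2 ^ c₀ := by
    have t := tendsto_pow_atTop_atTop_of_one_lt (one_lt_two (α := ℝ))
    exact ((t.eventually_ge_atTop _).and ((t.eventually_ge_atTop _).and
      (t.eventually_ge_atTop _))).exists
  set ε₁ := min (min η (ε / 4)) 1 with hε₁
  have he₁ : ε₁ ≤ η := (min_le_left _ _).trans (min_le_left _ _)
  have he₂ : ε₁ ≤ ε / 4 := (min_le_left _ _).trans (min_le_right _ _)
  have he₃ : ε₁ ≤ 1 := min_le_right _ _
  have he₀ : 0 < ε₁ := by positivity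
  have hKK : K ≤ K + 2 ^ c₀ + Q := by rw [add_assoc]; exact le_add_of_nonneg_right (by positivity)
  filter_upwards [Soft.ev hP F (K := K + 2 ^ c₀ + Q) h1 (h2.trans hKK) he₀, ev_le hδG, ev_large L₀,
    ev_win hm F h1 one_pos] with δ hP hδ hL₀ hθ Λ hΛ l L hw μ u ha1 haK hu huK
  have hθ : 0 < Λ.tN l := (half_pos h1).trans_le (hθ Λ hΛ l L hw).2
  have hok := hΛ.ok
  have hL := hw.one_le_L
  have hL' := hw.L_pos'
  have hμ : 0 < μ := (mul_pos_iff_of_pos_right (by positivity)).1 (one_pos.trans_le ha1)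
  obtain ⟨c, rfl⟩ := hw.dyadic
  have cen := hok.cen_WN hL
  obtain ⟨hP1, hP2⟩ := hP Λ hΛ l _ hw μ u c c₀ rfl (by linarith [Q.cast_nonneg (α := ℝ)]) hμ.le
    (haK.trans hKK) (hu.mono hL' hKK) fun x hx => (huK x hx).trans hKK
  have hrg : (0 : ℝ) ≤ 4 * (1 + F.base.rg) := by positivity
  have hV := fun J hJ => hV Λ hΛ _ (hL₀ l _ hw.sep).2.2 (hG Λ hΛ l _ (hw.mono_d hδ))
    (Λ.Nr (sq 0 (2 ^ c)) 0) (cu Λ (2 ^ c)) {0} c J μ
    (amb_cu hok hL) (fun a ha => by rw [mem_singleton.1 ha]; exact hok.amb_WN hL)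
    (fun a ha a' ha' hn => (hn ((mem_singleton.1 ha).trans (mem_singleton.1 ha').symm)).elim) hJ hμ.le
    (by linarith) le_rfl
    (by
      rw [card_singleton, show (4 : ℝ) ^ c = ((2 ^ c : ℕ) : ℝ) ^ 2 by
        push_cast; rw [← pow_mul, mul_comm, pow_mul]; norm_num, Nat.cast_one]
      exact mul_le_mul_of_nonneg_right (by linarith) (by positivity))
    (by
      rw [singleton_biUnion]
      refine fun ρ hρ => (thn_cu Λ _ ρ hρ).trans ?_
      rw [hΛ.rg_eq]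
      gcongr; linarith)
  set L := 2 ^ c with hLc
  set Tm := terms {0} c (Ico (c - c₀) c) with hTm
  set Th := terms {0} c (range (c - c₀)) with hTh
  have hJm : Ico (c - c₀) c ⊆ range c := fun j hj => mem_range.2 (mem_Ico.1 hj).2
  have hJh : range (c - c₀) ⊆ range c := range_subset_range.2 (Nat.sub_le _ _)
  have hsp : ∀ f : Ix → ℝ, ∑ t ∈ terms {0} c (range c), f t = ∑ t ∈ Tm, f t + ∑ t ∈ Th, f t :=
    fun f => by
      rw [← terms_union _ _ (disjoint_left.2 fun j hj hj' => by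
        rw [mem_Ico] at hj; rw [mem_range] at hj'; omega)]
      congr 2
      ext j; simp only [mem_union, mem_Ico, mem_range]; omega
  set a := μ * (L : ℝ) ^ 2 with ha
  set ω := a * mn 0 L u with hω
  set ν := ∑ t ∈ Th, hc μ L u t • hg μ t with hν
  set ξ : Pt → ℝ := (Λ.tN l)⁻¹ • Λ.Au (sq 0 L) u + ω • ua 0 L + ∑ t ∈ Tm, hc μ L u t • hg μ t with hξ
  have hf : fu Λ L (Λ.tN l) μ u = ξ + ν := by
    ext x
    simp only [fu, hξ, hν, Pi.add_apply, Pi.smul_apply, Finset.sum_apply, smul_eq_mul]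
    rw [rep hμ.le, hsp]; ring
  have hsup : Sup (sq 0 L) ξ := fun x hx => by
    simp only [hξ, Pi.add_apply, Pi.smul_apply, Finset.sum_apply, smul_eq_mul]
    rw [Λ.sup_Au _ u x hx, ua_off hx,
      sum_eq_zero fun t ht => by rw [hg_off (terms_mono hJm ht) hx, mul_zero]]
    simp
  have hsum : ∑ x ∈ sq 0 L, ξ x = ω := by
    simp only [hξ, Pi.add_apply, Pi.smul_apply, Finset.sum_apply, smul_eq_mul, sum_add_distrib]
    rw [sum_comm]
    simp only [← mul_sum]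
    rw [Λ.sum_Au, sum_ua hL subset_rfl,
      sum_eq_zero fun t ht => by rw [sum_hg (terms_mono hJm ht), mul_zero]]
    simp
  have hpr : pr ξ = (Λ.tN l)⁻¹ • Λ.X L u + zl Tm (hl μ) (hc μ L u) + ω • pr (ua 0 L) := by
    simp only [hξ, pr_add, pr_smul, pr_sum, pr_hg, zl, Lat.X]; abel
  have hex : ∀ (s : Cfg Pt) (k : ℤ), Real.exp (-(μ * ∑ x ∈ sq 0 L, ((s x : ℝ) + k) ^ 2) / 2) =
      Real.exp (-a * (pr (ua 0 L) s + k) ^ 2 / 2) * (gq Tm (hl μ) s * gq Th (hl μ) s) := fun s k => by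
    have := haar hμ.le {0} c s k
    simp only [sum_singleton] at this
    rw [this, hsp, gq, gq, ← Real.exp_add, ← Real.exp_add, ha, hLc]
    push_cast; ring_nf
  have hS0 : 0 ≤ ∑ t ∈ Th, hc μ L u t ^ 2 := sum_nonneg fun _ _ => sq_nonneg _
  have hS1 : ∑ t ∈ Th, hc μ L u t ^ 2 ≤ 4 * K ^ 3 / 2 ^ c₀ := hi_le hμ.le hu haK c₀
  have hS2 : ∑ t ∈ Th, hc μ L u t ^ 2 ≤ (ε / 4) ^ 2 :=
    hS1.trans ((div_le_comm₀ (by positivity) (by positivity)).1 hc₂)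
  have hS3 : ∑ t ∈ Th, hc μ L u t ^ 2 ≤ ε / 4 :=
    hS1.trans ((div_le_comm₀ (by positivity) (by positivity)).1 hc₃)
  set E := Λ.En (sq 0 L) u u / Λ.tN l + ∑ t ∈ Tm, hc μ L u t ^ 2 with hE
  have hE0 : 0 ≤ E := add_nonneg (div_nonneg (hok.En_nonneg _ u) hθ.le)
    (sum_nonneg fun _ _ => sq_nonneg _)
  have hE1 : Real.exp (-E / 2) ≤ 1 := Real.exp_le_one_iff.2 (by linarith)
  have hK2 : K ≤ K ^ 2 := by nlinarith
  have hC := Real.exp_pos C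
  have hG0 : 0 ≤ Ex (Λ.WN L) (gq Tm (hl μ)) := Ex_nonneg cen.nonneg fun s _ => (gq_pos _ _ s).le
  have hZ := hZ _ (Λ.WN L) (gq Tm (hl μ)) (gq Th (hl μ))
    (((Λ.tN l)⁻¹ • Λ.X L u + zl Tm (hl μ) (hc μ L u) : Cfg Pt →+ ℝ)) (pr (ua 0 L)) a ω
    (Real.exp (-E / 2) + ε₁) cen.wt (fun s => ⟨gq_pos _ _ s, gq_le_one _ _ s⟩)
    (fun s => ⟨gq_pos _ _ s, gq_le_one _ _ s⟩) ha1 (by linarith)
    (by
      rw [hω, abs_mul, abs_of_pos (one_pos.trans_le ha1)]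
      nlinarith [mul_le_mul haK (abs_mn_le hL huK) (abs_nonneg _) (by linarith)])
    (by positivity) (by linarith)
    ((hV _ hJm).1.trans (mul_le_mul_of_nonneg_right (by nlinarith) (sq_nonneg _)))
    (by
      have := (hV _ hJh).2 fun j hj => by
        have h4 : (2 : ℝ) ^ j * 2 ^ c₀ ≤ (L : ℝ) := by
          rw [mem_range] at hj
          rw [hLc, ← pow_add]; push_cast
          exact pow_le_pow_right₀ one_le_two (by omega)
        rw [div_le_iff₀ hδU] at hc₁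
        nlinarith [pow_pos (two_pos (α := ℝ)) j]
      rwa [Real.exp_log (by linarith)] at this)
    hP1
    (fun q hq hQ => (hP2 q hq (le_trans (by exact_mod_cast hQ)
      (le_add_of_nonneg_left (by positivity)))).trans (mul_le_mul_of_nonneg_right he₁ hG0))
    (fun q => cen.ex_pd_nonneg ((pd_cos ((2 * Real.pi * q) • pr (ua 0 L))).mul (pd_gq _ _)))
  obtain ⟨hamb, hsite, -⟩ := hS Λ (sq 0 L) μ hok hμ
  have cm := hamb.1.cen hamb.2.1
  have k1 : Ph ((ms Λ (sq 0 L) μ).W 0) (pr ξ) ≤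
      Real.exp (-ω ^ 2 / (2 * a)) * (Real.exp (-E / 2) + ε₁) + ε / 4 := by
    rw [hU Λ L μ ξ hok hL hμ hsup]
    simp only [hex, ← mul_assoc, tsum_mul_right, hsum, hpr]
    simp only [mul_assoc]
    refine div_le_of_le_mul₀ (Ex_nonneg cen.nonneg fun s _ => mul_nonneg
      (tsum_nonneg fun k => (Real.exp_pos _).le) (mul_pos (gq_pos _ _ s) (gq_pos _ _ s)).le)
      (by positivity) (le_of_eq_of_le ?_ hZ)
    refine congrArg _ (funext fun s => congrArg (· * _) (tsum_congr fun k => ?_))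
    simp only [AddMonoidHom.add_apply, AddMonoidHom.smul_apply, smul_eq_mul]
    ring_nf
  have k2 := (abs_le.1 (hA.2.1 _ _ 0 (pr ξ) (pr ν) cm).2.2).2
  have k3 : Real.sqrt (Vr ((ms Λ (sq 0 L) μ).W 0) (pr ν) (pr ν)) ≤ ε / 4 := by
    refine Real.sqrt_le_iff.2 ⟨by positivity, (hsite ν).2.trans (le_trans ?_ hS2)⟩
    rw [div_le_iff₀' hμ]
    exact bessel hμ.le (terms_mono hJh) _
  have k4 : vu Λ L (Λ.tN l) μ u / 2 =
      (ω ^ 2 / (2 * a) + E / 2) + (∑ t ∈ Th, hc μ L u t ^ 2) / 2 := by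
    have : a ≠ 0 := (one_pos.trans_le ha1).ne'
    rw [vu, pars hμ.le, hsp, hE, hω, ← hLc, ← ha]
    field_simp
    ring
  have hω0 : 0 ≤ ω ^ 2 / (2 * a) := by have := one_pos.trans_le ha1; positivity
  have k5 := exp_lip (x := ω ^ 2 / (2 * a) + E / 2) (y := vu Λ L (Λ.tN l) μ u / 2) (by linarith)
    (by linarith)
  have k6 : Real.exp (-ω ^ 2 / (2 * a)) ≤ 1 := Real.exp_le_one_iff.2 (by rw [neg_div]; linarith)
  rw [hf, pr_add, neg_div]
  rw [mul_add, ← Real.exp_add, neg_div, neg_div, ← neg_add] at k1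
  rw [neg_div] at k6
  nlinarith

end Crest.Agent.T145.Mx
end

-- ▼ part T145/MxPlo_84
section

/-!
# Row 145, module Mx: `PloStmt` (helper84)
-/

set_option autoImplicit false

namespace Crest.Agent.T145.Mx
namespace P84

open Finset Uv

/-- the density of `z · hl` -/
noncomputable def gz (μ : ℝ) (T : Finset Ix) (z : Ix → ℝ) : Pt → ℝ :=
  ∑ t ∈ T, (z t * (Real.sqrt μ * 2 ^ t.2.1)) • hf t.1 t.2.1 t.2.2

theorem gz_apply (μ : ℝ) (T : Finset Ix) (z : Ix → ℝ) (x : Pt) :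
    gz μ T z x = ∑ t ∈ T, z t * (Real.sqrt μ * 2 ^ t.2.1) * hf t.1 t.2.1 t.2.2 x := by
  simp only [gz, Finset.sum_apply, Pi.smul_apply, smul_eq_mul]

theorem pr_fsum {ι : Type*} (T : Finset ι) (f : ι → Pt → ℝ) : pr (∑ i ∈ T, f i) = ∑ i ∈ T, pr (f i) := by
  classical
  induction T using Finset.induction_on with
  | empty => simp
  | insert a s ha ih => rw [sum_insert ha, sum_insert ha, pr_add, ih]

theorem pr_gz (μ : ℝ) (T : Finset Ix) (z : Ix → ℝ) : pr (gz μ T z) = zl T (hl μ) z := by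
  rw [gz, pr_fsum, zl]
  exact sum_congr rfl fun t _ => by rw [pr_smul, hl, smul_smul]

theorem zl_add {L ι : Type*} [AddCommGroup L] (T : Finset ι) (ℓ : ι → L →+ ℝ) (z z' : ι → ℝ) :
    zl T ℓ (z + z') = zl T ℓ z + zl T ℓ z' := by
  simp only [zl, Pi.add_apply, add_smul, sum_add_distrib]

theorem ip_gz (μ : ℝ) (L : ℕ) (T : Finset Ix) (z : Ix → ℝ) (u : Pt → ℝ) :
    ip (sq 0 L) (gz μ T z) u = ∑ t ∈ T, z t * hc μ L u t := by
  simp only [ip, gz_apply, hc, sum_mul, mul_sum]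
  rw [sum_comm]
  exact sum_congr rfl fun t _ => sum_congr rfl fun x _ => by ring

/-- the bands used in `PloStmt` -/
noncomputable abbrev Tm (c c₀ : ℕ) : Finset Ix := terms {0} c (Ico (c - c₀) c)

theorem mem_Tm {c c₀ : ℕ} {t : Ix} (h : t ∈ Tm c c₀) : c - c₀ ≤ t.2.1 ∧ t.2.1 < c ∧
    sq (tile t.1 (2 ^ (t.2.1 + 1)) (par t.2.2)) (2 ^ (t.2.1 + 1)) ⊆ sq 0 (2 ^ c) := by
  obtain ⟨h1, h2, h3⟩ := mem_terms.1 h
  rw [mem_Ico] at h2
  rw [mem_singleton] at h1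
  refine ⟨h2.1, h2.2, ?_⟩
  have := par_sub_top (a := t.1) h2.2 h3
  rwa [h1] at this ⊢

theorem card_Tm {c c₀ : ℕ} {K : ℝ} (h : (2 : ℝ) ^ c₀ ≤ K) : (#(Tm c c₀) : ℝ) ≤ K ^ 3 := by
  have h1 : #(Tm c c₀) ≤ c₀ * (2 ^ c₀) ^ 2 := by
    simp only [Tm, terms, card_sigma, sum_singleton, card_sq]
    refine (sum_le_card_nsmul _ _ ((2 ^ c₀) ^ 2) fun j hj => ?_).trans ?_
    · rw [mem_Ico] at hj
      exact Nat.pow_le_pow_left (Nat.pow_le_pow_right (by norm_num) (by omega)) 2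
    · rw [smul_eq_mul, Nat.card_Ico]
      exact Nat.mul_le_mul_right _ (by omega)
  have h2 : (c₀ : ℝ) ≤ 2 ^ c₀ := by exact_mod_cast (Nat.lt_two_pow_self (n := c₀)).le
  have h3 : (#(Tm c c₀) : ℝ) ≤ c₀ * ((2 : ℝ) ^ c₀) ^ 2 := by exact_mod_cast h1
  have h4 : (0 : ℝ) ≤ 2 ^ c₀ := by positivity
  calc _ ≤ _ := h3
    _ ≤ K * K ^ 2 :=
      mul_le_mul (h2.trans h) (pow_le_pow_left₀ h4 h 2) (by positivity) (h4.trans h)
    _ = _ := by ring

section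
variable {c c₀ : ℕ} {K μ : ℝ}

theorem sqrt_le (hK : 1 ≤ K) (h0 : 0 ≤ μ) (hμ : μ * ((2 : ℝ) ^ c) ^ 2 ≤ K) :
    Real.sqrt μ * 2 ^ c ≤ K := by
  have : (Real.sqrt μ * 2 ^ c) ^ 2 ≤ K ^ 2 := by
    rw [mul_pow, Real.sq_sqrt h0]; nlinarith
  exact le_of_sq_le_sq this (by linarith)

theorem amp_le (hK : 1 ≤ K) (h0 : 0 ≤ μ) (hμ : μ * ((2 : ℝ) ^ c) ^ 2 ≤ K) {t : Ix}
    (ht : t ∈ Tm c c₀) : Real.sqrt μ * 2 ^ t.2.1 ≤ K :=
  le_trans (by gcongr; exacts [one_le_two, (mem_Tm ht).2.1.le]) (sqrt_le hK h0 hμ)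

theorem abs_mn {a : Pt} {n : ℕ} (hn : 0 < n) {u : Pt → ℝ} (h : ∀ x ∈ sq a n, |u x| ≤ K) :
    |mn a n u| ≤ K := by
  have h0 : (0 : ℝ) < (n : ℝ) ^ 2 := by positivity
  rw [mn, abs_div, abs_of_pos h0, div_le_iff₀ h0]
  refine (abs_sum_le_sum_abs _ _).trans ((sum_le_sum h).trans_eq ?_)
  rw [sum_const, card_sq, nsmul_eq_mul]; push_cast; ring

theorem abs_hc (hK : 1 ≤ K) (h0 : 0 ≤ μ) (hμ : μ * ((2 : ℝ) ^ c) ^ 2 ≤ K) {u : Pt → ℝ}
    (hu : ∀ x ∈ sq 0 (2 ^ c), |u x| ≤ K) {t : Ix} (ht : t ∈ Tm c c₀) :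
    |hc μ (2 ^ c) u t| ≤ 2 * K ^ 2 := by
  have hp := (mem_Tm ht).2.2
  have hch := (child_sub_par t.1 t.2.1 t.2.2).trans hp
  have e : ip (sq 0 (2 ^ c)) (hf t.1 t.2.1 t.2.2) u =
      mn (tile t.1 (2 ^ t.2.1) t.2.2) (2 ^ t.2.1) u -
        mn (tile t.1 (2 ^ (t.2.1 + 1)) (par t.2.2)) (2 ^ (t.2.1 + 1)) u := by
    simp only [ip, hf, Pi.sub_apply, sub_mul, sum_sub_distrib]
    rw [sum_ua_mul hch, sum_ua_mul hp]
  have h1 := abs_mn (K := K) (by positivity) fun x hx => hu x (hch hx)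
  have h2 := abs_mn (K := K) (by positivity) fun x hx => hu x (hp hx)
  have h3 : |ip (sq 0 (2 ^ c)) (hf t.1 t.2.1 t.2.2) u| ≤ 2 * K := by
    rw [e]; exact (abs_sub _ _).trans (by linarith)
  rw [hc, abs_mul, abs_of_nonneg (by positivity)]
  calc _ ≤ K * (2 * K) := mul_le_mul (amp_le hK h0 hμ ht) h3 (abs_nonneg _) (by linarith)
    _ = _ := by ring

theorem sup_gz (μ : ℝ) (z : Ix → ℝ) : Sup (sq 0 (2 ^ c)) (gz μ (Tm c c₀) z) := fun x hx => by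
  rw [gz_apply]
  exact sum_eq_zero fun t ht => by rw [hf_off fun h => hx ((mem_Tm ht).2.2 h), mul_zero]

theorem sum_gz (μ : ℝ) (z : Ix → ℝ) : ∑ x ∈ sq 0 (2 ^ c), gz μ (Tm c c₀) z x = 0 := by
  simp only [gz_apply]
  rw [sum_comm]
  exact sum_eq_zero fun t ht => by rw [← mul_sum, sum_hf (mem_Tm ht).2.2, mul_zero]

theorem abs_gz (hK : 1 ≤ K) (hc₀ : (2 : ℝ) ^ c₀ ≤ K) (h0 : 0 ≤ μ) (hμ : μ * ((2 : ℝ) ^ c) ^ 2 ≤ K)
    {z : Ix → ℝ} {R : ℝ} (hR : 0 ≤ R) (hz : ∀ t ∈ Tm c c₀, |z t| ≤ R) (x : Pt) :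
    |gz μ (Tm c c₀) z x| ≤ K ^ 6 * R / ((2 : ℝ) ^ c) ^ 2 := by
  have hK0 : 0 ≤ K := by linarith
  have h1 : ∀ t ∈ Tm c c₀, |z t * (Real.sqrt μ * 2 ^ t.2.1) * hf t.1 t.2.1 t.2.2 x| ≤
      R * K * (K ^ 2 / ((2 : ℝ) ^ c) ^ 2) := fun t ht => by
    rw [abs_mul, abs_mul, abs_of_nonneg (show 0 ≤ Real.sqrt μ * 2 ^ t.2.1 by positivity)]
    refine mul_le_mul (mul_le_mul (hz t ht) (amp_le hK h0 hμ ht) (by positivity) hR)
      ((abs_hf _ _ _ _).trans ?_) (abs_nonneg _) (by positivity)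
    have h2 : (2 : ℝ) ^ c ≤ K * 2 ^ t.2.1 := by
      have h3 : (2 : ℝ) ^ c ≤ 2 ^ (c₀ + t.2.1) :=
        pow_le_pow_right₀ one_le_two (by have := (mem_Tm ht).1; omega)
      rw [pow_add] at h3
      exact h3.trans (by gcongr)
    rw [div_le_div_iff₀ (by positivity) (by positivity), one_mul, ← mul_pow]
    gcongr
  rw [gz_apply]
  refine (abs_sum_le_sum_abs _ _).trans ((sum_le_card_nsmul _ _ _ h1).trans ?_)
  rw [nsmul_eq_mul]
  calc _ ≤ K ^ 3 * (R * K * (K ^ 2 / ((2 : ℝ) ^ c) ^ 2)) := by gcongr; exact card_Tm hc₀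
    _ = _ := by ring

/-- lower bound of the Gaussian factor -/
theorem gq_low (hR : R1Stmt) (hB : BrStmt) {Λ : Lat} (hΛ : Λ.Ok) (hK : 1 ≤ K)
    (hc₀ : (2 : ℝ) ^ c₀ ≤ K) (h0 : 0 ≤ μ) (hμ : μ * ((2 : ℝ) ^ c) ^ 2 ≤ K) {τ₂ : ℝ} (hτ : Λ.τ ≤ τ₂) :
    Real.exp (-(16 * τ₂ * K ^ 5)) ≤ Ex (Λ.WN (2 ^ c)) (gq (Tm c c₀) (hl μ)) := by
  have hL : 1 ≤ 2 ^ c := Nat.one_le_two_pow
  have cen := T84.cen_WN hΛ hL
  have hτ0 := hΛ.pos
  have hK0 : 0 ≤ K := by linarith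
  have h1 : ∀ t ∈ Tm c c₀, Vr (Λ.WN (2 ^ c)) (hl μ t) (hl μ t) ≤ K ^ 2 * (τ₂ * 32) := fun t ht => by
    have h2 := (T84.bare_WN hB hΛ hL ((hf_flow hR hΛ t.1 t.2.1 t.2.2).subset
      (Lat.edI_mono (mem_Tm ht).2.2))).1
    rw [hl, Vr_smul_left, Vr_smul_right, ← mul_assoc, ← pow_two]
    refine mul_le_mul (pow_le_pow_left₀ (by positivity) (amp_le hK h0 hμ ht) 2)
      (h2.trans (by gcongr)) (cen.wt.Vr_nonneg cen.se _) (by positivity)
  have h2 := (sum_le_card_nsmul _ _ _ h1)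
  rw [nsmul_eq_mul] at h2
  have h3 : (#(Tm c c₀) : ℝ) * (K ^ 2 * (τ₂ * 32)) ≤ K ^ 3 * (K ^ 2 * (τ₂ * 32)) :=
    mul_le_mul_of_nonneg_right (card_Tm hc₀) (by have := hτ0.le.trans hτ; positivity)
  rw [← Real.le_log_iff_exp_le (cen.wt.ex_pos' (cen.ig (Tame.gq _ _)) fun s => gq_pos _ _ s)]
  refine le_trans ?_ (le_log_gq cen _ _)
  nlinarith

end

/-- the flow of `A u` is small -/
theorem fs_Au {Λ : Lat} (hΛ : Λ.Ok) (B : Finset Pt) {u : Pt → ℝ} {K L : ℝ} (hu : Sm2 u K L) :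
    Fs (Λ.edI B) (Λ.Au B u) (K / L * (2 * Λ.rg) / Λ.τ) := by
  refine ⟨_, rfl, fun e he => ?_⟩
  have h0 : 0 ≤ K / L := (abs_nonneg _).trans (hu.1 0 0)
  have h1 := Lat.le_rg (Lat.mem_Jp.1 (Lat.mem_edI.1 he).1).1
  have h2 : |((e.2 - e.1).1 : ℝ)| ≤ Λ.rg := by exact_mod_cast h1.1
  have h3 : |((e.2 - e.1).2 : ℝ)| ≤ Λ.rg := by exact_mod_cast h1.2
  rw [abs_div, abs_of_pos hΛ.pos]
  refine div_le_div_of_nonneg_right ((hu.lip _ _).trans ?_) hΛ.pos.le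
  rw [T84.co_sum]
  exact mul_le_mul_of_nonneg_left (by linarith) h0

/-- the test densities -/
noncomputable def eta (Λ : Lat) (c c₀ : ℕ) (μ a : ℝ) (u : Pt → ℝ) (z : Ix → ℝ) (q : ℤ) : Pt → ℝ :=
  a • Λ.Au (sq 0 (2 ^ c)) u + (gz μ (Tm c c₀) z + (2 * Real.pi * q) • ua 0 (2 ^ c))

theorem pr_eta (Λ : Lat) (c c₀ : ℕ) (μ a : ℝ) (u : Pt → ℝ) (z : Ix → ℝ) (q : ℤ) :
    pr (eta Λ c c₀ μ a u z q) = a • Λ.X (2 ^ c) u +
      (zl (Tm c c₀) (hl μ) z + (2 * Real.pi * q) • pr (ua 0 (2 ^ c))) := by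
  rw [eta, pr_add, pr_add, pr_smul, pr_smul, pr_gz, Lat.X]

theorem ip_eta (Λ : Lat) (c c₀ : ℕ) (μ a : ℝ) (u : Pt → ℝ) (z : Ix → ℝ) :
    ip (sq 0 (2 ^ c)) (eta Λ c c₀ μ a u z 0) u =
      a * Λ.En (sq 0 (2 ^ c)) u u + ∑ t ∈ Tm c c₀, z t * hc μ (2 ^ c) u t := by
  rw [← ip_gz, ← T84.ip_Au]
  simp only [ip, eta, Pi.add_apply, Pi.smul_apply, smul_eq_mul, Int.cast_zero, mul_zero, zero_mul,
    add_zero, mul_sum, ← sum_add_distrib]
  exact sum_congr rfl fun x _ => by ring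

theorem chg_eta (hC : R1cStmt) {Λ : Lat} (hΛ : Λ.Ok) {c c₀ : ℕ} {K μ a A R P : ℝ} (hK : 1 ≤ K)
    (hc₀ : (2 : ℝ) ^ c₀ ≤ K) (h0 : 0 ≤ μ) (hμ : μ * ((2 : ℝ) ^ c) ^ 2 ≤ K) {u : Pt → ℝ}
    (hu : Sm2 u K ((2 ^ c : ℕ) : ℝ)) (ha : |a| ≤ A) {z : Ix → ℝ} (hR : 0 ≤ R)
    (hz : ∀ t ∈ Tm c c₀, |z t| ≤ R) {q : ℤ} (hq : |(q : ℝ)| ≤ K) (hP : 2 * Λ.rg / Λ.τ ≤ P) :
    Λ.Chg (2 ^ c) (A * K * P + 100 * (K ^ 6 * R + 8 * K)) q (eta Λ c c₀ μ a u z q) := by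
  have hL : 1 ≤ 2 ^ c := Nat.one_le_two_pow
  have hK0 : 0 ≤ K := by linarith
  have hA : 0 ≤ A := (abs_nonneg _).trans ha
  have hL0 : (0 : ℝ) < ((2 ^ c : ℕ) : ℝ) := by positivity
  have hπ : |2 * Real.pi * q| ≤ 8 * K := by
    rw [abs_mul, abs_of_pos (by positivity)]
    have := Real.pi_le_four
    exact mul_le_mul (by linarith) hq (abs_nonneg _) (by norm_num)
  have h1 := hC Λ (2 ^ c) (K ^ 6 * R + 8 * K) q
    (gz μ (Tm c c₀) z + (2 * Real.pi * q) • ua 0 (2 ^ c)) 0 hΛ hL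
    (fun x hx => by rw [Pi.add_apply, sup_gz μ z x hx, Pi.smul_apply, ua_off hx]; simp)
    (fun x => by
      have h2 := abs_gz hK hc₀ h0 hμ hR hz x
      have h3 : |ua 0 (2 ^ c) x| ≤ 1 / ((2 ^ c : ℕ) : ℝ) ^ 2 := by
        rw [abs_of_nonneg (ua_nonneg _ _ _)]; exact ua_le _ _ _
      rw [Pi.add_apply, Pi.smul_apply, smul_eq_mul, add_div]
      refine (abs_add_le _ _).trans (add_le_add (by exact_mod_cast h2) ?_)
      rw [abs_mul, div_eq_mul_one_div]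
      exact mul_le_mul hπ h3 (abs_nonneg _) (by positivity))
    (fun d => by simp only [Pi.zero_apply, abs_zero]; positivity)
    (by
      simp only [Pi.add_apply, Pi.smul_apply, smul_eq_mul, sum_add_distrib, sum_gz, ← mul_sum,
        sum_ua hL subset_rfl, Pi.zero_apply, sum_const_zero]
      ring)
  have h2 := ((fs_Au hΛ (sq 0 (2 ^ c)) hu).smul a).add h1
  refine (h2.mono ?_).congr (funext fun x => ?_)
  · rw [add_div]
    refine add_le_add ?_ le_rfl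
    have : K / ((2 ^ c : ℕ) : ℝ) * (2 * Λ.rg) / Λ.τ = K * (2 * Λ.rg / Λ.τ) / ((2 ^ c : ℕ) : ℝ) := by ring
    rw [this, ← mul_div_assoc, mul_assoc]
    have := hΛ.pos
    gcongr
  · simp only [eta, side, Pi.add_apply, Pi.smul_apply, smul_eq_mul, Pi.zero_apply, zero_mul,
      sum_const_zero]
    ring

theorem f2_of_chg {Λ : Lat} {L : ℕ} (hL : 1 ≤ L) {K J : ℝ} {q : ℤ} {η : Pt → ℝ} (h : Λ.Chg L K q η)
    (hJ : (Λ.J.card : ℝ) ≤ J) :
    F2 (Λ.edI (sq 0 L)) (fun x => η x - 2 * Real.pi * q * sd L 0 x) (J * K ^ 2) := by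
  refine (Fs.f2 h).mono ?_
  have hL0 : (0 : ℝ) < L := by exact_mod_cast hL
  have h1 : (Λ.edI (sq 0 L)).card ≤ L ^ 2 * Λ.J.card := by
    refine (card_edI_le Λ _).trans ?_
    rw [card_sq]
    exact Nat.mul_le_mul_left _ (card_filter_le _ _)
  have h2 : ((Λ.edI (sq 0 L)).card : ℝ) ≤ (L : ℝ) ^ 2 * Λ.J.card := by exact_mod_cast h1
  calc _ ≤ (L : ℝ) ^ 2 * J * (K / L) ^ 2 := by gcongr; exact h2.trans (by gcongr)
    _ = _ := by field_simp

end P84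

open Finset Uv P84

theorem ploStmt (hS : SdStmt) (hP : T2pStmt) (hH : HsStmt) (hO : OdeStmt) (hC : R1cStmt) (hR : R1Stmt)
    (hB : BrStmt) (_hJ : RJStmt) (hM : T1mStmt) : PloStmt := by
  intro F θ₀ K ε h0 hK hε
  have hτ₁ := F.pos
  have hK0 : 0 ≤ K := by linarith
  set g₀ : ℝ := Real.exp (-(16 * F.τ₂ * K ^ 5)) with hg₀
  have hg : 0 < g₀ := Real.exp_pos _
  obtain ⟨R, η, hR0, hη, hHs⟩ := hH ⌈K ^ 3⌉₊ (2 * K ^ 2) (ε * g₀) (by positivity)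
  set P : ℝ := 2 * (Crest.ProbabilityR.HeightModel.interactionRange F.J : ℝ) / F.τ₁ with hPd
  have hP0 : 0 ≤ P := by positivity
  set K' : ℝ := 2 / θ₀ * K * P + 100 * (K ^ 6 * (R + 2 * K ^ 2) + 8 * K) with hK'
  have hKK : K ≤ K' := by
    have : 0 ≤ 2 / θ₀ * K * P := by positivity
    have : 0 ≤ K ^ 6 * (R + 2 * K ^ 2) := by positivity
    linarith
  set c₁ : ℝ := K ^ 3 * (R * (2 * K ^ 2)) with hc₁
  set ε₁ : ℝ := η * (θ₀ / 2) / Real.exp c₁ with hε₁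
  have hε₁0 : 0 < ε₁ := by positivity
  obtain ⟨δ₁, hδ₁, hSd⟩ := hS F θ₀ K' ε₁ h0 (hK.trans hKK) hε₁0
  obtain ⟨δ₂, hδ₂, hT2⟩ := hP F θ₀ (max K (F.J.card * K' ^ 2)) η h0 (le_max_of_le_left hK) hη
  obtain ⟨δ₃, hδ₃, hT⟩ := hM.2.2 F θ₀ 1 0 h0 one_pos
  refine ⟨min δ₁ (min δ₂ δ₃), by positivity, fun Λ hΛ l L hW μ u c c₀ hL hc₀ hμ0 hμ hu hub => ?_⟩
  subst hL
  have hΛo := T84.ok_of hΛ
  have hτ := hΛo.pos
  have hL : 1 ≤ 2 ^ c := Nat.one_le_two_pow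
  have hL0 : (0 : ℝ) ≤ ((2 ^ c : ℕ) : ℝ) := by positivity
  have hμ' : μ * ((2 : ℝ) ^ c) ^ 2 ≤ K := by exact_mod_cast hμ
  have hθ : θ₀ / 2 ≤ Λ.tN l :=
    (hT Λ hΛ l _ (T84.Win.mono hW ((min_le_right _ _).trans (min_le_right _ _)))).2.1
  have hθ0 : 0 < Λ.tN l := lt_of_lt_of_le (by positivity) hθ
  have hθi : |(Λ.tN l)⁻¹| ≤ 2 / θ₀ := by
    rw [abs_of_pos (inv_pos.2 hθ0), ← inv_div]
    exact inv_anti₀ (by positivity) hθ
  have hPP : 2 * Λ.rg / Λ.τ ≤ P := by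
    rw [hPd, Lat.rg, hΛ.1]
    exact div_le_div_of_nonneg_left (by positivity) hτ₁ hΛ.2.2.1
  have cen := T84.cen_WN hΛo hL
  have St := (hSd Λ hΛ l _ (T84.Win.mono hW (min_le_left _ _)) u (T84.Sm2.mono hu hKK hL0)
    fun x hx => (hub x hx).trans hKK).1
  have T2 := hT2 Λ hΛ l _ (T84.Win.mono hW ((min_le_right _ _).trans (min_le_left _ _)))
  have hlow := gq_low hR hB hΛo hK hc₀ hμ0 hμ' hΛ.2.2.2
  have hh : ∀ t ∈ Tm c c₀, |hc μ (2 ^ c) u t| ≤ 2 * K ^ 2 := fun t ht => abs_hc hK hμ0 hμ' hub ht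
  obtain ⟨Ha, -, Hc⟩ := hHs (Cfg Pt) Ix (Λ.WN (2 ^ c)) (Tm c c₀) (hl μ) cen
    (by exact_mod_cast (card_Tm hc₀).trans (Nat.le_ceil _))
  have hεg : ε * g₀ ≤ ε * Ex (Λ.WN (2 ^ c)) (gq (Tm c c₀) (hl μ)) := by gcongr
  intro T ξ
  constructor
  · have := Hc ((Λ.tN l)⁻¹ • Λ.X (2 ^ c) u) (hc μ (2 ^ c) u) (Λ.En (sq 0 (2 ^ c)) u u / Λ.tN l) hh
      fun z hz => ?_
    · rw [add_mul]
      exact this.trans (add_le_add le_rfl hεg)
    have hcz : |∑ t ∈ Tm c c₀, z t * hc μ (2 ^ c) u t| ≤ c₁ := by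
      refine (abs_sum_le_sum_abs _ _).trans ((sum_le_card_nsmul _ _ (R * (2 * K ^ 2))
        fun t ht => ?_).trans ?_)
      · rw [abs_mul]; exact mul_le_mul (hz t ht) (hh t ht) (abs_nonneg _) hR0.le
      · rw [nsmul_eq_mul, hc₁]; gcongr; exact card_Tm hc₀
    have h1 := hO (Cfg Pt) (Λ.WN (2 ^ c)) ((Λ.tN l)⁻¹ • Λ.X (2 ^ c) u) (zl (Tm c c₀) (hl μ) z)
      (Λ.En (sq 0 (2 ^ c)) u u / Λ.tN l) (∑ t ∈ Tm c c₀, z t * hc μ (2 ^ c) u t) (ε₁ * (2 / θ₀)) cen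
      (div_nonneg (T84.En_nonneg hΛo _ _) hθ0.le) fun t ht0 ht1 => by
        have h2 := St 0 (eta Λ c c₀ μ (t * (Λ.tN l)⁻¹) u z 0) (by simp; linarith)
          (chg_eta hC hΛo hK hc₀ hμ0 hμ' hu (A := 2 / θ₀) (R := R + 2 * K ^ 2)
            (by rw [abs_mul, abs_of_nonneg ht0]; nlinarith [abs_nonneg (Λ.tN l)⁻¹]) (by positivity)
            (fun j hj => (hz j hj).trans (by nlinarith)) (by simpa using hK0) hPP)
        rw [ip_eta, pr_eta, Int.cast_zero, mul_zero, zero_smul, add_zero, ← smul_smul] at h2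
        have e : Ex (Λ.WN (2 ^ c)) (fun s => ((Λ.tN l)⁻¹ • Λ.X (2 ^ c) u) s *
            Real.sin ((t • (Λ.tN l)⁻¹ • Λ.X (2 ^ c) u + zl (Tm c c₀) (hl μ) z) s)) =
            (Λ.tN l)⁻¹ * Ex (Λ.WN (2 ^ c)) (fun s => Λ.X (2 ^ c) u s *
            Real.sin ((t • (Λ.tN l)⁻¹ • Λ.X (2 ^ c) u + zl (Tm c c₀) (hl μ) z) s)) := by
          rw [← Ex_const_mul]
          simp only [AddMonoidHom.smul_apply, smul_eq_mul, mul_assoc]
        rw [e]
        set a := Ex (Λ.WN (2 ^ c)) (fun s => Λ.X (2 ^ c) u s *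
            Real.sin ((t • (Λ.tN l)⁻¹ • Λ.X (2 ^ c) u + zl (Tm c c₀) (hl μ) z) s))
        set p := Ph (Λ.WN (2 ^ c)) (t • (Λ.tN l)⁻¹ • Λ.X (2 ^ c) u + zl (Tm c c₀) (hl μ) z)
        set b := ∑ t ∈ Tm c c₀, z t * hc μ (2 ^ c) u t
        set E := Λ.En (sq 0 (2 ^ c)) u u
        have e2 : (Λ.tN l)⁻¹ * a - (t * (E / Λ.tN l) + b) * p =
            (Λ.tN l)⁻¹ * (a - Λ.tN l * (t * (Λ.tN l)⁻¹ * E + b) * p) := by
          field_simp
        rw [e2, abs_mul, mul_comm]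
        exact mul_le_mul h2 hθi (abs_nonneg _) hε₁0.le
    have h2 : ε₁ * (2 / θ₀) * Real.exp |∑ t ∈ Tm c c₀, z t * hc μ (2 ^ c) u t| ≤ η := by
      calc _ ≤ ε₁ * (2 / θ₀) * Real.exp c₁ := by gcongr
        _ = η := by rw [hε₁]; field_simp
    linarith [(abs_le.1 (h1.trans h2)).2]
  · intro q hq hqK
    have := Ha (ξ + (2 * Real.pi * q) • pr (ua 0 (2 ^ c))) fun z hz => ?_
    · exact this.trans hεg
    have h1 := chg_eta hC hΛo hK hc₀ hμ0 hμ' hu (A := 2 / θ₀) (R := R + 2 * K ^ 2) hθi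
      (z := hc μ (2 ^ c) u + z) (by positivity)
      (fun j hj => (abs_add_le _ _).trans (by linarith [hz j hj, hh j hj])) hqK hPP
    have h2 := T2 q _ hq (hqK.trans (le_max_left _ _))
      ((f2_of_chg hL h1 (J := F.J.card) (by rw [hΛ.1])).mono (le_max_right _ _))
    rw [pr_eta, zl_add] at h2
    refine le_of_eq_of_le (congrArg _ ?_) h2
    simp only [ξ, T]
    abel

end Crest.Agent.T145.Mx
end

-- ▼ part T145/MxAll_9

/-!
# Row 145, module Mx: assembly (helper9)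
-/

set_option autoImplicit false

namespace Crest.Agent.T145.Mx

/-- the form of (T4) used in this module -/
theorem gd_of (h : Nc.GdStmt) : GdStmt := by
  intro F θ₀ h0
  obtain ⟨W, r₀, c, hc, H⟩ := h F θ₀ (1 / 400) h0 (by norm_num)
  refine ⟨max W c, r₀, 1, one_pos, fun Λ hΛ l L hw => ?_⟩
  obtain ⟨a, b, d⟩ := (H Λ hΛ).1 _ hw.2.2.1
  refine ⟨le_max_of_le_left a, b, fun r h1 h2 => le_trans ((Nc.U.lgeo Λ hΛ.ok).1 r (W * r) r _ le_rfl
    (Nat.mul_le_mul_right _ (le_max_left _ _)) (by nlinarith)).2 (d r h1 (h2.trans ?_))⟩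
  exact (Nat.div_le_div_left (le_max_right _ _) hc).trans (Nat.div_le_div_right (by omega))

/-- everything the module takes from outside -/
structure Inp : Prop where
  t1m : T1mStmt
  t1a : T1aStmt
  t1x : T1xStmt
  sd : SdStmt
  t2p : T2pStmt
  r1 : R1Stmt
  r1c : R1cStmt
  br : BrStmt
  rj : RJStmt
  afac : AFacStmt
  gd : Nc.GdStmt

namespace Inp

variable (h : Inp)
include h

theorem uv : UvStmt := uvStmt h.r1 Nc.U.ld1 Nc.U.sub
theorem mup : MupStmt := mupStmt h.t1x h.br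
theorem plo : PloStmt := ploStmt h.sd h.t2p hsStmt odeStmt h.r1c h.r1 h.br h.rj h.t1m
theorem phm : PhmStmt := phmStmt h.plo unfStmt zmStmt h.uv (gd_of h.gd) siteStmt h.afac h.t1m
theorem gm : GmStmt := gmStmt h.phm h.mup h.afac h.rj h.t1m
theorem tv : TvStmt := tvStmt rowStmt celStmt h.mup h.phm hsStmt h.t1m
theorem ff : FfStmt := ffStmt h.gm h.t1m
theorem mix0 : Mix0Stmt := mix0Stmt asmStmt celStmt hitStmt h.tv h.ff siteStmt h.t1m
theorem dl : DlStmt := dlStmt h.mix0 h.gm siteStmt h.t1a h.t1m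
theorem dlGen : Mx31.DlGenStmt := Mx31.dlGen h.mix0 h.gm h.t1a h.t1m

end Inp

end Crest.Agent.T145.Mx
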