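import Crest.Agent.T145.GksB_60
import Crest.Agent.T145.MdlD_73
import Crest.Agent.T145.NcT4Def_78
import Crest.Agent.T145.NcBas_78
import Crest.Agent.T145.MxA_9
import Crest.Agent.T145.PotD_17
import Crest.Agent.T145.PotHl_59
import Crest.Agent.T145.PotPo_44
import Crest.Agent.T145.PotAn_44
import Crest.Agent.T145.Route_51
import Mathlib
import Crest.Agent.T145.T3A_84
import Crest.Agent.T145.Sm_58
import Crest.Agent.T145.Soft_23
import Crest.Agent.T145.RJa_57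
import Crest.Agent.T145.BrB_73
import Crest.Agent.T145.NcGeo_51
import Crest.Agent.T145.Br_73
import Crest.Agent.T145.Dlg_74
import Crest.Agent.T145.T1a_53
import Crest.Agent.T145.NcAll_78
import Crest.Agent.T145.NcPers_3
import Crest.Agent.T145.T1m_23_Mg

-- ▼ part T145/GksC_60
section

/-!
# Row 145: closure of the class `Gks` and corollaries of GKS (helper60)
-/

set_option autoImplicit false

namespace Crest.Agent.T145

open Finset Gk60

section cls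
variable {V : Type*} [DecidableEq V] {F G : Cfg V × Finset (V × V) → ℝ}

theorem Gks.of_family {ι : Type*} (s : Finset ι) (T : ι → Finset V)
    (g : ι → Cfg V × Finset (V × V) → ℝ) (g0 : ∀ i ∈ s, ∀ p, 0 ≤ p.1 → 0 ≤ g i p)
    (gm : ∀ i ∈ s, ∀ p p', 0 ≤ p.1 → p ≤ p' → g i p ≤ g i p')
    (hF : ∀ p, F p = ∑ i ∈ s, g i (ab p.1, p.2) * ∏ x ∈ T i, ((p.1 x).sign : ℝ)) : Gks F := by
  refine ⟨s.image T, fun S p => ∑ i ∈ s.filter (fun i => T i = S), g i p,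
    fun S p hp => sum_nonneg fun i hi => g0 i (mem_filter.1 hi).1 p hp,
    fun S p p' hp h => sum_le_sum fun i hi => gm i (mem_filter.1 hi).1 p p' hp h, fun p => ?_⟩
  rw [hF, ← sum_fiberwise_of_maps_to (g := T) fun i hi => mem_image_of_mem T hi]
  refine sum_congr rfl fun S _ => ?_
  rw [sum_mul]
  exact sum_congr rfl fun i hi => by rw [(mem_filter.1 hi).2]

omit [DecidableEq V] in
theorem Gks.congr (h : Gks F) (e : ∀ p, G p = F p) : Gks G := by
  rw [show G = F from funext e]; exact h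

omit [DecidableEq V] in
/-- a nonnegative monotone function of `(|s|, ω)` -/
theorem Gks.abs {φ : Cfg V × Finset (V × V) → ℝ} (h0 : ∀ p, 0 ≤ p.1 → 0 ≤ φ p)
    (hm : ∀ p p', 0 ≤ p.1 → p ≤ p' → φ p ≤ φ p') : Gks fun p => φ (ab p.1, p.2) :=
  ⟨{∅}, fun _ => φ, fun _ => h0, fun _ => hm, fun _ => by simp⟩

omit [DecidableEq V] in
theorem Gks.const {c : ℝ} (hc : 0 ≤ c) : Gks fun _ : Cfg V × Finset (V × V) => c :=
  Gks.abs (φ := fun _ => c) (fun _ _ => hc) fun _ _ _ _ => le_rfl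

theorem Gks.add (hF : Gks F) (hG : Gks G) : Gks fun p => F p + G p := by
  obtain ⟨𝒯, g, g0, gm, hF⟩ := hF
  obtain ⟨𝒯', g', g0', gm', hG⟩ := hG
  refine Gks.of_family (𝒯.disjSum 𝒯') (Sum.elim id id) (Sum.elim g g') ?_ ?_ fun p => ?_
  · rintro (T | T) _
    exacts [g0 T, g0' T]
  · rintro (T | T) _
    exacts [gm T, gm' T]
  · rw [sum_disjSum, hF, hG]; rfl

theorem sign_sq (k : ℤ) : ((k.sign : ℤ) : ℝ) * (k.sign : ℝ) = ((|k|.sign : ℤ) : ℝ) := by
  rcases lt_trichotomy k 0 with h | h | h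
  · rw [Int.sign_eq_one_of_pos (abs_pos.2 h.ne), Int.sign_eq_neg_one_of_neg h]; norm_num
  · simp [h]
  · rw [Int.sign_eq_one_of_pos (abs_pos.2 h.ne'), Int.sign_eq_one_of_pos h]; norm_num

theorem sign_mono {j k : ℤ} (hj : 0 ≤ j) (h : j ≤ k) :
    (0 : ℝ) ≤ (j.sign : ℝ) ∧ ((j.sign : ℤ) : ℝ) ≤ (k.sign : ℝ) := by
  refine ⟨by exact_mod_cast Int.sign_nonneg_iff.2 hj, ?_⟩
  rcases hj.eq_or_lt with c | c
  · rw [← c]; simpa using Int.sign_nonneg_iff.2 (hj.trans h)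
  · rw [Int.sign_eq_one_of_pos c, Int.sign_eq_one_of_pos (c.trans_le h)]

theorem Gks.mul (hF : Gks F) (hG : Gks G) : Gks fun p => F p * G p := by
  obtain ⟨𝒯, g, g0, gm, hF⟩ := hF
  obtain ⟨𝒯', g', g0', gm', hG⟩ := hG
  refine Gks.of_family (𝒯 ×ˢ 𝒯') (fun i => (i.1 \ i.2) ∪ (i.2 \ i.1))
    (fun i p => g i.1 p * g' i.2 p * ∏ x ∈ i.1 ∩ i.2, ((p.1 x).sign : ℝ))
    (fun i _ p hp => mul_nonneg (mul_nonneg (g0 _ p hp) (g0' _ p hp))
      (prod_nonneg fun x _ => (sign_mono (hp x) le_rfl).1)) (fun i _ p p' hp h => ?_) fun p => ?_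
  · have hp' : 0 ≤ p'.1 := hp.trans h.1
    exact mul_le_mul (mul_le_mul (gm _ p p' hp h) (gm' _ p p' hp h) (g0' _ p hp) (g0 _ p' hp'))
      (prod_le_prod (fun x _ => (sign_mono (hp x) le_rfl).1) fun x _ => (sign_mono (hp x) (h.1 x)).2)
      (prod_nonneg fun x _ => (sign_mono (hp x) le_rfl).1)
      (mul_nonneg (g0 _ p' hp') (g0' _ p' hp'))
  · rw [hF, hG, sum_mul_sum, sum_product]
    refine sum_congr rfl fun T _ => sum_congr rfl fun T' _ => ?_
    simp only [ab_apply, ← sign_sq, prod_mul_distrib]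
    rw [prod_union disjoint_sdiff_sdiff, ← prod_inter_mul_prod_sdiff T T',
      ← prod_inter_mul_prod_sdiff T' T, inter_comm T' T]
    ring

theorem Gks.smul (hF : Gks F) {c : ℝ} (hc : 0 ≤ c) : Gks fun p => c * F p := (Gks.const hc).mul hF

theorem Gks.sum {ι : Type*} (s : Finset ι) {F : ι → Cfg V × Finset (V × V) → ℝ}
    (h : ∀ i ∈ s, Gks (F i)) : Gks fun p => ∑ i ∈ s, F i p := by
  classical
  induction s using Finset.induction_on with
  | empty => exact (Gks.const le_rfl).congr fun g => sum_empty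
  | insert k s hk ih =>
    exact ((h k (mem_insert_self k s)).add (ih fun j hj => h j (mem_insert_of_mem hj))).congr
      fun g => sum_insert hk

theorem Gks.prod {ι : Type*} (s : Finset ι) {F : ι → Cfg V × Finset (V × V) → ℝ}
    (h : ∀ i ∈ s, Gks (F i)) : Gks fun p => ∏ i ∈ s, F i p := by
  classical
  induction s using Finset.induction_on with
  | empty => exact (Gks.const zero_le_one).congr fun g => prod_empty
  | insert k s hk ih =>
    exact ((h k (mem_insert_self k s)).mul (ih fun j hj => h j (mem_insert_of_mem hj))).congr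
      fun g => prod_insert hk

theorem Gks.pow (hF : Gks F) (n : ℕ) : Gks fun p => F p ^ n :=
  (Gks.prod (range n) fun _ _ => hF).congr fun p => by simp

/-- an odd function of one height, nonnegative and monotone on `k ≥ 0` -/
theorem Gks.odd (x : V) {φ : ℤ → ℝ} (ho : ∀ k, φ (-k) = -φ k) (h0 : ∀ k, 0 ≤ k → 0 ≤ φ k)
    (hm : ∀ j k, 0 ≤ j → j ≤ k → φ j ≤ φ k) : Gks fun p : Cfg V × Finset (V × V) => φ (p.1 x) := by
  refine ⟨{{x}}, fun _ p => φ (p.1 x), fun _ p hp => h0 _ (hp x),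
    fun _ p p' hp h => hm _ _ (hp x) (h.1 x), fun p => ?_⟩
  simp only [sum_singleton, prod_singleton, ab_apply]
  rcases lt_trichotomy (p.1 x) 0 with h | h | h
  · rw [abs_of_neg h, ho, Int.sign_eq_neg_one_of_neg h]; simp
  · have := ho 0
    rw [neg_zero] at this
    rw [h]; simp; linarith
  · rw [abs_of_pos h, Int.sign_eq_one_of_pos h]; simp

/-- an even function of one height, nonnegative and monotone on `k ≥ 0` -/
theorem Gks.even (x : V) {φ : ℤ → ℝ} (he : ∀ k, φ (-k) = φ k) (h0 : ∀ k, 0 ≤ k → 0 ≤ φ k)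
    (hm : ∀ j k, 0 ≤ j → j ≤ k → φ j ≤ φ k) : Gks fun p : Cfg V × Finset (V × V) => φ (p.1 x) :=
  (Gks.abs (φ := fun p => φ (p.1 x)) (fun p hp => h0 _ (hp x))
    fun p p' hp h => hm _ _ (hp x) (h.1 x)).congr fun p => by
      simp only [ab_apply]
      rcases abs_choice (p.1 x) with h | h <;> rw [h]
      exact (he _).symm

theorem Gks.coord (x : V) : Gks fun p : Cfg V × Finset (V × V) => (p.1 x : ℝ) :=
  Gks.odd x (φ := fun k => (k : ℝ)) (fun k => Int.cast_neg k) (fun _ h => by exact_mod_cast h)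
    fun _ _ _ h => by exact_mod_cast h

theorem Gks.sign (x : V) : Gks fun p : Cfg V × Finset (V × V) => ((p.1 x).sign : ℝ) :=
  Gks.odd x (φ := fun k => (k.sign : ℝ)) (fun k => by simp) (fun _ h => (sign_mono h le_rfl).1)
    fun _ _ hj h => (sign_mono hj h).2

theorem Gks.cosh1 (x : V) {c : ℝ} (hc : 0 ≤ c) :
    Gks fun p : Cfg V × Finset (V × V) => Real.cosh (c * p.1 x) :=
  Gks.even x (φ := fun k => Real.cosh (c * k)) (fun k => by simp) (fun _ _ => (Real.cosh_pos _).le)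
    fun j k hj h => Real.cosh_le_cosh.2 (by
      have h1 : (0 : ℝ) ≤ j := by exact_mod_cast hj
      have h2 : (j : ℝ) ≤ k := by exact_mod_cast h
      rw [abs_of_nonneg (by positivity), abs_of_nonneg (by nlinarith)]
      nlinarith)

theorem Gks.sinh1 (x : V) {c : ℝ} (hc : 0 ≤ c) :
    Gks fun p : Cfg V × Finset (V × V) => Real.sinh (c * p.1 x) :=
  Gks.odd x (φ := fun k => Real.sinh (c * k)) (fun k => by simp)
    (fun k h => Real.sinh_nonneg_iff.2 (mul_nonneg hc (by exact_mod_cast h)))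
    fun j k _ h => Real.sinh_le_sinh.2 (mul_le_mul_of_nonneg_left (by exact_mod_cast h) hc)

theorem Gks.exp1 (x : V) {c : ℝ} (hc : 0 ≤ c) :
    Gks fun p : Cfg V × Finset (V × V) => Real.exp (c * p.1 x) :=
  ((Gks.cosh1 x hc).add (Gks.sinh1 x hc)).congr fun _ => (Real.cosh_add_sinh _).symm

theorem Gks.lin (U : Finset V) {g : V → ℝ} (hg : ∀ x ∈ U, 0 ≤ g x) :
    Gks fun p : Cfg V × Finset (V × V) => ∑ x ∈ U, g x * p.1 x :=
  Gks.sum U fun x hx => (Gks.coord x).smul (hg x hx)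

theorem Gks.expLin (U : Finset V) {g : V → ℝ} (hg : ∀ x ∈ U, 0 ≤ g x) :
    Gks fun p : Cfg V × Finset (V × V) => Real.exp (∑ x ∈ U, g x * p.1 x) :=
  (Gks.prod U fun x hx => Gks.exp1 x (hg x hx)).congr fun _ => Real.exp_sum _ _


theorem Gks.pr {U : Finset V} {g : V → ℝ} (hg : ∀ x, 0 ≤ g x) (hU : ∀ x, x ∉ U → g x = 0) :
    Gks fun p : Cfg V × Finset (V × V) => pr g p.1 :=
  (Gks.lin U fun x _ => hg x).congr fun p => pr_of_fsupp g p.1 hU




omit [DecidableEq V] in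
/-- an increasing event of `(|s|, ω)` -/
theorem Gks.ind {q : Cfg V × Finset (V × V) → Prop} (hq : ∀ p p', 0 ≤ p.1 → p ≤ p' → q p → q p') :
    Gks fun p => ind (q (ab p.1, p.2)) :=
  Gks.abs (φ := fun p => T145.ind (q p)) (fun _ _ => ind_nonneg _)
    fun p p' hp h => ind_mono (hq p p' hp h)


omit [DecidableEq V] in
/-- a monotone function of `(|s|, ω)` minus its least value -/
theorem Gks.abs_sub {φ : Cfg V × Finset (V × V) → ℝ}
    (hm : ∀ p p', 0 ≤ p.1 → p ≤ p' → φ p ≤ φ p') : Gks fun p => φ (ab p.1, p.2) - φ (0, ∅) :=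
  Gks.abs (φ := fun p => φ p - φ (0, ∅))
    (fun _ hp => sub_nonneg.2 (hm _ _ le_rfl ⟨hp, empty_subset _⟩))
    fun p p' hp h => sub_le_sub_right (hm p p' hp h) _

end cls

/-! ## corollaries -/
section cor
variable {V : Type*} [DecidableEq V] {m' m : Mdl V} {η' η : Cfg V}
  {F G : Cfg V × Finset (V × V) → ℝ}

/-- `(m', η')` lies below `(m, η)` in the GKS order -/
structure GLe (m' : Mdl V) (η' : Cfg V) (m : Mdl V) (η : Cfg V) : Prop where
  ed : m'.ed = m.ed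
  w : m'.w = m.w
  fm : m.Fm
  lo : ∀ x, SLe (us m' η' x) (us m η x)
  up : ∀ x, SLe (us m η x) (us m η x)

theorem GLe.refl (hm : m.Fm) (h : ∀ x, SLe (us m η x) (us m η x)) : GLe m η m η :=
  ⟨rfl, rfl, hm, h, h⟩

theorem GLe.right (h : GLe m' η' m η) : GLe m η m η := GLe.refl h.fm h.up

/-- even site weights, `η ≥ 0`, `f ≥ 0` -/
theorem GLe.self {f : V → ℝ} (hm : m.Fm) (ev : m.Ev) (hη : 0 ≤ η) (hf : ∀ x, 0 ≤ f x) :
    GLe (m.force f) η (m.force f) η := GLe.refl hm (sle_self ev hη hf)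

theorem GLe.self0 (hm : m.Fm) (ev : m.Ev) (hη : 0 ≤ η) : GLe m η m η := by
  simpa only [Md.force_zero] using GLe.self (f := 0) hm ev hη fun _ => le_rfl








/-- two-model inequality, normalised -/
theorem GLe.ex_mul (h : GLe m' η' m η) (W' : Wt (m'.J 0 η')) (W : Wt (m.J 0 η)) (hF : Gks F)
    (hG : Gks G) (iF : Ig (m'.J 0 η') F) (iG : Ig (m.J 0 η) G)
    (iFG : Ig (m.J 0 η) fun p => F p * G p) :
    Ex (m'.J 0 η') F * Ex (m.J 0 η) G ≤ Ex (m.J 0 η) fun p => F p * G p := by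
  have := two h.ed h.w h.fm h.lo h.up hF hG W'.summ iF iG iFG
  rw [W'.tsum_eq, W.tsum_eq, W.tsum_eq, mul_mul_mul_comm] at this
  exact le_of_mul_le_mul_left (this.trans_eq (mul_assoc _ _ _).symm) (mul_pos W'.pos W.pos)

/-- monotonicity of the means of the class `Gks` -/
theorem GLe.ex_le (h : GLe m' η' m η) (W' : Wt (m'.J 0 η')) (W : Wt (m.J 0 η)) (hF : Gks F)
    (i' : Ig (m'.J 0 η') F) (i : Ig (m.J 0 η) F) : Ex (m'.J 0 η') F ≤ Ex (m.J 0 η) F := by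
  simpa only [mul_one, W.ex_const] using
    h.ex_mul W' W hF (Gks.const zero_le_one) i' (W.ig_const 1) (by simpa only [mul_one] using i)

/-- GKS-II -/
theorem GLe.cv_nonneg (h : GLe m η m η) (W : Wt (m.J 0 η)) (hF : Gks F) (hG : Gks G)
    (iF : Ig (m.J 0 η) F) (iG : Ig (m.J 0 η) G) (iFG : Ig (m.J 0 η) fun p => F p * G p) :
    0 ≤ Cv (m.J 0 η) F G := sub_nonneg.2 (h.ex_mul W W hF hG iF iG iFG)


/-- a monotone function of `(|s|, ω)` has ordered means -/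
theorem GLe.abs_le (h : GLe m' η' m η) (W' : Wt (m'.J 0 η')) (W : Wt (m.J 0 η))
    {φ : Cfg V × Finset (V × V) → ℝ} (hφ : ∀ p p', 0 ≤ p.1 → p ≤ p' → φ p ≤ φ p')
    (i' : Ig (m'.J 0 η') fun p => φ (ab p.1, p.2)) (i : Ig (m.J 0 η) fun p => φ (ab p.1, p.2)) :
    Ex (m'.J 0 η') (fun p => φ (ab p.1, p.2)) ≤ Ex (m.J 0 η) fun p => φ (ab p.1, p.2) := by
  have := h.ex_le W' W (Gks.abs_sub hφ) (i'.sub (W'.ig_const _)) (i.sub (W.ig_const _))
  rw [W'.ex_sub_const i', W.ex_sub_const i] at this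
  linarith


/-- increasing events of `(|s|, ω)` -/
theorem GLe.pr_le (h : GLe m' η' m η) (W' : Wt (m'.J 0 η')) (W : Wt (m.J 0 η))
    {q : Cfg V × Finset (V × V) → Prop} (hq : ∀ p p', 0 ≤ p.1 → p ≤ p' → q p → q p') :
    Pr (m'.J 0 η') (fun p => q (ab p.1, p.2)) ≤ Pr (m.J 0 η) fun p => q (ab p.1, p.2) :=
  h.ex_le W' W (Gks.ind hq) (W'.ig_ind _) (W.ig_ind _)


theorem cv_sub_const {α : Type*} {W F G : α → ℝ} (hW : Wt W) (iF : Ig W F) (iG : Ig W G)
    (iFG : Ig W fun a => F a * G a) (c : ℝ) : Cv W F (fun a => G a - c) = Cv W F G := by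
  unfold Cv
  simp only [mul_sub]
  rw [Ex_sub iFG (iF.mul_const c), Ex_mul_const, hW.ex_sub_const iG]
  ring

/-- the class `Gks` is positively correlated with monotone functions of `(|s|, ω)` -/
theorem GLe.cv_abs (h : GLe m η m η) (W : Wt (m.J 0 η)) (hF : Gks F)
    {φ : Cfg V × Finset (V × V) → ℝ} (hφ : ∀ p p', 0 ≤ p.1 → p ≤ p' → φ p ≤ φ p')
    (iF : Ig (m.J 0 η) F) (i : Ig (m.J 0 η) fun p => φ (ab p.1, p.2))
    (iFφ : Ig (m.J 0 η) fun p => F p * φ (ab p.1, p.2)) :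
    0 ≤ Cv (m.J 0 η) F fun p => φ (ab p.1, p.2) := by
  rw [← cv_sub_const W iF i iFφ (φ (0, ∅))]
  exact h.cv_nonneg W hF (Gks.abs_sub hφ) iF (i.sub (W.ig_const _))
    ((iFφ.sub (iF.mul_const (φ (0, ∅)))).congr fun p _ => (mul_sub _ _ _).symm)

theorem GLe.cv_abs_anti (h : GLe m η m η) (W : Wt (m.J 0 η)) (hF : Gks F)
    {φ : Cfg V × Finset (V × V) → ℝ} (hφ : ∀ p p', 0 ≤ p.1 → p ≤ p' → φ p' ≤ φ p)
    (iF : Ig (m.J 0 η) F) (i : Ig (m.J 0 η) fun p => φ (ab p.1, p.2))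
    (iFφ : Ig (m.J 0 η) fun p => F p * φ (ab p.1, p.2)) :
    Cv (m.J 0 η) F (fun p => φ (ab p.1, p.2)) ≤ 0 := by
  have := h.cv_abs W hF (φ := fun p => -φ p) (fun p p' a b => neg_le_neg (hφ p p' a b)) iF i.neg
    (iFφ.neg.congr fun p _ => (mul_neg _ _).symm)
  unfold Cv at this ⊢
  simp only [mul_neg, Ex_neg] at this
  linarith





/-! ### heights only -/

theorem GLe.nn (h : GLe m' η' m η) : m'.Nn ∧ m.Nn :=
  ⟨fun x hx k => by simpa only [us, if_pos hx] using (h.lo x).n' k,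
    fun x hx k => by simpa only [us, if_pos hx] using (h.lo x).n k⟩


variable {F G : Cfg V → ℝ}










end cor

end Crest.Agent.T145
end

-- ▼ part T145/NcCross_60
section

/-!
# Row 145: soft T4, a crossing forces persistence (`keyStmt`, `crossStmt`) (helper60)
-/

set_option autoImplicit false

namespace Crest.Agent.T145.Nc

open Finset

namespace Cr60

variable {V : Type} [DecidableEq V] {m : Mdl V}

/-- global flip of the heights -/
noncomputable def fl (V : Type) : Cfg V × Finset (V × V) ≃ Cfg V × Finset (V × V) :=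
  (Equiv.neg (Cfg V)).prodCongr (Equiv.refl _)

/-- translation of the heights -/
noncomputable def tr (u : Cfg V) : Cfg V × Finset (V × V) ≃ Cfg V × Finset (V × V) :=
  (Equiv.addRight u).prodCongr (Equiv.refl _)

theorem J_fl (hF : m.Fm) (hE : m.Ev) (q : Cfg V × Finset (V × V)) : m.J 0 0 (fl V q) = m.J 0 0 q := by
  change m.J 0 0 (-q.1, q.2) = _
  simp only [Mdl.J, Mdl.bw, Finsupp.neg_apply, sub_zero, abs_neg]
  congr 1
  · congr 1
    · congr 1
      exact ind_congr (by simp)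
    · refine prod_congr rfl fun e he => ?_
      split_ifs
      · congr 1
        rw [← (hF e he).even]
        congr 1
        simp only [dE, Finsupp.neg_apply]; ring
      · rfl
  · exact prod_congr rfl fun x hx => (hE x hx _).2

theorem J_tr {u η : Cfg V} (h1 : ∀ x ∈ m.A, u x = 0) (h2 : ∀ x, x ∉ m.A → u x = η x)
    (he : ∀ e ∈ m.ed, e.1 ∈ m.A ∧ e.2 ∈ m.A) (h : ℤ) (q : Cfg V × Finset (V × V)) :
    m.J h η (tr u q) = m.J h 0 q := by
  change m.J h η (q.1 + u, q.2) = _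
  simp only [Mdl.J, Mdl.bw, Finsupp.add_apply]
  congr 1
  · congr 1
    · congr 1
      refine ind_congr (forall_congr' fun x => imp_congr_right fun hx => ?_)
      rw [h2 x hx]; simp
    · refine prod_congr rfl fun e hE => ?_
      simp only [dE, Finsupp.add_apply, h1 _ (he e hE).1, h1 _ (he e hE).2, add_zero]
  · exact prod_congr rfl fun x hx => by rw [h1 x hx, add_zero]

theorem pr_nonneg {f : V → ℝ} {u : Cfg V} (hf : ∀ x, 0 ≤ f x) (hu : ∀ x, 0 ≤ u x) : 0 ≤ pr f u := by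
  rw [pr_of_zero f u (U := u.support) fun x hx => Finsupp.notMem_support_iff.1 hx]
  exact sum_nonneg fun x _ => mul_nonneg (hf x) (by exact_mod_cast hu x)

/-- exponential moments on a decreasing bond event -/
theorem exp_le (hF : m.Fm) (hE : m.Ev) (hW : Wt (m.W 0)) (hS : SE (m.W 0)) {f : V → ℝ}
    (hf : ∀ x, 0 ≤ f x) {D : Finset (V × V) → Prop} (hD : ∀ ω ω', ω ⊆ ω' → D ω' → D ω) {B : ℝ}
    (hB : M (m.W 0) (pr f) ≤ B) (ε : ℝ) (hε : ε = 1 ∨ ε = -1) :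
    Ig (m.J 0 0) (fun q => ind (D q.2) * Real.exp (ε * pr f q.1)) ∧
      Ex (m.J 0 0) (fun q => ind (D q.2) * Real.exp (ε * pr f q.1)) ≤
        Real.exp B * Ex (m.J 0 0) fun q => ind (D q.2) := by
  have J := Mdl.wt_J hF hE.nn 0 hW
  have i0 : Ig (m.J 0 0) fun q => Real.exp (pr f q.1) := (Mdl.ig_J_fst J _).2 (hS _)
  have c : ∀ q, m.J 0 0 q ≠ 0 → pr f q.1 = ∑ x ∈ m.A, f x * q.1 x := fun q hq => Mx.pr_J hq f
  have i1 : Ig (m.J 0 0) fun q => Real.exp (∑ x ∈ m.A, f x * q.1 x) :=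
    i0.congr fun q hq => by rw [c q hq]
  have k := (GLe.self0 hF hE le_rfl).cv_abs_anti J (Gks.expLin m.A fun x _ => hf x)
    (φ := fun q => ind (D q.2)) (fun p p' _ h => ind_mono (hD _ _ h.2)) i1 (J.ig_ind _)
    (i1.mul_ind J.nonneg _)
  have e1 : Ex (m.J 0 0) (fun q => Real.exp (∑ x ∈ m.A, f x * q.1 x)) ≤ Real.exp B := by
    rw [← Ex_congr (F := fun q => Real.exp (pr f q.1)) fun q hq => by rw [c q hq],
      Mdl.ex_J_fst J fun s => Real.exp (pr f s), ← hW.exp_M hS]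
    exact Real.exp_le_exp.2 hB
  have h1 : Ig (m.J 0 0) (fun q => ind (D q.2) * Real.exp (pr f q.1)) ∧
      Ex (m.J 0 0) (fun q => ind (D q.2) * Real.exp (pr f q.1)) ≤
        Real.exp B * Ex (m.J 0 0) fun q => ind (D q.2) := by
    refine ⟨i0.ind_mul J.nonneg _, ?_⟩
    rw [Ex_congr (G := fun q => Real.exp (∑ x ∈ m.A, f x * q.1 x) * ind (D q.2)) fun q hq => by
      rw [c q hq, mul_comm]]
    exact (sub_nonpos.1 k).trans
      (mul_le_mul_of_nonneg_right e1 (Ex_nonneg J.nonneg fun _ _ => ind_nonneg _))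
  rcases hε with rfl | rfl
  · simpa only [one_mul] using h1
  · have e : ∀ q : Cfg V × Finset (V × V), ind (D q.2) * Real.exp (-1 * pr f q.1) =
        ind (D (fl V q).2) * Real.exp (pr f (fl V q).1) := fun q => by
      change _ = ind (D q.2) * Real.exp (pr f (-q.1))
      rw [map_neg, neg_one_mul]
    simp only [e]
    have i2 := (ig_symm (fl V) (J_fl hF hE)).2 h1.1
    exact ⟨i2, by
      rw [Ex_symm (fl V) (J_fl hF hE) fun q => ind (D q.2) * Real.exp (pr f q.1)]; exact h1.2⟩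

/-- a decreasing bond event does not delocalise a positive linear observable -/
theorem pr_le (hF : m.Fm) (hE : m.Ev) (hW : Wt (m.W 0)) (hS : SE (m.W 0)) {f : V → ℝ}
    (hf : ∀ x, 0 ≤ f x) {D : Finset (V × V) → Prop} (hD : ∀ ω ω', ω ⊆ ω' → D ω' → D ω) {B : ℝ}
    (hB : M (m.W 0) (pr f) ≤ B) :
    Ex (m.J 0 0) (fun q => ind (D q.2)) ≤
      2 * Real.exp B * Ex (m.J 0 0) fun q => ind (D q.2) * Real.exp (-|pr f q.1|) := by
  have J := Mdl.wt_J hF hE.nn 0 hW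
  obtain ⟨i1, e1⟩ := exp_le hF hE hW hS hf hD hB 1 (.inl rfl)
  obtain ⟨i2, e2⟩ := exp_le hF hE hW hS hf hD hB (-1) (.inr rfl)
  have i3 : Ig (m.J 0 0) fun q => ind (D q.2) * Real.exp (-|pr f q.1|) :=
    (J.ig_ind _).mul_bdd J.nonneg (C := 1) fun q => by
      rw [abs_of_pos (Real.exp_pos _)]; exact Real.exp_le_one_iff.2 (neg_nonpos.2 (abs_nonneg _))
  have hb := Real.exp_pos B
  have h := Ex_mono J.nonneg ((J.ig_ind fun q => D q.2).const_mul (4 * Real.exp B))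
    ((i3.const_mul (4 * Real.exp B ^ 2)).add (i1.add i2)) fun q => by
      have a := exp_abs_le (pr f q.1)
      have b : Real.exp (-|pr f q.1|) * Real.exp |pr f q.1| = 1 := by
        rw [← Real.exp_add, neg_add_cancel, Real.exp_zero]
      have c := Real.exp_pos (-|pr f q.1|)
      have d : 4 * Real.exp B ≤ 4 * Real.exp B ^ 2 * Real.exp (-|pr f q.1|) + Real.exp |pr f q.1| := by
        refine le_of_mul_le_mul_left ?_ c
        nlinarith [sq_nonneg (2 * Real.exp B * Real.exp (-|pr f q.1|) - 1)]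
      have := mul_le_mul_of_nonneg_left (d.trans (add_le_add le_rfl a)) (ind_nonneg (D q.2))
      simp only [one_mul, neg_one_mul]
      linarith
  rw [Ex_add (i3.const_mul _) (i1.add i2), Ex_add i1 i2, Ex_const_mul, Ex_const_mul] at h
  refine le_of_mul_le_mul_left ?_ (mul_pos two_pos hb)
  nlinarith

/-- the boundary condition of the rest model is a translation -/
theorem rest_tr (he : ∀ e ∈ m.ed, e.1 ∈ m.A ∧ e.2 ∈ m.A) (C : Finset V) (s : Cfg V) :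
    ∃ u : Cfg V, ((∀ x, x ∉ m.A \ C → 0 ≤ s x) → ∀ x, 0 ≤ u x) ∧
      ∀ q, (m.rest 0 C s).J 0 s (tr u q) = (m.rest 0 C s).J 0 0 q := by
  refine ⟨s.filter (· ∉ m.A \ C), fun hs x => ?_, J_tr (fun x hx => ?_) (fun x hx => ?_)
    (fun e h => ⟨mem_sdiff.2 ⟨(he e (mem_filter.1 h).1).1, (mem_filter.1 h).2.1⟩,
      mem_sdiff.2 ⟨(he e (mem_filter.1 h).1).2, (mem_filter.1 h).2.2⟩⟩) 0⟩
  · rw [Finsupp.filter_apply]; split_ifs with h
    exacts [le_rfl, hs x h]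
  · exact Finsupp.filter_apply_neg _ _ (not_not.2 hx)
  · exact Finsupp.filter_apply_pos _ _ hx

end Cr60

open Cr60

theorem keyStmt : KeyStmt := by
  intro V _ _ m C s φ p D B t hc hA he hs hφ hp hD h1 h2
  set R := m.rest 0 C s with hR
  have hF : R.Fm := Mix53.rest_fm hc.1 0 C s
  have hE : R.Ev := Mix53.rest_ev hc.1 hc.ev C s
  have hW : Wt (R.W 0) := Mix53.rest_wt0 hc hA s
  have hS : SE (R.W 0) := Mix53.rest_se0 hc hA s
  have hL := (Mix53.rest_loc hc hA s).1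
  have J := Mdl.wt_J hF hE.nn 0 hW
  obtain ⟨u, u0, e⟩ := rest_tr he C s
  replace u0 := u0 hs
  replace e : ∀ q, R.J 0 s (tr u q) = R.J 0 0 q := e
  rw [← Ex_equiv (tr u), ← Ex_equiv (tr u) (R.J 0 s)]
  simp only [e]
  have a0 := pr_nonneg hφ u0
  have a1 := pr_nonneg hp u0
  obtain ⟨i1, e1⟩ := exp_le hF hE hW hS (f := φ + p) (fun x => add_nonneg (hφ x) (hp x)) hD
    ((hL _).trans h2) (-1) (.inr rfl)
  have e2 := pr_le hF hE hW hS hφ hD ((hL _).trans h1)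
  have b : ∀ x : ℝ, |Real.exp (-|x|)| ≤ 1 := fun x => by
    rw [abs_of_pos (Real.exp_pos _)]; exact Real.exp_le_one_iff.2 (neg_nonpos.2 (abs_nonneg _))
  have e3 : Ex (R.J 0 0) (fun q => ind (D q.2) * Real.exp (-|pr φ q.1|)) ≤ Real.exp (pr φ u) *
      Ex (R.J 0 0) fun q => ind (D (tr u q).2) * Real.exp (-|pr φ (tr u q).1|) := by
    rw [← Ex_const_mul]
    refine Ex_mono J.nonneg ((J.ig_ind _).mul_bdd J.nonneg fun _ => b _)
      (((J.ig_ind _).mul_bdd J.nonneg fun _ => b _).const_mul _) fun q => ?_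
    change _ ≤ _ * (ind (D q.2) * Real.exp (-|pr φ (q.1 + u)|))
    rw [mul_left_comm, ← Real.exp_add, map_add]
    refine mul_le_mul_of_nonneg_left (Real.exp_le_exp.2 ?_) (ind_nonneg _)
    linarith [abs_add_le (pr φ q.1) (pr φ u), abs_of_nonneg a0]
  have e4 : Ex (R.J 0 0) (fun q => ind (D (tr u q).2) *
      ind (|pr φ (tr u q).1| ≤ 1 / 2 ∧ pr (p - φ) (tr u q).1 < -t)) ≤ Real.exp (1 - t - pr φ u) *
        Ex (R.J 0 0) fun q => ind (D q.2) * Real.exp (-1 * pr (φ + p) q.1) := by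
    rw [← Ex_const_mul]
    refine Ex_mono J.nonneg ((J.ig_ind _).mul_ind J.nonneg _) (i1.const_mul _) fun q => ?_
    change ind (D q.2) * ind (|pr φ (q.1 + u)| ≤ 1 / 2 ∧ pr (p - φ) (q.1 + u) < -t) ≤ _
    rw [mul_left_comm, ← Real.exp_add]
    refine mul_le_mul_of_nonneg_left ?_ (ind_nonneg _)
    by_cases h : |pr φ (q.1 + u)| ≤ 1 / 2 ∧ pr (p - φ) (q.1 + u) < -t
    · rw [ind_pos h]
      refine Real.one_le_exp ?_
      obtain ⟨h3, h4⟩ := h
      simp only [pr_add, pr_sub, map_add, AddMonoidHom.add_apply, AddMonoidHom.sub_apply] at h3 h4 ⊢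
      linarith [(abs_le.1 h3).2]
    · rw [ind_neg h]; exact (Real.exp_pos _).le
  refine e4.trans ((mul_le_mul_of_nonneg_left (e1.trans (mul_le_mul_of_nonneg_left (e2.trans
    (mul_le_mul_of_nonneg_left e3 (by positivity))) (Real.exp_pos _).le)) (Real.exp_pos _).le).trans_eq ?_)
  rw [show 2 * B + 1 - t = 1 - t - pr φ u + B + B + pr φ u by ring]
  simp only [Real.exp_add]
  ring

namespace Cr60

variable {V : Type} [DecidableEq V] {m : Mdl V}

theorem fib_nonneg {α β : Type} (π : α → β) {H : α → ℝ} (hs : Summable H)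
    (h : ∀ a, H a ≠ 0 → 0 ≤ ∑' q, ind (π q = π a) * H q) : 0 ≤ ∑' q, H q := by
  refine (Zs_push (π := π) hs).le.trans' (tsum_nonneg fun b => ?_)
  by_cases k : ∃ a, H a ≠ 0 ∧ π a = b
  · obtain ⟨a, ha, rfl⟩ := k
    exact h a ha
  · refine tsum_nonneg fun a => ?_
    by_cases k' : π a = b
    · rw [not_not.1 fun h' => k ⟨a, h', k'⟩, mul_zero]
    · rw [ind_neg k', zero_mul]

theorem ind_le_exp (x : ℝ) (P : Prop) : ind (|x| ≤ 1 / 2 ∧ P) ≤ Real.exp (1 / 2) * Real.exp (-|x|) := by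
  by_cases h : |x| ≤ 1 / 2 ∧ P
  · rw [ind_pos h, ← Real.exp_add]; exact Real.one_le_exp (by linarith [h.1])
  · rw [ind_neg h]; positivity

/-- exploration of the positive cluster of one site -/
theorem step [Countable V] (hc : m.Ctr) (he : ∀ e ∈ m.ed, e.1 ∈ m.A ∧ e.2 ∈ m.A) {x : V}
    {S : Finset V} {φ p : V → ℝ} (hφ : ∀ x, 0 ≤ φ x) (hp : ∀ x, 0 ≤ p x)
    {D : Finset (V × V) → Prop} (hD : ∀ ω ω', ω ⊆ ω' → D ω' → D ω) {B t : ℝ}
    (hB : ∀ ω ⊆ m.ed, ∀ y ∈ S, Conn ω x y → (m.free (m.A \ cl {x} ω)).Anch ∧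
      M ((m.free (m.A \ cl {x} ω)).W 0) (pr φ) ≤ B ∧
      M ((m.free (m.A \ cl {x} ω)).W 0) (pr (φ + p)) ≤ B)
    (hs : Ig (m.J 0 0) fun q => Real.exp (-|pr φ q.1|)) :
    ∑' q, m.J 0 0 q * (ind ((∃ y ∈ S, Conn q.2 x y) ∧ D q.2 ∧ 0 < q.1 x) *
        ind (|pr φ q.1| ≤ 1 / 2 ∧ pr (p - φ) q.1 < -t)) ≤ 2 * Real.exp (2 * B + 1 - t) *
      ∑' q, m.J 0 0 q * (ind ((∃ y ∈ S, Conn q.2 x y) ∧ D q.2 ∧ 0 < q.1 x) *
        Real.exp (-|pr φ q.1|)) := by
  have J0 := Mx.J0 hc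
  set c := 2 * Real.exp (2 * B + 1 - t) with hc'
  set E : Cfg V × Finset (V × V) → Prop := fun q => (∃ y ∈ S, Conn q.2 x y) ∧ D q.2 ∧ 0 < q.1 x
    with hE
  have i1 : Ig (m.J 0 0) fun q => ind (E q) * Real.exp (-|pr φ q.1|) := hs.ind_mul J0 _
  have i2 : Ig (m.J 0 0) fun q => ind (E q) * ind (|pr φ q.1| ≤ 1 / 2 ∧ pr (p - φ) q.1 < -t) :=
    (Ig.of_le J0 (hs.const_mul _) (fun _ => ind_nonneg _) fun _ => ind_le_exp _ _).ind_mul J0 _
  have key := fib_nonneg (X56.rev {x}) ((i1.const_mul c).sub i2) fun a ha => by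
    have hJ : m.J 0 0 a ≠ 0 := left_ne_zero_of_mul ha
    have hEa : E a := by
      by_contra h
      exact ha (by simp only [ind_neg h, zero_mul, mul_zero, sub_zero])
    obtain ⟨⟨y, hy, hxy⟩, -, hx⟩ := hEa
    obtain ⟨hA, h1, h2⟩ := hB a.2 (Md.J_sub hJ) y hy hxy
    have f := X56.fibre m 0 0 {x} (U := fun _ => 1) (fun _ _ _ => rfl) hJ
    simp only [one_mul] at f
    set C := cl {x} a.2 with hC
    set I := inn C a.2 with hI
    have hxC : x ∈ C := Md.subset_cl _ _ (mem_singleton_self x)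
    have hF : (m.rest 0 C a.1).Fm := Mix53.rest_fm hc.1 0 C a.1
    have hN : (m.rest 0 C a.1).Nn := (Mix53.rest_ev hc.1 hc.ev C a.1).nn
    have hW : Wt ((m.rest 0 C a.1).J 0 a.1) := by
      obtain ⟨u, -, e⟩ := rest_tr he C a.1
      rw [← Md.wt_equiv (tr u)]
      simpa only [e] using Mdl.wt_J hF hN 0 (Mix53.rest_wt0 hc hA a.1)
    have c0 : 0 ≤ X56.cst0 m 0 C I a.1 := by
      have := f ((X56.tog I).symm a)
      rw [Equiv.apply_symm_apply, ind_pos rfl, one_mul] at this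
      exact (pos_of_mul_pos_left (this ▸ (J0 a).lt_of_ne' hJ) (hW.nonneg _)).le
    have k := keyStmt V m C a.1 φ p (fun β => D (β ∪ I)) B t hc hA he (fun z hz => ?_) hφ hp
      (fun ω ω' h => hD _ _ (union_subset_union_left h)) h1 h2
    · rw [← (X56.tog I).tsum_eq]
      simp only [← mul_assoc (ind (X56.rev _ _ = _)), f, mul_assoc (X56.cst0 m 0 C I a.1)]
      rw [tsum_mul_left, hW.tsum_eq]
      refine mul_nonneg c0 (mul_nonneg hW.pos.le ?_)
      rw [Ex_congr (G := fun q => c * (ind (D (q.2 ∪ I)) * Real.exp (-|pr φ q.1|)) -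
        ind (D (q.2 ∪ I)) * ind (|pr φ q.1| ≤ 1 / 2 ∧ pr (p - φ) q.1 < -t)) fun q hq => ?_,
        Ex_sub (((hW.ig_ind _).mul_bdd hW.nonneg (C := 1) fun _ => ?_).const_mul _)
          ((hW.ig_ind _).mul_ind hW.nonneg _), Ex_const_mul]
      · exact sub_nonneg.2 k
      · rw [abs_of_pos (Real.exp_pos _)]
        exact Real.exp_le_one_iff.2 (neg_nonpos.2 (abs_nonneg _))
      · obtain ⟨r1, r2⟩ := X56.rest_ne hq
        have e1 : X56.tog I q = (q.1, q.2 ∪ I) := Prod.ext rfl (X56.symmDiff_inn r2)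
        have e2 : E (q.1, q.2 ∪ I) ↔ D (q.2 ∪ I) := ⟨fun h => h.2.1, fun h => ⟨⟨y, hy, Md.conn_mono
          subset_union_right (Mx.mem_cl_one.1 ((Md.cl_inn _ _).ge (Mx.mem_cl_one.2 hxy)))⟩, h, by
            change 0 < q.1 x
            rwa [r1 x fun h' => (mem_sdiff.1 h').2 hxC]⟩⟩
        rw [e1, ind_congr e2]
    · by_cases hz' : z ∈ C
      · have := Mx.conn_sign hc.1 hJ (Mx.mem_cl_one.1 hz')
        exact (mul_nonneg_iff_of_pos_left hx).1 (this ▸ mul_nonneg (abs_nonneg _) (abs_nonneg _))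
      · rw [Md.J_off hJ z fun h => hz (mem_sdiff.2 ⟨h, hz'⟩)]; rfl
  simp only [mul_sub] at key
  rw [Summable.tsum_sub (i1.const_mul c) i2] at key
  simp only [mul_left_comm _ c, tsum_mul_left] at key
  exact sub_nonneg.1 key

/-- two-sided geometric weight -/
noncomputable def geo : ℤ → ℝ := Int.rec (fun n => (1 / 2) ^ n) fun n => (1 / 2) ^ n

theorem geo_nonneg (k : ℤ) : 0 ≤ geo k := by cases k <;> exact pow_nonneg (by norm_num) _

theorem hasSum_geo (x : ℝ) : HasSum (fun h : ℤ => geo ⌊x + h⌋ / 4) 1 := by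
  have h1 : HasSum geo (2 + 2) := hasSum_geometric_two.int_rec hasSum_geometric_two
  have h2 := ((Equiv.addLeft ⌊x⌋).hasSum_iff.2 h1).div_const 4
  simp only [Int.floor_add_intCast]
  exact Bes66.hs_congr h2 (fun _ => rfl) (by norm_num)

theorem exp_le_geo (x : ℝ) : Real.exp (-|x|) ≤ geo ⌊x⌋ := by
  have k : ∀ n : ℕ, (n : ℝ) ≤ |x| → Real.exp (-|x|) ≤ (1 / 2) ^ n := fun n hn => by
    refine (Real.exp_le_exp.2 (neg_le_neg hn)).trans ?_
    rw [← mul_neg_one, Real.exp_nat_mul]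
    refine pow_le_pow_left₀ (Real.exp_pos _).le ?_ n
    rw [Real.exp_neg, one_div]
    exact inv_anti₀ two_pos (by linarith [Real.add_one_le_exp 1])
  have h1 := Int.floor_le x
  have h2 := Int.lt_floor_add_one x
  cases h : ⌊x⌋ with
  | ofNat n => exact k n (le_trans (by simpa [h] using h1) (le_abs_self x))
  | negSucc n =>
    refine k n (le_trans ?_ (neg_le_abs x))
    rw [h, Int.cast_negSucc] at h2
    push_cast at h2
    linarith

variable {U : Finset V}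

theorem pn_A0 : (pn m U ∅).A = U := sdiff_empty

theorem pn_in (e : V × V) (he : e ∈ (pn m U ∅).ed) : e.1 ∈ (pn m U ∅).A ∧ e.2 ∈ (pn m U ∅).A :=
  by rw [pn_A0]; exact (mem_pn_ed.1 he).2

/-- the floating level fixes the zero mode -/
theorem root (hF : m.Fm) (hC : Cn m U) (hU : U.Nonempty) {u : Cfg V → ℝ} (u0 : ∀ s, 0 ≤ u s)
    (u1 : ∀ s, HasSum (fun h : ℤ => u (s + cst U h)) 1) :
    Wt (fun q => u q.1 * (pn m U ∅).J 0 0 q) ∧
      Zs (fun q => u q.1 * (pn m U ∅).J 0 0 q) = Zs (rW m U) ∧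
      ∀ P : Cfg V → Prop, (∀ s h, P (s + cst U h) ↔ P s) →
        Pr (fun q => u q.1 * (pn m U ∅).J 0 0 q) (fun q => P q.1) = Pr (rW m U) P := by
  obtain ⟨r, hr, e⟩ := rs_spec hU
  have e2 : ((pn m U ∅).free ((pn m U ∅).A.erase r)).W 0 = rW m U := by
    rw [pn_A0, pn_root, rW, e]
  have hW := rW_wt hF hC hU
  obtain ⟨⟨h1, h2⟩, h3⟩ := X56.rootU (pn m U ∅) r u (by rw [pn_A0]; exact hr) pn_in
    (fun _ _ => rfl) u0 (by rw [pn_A0]; exact u1) (e2 ▸ hW)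
  rw [e2] at h2 h3
  have j0 : ∀ q : Cfg V × Finset (V × V), 0 ≤ u q.1 * (pn m U ∅).J 0 0 q := fun q =>
    mul_nonneg (u0 _) (Mx.J0 (pn_ctr hF U ∅) q)
  have j1 : ∀ s, HasSum (fun ω => u s * (pn m U ∅).J 0 0 (s, ω)) (u s * (pn m U ∅).W 0 s) :=
    fun s => (D52.hasSum_J _ 0 0 s).mul_left _
  obtain ⟨k1, k2⟩ := D52.ex_pair j0 j1 h1
  refine ⟨k1, ?_, fun P hP => ?_⟩
  · rw [← h2]
    simpa only [mul_one, Zs] using (D52.hasSum_pair j0 j1 (h1.ig_const 1)).tsum_eq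
  · exact (k2 _ (h1.ig_ind P)).2.trans
      (h3 _ (fun s h => ind_congr (by rw [pn_A0]; exact hP s h)) (hW.ig_ind P)).2

/-- `x` is the first site of `K` joined to `S`, and it is above the level -/
def Fst (ι : V → ℕ) (K S : Finset V) (x : V) (q : Cfg V × Finset (V × V)) : Prop :=
  (∃ y ∈ S, Conn q.2 x y) ∧ (∀ x' ∈ K, ι x' < ι x → ∀ y ∈ S, ¬ Conn q.2 x' y) ∧ 0 < q.1 x

omit [DecidableEq V] in
theorem sum_fst {ι : V → ℕ} (hι : Function.Injective ι) (K S : Finset V)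
    (q : Cfg V × Finset (V × V)) : ∑ x ∈ K, ind (Fst ι K S x q) ≤ 1 := by
  by_cases h : ∃ x ∈ K, Fst ι K S x q
  · obtain ⟨x, hx, h⟩ := h
    rw [sum_eq_single_of_mem x hx fun x' hx' hne => ind_neg fun h' => ?_]
    · exact ind_le_one _
    · obtain ⟨y, hy, c⟩ := h.1
      obtain ⟨y', hy', c'⟩ := h'.1
      rcases lt_or_gt_of_ne (mt (@hι _ _) hne) with k | k
      exacts [h.2.1 x' hx' k y' hy' c', h'.2.1 x hx k y hy c]
  · rw [sum_eq_zero fun x hx => ind_neg fun h' => h ⟨x, hx, h'⟩]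
    exact zero_le_one

theorem half [Countable V] {K S : Finset V} {n : ℕ} {φ : V → ℝ} {p : ℕ → V → ℝ} {B t : ℝ}
    (hF : m.Fm) (hC : Cn m U) (hK : K ⊆ U) (hφ : Pv U φ) (hp : ∀ i < n, Pv U (p i))
    (hB : ∀ C ⊆ U, ∀ x ∈ K, ∀ y ∈ S, x ∈ C → Conn (inn C m.ed) x y →
      M ((pn m U C).W 0) (pr φ) ≤ B ∧ ∀ i < n, M ((pn m U C).W 0) (pr (φ + p i)) ≤ B)
    {ι : V → ℕ} (hι : Function.Injective ι) {u : Cfg V → ℝ} (u0 : ∀ s, 0 ≤ u s)
    (u1 : ∀ s, HasSum (fun h : ℤ => u (s + cst U h)) 1) (u2 : ∀ s, u s ≤ ind (|pr φ s| ≤ 1 / 2)) :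
    ∑' q, u q.1 * (pn m U ∅).J 0 0 q * ind (∃ x ∈ K, Fst ι K S x q) ≤ Zs (rW m U) *
      (Pr (rW m U) (fun s => ∀ i < n, -t ≤ pr (p i - φ) s) + 8 * n * Real.exp (2 * B + 1 - t)) := by
  have hU : U.Nonempty := nonempty_of_sum_ne_zero (by rw [hφ.2.2]; exact one_ne_zero)
  have hc := pn_ctr hF U ∅
  have J0 := Mx.J0 hc
  obtain ⟨w1, z1, p1⟩ := root hF hC hU u0 u1
  obtain ⟨w2, z2, -⟩ := root hF hC hU (u := fun s => geo ⌊pr φ s⌋ / 4)
    (fun s => div_nonneg (geo_nonneg _) (by norm_num)) fun s => by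
      simpa only [map_add, pr_cst, hφ.2.2, one_mul] using hasSum_geo (pr φ s)
  have l2 : ∀ q, (pn m U ∅).J 0 0 q * Real.exp (-|pr φ q.1|) ≤
      4 * (geo ⌊pr φ q.1⌋ / 4 * (pn m U ∅).J 0 0 q) := fun q => by
    linarith [mul_le_mul_of_nonneg_left (exp_le_geo (pr φ q.1)) (J0 q)]
  have hs : Ig ((pn m U ∅).J 0 0) fun q => Real.exp (-|pr φ q.1|) :=
    Summable.of_nonneg_of_le (fun q => mul_nonneg (J0 q) (Real.exp_pos _).le) l2 (w2.summ.mul_left 4)
  have i1 : ∀ x, Ig ((pn m U ∅).J 0 0) fun q => ind (Fst ι K S x q) * Real.exp (-|pr φ q.1|) :=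
    fun x => hs.ind_mul J0 _
  have i2 : ∀ i x, Ig ((pn m U ∅).J 0 0) fun q => ind (Fst ι K S x q) *
      ind (|pr φ q.1| ≤ 1 / 2 ∧ pr (p i - φ) q.1 < -t) := fun i x =>
    (Ig.of_le J0 (hs.const_mul _) (fun _ => ind_nonneg _) fun _ => ind_le_exp _ _).ind_mul J0 _
  have s1 : ∑ x ∈ K, ∑' q, (pn m U ∅).J 0 0 q * (ind (Fst ι K S x q) * Real.exp (-|pr φ q.1|)) ≤
      4 * Zs (rW m U) := by
    rw [← Summable.tsum_finsetSum fun x _ => i1 x, ← z2, ← Zs_smul]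
    refine Summable.tsum_le_tsum (fun q => le_trans ?_ (l2 q)) (summable_sum fun x _ => i1 x)
      (w2.summ.mul_left 4)
    rw [← mul_sum, ← sum_mul]
    exact mul_le_mul_of_nonneg_left
      (mul_le_of_le_one_left (Real.exp_pos _).le (sum_fst hι K S q)) (J0 q)
  have s2 : ∀ i ∈ range n, ∑ x ∈ K, ∑' q, (pn m U ∅).J 0 0 q * (ind (Fst ι K S x q) *
      ind (|pr φ q.1| ≤ 1 / 2 ∧ pr (p i - φ) q.1 < -t)) ≤
        2 * Real.exp (2 * B + 1 - t) * (4 * Zs (rW m U)) := fun i hi => by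
    refine le_trans (sum_le_sum fun x hx => step hc pn_in hφ.1 (hp i (mem_range.1 hi)).1
      (D := fun ω => ∀ x' ∈ K, ι x' < ι x → ∀ y ∈ S, ¬ Conn ω x' y)
      (fun ω ω' h k x' hx' l y hy c => k x' hx' l y hy (Md.conn_mono h c)) (B := B)
      (fun ω hω y hy c => ?_) hs) ?_
    · have hx' : x ∈ cl {x} ω := Md.subset_cl _ _ (mem_singleton_self x)
      have := hB (cl {x} ω) (Md.cl_subset (singleton_subset_iff.2 (hK hx)) fun e he =>
        iff_of_true (mem_pn_ed.1 (hω he)).2.1 (mem_pn_ed.1 (hω he)).2.2) x hx y hy hx'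
        (Md.conn_mono (Md.inn_mono Subset.rfl (hω.trans (Md.inn_subset _ _)))
          (Mx.mem_cl_one.1 ((Md.cl_inn _ _).ge (Mx.mem_cl_one.2 c))))
      rw [pn_A0, pn_free]
      exact ⟨pn_anch hC (hK hx) hx', this.1, this.2 i (mem_range.1 hi)⟩
    · rw [← mul_sum]
      exact mul_le_mul_of_nonneg_left s1 (by positivity)
  have s3 := sum_le_card_nsmul _ _ _ s2
  rw [card_range, nsmul_eq_mul] at s3
  have s4 := w1.tsum_eq fun q => ind (∀ i < n, -t ≤ pr (p i - φ) q.1)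
  rw [z1, show Ex _ _ = _ from p1 (fun s => ∀ i < n, -t ≤ pr (p i - φ) s) fun s h =>
    forall₂_congr fun i hi => by
      simp only [map_add, pr_cst, Pi.sub_apply, sum_sub_distrib, (hp i hi).2.2, hφ.2.2, sub_self,
        zero_mul, add_zero]] at s4
  simp only [← Summable.tsum_finsetSum fun x (_ : x ∈ K) => i2 _ x] at s3
  have i3 := fun i => summable_sum fun x (_ : x ∈ K) => i2 i x
  rw [← Summable.tsum_finsetSum fun i _ => i3 i] at s3
  have i4 := summable_sum fun i (_ : i ∈ range n) => i3 i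
  refine le_trans (Summable.tsum_le_tsum (fun q => ?_) (w1.ig_ind _)
    (Summable.add (w1.ig_ind fun q => ∀ i < n, -t ≤ pr (p i - φ) q.1) i4)) ?_
  · have a : ∀ i x, 0 ≤ (pn m U ∅).J 0 0 q * (ind (Fst ι K S x q) *
        ind (|pr φ q.1| ≤ 1 / 2 ∧ pr (p i - φ) q.1 < -t)) := fun i x =>
      mul_nonneg (J0 q) (mul_nonneg (ind_nonneg _) (ind_nonneg _))
    have b := fun i => sum_nonneg fun x (_ : x ∈ K) => a i x
    by_cases h : (∃ x ∈ K, Fst ι K S x q) → ∀ i < n, -t ≤ pr (p i - φ) q.1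
    · exact le_add_of_le_of_nonneg (mul_le_mul_of_nonneg_left (ind_mono h) (w1.nonneg q))
        (sum_nonneg fun i _ => b i)
    push Not at h
    obtain ⟨⟨x, hx, h⟩, i, hi, h'⟩ := h
    refine le_add_of_nonneg_of_le (mul_nonneg (w1.nonneg q) (ind_nonneg _))
      (le_trans ?_ ((single_le_sum (fun x _ => a i x) hx).trans
        (single_le_sum (fun i _ => b i) (mem_range.2 hi))))
    rw [ind_pos h, ind_pos ⟨x, hx, h⟩, ind_and, ind_pos h', mul_one, mul_one, one_mul, mul_comm]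
    exact mul_le_mul_of_nonneg_left (u2 _) (J0 q)
  · rw [Summable.tsum_add (w1.ig_ind fun q => ∀ i < n, -t ≤ pr (p i - φ) q.1) i4, s4]
    linarith

theorem cover {K S : Finset V} (hF : m.Fm) (hKS : Disjoint K S) (ι : V → ℕ)
    {q : Cfg V × Finset (V × V)} (hq : m.J 0 0 q ≠ 0) (h : Cross S K q.2) :
    (∃ x ∈ K, Fst ι K S x q) ∨ ∃ x ∈ K, Fst ι K S x (fl V q) := by
  classical
  obtain ⟨y, hy, x, hx, c⟩ := h
  obtain ⟨x, hx, hm⟩ := exists_min_image (K.filter fun x => ∃ y ∈ S, Conn q.2 x y) ι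
    ⟨x, mem_filter.2 ⟨hx, y, hy, Md.conn_symm c⟩⟩
  obtain ⟨hx, y, hy, c⟩ := mem_filter.1 hx
  have hm' : ∀ x' ∈ K, ι x' < ι x → ∀ y ∈ S, ¬ Conn q.2 x' y := fun x' hx' l y hy c =>
    absurd (hm x' (mem_filter.2 ⟨hx', y, hy, c⟩)) (not_le.2 l)
  have h0 : q.1 x ≠ 0 := fun h0 => by
    rcases Relation.ReflTransGen.cases_head c with rfl | ⟨z, k | k, -⟩
    · exact disjoint_left.1 hKS hx hy
    · simpa [h0] using Mx.J_sign hF hq k
    · simpa [h0] using Mx.J_sign hF hq k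
  rcases h0.lt_or_gt with k | k
  · exact .inr ⟨x, hx, ⟨y, hy, c⟩, hm', neg_pos.2 k⟩
  · exact .inl ⟨x, hx, ⟨y, hy, c⟩, hm', k⟩

end Cr60

theorem crossStmt : CrossStmt := by
  intro V _ _ m U K S n φ p B t hF hC hK hS hKS hφ hp hB
  have hU : U.Nonempty := nonempty_of_sum_ne_zero (by rw [hφ.2.2]; exact one_ne_zero)
  obtain ⟨ι, hι⟩ := exists_injective_nat V
  have hr : ∀ x : ℝ, HasSum (fun h : ℤ => ind (round (x + h) = 0)) 1 := fun x => by
    have := hasSum_single (f := fun h : ℤ => ind (round (x + h) = 0)) (-round x) fun h hh =>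
      ind_neg (by rw [round_add_intCast]; omega)
    rwa [ind_pos (by rw [round_add_intCast]; omega)] at this
  have hl : ∀ x : ℝ, ind (round x = 0) ≤ ind (|x| ≤ 1 / 2) := fun x => ind_mono fun h => by
    simpa only [h, Int.cast_zero, sub_zero] using abs_sub_round x
  have u1 : ∀ s, HasSum (fun h : ℤ => ind (round (pr φ (s + cst U h)) = 0)) 1 := fun s => by
    simpa only [map_add, pr_cst, hφ.2.2, one_mul] using hr (pr φ s)
  have u2 : ∀ s, HasSum (fun h : ℤ => ind (round (pr φ (-(s + cst U h))) = 0)) 1 := fun s => by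
    refine Bes66.hs_congr ((Equiv.neg ℤ).hasSum_iff.2 (u1 (-s))) (fun h => ?_) rfl
    simp only [Function.comp, Equiv.neg_apply, Md.cst_neg, neg_add]
  have h1 := half (t := t) hF hC hK hφ hp hB hι (u := fun s => ind (round (pr φ s) = 0))
    (fun _ => ind_nonneg _) u1 fun s => hl _
  have h2 := half (t := t) hF hC hK hφ hp hB hι (u := fun s => ind (round (pr φ (-s)) = 0))
    (fun _ => ind_nonneg _) u2 fun s => (hl _).trans_eq (by rw [map_neg, abs_neg])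
  have hc := pn_ctr hF U ∅
  obtain ⟨w1, z1, -⟩ := root hF hC hU (u := fun s => ind (round (pr φ s) = 0))
    (fun _ => ind_nonneg _) u1
  rw [← (fl V).tsum_eq] at h2
  have e : ∀ q : Cfg V × Finset (V × V), -(fl V q).1 = q.1 := fun q => neg_neg _
  simp only [J_fl hc.1 hc.ev, e] at h2
  rw [w1.tsum_eq, z1] at h1 h2
  have hZ := (rW_wt hF hC hU).pos
  have h3 := w1.pr_mono fun q hq => cover hc.1 hKS ι (right_ne_zero_of_mul hq)
  have h4 := w1.pr_or_le (fun q => ∃ x ∈ K, Fst ι K S x q) fun q => ∃ x ∈ K, Fst ι K S x (fl V q)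
  have h5 := le_of_mul_le_mul_left h1 hZ
  have h6 := le_of_mul_le_mul_left h2 hZ
  exact h3.trans (h4.trans ((add_le_add h5 h6).trans_eq (by ring)))

end Crest.Agent.T145.Nc
end

-- ▼ part T145/PotBe_51
section

/-!
# Row 145: the weak Beurling estimate (helper51)
-/

set_option autoImplicit false

namespace Crest.Agent.T145.Pot

open Finset Crest.ProbabilityR.HeightModel

namespace Be51

variable {Λ : Lat}

/-- Poincaré inequality on a ball, zero set meeting many rows or columns -/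
theorem poin_bl : ∃ C : ℝ, 0 ≤ C ∧ ∀ (z : Pt) (ρ g : ℕ) (u : Pt → ℝ) (K : Finset Pt), K ⊆ bl z ρ →
    (∀ x ∈ K, u x = 0) →
    (ρ + 1 ≤ g * (K.image Prod.fst).card ∨ ρ + 1 ≤ g * (K.image Prod.snd).card) →
    ∑ x ∈ bl z ρ, u x ^ 2 ≤ C * g * ((ρ : ℝ) + 1) ^ 2 * eN nL (bl z ρ) u u := by
  obtain ⟨C₀, hP⟩ := poinStmt
  refine ⟨8 * max C₀ 0, by positivity, fun z ρ g u K hK hu hg => ?_⟩
  have h2 := (hP (z.1 - ρ, z.2 - ρ) (2 * ρ + 1) u).2.1 K (by rwa [← bl_eq_sq]) hu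
  rw [← bl_eq_sq] at h2
  have hE : 0 ≤ eN nL (bl z ρ) u u := (sy_eN _).nonneg u
  have hF : 0 ≤ ∑ x ∈ bl z ρ, u x ^ 2 := sum_nonneg fun _ _ => sq_nonneg _
  have hb : C₀ * ((2 * ρ + 1 : ℕ) : ℝ) ^ 3 * eN nL (bl z ρ) u u ≤
      max C₀ 0 * (2 * ((ρ : ℝ) + 1)) ^ 3 * eN nL (bl z ρ) u u :=
    mul_le_mul_of_nonneg_right (mul_le_mul (le_max_left _ _)
      (pow_le_pow_left₀ (by positivity) (by push_cast; linarith) 3) (by positivity) (le_max_right _ _)) hE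
  have h3 : ∀ N : ℕ, ρ + 1 ≤ g * N → N * ∑ x ∈ bl z ρ, u x ^ 2 ≤
      max C₀ 0 * (2 * ((ρ : ℝ) + 1)) ^ 3 * eN nL (bl z ρ) u u →
      ∑ x ∈ bl z ρ, u x ^ 2 ≤ 8 * max C₀ 0 * g * ((ρ : ℝ) + 1) ^ 2 * eN nL (bl z ρ) u u := fun N h3 h4 => by
    have h5 : (ρ : ℝ) + 1 ≤ g * N := by exact_mod_cast h3
    refine le_of_mul_le_mul_left ((mul_le_mul_of_nonneg_right h5 hF).trans ?_)
      (by positivity : (0 : ℝ) < ρ + 1)
    rw [mul_assoc]
    exact (mul_le_mul_of_nonneg_left h4 (by positivity)).trans_eq (by ring)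
  exact hg.elim (fun h4 => h3 _ h4 (h2.1.trans hb)) fun h4 => h3 _ h4 (h2.2.trans hb)





end Be51


end Crest.Agent.T145.Pot
end

-- ▼ part T145/NcRoute_51
section

/-!
# Row 145: routing a bounded density to a crossing set; crude routing in a connected graph (helper51)
-/

set_option autoImplicit false

namespace Crest.Agent.T145.Nc

open Finset

namespace Rt51

/-- the oscillation along a path is at most the total variation over the edges -/
theorem abs_sub_le_sum {V : Type*} {ed : Finset (V × V)} {x y : V} (h : Conn ed x y) (u : V → ℝ) :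
    |u y - u x| ≤ ∑ e ∈ ed, |u e.2 - u e.1| := by
  have h1 : Set.uIoc (u x) (u y) ⊆ ⋃ e ∈ ed, Set.uIoc (u e.1) (u e.2) := by
    induction h with
    | refl => simp
    | @tail b c _ h2 ih =>
      intro t ht
      have h3 : t ∈ Set.uIoc (u x) (u b) ∨ t ∈ Set.uIoc (u b) (u c) := by
        simp only [Set.mem_uIoc] at ht ⊢
        rcases le_or_gt t (u b) with h4 | h4 <;> rcases ht with ht | ht <;> tauto
      rcases h3 with h3 | h3
      · exact ih h3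
      · rcases h2 with h2 | h2
        · exact Set.mem_biUnion (s := (ed : Set (V × V))) h2 h3
        · exact Set.mem_biUnion (s := (ed : Set (V × V))) h2 (by rwa [Set.uIoc_comm] at h3)
  have h2 := (MeasureTheory.measure_mono (μ := MeasureTheory.volume) h1).trans
    (MeasureTheory.measure_biUnion_finset_le ed _)
  simp only [Real.volume_uIoc] at h2
  rwa [← ENNReal.ofReal_sum_of_nonneg fun _ _ => abs_nonneg _,
    ENNReal.ofReal_le_ofReal_iff (sum_nonneg fun _ _ => abs_nonneg _)] at h2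

theorem sq_sub_le {V : Type*} {ed : Finset (V × V)} {x y : V} (h : Conn ed x y) (u : V → ℝ) :
    (u y - u x) ^ 2 ≤ ed.card * Pot.edF ed u u := by
  rw [← sq_abs, Pot.edF_self]
  exact (pow_le_pow_left₀ (abs_nonneg _) (abs_sub_le_sum h u) 2).trans
    (sq_sum_abs_le ed fun e => u e.2 - u e.1)

/-- crude routing -/
theorem crude (V : Type) (ed : Finset (V × V)) (U : Finset V) (f : V → ℝ)
    (hc : ∀ x ∈ U, ∀ y ∈ U, Conn ed x y) (hs : Sup U f) (h0 : ∑ x ∈ U, f x = 0) :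
    F2 ed f (ed.card * (∑ x ∈ U, |f x|) ^ 2) := by
  classical
  have hE : ∀ u, 0 ≤ Pot.edF ed u u := (Pot.sy_edF ed).nonneg
  refine Pot.f2_of_dual (U := U ∪ (ed.image Prod.fst ∪ ed.image Prod.snd))
    (fun e he => ⟨mem_union_right _ (ends_mem ed e he).1, mem_union_right _ (ends_mem ed e he).2⟩)
    (Pot.Sup.mono hs subset_union_left) (by positivity) fun u => ?_
  rw [Pot.ip_comm, Pot.ip_of_sup subset_union_left u hs]
  rcases U.eq_empty_or_nonempty with rfl | ⟨x, hx⟩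
  · simp [Pot.ip]
  have h1 : Pot.ip U u f = ∑ y ∈ U, f y * (u y - u x) := by
    simp only [Pot.ip, mul_sub, sum_sub_distrib, ← sum_mul, h0, mul_zero, sub_zero, mul_comm]
  have h2 : |Pot.ip U u f| ≤ (∑ y ∈ U, |f y|) * √(ed.card * Pot.edF ed u u) := by
    rw [h1, sum_mul]
    refine (abs_sum_le_sum_abs _ _).trans (sum_le_sum fun y hy => ?_)
    rw [abs_mul]
    exact mul_le_mul_of_nonneg_left (Real.abs_le_sqrt (sq_sub_le (hc x hx y hy) u)) (abs_nonneg _)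
  have h3 := pow_le_pow_left₀ (abs_nonneg _) h2 2
  rw [sq_abs, mul_pow, Real.sq_sqrt (mul_nonneg (by positivity) (hE u))] at h3
  exact h3.trans_eq (by ring)

/-- a connected set leaves a ball through a thin shell (any starting point in the ball) -/
theorem exists_exit {Λ : Lat} {K : Finset Pt} {c x y : Pt} {t : ℕ} (h : Conn (Λ.edI K) x y)
    (hx : x ∈ bl c t) (hy : y ∉ bl c t) :
    ∃ p ∈ K, p ∉ bl c t ∧ p ∈ bl c (t + Λ.rg) ∧ Conn (Λ.edI K) p x := by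
  induction h with
  | refl => exact absurd hx hy
  | @tail b d h1 h2 ih =>
    by_cases hb : b ∈ bl c t
    · have h3 : d ∈ K ∧ d ∈ bl b Λ.rg := by
        rcases h2 with h2 | h2
        · exact ⟨(Lat.mem_edI.1 h2).2.2, Lat.edge_near (e := (b, d)) (Lat.mem_edI.1 h2).1⟩
        · exact ⟨(Lat.mem_edI.1 h2).2.1, Lat.edge_near' (e := (d, b)) (Lat.mem_edI.1 h2).1⟩
      exact ⟨d, h3.1, hy, bl_subset_bl hb (add_comm _ _).le h3.2,
        Conn.symm (Relation.ReflTransGen.tail h1 h2)⟩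
    · exact ih hb

/-- the sum of squares on `U` from the variance on `U` and the sum of squares on a fat subset -/
theorem sum_sq_le {U T : Finset Pt} (hT : T ⊆ U) {M : ℝ} (hM : 0 ≤ M) (hc : (U.card : ℝ) ≤ M * T.card)
    (u : Pt → ℝ) (a : ℝ) :
    ∑ x ∈ U, u x ^ 2 ≤ 4 * M * ∑ x ∈ T, u x ^ 2 + (2 + 4 * M) * ∑ x ∈ U, (u x - a) ^ 2 := by
  have h1 : ∑ x ∈ U, u x ^ 2 ≤ 2 * ∑ x ∈ U, (u x - a) ^ 2 + 2 * (U.card * a ^ 2) := by
    rw [mul_sum, ← nsmul_eq_mul, ← sum_const, mul_sum, ← sum_add_distrib]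
    exact sum_le_sum fun x _ => by nlinarith [sq_nonneg (u x - 2 * a)]
  have h2 : T.card * a ^ 2 ≤ 2 * ∑ x ∈ T, u x ^ 2 + 2 * ∑ x ∈ T, (u x - a) ^ 2 := by
    rw [mul_sum, mul_sum, ← nsmul_eq_mul, ← sum_const, ← sum_add_distrib]
    exact sum_le_sum fun x _ => by nlinarith [sq_nonneg (2 * u x - a)]
  have h3 : ∑ x ∈ T, (u x - a) ^ 2 ≤ ∑ x ∈ U, (u x - a) ^ 2 :=
    sum_le_sum_of_subset_of_nonneg hT fun _ _ _ => sq_nonneg _
  have h4 : U.card * a ^ 2 ≤ M * (T.card * a ^ 2) := by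
    rw [← mul_assoc]; exact mul_le_mul_of_nonneg_right hc (sq_nonneg _)
  have h5 := mul_le_mul_of_nonneg_left (h2.trans (add_le_add_right
    (mul_le_mul_of_nonneg_left h3 zero_le_two) _)) hM
  nlinarith

/-- Poincaré inequality on the annulus for functions vanishing on a crossing set -/
theorem poin_cross : ∃ C : ℝ, 0 < C ∧ ∀ Λ : Lat, Λ.Ok → ∀ (a : ℕ) (Z : Finset Pt) (x y : Pt)
    (u : Pt → ℝ), Λ.rg ≤ a → x ∈ bl 0 a → y ∉ bl 0 (4 * a) → Conn (Λ.edI Z) x y → (∀ z ∈ Z, u z = 0) →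
    ∑ z ∈ an 0 a (32 * a), u z ^ 2 ≤ C * Λ.rg * (a : ℝ) ^ 2 * Pot.eN Λ (an 0 a (32 * a)) u u := by
  obtain ⟨C₁, hC₁, h1⟩ := Pot.Be51.poin_bl
  obtain ⟨C₂, hC₂, h2⟩ := Pot.An44.poin_an 2
  refine ⟨4 * 65 ^ 2 * (4 * C₁) + (2 + 4 * 65 ^ 2) * (32 ^ 2 * C₂) + 1, by positivity,
    fun Λ h a Z x y u ha hx hy hZ hu => ?_⟩
  have hg := h.one_le_rg
  have hg' : (1 : ℝ) ≤ Λ.rg := by exact_mod_cast hg
  have ha' : (1 : ℝ) ≤ a := by exact_mod_cast hg.trans ha
  obtain ⟨p, hp, hp1, hp2, hp3⟩ := exists_exit (t := 2 * a) hZ (bl_mono 0 (by omega) hx)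
    fun h3 => hy (bl_mono 0 (by omega) h3)
  have hout : ∀ w ∈ bl 0 a, w ∉ bl p a := fun w hw h3 =>
    hp1 (bl_subset_bl hw (by omega) (mem_bl_comm.1 h3))
  have hT : bl p a ⊆ an 0 a (32 * a) := fun w hw =>
    mem_sdiff.2 ⟨bl_subset_bl hp2 (by omega) hw, fun h3 => hout w h3 hw⟩
  set E := Pot.eN Λ (an 0 a (32 * a)) u u
  have hE : 0 ≤ E := (Pot.sy_eN _).nonneg u
  have h3 : ∑ z ∈ bl p a, u z ^ 2 ≤ 4 * C₁ * (Λ.rg * (a : ℝ) ^ 2 * E) := by
    refine (h1 p a Λ.rg u (Z ∩ bl p a) inter_subset_right (fun w hw => hu w (mem_inter.1 hw).1)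
      (Pot.rowStmt Λ h Z p x a hp (hout x hx) hp3)).trans ?_
    calc _ ≤ C₁ * Λ.rg * (4 * (a : ℝ) ^ 2) * E :=
          mul_le_mul (mul_le_mul_of_nonneg_left (by nlinarith) (by positivity))
            ((Pot.eN_nL_le h _ u).trans (Pot.eN_mono hT u)) ((Pot.sy_eN _).nonneg u) (by positivity)
      _ = _ := by ring
  have h4 : ∑ z ∈ an 0 a (32 * a), (u z - Pot.av (an 0 a (32 * a)) u) ^ 2 ≤
      32 ^ 2 * C₂ * (Λ.rg * (a : ℝ) ^ 2 * E) := by
    refine (h2 0 a (32 * a) u (by omega)).trans ?_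
    calc _ ≤ C₂ * ((32 * a : ℕ) : ℝ) ^ 2 * (Λ.rg * E) :=
          mul_le_mul_of_nonneg_left ((Pot.eN_nL_le h _ u).trans (le_mul_of_one_le_left hE hg'))
            (by positivity)
      _ = _ := by push_cast; ring
  have h5 := sum_sq_le hT (M := 65 ^ 2) (by positivity) (by
    have h6 : (an 0 a (32 * a)).card ≤ (bl 0 (32 * a)).card := card_le_card sdiff_subset
    rw [card_bl] at h6 ⊢
    have h7 : ((an 0 a (32 * a)).card : ℝ) ≤ (2 * (32 * a) + 1) ^ 2 := by exact_mod_cast h6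
    push_cast
    nlinarith) u (Pot.av (an 0 a (32 * a)) u)
  have h6 : 0 ≤ Λ.rg * (a : ℝ) ^ 2 * E := by positivity
  nlinarith

end Rt51

theorem routeStmt : RouteStmt := by
  refine ⟨fun F => ?_, Rt51.crude⟩
  obtain ⟨C, hC, h1⟩ := Rt51.poin_cross
  refine ⟨65 ^ 2 * C * (⟨F.J, false, 1⟩ : Lat).rg, fun Λ hΛ a Z A x y f K ha _ hx hy hZ hA hs hf => ?_⟩
  have h : Λ.Ok := ⟨hΛ.1 ▸ F.adm, F.pos.trans_le hΛ.2.2.1⟩
  rw [← (Pot.J_congr (Λ := Λ) (Λ' := ⟨F.J, false, 1⟩) hΛ.1).2.2.2.2.2.1]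
  have hg' : (1 : ℝ) ≤ Λ.rg := by exact_mod_cast h.one_le_rg
  have ha' : (1 : ℝ) ≤ a := by exact_mod_cast h.one_le_rg.trans ha
  set U := an 0 a (32 * a) with hU
  have h2 : ∀ u, Pot.Sup (U \ Z) u →
      ∑ z ∈ U \ Z, u z ^ 2 ≤ C * Λ.rg * (a : ℝ) ^ 2 * Pot.edF (Λ.edI U) u u := fun u hu =>
    (sum_le_sum_of_subset_of_nonneg sdiff_subset fun _ _ _ => sq_nonneg _).trans
      (h1 Λ h a Z x y u ha hx hy hZ fun z hz => hu z fun h3 => (mem_sdiff.1 h3).2 hz)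
  have hc : Pot.Co (U \ Z) (Pot.edF (Λ.edI U)) :=
    Pot.co_of_mass (Pot.sy_edF _) (κ := (C * Λ.rg * (a : ℝ) ^ 2)⁻¹) (by positivity) fun u hu => by
      rw [inv_mul_le_iff₀ (by positivity)]; exact h2 u hu
  have h3 : ∑ z ∈ U \ Z, f z ^ 2 ≤ 65 ^ 2 * K ^ 2 / (a : ℝ) ^ 2 := by
    have h4 : (U \ Z).card ≤ (bl 0 (32 * a)).card := card_le_card (sdiff_subset.trans sdiff_subset)
    rw [card_bl] at h4
    have h5 : (((U \ Z).card : ℕ) : ℝ) ≤ (2 * (32 * a) + 1) ^ 2 := by exact_mod_cast h4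
    calc _ ≤ ∑ _z ∈ U \ Z, (K / (a : ℝ) ^ 2) ^ 2 := sum_le_sum fun z _ => by
          rw [← sq_abs]; exact pow_le_pow_left₀ (abs_nonneg _) (hf z) 2
      _ ≤ (65 * a) ^ 2 * (K / (a : ℝ) ^ 2) ^ 2 := by
          rw [sum_const, nsmul_eq_mul]
          exact mul_le_mul_of_nonneg_right (h5.trans (by nlinarith)) (sq_nonneg _)
      _ = _ := by field_simp
  obtain ⟨φ, h4, h5⟩ := (hc.f2A_iff f _).2 (hc.G_le_of (C := 65 ^ 2 * C * Λ.rg * K ^ 2)
    (by positivity) fun u hu => by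
      refine (sum_mul_sq_le_sq_mul_sq _ _ _).trans ((mul_le_mul h3 (h2 u hu)
        (sum_nonneg fun _ _ => sq_nonneg _) (by positivity)).trans_eq ?_)
      field_simp)
  refine ⟨φ, fun z hz => ?_, h5⟩
  by_cases h6 : z ∈ U
  · exact h4 z (mem_sdiff.2 ⟨h6, disjoint_left.1 hA hz⟩)
  · rw [hs z fun h7 => h6 (Pot.An44.an_mono 0 (by omega) (by omega) h7),
      sup_dv φ (Lat.edI_ends U) z h6]

end Crest.Agent.T145.Nc
end

-- ▼ part T145/NcRadA_80
section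

/-!
# Row 145, T4/RAD part A: the one-dimensional profile (helper80)

`chi s = smoothTransition (s - 1)`, `G' = chi s / s`, `(s G')' = psi`.
-/

set_option autoImplicit false

namespace Crest.Agent.T145.Nc.Rad80

open Set

/-- mean value step -/
theorem step {φ φ' : ℝ → ℝ} {t d B : ℝ} (hφ : ∀ s ∈ uIcc t (t + d), HasDerivAt φ (φ' s) s)
    (hB : ∀ s ∈ uIcc t (t + d), |φ' s| ≤ B) :
    ∀ s ∈ uIcc t (t + d), |φ s - φ t| ≤ B * |d| := by
  intro s hs
  have h := (convex_uIcc t (t + d)).norm_image_sub_le_of_norm_hasDerivWithin_le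
    (fun s hs => (hφ s hs).hasDerivWithinAt) hB left_mem_uIcc hs
  have h2 : |s - t| ≤ |d| := by
    have := abs_sub_left_of_mem_uIcc hs
    simpa using this
  have hB0 : 0 ≤ B := (abs_nonneg _).trans (hB t left_mem_uIcc)
  rw [Real.norm_eq_abs, Real.norm_eq_abs] at h
  exact h.trans (mul_le_mul_of_nonneg_left h2 hB0)

theorem tay2 {f f1 f2 : ℝ → ℝ} (h1 : ∀ s, HasDerivAt f (f1 s) s) (h2 : ∀ s, HasDerivAt f1 (f2 s) s)
    {t d M : ℝ} (hM : ∀ s ∈ uIcc t (t + d), |f2 s| ≤ M) :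
    ∀ s ∈ uIcc t (t + d), |f s - f t - f1 t * (s - t)| ≤ M * d ^ 2 := by
  have a1 := step (fun s _ => h2 s) hM
  have a0 := step (φ := fun s => f s - f1 t * (s - t)) (φ' := fun s => f1 s - f1 t) (t := t) (d := d)
    (fun s _ => ((h1 s).fun_sub (((hasDerivAt_id' s).sub_const t).const_mul (f1 t))).congr_deriv
      (by ring)) a1
  intro s hs
  have := a0 s hs
  rw [mul_assoc, abs_mul_abs_self, ← pow_two] at this
  convert this using 2
  ring

theorem tay4 {f f1 f2 f3 f4 : ℝ → ℝ} (h1 : ∀ s, HasDerivAt f (f1 s) s)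
    (h2 : ∀ s, HasDerivAt f1 (f2 s) s) (h3 : ∀ s, HasDerivAt f2 (f3 s) s)
    (h4 : ∀ s, HasDerivAt f3 (f4 s) s) {t d M : ℝ} (hM : ∀ s ∈ uIcc t (t + d), |f4 s| ≤ M) :
    |f (t + d) - f t - f1 t * d - f2 t * d ^ 2 / 2 - f3 t * d ^ 3 / 6| ≤ M * d ^ 4 := by
  have a2 := tay2 h3 h4 hM
  have hd : ∀ s : ℝ, HasDerivAt (fun s => s - t) 1 s := fun s => (hasDerivAt_id s).sub_const t
  have a0 := tay2 (f := fun s => f s - f2 t * (s - t) ^ 2 / 2 - f3 t * (s - t) ^ 3 / 6)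
    (f1 := fun s => f1 s - f2 t * (s - t) - f3 t * (s - t) ^ 2 / 2)
    (f2 := fun s => f2 s - f2 t - f3 t * (s - t))
    (fun s => (((h1 s).fun_sub ((((hd s).fun_pow 2).const_mul (f2 t)).div_const 2)).fun_sub
        ((((hd s).fun_pow 3).const_mul (f3 t)).div_const 6)).congr_deriv (by norm_num; ring))
    (fun s => (((h2 s).fun_sub ((hd s).const_mul (f2 t))).fun_sub
        ((((hd s).fun_pow 2).const_mul (f3 t)).div_const 2)).congr_deriv (by norm_num; ring))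
    a2 (t + d) right_mem_uIcc
  rw [mul_assoc, ← pow_add] at a0
  convert a0 using 2
  simp; ring

noncomputable def chi (s : ℝ) : ℝ := Real.smoothTransition (s - 1)
noncomputable def psi : ℝ → ℝ := deriv chi
noncomputable def G1 (s : ℝ) : ℝ := chi s / s
noncomputable def G2 : ℝ → ℝ := deriv G1
noncomputable def G3 : ℝ → ℝ := deriv G2
noncomputable def G4 : ℝ → ℝ := deriv G3
noncomputable def G (t : ℝ) : ℝ := ∫ s in (1 : ℝ)..t, G1 s

theorem chi_cd : ContDiff ℝ 4 chi :=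
  (Real.smoothTransition.contDiff (n := 4)).comp (contDiff_id.sub contDiff_const)

theorem chi_zero {s : ℝ} (h : s ≤ 1) : chi s = 0 :=
  Real.smoothTransition.zero_of_nonpos (by linarith)

theorem chi_one {s : ℝ} (h : 2 ≤ s) : chi s = 1 :=
  Real.smoothTransition.one_of_one_le (by linarith)

theorem chi_nonneg (s : ℝ) : 0 ≤ chi s := Real.smoothTransition.nonneg _

theorem chi_le (s : ℝ) : chi s ≤ 1 := Real.smoothTransition.le_one _

theorem chi_mono : Monotone chi := fun _ _ h =>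
  Real.smoothTransition.monotone (by linarith)

theorem psi_nonneg (s : ℝ) : 0 ≤ psi s := chi_mono.deriv_nonneg

theorem G1_zero {s : ℝ} (h : s ≤ 1) : G1 s = 0 := by rw [G1, chi_zero h, zero_div]

theorem G1_nonneg (s : ℝ) : 0 ≤ G1 s := by
  rcases le_total s 1 with h | h
  · rw [G1_zero h]
  · exact div_nonneg (chi_nonneg s) (by linarith)

theorem G1_cd : ContDiff ℝ 4 G1 := by
  rw [contDiff_iff_contDiffAt]
  intro s
  rcases lt_or_ge s 1 with h | h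
  · refine (contDiffAt_const (c := (0 : ℝ))).congr_of_eventuallyEq ?_
    filter_upwards [Iio_mem_nhds h] with r hr using G1_zero (le_of_lt hr)
  · exact chi_cd.contDiffAt.div contDiffAt_id (by linarith : (0 : ℝ) < s).ne'

theorem psi_cd : ContDiff ℝ 3 psi := chi_cd.deriv'
theorem G2_cd : ContDiff ℝ 3 G2 := G1_cd.deriv'
theorem G3_cd : ContDiff ℝ 2 G3 := G2_cd.deriv'
theorem G4_cd : ContDiff ℝ 1 G4 := G3_cd.deriv'
theorem psi1_cd : ContDiff ℝ 2 (deriv psi) := psi_cd.deriv'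

theorem hG (s : ℝ) : HasDerivAt G (G1 s) s :=
  (G1_cd.continuous.integral_hasStrictDerivAt 1 s).hasDerivAt
theorem hG1 (s : ℝ) : HasDerivAt G1 (G2 s) s :=
  (G1_cd.differentiable (by norm_num) s).hasDerivAt
theorem hG2 (s : ℝ) : HasDerivAt G2 (G3 s) s :=
  (G2_cd.differentiable (by norm_num) s).hasDerivAt
theorem hG3 (s : ℝ) : HasDerivAt G3 (G4 s) s :=
  (G3_cd.differentiable (by norm_num) s).hasDerivAt
theorem hchi (s : ℝ) : HasDerivAt chi (psi s) s :=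
  (chi_cd.differentiable (by norm_num) s).hasDerivAt
theorem hpsi (s : ℝ) : HasDerivAt psi (deriv psi s) s :=
  (psi_cd.differentiable (by norm_num) s).hasDerivAt

theorem psi_eq (s : ℝ) : psi s = G1 s + s * G2 s := by
  have e : chi = fun s => s * G1 s := by
    funext s
    rcases eq_or_ne s 0 with h | h
    · rw [h, chi_zero (by norm_num), zero_mul]
    · rw [G1]; field_simp
  have h1 := hchi s
  rw [e] at h1
  have h2 := (hasDerivAt_id s).mul (hG1 s)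
  have := h1.unique h2
  simpa using this

/-- `f = c s^m` beyond `2` -/
def Far (f : ℝ → ℝ) (c : ℝ) (m : ℤ) : Prop := ∀ s, 2 < s → f s = c * s ^ m

theorem Far.deriv {f : ℝ → ℝ} {c : ℝ} {m : ℤ} (h : Far f c m) : Far (deriv f) (c * m) (m - 1) := by
  intro s hs
  have e : f =ᶠ[nhds s] fun s => c * s ^ m := by
    filter_upwards [Ioi_mem_nhds hs] with r hr using h r hr
  rw [e.deriv_eq, ((hasDerivAt_zpow m s (Or.inl (by linarith))).const_mul c).deriv, mul_assoc]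

/-- decay of order `k` on `[0, ∞)` -/
def Dec (f : ℝ → ℝ) (k : ℕ) (K : ℝ) : Prop := ∀ s, 0 ≤ s → |f s| * (1 + s) ^ k ≤ K

theorem Dec.mono {f : ℝ → ℝ} {k : ℕ} {K K' : ℝ} (h : Dec f k K) (hK : K ≤ K') : Dec f k K' :=
  fun s hs => (h s hs).trans hK

theorem Far.dec {f : ℝ → ℝ} {c : ℝ} {m : ℤ} (h : Far f c m) (hf : Continuous f) (k : ℕ)
    (hk : m + k ≤ 0) : ∃ K, Dec f k K := by
  have hc : ContinuousOn (fun s => |f s| * (1 + s) ^ k) (Icc 0 2) := by fun_prop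
  obtain ⟨B, hB⟩ := isCompact_Icc.bddAbove_image hc
  refine ⟨max B (|c| * 2 ^ k), fun s hs => ?_⟩
  rcases le_or_gt s 2 with h2 | h2
  · exact (hB ⟨s, ⟨hs, h2⟩, rfl⟩).trans (le_max_left _ _)
  · refine le_trans ?_ (le_max_right _ _)
    have s0 : 0 < s := by linarith
    rw [h s h2, abs_mul, abs_of_pos (zpow_pos s0 m), mul_assoc]
    refine mul_le_mul_of_nonneg_left ?_ (abs_nonneg _)
    have h1 : (1 + s) ^ k ≤ (2 * s) ^ k := pow_le_pow_left₀ (by linarith) (by linarith) k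
    have h3 : s ^ m * s ^ k ≤ 1 := by
      rw [← zpow_natCast, ← zpow_add₀ s0.ne']
      exact zpow_le_one_of_nonpos₀ (by linarith) hk
    calc s ^ m * (1 + s) ^ k ≤ s ^ m * (2 * s) ^ k :=
          mul_le_mul_of_nonneg_left h1 (zpow_pos s0 m).le
      _ = (s ^ m * s ^ k) * 2 ^ k := by rw [mul_pow]; ring
      _ ≤ 1 * 2 ^ k := mul_le_mul_of_nonneg_right h3 (by positivity)
      _ = 2 ^ k := one_mul _

theorem far_G1 : Far G1 1 (-1) := fun s hs => by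
  rw [G1, chi_one hs.le]; simp

theorem far_chi : Far chi 1 0 := fun s hs => by
  rw [chi_one hs.le]; simp

theorem psi_far {s : ℝ} (hs : 2 < s) : psi s = 0 := by
  have := far_chi.deriv s hs
  simpa [psi] using this

theorem psi_near {s : ℝ} (hs : s < 1) : psi s = 0 := by
  have e : chi =ᶠ[nhds s] fun _ => 0 := by
    filter_upwards [Iio_mem_nhds hs] with r hr using chi_zero (le_of_lt hr)
  rw [psi, e.deriv_eq, deriv_const]

theorem exists_dec : ∃ K, 0 ≤ K ∧ Dec G1 1 K ∧ Dec G2 1 K ∧ Dec G3 1 K ∧ Dec G4 2 K ∧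
    Dec psi 0 K ∧ Dec (deriv psi) 0 K := by
  obtain ⟨K1, h1⟩ := far_G1.dec G1_cd.continuous 1 (by norm_num)
  obtain ⟨K2, h2⟩ := far_G1.deriv.dec G2_cd.continuous 1 (by norm_num)
  obtain ⟨K3, h3⟩ := far_G1.deriv.deriv.dec G3_cd.continuous 1 (by norm_num)
  obtain ⟨K4, h4⟩ := far_G1.deriv.deriv.deriv.dec G4_cd.continuous 2 (by norm_num)
  obtain ⟨K5, h5⟩ := far_chi.deriv.dec psi_cd.continuous 0 (by norm_num)
  obtain ⟨K6, h6⟩ := far_chi.deriv.deriv.dec psi1_cd.continuous 0 (by norm_num)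
  have := abs_nonneg K1; have := abs_nonneg K2; have := abs_nonneg K3
  have := abs_nonneg K4; have := abs_nonneg K5; have := abs_nonneg K6
  have := le_abs_self K1; have := le_abs_self K2; have := le_abs_self K3
  have := le_abs_self K4; have := le_abs_self K5; have := le_abs_self K6
  exact ⟨|K1| + |K2| + |K3| + |K4| + |K5| + |K6|, by positivity, h1.mono (by linarith),
    h2.mono (by linarith), h3.mono (by linarith), h4.mono (by linarith), h5.mono (by linarith),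
    h6.mono (by linarith)⟩

theorem Dec.le {f : ℝ → ℝ} {k : ℕ} {K : ℝ} (h : Dec f k K) {s : ℝ} (hs : 0 ≤ s) : |f s| ≤ K :=
  (le_mul_of_one_le_right (abs_nonneg _) (one_le_pow₀ (by linarith))).trans (h s hs)

/-- local bound on a short interval -/
theorem Dec.loc {f : ℝ → ℝ} {k : ℕ} {K : ℝ} (h : Dec f k K) {t d : ℝ} (ht : 0 ≤ t) (htd : 0 ≤ t + d)
    (hd : |d| ≤ (1 + t) / 2) : ∀ s ∈ uIcc t (t + d), |f s| ≤ 2 ^ k * K / (1 + t) ^ k := by
  intro s hs
  have h2 : |s - t| ≤ |d| := by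
    have := abs_sub_left_of_mem_uIcc hs
    simpa using this
  have s0 : 0 ≤ s := by
    rcases mem_uIcc.1 hs with h | h <;> linarith [h.1]
  have h3 : 1 + t ≤ 2 * (1 + s) := by linarith [neg_abs_le (s - t)]
  rw [le_div_iff₀ (by positivity)]
  calc |f s| * (1 + t) ^ k ≤ |f s| * (2 * (1 + s)) ^ k :=
        mul_le_mul_of_nonneg_left (pow_le_pow_left₀ (by linarith) h3 k) (abs_nonneg _)
    _ = 2 ^ k * (|f s| * (1 + s) ^ k) := by rw [mul_pow]; ring
    _ ≤ 2 ^ k * K := mul_le_mul_of_nonneg_left (h s s0) (by positivity)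

theorem G_mono : Monotone G :=
  monotone_of_deriv_nonneg (fun s => (hG s).differentiableAt) fun s => by
    rw [(hG s).deriv]; exact G1_nonneg s

theorem G_zero {t : ℝ} (h : t ≤ 1) : G t = 0 := by
  rw [G, intervalIntegral.integral_congr (g := fun _ => (0 : ℝ)) fun s hs => G1_zero ?_]
  · simp
  · rcases mem_uIcc.1 hs with h' | h' <;> linarith [h'.2]

theorem G_nonneg (t : ℝ) : 0 ≤ G t := by
  rcases le_total t 1 with h | h
  · rw [G_zero h]
  · rw [← G_zero le_rfl]; exact G_mono h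

/-- the defect to the logarithm -/
noncomputable def Df (s : ℝ) : ℝ := Real.log s - G s

theorem hDf {s : ℝ} (hs : 0 < s) : HasDerivAt Df ((1 - chi s) / s) s := by
  refine ((Real.hasDerivAt_log hs.ne').fun_sub (hG s)).congr_deriv ?_
  rw [G1]; field_simp

theorem Df_mono {s t : ℝ} (hs : 0 < s) (h : s ≤ t) : Df s ≤ Df t := by
  refine monotoneOn_of_deriv_nonneg (convex_Ioi 0)
    (fun r hr => (hDf hr).continuousAt.continuousWithinAt)
    (fun r hr => (hDf (by simpa using hr)).differentiableAt.differentiableWithinAt)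
    (fun r hr => ?_) hs (hs.trans_le h) h
  have hr' : 0 < r := by simpa using hr
  rw [(hDf hr').deriv]
  exact div_nonneg (by linarith [chi_le r]) hr'.le

theorem Df_const {t : ℝ} (h : 2 ≤ t) : Df t = Df 2 := by
  have := step (φ := Df) (φ' := fun s => (1 - chi s) / s) (t := 2) (d := t - 2) (B := 0)
    (fun s hs => hDf (by rcases mem_uIcc.1 hs with h' | h' <;> linarith [h'.1]))
    (fun s hs => by
      rw [chi_one (by rcases mem_uIcc.1 hs with h' | h' <;> linarith [h'.1])]; simp)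
    t (by rw [add_sub_cancel]; exact right_mem_uIcc)
  rw [zero_mul] at this
  exact sub_eq_zero.1 (abs_nonpos_iff.1 this)

theorem Df_le {t : ℝ} (h : 0 < t) : Df t ≤ Df 2 := by
  rcases le_total t 2 with h' | h'
  · exact Df_mono h h'
  · exact (Df_const h').le

/-- rescaling by `ρ ≥ 1` -/
theorem G_scale {t ρ : ℝ} (ht : 0 ≤ t) (hρ : 1 ≤ ρ) :
    0 ≤ G (t * ρ ^ 2) - G t ∧ G (t * ρ ^ 2) - G t ≤ 2 * Real.log ρ ∧
    (1 / 4 ≤ t → 2 * Real.log ρ - (Df 2 - Df (1 / 4)) ≤ G (t * ρ ^ 2) - G t) ∧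
    (2 ≤ t → G (t * ρ ^ 2) - G t = 2 * Real.log ρ) := by
  have h1 : t ≤ t * ρ ^ 2 := le_mul_of_one_le_right ht (one_le_pow₀ hρ)
  have key : 0 < t → G (t * ρ ^ 2) - G t = 2 * Real.log ρ - (Df (t * ρ ^ 2) - Df t) := fun h => by
    rw [Df, Df, Real.log_mul h.ne' (by positivity), Real.log_pow]
    push_cast; ring
  refine ⟨sub_nonneg.2 (G_mono h1), ?_, fun h => ?_, fun h => ?_⟩
  · rcases ht.eq_or_lt with h | h
    · rw [← h, zero_mul, sub_self]
      exact mul_nonneg (by norm_num) (Real.log_nonneg hρ)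
    · rw [key h]; linarith [Df_mono h h1]
  · have h0 : 0 < t := by linarith
    rw [key h0]
    linarith [Df_le (h0.trans_le h1), Df_mono (by norm_num : (0 : ℝ) < 1 / 4) h]
  · rw [key (by linarith), Df_const h, Df_const (h.trans h1)]; ring

end Crest.Agent.T145.Nc.Rad80
end

-- ▼ part T145/NcRad_80
section

/-!
# Row 145, T4/RAD: the radial profiles (helper80)
-/

set_option autoImplicit false

namespace Crest.Agent.T145.Nc

namespace Rad80

section real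
variable {t u v δ K : ℝ}

theorem inc0 (ht : 0 ≤ t) (hv : 0 ≤ v) (hvδ : v ≤ δ) (hδ : δ ≤ 1 / 32) (hu : u ^ 2 ≤ 4 * t * v) :
    (v + u) ^ 2 ≤ 8 * δ * (1 + t) ∧ 0 ≤ t + (v + u) ∧ |v + u| ≤ (1 + t) / 2 := by
  have h1 : (v + u) ^ 2 ≤ 8 * δ * (1 + t) := by
    nlinarith [sq_nonneg (v - u), mul_le_mul_of_nonneg_left hvδ ht, mul_le_mul hvδ hvδ hv (hv.trans hvδ),
      hv.trans hvδ]
  refine ⟨h1, ?_, ?_⟩
  · have : |u| ≤ t + v := abs_le_of_sq_le_sq' (by nlinarith [sq_nonneg (t - v)]) (by linarith) |> abs_le.2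
    linarith [neg_abs_le u]
  · refine abs_le.2 (abs_le_of_sq_le_sq' ?_ (by linarith))
    have : δ * (1 + t) ≤ 1 / 32 * (1 + t) := mul_le_mul_of_nonneg_right hδ (by linarith)
    nlinarith

theorem inc1 (hK : 0 ≤ K) (h1 : Dec G1 1 K) {r : ℝ} (hr : 0 ≤ r) (ht : 0 ≤ t) (hv : 0 ≤ v)
    (hvδ : v ≤ r ^ 2) (hδ : r ^ 2 ≤ 1 / 32) (hu : u ^ 2 ≤ 4 * t * v) :
    |G (t + (v + u)) - G t| ≤ 6 * K * r := by
  obtain ⟨a1, a2, a3⟩ := inc0 ht hv hvδ hδ hu
  have b := step (fun s _ => hG s) (h1.loc ht a2 a3) _ Set.right_mem_uIcc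
  have c : |v + u| ≤ 3 * r * (1 + t) := by
    refine abs_le.2 (abs_le_of_sq_le_sq' ?_ (by positivity))
    have : 0 ≤ r ^ 2 * (1 + t) := by positivity
    have : 0 ≤ r ^ 2 * (1 + t) * t := by positivity
    nlinarith
  refine b.trans ((mul_le_mul_of_nonneg_left c (by positivity)).trans (le_of_eq ?_))
  field_simp
  ring

theorem inc2 (hK : 0 ≤ K) (h2 : Dec G2 1 K) (ht : 0 ≤ t) (hv : 0 ≤ v) (hvδ : v ≤ δ)
    (hδ : δ ≤ 1 / 32) (hu : u ^ 2 ≤ 4 * t * v) :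
    |G (t + (v + u)) - G t - G1 t * (v + u)| ≤ 16 * K * δ := by
  obtain ⟨a1, a2, a3⟩ := inc0 ht hv hvδ hδ hu
  have b := tay2 hG hG1 (h2.loc ht a2 a3) _ Set.right_mem_uIcc
  rw [add_sub_cancel_left] at b
  refine b.trans ((mul_le_mul_of_nonneg_left a1 (by positivity)).trans (le_of_eq ?_))
  field_simp
  ring

theorem inc4 (hK : 0 ≤ K) (h4 : Dec G4 2 K) (ht : 0 ≤ t) (hv : 0 ≤ v) (hvδ : v ≤ δ)
    (hδ : δ ≤ 1 / 32) (hu : u ^ 2 ≤ 4 * t * v) :
    |G (t + (v + u)) - G t - G1 t * (v + u) - G2 t * (v + u) ^ 2 / 2 - G3 t * (v + u) ^ 3 / 6| ≤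
      256 * K * δ ^ 2 := by
  obtain ⟨a1, a2, a3⟩ := inc0 ht hv hvδ hδ hu
  have b := tay4 hG hG1 hG2 hG3 (h4.loc ht a2 a3)
  have c : (v + u) ^ 4 ≤ (8 * δ * (1 + t)) ^ 2 := by
    rw [show (v + u) ^ 4 = ((v + u) ^ 2) ^ 2 by ring]
    exact pow_le_pow_left₀ (by positivity) a1 2
  refine b.trans ((mul_le_mul_of_nonneg_left c (by positivity)).trans (le_of_eq ?_))
  field_simp
  ring

theorem inc5 (hK : 0 ≤ K) (h2 : Dec G2 1 K) (h3 : Dec G3 1 K) (h4 : Dec G4 2 K) (ht : 0 ≤ t)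
    (hv : 0 ≤ v) (hvδ : v ≤ δ) (hδ : δ ≤ 1 / 32) (hu : u ^ 2 ≤ 4 * t * v) :
    |(G (t + (v + u)) - G t) + (G (t + (v + -u)) - G t) - (2 * G1 t * v + G2 t * u ^ 2)| ≤
      518 * K * δ ^ 2 := by
  have b1 := inc4 hK h4 ht hv hvδ hδ hu
  have b2 := inc4 (u := -u) hK h4 ht hv hvδ hδ (by rwa [neg_sq])
  have δ0 : 0 ≤ δ := hv.trans hvδ
  have v2 : v ^ 2 ≤ δ ^ 2 := pow_le_pow_left₀ hv hvδ 2
  have c1 : |G2 t * v ^ 2| ≤ K * δ ^ 2 := by
    rw [abs_mul, abs_of_nonneg (by positivity : 0 ≤ v ^ 2)]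
    exact mul_le_mul (h2.le ht) v2 (by positivity) hK
  have c2 : |G3 t * (v ^ 3 / 3)| ≤ K * δ ^ 2 := by
    rw [abs_mul, abs_of_nonneg (by positivity : 0 ≤ v ^ 3 / 3)]
    refine mul_le_mul (h3.le ht) ?_ (by positivity) hK
    have : v ^ 2 * v ≤ δ ^ 2 * 1 := mul_le_mul v2 (by linarith) hv (by positivity)
    nlinarith [pow_nonneg hv 3]
  have c3 : |G3 t * (u ^ 2 * v)| ≤ 4 * K * δ ^ 2 := by
    rw [abs_mul, abs_of_nonneg (by positivity : 0 ≤ u ^ 2 * v)]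
    have e := h3 t ht
    rw [pow_one] at e
    have f : u ^ 2 * v ≤ (1 + t) * (4 * δ ^ 2) := by
      have := mul_le_mul_of_nonneg_right hu hv
      have := mul_le_mul_of_nonneg_left v2 ht
      nlinarith [sq_nonneg δ]
    calc |G3 t| * (u ^ 2 * v) ≤ |G3 t| * ((1 + t) * (4 * δ ^ 2)) :=
          mul_le_mul_of_nonneg_left f (abs_nonneg _)
      _ = |G3 t| * (1 + t) * (4 * δ ^ 2) := by ring
      _ ≤ K * (4 * δ ^ 2) := mul_le_mul_of_nonneg_right e (by positivity)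
      _ = 4 * K * δ ^ 2 := by ring
  rw [abs_le] at *
  constructor <;> nlinarith [b1.1, b1.2, b2.1, b2.2, c1.1, c1.2, c2.1, c2.2, c3.1, c3.2]

end real

open Finset

noncomputable def tt (R : ℝ) (x : Pt) : ℝ := ((x.1 : ℝ) ^ 2 + (x.2 : ℝ) ^ 2) / R ^ 2
noncomputable def uu (R : ℝ) (x y : Pt) : ℝ := 2 * ((x.1 : ℝ) * y.1 + (x.2 : ℝ) * y.2) / R ^ 2

theorem tt_nonneg (R : ℝ) (x : Pt) : 0 ≤ tt R x := by unfold tt; positivity

theorem tt_add (R : ℝ) (x y : Pt) : tt R (x + y) = tt R x + (tt R y + uu R x y) := by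
  simp only [tt, uu, Prod.fst_add, Prod.snd_add, Int.cast_add]; ring

theorem tt_sub (R : ℝ) (x y : Pt) : tt R (x + -y) = tt R x + (tt R y + -uu R x y) := by
  simp only [tt, uu, Prod.fst_add, Prod.snd_add, Int.cast_add, Prod.fst_neg, Prod.snd_neg,
    Int.cast_neg]; ring

theorem uu_sq (R : ℝ) (x y : Pt) : uu R x y ^ 2 ≤ 4 * tt R x * tt R y := by
  have : 4 * tt R x * tt R y - uu R x y ^ 2 =
      4 * (((x.1 : ℝ) * y.2 - (x.2 : ℝ) * y.1) / R ^ 2) ^ 2 := by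
    simp only [tt, uu]; ring
  have : 0 ≤ 4 * (((x.1 : ℝ) * y.2 - (x.2 : ℝ) * y.1) / R ^ 2) ^ 2 := by positivity
  linarith

noncomputable def gg (a : ℕ) (x : Pt) : ℝ := G (tt (8 * a) x)
noncomputable def qq (a : ℕ) (x : Pt) : ℝ := 4 * psi (tt (8 * a) x) / (8 * a) ^ 2

theorem tt_le {a n : ℕ} (ha : 1 ≤ a) {x : Pt} (hx : x ∈ bl 0 (n * a)) :
    tt (8 * a) x ≤ (n : ℝ) ^ 2 / 32 := by
  have a0 : (0 : ℝ) < a := by exact_mod_cast ha
  rw [mem_bl_abs] at hx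
  simp only [Prod.fst_zero, Prod.snd_zero, sub_zero] at hx
  have h1 : |(x.1 : ℝ)| ≤ n * a := by exact_mod_cast hx.1
  have h2 : |(x.2 : ℝ)| ≤ n * a := by exact_mod_cast hx.2
  have h3 := pow_le_pow_left₀ (abs_nonneg _) h1 2
  have h4 := pow_le_pow_left₀ (abs_nonneg _) h2 2
  rw [sq_abs] at h3 h4
  rw [tt, div_le_iff₀ (by positivity)]
  nlinarith

theorem le_tt {a n : ℕ} (ha : 1 ≤ a) {x : Pt} (hx : x ∉ bl 0 (n * a)) :
    (n : ℝ) ^ 2 / 64 ≤ tt (8 * a) x := by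
  have a0 : (0 : ℝ) < a := by exact_mod_cast ha
  rw [mem_bl_abs] at hx
  simp only [Prod.fst_zero, Prod.snd_zero, sub_zero, not_and_or, not_le] at hx
  rw [tt, le_div_iff₀ (by positivity)]
  rcases hx with h | h
  · have h1 : (n : ℝ) * a ≤ |(x.1 : ℝ)| := by exact_mod_cast h.le
    have h3 := pow_le_pow_left₀ (by positivity) h1 2
    rw [sq_abs] at h3
    nlinarith [sq_nonneg (x.2 : ℝ)]
  · have h1 : (n : ℝ) * a ≤ |(x.2 : ℝ)| := by exact_mod_cast h.le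
    have h3 := pow_le_pow_left₀ (by positivity) h1 2
    rw [sq_abs] at h3
    nlinarith [sq_nonneg (x.1 : ℝ)]

theorem tt_scale {a a' : ℕ} (ha : 1 ≤ a) (ha' : 1 ≤ a') (x : Pt) :
    tt (8 * a') x = tt (8 * a) x * ((a : ℝ) / a') ^ 2 := by
  have a0 : (0 : ℝ) < a := by exact_mod_cast ha
  have a1 : (0 : ℝ) < a' := by exact_mod_cast ha'
  simp only [tt]; field_simp

theorem sm2 {K : ℝ} (hK : 0 ≤ K) (h1 : Dec G1 1 K) (h2 : Dec G2 1 K) {a : ℕ} (ha : 2 ≤ a) :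
    Sm2 (gg a) (4 * K) a := by
  have a0 : (2 : ℝ) ≤ a := by exact_mod_cast ha
  have e1 : ∀ i, tt (8 * a) (ev i) = (1 / (8 * a)) ^ 2 := fun i => by
    rw [div_pow, one_pow]
    fin_cases i <;> simp [tt, ev]
  have e2 : ∀ i j, tt (8 * a) (ev j + ev i) ≤ 4 * (1 / (8 * a)) ^ 2 := fun i j => by
    have : 4 * (1 / (8 * (a : ℝ))) ^ 2 = 4 / (8 * a) ^ 2 := by field_simp
    rw [this, tt]
    refine div_le_div_of_nonneg_right ?_ (by positivity)
    fin_cases i <;> fin_cases j <;> simp [ev] <;> norm_num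
  have e3 : ∀ i j, |uu (8 * a) (ev j) (ev i)| ≤ 2 * (1 / (8 * a)) ^ 2 := fun i j => by
    have : 2 * (1 / (8 * (a : ℝ))) ^ 2 = 2 / (8 * a) ^ 2 := by field_simp
    rw [this, uu, abs_div, abs_of_nonneg (by positivity : (0 : ℝ) ≤ (8 * a) ^ 2)]
    refine div_le_div_of_nonneg_right ?_ (by positivity)
    fin_cases i <;> fin_cases j <;> simp [ev]
  have r0 : (0 : ℝ) ≤ 1 / (8 * a) := by positivity
  have r1 : 1 / (8 * (a : ℝ)) ≤ 1 / 16 := one_div_le_one_div_of_le (by norm_num) (by linarith)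
  have r2 : 4 * (1 / (8 * (a : ℝ))) ^ 2 ≤ 1 / 32 := by nlinarith
  have r3 : (1 / (8 * (a : ℝ))) ^ 2 ≤ 4 * (1 / (8 * (a : ℝ))) ^ 2 := by nlinarith
  refine ⟨fun i x => ?_, fun i j x => ?_⟩
  · rw [df, gg, gg, tt_add]
    refine (inc1 hK h1 r0 (tt_nonneg _ _) (tt_nonneg _ _) (e1 i).le (r3.trans r2) (uu_sq _ _ _)).trans ?_
    have : 6 * K * (1 / (8 * (a : ℝ))) = 3 / 4 * K / a := by field_simp; ring
    rw [this]
    exact div_le_div_of_nonneg_right (by linarith) (by positivity)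
  · have b : ∀ y : Pt, tt (8 * a) y ≤ 4 * (1 / (8 * a)) ^ 2 →
        |gg a (x + y) - gg a x - G1 (tt (8 * a) x) * (tt (8 * a) y + uu (8 * a) x y)| ≤
          16 * K * (4 * (1 / (8 * a)) ^ 2) := fun y hy => by
      rw [gg, gg, tt_add]
      exact inc2 hK h2 (tt_nonneg _ _) (tt_nonneg _ _) hy r2 (uu_sq _ _ _)
    have b1 := b _ (e2 i j)
    have b2 := b _ ((e1 i).le.trans r3)
    have b3 := b _ ((e1 j).le.trans r3)
    have b4 : |G1 (tt (8 * a) x) * uu (8 * a) (ev j) (ev i)| ≤ K * (2 * (1 / (8 * a)) ^ 2) := by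
      rw [abs_mul]
      exact mul_le_mul (h1.le (tt_nonneg _ _)) (e3 i j) (abs_nonneg _) hK
    have e4 : uu (8 * a) x (ev j + ev i) = uu (8 * a) x (ev j) + uu (8 * a) x (ev i) := by
      simp only [uu, Prod.fst_add, Prod.snd_add, Int.cast_add]; ring
    rw [tt_add, e4] at b1
    have e5 : 4 * K / (a : ℝ) ^ 2 = 256 * (K * (1 / (8 * a)) ^ 2) := by field_simp; ring
    have p : 0 ≤ K * (1 / (8 * (a : ℝ))) ^ 2 := by positivity
    simp only [df]
    rw [e5, add_assoc x]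
    rw [abs_le] at *
    constructor <;> nlinarith [b1.1, b1.2, b2.1, b2.2, b3.1, b3.2, b4.1, b4.2]

theorem lap {K : ℝ} (hK : 0 ≤ K) (h2 : Dec G2 1 K) (h3 : Dec G3 1 K) (h4 : Dec G4 2 K) {Λ : Lat}
    (hΛ : Λ.Ok) {a : ℕ} (ha : Λ.rg ≤ a) (x : Pt) :
    |∑ y ∈ Λ.J, (gg a (x + y) - gg a x) - Λ.a * qq a x| ≤
      Λ.J.card * (K * (Λ.rg : ℝ) ^ 4) / (a : ℝ) ^ 4 := by
  have a0 : (0 : ℝ) < a := by exact_mod_cast hΛ.one_le_rg.trans ha
  have a1 : (Λ.rg : ℝ) ≤ a := by exact_mod_cast ha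
  set t := tt (8 * a) x with ht
  have main : Λ.a * qq a x =
      ∑ y ∈ Λ.Jp, (2 * G1 t * tt (8 * a) y + G2 t * uu (8 * a) x y ^ 2) := by
    have : ∀ y : Pt, 2 * G1 t * tt (8 * a) y + G2 t * uu (8 * a) x y ^ 2 =
        (2 * G1 t / (8 * a) ^ 2 + 4 * G2 t * (x.1 : ℝ) ^ 2 / (8 * a) ^ 4) * (y.1 : ℝ) ^ 2 +
        (2 * G1 t / (8 * a) ^ 2 + 4 * G2 t * (x.2 : ℝ) ^ 2 / (8 * a) ^ 4) * (y.2 : ℝ) ^ 2 +
        8 * G2 t * x.1 * x.2 / (8 * a) ^ 4 * ((y.1 : ℝ) * y.2) := fun y => by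
      simp only [tt, uu]; field_simp; ring
    simp only [this, sum_add_distrib, ← mul_sum]
    rw [hΛ.sum_mixed, ← hΛ.a_eq_snd, ← Lat.a, qq, ← ht, psi_eq]
    have e : t = ((x.1 : ℝ) ^ 2 + (x.2 : ℝ) ^ 2) / (8 * a) ^ 2 := rfl
    generalize G1 t = A
    generalize G2 t = B
    rw [e]; field_simp; ring
  rw [hΛ.sum_J, main, ← sum_sub_distrib]
  have hδ : 2 * (Λ.rg : ℝ) ^ 2 / (8 * a) ^ 2 ≤ 1 / 32 := by
    rw [div_le_iff₀ (by positivity)]
    have := pow_le_pow_left₀ (by positivity) a1 2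
    nlinarith
  have b : ∀ y ∈ Λ.Jp, |(gg a (x + y) - gg a x) + (gg a (x + -y) - gg a x) -
      (2 * G1 t * tt (8 * a) y + G2 t * uu (8 * a) x y ^ 2)| ≤ K * (Λ.rg : ℝ) ^ 4 / (a : ℝ) ^ 4 := by
    intro y hy
    have hr := Lat.le_rg (Lat.mem_Jp.1 hy).1
    have h1 : |(y.1 : ℝ)| ≤ Λ.rg := by exact_mod_cast hr.1
    have h1' : |(y.2 : ℝ)| ≤ Λ.rg := by exact_mod_cast hr.2
    have h5 := pow_le_pow_left₀ (abs_nonneg _) h1 2
    have h6 := pow_le_pow_left₀ (abs_nonneg _) h1' 2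
    rw [sq_abs] at h5 h6
    have hy' : tt (8 * a) y ≤ 2 * (Λ.rg : ℝ) ^ 2 / (8 * a) ^ 2 :=
      div_le_div_of_nonneg_right (by linarith) (by positivity)
    rw [gg, gg, gg, tt_add, tt_sub]
    refine (inc5 hK h2 h3 h4 (tt_nonneg _ _) (tt_nonneg _ _) hy' hδ (uu_sq _ _ _)).trans ?_
    have : 518 * K * (2 * (Λ.rg : ℝ) ^ 2 / (8 * a) ^ 2) ^ 2 =
        518 / 1024 * (K * (Λ.rg : ℝ) ^ 4 / (a : ℝ) ^ 4) := by field_simp; ring
    rw [this]
    have : 0 ≤ K * (Λ.rg : ℝ) ^ 4 / (a : ℝ) ^ 4 := by positivity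
    linarith
  refine (abs_sum_le_sum_abs _ _).trans ((sum_le_card_nsmul _ _ _ b).trans ?_)
  rw [nsmul_eq_mul, mul_div_assoc (Λ.J.card : ℝ)]
  refine mul_le_mul_of_nonneg_right ?_ (by positivity)
  exact_mod_cast card_filter_le _ _

theorem row {K : ℝ} (hK : 0 ≤ K) (h : Dec (deriv psi) 0 K) {a : ℕ} (ha : 1 ≤ a) (haK : 5 * K ≤ a)
    {j : ℕ} (hj : j < a) :
    (a : ℝ) ≤ ∑ i ∈ range (10 * a), psi (tt (8 * a) ((5 * a + i : ℕ), (j : ℕ))) := by
  have a0 : (1 : ℝ) ≤ a := by exact_mod_cast ha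
  have j0 : (j : ℝ) ≤ a := by exact_mod_cast hj.le
  set T : ℕ → ℝ := fun i => tt (8 * a) ((5 * a + i : ℕ), (j : ℕ)) with hT
  have hT' : ∀ i : ℕ, T i = ((5 * a + i : ℝ) ^ 2 + (j : ℝ) ^ 2) / (8 * a) ^ 2 := fun i => by
    simp [hT, tt]
  have tel := sum_range_sub (fun i => chi (T i)) (10 * a)
  have e0 : chi (T 0) = 0 := chi_zero (by
    rw [hT', div_le_iff₀ (by positivity)]
    have := pow_le_pow_left₀ (by positivity) j0 2
    push_cast; nlinarith)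
  have e1 : chi (T (10 * a)) = 1 := chi_one (by
    rw [hT', le_div_iff₀ (by positivity)]
    push_cast; nlinarith [sq_nonneg (j : ℝ)])
  have b : ∀ i ∈ range (10 * a), chi (T (i + 1)) - chi (T i) ≤
      psi (T i) * (1 / (2 * a)) + K * (1 / (2 * a)) ^ 2 := by
    intro i hi
    have i0 : (i : ℝ) + 1 ≤ 10 * a := by exact_mod_cast mem_range.1 hi
    have d0 : 0 ≤ T (i + 1) - T i := by
      rw [hT', hT', ← sub_div]
      refine div_nonneg ?_ (by positivity)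
      have : (0 : ℝ) ≤ i := by positivity
      push_cast; nlinarith
    have d1 : T (i + 1) - T i ≤ 1 / (2 * a) := by
      rw [hT', hT', ← sub_div, div_le_div_iff₀ (by positivity) (by positivity)]
      push_cast; nlinarith
    have t0 : 0 ≤ T i := tt_nonneg _ _
    have c := tay2 hchi hpsi (t := T i) (d := T (i + 1) - T i) (M := K) (fun s hs => h.le (by
      rcases Set.mem_uIcc.1 hs with h' | h' <;> linarith [h'.1])) (T (i + 1))
      (by rw [add_sub_cancel]; exact Set.right_mem_uIcc)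
    have c1 := mul_le_mul_of_nonneg_left d1 (psi_nonneg (T i))
    have c2 := mul_le_mul_of_nonneg_left (pow_le_pow_left₀ d0 d1 2) hK
    linarith [(abs_le.1 c).2]
  have s := sum_le_sum b
  rw [tel, e0, e1, sum_add_distrib, ← sum_mul, sum_const, card_range, nsmul_eq_mul] at s
  have e2 : ((10 * a : ℕ) : ℝ) * (K * (1 / (2 * a)) ^ 2) ≤ 1 / 2 := by
    have : ((10 * a : ℕ) : ℝ) * (K * (1 / (2 * a)) ^ 2) = 5 * K / (2 * a) := by
      push_cast; field_simp; ring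
    rw [this, div_le_iff₀ (by positivity)]; linarith
  have e3 : 1 / 2 ≤ (∑ i ∈ range (10 * a), psi (T i)) * (1 / (2 * a)) := by linarith
  rw [mul_one_div, le_div_iff₀ (by positivity)] at e3
  linarith

theorem qq_nonneg (a : ℕ) (x : Pt) : 0 ≤ qq a x :=
  div_nonneg (mul_nonneg (by norm_num) (psi_nonneg _)) (by positivity)

theorem mass {K : ℝ} (hK : 0 ≤ K) (h : Dec (deriv psi) 0 K) {a : ℕ} (ha : 1 ≤ a) (haK : 5 * K ≤ a) :
    1 / 16 ≤ ∑ x ∈ an 0 (4 * a) (16 * a), qq a x := by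
  have a0 : (1 : ℝ) ≤ a := by exact_mod_cast ha
  let e : ℕ × ℕ → Pt := fun p => ((5 * a + p.2 : ℕ), (p.1 : ℕ))
  have hs : (range a ×ˢ range (10 * a)).image e ⊆ an 0 (4 * a) (16 * a) := by
    intro x hx
    obtain ⟨p, hp, rfl⟩ := mem_image.1 hx
    simp only [mem_product, mem_range] at hp
    simp only [an, mem_sdiff, mem_bl, e, Prod.fst_zero, Prod.snd_zero]
    omega
  refine le_trans ?_ (sum_le_sum_of_subset_of_nonneg hs fun x _ _ => qq_nonneg a x)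
  rw [sum_image fun p _ p' _ hh => by
    simp only [e, Prod.mk.injEq] at hh
    exact Prod.ext (by omega) (by omega), sum_product]
  have b : ∀ j ∈ range a, 4 * (a : ℝ) / (8 * a) ^ 2 ≤ ∑ i ∈ range (10 * a), qq a (e (j, i)) := by
    intro j hj
    simp only [qq, ← sum_div, ← mul_sum]
    exact div_le_div_of_nonneg_right
      (mul_le_mul_of_nonneg_left (row hK h ha haK (mem_range.1 hj)) (by norm_num)) (by positivity)
  refine le_trans (le_of_eq ?_) (card_nsmul_le_sum _ _ _ b)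
  rw [card_range, nsmul_eq_mul]
  field_simp; ring

end Rad80

open Rad80 in
theorem radStmt : RadStmt := by
  intro F
  obtain ⟨K, hK, h1, h2, h3, h4, h5, h6⟩ := exists_dec
  let r : ℕ := ProbabilityR.HeightModel.interactionRange F.J
  have p1 := G_nonneg 8
  have p2 : 0 ≤ Df 2 - Df (1 / 4) := sub_nonneg.2 (Df_mono (by norm_num) (by norm_num))
  have p3 : 0 ≤ F.J.card * (K * (r : ℝ) ^ 4) := by positivity
  refine ⟨G 8 + (Df 2 - Df (1 / 4)) + 4 * K + F.J.card * (K * (r : ℝ) ^ 4), 1 / 16, 2,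
    r + ⌈5 * K⌉₊ + 2, gg, qq, by norm_num, by norm_num, fun a ha => ?_⟩
  have a1 : 1 ≤ a := by omega
  have a0 : (0 : ℝ) < a := by exact_mod_cast a1
  refine ⟨fun x hx => G_zero ((tt_le a1 hx).trans (by norm_num)), fun x hx => ⟨G_nonneg _, ?_⟩,
    fun a' ha1 ha2 x => ?_, fun x => ⟨qq_nonneg a x, ?_⟩, fun x hx => ?_,
    mass hK h6 a1 ((Nat.le_ceil _).trans (by exact_mod_cast (by omega))), ?_, fun Λ hΛ x => ?_⟩
  · have : gg a x ≤ G 8 := G_mono ((tt_le a1 hx).trans (by norm_num))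
    linarith
  · have a2 : (0 : ℝ) < a' := by exact_mod_cast ha1
    have a3 : (1 : ℝ) ≤ (a : ℝ) / a' := by
      rw [le_div_iff₀ a2, one_mul]; exact_mod_cast ha2
    obtain ⟨b1, b2, b3, b4⟩ := G_scale (tt_nonneg (8 * a) x) a3
    rw [gg, gg, tt_scale a1 ha1]
    refine ⟨b1, b2, fun hx => ?_, fun hx => b4 (le_trans (by norm_num) (le_tt a1 hx))⟩
    have := b3 (le_trans (by norm_num) (le_tt a1 hx))
    linarith
  · have b := (le_abs_self _).trans (h5.le (tt_nonneg (8 * a) x))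
    have : qq a x = psi (tt (8 * a) x) / 16 / (a : ℝ) ^ 2 := by rw [qq]; field_simp; ring
    rw [this]
    exact div_le_div_of_nonneg_right (by linarith) (by positivity)
  · rw [an, Finset.mem_sdiff, not_and_or, not_not] at hx
    rw [qq]
    rcases hx with hx | hx
    · rw [psi_far (lt_of_lt_of_le (by norm_num) (le_tt a1 hx))]; simp
    · rw [psi_near (lt_of_le_of_lt (tt_le a1 hx) (by norm_num))]; simp
  · obtain ⟨b1, b2⟩ := sm2 hK h1 h2 (by omega : 2 ≤ a)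
    exact ⟨fun i x => (b1 i x).trans (div_le_div_of_nonneg_right (by linarith) a0.le),
      fun i j x => (b2 i j x).trans (div_le_div_of_nonneg_right (by linarith) (by positivity))⟩
  · have hO : Λ.Ok := ⟨hΛ.1 ▸ F.adm, F.pos.trans_le hΛ.2.2.1⟩
    have hr : Λ.rg = r := by rw [Lat.rg, hΛ.1]
    refine (lap hK h2 h3 h4 hO (by omega) x).trans ?_
    rw [hr, hΛ.1]
    exact div_le_div_of_nonneg_right (by linarith) (by positivity)

end Crest.Agent.T145.Nc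
end

-- ▼ part T145/NcTest_98
section

/-!
# Row 145 (helper98): `Nc.testStmt : RadStmt → TestStmt`
-/

set_option autoImplicit false

namespace Crest.Agent.T145.Nc

open Finset

namespace Te98

variable {Λ : Lat} {u v : Pt → ℝ} {D U : Finset Pt}

theorem mem_an {z x : Pt} {r R : ℕ} : x ∈ an z r R ↔ x ∈ bl z R ∧ x ∉ bl z r := mem_sdiff

theorem an_mono (z : Pt) {r r' R R' : ℕ} (h : r' ≤ r) (h' : R ≤ R') : an z r R ⊆ an z r' R' :=
  sdiff_subset_sdiff (bl_mono z h') (bl_mono z h)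

theorem card_an_le (r : ℕ) {R : ℕ} {b : ℝ} (h : 2 * (R : ℝ) + 1 ≤ b) :
    ((an 0 r R).card : ℝ) ≤ b ^ 2 := by
  have h1 : (an 0 r R).card ≤ (2 * R + 1) ^ 2 := card_bl 0 R ▸ card_le_card sdiff_subset
  have h2 : ((an 0 r R).card : ℝ) ≤ (2 * (R : ℝ) + 1) ^ 2 := by exact_mod_cast h1
  exact h2.trans (pow_le_pow_left₀ (by positivity) h 2)

/-- inside any set that carries the gradients, `A u` is the full lattice Laplacian -/
theorem Au_gin (hΛ : Λ.Ok) (hG : Gin Λ u D) (hU : D ⊆ U) (z : Pt) :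
    Λ.Au U u z = -(∑ y ∈ Λ.J, (u (z + y) - u z)) / Λ.τ := by
  have k : ∀ y ∈ Λ.Jp, ∀ x, RJ57.gt U y x * ((u (x + y) - u x) / Λ.τ) = (u (x + y) - u x) / Λ.τ :=
    fun y hy x => by
      by_cases h : u x = u (x + y)
      · rw [← h, sub_self, zero_div, mul_zero]
      · have := hG x (x + y) (by rwa [add_sub_cancel_left]) h
        rw [RJ57.gt_one (hU this.1) (hU this.2), one_mul]
  rw [Lat.Au, RJ57.dv_edI, hΛ.sum_J, ← sum_neg_distrib, sum_div]
  refine sum_congr rfl fun y hy => ?_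
  have := k y hy (z - y)
  rw [sub_add_cancel] at this
  simp only [this, k y hy z, ← sub_eq_add_neg]
  ring

theorem lap_off (hΛ : Λ.Ok) (hG : Gin Λ u D) {z : Pt} (hz : z ∉ D) :
    ∑ y ∈ Λ.J, (u (z + y) - u z) = 0 := by
  refine sum_eq_zero fun y hy => sub_eq_zero.2 (by_contra fun h => hz ?_)
  rcases hΛ.mem_or.1 hy with hy | hy
  · exact (hG z (z + y) (by rwa [add_sub_cancel_left]) (Ne.symm h)).1
  · exact (hG (z + y) z (by rwa [sub_add_cancel_left]) h).2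

theorem En_comm (Λ : Lat) (U : Finset Pt) (u v : Pt → ℝ) : Λ.En U u v = Λ.En U v u :=
  sum_congr rfl fun _ _ => by ring

theorem pv_sum {p : Pt → ℝ} (hp : Pv D p) (hU : D ⊆ U) (v : Pt → ℝ) :
    ∑ x ∈ U, p x * v x = ∑ x ∈ D, p x * v x :=
  (sum_subset hU fun x _ hx => by rw [hp.2.1 x hx, zero_mul]).symm

theorem pv_le {p : Pt → ℝ} (hp : Pv D p) (hU : D ⊆ U) {b : ℝ} (h : ∀ x ∈ D, v x ≤ b) :
    ∑ x ∈ U, p x * v x ≤ b := by
  rw [pv_sum hp hU]
  refine (sum_le_sum fun x hx => mul_le_mul_of_nonneg_left (h x hx) (hp.1 x)).trans ?_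
  rw [← sum_mul, hp.2.2, one_mul]

theorem le_pv {p : Pt → ℝ} (hp : Pv D p) (hU : D ⊆ U) {b : ℝ} (h : ∀ x ∈ D, b ≤ v x) :
    b ≤ ∑ x ∈ U, p x * v x := by
  rw [pv_sum hp hU]
  refine le_trans ?_ (sum_le_sum fun x hx => mul_le_mul_of_nonneg_left (h x hx) (hp.1 x))
  rw [← sum_mul, hp.2.2, one_mul]

/-- the energy against a bounded function -/
theorem En_near (Λ : Lat) (U : Finset Pt) (u v p φ : Pt → ℝ) {μ ε b : ℝ} (hv : ∀ x, |v x| ≤ b)
    (h : ∑ x ∈ U, |Λ.Au U u x - μ * (p x - φ x)| ≤ ε) :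
    |Λ.En U u v - μ * (∑ x ∈ U, p x * v x - ∑ x ∈ U, φ x * v x)| ≤ ε * b := by
  have hb : 0 ≤ b := (abs_nonneg _).trans (hv 0)
  rw [← T84.ip_Au, ip, ← sum_sub_distrib, mul_sum, ← sum_sub_distrib]
  refine (abs_sum_le_sum_abs _ _).trans (le_trans ?_ (mul_le_mul_of_nonneg_right h hb))
  rw [sum_mul]
  refine sum_le_sum fun x _ => ?_
  rw [show Λ.Au U u x * v x - μ * (p x * v x - φ x * v x) =
    (Λ.Au U u x - μ * (p x - φ x)) * v x by ring, abs_mul]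
  exact mul_le_mul_of_nonneg_left (hv x) (abs_nonneg _)

/-- the body of `RadStmt` at one scale, for one lattice -/
def Rd (Λ : Lat) (K c h : ℝ) (g q : ℕ → Pt → ℝ) (a : ℕ) : Prop :=
  (∀ x ∈ bl 0 (4 * a), g a x = 0) ∧ (∀ x ∈ bl 0 (16 * a), 0 ≤ g a x ∧ g a x ≤ K) ∧
    (∀ a', 1 ≤ a' → a' ≤ a → ∀ x, 0 ≤ g a' x - g a x ∧ g a' x - g a x ≤ h * Real.log (a / a') ∧
      (x ∉ bl 0 (4 * a) → h * Real.log (a / a') - K ≤ g a' x - g a x) ∧
      (x ∉ bl 0 (16 * a) → g a' x - g a x = h * Real.log (a / a'))) ∧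
    (∀ x, 0 ≤ q a x ∧ q a x ≤ K / (a : ℝ) ^ 2) ∧ Sup (an 0 (4 * a) (16 * a)) (q a) ∧
    c ≤ ∑ x ∈ an 0 (4 * a) (16 * a), q a x ∧ Sm2 (g a) K a ∧
    ∀ x, |∑ y ∈ Λ.J, (g a (x + y) - g a x) - Λ.a * q a x| ≤ K / (a : ℝ) ^ 4

/-- total mass -/
noncomputable def ms (q : ℕ → Pt → ℝ) (a : ℕ) : ℝ := ∑ x ∈ an 0 (4 * a) (16 * a), q a x

/-- the normalised blob -/
noncomputable def bb (q : ℕ → Pt → ℝ) (a : ℕ) (x : Pt) : ℝ := q a x / ms q a

/-- the test function -/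
noncomputable def tf (h : ℝ) (g : ℕ → Pt → ℝ) (M a : ℕ) (x : Pt) : ℝ :=
  g M x - g a x + h * Real.log (M / a)

variable {K c h : ℝ} {g q : ℕ → Pt → ℝ} {a M : ℕ}

theorem Rd.K_nonneg (R : Rd Λ K c h g q a) : 0 ≤ K :=
  (R.2.1 0 (self_mem_bl _ _)).1.trans (R.2.1 0 (self_mem_bl _ _)).2

theorem Rd.pv (R : Rd Λ K c h g q a) (hc : 0 < c) : Pv (an 0 (4 * a) (16 * a)) (bb q a) := by
  have hm : 0 < ms q a := hc.trans_le R.2.2.2.2.2.1
  refine ⟨fun x => div_nonneg (R.2.2.2.1 x).1 hm.le, fun x hx => ?_, ?_⟩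
  · rw [bb, R.2.2.2.2.1 x hx, zero_div]
  · simp only [bb]
    rw [← sum_div]
    exact div_self hm.ne'

theorem Rd.blob (R : Rd Λ K c h g q a) (hc : 0 < c) {K' : ℝ} (hK : K / c ≤ K') :
    Blob (bb q a) K' a := by
  refine ⟨R.pv hc, fun x => ?_⟩
  calc bb q a x ≤ K / (a : ℝ) ^ 2 / c :=
        div_le_div₀ (div_nonneg R.K_nonneg (sq_nonneg _)) (R.2.2.2.1 x).2 hc R.2.2.2.2.2.1
    _ = K / c / (a : ℝ) ^ 2 := div_right_comm _ _ _
    _ ≤ _ := div_le_div_of_nonneg_right hK (sq_nonneg _)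

theorem Rd.ms_le (R : Rd Λ K c h g q a) (ha : 1 ≤ a) : ms q a ≤ 33 ^ 2 * K := by
  have h1 : (1 : ℝ) ≤ a := by exact_mod_cast ha
  have h2 := card_an_le (4 * a) (R := 16 * a) (b := 33 * a) (by push_cast; linarith)
  refine (sum_le_card_nsmul _ _ _ fun x _ => (R.2.2.2.1 x).2).trans ?_
  rw [nsmul_eq_mul]
  refine (mul_le_mul_of_nonneg_right h2 (div_nonneg R.K_nonneg (sq_nonneg _))).trans (le_of_eq ?_)
  field_simp

theorem tf_mem (RM : Rd Λ K c h g q M) (ha : 1 ≤ a) (hM : a ≤ M) (x : Pt) :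
    0 ≤ tf h g M a x ∧ tf h g M a x ≤ h * Real.log (M / a) := by
  have := RM.2.2.1 a ha hM x
  constructor <;> rw [tf] <;> linarith [this.1, this.2.1]

theorem tf_gin (Ra : Rd Λ K c h g q a) (RM : Rd Λ K c h g q M) (ha : 1 ≤ a) (hM : a ≤ M)
    (hr : Λ.rg ≤ a) : Gin Λ (tf h g M a) (an 0 a (32 * M)) := by
  have h1 : ∀ x ∈ bl 0 (4 * a), tf h g M a x = h * Real.log (M / a) := fun x hx => by
    rw [tf, Ra.1 x hx, RM.1 x (bl_mono 0 (by omega) hx), sub_self, zero_add]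
  have h2 : ∀ x, x ∉ bl 0 (16 * M) → tf h g M a x = 0 := fun x hx => by
    have := (RM.2.2.1 a ha hM x).2.2.2 hx
    rw [tf]; linarith
  have key : ∀ x y : Pt, y ∈ bl x Λ.rg → tf h g M a x ≠ tf h g M a y → x ∈ an 0 a (32 * M) :=
    fun x y hy hne => by
      refine mem_an.2 ⟨by_contra fun hx => hne ?_, fun hx => hne ?_⟩
      · rw [h2 x fun H => hx (bl_mono 0 (by omega) H), h2 y fun H =>
          hx (bl_subset_bl H (by omega) (mem_bl_comm.1 hy))]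
      · rw [h1 x (bl_mono 0 (by omega) hx), h1 y (bl_subset_bl hx (by omega) hy)]
  exact fun x y hy hne => ⟨key x y (Lat.edge_near (e := (x, y)) hy) hne,
    key y x (Lat.edge_near' (e := (x, y)) hy) hne.symm⟩

theorem tf_rem (hΛ : Λ.Ok) (hc : 0 < c) (Ra : Rd Λ K c h g q a) (RM : Rd Λ K c h g q M) (ha : 1 ≤ a)
    (hM : a ≤ M) (hr : Λ.rg ≤ a) (hU : an 0 a (32 * M) ⊆ U) :
    ∑ x ∈ U, |Λ.Au U (tf h g M a) x - Λ.e0 * ms q M * (bb q a x - bb q M x)| ≤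
      2 * ((65 * M) ^ 2 * (2 * K / (a : ℝ) ^ 4 / Λ.τ)) := by
  have hG := tf_gin Ra RM ha hM hr
  have hτ := hΛ.pos
  have a1 : (1 : ℝ) ≤ a := by exact_mod_cast ha
  have aM : (a : ℝ) ≤ M := by exact_mod_cast hM
  have sa : an 0 (4 * a) (16 * a) ⊆ an 0 a (32 * M) := an_mono 0 (by omega) (by omega)
  have sM : an 0 (4 * M) (16 * M) ⊆ an 0 a (32 * M) := an_mono 0 (by omega) (by omega)
  have ma : 0 < ms q a := hc.trans_le Ra.2.2.2.2.2.1
  have mM : 0 < ms q M := hc.trans_le RM.2.2.2.2.2.1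
  set r : Pt → ℝ := fun x => Λ.Au U (tf h g M a) x - Λ.e0 * (q a x - q M x) with hr_def
  have r0 : ∀ x, x ∉ an 0 a (32 * M) → r x = 0 := fun x hx => by
    simp only [hr_def]
    rw [Au_gin hΛ hG hU, lap_off hΛ hG hx, Ra.2.2.2.2.1 x fun H => hx (sa H),
      RM.2.2.2.2.1 x fun H => hx (sM H)]
    ring
  have r1 : ∀ x, |r x| ≤ 2 * K / (a : ℝ) ^ 4 / Λ.τ := fun x => by
    have e : r x = ((∑ y ∈ Λ.J, (g a (x + y) - g a x) - Λ.a * q a x) -
        (∑ y ∈ Λ.J, (g M (x + y) - g M x) - Λ.a * q M x)) / Λ.τ := by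
      have : ∑ y ∈ Λ.J, (tf h g M a (x + y) - tf h g M a x) =
          ∑ y ∈ Λ.J, (g M (x + y) - g M x) - ∑ y ∈ Λ.J, (g a (x + y) - g a x) := by
        rw [← sum_sub_distrib]
        exact sum_congr rfl fun y _ => by simp only [tf]; ring
      simp only [hr_def]
      rw [Au_gin hΛ hG hU, this, Lat.e0]
      ring
    rw [e, abs_div, abs_of_pos hτ]
    refine div_le_div_of_nonneg_right ((abs_sub _ _).trans ?_) hτ.le
    have : K / (M : ℝ) ^ 4 ≤ K / (a : ℝ) ^ 4 :=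
      div_le_div_of_nonneg_left Ra.K_nonneg (by positivity) (pow_le_pow_left₀ (by positivity) aM 4)
    have h1 := Ra.2.2.2.2.2.2.2 x
    have h2 := RM.2.2.2.2.2.2.2 x
    rw [mul_div_assoc]
    linarith
  have r2 : ∑ x ∈ U, |r x| ≤ (65 * M) ^ 2 * (2 * K / (a : ℝ) ^ 4 / Λ.τ) := by
    rw [← sum_subset hU fun x _ hx => by rw [r0 x hx, abs_zero]]
    refine (sum_le_card_nsmul _ _ _ fun x _ => r1 x).trans ?_
    rw [nsmul_eq_mul]
    exact mul_le_mul_of_nonneg_right (card_an_le a (by push_cast; linarith))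
      ((abs_nonneg _).trans (r1 0))
  have r3 : ∑ x ∈ U, r x = -(Λ.e0 * ms q a - Λ.e0 * ms q M) := by
    simp only [hr_def]
    rw [sum_sub_distrib, T84.sum_Au, ← mul_sum, sum_sub_distrib,
      ← sum_subset (sa.trans hU) fun x _ hx => Ra.2.2.2.2.1 x hx,
      ← sum_subset (sM.trans hU) fun x _ hx => RM.2.2.2.2.1 x hx, ms, ms]
    ring
  have r4 : |Λ.e0 * ms q a - Λ.e0 * ms q M| ≤ ∑ x ∈ U, |r x| := by
    rw [← abs_neg, ← r3]; exact abs_sum_le_sum_abs _ _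
  have r5 : ∀ x, |Λ.Au U (tf h g M a) x - Λ.e0 * ms q M * (bb q a x - bb q M x)| ≤
      |r x| + bb q a x * |Λ.e0 * ms q a - Λ.e0 * ms q M| := fun x => by
    have e : Λ.Au U (tf h g M a) x - Λ.e0 * ms q M * (bb q a x - bb q M x) =
        r x + bb q a x * (Λ.e0 * ms q a - Λ.e0 * ms q M) := by
      simp only [hr_def, bb]
      field_simp
      ring
    rw [e]
    refine (abs_add_le _ _).trans (le_of_eq ?_)
    rw [abs_mul, abs_of_nonneg ((Ra.pv hc).1 x)]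
  refine (sum_le_sum fun x _ => r5 x).trans ?_
  rw [sum_add_distrib]
  have := pv_le (Ra.pv hc) (sa.trans hU) (v := fun _ => |Λ.e0 * ms q a - Λ.e0 * ms q M|)
    fun _ _ => le_rfl
  linarith

/-- the dyadic quotient -/
theorem log_div {w : ℕ} (hw : 1 ≤ w) (hM : w ≤ M) :
    1 ≤ M / w ∧ M ≤ 2 * w * (M / w) ∧ Real.log w ≤ Real.log (M / (M / w : ℕ)) ∧
      Real.log (M / (M / w : ℕ)) ≤ Real.log (2 * w) := by
  have h1 : 1 ≤ M / w := (Nat.le_div_iff_mul_le hw).2 (by omega)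
  have h2 : M ≤ 2 * w * (M / w) := by
    have := Nat.lt_mul_div_succ M hw
    nlinarith
  have h3 : w * (M / w) ≤ M := Nat.mul_div_le M w
  have p1 : (0 : ℝ) < (M / w : ℕ) := by exact_mod_cast h1
  have p2 : (0 : ℝ) < w := by exact_mod_cast hw
  have p3 : (0 : ℝ) < M := by exact_mod_cast hw.trans hM
  refine ⟨h1, h2, Real.log_le_log p2 ((le_div_iff₀ p1).2 (by exact_mod_cast h3)),
    Real.log_le_log (div_pos p3 p1) ((div_le_iff₀ p1).2 (by exact_mod_cast h2))⟩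

theorem fin {E E' X m l l' η : ℝ} (hm : 0 ≤ m) (hl : 0 ≤ l) (hη : 0 < η) (h1 : m * l / 2 ≤ E)
    (h2 : m * l' / 2 ≤ E') (h3 : X ≤ 2 * m * l) (h4 : 16 * l ≤ η ^ 2 * l') :
    X ≤ η * (Real.sqrt E * Real.sqrt E') := by
  have hl' : 0 ≤ l' := nonneg_of_mul_nonneg_right (by linarith) (pow_pos hη 2)
  have e0 : 0 ≤ m * l / 2 := by positivity
  rw [← Real.sqrt_mul (e0.trans h1), ← Real.sqrt_sq hη.le, ← Real.sqrt_mul (sq_nonneg _)]
  refine h3.trans (Real.le_sqrt_of_sq_le ?_)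
  calc (2 * m * l) ^ 2 = m * l / 2 * (m / 2 * (16 * l)) := by ring
    _ ≤ m * l / 2 * (m / 2 * (η ^ 2 * l')) := by gcongr
    _ = η ^ 2 * (m * l / 2 * (m * l' / 2)) := by ring
    _ ≤ η ^ 2 * (E * E') := by gcongr; exact e0.trans h1

end Te98

open Te98

theorem testStmt (hR : RadStmt) : TestStmt := by
  intro F
  obtain ⟨K, c, h, a₀, g, q, hc, hh, H⟩ := hR F
  obtain ⟨C, hC1, hC⟩ := F.exists_bound
  have hK : 0 ≤ K := ((H a₀ le_rfl).2.1 0 (self_mem_bl _ _)).1.trans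
    ((H a₀ le_rfl).2.1 0 (self_mem_bl _ _)).2
  have hC0 : 0 < C := one_pos.trans_le hC1
  have k1 : 0 ≤ K / c := div_nonneg hK hc.le
  have k2 : 0 ≤ C * (33 ^ 2 * K) := by positivity
  refine ⟨1 + K / c + C * (33 ^ 2 * K), by linarith, fun n η T hη => ?_⟩
  have l2 : 0 < Real.log 2 := Real.log_pos one_lt_two
  obtain ⟨N, hN⟩ := exists_nat_ge (max (max 1 (32 / η ^ 2))
    (max (8 * K / (h * Real.log 2)) (2 * C * T / (c * (h * Real.log 2)))))
  simp only [max_le_iff] at hN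
  obtain ⟨⟨N1, N2⟩, N3, N4⟩ := hN
  have N1' : 1 ≤ N := by exact_mod_cast N1
  set W : ℕ := 2 * 2 ^ N ^ n with hW
  have W1 : 1 ≤ W := by have := Nat.one_le_two_pow (n := N ^ n); omega
  set η' : ℝ := min η (c / (4 * C)) with hη'
  have e0 : 0 < η' := lt_min hη (by positivity)
  obtain ⟨M₁, hM₁⟩ := exists_nat_ge (4 * 65 ^ 2 * K * C * (W : ℝ) ^ 4 / η')
  refine ⟨W, M₁ + W * (a₀ + ⌈C⌉₊ + 1), K + K * (W : ℝ) ^ 2, W1, fun Λ hΛ M hM => ?_⟩
  obtain ⟨-, c2, c3, c4, -, c6, -⟩ := hC Λ hΛ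
  have ok := hΛ.ok
  have hτ := ok.pos
  have RR : ∀ a, a₀ ≤ a → Rd Λ K c h g q a := fun a ha =>
    let ⟨h1, h2, h3, h4, h5, h6, h7, h8⟩ := H a ha
    ⟨h1, h2, h3, h4, h5, h6, h7, h8 Λ hΛ⟩
  have hw : ∀ i < n, 2 * 2 ^ N ^ (i + 1) ≤ W := fun i hi =>
    Nat.mul_le_mul_left _ (Nat.pow_le_pow_right two_pos (Nat.pow_le_pow_right N1' hi))
  have hWM : W * (a₀ + ⌈C⌉₊ + 1) ≤ M := by omega
  have hWM' : W ≤ M := le_trans (Nat.le_mul_of_pos_right _ (by omega)) hWM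
  have hM0 : a₀ ≤ M := by nlinarith
  have RM := RR M hM0
  have M1 : (1 : ℝ) ≤ M := by exact_mod_cast W1.trans hWM'
  set a : ℕ → ℕ := fun i => M / 2 ^ N ^ (i + 1) with ha
  have A : ∀ i < n, 1 ≤ a i ∧ M ≤ W * a i ∧ a i ≤ M ∧ a₀ ≤ a i ∧ Λ.rg ≤ a i ∧
      (N : ℝ) ^ (i + 1) * Real.log 2 ≤ Real.log (M / a i) ∧
      Real.log (M / a i) ≤ 2 * ((N : ℝ) ^ (i + 1) * Real.log 2) := fun i hi => by
    obtain ⟨h1, h2, h3, h4⟩ := log_div (M := M) (w := 2 ^ N ^ (i + 1)) Nat.one_le_two_pow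
      (by have := hw i hi; omega)
    have h5 : M ≤ W * a i := h2.trans (Nat.mul_le_mul_right _ (hw i hi))
    have h6 : a₀ + ⌈C⌉₊ + 1 ≤ a i := Nat.le_of_mul_le_mul_left (hWM.trans h5) W1
    have h7 : Λ.rg ≤ ⌈C⌉₊ := by exact_mod_cast c6.trans (Nat.le_ceil C)
    have h8 : Real.log ((2 ^ N ^ (i + 1) : ℕ) : ℝ) = (N : ℝ) ^ (i + 1) * Real.log 2 := by
      push_cast; rw [Real.log_pow]; push_cast; ring
    have h9 : Real.log 2 ≤ (N : ℝ) ^ (i + 1) * Real.log 2 :=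
      le_mul_of_one_le_left l2.le (one_le_pow₀ N1)
    rw [Real.log_mul two_ne_zero (by positivity), h8] at h4
    exact ⟨h1, h5, Nat.div_le_self _ _, by omega, by omega, h8 ▸ h3, by linarith⟩
  set μ := Λ.e0 * ms q M with hμ
  have e0p := ok.e0_pos
  have μ0 : c / C ≤ μ := by
    rw [div_le_iff₀ e0p] at c4
    rw [div_le_iff₀ hC0]
    have := RM.2.2.2.2.2.1
    calc c = 1 * c := (one_mul _).symm
      _ ≤ C * Λ.e0 * ms q M := mul_le_mul c4 this hc.le (by positivity)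
      _ = _ := by rw [hμ]; ring
  have μp : 0 < μ := (div_pos hc hC0).trans_le μ0
  have μ1 : μ ≤ C * (33 ^ 2 * K) :=
    mul_le_mul c3 (RM.ms_le (W1.trans hWM')) (hc.le.trans RM.2.2.2.2.2.1) hC0.le
  refine ⟨bb q M, μ, a, fun i => bb q (a i), fun i => tf h g M (a i), RM.blob hc (by linarith),
    μp.le, by linarith, fun i hi => ?_, fun U hU => ?_⟩
  · obtain ⟨h1, h2, h3, h4, h5, -⟩ := A i hi
    refine ⟨h2, h3, (RR _ h4).blob hc (by linarith), ?_, tf_gin (RR _ h4) RM h1 h3 h5⟩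
    exact (RM.2.2.2.2.2.2.1.sub ((RR _ h4).2.2.2.2.2.2.1.scale_up (by exact_mod_cast h1)
      (by linarith) (by exact_mod_cast W1) (by exact_mod_cast h2))).add_const _
  have rem : ∀ i < n, ∑ x ∈ U, |Λ.Au U (tf h g M (a i)) x - μ * (bb q (a i) x - bb q M x)| ≤ η' / M :=
    fun i hi => by
      obtain ⟨h1, h2, h3, h4, h5, -⟩ := A i hi
      refine (tf_rem ok hc (RR _ h4) RM h1 h3 h5 (hU i hi)).trans ?_
      have a1 : (0 : ℝ) < a i := by exact_mod_cast h1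
      have h2' : (M : ℝ) ≤ W * a i := by exact_mod_cast h2
      have h6 : (M : ℝ) ^ 4 ≤ (W * a i) ^ 4 := pow_le_pow_left₀ (by positivity) h2' 4
      have h7 : 4 * 65 ^ 2 * K * C * (W : ℝ) ^ 4 ≤ M * η' := by
        rw [← div_le_iff₀ e0]
        exact hM₁.trans (by exact_mod_cast le_trans (Nat.le_add_right _ _) hM)
      have h8 : 1 / (a i : ℝ) ^ 4 ≤ (W : ℝ) ^ 4 / (M : ℝ) ^ 4 := by
        rw [div_le_div_iff₀ (by positivity) (by positivity)]
        linarith [mul_pow (W : ℝ) (a i) 4]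
      calc 2 * ((65 * (M : ℝ)) ^ 2 * (2 * K / (a i : ℝ) ^ 4 / Λ.τ))
          = 4 * 65 ^ 2 * K * (M : ℝ) ^ 2 * (1 / Λ.τ) * (1 / (a i : ℝ) ^ 4) := by ring
        _ ≤ 4 * 65 ^ 2 * K * (M : ℝ) ^ 2 * C * ((W : ℝ) ^ 4 / (M : ℝ) ^ 4) := by gcongr
        _ = 4 * 65 ^ 2 * K * C * (W : ℝ) ^ 4 / (M : ℝ) ^ 2 := by field_simp
        _ ≤ M * η' / (M : ℝ) ^ 2 := by gcongr
        _ = η' / M := by field_simp
  have ε1 : η' / M ≤ μ / 4 := by
    refine (div_le_self e0.le M1).trans ((min_le_right _ _).trans ?_)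
    rw [mul_comm, ← div_div]
    linarith
  have sM : ∀ i < n, an 0 (4 * M) (16 * M) ⊆ U := fun i hi =>
    (an_mono 0 (by have := (A i hi).2.2.1; omega) (by omega)).trans (hU i hi)
  have sa : ∀ i < n, an 0 (4 * a i) (16 * a i) ⊆ U := fun i hi =>
    (an_mono 0 (by omega) (by have := (A i hi).2.2.1; omega)).trans (hU i hi)
  have lam : ∀ i < n, N * (h * Real.log 2) ≤ h * Real.log (M / a i) := fun i hi => by
    have h1 := (A i hi).2.2.2.2.2.1
    have h2 : (N : ℝ) * Real.log 2 ≤ (N : ℝ) ^ (i + 1) * Real.log 2 :=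
      mul_le_mul_of_nonneg_right (le_self_pow₀ N1 (by omega)) l2.le
    nlinarith
  have hl2 : 0 < h * Real.log 2 := mul_pos hh l2
  have bd : ∀ i < n, ∀ x, |tf h g M (a i) x| ≤ h * Real.log (M / a i) := fun i hi x => by
    obtain ⟨h1, -, h3, -⟩ := A i hi
    rw [abs_of_nonneg (tf_mem RM h1 h3 x).1]; exact (tf_mem RM h1 h3 x).2
  have lp : ∀ i < n, 0 ≤ h * Real.log (M / a i) := fun i hi => (abs_nonneg _).trans (bd i hi 0)
  have low : ∀ i < n, μ * (h * Real.log (M / a i)) / 2 ≤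
      Λ.En U (tf h g M (a i)) (tf h g M (a i)) := fun i hi => by
    obtain ⟨h1, -, h3, h4, -⟩ := A i hi
    have e1 := (abs_le.1 (En_near Λ U _ _ _ _ (bd i hi) (rem i hi))).1
    have e2 : h * Real.log (M / a i) - K ≤ ∑ x ∈ U, bb q (a i) x * tf h g M (a i) x :=
      le_pv ((RR _ h4).pv hc) (sa i hi) fun x hx => by
        have h5 := (mem_an.1 hx).1
        have h6 := ((RR _ h4).2.1 x h5).2
        have h7 := (RM.2.1 x (bl_mono 0 (by omega) h5)).1
        rw [tf]; linarith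
    have e3 : ∑ x ∈ U, bb q M x * tf h g M (a i) x ≤ K :=
      pv_le (RM.pv hc) (sM i hi) fun x hx => by
        have := (RM.2.2.1 _ h1 h3 x).2.2.1 (mem_an.1 hx).2
        rw [tf]; linarith
    have e4 : 8 * K ≤ h * Real.log (M / a i) := ((div_le_iff₀ hl2).1 N3).trans (lam i hi)
    have e5 := mul_le_mul_of_nonneg_right ε1 (lp i hi)
    have e6 : μ * (h * Real.log (M / a i) - 2 * K) ≤ μ * (∑ x ∈ U, bb q (a i) x * tf h g M (a i) x -
        ∑ x ∈ U, bb q M x * tf h g M (a i) x) := mul_le_mul_of_nonneg_left (by linarith) μp.le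
    have e7 := mul_le_mul_of_nonneg_left e4 μp.le
    linarith
  have up : ∀ i < n, ∀ j < n, Λ.En U (tf h g M (a i)) (tf h g M (a j)) ≤
      2 * μ * (h * Real.log (M / a j)) := fun i hi j hj => by
    obtain ⟨h1, -, h3, -⟩ := A j hj
    have e1 := (abs_le.1 (En_near Λ U _ _ _ _ (bd j hj) (rem i hi))).2
    have e2 : ∑ x ∈ U, bb q (a i) x * tf h g M (a j) x ≤ h * Real.log (M / a j) :=
      pv_le ((RR _ (A i hi).2.2.2.1).pv hc) (sa i hi) fun x _ => (tf_mem RM h1 h3 x).2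
    have e3 : 0 ≤ ∑ x ∈ U, bb q M x * tf h g M (a j) x :=
      le_pv (RM.pv hc) (sM i hi) fun x _ => (tf_mem RM h1 h3 x).1
    have e5 := mul_le_mul_of_nonneg_right ε1 (lp j hj)
    have e6 : μ * (∑ x ∈ U, bb q (a i) x * tf h g M (a j) x - ∑ x ∈ U, bb q M x * tf h g M (a j) x) ≤
        μ * (h * Real.log (M / a j)) := mul_le_mul_of_nonneg_left (by linarith) μp.le
    have e7 := mul_nonneg μp.le (lp j hj)
    linarith
  have sep : ∀ i j, i < j → j < n → 16 * (h * Real.log (M / a i)) ≤ η ^ 2 * (h * Real.log (M / a j)) :=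
    fun i j hij hj => by
      have h1 := (A i (hij.trans hj)).2.2.2.2.2.2
      have h2 := (A j hj).2.2.2.2.2.1
      have h3 : (N : ℝ) * N ^ (i + 1) ≤ N ^ (j + 1) := by
        rw [← pow_succ']; exact pow_le_pow_right₀ N1 (by omega)
      have h4 : 32 ≤ N * η ^ 2 := (div_le_iff₀ (pow_pos hη 2)).1 N2
      calc 16 * (h * Real.log (M / a i)) ≤ 16 * (h * (2 * ((N : ℝ) ^ (i + 1) * Real.log 2))) := by
            gcongr
        _ = 32 * ((N : ℝ) ^ (i + 1) * (h * Real.log 2)) := by ring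
        _ ≤ N * η ^ 2 * ((N : ℝ) ^ (i + 1) * (h * Real.log 2)) := by gcongr
        _ = η ^ 2 * (h * ((N : ℝ) * N ^ (i + 1) * Real.log 2)) := by ring
        _ ≤ η ^ 2 * (h * ((N : ℝ) ^ (j + 1) * Real.log 2)) := by gcongr
        _ ≤ _ := by gcongr
  intro i hi
  refine ⟨(rem i hi).trans (div_le_div_of_nonneg_right (min_le_left _ _) (by linarith)),
    le_trans ?_ (low i hi), fun j hj hij => ?_⟩
  · have h1 : 2 * C * T ≤ N * (c * (h * Real.log 2)) := (div_le_iff₀ (mul_pos hc hl2)).1 N4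
    have h2 : c / C * (N * (h * Real.log 2)) ≤ μ * (h * Real.log (M / a i)) :=
      mul_le_mul μ0 (lam i hi) (by positivity) μp.le
    have h3 : 2 * T ≤ c / C * (N * (h * Real.log 2)) := by
      rw [div_mul_eq_mul_div, le_div_iff₀ hC0]; linarith
    linarith
  · rcases lt_or_gt_of_ne hij with hij | hij
    · rw [En_comm]
      exact fin μp.le (lp i hi) hη (low i hi) (low j hj) (up j hj i hi) (sep i j hij hj)
    · rw [mul_comm (Real.sqrt _)]
      exact fin μp.le (lp j hj) hη (low j hj) (low i hi) (up i hi j hj) (sep j i hij hi)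

end Crest.Agent.T145.Nc
end

-- ▼ part T145/NcVar_93
section

/-!
# Row 145: `Nc.varStmt`, Gaussian bounds in the free model on a subset of the window (helper93)
-/

set_option autoImplicit false

namespace Crest.Agent.T145.Nc

open Finset

namespace V93

variable {Λ : Lat} {U B : Finset Pt} {u : Pt → ℝ}

theorem gin_edge (h : Gin Λ u U) (B : Finset Pt) :
    ∀ e ∈ Λ.edI B, e ∉ Λ.edI U → u e.2 = u e.1 := fun e he he' => by
  by_contra hne
  exact he' (Lat.mem_edI.2 ⟨(Lat.mem_edI.1 he).1, h _ _ (Lat.mem_edI.1 he).1 (Ne.symm hne)⟩)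

theorem Au_gin (h : Gin Λ u U) (hB : U ⊆ B) : Λ.Au B u = Λ.Au U u :=
  Lat.Au_subset hB (gin_edge h B)

theorem En_gin (h : Gin Λ u U) (hB : U ⊆ B) (v : Pt → ℝ) : Λ.En B u v = Λ.En U u v :=
  Lat.En_subset hB (gin_edge h B) v

/-- the rooted free model on a connected set is an ambient model -/
theorem amb_pn (hΛ : Λ.Ok) (hU : Cn (Λ.N U) U) (hn : U.Nonempty) :
    Λ.Amb (pn (Λ.N U) U (rs U)) U := by
  obtain ⟨r, hr, e⟩ := rs_spec hn
  exact ⟨pn_ctr (hΛ.ctr_N U).1 _ _, pn_anch hU hr (e ▸ mem_singleton_self r),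
    (Lat.inn_edI subset_rfl).ge, fun _ _ => rfl⟩

theorem agr_Nr (hB : U ⊆ B) (r : Pt) : Agr (Λ.Nr B r) (Λ.N U) U :=
  ⟨(Lat.inn_edI hB).trans (Lat.inn_edI subset_rfl).symm, fun _ _ => rfl⟩

theorem depG_Au (Λ : Lat) (U : Finset Pt) (u : Pt → ℝ) : DepG U fun s => pr (Λ.Au U u) s :=
  DepG.pr (Λ.sup_Au U u) (Λ.sum_Au U u)

/-- the variance in a translated free square, read in the standard one -/
theorem vr_shift (hΛ : Λ.Ok) (a : Pt) {L : ℕ} (hL : 1 ≤ L) (u : Pt → ℝ) :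
    Vr ((Λ.Nr (sq a L) a).W 0) (pr (Λ.Au (sq a L) u)) (pr (Λ.Au (sq a L) u)) =
        Vr (Λ.WN L) (Λ.X L fun x => u (x + a)) (Λ.X L fun x => u (x + a)) ∧
      Λ.En (sq a L) u u = Λ.En (sq 0 L) (fun x => u (x + a)) fun x => u (x + a) := by
  have hm : (sq 0 L).map (Equiv.addRight a).toEmbedding = sq a L := by rw [map_sq_add, zero_add]
  have hA : (fun x => Λ.Au (sq a L) u (Equiv.addRight a x)) = Λ.Au (sq 0 L) fun x => u (x + a) :=
    funext fun x => by rw [← hm, (Λ.sym_add a).Au_map hΛ]; rfl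
  refine ⟨?_, by rw [← hm, (Λ.sym_add a).En_map hΛ]; rfl⟩
  rw [(Λ.sym_add a).Vr_Nr hΛ hm (self_mem_sq 0 hL) (self_mem_sq a hL) (Λ.sum_Au _ _) (Λ.sum_Au _ _),
    hA]
  rfl

/-- a lower bound in the free square passes to the free model on a subset carrying the gradients -/
theorem vr_le (hΛ : Λ.Ok) {a : Pt} {L : ℕ} (hL : 1 ≤ L) (hB : U ⊆ sq a L) (hn : U.Nonempty)
    (hU : Cn (Λ.N U) U) (h : Gin Λ u U) :
    Vr (Λ.WN L) (Λ.X L fun x => u (x + a)) (Λ.X L fun x => u (x + a)) ≤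
        Vr (rW (Λ.N U) U) (pr (Λ.Au U u)) (pr (Λ.Au U u)) ∧
      Λ.En (sq 0 L) (fun x => u (x + a)) (fun x => u (x + a)) = Λ.En U u u := by
  obtain ⟨h1, h2⟩ := vr_shift hΛ a hL u
  refine ⟨?_, by rw [← h2, En_gin h hB]⟩
  rw [← h1, Au_gin h hB, ← (agr_Nr (Λ := Λ) hB a).rW]
  exact Vr_le_rW (hΛ.ctr_Nr _ _) (hΛ.anch_Nr (self_mem_sq a hL)) ((agr_Nr hB a).symm.cn hU) hn
    (depG_Au Λ U u)

theorem bl_sub_sq {L : ℕ} (hL : 1 ≤ L) :
    bl 0 (L / 4) ⊆ sq (-((L / 2 : ℕ) : ℤ), -((L / 2 : ℕ) : ℤ)) L := fun x => by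
  simp only [mem_bl, mem_sq, Prod.fst_zero, Prod.snd_zero]; omega

end V93

open V93 in
theorem varStmt (hx : T1xStmt) (h3 : T3Stmt) : VarStmt := fun F θ₀ K ε h0 hK hε => by
  obtain ⟨δ₁, hδ₁, H1⟩ := hx F K ε hε
  obtain ⟨δ₂, hδ₂, H2⟩ := h3 F θ₀ K ε h0 hK hε
  refine ⟨min δ₁ δ₂, lt_min hδ₁ hδ₂, fun Λ hΛ l L hW U u hUb hn hU hR hu hG => ⟨?_, ?_⟩⟩
  · have hL := hW.one_le_L
    obtain ⟨h1, h2⟩ := vr_le hΛ.ok hL (hUb.trans (bl_sub_sq hL)) hn hU hG
    rw [← h2]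
    exact (H2 Λ hΛ l L (hW.mono_d (min_le_right _ _)) _ (hu.shift' _)).trans h1
  · have hK0 : 0 ≤ K / (L : ℝ) := by positivity
    have := H1 Λ hΛ l L (hW.sep.mono (min_le_left _ _)) _ U u (fun _ => 0) (amb_pn hΛ.ok hU hn) hR hu
      fun _ _ => by rwa [abs_zero]
    have e : pr (dv (Λ.edI U) fun _ => (0 : ℝ)) = 0 := by
      refine AddMonoidHom.ext fun s => ?_
      rw [pr_dv]; simp
    rw [e, add_zero] at this
    simpa [rW] using this

end Crest.Agent.T145.Nc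
end

-- ▼ part T145/NcT4c_37
section

/-!
# Row 145, soft T4: assembly of the crossing form (helper37)
-/

set_option autoImplicit false

namespace Crest.Agent.T145.Nc

open Finset Filter Topology

namespace C37

variable {Λ : Lat} {U D : Finset Pt} {u v f : Pt → ℝ} {K L : ℝ}

theorem Au_lin (D : Finset Pt) (a b : ℝ) (u v : Pt → ℝ) :
    pr (Λ.Au D (a • u + b • v)) = a • pr (Λ.Au D u) + b • pr (Λ.Au D v) := by
  rw [← pr_smul, ← pr_smul, ← pr_add, Lat.Au, Lat.Au, Lat.Au, ← dv_smul, ← dv_smul, ← dv_add]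
  congr 1
  exact dv_congr fun e _ => by simp only [Pi.add_apply, Pi.smul_apply, smul_eq_mul]; ring

theorem En_lin (D : Finset Pt) (a b : ℝ) (u v : Pt → ℝ) :
    Λ.En D (a • u + b • v) (a • u + b • v) =
      a ^ 2 * Λ.En D u u + 2 * a * b * Λ.En D u v + b ^ 2 * Λ.En D v v := by
  simp only [Lat.En, mul_sum, ← sum_add_distrib]
  exact sum_congr rfl fun e _ => by simp only [Pi.add_apply, Pi.smul_apply, smul_eq_mul]; ring

theorem sm_lin (h : Sm2 u K L) (h' : Sm2 v K L) (hL : 0 < L) {a b : ℝ} (ha : |a| ≤ 1) (hb : |b| ≤ 1) :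
    Sm2 (a • u + b • v) (2 * K) L := by
  have h0 := D74.sm_nonneg h hL
  have := D74.sm_sub (D74.sm_smul h a) (D74.sm_smul h' (-b))
  rw [neg_smul, sub_neg_eq_add, abs_neg] at this
  exact D74.sm_mono this hL (by nlinarith)

theorem gin_lin (h : Gin Λ u D) (h' : Gin Λ v D) (a b : ℝ) : Gin Λ (a • u + b • v) D :=
  fun x y hxy hne => by
    by_cases hu : u x = u y
    · exact h' x y hxy fun hv => hne (by simp [hu, hv])
    · exact h x y hxy hu

theorem gin_mono (h : Gin Λ u D) (hD : D ⊆ U) : Gin Λ u U := fun x y hxy hne =>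
  ⟨hD (h x y hxy hne).1, hD (h x y hxy hne).2⟩

theorem pv_mono (h : Pv D f) (hD : D ⊆ U) : Pv U f :=
  ⟨h.1, fun x hx => h.2.1 x fun hx' => hx (hD hx'), by
    rw [← h.2.2]; exact (sum_subset hD fun x _ hx => h.2.1 x hx).symm⟩

theorem pv_ne (h : Pv U f) : U.Nonempty := by
  by_contra hn
  have := h.2.2
  rw [not_nonempty_iff_eq_empty.1 hn, sum_empty] at this
  exact zero_ne_one this

theorem inn_N (h : D ⊆ U) : inn D (Λ.N U).ed = Λ.edI D := Lat.inn_edI h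

/-- the bare bounds in the free model on `U` pinned on `S` -/
theorem bare (hB : BrStmt) (h : Λ.Ok) (hU : Cn (Λ.N U) U) {S : Finset Pt} {r : Pt} (hr : r ∈ U)
    (hS : r ∈ S) {n : ℝ} (hf : F2A (Λ.edI U) (U \ S) f n) :
    Vr ((pn (Λ.N U) U S).W 0) (pr f) (pr f) ≤ Λ.τ * n ∧
      M ((pn (Λ.N U) U S).W 0) (pr f) ≤ Λ.τ * n * Real.cosh (Real.sqrt n) / 2 := by
  have := hB.2.1 Λ (pn (Λ.N U) U S) f n h (pn_ctr (h.ctr_N U).1 U S) (pn_anch hU hr hS) (Λ.edI U)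
    (by rw [pn_ed, inn_N Subset.rfl]) (fun _ _ => rfl) hf
  exact ⟨this.1, this.2.1⟩

/-- a neutral function of small mass gives a small variable -/
theorem small (hB : BrStmt) (hR : RouteStmt) (h : Λ.Ok) (hU : Cn (Λ.N U) U) (hn : U.Nonempty)
    (hs : Sup U f) (h0 : ∑ x ∈ U, f x = 0) :
    Pr (rW (Λ.N U) U) (fun s => 1 ≤ |pr f s|) ≤ Λ.τ * ((Λ.edI U).card * (∑ x ∈ U, |f x|) ^ 2) := by
  have hc := rW_cen (h.ctr_N U).1 hU hn
  obtain ⟨r, hr, hrs⟩ := rs_spec hn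
  have h1 := hR.2 Pt (Λ.edI U) U f (fun x hx y hy => by
    have := hU x hx y hy; rwa [inn_N Subset.rfl] at this) hs h0
  have h2 := (bare hB h hU hr (S := rs U) (by rw [hrs]; exact mem_singleton_self r) (h1.f2a _)).1
  have h3 := hc.wt.chebyshev (F := fun s => pr f s) (t := 1)
    (hc.se.ig ((Tame.hom (pr f)).pow 2)) one_pos
  rw [one_pow, div_one] at h3
  refine h3.trans (le_trans (le_of_eq ?_) h2)
  rw [← rW, hc.Vr_eq]
  simp only [pow_two]

/-- persistence of normalised variables -/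
theorem pers (hP : PersStmt) {W : Cfg Pt → ℝ} (hW : Cen W) {n : ℕ} (hn : 1 ≤ n) {η θ : ℝ}
    (h0 : 0 < η) (h1 : η ≤ 1 / 10) (hθ : 0 < θ) {u : ℕ → Pt → ℝ}
    (hE : ∀ i < n, 1 ≤ θ * Λ.En U (u i) (u i))
    (hO : ∀ i < n, ∀ j < n, i ≠ j → Λ.En U (u i) (u j) ≤
      η / 2 * (Real.sqrt (Λ.En U (u i) (u i)) * Real.sqrt (Λ.En U (u j) (u j))))
    (hV : ∀ i < n, ∀ j < n, ∀ a b : ℝ, |a| ≤ 1 → |b| ≤ 1 →
      θ * Λ.En U (a • u i + b • u j) (a • u i + b • u j) - η / 2 ≤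
        Vr W (pr (Λ.Au U (a • u i + b • u j))) (pr (Λ.Au U (a • u i + b • u j))) ∧
      M W (pr (Λ.Au U (a • u i + b • u j))) ≤
        θ * Λ.En U (a • u i + b • u j) (a • u i + b • u j) / 2 + η / 2) :
    Pr W (fun s => ∀ i < n, -(1 / 10) ≤
      (Real.sqrt (θ * Λ.En U (u i) (u i)))⁻¹ * pr (Λ.Au U (u i)) s) ≤ 100 * (1 / n + η) := by
  set c : ℕ → ℝ := fun i => (Real.sqrt (θ * Λ.En U (u i) (u i)))⁻¹ with hc
  have hs : ∀ i < n, 1 ≤ Real.sqrt (θ * Λ.En U (u i) (u i)) := fun i hi =>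
    Real.one_le_sqrt.2 (hE i hi)
  have hc0 : ∀ i, 0 ≤ c i := fun i => inv_nonneg.2 (Real.sqrt_nonneg _)
  have hc1 : ∀ i < n, |c i| ≤ 1 := fun i hi => by
    rw [abs_of_nonneg (hc0 i)]; exact inv_le_one_of_one_le₀ (hs i hi)
  have hc2 : ∀ i < n, θ * (c i ^ 2 * Λ.En U (u i) (u i)) = 1 := fun i hi => by
    have := hE i hi
    simp only [hc]
    rw [inv_pow, Real.sq_sqrt (by linarith)]
    have h' : θ * Λ.En U (u i) (u i) ≠ 0 := by linarith
    rw [mul_left_comm, inv_mul_cancel₀ h']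
  have hc3 : ∀ i < n, Real.sqrt θ * (c i * Real.sqrt (Λ.En U (u i) (u i))) = 1 := fun i hi => by
    have := hs i hi
    simp only [hc]
    rw [mul_left_comm, ← Real.sqrt_mul hθ.le, inv_mul_cancel₀ (by linarith)]
  refine hP _ W n (fun i => c i • pr (Λ.Au U (u i))) η hW hn h0.le h1 (fun i hi => ⟨?_, ?_⟩)
    fun i hi j hj hij => ?_
  · have := (hV i hi i hi (c i) 0 (hc1 i hi) (by simp)).1
    rw [Au_lin, En_lin, zero_smul, add_zero] at this
    have h2 := hc2 i hi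
    simp only [mul_zero, zero_mul, add_zero, ne_eq, OfNat.ofNat_ne_zero, not_false_eq_true,
      zero_pow] at this
    linarith
  · have := (hV i hi i hi (c i) (c i) (hc1 i hi) (hc1 i hi)).2
    rw [Au_lin, En_lin] at this
    have h2 := hc2 i hi
    nlinarith
  · have := (hV i hi j hj (c i) (c j) (hc1 i hi) (hc1 j hj)).2
    rw [Au_lin, En_lin] at this
    have h2 := hc2 i hi
    have h3 := hc2 j hj
    have h4 : θ * (c i * c j * Λ.En U (u i) (u j)) ≤ η / 2 := by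
      refine (mul_le_mul_of_nonneg_left (mul_le_mul_of_nonneg_left (hO i hi j hj hij)
        (mul_nonneg (hc0 i) (hc0 j))) hθ.le).trans (le_of_eq ?_)
      have e : θ = Real.sqrt θ * Real.sqrt θ := (Real.mul_self_sqrt hθ.le).symm
      calc _ = η / 2 * ((Real.sqrt θ * (c i * Real.sqrt (Λ.En U (u i) (u i)))) *
          (Real.sqrt θ * (c j * Real.sqrt (Λ.En U (u j) (u j))))) := by
            conv_lhs => rw [e]
            ring
        _ = η / 2 := by rw [hc3 i hi, hc3 j hj]; ring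
    nlinarith

end C37

set_option maxHeartbeats 800000 in
open C37 Geo in
theorem t4cStmt (hP : PersStmt) (hX : CrossStmt) (hR : RouteStmt) (hT : TestStmt) (hV : VarStmt)
    (hB : BrStmt) (hm : T1mStmt) : T4cStmt := by
  intro F
  obtain ⟨K₁, hK₁, hT⟩ := hT F
  obtain ⟨Cr, hr⟩ := hR.1 F
  obtain ⟨c, hc1, hc⟩ := F.exists_bound
  refine ⟨K₁, fun θ₀ K g hθ hK hg => ?_⟩
  set N := 4 * (|Cr| * K₁ ^ 2) with hN
  have hN0 : 0 ≤ N := by positivity
  set B := c * N * Real.cosh (Real.sqrt N) / 2 with hBd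
  have hB0 : 0 ≤ B := by positivity
  obtain ⟨n, hn⟩ := exists_nat_ge (1600 / g)
  have hn0 : (0 : ℝ) < n := lt_of_lt_of_le (by positivity) hn
  have hn1 : 1 ≤ n := by exact_mod_cast hn0
  set η := min (1 / 10) (g / 1600) with hη
  have hη0 : 0 < η := by positivity
  set t := 2 * B + 1 + 64 * n / g with ht
  have ht0 : 0 ≤ t := by positivity
  set η' := min (η / 2) (g / (8 * (n * (c * (65 ^ 2 * c))))) with hη'
  have hη'0 : 0 < η' := by positivity
  obtain ⟨W₀, M₀, K₂, hW₀, hT⟩ := hT n η' (2 / θ₀ * (10 * (K₁ * t + 1)) ^ 2) hη'0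
  have hKv : 1 ≤ K + 2 * (128 ^ 2 * |K₂|) := by
    have : 0 ≤ 2 * (128 ^ 2 * |K₂|) := by positivity
    linarith
  obtain ⟨δ, hδ, h1, h2, h3⟩ := exists_of_ev ((Soft.ev hV F hθ hKv (half_pos hη0)).and
    ((ev_win hm F hθ one_pos).and (ev_large (128 * (M₀ + W₀ * F.base.rg + 1)))))
  refine ⟨2 * W₀ + 4, δ, by omega, hδ, fun Λ hΛ l M hw => ?_⟩
  have hok := hΛ.ok
  obtain ⟨cτ, -, -, -, -, -, -, cJ⟩ := hc Λ hΛ
  have hM := (h3 l _ hw.sep).2.2
  rw [← hΛ.rg_eq] at hM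
  have hM1 : 1 ≤ M := by omega
  have hMr : (0 : ℝ) < M := by exact_mod_cast hM1
  have hθl := (h2 Λ hΛ l _ hw).2
  obtain ⟨φ, μ, a, p, u, hφ, hμ0, hμ1, hi, hU⟩ := hT Λ hΛ M (by omega)
  refine ⟨φ, hφ, fun ρ U hρ hin hout hcn hreg => ?_⟩
  have hρM : 2 * ρ ≤ M := by nlinarith
  have ha : ∀ i < n, 2 * ρ ≤ a i ∧ Λ.rg ≤ a i := fun i h => by
    have := (hi i h).1
    constructor
    · by_contra hh
      have : W₀ * a i ≤ W₀ * (2 * ρ) := Nat.mul_le_mul_left _ (by omega)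
      have h0 : 1 ≤ ρ := by omega
      nlinarith
    · exact Nat.le_of_mul_le_mul_left (show W₀ * Λ.rg ≤ W₀ * a i by omega) (by omega)
  have hsub : ∀ b b' : ℕ, ρ ≤ b → b' ≤ 32 * M → an 0 b b' ⊆ U := fun b b' hb hb' =>
    (an_mono 0 hb hb').trans hin
  have hpφ : Pv U φ := pv_mono hφ.1 (hsub _ _ (by omega) (by omega))
  have hpp : ∀ i < n, Pv U (p i) := fun i h =>
    pv_mono (hi i h).2.2.1.1 (hsub _ _ (by have := ha i h; omega) (by have := (hi i h).2.1; omega))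
  have hne := pv_ne hpφ
  have hcen := rW_cen (hok.ctr_N U).1 hcn hne
  replace hU := hU U fun i h => hsub _ _ (by have := ha i h; omega) le_rfl
  -- the crossing inequality
  have hcross := hX Pt (Λ.N U) U (U ∩ bl 0 (2 * ρ)) (an 0 (4 * M) (32 * M)) n φ p B t
    (hok.ctr_N U).1 hcn inter_subset_left (hsub _ _ (by omega) le_rfl)
    (Disjoint.mono_left inter_subset_right (disjoint_bl_an 0 _ (by omega))) hpφ hpp
    fun C hC x hx y hy hxC hxy => by
      rw [inn_N hC] at hxy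
      rw [mem_inter] at hx
      have route : ∀ (b : ℕ) (f : Pt → ℝ), 2 * ρ ≤ b → Λ.rg ≤ b → b ≤ M → Blob f K₁ b →
          F2A (Λ.edI U) (U \ C) f (|Cr| * K₁ ^ 2) := fun b f hb hb' hbM hf =>
        ((hr Λ hΛ b C (U \ C) x y f K₁ hb' hxC (bl_mono 0 hb hx.2)
          (fun h => (mem_an.1 hy).2 (bl_mono 0 (by omega) h)) hxy sdiff_disjoint hf.1.2.1
          fun z => by rw [abs_of_nonneg (hf.1.1 z)]; exact hf.2 z).ed_mono
          (Lat.edI_mono (hsub _ _ (by omega) (by omega)))).mono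
          (mul_le_mul_of_nonneg_right (le_abs_self _) (sq_nonneg _))
      have bd : ∀ f : Pt → ℝ, F2A (Λ.edI U) (U \ C) f N → T145.M ((pn (Λ.N U) U C).W 0) (pr f) ≤ B :=
        fun f hf => (bare hB hok hcn hx.1 hxC hf).2.trans (by rw [hBd]; gcongr)
      have r0 := route M φ hρM (by nlinarith) le_rfl hφ
      refine ⟨bd φ (r0.mono (by rw [hN]; nlinarith [r0.nonneg])), fun i h => bd _ ?_⟩
      exact (r0.add (route (a i) (p i) (ha i h).1 (ha i h).2 (hi i h).2.1 (hi i h).2.2.1)).mono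
        (le_of_eq (by rw [hN]; ring))
  -- persistence
  have hσ : ∀ i < n, (10 * (K₁ * t + 1)) ^ 2 ≤ Λ.tN l * Λ.En U (u i) (u i) := fun i h => by
    have h1 := (hU i h).2.1
    calc _ = θ₀ / 2 * (2 / θ₀ * (10 * (K₁ * t + 1)) ^ 2) := by field_simp
      _ ≤ _ := mul_le_mul hθl h1 (by positivity) (by linarith)
  have hKt : 0 ≤ K₁ * t := by positivity
  have hpers := pers (Λ := Λ) (U := U) (u := u) hP hcen hn1 hη0 (min_le_left _ _)
    (θ := Λ.tN l) (by linarith) (fun i h => le_trans (by nlinarith) (hσ i h))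
    (fun i h j h' hij => ((hU i h).2.2 j h' hij).trans
      (mul_le_mul_of_nonneg_right (min_le_left _ _) (by positivity)))
    fun i h j h' a b ha' hb' => by
      have sm : ∀ k < n, Sm2 (u k) (128 ^ 2 * |K₂|) (128 * M : ℕ) := fun k hk => by
        have := D74.sm_up (D74.sm_mono (hi k hk).2.2.2.1 hMr (le_abs_self _)) hMr
          (c := 128) (by norm_num)
        rwa [Nat.cast_mul, Nat.cast_ofNat]
      have gi : ∀ k < n, Gin Λ (u k) U := fun k hk =>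
        gin_mono (hi k hk).2.2.2.2 (hsub _ _ (by have := ha k hk; omega) le_rfl)
      refine h1 Λ hΛ l _ hw U _ (by rwa [show 128 * M / 4 = 32 * M by omega]) hne hcn
        (D74.reg_mono hreg (by have : 0 ≤ 2 * (128 ^ 2 * |K₂|) := by positivity
                               linarith))
        (D74.sm_mono (sm_lin (sm i h) (sm j h') hw.L_pos' ha' hb') hw.L_pos' (by linarith))
        (gin_lin (gi i h) (gi j h') a b)
  -- the remainders
  set rem : ℕ → Pt → ℝ := fun i x => Λ.Au U (u i) x - μ * (p i x - φ x) with hrem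
  have hrm : ∀ i ∈ range n, Pr (rW (Λ.N U) U) (fun s => 1 ≤ |pr (rem i) s|) ≤ g / (8 * n) := by
    intro i h
    rw [mem_range] at h
    refine (small hB hR hok hcn hne (f := rem i) (fun x hx => ?_) ?_).trans ?_
    · simp only [hrem]
      rw [(hpp i h).2.1 x hx, hpφ.2.1 x hx, Lat.Au, sup_dv _ (Lat.edI_ends U) x hx]
      ring
    · simp only [hrem]
      rw [sum_sub_distrib, ← mul_sum, sum_sub_distrib, (hpp i h).2.2, hpφ.2.2, Lat.Au,
        sum_dv _ (Lat.edI_ends U)]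
      ring
    · have e1 : ((Λ.edI U).card : ℝ) ≤ (65 * M) ^ 2 * c := by
        have h1 : (Λ.edI U).card ≤ (65 * M) ^ 2 * Λ.Jp.card := by
          refine (card_edI_le Λ U).trans (Nat.mul_le_mul_right _ ((card_le_card hout).trans ?_))
          rw [card_bl]
          exact Nat.pow_le_pow_left (by omega) 2
        have h2 : ((Λ.edI U).card : ℝ) ≤ (65 * M) ^ 2 * Λ.Jp.card := by exact_mod_cast h1
        exact h2.trans (by gcongr)
      have e2 : (∑ x ∈ U, |rem i x|) ^ 2 ≤ (η' / M) ^ 2 :=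
        pow_le_pow_left₀ (sum_nonneg fun _ _ => abs_nonneg _) (hU i h).1 2
      have e3 : η' ≤ 1 := (min_le_left _ _).trans (by have := min_le_left (1 / 10 : ℝ) (g / 1600)
                                                      linarith)
      have e4 : η' ≤ g / (8 * (n * (c * (65 ^ 2 * c)))) := min_le_right _ _
      calc _ ≤ c * ((65 * M) ^ 2 * c * (η' / M) ^ 2) := by gcongr
        _ = c * (65 ^ 2 * c) * (η' * η') := by field_simp
        _ ≤ c * (65 ^ 2 * c) * (1 * (g / (8 * (n * (c * (65 ^ 2 * c)))))) := by gcongr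
        _ = g / (8 * n) := by field_simp
  have hev : Pr (rW (Λ.N U) U) (fun s => ∀ i < n, -t ≤ pr (p i - φ) s) ≤
      100 * (1 / n + η) + g / 8 := by
    refine (hcen.wt.pr_mono (q := fun s => (∀ i < n, -(1 / 10) ≤
      (Real.sqrt (Λ.tN l * Λ.En U (u i) (u i)))⁻¹ * pr (Λ.Au U (u i)) s) ∨
        ∃ i ∈ range n, 1 ≤ |pr (rem i) s|) fun s _ hs => ?_).trans
      ((hcen.wt.pr_or_le _ _).trans (add_le_add hpers ((hcen.wt.pr_exists_le _ _).trans ?_)))
    · refine or_iff_not_imp_right.2 fun hno i h => ?_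
      have h1 : |pr (rem i) s| < 1 := not_le.1 fun h' => hno ⟨i, mem_range.2 h, h'⟩
      have h2 : pr (rem i) s = pr (Λ.Au U (u i)) s - μ * pr (p i - φ) s := by
        simp only [hrem]
        rw [pr_sub', pr_mul']
        rfl
      have h3 : -(K₁ * t + 1) ≤ pr (Λ.Au U (u i)) s := by
        have e1 := (abs_lt.1 h1).1
        have e2 := mul_le_mul_of_nonneg_left (hs i h) hμ0
        have e3 := mul_le_mul_of_nonneg_right hμ1 ht0
        rw [mul_neg] at e2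
        linarith only [e1, e2, e3, h2]
      have h4 : 10 * (K₁ * t + 1) ≤ Real.sqrt (Λ.tN l * Λ.En U (u i) (u i)) :=
        Real.le_sqrt_of_sq_le (hσ i h)
      rw [← div_eq_inv_mul, le_div_iff₀ (by linarith only [h4, hKt])]
      linarith only [h3, h4]
    · refine (sum_le_card_nsmul _ _ _ hrm).trans (le_of_eq ?_)
      rw [card_range, nsmul_eq_mul]
      field_simp
  have f1 : 100 * (1 / n + η) ≤ g / 8 := by
    have : η ≤ g / 1600 := min_le_right _ _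
    have : 1 / (n : ℝ) ≤ g / 1600 := by
      rw [div_le_iff₀ hg] at hn
      rw [div_le_div_iff₀ hn0 (by norm_num)]
      linarith
    linarith
  have f2 : 16 * n * Real.exp (2 * B + 1 - t) ≤ g / 4 := by
    have e : 2 * B + 1 - t = -(64 * n / g) := by rw [ht]; ring
    have h1 : 64 * n / g ≤ Real.exp (64 * n / g) := by linarith [Real.add_one_le_exp (64 * n / g)]
    rw [e, Real.exp_neg, ← div_eq_mul_inv, div_le_iff₀ (Real.exp_pos _)]
    calc 16 * (n : ℝ) = g / 4 * (64 * n / g) := by field_simp; norm_num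
      _ ≤ _ := by gcongr
  linarith

end Crest.Agent.T145.Nc
end

-- ▼ part T145/NcGd_10
section

/-!
# Row 145: T4 for the cross ratio, windows near every scale, good scales (helper10)
-/

set_option autoImplicit false

namespace Crest.Agent.T145.Nc

open Finset Geo

namespace Gd10

theorem card_an (z : Pt) (r l : ℕ) : (an z r (r + l)).card = 4 * l * (2 * r + l + 1) := by
  have h := card_sdiff_add_card_eq_card (bl_mono z (Nat.le_add_right r l))
  rw [card_bl, card_bl] at h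
  have e : (2 * (r + l) + 1) ^ 2 = 4 * l * (2 * r + l + 1) + (2 * r + 1) ^ 2 := by ring
  rw [e] at h
  exact Nat.add_right_cancel h

/-- an annulus is a regular domain -/
theorem reg_an (z : Pt) {ρ R l L : ℕ} (h1 : 2 * ρ ≤ L) (h2 : 2 * R ≤ L) (h3 : l ≤ L) (h4 : 1 ≤ L) :
    Reg (an z ρ R) 24 l L := by
  constructor
  · have h : (an z ρ R).card ≤ 24 * L ^ 2 := by
      refine (card_le_card (an_subset_bl z ρ R)).trans ?_
      rw [card_bl]
      have : 2 * R + 1 ≤ 2 * L := by omega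
      calc (2 * R + 1) ^ 2 ≤ (2 * L) ^ 2 := Nat.pow_le_pow_left this 2
        _ ≤ 24 * L ^ 2 := by nlinarith [Nat.zero_le (L ^ 2)]
    exact_mod_cast h
  · have hs : ((an z ρ R).filter fun x => ¬ bl x l ⊆ an z ρ R) ⊆
        an z (R - l) (R - l + l) ∪ an z ρ (ρ + l) := by
      intro x hx
      obtain ⟨hx, h⟩ := mem_filter.1 hx
      obtain ⟨y, hy, hy'⟩ := not_subset.1 h
      simp only [mem_union, mem_an, mem_bl] at *
      omega
    have h : ((an z ρ R).filter fun x => ¬ bl x l ⊆ an z ρ R).card ≤ 24 * l * L := by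
      refine (card_le_card hs).trans ((card_union_le _ _).trans ?_)
      rw [card_an, card_an]
      have a1 : 2 * (R - l) + l + 1 ≤ 3 * L := by omega
      have a2 : 2 * ρ + l + 1 ≤ 3 * L := by omega
      calc 4 * l * (2 * (R - l) + l + 1) + 4 * l * (2 * ρ + l + 1)
          ≤ 4 * l * (3 * L) + 4 * l * (3 * L) :=
            Nat.add_le_add (Nat.mul_le_mul_left _ a1) (Nat.mul_le_mul_left _ a2)
        _ = 24 * l * L := by ring
    exact_mod_cast h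

/-- a bounded sequence cannot drop by `δ` at every step -/
theorem pigeon {t : ℕ → ℝ} {δ : ℝ} {N : ℕ} (h0 : ∀ i, 0 ≤ t i) (h1 : ∀ i, t i ≤ 1)
    (hN : 1 < N * δ) : ∃ i < N, t i - t (i + 1) ≤ δ := by
  by_contra hc
  push Not at hc
  have key : ∀ i ≤ N, i * δ ≤ t 0 - t i := by
    intro i hi
    induction i with
    | zero => simp
    | succ i ih =>
      have := ih (by omega)
      have := hc i (by omega)
      push_cast
      linarith
  have := key N le_rfl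
  have := h0 N
  have := h1 0
  linarith

theorem gd_mono {Λ : Lat} {g : ℝ} {W r₀ L L' : ℕ} (h : Gd Λ g W r₀ L) (hL : L' ≤ L) :
    Gd Λ g W r₀ L' :=
  ⟨h.1, h.2.1, fun r h1 h2 => h.2.2 r h1 (h2.trans hL)⟩

theorem exists_nat_one_le {δ : ℝ} (hδ : 0 < δ) : ∃ n : ℕ, 1 ≤ n ∧ ∀ r : ℕ, n ≤ r → 1 ≤ δ * r := by
  obtain ⟨n, hn⟩ := exists_nat_ge (1 / δ)
  refine ⟨n + 1, by omega, fun r hr => ?_⟩
  have h1 : (n : ℝ) ≤ r := by exact_mod_cast (by omega : n ≤ r)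
  have h2 := (div_le_iff₀ hδ).1 (hn.trans h1)
  linarith

end Gd10

open Gd10

/-- T4 for the cross ratio from its crossing form -/
theorem t4Stmt (hc : T4cStmt) (hN : CrNdStmt) (hM : MonoCrStmt) : T4Stmt := by
  intro F θ₀ g h0 hg
  obtain ⟨K', hK⟩ := hc F
  have hp : 0 < g / (1 + g) := by positivity
  obtain ⟨W, δ, hW, hδ, H⟩ := hK θ₀ 24 (g / (1 + g)) h0 (by norm_num) hp
  refine ⟨W, min δ 1, hW, lt_min hδ one_pos, fun Λ hΛ l M hw ρ hρ hWρ => ?_⟩
  have ho := hΛ.ok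
  have hrg := ho.one_le_rg
  have h4 : 4 * ρ ≤ M := (Nat.mul_le_mul_right ρ hW).trans hWρ
  have hl : l ≤ 128 * M := hw.sep.le (min_le_right _ _)
  obtain ⟨φ, hφ, H⟩ := H Λ hΛ l M (hw.mono_d (min_le_left _ _))
  have hcn : Cn (Λ.N (an 0 ρ (32 * M))) (an 0 ρ (32 * M)) :=
    (inL_N subset_rfl).cn (cnL_an ho 0 (by omega))
  have hP := H ρ (an 0 ρ (32 * M)) hWρ subset_rfl (an_subset_bl _ _ _) hcn
    (reg_an 0 (by omega) (by omega) hl (by omega))
  have hF : (Λ.N (an 0 ρ (32 * M))).Fm := (ho.ctr_N _).1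
  have hS : an 0 (4 * M) (32 * M) ⊆ an 0 ρ (32 * M) := an_mono 0 (by omega) le_rfl
  have hS0 : an 0 (4 * M) (16 * M) ⊆ an 0 (4 * M) (32 * M) := an_mono 0 le_rfl (by omega)
  have hK1 : an 0 ρ (ρ + Λ.rg) ⊆ an 0 ρ (32 * M) ∩ bl 0 (2 * ρ) :=
    subset_inter (an_mono 0 le_rfl (by omega)) ((an_subset_bl _ _ _).trans (bl_mono 0 (by omega)))
  have hS1 : an 0 (32 * M - Λ.rg) (32 * M) ⊆ an 0 (4 * M) (32 * M) := an_mono 0 (by omega) le_rfl
  have nK1 : (an 0 ρ (ρ + Λ.rg)).Nonempty := an_nonempty 0 (by omega)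
  have nS1 : (an 0 (32 * M - Λ.rg) (32 * M)).Nonempty := an_nonempty 0 (by omega)
  have hlt : g / (1 + g) < 1 := (div_lt_one (by positivity)).2 (by linarith)
  have h1 := hN Pt _ _ _ _ φ _ hF hcn inter_subset_left hS
    (fun x hx => hφ.1.2.1 x fun h => hx (hS0 h))
    (by rw [← hφ.1.2.2]; exact (sum_subset hS0 fun x _ hx => hφ.1.2.1 x hx).symm) hlt hP
  have e : 1 / (1 - g / (1 + g)) = 1 + g := by field_simp; ring
  rw [e] at h1
  have hK1U := hK1.trans inter_subset_left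
  have m1 := hM Pt _ _ _ _ hF hcn hK1U (hS1.trans hS) nK1 nS1
  have m2 := hM Pt _ _ _ _ hF hcn hS hK1U (nS1.mono hS1) nK1
  have m3 := hM Pt _ _ _ _ hF hcn inter_subset_left hS (nK1.mono hK1) (nS1.mono hS1)
  have m4 := hM Pt _ _ _ _ hF hcn hK1U hS nK1 (nS1.mono hS1)
  rw [gam, m1.2.1]
  refine (m2.2.2.1 _ hS1).trans ?_
  rw [← m4.2.1]
  exact (m3.2.2.1 _ hK1).trans h1

/-- every scale below a stiff scale lies near a window -/
theorem winStmt (hm : T1mStmt) : WinStmt := by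
  intro F θ₀ δ W h0 hδ
  obtain ⟨δ₁, hδ₁, H⟩ := hm.2.1 F (θ₀ / 2) (half_pos h0)
  obtain ⟨n, hn1, hn⟩ := exists_nat_one_le hδ
  obtain ⟨n₁, hn₁1, hn₁⟩ := exists_nat_one_le hδ₁
  -- `k`: the ratio of the window
  set k := n + W with hk
  have hk2 : k ≤ 2 ^ k := Nat.lt_two_pow_self.le
  set N := n + 1 with hN
  have hN1 : 1 < (N : ℝ) * δ := by
    have := hn n le_rfl
    rw [hN]; push_cast; nlinarith
  refine ⟨2 ^ (N * (k + 1) + 1), n + n₁, n₁ * 2 ^ (N * (k + 1) + 1),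
    Nat.mul_pos hn₁1 (Nat.two_pow_pos _), fun Λ hΛ L r hL hr hc => ?_⟩
  have ho := hΛ.ok
  obtain ⟨j, hj1, hj2⟩ : ∃ j, r ≤ 2 ^ j ∧ 2 ^ j ≤ 2 * r := by
    obtain ⟨j, h1, h2⟩ := exists_nat_pow_near (by omega : 1 ≤ r) (by norm_num : 1 < 2)
    exact ⟨j + 1, h2.le, by rw [pow_succ]; omega⟩
  obtain ⟨i, hi, hd⟩ := pigeon (t := fun i => Λ.tN (2 ^ (j + i * (k + 1))))
    (fun _ => T53.tN_nonneg ho _) (fun _ => T53.tN_le_one ho _) hN1
  have e2 : 2 * 2 ^ (j + i * (k + 1) + k) = 2 ^ (j + (i + 1) * (k + 1)) := by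
    rw [← pow_succ']; congr 1; ring
  have hl : r ≤ 2 ^ (j + i * (k + 1)) :=
    hj1.trans (Nat.pow_le_pow_right (by norm_num) (Nat.le_add_right _ _))
  have hL' : 2 ^ (j + i * (k + 1) + k) = 2 ^ k * 2 ^ (j + i * (k + 1)) := by rw [pow_add, mul_comm]
  have hup : 2 * 2 ^ (j + i * (k + 1) + k) ≤ 2 ^ (N * (k + 1) + 1) * r := by
    rw [e2]
    calc 2 ^ (j + (i + 1) * (k + 1)) ≤ 2 ^ (j + N * (k + 1)) :=
          Nat.pow_le_pow_right (by norm_num)
            (Nat.add_le_add_left (Nat.mul_le_mul_right _ (by omega)) _)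
      _ = 2 ^ (N * (k + 1)) * 2 ^ j := by rw [pow_add, mul_comm]
      _ ≤ 2 ^ (N * (k + 1)) * (2 * r) := Nat.mul_le_mul_left _ hj2
      _ = 2 ^ (N * (k + 1) + 1) * r := by rw [pow_succ]; ring
  refine ⟨2 ^ (j + i * (k + 1)), 2 ^ (j + i * (k + 1) + k), hl, ?_, by omega, ⟨_, rfl⟩,
    ⟨hn _ (by omega), ?_⟩, ?_, ?_⟩
  · rw [hL']; exact Nat.mul_le_mul (by omega) hl
  · rw [hL']
    have h1 := hn (2 ^ k) (by omega)
    have h2 : (0 : ℝ) ≤ ((2 ^ (j + i * (k + 1)) : ℕ) : ℝ) := Nat.cast_nonneg _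
    rw [Nat.cast_mul]
    nlinarith
  · have hpos : 1 ≤ 2 ^ k := Nat.one_le_two_pow
    have hb : r ≤ 2 * 2 ^ (j + i * (k + 1) + k) := by
      rw [hL']; nlinarith [Nat.zero_le (2 ^ (j + i * (k + 1)))]
    have hs : Sep δ₁ (2 * 2 ^ (j + i * (k + 1) + k)) L := by
      refine ⟨hn₁ _ (by omega), ?_⟩
      have h1 := hn₁ n₁ le_rfl
      have h2 : n₁ * (2 * 2 ^ (j + i * (k + 1) + k)) ≤ L :=
        (Nat.mul_le_mul_left _ hup).trans (by rw [← mul_assoc]; exact hc)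
      have h3 : (n₁ : ℝ) * ((2 * 2 ^ (j + i * (k + 1) + k) : ℕ) : ℝ) ≤ L := by exact_mod_cast h2
      have h4 : (0 : ℝ) ≤ ((2 * 2 ^ (j + i * (k + 1) + k) : ℕ) : ℝ) := Nat.cast_nonneg _
      nlinarith
    have := (H Λ hΛ).1 _ _ hs
    linarith
  · rw [e2]; exact hd

theorem Gd10.gd0 (h4 : T4Stmt) (hw : WinStmt) (hG : LgeoStmt) (F : Fa) {θ g : ℝ} (h0 : 0 < θ)
    (hg : 0 < g) : ∃ W r₀ c : ℕ, 1 ≤ c ∧ ∀ Λ, F.Mem Λ → ∀ L : ℕ, θ ≤ Λ.tN L →
      Gd Λ g W r₀ (L / c) := by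
  obtain ⟨W₄, δ, hW₄, hδ, H4⟩ := h4 F (θ / 2) g (half_pos h0) hg
  obtain ⟨W', r₀, c, hc, Hw⟩ := hw F θ δ (128 * W₄) h0 hδ
  refine ⟨W' + 2, r₀ + 2 * F.base.rg, c, hc, fun Λ hΛ L hL => ⟨by omega, by rw [hΛ.rg_eq]; omega,
    fun r hr hrL => ?_⟩⟩
  have ho := hΛ.ok
  have hrg := ho.one_le_rg
  rw [← hΛ.rg_eq] at hr
  have hcr : c * r ≤ L := (Nat.mul_le_mul_left c hrL).trans (Nat.mul_div_le L c)
  obtain ⟨l, L', -, h1, h2, hwin⟩ := Hw Λ hΛ L r hL (by omega) hcr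
  obtain ⟨j, rfl⟩ := hwin.dyadic
  have h3 : 128 * (W₄ * r) ≤ 2 ^ j := by rw [← mul_assoc]; exact h1
  have h5 : 4 * r ≤ W₄ * r := Nat.mul_le_mul_right r hW₄
  have h7 : 7 ≤ j := (Nat.pow_le_pow_iff_right (by norm_num : 1 < 2)).1 (by omega)
  obtain ⟨M, hM⟩ : ∃ M, 2 ^ j = 128 * M := ⟨2 ^ (j - 7), by
    rw [show j = 7 + (j - 7) by omega, pow_add]; simp⟩
  rw [hM] at hwin h2 h3
  have h6 := H4 Λ hΛ l M hwin r (by omega) (by omega)
  refine ((hG Λ ho).1 r (32 * M) r ((W' + 2) * r) le_rfl ?_ (by omega)).2.trans h6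
  rw [add_mul]; omega

/-- all scales below a stiff scale are good -/
theorem gdStmt (h4 : T4Stmt) (hw : WinStmt) (hm : T1mStmt) (hG : LgeoStmt) : GdStmt := by
  intro F θ₀ g h0 hg
  obtain ⟨W, r₀, c, hc, H⟩ := gd0 h4 hw hG F (half_pos h0) hg
  obtain ⟨δ₁, hδ₁, H1⟩ := hm.2.1 F (θ₀ / 2) (half_pos h0)
  obtain ⟨n₁, -, hn₁⟩ := exists_nat_one_le hδ₁
  refine ⟨W, r₀, c, hc, fun Λ hΛ => ⟨fun L hL => H Λ hΛ L (by linarith), fun hI L => ?_⟩⟩
  have h1 := (H1 Λ hΛ).2 (L * c + n₁) (hn₁ _ (by omega))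
  exact gd_mono (H Λ hΛ (L * c + n₁) (by linarith))
    ((Nat.le_div_iff_mul_le hc).2 (Nat.le_add_right _ _))

end Crest.Agent.T145.Nc
end

-- ▼ part T145/NcRate_33
section

/-!
# Row 145: polynomial rates from the geometric decay (helper33): `rateStmt`, `pdecStmt`
-/

set_option autoImplicit false

namespace Crest.Agent.T145.Nc

open Finset

namespace R33

/-- the number of steps between two scales -/
theorem exists_n {B r R : ℕ} (hB : 2 ≤ B) (hr : 1 ≤ r) (h : B ^ 2 * r ≤ R) : ∃ n : ℕ,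
    B ^ (n + 2) * r ≤ R ∧
      (200 * (1 / 400) : ℝ) ^ n ≤ 8 * ((r : ℝ) / R) ^ (Real.log 2 / Real.log B) := by
  have h1 : B ^ 2 ≤ R / r := (Nat.le_div_iff_mul_le hr).2 h
  have h0 : R / r ≠ 0 := ((Nat.pow_pos (by omega)).trans_le h1).ne'
  obtain ⟨n, hn⟩ := Nat.exists_eq_add_of_le' ((Nat.le_log_iff_pow_le hB h0).2 h1)
  refine ⟨n, (Nat.le_div_iff_mul_le hr).1 (hn ▸ Nat.pow_log_le_self B h0), ?_⟩
  have h2 : R < B ^ (n + 3) * r := by
    have := Nat.lt_pow_succ_log_self hB (R / r)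
    rw [hn] at this
    exact (Nat.div_lt_iff_lt_mul hr).1 this
  have hB' : (1 : ℝ) < B := by exact_mod_cast hB
  have hR : (0 : ℝ) < R := by
    exact_mod_cast (Nat.mul_pos (Nat.pow_pos (by omega)) hr).trans_le h
  have hl := Real.log_pos hB'
  have h3 : ((B : ℝ) ^ (n + 3))⁻¹ ≤ (r : ℝ) / R := by
    rw [inv_eq_one_div, div_le_div_iff₀ (by positivity) hR, one_mul, mul_comm]
    exact_mod_cast h2.le
  have h4 := Real.rpow_le_rpow (by positivity) h3 (div_pos (Real.log_pos one_lt_two) hl).le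
  have h5 : (((B : ℝ) ^ (n + 3))⁻¹) ^ (Real.log 2 / Real.log B) = (2 ^ (n + 3))⁻¹ := by
    rw [Real.rpow_def_of_pos (by positivity), Real.log_inv, Real.log_pow,
      ← Real.exp_log (x := (2 ^ (n + 3))⁻¹) (by positivity), Real.log_inv, Real.log_pow]
    congr 1; field_simp
  rw [h5] at h4
  refine le_trans (le_of_eq ?_) (mul_le_mul_of_nonneg_left h4 (by norm_num))
  rw [pow_add, show (200 * (1 / 400) : ℝ) = 2⁻¹ by norm_num, inv_pow]
  field_simp; norm_num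

theorem two_le_B {W : ℕ} (hW : 2 ≤ W) : W ≤ 4 * W ^ 4 := by
  have := Nat.le_self_pow (n := 4) (by norm_num) W
  omega

/-- good scales below a stiff scale -/
theorem gd (hG : GdStmt) (F : Fa) {θ₀ g : ℝ} (h : 0 < θ₀) (hg : 0 < g) : ∃ W r₀ c : ℕ, 1 ≤ c ∧
    ∀ Λ, F.Mem Λ → ∀ L, Stf Λ θ₀ L → Λ.Ok ∧ Gd Λ g W r₀ (L / c) := by
  obtain ⟨W, r₀, c, hc, H⟩ := hG F θ₀ g h hg
  exact ⟨W, r₀, c, hc, fun Λ hΛ L hL => ⟨⟨hΛ.1 ▸ F.adm, F.pos.trans_le hΛ.2.2.1⟩,
    hL.elim ((H Λ hΛ).1 L) fun h => (H Λ hΛ).2 h _⟩⟩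

theorem c_pos {B : ℕ} (hB : 2 ≤ B) :
    0 < Real.log 2 / Real.log B ∧ Real.log 2 / Real.log B ≤ 1 := by
  have hB' : (2 : ℝ) ≤ B := by exact_mod_cast hB
  have h2 := Real.log_pos one_lt_two
  have h3 := Real.log_le_log two_pos hB'
  exact ⟨div_pos h2 (h2.trans_le h3), (div_le_one (h2.trans_le h3)).2 h3⟩

end R33

open R33

theorem rateStmt (hG : GdStmt) (hS : SubStmt) (hL : LgeoStmt) : RateStmt := by
  intro F θ₀ hθ
  obtain ⟨W, r₀, c₀, hc, H⟩ := gd hG F hθ (by norm_num : (0 : ℝ) < 1 / 400)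
  by_cases hW : 2 ≤ W
  swap
  · exact ⟨0, 1, one_pos, fun Λ hΛ L r R h => absurd (H Λ hΛ L h).2.1 hW⟩
  have hB : 2 ≤ 4 * W ^ 4 := hW.trans (two_le_B hW)
  generalize hBe : 4 * W ^ 4 = B at hB
  refine ⟨1600 * r₀ + B ^ 2 * r₀ + c₀, _, (c_pos hB).1, fun Λ hΛ L r R h hr h1 h2 => ?_⟩
  obtain ⟨ok, hg⟩ := H Λ hΛ L h
  have a1 := hg.2.1
  have a2 := ok.one_le_rg
  have a3 : r₀ ≤ r₀ * r := Nat.le_mul_of_pos_right _ hr
  have a4 : B ^ 2 * (r₀ * r) ≤ R := le_trans (by nlinarith [Nat.zero_le (r₀ * r), Nat.zero_le (c₀ * r)]) h1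
  obtain ⟨n, b1, b2⟩ := exists_n hB (by omega) a4
  have a5 : R ≤ L / c₀ := (Nat.le_div_iff_mul_le hc).2
    (le_trans (by nlinarith [Nat.zero_le (r₀ * R), Nat.zero_le (B ^ 2 * r₀ * R)]) h2)
  have a6 : r₀ * r + 2 * Λ.rg ≤ R := by
    have : 2 * (r₀ * r) ≤ B ^ 2 * (r₀ * r) := Nat.mul_le_mul_right _ (by nlinarith)
    omega
  refine ((hL Λ ok).1 (r₀ * r) R r R (Nat.le_mul_of_pos_left _ (by omega)) le_rfl a6).2.trans
    ((hS Λ ok _ W r₀ _ (by norm_num) (by norm_num) hg _ n R a3 (hBe ▸ b1) (hBe ▸ b1.trans a5)).trans ?_)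
  have r1 : (1 : ℝ) ≤ r₀ := by exact_mod_cast (by omega : 1 ≤ r₀)
  have b3 : (((r₀ * r : ℕ) : ℝ) / R) ^ (Real.log 2 / Real.log B) ≤
      r₀ * ((r : ℝ) / R) ^ (Real.log 2 / Real.log B) := by
    rw [Nat.cast_mul, mul_div_assoc, Real.mul_rpow (by positivity) (by positivity)]
    refine mul_le_mul_of_nonneg_right ?_ (by positivity)
    simpa using Real.rpow_le_rpow_of_exponent_le r1 (c_pos hB).2
  have b4 : 0 ≤ ((r : ℝ) / R) ^ (Real.log 2 / Real.log B) := by positivity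
  push_cast
  nlinarith [mul_nonneg (by positivity : (0 : ℝ) ≤ B ^ 2 * r₀ + c₀) b4]

theorem pdecStmt (hG : GdStmt) (hD : DecStmt) (h1 : LD1Stmt) (hL : LgeoStmt) : PDecStmt := by
  intro F θ₀ hθ
  obtain ⟨W, r₀, c₀, hc, H⟩ := gd hG F hθ (by norm_num : (0 : ℝ) < 1 / 400)
  by_cases hW : 2 ≤ W
  swap
  · exact ⟨0, 1, one_pos, fun Λ hΛ L r a R z X h => absurd (H Λ hΛ L h).2.1 hW⟩
  have hWB := two_le_B hW
  have hB : 2 ≤ 4 * W ^ 4 := hW.trans hWB
  generalize hBe : 4 * W ^ 4 = B at hB hWB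
  obtain ⟨C, c1, c2, c3, c4, c5⟩ : ∃ C : ℕ, 3200 ≤ C ∧ B ^ 2 ≤ C ∧ c₀ ≤ C ∧ W * r₀ ≤ C ∧ W ≤ C :=
    ⟨3200 + B ^ 2 + c₀ + W * r₀ + W, by omega, by omega, by omega, by omega, by omega⟩
  refine ⟨C, _, (c_pos hB).1, fun Λ hΛ L r a R z X h hr ha hR hL' hX hI m hm => ?_⟩
  obtain ⟨ok, hg⟩ := H Λ hΛ L h
  have a1 := hg.2.1
  have a2 := ok.one_le_rg
  have a3 : r₀ ≤ r₀ * r := Nat.le_mul_of_pos_right _ hr
  have a4 : W * (r₀ * r) ≤ a := by rw [← mul_assoc]; exact (Nat.mul_le_mul_right _ c4).trans ha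
  have a5 : 2 * (r₀ * r) ≤ W * (r₀ * r) := Nat.mul_le_mul_right _ hW
  have a6 : r ≤ r₀ * r := Nat.le_mul_of_pos_left _ (by omega)
  have a7 : 2 * a ≤ W * a := Nat.mul_le_mul_right _ hW
  have a8 : a ≤ R := le_trans (Nat.le_mul_of_pos_left _ (by omega)) hR
  have a9 : R ≤ L / c₀ := (Nat.le_div_iff_mul_le hc).2
    (le_trans (by rw [mul_comm]; exact Nat.mul_le_mul_right _ c3) hL')
  have hN : 0 ≤ Nm Λ z a X := Ex_nonneg (ok.cen_Nr_bl (self_mem_bl z a)).wt.nonneg fun _ _ => abs_nonneg _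
  obtain ⟨d1, -, -, -, d2⟩ := ((h1 Λ ok).2 z r a (a + 2 * Λ.rg) X (by omega) le_rfl
    (hX.mono (bl_mono z (by omega))) hI).2.2.2.1 (W * a) (by omega)
  have d3 : Nm Λ z (W * a) X ≤ 2 * Nm Λ z a X := by
    refine d2.trans (mul_le_mul_of_nonneg_right ?_ hN)
    have := ((hL Λ ok).1 (r₀ * r) (W * (r₀ * r)) r a a6 a4 (by omega)).2.trans
      (hg.2.2 _ a3 (by omega))
    linarith
  have key : ∀ {q : ℕ}, C * a ≤ q → q ≤ R → ∃ n : ℕ, B ^ (n + 2) * a ≤ q ∧ (∀ k : ℝ, 0 ≤ k → k ≤ 200 →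
      k * (200 * (1 / 400) : ℝ) ^ n * Nm Λ z (W * a) X ≤
        C * ((a : ℝ) / q) ^ (Real.log 2 / Real.log B) * Nm Λ z a X) ∧
      (4 * W ^ 4) ^ (n + 1) * a ≤ R ∧ (4 * W ^ 4) ^ (n + 1) * a ≤ L / c₀ := by
    intro q hq hqR
    obtain ⟨n, b1, b2⟩ := exists_n hB (r := a) (R := q) (by omega)
      ((Nat.mul_le_mul_right _ c2).trans hq)
    have b3 : B ^ (n + 1) * a ≤ R :=
      ((Nat.mul_le_mul_right _ (Nat.pow_le_pow_right (by omega) (by omega))).trans b1).trans hqR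
    refine ⟨n, b1, fun k k0 k1 => ?_, hBe ▸ b3, hBe ▸ b3.trans a9⟩
    have hC : (3200 : ℝ) ≤ C := by exact_mod_cast c1
    calc _ ≤ 200 * (8 * ((a : ℝ) / q) ^ (Real.log 2 / Real.log B)) * (2 * Nm Λ z a X) := by
          gcongr
          exact Ex_nonneg (ok.cen_Nr_bl (self_mem_bl z _)).wt.nonneg fun _ _ => abs_nonneg _
      _ = 3200 * ((a : ℝ) / q) ^ (Real.log 2 / Real.log B) * Nm Λ z a X := by ring
      _ ≤ _ := by gcongr
  have hD' := fun n b1 b2 => hD Λ ok _ W r₀ _ (by norm_num) (by norm_num) hg z a n R X (by omega) b1 b2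
    (hX.mono (bl_mono z (by omega))) d1 m hm
  obtain ⟨n, -, e1, e2, e3⟩ := key hR le_rfl
  obtain ⟨f1, f2, f3, -⟩ := hD' n e2 e3
  have g1 := e1 20 (by norm_num) (by norm_num)
  refine ⟨f1.trans g1, fun m' hm' => (f2 m' hm').trans g1, fun R' hR' => ⟨(f3 R' hR').1.trans g1,
    (f3 R' hR').2.trans (e1 40 (by norm_num) (by norm_num))⟩, fun q G hq hqR hG hi => ?_⟩
  have a10 : W * q ≤ R := (Nat.mul_le_mul_right _ c5).trans hqR
  have a11 : q ≤ R := le_trans (Nat.le_mul_of_pos_left _ (by omega)) a10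
  obtain ⟨n, e0, e1, e2, e3⟩ := key hq a11
  refine ((hD' n e2 e3).2.2.2 q G ?_ a10 (a11.trans a9) hG hi).trans
    (mul_le_mul_of_nonneg_right (e1 200 (by norm_num) le_rfl) (Ex_nonneg (fun s => Mdl.W_nonneg
      (fun e he k => ((hole_fm hm.ctr.1 _ e he).pos k).le) (hole_ctr hm.ctr _).nn 0 s)
      fun _ _ => abs_nonneg _))
  rw [hBe]
  refine le_trans ?_ e0
  calc _ ≤ B ^ 2 * (B ^ n * a) := Nat.mul_le_mul_right _ (by nlinarith)
    _ = _ := by ring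

end Crest.Agent.T145.Nc
end

-- ▼ part T145/NcT4All_78

/-!
# Row 145: the Props of `NcT4Def_78` from `T3Stmt` alone (helper78)
-/

set_option autoImplicit false

namespace Crest.Agent.T145.Nc.U

theorem t1m : T1mStmt := t1mStmt t1xU t1aU t1dStmt brStmt
theorem test : TestStmt := testStmt radStmt
theorem win : WinStmt := winStmt t1m
theorem var (h : T3Stmt) : VarStmt := varStmt t1xU h
theorem t4c (h : T3Stmt) : T4cStmt :=
  t4cStmt persStmt crossStmt routeStmt test (var h) brStmt t1m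
theorem t4 (h : T3Stmt) : T4Stmt := t4Stmt (t4c h) crNd monoCr
theorem gd (h : T3Stmt) : GdStmt := gdStmt (t4 h) win t1m lgeo
theorem rate (h : T3Stmt) : RateStmt := rateStmt (gd h) sub lgeo
theorem pdec (h : T3Stmt) : PDecStmt := pdecStmt (gd h) dec ld1 lgeo

end Crest.Agent.T145.Nc.U
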