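import Crest.Agent.T145.KrDef_77
import Crest.Agent.T145.KrHsy_11
import Crest.Agent.T145.NcGeo_51
import Crest.Agent.T145.Route_51
import Crest.Agent.T145.Soft_23
import Crest.Agent.T145.RJ_57
import Crest.Agent.T145.NcAll_78
import Crest.Agent.T145.MxAll_9_Mg
import Crest.Agent.T145.NcT4All_78
import Crest.Agent.T145.PotGs_57
import Crest.Agent.T145.KrOut_11_Mg
import Crest.Agent.T145.KrBar_90
import Crest.Agent.T145.KrFs_9
import Crest.Agent.T145.KrGa_45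
import Crest.Agent.T145.KrK0_40
import Crest.Agent.T145.KrTr_57_Mg
import Crest.Agent.T145.KrK3_85
import Crest.Agent.T145.KrKs_90
import Crest.Agent.T145.KrKsh_77
import Crest.Agent.T145.KrMom_3_Mg
import Crest.Agent.T145.KrM3_17
import Crest.Agent.T145.KrP0_75
import Crest.Agent.T145.KrR_49
import Crest.Agent.T145.KrTyp_74
import Crest.Agent.T145.DfPw_3
import Crest.Agent.T145.OmB_11
import Crest.Agent.T145.XiB_22
import Crest.Agent.T145.DfDef_70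
import Crest.Agent.T145.RJa_57

-- ▼ part T145/KrHolA_93
section

/-!
# Row 145, module KERNEL, HOL: the context `Ctx` (`w = W ^ (ε / 4)`), bridge and truncation (helper93)
-/

set_option autoImplicit false

namespace Crest.Agent.T145.Kr.H93

open Finset Real KrA

/-- second moment at most `v ^ 2` -/
structure L2 {α : Type*} (ρ X : α → ℝ) (v : ℝ) : Prop where
  ig : Ig ρ fun s => X s ^ 2
  nn : 0 ≤ v
  le : Ex ρ (fun s => X s ^ 2) ≤ v ^ 2

section l2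
variable {α : Type*} {ρ X ψ : α → ℝ} {v B : ℝ}

theorem L2.sqrt_le (h : L2 ρ X v) : √(Ex ρ fun s => X s ^ 2) ≤ v := sqrt_le_iff.2 ⟨h.nn, h.le⟩

theorem L2.mono (h : L2 ρ X v) {v' : ℝ} (hv : v ≤ v') : L2 ρ X v' :=
  ⟨h.ig, h.nn.trans hv, h.le.trans (pow_le_pow_left₀ h.nn hv 2)⟩

theorem L2.of_le (hρ : Wt ρ) (h : L2 ρ X v) (hB : 0 ≤ B) (hψ : ∀ s, |ψ s| ≤ B * |X s|) :
    L2 ρ ψ (B * v) := by
  have b : ∀ s, ψ s ^ 2 ≤ B ^ 2 * X s ^ 2 := fun s => by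
    rw [← sq_abs (ψ s), ← sq_abs (X s), ← mul_pow]; exact pow_le_pow_left₀ (abs_nonneg _) (hψ s) 2
  have i : Ig ρ fun s => ψ s ^ 2 := (h.ig.const_mul _).of_le hρ.nonneg (fun _ => sq_nonneg _) b
  refine ⟨i, mul_nonneg hB h.nn, (Ex_mono hρ.nonneg i (h.ig.const_mul _) b).trans ?_⟩
  rw [Ex_const_mul, mul_pow]
  exact mul_le_mul_of_nonneg_left h.le (sq_nonneg _)

theorem L2.bdd_mul (hρ : Wt ρ) (h : L2 ρ X v) (hB : 0 ≤ B) (hψ : ∀ s, |ψ s| ≤ B) :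
    L2 ρ (fun s => ψ s * X s) (B * v) := h.of_le hρ hB fun s => by
  rw [abs_mul]; exact mul_le_mul_of_nonneg_right (hψ s) (abs_nonneg _)

theorem L2.mul_bdd (hρ : Wt ρ) (h : L2 ρ X v) (hB : 0 ≤ B) (hψ : ∀ s, |ψ s| ≤ B) :
    L2 ρ (fun s => X s * ψ s) (v * B) := by
  simpa only [mul_comm] using h.bdd_mul hρ hB hψ

theorem L2.int (hρ : Wt ρ) (h : L2 ρ X v) : Ig ρ X := hρ.ig_of_sq h.ig

theorem L2.abs_le (hρ : Wt ρ) (h : L2 ρ X v) : |Ex ρ X| ≤ v :=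
  (abs_le_sqrt (hρ.ex_sq_le h.ig)).trans h.sqrt_le

/-- dropping a truncation -/
theorem L2.cut (hρ : Wt ρ) (h : L2 ρ X v) {t : α → Prop} {b : ℝ} (hb : 0 ≤ b)
    (ht : Pr ρ (fun s => ¬ t s) ≤ b ^ 2) : |Ex ρ (fun s => ind (t s) * X s) - Ex ρ X| ≤ v * b := by
  rw [← Ex_sub ((h.int hρ).ind_mul hρ.nonneg t) (h.int hρ), ← abs_neg, ← Ex_neg,
    Ex_congr (G := fun s => X s * ind (¬ t s)) fun s _ => by rw [ind_not]; ring]
  exact (hρ.abs_ex_ind_le h.ig _).trans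
    (mul_le_mul h.sqrt_le (sqrt_le_iff.2 ⟨hb, ht⟩) (sqrt_nonneg _) h.nn)

/-- products from fourth moments -/
theorem L2.of_four (hρ : Wt ρ) {Y : α → ℝ} (hv : 0 ≤ v) (hX : Ig ρ fun s => X s ^ 4)
    (hY : Ig ρ fun s => Y s ^ 4) (h1 : Ex ρ (fun s => X s ^ 4) ≤ v ^ 2)
    (h2 : Ex ρ (fun s => Y s ^ 4) ≤ v ^ 2) : L2 ρ (fun s => X s * Y s) v := by
  have b : ∀ s, (X s * Y s) ^ 2 ≤ (X s ^ 4 + Y s ^ 4) / 2 := fun s => by
    nlinarith [sq_nonneg (X s ^ 2 - Y s ^ 2)]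
  have i : Ig ρ fun s => (X s * Y s) ^ 2 :=
    ((hX.add hY).div_const 2).of_le hρ.nonneg (fun _ => sq_nonneg _) b
  refine ⟨i, hv, (Ex_mono hρ.nonneg i ((hX.add hY).div_const 2) b).trans ?_⟩
  rw [Ex_div_const, Ex_add hX hY]; linarith

end l2

theorem abs_mul_le' {a b A B : ℝ} (ha : |a| ≤ A) (hb : |b| ≤ B) : |a * b| ≤ A * B := by
  rw [abs_mul]; exact mul_le_mul ha hb (abs_nonneg _) ((abs_nonneg _).trans ha)

/-- `a b - a' b'` -/
theorem abs_mul_sub {a b a' b' A B x y : ℝ} (ha : |a - a'| ≤ x) (hb : |b - b'| ≤ y) (hA : |a| ≤ A)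
    (hB : |b'| ≤ B) : |a * b - a' * b'| ≤ A * y + x * B := by
  rw [show a * b - a' * b' = a * (b - b') + (a - a') * b' by ring]
  exact (abs_add_le _ _).trans (add_le_add (abs_mul_le' hA hb) (abs_mul_le' ha hB))

/-- the weight of the free annulus -/
noncomputable def rho (Λ : Lat) (G : Gm) : Cfg Pt → ℝ := Nc.rW (Λ.N G.Om) G.Om

theorem EA_eq (Λ : Lat) (G : Gm) (F : Cfg Pt → ℝ) : G.EA Λ F = Ex (rho Λ G) F := rfl

/-- invariance under the shifts of `S` -/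
def Iv (S : Finset Pt) (u : Cfg Pt → ℝ) : Prop := ∀ i a, u (a + cst S i) = u a

theorem Iv.mul {S : Finset Pt} {u v : Cfg Pt → ℝ} (h : Iv S u) (h' : Iv S v) :
    Iv S fun a => u a * v a := fun i a => by simp only [h i a, h' i a]

theorem iv_of {S : Finset Pt} {u : Cfg Pt → ℝ} (h : DepG S u) : Iv S u := fun i a =>
  h.shift subset_rfl a i

theorem res_of {S : Finset Pt} {β : Type*} {u : Cfg Pt → β} (h : Dep S u) (s : Cfg Pt) :
    u (resH S s) = u s := h _ _ fun x hx => by rw [resH_apply, if_pos hx]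

/-- truncation to the typical set -/
noncomputable def tc (A : Act (Cfg Pt)) (u : Cfg Pt → ℝ) (a : Cfg Pt) : ℝ := ind (A.T a) * u a

theorem abs_tc {A : Act (Cfg Pt)} {u : Cfg Pt → ℝ} {U : ℝ} (hU : 0 ≤ U) (h : ∀ a, A.T a → |u a| ≤ U)
    (a : Cfg Pt) : |tc A u a| ≤ U := by
  by_cases ha : A.T a
  · rw [tc, ind_pos ha, one_mul]; exact h a ha
  · rw [tc, ind_neg ha, zero_mul, abs_zero]; exact hU

theorem tc_of {A : Act (Cfg Pt)} (u : Cfg Pt → ℝ) {a : Cfg Pt} (h : A.T a) : tc A u a = u a := by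
  rw [tc, ind_pos h, one_mul]

theorem tc_mul (A : Act (Cfg Pt)) (u v : Cfg Pt → ℝ) (a : Cfg Pt) :
    tc A u a * tc A v a = tc A (fun a => u a * v a) a := by
  simp only [tc]; rw [mul_mul_mul_comm, ind_mul_self]

/-- everything that HOL uses; `w = W ^ (ε / 4)` -/
structure Ctx (Λ : Lat) (G : Gm) (g W w : ℝ) (A B : Act (Cfg Pt)) (p q : Cfg Pt → ℝ)
    (κ : Cfg Pt → Cfg Pt → ℝ) : Prop where
  alg : G.Alg
  gok : G.Ok W
  wt : Wt (rho Λ G)
  w1 : 1000 ≤ w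
  w2 : w ^ 16 ≤ W
  isI : G.IsI A
  isO : G.IsO B
  sec : Sec (mub A B (G.nu Λ)) p q κ A.H B.H (fun a b => G.y0 a b / g) A.ng (G.lam g)
    (1 / W ^ 9) (w ^ 4 / W) (w ^ 8 / W ^ 3) (w ^ 2 / W)
  pga : ∀ k a, p (ga k a) = p a
  pT : ∀ a, p a ≠ 0 → A.T a
  qT : ∀ b, q b ≠ 0 → B.T b
  lam : G.lam g ≤ w ^ 5 / W ^ 2
  bar : ∀ (Φ : Cfg Pt → Cfg Pt → ℝ) (C : ℝ), (∀ a b, |Φ a b| ≤ C) → (∀ i a b, Φ (A.s i a) b = Φ a b) →
    (∀ i a b, Φ a (B.s i b) = Φ a b) →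
    br (mub A B (G.nu Λ)) Φ = G.EA Λ fun s => Φ (G.dat s).1 (G.dat s).2
  bad : Pr (rho Λ G) (fun s => ¬ (A.T (G.dat s).1 ∧ B.T (G.dat s).2)) ≤ (1 / W ^ 5) ^ 2
  y2 : ∀ a b, A.T a → B.T b → |G.y0 a b / g - ∑ i, G.yi g i a * G.di i b| ≤ 2 * w / W ^ 2
  y3 : ∀ a b, A.T a → B.T b → |∑ k, G.y0 (ga k a) b / g| ≤ 2 * w / W ^ 3
  yi : ∀ a i, A.T a → |G.yi g i a| ≤ 2 * w * G.r
  di : ∀ b i, B.T b → |G.di i b| ≤ w / G.R
  dyi : ∀ i, DepG G.In (G.yi g i)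
  ddi : ∀ i, DepG G.Ou (G.di i)
  m_y : ∀ i, L2 (rho Λ G) (G.yi g i) (w * G.r)
  m_yy : ∀ i j, L2 (rho Λ G) (fun s => G.yi g i s * G.yi g j s) (w * (G.r : ℝ) ^ 2)
  m_d : ∀ i, L2 (rho Λ G) (G.di i) (w / G.R)
  m_dd : ∀ i j, L2 (rho Λ G) (fun s => G.di i s * G.di j s) (w / (G.R : ℝ) ^ 2)
  m_t : L2 (rho Λ G) (fun s => pr G.te s - pr (hm 0 G.R) s) (w / W)

theorem sub_In {G : Gm} {W : ℝ} (h : G.Ok W) : Nc.an 0 (G.r - 1) G.r ⊆ G.In := fun x hx => by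
  have := h.hc; have := h.hr
  simp only [Gm.In, Nc.an, mem_sdiff, mem_bl, Prod.fst_zero, Prod.snd_zero] at *; omega

theorem r_le_R {G : Gm} {W : ℝ} (h : G.Ok W) : 1024 * G.r ≤ G.R := by
  have h1 : (1024 : ℝ) * G.r ≤ G.R := (mul_le_mul_of_nonneg_right h.hW (Nat.cast_nonneg _)).trans h.lo
  exact_mod_cast h1

theorem sub_Ou {G : Gm} {W : ℝ} (h : G.Ok W) : Nc.an 0 G.R (G.R + 1) ⊆ G.Ou := fun x hx => by
  have := h.out; have := h.hr; have := r_le_R h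
  simp only [Gm.Ou, Nc.an, mem_sdiff, mem_bl, Prod.fst_zero, Prod.snd_zero] at *; omega

namespace Ctx
variable {Λ : Lat} {G : Gm} {g W w : ℝ} {A B : Act (Cfg Pt)} {p q : Cfg Pt → ℝ}
  {κ : Cfg Pt → Cfg Pt → ℝ} {u v F φ X : Cfg Pt → ℝ} {U V N M x : ℝ}

theorem W0 (h : Ctx Λ G g W w A B p q κ) : 0 < W := by linarith [h.gok.hW]
theorem w0 (h : Ctx Λ G g W w A B p q κ) : 0 < w := by linarith [h.w1]
theorem r0 (h : Ctx Λ G g W w A B p q κ) : (0 : ℝ) < G.r := by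
  have := h.gok.hr; exact_mod_cast (by omega : 0 < G.r)
theorem R0 (h : Ctx Λ G g W w A B p q κ) : (0 : ℝ) < G.R :=
  (mul_pos h.W0 h.r0).trans_le h.gok.lo
/-- `r / R ≤ 1 / W` -/
theorem rR (h : Ctx Λ G g W w A B p q κ) : (G.r : ℝ) / G.R ≤ 1 / W := by
  rw [div_le_div_iff₀ h.R0 h.W0]; linarith [h.gok.lo]
theorem lam0 (_ : Ctx Λ G g W w A B p q κ) : 0 ≤ G.lam g := (exp_pos _).le

theorem br_mul (h : Ctx Λ G g W w A B p q κ) (hu : ∀ a, |u a| ≤ U) (hv : ∀ b, |v b| ≤ V)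
    (iu : Iv G.In u) (iv : Iv G.Ou v) : br (mub A B (G.nu Λ)) (fun a b => u a * v b) =
      Ex (rho Λ G) fun s => u (G.dat s).1 * v (G.dat s).2 :=
  h.bar _ (U * V) (fun a b => abs_mul_le' (hu a) (hv b)) (fun i a b => by rw [h.isI.1, iu])
    fun i a b => by rw [h.isO.1, iv]

theorem br_fst (h : Ctx Λ G g W w A B p q κ) (hu : ∀ a, |u a| ≤ U) (iu : Iv G.In u) :
    br (mub A B (G.nu Λ)) (fun a _ => u a) = Ex (rho Λ G) fun s => u (G.dat s).1 :=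
  h.bar _ U (fun a _ => hu a) (fun i a b => by rw [h.isI.1, iu]) fun _ _ _ => rfl

theorem br_snd (h : Ctx Λ G g W w A B p q κ) (hv : ∀ b, |v b| ≤ V) (iv : Iv G.Ou v) :
    br (mub A B (G.nu Λ)) (fun _ b => v b) = Ex (rho Λ G) fun s => v (G.dat s).2 :=
  h.bar _ V (fun _ b => hv b) (fun _ _ _ => rfl) fun i a b => by rw [h.isO.1, iv]

theorem d1 {β : Type*} {F : Cfg Pt → β} (hF : Dep G.In F) (s : Cfg Pt) : F (G.dat s).1 = F s :=
  res_of hF s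
theorem d2 {β : Type*} {F : Cfg Pt → β} (hF : Dep G.Ou F) (s : Cfg Pt) : F (G.dat s).2 = F s :=
  res_of hF s

theorem iv_tcA (h : Ctx Λ G g W w A B p q κ) (iu : Iv G.In u) : Iv G.In (tc A u) := fun i a => by
  rw [tc, tc, iu, ← h.isI.1, ind_congr (A.T_s i a)]
theorem iv_tcB (h : Ctx Λ G g W w A B p q κ) (iu : Iv G.Ou u) : Iv G.Ou (tc B u) := fun i a => by
  rw [tc, tc, iu, ← h.isO.1, ind_congr (B.T_s i a)]

/-- functions of the level modulo `1` -/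
theorem iv_H (h : Ctx Λ G g W w A B p q κ) {f : ℝ → ℝ} (hf : ∀ t (i : ℤ), f (t + i * (2 * π)) = f t) :
    Iv G.In fun a => f (2 * π * A.H a) := fun i a => by
  dsimp only; rw [← h.isI.1, A.H_s, ← hf (2 * π * A.H a) i]; congr 1; ring
theorem iv_t (h : Ctx Λ G g W w A B p q κ) {f : ℝ → ℝ} (hf : ∀ t (i : ℤ), f (t + i * (2 * π)) = f t) :
    Iv G.Ou fun a => f (2 * π * B.H a) := fun i a => by
  dsimp only; rw [← h.isO.1, B.H_s, ← hf (2 * π * B.H a) i]; congr 1; ring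

theorem H_dat (h : Ctx Λ G g W w A B p q κ) (s : Cfg Pt) : A.H (G.dat s).1 = pr G.eq s := by
  rw [h.isI.2.2]
  exact d1 (F := fun s => pr G.eq s) (Dep.pr fun x hx => h.alg.eq_sup x fun h' => hx (sub_In h.gok h')) s
theorem t_dat (h : Ctx Λ G g W w A B p q κ) (s : Cfg Pt) : B.H (G.dat s).2 = pr G.te s := by
  rw [h.isO.2.2]
  exact d2 (F := fun s => pr G.te s) (Dep.pr fun x hx => h.alg.te_sup x fun h' => hx (sub_Ou h.gok h')) s

/-- bounded gradient observables -/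
theorem br_FF (h : Ctx Λ G g W w A B p q κ) (dF : DepG G.In F) (hF : ∀ s, |F s| ≤ N) (dφ : DepG G.Ou φ)
    (hφ : ∀ s, |φ s| ≤ M) :
    br (mub A B (G.nu Λ)) (fun a b => F a * φ b) = G.EA Λ fun s => F s * φ s := by
  rw [h.br_mul hF hφ (iv_of dF) (iv_of dφ)]; simp only [d1 dF.dep, d2 dφ.dep]; rfl
theorem br_F (h : Ctx Λ G g W w A B p q κ) (dF : DepG G.In F) (hF : ∀ s, |F s| ≤ N) :
    br (mub A B (G.nu Λ)) (fun a _ => F a) = G.EA Λ F := by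
  rw [h.br_fst hF (iv_of dF)]; simp only [d1 dF.dep]; rfl
theorem br_φ (h : Ctx Λ G g W w A B p q κ) (dφ : DepG G.Ou φ) (hφ : ∀ s, |φ s| ≤ M) :
    br (mub A B (G.nu Λ)) (fun _ b => φ b) = G.EA Λ φ := by
  rw [h.br_snd hφ (iv_of dφ)]; simp only [d2 dφ.dep]; rfl

/-- `F · f (2 π H)` with `f = sin, cos` -/
theorem br_FH (h : Ctx Λ G g W w A B p q κ) (dF : DepG G.In F) (hF : ∀ s, |F s| ≤ N) {f : ℝ → ℝ}
    (hf : ∀ t (i : ℤ), f (t + i * (2 * π)) = f t) (h1 : ∀ t, |f t| ≤ 1) :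
    br (mub A B (G.nu Λ)) (fun a _ => F a * f (2 * π * A.H a)) =
      G.EA Λ fun s => F s * f (2 * π * pr G.eq s) := by
  rw [h.br_fst (u := fun a => F a * f (2 * π * A.H a)) (fun a => abs_mul_le' (hF a) (h1 _))
    ((iv_of dF).mul (h.iv_H hf))]
  simp only [d1 dF.dep, h.H_dat]; rfl

/-- `f (2 π t) · φ`, with `t` replaced by the harmonic measure -/
theorem br_tφ (h : Ctx Λ G g W w A B p q κ) (dφ : DepG G.Ou φ) (hφ : ∀ s, |φ s| ≤ M) {f : ℝ → ℝ}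
    (hf : ∀ t (i : ℤ), f (t + i * (2 * π)) = f t) (h1 : ∀ t, |f t| ≤ 1)
    (h2 : ∀ t t', |f t - f t'| ≤ |t - t'|) :
    |br (mub A B (G.nu Λ)) (fun _ b => f (2 * π * B.H b) * φ b) -
      G.EA Λ fun s => f (2 * π * pr (hm 0 G.R) s) * φ s| ≤ 7 * M * (w / W) := by
  have hM : 0 ≤ M := (abs_nonneg _).trans (hφ 0)
  rw [h.br_snd (v := fun b => f (2 * π * B.H b) * φ b) (fun a => abs_mul_le' (h1 _) (hφ a))
    ((h.iv_t hf).mul (iv_of dφ))]
  simp only [d2 dφ.dep, h.t_dat]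
  rw [EA_eq, ← Ex_sub (h.wt.ig_bdd fun a => abs_mul_le' (h1 _) (hφ a))
    (h.wt.ig_bdd fun a => abs_mul_le' (h1 _) (hφ a))]
  refine (h.m_t.of_le h.wt (by positivity) fun s => ?_).abs_le h.wt
  rw [← sub_mul, mul_right_comm 7 M]
  refine abs_mul_le' ((h2 _ _).trans ?_) (hφ s)
  rw [← mul_sub, abs_mul, abs_of_pos (by positivity : 0 < 2 * π)]
  exact mul_le_mul_of_nonneg_right (by linarith [pi_lt_d2]) (abs_nonneg _)

theorem badA (h : Ctx Λ G g W w A B p q κ) :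
    Pr (rho Λ G) (fun s => ¬ A.T (G.dat s).1) ≤ (1 / W ^ 5) ^ 2 :=
  (h.wt.pr_mono fun _ _ h1 h2 => h1 h2.1).trans h.bad
theorem badB (h : Ctx Λ G g W w A B p q κ) :
    Pr (rho Λ G) (fun s => ¬ B.T (G.dat s).2) ≤ (1 / W ^ 5) ^ 2 :=
  (h.wt.pr_mono fun _ _ h1 h2 => h1 h2.2).trans h.bad

/-- inner truncated observable -/
theorem br_tcA (h : Ctx Λ G g W w A B p q κ) (dF : DepG G.In F) (hF : ∀ s, |F s| ≤ N) (dX : DepG G.In X)
    (hU : 0 ≤ U) (hX : ∀ a, A.T a → |X a| ≤ U) (mX : L2 (rho Λ G) X x) :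
    |br (mub A B (G.nu Λ)) (fun a _ => F a * tc A X a) - G.EA Λ fun s => F s * X s| ≤
      N * x * (1 / W ^ 5) := by
  have hN : 0 ≤ N := (abs_nonneg _).trans (hF 0)
  have := h.W0
  rw [h.br_fst (u := fun a => F a * tc A X a) (fun a => abs_mul_le' (hF a) (abs_tc hU hX a))
    ((iv_of dF).mul (h.iv_tcA (iv_of dX)))]
  simp only [tc, d1 dF.dep, d1 dX.dep, mul_left_comm (F _)]
  exact (mX.bdd_mul h.wt hN hF).cut h.wt (by positivity) h.badA

/-- outer truncated observable against an inner one -/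
theorem br_tcAB (h : Ctx Λ G g W w A B p q κ) (dF : DepG G.In F) (hF : ∀ s, |F s| ≤ N)
    (dφ : DepG G.Ou φ) (hφ : ∀ s, |φ s| ≤ M) (dX : DepG G.Ou X) (hU : 0 ≤ U)
    (hX : ∀ a, B.T a → |X a| ≤ U) (mX : L2 (rho Λ G) X x) :
    |br (mub A B (G.nu Λ)) (fun a b => F a * (tc B X b * φ b)) - G.EA Λ fun s => F s * (X s * φ s)| ≤
      N * (x * M) * (1 / W ^ 5) := by
  have hN : 0 ≤ N := (abs_nonneg _).trans (hF 0)
  have hM : 0 ≤ M := (abs_nonneg _).trans (hφ 0)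
  have := h.W0
  rw [h.br_mul (v := fun b => tc B X b * φ b) hF (fun a => abs_mul_le' (abs_tc hU hX a) (hφ a))
    (iv_of dF) ((h.iv_tcB (iv_of dX)).mul (iv_of dφ))]
  simp only [tc, d1 dF.dep, d2 dX.dep, d2 dφ.dep, mul_assoc, mul_left_comm (F _) (ind _)]
  rw [← mul_assoc x, ← mul_assoc N]
  exact ((mX.mul_bdd h.wt hM hφ).bdd_mul h.wt hN hF).cut h.wt (by positivity) h.badB

/-- outer truncated observable -/
theorem br_tcB (h : Ctx Λ G g W w A B p q κ) (dφ : DepG G.Ou φ) (hφ : ∀ s, |φ s| ≤ M)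
    (dX : DepG G.Ou X) (hU : 0 ≤ U) (hX : ∀ a, B.T a → |X a| ≤ U) (mX : L2 (rho Λ G) X x) :
    |br (mub A B (G.nu Λ)) (fun _ b => tc B X b * φ b) - G.EA Λ fun s => X s * φ s| ≤
      x * M * (1 / W ^ 5) := by
  have := h.br_tcAB (F := fun _ => 1) (N := 1) (DepG.const _ _) (by simp) dφ hφ dX hU hX mX
  simpa only [one_mul] using this

theorem br_tcB' (h : Ctx Λ G g W w A B p q κ) (dX : DepG G.Ou X) (hU : 0 ≤ U)
    (hX : ∀ a, B.T a → |X a| ≤ U) (mX : L2 (rho Λ G) X x) :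
    |br (mub A B (G.nu Λ)) (fun _ b => tc B X b) - G.EA Λ X| ≤ x * (1 / W ^ 5) := by
  have := h.br_tcB (φ := fun _ => 1) (M := 1) (DepG.const _ _) (by simp) dX hU hX mX
  simpa only [mul_one] using this

theorem abs_EA (h : Ctx Λ G g W w A B p q κ) (hF : ∀ s, |F s| ≤ N) : |G.EA Λ F| ≤ N :=
  h.wt.abs_ex_le fun s _ => hF s

/-- the hypothesis `hy` of `Sec.odd'`, `Sec.even` -/
theorem hy (h : Ctx Λ G g W w A B p q κ) (a b : Cfg Pt) (ha : p a ≠ 0) (hb : q b ≠ 0) :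
    |G.y0 a b / g - ∑ i, tc A (G.yi g i) a * tc B (G.di i) b| ≤ 2 * w / W ^ 2 := by
  simp only [tc_of _ (h.pT a ha), tc_of _ (h.qT b hb)]
  exact h.y2 a b (h.pT a ha) (h.qT b hb)

theorem ng (h : Ctx Λ G g W w A B p q κ) (a : Cfg Pt) : A.ng a = -a := h.isI.2.1 a

end Ctx

end Crest.Agent.T145.Kr.H93
end

-- ▼ part T145/KrHolB_93
section

/-!
# Row 145, module KERNEL, HOL: the fields `any`, `anyd`, `anydd`, `odd`; construction of `Ctx` (helper93)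
-/

set_option autoImplicit false

namespace Crest.Agent.T145.Kr.H93

open Finset Real KrA

namespace Ctx
variable {Λ : Lat} {G : Gm} {g W w : ℝ} {A B : Act (Cfg Pt)} {p q : Cfg Pt → ℝ}
  {κ : Cfg Pt → Cfg Pt → ℝ} {F φ X : Cfg Pt → ℝ} {U N M x : ℝ}

theorem mon (h : Ctx Λ G g W w A B p q κ) {a b a' b' : ℕ} (ha : a ≤ a') (hb : b' ≤ b) :
    w ^ a / W ^ b ≤ w ^ a' / W ^ b' := by
  have := h.W0; have := h.w0
  exact div_le_div₀ (by positivity) (pow_le_pow_right₀ (by linarith [h.w1]) ha) (by positivity)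
    (pow_le_pow_right₀ (by linarith [h.gok.hW]) hb)

theorem fin (h : Ctx Λ G g W w A B p q κ) (a b : ℕ) :
    1000 * (w ^ a / W ^ b) ≤ w ^ (a + 1) / W ^ b := by
  have := h.W0; have := h.w0
  rw [← mul_div_assoc, pow_succ, mul_comm]
  exact div_le_div_of_nonneg_right (mul_le_mul_of_nonneg_left h.w1 (by positivity)) (by positivity)

theorem eta (h : Ctx Λ G g W w A B p q κ) : 1 / W ^ 9 + 3 * (w ^ 4 / W) ≤ 4 * (w ^ 4 / W) := by
  have := h.mon (a := 0) (b := 9) (a' := 4) (b' := 1) (by norm_num) (by norm_num)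
  rw [pow_zero, pow_one] at this; linarith

theorem any (h : Ctx Λ G g W w A B p q κ) (dF : DepG G.In F) (hF : ∀ s, |F s| ≤ N) (dφ : DepG G.Ou φ)
    (hφ : ∀ s, |φ s| ≤ M) :
    |G.EA Λ (fun s => F s * φ s) - G.EA Λ F * G.EA Λ φ| ≤ w ^ 6 / W * (N * M) := by
  have hN : 0 ≤ N := (abs_nonneg _).trans (hF 0)
  have hM : 0 ≤ M := (abs_nonneg _).trans (hφ 0)
  have k := Sec.any h.sec.toFac hN hF hM hφ
  rw [h.br_FF dF hF dφ hφ, h.br_F dF hF, h.br_φ dφ hφ] at k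
  refine k.trans (mul_le_mul_of_nonneg_right ?_ (mul_nonneg hN hM))
  have h1 := h.eta
  have h2 := h.fin 4 1
  have h3 := h.mon (a := 4 + 1) (b := 1) (a' := 6) (b' := 1) (by norm_num) le_rfl
  have h4 : 0 ≤ w ^ 4 / W := by have := h.W0; positivity
  rw [pow_one] at h2 h3; linarith

theorem anyX (h : Ctx Λ G g W w A B p q κ) (dF : DepG G.In F) (hF : ∀ s, |F s| ≤ N)
    (dφ : DepG G.Ou φ) (hφ : ∀ s, |φ s| ≤ M) (dX : DepG G.Ou X) (hU : 0 ≤ U)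
    (hX : ∀ a, B.T a → |X a| ≤ w ^ 2 * U) (mX : L2 (rho Λ G) X (w * U)) :
    |G.EA Λ (fun s => F s * (X s * φ s)) - G.EA Λ F * G.EA Λ fun s => X s * φ s| ≤
      w ^ 8 / W * U * (N * M) := by
  have hN : 0 ≤ N := (abs_nonneg _).trans (hF 0)
  have hM : 0 ≤ M := (abs_nonneg _).trans (hφ 0)
  have hW := h.W0
  have hw := h.w0
  have hU' : 0 ≤ w ^ 2 * U := by positivity
  have k := Sec.any h.sec.toFac hN hF (φ := fun b => tc B X b * φ b) (mul_nonneg hU' hM)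
    fun b => abs_mul_le' (abs_tc hU' hX b) (hφ b)
  rw [h.br_F dF hF] at k
  have k1 := h.br_tcAB dF hF dφ hφ dX hU' hX mX
  have k2 := abs_mul_le' (h.abs_EA hF) (h.br_tcB dφ hφ dX hU' hX mX)
  rw [mul_sub] at k2
  have e : 8 * (1 / W ^ 9 + 3 * (w ^ 4 / W)) * w ^ 2 + 2 * (w / W ^ 5) ≤ w ^ 8 / W := by
    have h1 := mul_le_mul_of_nonneg_right h.eta (sq_nonneg w)
    have h2 := h.fin 6 1
    have h3 := h.mon (a := 6 + 1) (b := 1) (a' := 8) (b' := 1) (by norm_num) le_rfl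
    have h4 := h.mon (a := 1) (b := 5) (a' := 6) (b' := 1) (by norm_num) (by norm_num)
    have h5 : w ^ 4 / W * w ^ 2 = w ^ 6 / W := by ring
    have h6 : 0 ≤ w ^ 6 / W := by positivity
    simp only [pow_one] at h2 h3 h4; nlinarith
  have e' := mul_le_mul_of_nonneg_right e (mul_nonneg hU (mul_nonneg hN hM))
  have e1 : N * (w * U * M) * (1 / W ^ 5) = w / W ^ 5 * (U * (N * M)) := by ring
  have e2 : N * (w * U * M * (1 / W ^ 5)) = w / W ^ 5 * (U * (N * M)) := by ring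
  rw [e1] at k1; rw [e2] at k2
  rw [abs_le] at *
  constructor <;> linarith [k.1, k.2, k1.1, k1.2, k2.1, k2.2]

theorem anyd (h : Ctx Λ G g W w A B p q κ) (dF : DepG G.In F) (hF : ∀ s, |F s| ≤ N)
    (dφ : DepG G.Ou φ) (hφ : ∀ s, |φ s| ≤ M) (i : Fin 2) :
    |G.EA Λ (fun s => F s * (G.di i s * φ s)) - G.EA Λ F * G.EA Λ fun s => G.di i s * φ s| ≤
      w ^ 8 / W / G.R * (N * M) := by
  have hR := h.R0
  have hw := h.w0
  rw [div_eq_mul_one_div (w ^ 8 / W)]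
  refine h.anyX dF hF dφ hφ (h.ddi i) (by positivity) (fun a ha => (h.di a i ha).trans ?_)
    (by rw [mul_one_div]; exact h.m_d i)
  rw [mul_one_div]
  exact div_le_div_of_nonneg_right (by nlinarith [h.w1]) hR.le

theorem anydd (h : Ctx Λ G g W w A B p q κ) (dF : DepG G.In F) (hF : ∀ s, |F s| ≤ N)
    (dφ : DepG G.Ou φ) (hφ : ∀ s, |φ s| ≤ M) (i j : Fin 2) :
    |G.EA Λ (fun s => F s * (G.di i s * G.di j s * φ s)) -
      G.EA Λ F * G.EA Λ fun s => G.di i s * G.di j s * φ s| ≤ w ^ 8 / W / (G.R : ℝ) ^ 2 * (N * M) := by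
  have hR := h.R0
  rw [div_eq_mul_one_div (w ^ 8 / W)]
  exact h.anyX dF hF dφ hφ ((h.ddi i).mul (h.ddi j)) (by positivity)
    (fun a ha => (abs_mul_le' (h.di a i ha) (h.di a j ha)).trans_eq (by ring))
    (by rw [mul_one_div]; exact h.m_dd i j)

theorem odd (h : Ctx Λ G g W w A B p q κ) (dF : DepG G.In F) (hF : ∀ s, |F s| ≤ N)
    (dφ : DepG G.Ou φ) (hφ : ∀ s, |φ s| ≤ M) (ho : OddF F) (h4 : ∀ k s, F (ga k s) = F s) :
    |G.EA Λ (fun s => F s * φ s) - 2 * G.lam g * G.EA Λ (fun s => F s * sn G.eq s) *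
      G.EA Λ fun s => sn (hm 0 G.R) s * φ s| ≤ w ^ 10 / W ^ 3 * (N * M) := by
  have hN : 0 ≤ N := (abs_nonneg _).trans (hF 0)
  have hM : 0 ≤ M := (abs_nonneg _).trans (hφ 0)
  have hW := h.W0
  have hw := h.w0
  have hl := h.lam0
  have k := h.sec.odd univ univ_nonempty ga (fun k _ => h.pga k) (β₃ := w / W ^ 3) (by positivity)
    (fun a b ha hb => (h.y3 a b (h.pT a ha) (h.qT b hb)).trans (by
      have : 0 ≤ w / W ^ 3 := by positivity
      simp only [card_univ, Fintype.card_prod, Fintype.card_fin]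
      rw [mul_div_assoc]; push_cast; linarith))
    hN hF (fun a => by rw [h.ng, ho]) (fun k _ => h4 k) hM hφ
  rw [h.br_FF dF hF dφ hφ, h.br_FH dF hF sin_add_int_mul_two_pi abs_sin_le_one] at k
  have k1 := h.br_tφ dφ hφ sin_add_int_mul_two_pi abs_sin_le_one abs_sin_sub_sin_le
  have k2 : |G.EA Λ fun s => F s * sin (2 * π * pr G.eq s)| ≤ N :=
    h.abs_EA fun s => by simpa using abs_mul_le' (hF s) (abs_sin_le_one _)
  have k3 := abs_mul_le' (abs_mul_le' (abs_of_nonneg (by positivity : 0 ≤ 2 * G.lam g)).le k2) k1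
  rw [mul_sub] at k3
  have e : 1 / W ^ 9 + 3 * (w ^ 8 / W ^ 3 + w / W ^ 3) + 14 * G.lam g * (1 / W ^ 9 + 3 * (w ^ 4 / W)) +
      14 * (G.lam g * (w / W)) ≤ w ^ 10 / W ^ 3 := by
    have h1 : G.lam g * (1 / W ^ 9 + 3 * (w ^ 4 / W)) ≤ w ^ 5 / W ^ 2 * (4 * (w ^ 4 / W)) :=
      mul_le_mul h.lam h.eta (by positivity) (by positivity)
    have h2 : G.lam g * (w / W) ≤ w ^ 5 / W ^ 2 * (w / W) :=
      mul_le_mul_of_nonneg_right h.lam (by positivity)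
    have h3 := h.fin 9 3
    have h5 := h.mon (a := 0) (b := 9) (a' := 9) (b' := 3) (by norm_num) (by norm_num)
    have h6 := h.mon (a := 8) (b := 3) (a' := 9) (b' := 3) (by norm_num) le_rfl
    have h7 := h.mon (a := 1) (b := 3) (a' := 9) (b' := 3) (by norm_num) le_rfl
    have h8 := h.mon (a := 6) (b := 3) (a' := 9) (b' := 3) (by norm_num) le_rfl
    have h9 : 0 ≤ w ^ 9 / W ^ 3 := by positivity
    have e1 : w ^ 5 / W ^ 2 * (4 * (w ^ 4 / W)) = 4 * (w ^ 9 / W ^ 3) := by ring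
    have e2 : w ^ 5 / W ^ 2 * (w / W) = w ^ 6 / W ^ 3 := by ring
    simp only [pow_zero, pow_one] at h5 h7
    rw [e1] at h1; rw [e2] at h2; linarith
  have e' := mul_le_mul_of_nonneg_right e (mul_nonneg hN hM)
  simp only [sn]
  rw [abs_le] at *
  constructor <;> linarith [k.1, k.2, k3.1, k3.2]

end Ctx

theorem rp {W ε x : ℝ} (hW : 0 < W) (a b : ℕ) (hx : x = ε / 4 * a - b) :
    W ^ x = (W ^ (ε / 4)) ^ a / W ^ b := by
  rw [hx, rpow_sub hW, rpow_mul hW.le, rpow_natCast, rpow_natCast]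

theorem depG_of {S T U : Finset Pt} {f : Pt → ℝ} {n : ℝ} (hS : Sup S f) (h1 : S ⊆ T)
    (hf : F2 (Pot.nL.edI U) f n) : DepG T fun s => pr f s := by
  refine DepG.pr (fun x hx => hS x fun h => hx (h1 h)) ?_
  rw [sum_subset (subset_union_left (s₂ := U)) fun x _ hx => hS x fun h => hx (h1 h)]
  obtain ⟨ψ, rfl, -⟩ := hf
  exact sum_dv _ fun e he => ⟨mem_union_right _ (Lat.mem_edI.1 he).2.1,
    mem_union_right _ (Lat.mem_edI.1 he).2.2⟩

theorem om_ok {Λ : Lat} {G : Gm} {W : ℝ} (hΛ : Λ.Ok) (h : G.Ok W) :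
    (Nc.pn (Λ.N G.Om) G.Om (Nc.rs G.Om)).Ctr ∧ (Nc.pn (Λ.N G.Om) G.Om (Nc.rs G.Om)).Anch := by
  have h1 : G.c < G.R₂ := by have := h.hc; have := h.hr; have := r_le_R h; have := h.out; omega
  obtain ⟨r, hr, e⟩ := Nc.rs_spec (U := G.Om) (Nc.Geo.an_nonempty 0 h1)
  exact ⟨Nc.pn_ctr (hΛ.ctr_N _).1 _ _, Nc.pn_anch ((Nc.Geo.inL_N subset_rfl).cn (Nc.Geo.cnL_an hΛ 0 h1))
    hr (e ▸ mem_singleton_self r)⟩

/-- moments in the free annulus -/
theorem mom (hM : MomStmt) (F : Fa) (k : ℕ) : ∃ C : ℝ, 0 < C ∧ ∀ Λ, F.Mem Λ → ∀ (G : Gm) (W : ℝ),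
    G.Ok W → ∀ (f : Pt → ℝ) (n : ℝ), 0 < n → (G.Ic f n ∨ G.Oc f n) →
      Ig (rho Λ G) (fun s => pr f s ^ (2 * k)) ∧ Ex (rho Λ G) (fun s => pr f s ^ (2 * k)) ≤ C * n ^ k := by
  obtain ⟨C, hC, H⟩ := hM F k
  refine ⟨C, hC, fun Λ hΛ G W h f n hn hf => ?_⟩
  obtain ⟨hc, ha⟩ := om_ok hΛ.ok h
  have key : ∀ U ⊆ G.Om, F2 (Pot.nL.edI U) f n → Ex (rho Λ G) (fun s => pr f s ^ (2 * k)) ≤ C * n ^ k :=
    fun U hU hf => (H Λ hΛ _ (Pot.nL.edI U) Unit {()} (fun _ => f) n hc ha (fun e he => by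
      have := Lat.mem_edI.1 he
      exact mem_inn.2 ⟨Lat.mem_edI.2 ⟨Pot.nn_subset hΛ.ok this.1, hU this.2.1, hU this.2.2⟩,
        hU this.2.1, hU this.2.2⟩) (fun _ _ => rfl) hn fun _ _ => hf).1 () (mem_singleton_self _)
  have := h.hc; have := h.hr; have := r_le_R h; have := h.out
  refine ⟨(hc.cen ha).ig ((Tame.hom _).pow _), hf.elim (fun hf => key _ ?_ hf.2) fun hf => key _ ?_ hf.2⟩ <;>
    exact Nc.Geo.an_mono 0 (by omega) (by omega)

/-- construction of the context -/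
theorem ctx (hB : BarStmt) (h3 : K3Stmt) (hM : MomStmt) (hA : AlgStmt) (F : Fa) {ε : ℝ} (hε : 0 < ε)
    (hε' : ε ≤ 1 / 4) : ∃ W₁ : ℝ, ∀ W, W₁ ≤ W → ∀ Λ, F.Mem Λ → ∀ (G : Gm) (g : ℝ), G.Ok W →
      2 - ε ≤ π * g → G.Ksh Λ g W ε → ∃ A B p q κ, Ctx Λ G g W (W ^ (ε / 4)) A B p q κ := by
  obtain ⟨C₃, c3, H3⟩ := h3
  obtain ⟨C₁, c1, H1⟩ := mom hM F 1
  obtain ⟨C₂, c2, H2⟩ := mom hM F 2
  set D : ℝ := 1000 + 16 * (C₁ * C₃ + C₂ * C₃ ^ 2) with hD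
  have p1 : 0 < C₁ * C₃ := by positivity
  have p2 : 0 < C₂ * C₃ ^ 2 := by positivity
  refine ⟨D ^ (ε / 4)⁻¹, fun W hW Λ hΛ G g h hg ⟨A₂, A, B, p, q, κ, hT, hS, pga, pT, qT, hl⟩ => ?_⟩
  have W1 : 1 ≤ W := by linarith [h.hW]
  have W0 : 0 < W := by linarith
  have hw : D ≤ W ^ (ε / 4) := by
    rwa [← rpow_inv_le_iff_of_pos (by positivity) W0.le (by positivity)]
  set w := W ^ (ε / 4) with hwd
  have w1 : 1000 ≤ w := by linarith
  have d1 : 16 * (C₁ * C₃) ≤ w ^ 2 := by nlinarith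
  have d2 : 16 * (C₂ * C₃ ^ 2) ≤ w ^ 2 := by nlinarith
  have g1 : 1 / 2 ≤ g := by nlinarith [pi_lt_d2, pi_pos]
  have g0 : 0 < g := by linarith
  have dv2 : ∀ {x y : ℝ}, |x| ≤ y → |x / g| ≤ 2 * y := fun {x y} hx => by
    rw [abs_div, abs_of_pos g0, div_le_iff₀ g0]; nlinarith [abs_nonneg x]
  have r0 : (0 : ℝ) < G.r := by have := h.hr; exact_mod_cast (by omega : 0 < G.r)
  have R0 : (0 : ℝ) < G.R := (mul_pos W0 r0).trans_le h.lo
  obtain ⟨-, K2, K3, -⟩ := H3 G W h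
  obtain ⟨hc, ha⟩ := om_ok hΛ.ok h
  have wt : Wt (rho Λ G) := (hc.cen ha).wt
  have l2 : ∀ {f : Pt → ℝ} {v : ℝ}, 0 < v → (G.Ic f (C₃ * v ^ 2) ∨ G.Oc f (C₃ * v ^ 2)) →
      L2 (rho Λ G) (fun s => pr f s) (w / 2 * v) := fun {f v} hv hf => by
    obtain ⟨i, b⟩ := H1 Λ hΛ G W h f _ (by positivity) hf
    exact ⟨i, by positivity, b.trans (by nlinarith [sq_nonneg v])⟩
  have l4 : ∀ {f f' : Pt → ℝ} {v : ℝ}, 0 < v → (G.Ic f (C₃ * v ^ 2) ∨ G.Oc f (C₃ * v ^ 2)) →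
      (G.Ic f' (C₃ * v ^ 2) ∨ G.Oc f' (C₃ * v ^ 2)) →
      L2 (rho Λ G) (fun s => pr f s * pr f' s) (w / 4 * v ^ 2) := fun {f f' v} hv hf hf' => by
    obtain ⟨i, b⟩ := H2 Λ hΛ G W h f _ (by positivity) hf
    obtain ⟨i', b'⟩ := H2 Λ hΛ G W h f' _ (by positivity) hf'
    have : C₂ * (C₃ * v ^ 2) ^ 2 ≤ (w / 4 * v ^ 2) ^ 2 := by nlinarith [sq_nonneg (v ^ 2)]
    exact L2.of_four wt (by positivity) i i' (b.trans this) (b'.trans this)
  have eR : C₃ / (G.R : ℝ) ^ 2 = C₃ * (1 / G.R) ^ 2 := by ring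
  have eW : C₃ / W ^ 2 = C₃ * (1 / W) ^ 2 := by ring
  rw [eR] at K2; rw [eW] at K3
  refine ⟨A, B, p, q, κ, hA G W h, h, wt, w1, ?_, hT.isI, hT.isO, ?_, pga, pT, qT, ?_,
    (hB Λ G W g A B hΛ.ok h hT.isI hT.isO).2.2.2.2, ?_, fun a b ha hb => ?_, fun a b ha hb => ?_,
    fun a i ha => ?_, fun b i hb => hT.di b i hb,
    fun i => (depG_of (K2 i).1.1 (sub_In h) (K2 i).1.2).comp (· / g),
    fun i => depG_of (K2 i).2.1 (sub_Ou h) (K2 i).2.2, fun i => ?_, fun i j => ?_, fun i => ?_,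
    fun i j => ?_, ?_⟩
  · have := rp (ε := ε) W0 16 0 rfl
    rw [pow_zero, div_one] at this
    rw [← this]
    exact (rpow_le_rpow_of_exponent_le W1 (by push_cast; linarith)).trans_eq (rpow_one W)
  · rwa [rp (ε := ε) W0 0 9 (by simp), rp (x := -1 + ε) (ε := ε) W0 4 1 (by push_cast; ring),
      rp (x := -3 + 2 * ε) (ε := ε) W0 8 3 (by push_cast; ring),
      rp (x := -1 + ε / 2) (ε := ε) W0 2 1 (by push_cast; ring), pow_zero, pow_one] at hS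
  · rwa [rp (ε := ε) W0 5 2 (by push_cast; ring)] at hl
  · have := hT.bad
    rw [rp (ε := ε) W0 0 10 (by simp)] at this
    exact this.trans_eq (by ring)
  · have := dv2 (hT.y2 a b ha hb)
    rw [rp (ε := ε) W0 1 2 (by push_cast; ring), pow_one, sub_div, sum_div] at this
    simpa only [Gm.yi, div_mul_eq_mul_div, mul_div_assoc] using this
  · have := dv2 (hT.y3 a b ha hb)
    rw [rp (ε := ε) W0 1 3 (by push_cast; ring), pow_one, sum_div] at this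
    simpa only [mul_div_assoc] using this
  · exact (dv2 (hT.yi a i ha)).trans_eq (by ring)
  · exact ((l2 r0 (Or.inl (K2 i).1)).of_le wt zero_le_two fun s => dv2 le_rfl).mono (le_of_eq (by ring))
  · refine ((l4 r0 (Or.inl (K2 i).1) (Or.inl (K2 j).1)).of_le wt zero_le_four fun s => ?_).mono
      (le_of_eq (by ring))
    exact (abs_mul_le' (dv2 le_rfl) (dv2 le_rfl)).trans_eq (by rw [abs_mul]; ring)
  · exact (l2 (by positivity) (Or.inr (K2 i).2)).mono (by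
      rw [mul_one_div]; exact div_le_div_of_nonneg_right (by linarith) R0.le)
  · exact (l4 (by positivity) (Or.inr (K2 i).2) (Or.inr (K2 j).2)).mono (by
      rw [div_pow, one_pow, mul_one_div]; exact div_le_div_of_nonneg_right (by linarith) (by positivity))
  · have := (l2 (by positivity) (Or.inr K3)).mono (v' := w / W) (by
      rw [mul_one_div]; exact div_le_div_of_nonneg_right (by linarith) W0.le)
    simpa only [pr_sub, AddMonoidHom.sub_apply] using this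

end Crest.Agent.T145.Kr.H93
end

-- ▼ part T145/KrHol_93
section

/-!
# Row 145, module KERNEL: `Kr.holStmt` (helper93)
-/

set_option autoImplicit false

namespace Crest.Agent.T145.Kr

open Finset Real KrA

namespace H93.Ctx
variable {Λ : Lat} {G : Gm} {g W w : ℝ} {A B : Act (Cfg Pt)} {p q : Cfg Pt → ℝ}
  {κ : Cfg Pt → Cfg Pt → ℝ} {F φ : Cfg Pt → ℝ} {N M : ℝ}

theorem yd (h : Ctx Λ G g W w A B p q κ) : 2 * w * G.r * (w / G.R) ≤ 2 * (w ^ 2 / W) := by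
  have := mul_le_mul_of_nonneg_left h.rR (by positivity : 0 ≤ 2 * w ^ 2)
  calc _ = 2 * w ^ 2 * (G.r / G.R) := by ring
    _ ≤ _ := this
    _ = _ := by ring


theorem vec93 (h : Ctx Λ G g W w A B p q κ) (dF : DepG G.In F) (hF : ∀ s, |F s| ≤ N)
    (dφ : DepG G.Ou φ) (hφ : ∀ s, |φ s| ≤ M) (ho : OddF F) :
    |G.EA Λ (fun s => F s * φ s) -
      ∑ i, G.EA Λ (fun s => F s * G.yi g i s) * G.EA Λ fun s => G.di i s * φ s| ≤
      w ^ 10 / W ^ 2 * (N * M) := by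
  have hN : 0 ≤ N := (abs_nonneg _).trans (hF 0)
  have hM : 0 ≤ M := (abs_nonneg _).trans (hφ 0)
  have hW := h.W0
  have hw := h.w0
  have hl := h.lam0
  have hr := h.r0
  have hR := h.R0
  have y0 : 0 ≤ 2 * w * G.r := by positivity
  have d0 : 0 ≤ w / G.R := by positivity
  have k := h.sec.odd' univ (yy := fun i => tc A (G.yi g i)) (d := fun i => tc B (G.di i)) y0 d0
    (by positivity : 0 ≤ 2 * w / W ^ 2) (fun i _ => abs_tc y0 fun a => h.yi a i)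
    (fun i _ => abs_tc d0 fun a => h.di a i) h.hy hN hF (fun a => by rw [h.ng, ho]) hM hφ
  rw [h.br_FF dF hF dφ hφ] at k
  have k1 := abs_mul_le' (abs_mul_le' (abs_of_nonneg (by positivity : 0 ≤ 2 * G.lam g)).le
    (h.sec.toFac.abs_br (Φ := fun a _ => F a * sin (2 * π * A.H a)) fun a _ =>
      abs_mul_le' (hF a) (abs_sin_le_one _)))
    (h.sec.toFac.abs_br (Φ := fun _ b => sin (2 * π * B.H b) * φ b) fun _ b =>
      abs_mul_le' (abs_sin_le_one _) (hφ b))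
  have k2 : ∀ i, |br (mub A B (G.nu Λ)) (fun a _ => F a * tc A (G.yi g i) a) *
      br (mub A B (G.nu Λ)) (fun _ b => tc B (G.di i) b * φ b) -
      G.EA Λ (fun s => F s * G.yi g i s) * G.EA Λ fun s => G.di i s * φ s| ≤
      3 * (w ^ 2 / W ^ 2) * (N * M) := fun i => by
    refine (abs_mul_sub (h.br_tcA dF hF (h.dyi i) y0 (fun a => h.yi a i) (h.m_y i))
      (h.br_tcB dφ hφ (h.ddi i) d0 (fun a => h.di a i) (h.m_d i))
      (h.sec.toFac.abs_br fun a _ => abs_mul_le' (hF a) (abs_tc y0 (fun a => h.yi a i) a))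
      (((h.m_d i).mul_bdd h.wt hM hφ).abs_le h.wt)).trans ?_
    have h1 := mul_le_mul_of_nonneg_right h.yd (by positivity : 0 ≤ 1 / W ^ 5)
    have h2 := h.mon (a := 2) (b := 6) (a' := 2) (b' := 2) le_rfl (by norm_num)
    calc _ = 3 / 2 * (2 * w * G.r * (w / G.R) * (1 / W ^ 5)) * (N * M) := by ring
      _ ≤ 3 / 2 * (2 * (w ^ 2 / W) * (1 / W ^ 5)) * (N * M) := by gcongr
      _ = 3 * (w ^ 2 / W ^ 6) * (N * M) := by ring
      _ ≤ _ := by gcongr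
  have e : 1 / W ^ 9 + 3 * (w ^ 8 / W ^ 3 + 2 * w / W ^ 2) + 7 * (1 / W ^ 9 + 3 * (w ^ 4 / W)) *
      (2 * G.lam g + 2 * (2 * w * G.r * (w / G.R))) + 2 * G.lam g + 6 * (w ^ 2 / W ^ 2) ≤
      w ^ 10 / W ^ 2 := by
    have h0 := h.mon (a := 5) (b := 2) (a' := 5) (b' := 1) le_rfl (by norm_num)
    have h0' := h.mon (a := 2) (b := 1) (a' := 5) (b' := 1) (by norm_num) le_rfl
    simp only [pow_one] at h0 h0'
    have h1 : (1 / W ^ 9 + 3 * (w ^ 4 / W)) * (2 * G.lam g + 2 * (2 * w * G.r * (w / G.R))) ≤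
        4 * (w ^ 4 / W) * (6 * (w ^ 5 / W)) :=
      mul_le_mul h.eta (by linarith [h.lam, h.yd]) (by positivity) (by positivity)
    have h3 := h.fin 9 2
    have h5 := h.mon (a := 0) (b := 9) (a' := 9) (b' := 2) (by norm_num) (by norm_num)
    have h6 := h.mon (a := 8) (b := 3) (a' := 9) (b' := 2) (by norm_num) (by norm_num)
    have h7 := h.mon (a := 1) (b := 2) (a' := 9) (b' := 2) (by norm_num) le_rfl
    have h8 := h.mon (a := 5) (b := 2) (a' := 9) (b' := 2) (by norm_num) le_rfl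
    have h9 := h.mon (a := 2) (b := 2) (a' := 9) (b' := 2) (by norm_num) le_rfl
    have h10 : 0 ≤ w ^ 9 / W ^ 2 := by positivity
    have e1 : 4 * (w ^ 4 / W) * (6 * (w ^ 5 / W)) = 24 * (w ^ 9 / W ^ 2) := by ring
    simp only [pow_zero, pow_one] at h5 h7
    rw [e1] at h1; rw [mul_div_assoc 2 w]; linarith [h.lam]
  have e' := mul_le_mul_of_nonneg_right e (mul_nonneg hN hM)
  have a0 := k2 0
  have a1 := k2 1
  simp only [Fin.sum_univ_two, card_univ, Fintype.card_fin, Nat.cast_ofNat] at k ⊢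
  rw [abs_le] at *
  constructor <;> linarith [k.1, k.2, k1.1, k1.2, a0.1, a0.2, a1.1, a1.2]

theorem even93 (h : Ctx Λ G g W w A B p q κ) (dF : DepG G.In F) (hF : ∀ s, |F s| ≤ N)
    (dφ : DepG G.Ou φ) (hφ : ∀ s, |φ s| ≤ M) (he : EvenF F) (h0 : G.EA Λ F = 0) :
    |G.EA Λ (fun s => F s * φ s) - 2 * G.lam g * G.EA Λ (fun s => F s * cs G.eq s) *
      (G.EA Λ (fun s => cs (hm 0 G.R) s * φ s) - G.EA Λ (cs (hm 0 G.R)) * G.EA Λ φ) -
      ∑ i, ∑ j, G.EA Λ (fun s => F s * (G.yi g i s * G.yi g j s)) / 2 *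
        (G.EA Λ (fun s => G.di i s * G.di j s * φ s) -
          G.EA Λ (fun s => G.di i s * G.di j s) * G.EA Λ φ)| ≤ w ^ 10 / W ^ 3 * (N * M) := by
  have hN : 0 ≤ N := (abs_nonneg _).trans (hF 0)
  have hM : 0 ≤ M := (abs_nonneg _).trans (hφ 0)
  have hW := h.W0
  have hw := h.w0
  have hl := h.lam0
  have hr := h.r0
  have hR := h.R0
  have y0 : 0 ≤ 2 * w * G.r := by positivity
  have d0 : 0 ≤ w / G.R := by positivity
  have k := h.sec.even univ (yy := fun i => tc A (G.yi g i)) (d := fun i => tc B (G.di i)) y0 d0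
    (by positivity : 0 ≤ 2 * w / W ^ 2) (fun i _ => abs_tc y0 fun a => h.yi a i)
    (fun i _ => abs_tc d0 fun a => h.di a i) h.hy hN hF (fun a => by rw [h.ng, he])
    (by rw [h.br_F dF hF, h0]) hM hφ
  rw [h.br_FF dF hF dφ hφ, h.br_FH dF hF cos_add_int_mul_two_pi abs_cos_le_one, h.br_φ dφ hφ,
    sum_product] at k
  simp only [tc_mul] at k
  have φ1 := h.abs_EA hφ
  have k1 := h.br_tφ dφ hφ cos_add_int_mul_two_pi abs_cos_le_one abs_cos_sub_cos_le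
  have k1' := h.br_tφ (φ := fun _ => 1) (M := 1) (DepG.const _ _) (by simp) cos_add_int_mul_two_pi
    abs_cos_le_one abs_cos_sub_cos_le
  simp only [mul_one] at k1'
  have k2 : |G.EA Λ fun s => F s * cos (2 * π * pr G.eq s)| ≤ N :=
    h.abs_EA fun s => by simpa using abs_mul_le' (hF s) (abs_cos_le_one _)
  have k3 := abs_mul_le' (abs_mul_le' (abs_of_nonneg (by positivity : 0 ≤ 2 * G.lam g)).le k2)
    ((abs_sub _ _).trans (add_le_add k1 (abs_mul_le' k1' φ1)))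
  have k4 : ∀ i j, |br (mub A B (G.nu Λ)) (fun a _ => F a * tc A (fun a => G.yi g i a * G.yi g j a) a) / 2 *
      (br (mub A B (G.nu Λ)) (fun _ b => tc B (fun b => G.di i b * G.di j b) b * φ b) -
        br (mub A B (G.nu Λ)) (fun _ b => tc B (fun b => G.di i b * G.di j b) b) * G.EA Λ φ) -
      G.EA Λ (fun s => F s * (G.yi g i s * G.yi g j s)) / 2 *
        (G.EA Λ (fun s => G.di i s * G.di j s * φ s) -
          G.EA Λ (fun s => G.di i s * G.di j s) * G.EA Λ φ)| ≤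
      10 * (w ^ 9 / W ^ 3) * (N * M) := fun i j => by
    have by2 : ∀ a, A.T a → |G.yi g i a * G.yi g j a| ≤ 2 * w * G.r * (2 * w * G.r) := fun a ha =>
      abs_mul_le' (h.yi a i ha) (h.yi a j ha)
    have bd2 : ∀ a, B.T a → |G.di i a * G.di j a| ≤ w / G.R * (w / G.R) := fun a ha =>
      abs_mul_le' (h.di a i ha) (h.di a j ha)
    have dd := (h.ddi i).mul (h.ddi j)
    have b1 := h.br_tcA dF hF ((h.dyi i).mul (h.dyi j)) (by positivity) by2 (h.m_yy i j)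
    have b2 := (abs_sub _ _).trans (add_le_add (h.br_tcB dφ hφ dd (by positivity) bd2 (h.m_dd i j))
      (abs_mul_le' (h.br_tcB' dd (by positivity) bd2 (h.m_dd i j)) φ1))
    have b3 := h.sec.toFac.abs_br (Φ := fun a _ => F a * tc A (fun a => G.yi g i a * G.yi g j a) a)
      fun a _ => abs_mul_le' (hF a) (abs_tc (by positivity) by2 a)
    have b4 := (abs_sub _ _).trans (add_le_add (((h.m_dd i j).mul_bdd h.wt hM hφ).abs_le h.wt)
      (abs_mul_le' ((h.m_dd i j).abs_le h.wt) φ1))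
    rw [sub_mul, sub_sub_sub_comm] at b2
    have b5 := abs_mul_sub b1 b2 b3 b4
    have h1 : ((G.r : ℝ) / G.R) ^ 2 ≤ (1 / W) ^ 2 := pow_le_pow_left₀ (by positivity) h.rR 2
    have h2 := h.mon (a := 3) (b := 7) (a' := 9) (b' := 3) (by norm_num) (by norm_num)
    have h3 := h.mon (a := 2) (b := 7) (a' := 9) (b' := 3) (by norm_num) (by norm_num)
    rw [div_mul_eq_mul_div, div_mul_eq_mul_div, ← sub_div, abs_div, abs_two]
    refine (half_le_self (abs_nonneg _)).trans (b5.trans ?_)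
    calc _ = (8 * w ^ 3 + 2 * w ^ 2) / W ^ 5 * (G.r / G.R) ^ 2 * (N * M) := by ring
      _ ≤ (8 * w ^ 3 + 2 * w ^ 2) / W ^ 5 * (1 / W) ^ 2 * (N * M) := by gcongr
      _ = (8 * (w ^ 3 / W ^ 7) + 2 * (w ^ 2 / W ^ 7)) * (N * M) := by ring
      _ ≤ _ := mul_le_mul_of_nonneg_right (by linarith) (mul_nonneg hN hM)
  have e : 2 * (1 / W ^ 9) + 6 * (w ^ 8 / W ^ 3 + 2 * w / W ^ 2 * (w ^ 2 / W + 2 * w / W ^ 2)) +
      30 * (1 / W ^ 9 + 3 * (w ^ 4 / W)) * (2 * G.lam g + (2 * (2 * w * G.r * (w / G.R))) ^ 2) +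
      28 * (G.lam g * (w / W)) + 40 * (w ^ 9 / W ^ 3) ≤ w ^ 10 / W ^ 3 := by
    have h0 : 1000 * (w ^ 4 / W ^ 2) ≤ w ^ 5 / W ^ 2 := h.fin 4 2
    have h0' : (2 * (2 * w * G.r * (w / G.R))) ^ 2 ≤ (2 * (2 * (w ^ 2 / W))) ^ 2 :=
      pow_le_pow_left₀ (by positivity) (by linarith [h.yd]) 2
    have e0 : (2 * (2 * (w ^ 2 / W))) ^ 2 = 16 * (w ^ 4 / W ^ 2) := by ring
    have h4 : 0 ≤ w ^ 4 / W ^ 2 := by positivity
    have h1 : (1 / W ^ 9 + 3 * (w ^ 4 / W)) * (2 * G.lam g + (2 * (2 * w * G.r * (w / G.R))) ^ 2) ≤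
        4 * (w ^ 4 / W) * (3 * (w ^ 5 / W ^ 2)) :=
      mul_le_mul h.eta (by linarith [h.lam]) (by positivity) (by positivity)
    have h2 : G.lam g * (w / W) ≤ w ^ 5 / W ^ 2 * (w / W) :=
      mul_le_mul_of_nonneg_right h.lam (by positivity)
    have h3 := h.fin 9 3
    have h5 := h.mon (a := 0) (b := 9) (a' := 9) (b' := 3) (by norm_num) (by norm_num)
    have h6 := h.mon (a := 8) (b := 3) (a' := 9) (b' := 3) (by norm_num) le_rfl
    have h7 := h.mon (a := 3) (b := 3) (a' := 9) (b' := 3) (by norm_num) le_rfl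
    have h8 := h.mon (a := 6) (b := 3) (a' := 9) (b' := 3) (by norm_num) le_rfl
    have h9 := h.mon (a := 2) (b := 4) (a' := 9) (b' := 3) (by norm_num) (by norm_num)
    have h10 : 0 ≤ w ^ 9 / W ^ 3 := by positivity
    have e1 : 4 * (w ^ 4 / W) * (3 * (w ^ 5 / W ^ 2)) = 12 * (w ^ 9 / W ^ 3) := by ring
    have e2 : w ^ 5 / W ^ 2 * (w / W) = w ^ 6 / W ^ 3 := by ring
    have e3 : 2 * w / W ^ 2 * (w ^ 2 / W + 2 * w / W ^ 2) =
        2 * (w ^ 3 / W ^ 3) + 4 * (w ^ 2 / W ^ 4) := by ring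
    simp only [pow_zero] at h5
    rw [e1] at h1; rw [e2] at h2; rw [e3]; linarith
  have e' := mul_le_mul_of_nonneg_right e (mul_nonneg hN hM)
  have a0 := k4 0 0
  have a1 := k4 0 1
  have a2 := k4 1 0
  have a3 := k4 1 1
  simp only [Fin.sum_univ_two, card_univ, Fintype.card_fin, Nat.cast_ofNat] at k ⊢
  unfold cs
  rw [abs_le] at *
  constructor <;> linarith [k.1, k.2, k3.1, k3.2, a0.1, a0.2, a1.1, a1.2, a2.1, a2.2, a3.1, a3.2]

end H93.Ctx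

open H93 in
theorem holStmt (hK : KshStmt) (hB : BarStmt) (h3 : K3Stmt) (hM : MomStmt) (hA : AlgStmt) : HolStmt := by
  intro F θ₀ ε h0 hε hε'
  obtain ⟨W₁, H1⟩ := hK F θ₀ ε h0 hε hε'
  obtain ⟨W₂, H2⟩ := ctx hB h3 hM hA F hε hε'
  refine ⟨max W₁ W₂, fun W hW K hK => ?_⟩
  obtain ⟨δ, hδ, H⟩ := H1 W ((le_max_left _ _).trans hW) K hK
  refine ⟨δ, hδ, fun Λ hΛ l L hw G hG hL hg => ?_⟩
  have hS := H Λ hΛ l L hw G hG hL hg
  obtain ⟨A, B, p, q, κ, h⟩ := H2 W ((le_max_right _ _).trans hW) Λ hΛ G _ hG hg hS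
  obtain ⟨-, -, -, -, -, -, -, -, -, -, -, hl⟩ := hS
  have W0 := h.W0
  refine ⟨hl, fun X φ N M dX hX dφ hφ => ⟨?_, fun i => ?_, fun i j => ?_, fun ho h4 => ?_, fun ho => ?_,
    fun he hz => ?_⟩⟩
  · rw [rp (ε := ε) W0 6 1 (by push_cast; ring), pow_one]; exact h.any dX hX dφ hφ
  · rw [rp (ε := ε) W0 8 1 (by push_cast; ring), pow_one]; exact h.anyd dX hX dφ hφ i
  · rw [rp (ε := ε) W0 8 1 (by push_cast; ring), pow_one]; exact h.anydd dX hX dφ hφ i j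
  · rw [rp (ε := ε) W0 10 3 (by push_cast; ring)]; exact h.odd dX hX dφ hφ ho (Hs11.d4_iff.1 h4)
  · rw [rp (ε := ε) W0 10 2 (by push_cast; ring)]; exact h.vec93 dX hX dφ hφ ho
  · rw [rp (ε := ε) W0 10 3 (by push_cast; ring)]; exact h.even93 dX hX dφ hφ he hz

end Crest.Agent.T145.Kr
end

-- ▼ part T145/KrQl_89
section

/-!
# Row 145, module KERNEL: (Q) (helper89)
-/

set_option autoImplicit false

namespace Crest.Agent.T145.Kr

open Finset Real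

namespace Q89

theorem sq_rot {C S P : ℝ} (h : ∀ θ, |C * cos θ - S * sin θ| ≤ P) : C ^ 2 + S ^ 2 ≤ P ^ 2 := by
  set z : ℂ := ⟨C, -S⟩
  have h1 := h (Complex.arg z)
  have e1 : ‖z‖ * cos (Complex.arg z) = C := Complex.norm_mul_cos_arg z
  have e2 : ‖z‖ * sin (Complex.arg z) = -S := Complex.norm_mul_sin_arg z
  have e3 : C * cos (Complex.arg z) - S * sin (Complex.arg z) = ‖z‖ := by
    have := cos_sq_add_sin_sq (Complex.arg z)
    linear_combination (-cos (Complex.arg z)) * e1 - sin (Complex.arg z) * e2 + ‖z‖ * this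
  have e4 : ‖z‖ ^ 2 = C ^ 2 + S ^ 2 := by
    rw [Complex.sq_norm, Complex.normSq_apply]; simp only [z]; ring
  rw [e3, abs_of_nonneg (norm_nonneg _)] at h1
  rw [← e4]
  exact pow_le_pow_left₀ (norm_nonneg _) h1 2

/-- the characteristic function with a boundary condition is at most the centred one -/
theorem fib_sq {m : Mdl Pt} (hc : m.Ctr) (ha : m.Anch) (X : Cfg Pt →+ ℝ) (s : Cfg Pt) :
    Ex (m.W s) (fun t => cos (X t)) ^ 2 + Ex (m.W s) (fun t => sin (X t)) ^ 2 ≤ Ph (m.W 0) X ^ 2 := by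
  have hW := hc.wt ha s
  refine sq_rot fun θ => ?_
  have k := (Md.ctr_rsd_W hc).abs_ex_cos_le (fun q => hc.se ha q) (hc.cen ha).pos0 (q := s) hW.pos 0 X θ
  rw [tilt_zero] at k
  have i1 : Ig (m.W s) fun t => cos (X t) := hW.ig_bdd fun _ => abs_cos_le_one _
  have i2 : Ig (m.W s) fun t => sin (X t) := hW.ig_bdd fun _ => abs_sin_le_one _
  rw [← Ex_mul_const, ← Ex_mul_const, ← Ex_sub (i1.mul_const _) (i2.mul_const _)]
  simp only [← cos_add]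
  exact k

theorem abs_le_sq {x κ : ℝ} (hκ : 0 < κ) : |x| ≤ x ^ 2 / (2 * κ) + κ / 2 := by
  rw [div_add' _ _ _ (by positivity), le_div_iff₀ (by positivity), ← sq_abs x]
  nlinarith [sq_nonneg (|x| - κ)]

theorem pt {C S P a κ : ℝ} (hκ : 0 < κ) (h : C ^ 2 + S ^ 2 ≤ P ^ 2) :
    |C - a| + |S| ≤ (P ^ 2 + a ^ 2 - 2 * a * C) / (2 * κ) + κ := by
  have h1 := abs_le_sq (x := C - a) hκ
  have h2 := abs_le_sq (x := S) hκ
  have h3 : (C - a) ^ 2 / (2 * κ) + S ^ 2 / (2 * κ) ≤ (P ^ 2 + a ^ 2 - 2 * a * C) / (2 * κ) := by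
    rw [← add_div]
    exact div_le_div_of_nonneg_right (by nlinarith) (by positivity)
  linarith

theorem fin {P Q a ε : ℝ} (hε : 0 < ε) (ha : 0 ≤ a) (hP0 : |P| ≤ 1) (h1 : |P - a| ≤ min 1 (ε ^ 2 / 18))
    (h2 : |Q - a| ≤ min 1 (ε ^ 2 / 18)) :
    (P ^ 2 + a ^ 2 - 2 * a * Q) / (2 * (ε / 2)) + ε / 2 ≤ ε := by
  obtain ⟨e, he, e1, e2⟩ : ∃ e, e = min 1 (ε ^ 2 / 18) ∧ e ≤ 1 ∧ e ≤ ε ^ 2 / 18 :=
    ⟨_, rfl, min_le_left _ _, min_le_right _ _⟩
  rw [← he, abs_le] at h1 h2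
  rw [abs_le] at hP0
  have a2 : a ≤ 2 := by linarith [h1.1]
  have e0 : 0 ≤ e := by linarith [h1.1, h1.2]
  have : P ^ 2 + a ^ 2 - 2 * a * Q ≤ 9 * e := by
    have k1 : (P - a) ^ 2 ≤ e ^ 2 := sq_le_sq' h1.1 h1.2
    have k2 : a * (P - Q) ≤ a * (2 * e) := mul_le_mul_of_nonneg_left (by linarith [h1.2, h2.1]) ha
    nlinarith
  have : (P ^ 2 + a ^ 2 - 2 * a * Q) / (2 * (ε / 2)) ≤ ε / 2 := by
    rw [div_le_iff₀ (by positivity)]; nlinarith
  linarith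

theorem amb {Λ : Lat} (h : Λ.Ok) {D : Finset Pt} {f : Pt → ℝ} {m : Mdl Pt} (hm : Nc.Amb Λ m D)
    {a ε : ℝ} (hε : 0 < ε) (ha : 0 ≤ a)
    (h1 : |Ph ((Λ.D D).W 0) (pr (xg D f)) - a| ≤ min 1 (ε ^ 2 / 18))
    (h2 : |Ph (m.W 0) (pr (xg D f)) - a| ≤ min 1 (ε ^ 2 / 18)) : Ex (m.W 0) (qd Λ D f a) ≤ ε := by
  have hW := hm.ctr.wt hm.anch 0
  have hD := fun s => (h.ctr_D D).wt (h.anch_D D) s
  obtain ⟨i1, e1⟩ := hm.near.dlr h hm.ctr.1 hm.sub hW (F := fun t => cos (pr (xg D f) t))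
    (hW.ig_bdd fun _ => abs_cos_le_one _)
  have i2 := ((hW.ig_const (Ph ((Λ.D D).W 0) (pr (xg D f)) ^ 2 + a ^ 2)).sub
    (i1.const_mul (2 * a))).div_const (2 * (ε / 2))
  have i3 : Ig (m.W 0) (qd Λ D f a) := hW.ig_bdd (C := 1 + |a| + 1) fun s => by
    refine (abs_add_le _ _).trans ?_
    rw [abs_abs, abs_abs]
    exact add_le_add ((abs_sub _ _).trans (add_le_add ((hD s).abs_ex_le fun _ _ => abs_cos_le_one _) le_rfl))
      ((hD s).abs_ex_le fun _ _ => abs_sin_le_one _)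
  refine (Ex_mono hW.nonneg i3 (i2.add (hW.ig_const (ε / 2))) fun s =>
    pt (half_pos hε) (fib_sq (h.ctr_D D) (h.anch_D D) _ s)).trans ?_
  rw [hW.ex_add_const i2, Ex_div_const, Ex_sub (hW.ig_const _) (i1.const_mul _), hW.ex_const,
    Ex_const_mul, ← e1]
  exact fin hε ha ((hD 0).abs_Ph_le _) h1 h2

theorem pn_N (Λ : Lat) (U : Finset Pt) (r : Pt) : Nc.pn (Λ.N U) U {r} = Λ.Nr U r := by
  unfold Nc.pn Lat.Nr Mdl.free
  rw [Lat.N_ed, Lat.inn_edI subset_rfl, sdiff_singleton_eq_erase]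
  rfl

theorem nE_Nr {Λ : Lat} {U : Finset Pt} {r : Pt} (hr : r ∈ U) {F : Cfg Pt → ℝ} (hF : DepG U F) :
    Nc.nE (Λ.N U) U F = Ex ((Λ.Nr U r).W 0) F := by
  rw [Nc.nE_root hr hF, pn_N]

theorem amb_Nr {Λ : Lat} (h : Λ.Ok) {U D : Finset Pt} {r : Pt} (hr : r ∈ U \ D) (hE : Λ.edT D ⊆ Λ.edI U)
    (hD : D ⊆ U) (hU : Nc.Cn (Λ.N U) U) : Nc.Amb Λ (Λ.Nr U r) D := by
  rw [mem_sdiff] at hr
  refine ⟨h.ctr_Nr U r, Lat.anch_Nr fun x hx => ?_, fun x hx => ?_, Lat.near_Nr hE r⟩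
  · have := hU x hx r hr.1
    rwa [Lat.N_ed, Lat.inn_edI subset_rfl] at this
  · exact mem_erase.2 ⟨fun e => hr.2 (e ▸ hx), hD hx⟩

end Q89

open Q89 in
theorem qStmt (hA : GffAStmt) (hP : QpStmt) : QStmt := by
  intro F θ₀ K ε hθ hK hε
  obtain ⟨δ, hδ, H⟩ := hA F θ₀ K (min 1 (ε ^ 2 / 18)) hθ hK (by positivity)
  refine ⟨δ, hδ, fun Λ hΛ l L hW D f hS hf => ?_⟩
  have h : Λ.Ok := ⟨hΛ.1 ▸ F.adm, F.pos.trans_le hΛ.2.2.1⟩
  obtain ⟨-, H2⟩ := H Λ hΛ l L hW D f hS hf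
  have g1 := (H2 (Λ.D D) (h.ctr_D D) (h.anch_D D) subset_rfl (fun _ _ => rfl) (Loc.refl _)).2.2
  have key : ∀ m, Nc.Amb Λ m D →
      Ex (m.W 0) (qd Λ D f (exp (-(Λ.gN l * Pot.GD Pot.nL D f f) / 2))) ≤ ε := fun m hm => by
    have hE : ∀ e ∈ Λ.edT D, e ∈ m.ed := fun e he =>
      (hm.near.1 e (Lat.mem_edT.1 he).2).2 (Lat.mem_edT.1 he).1
    exact amb h hm hε (exp_pos _).le g1 (H2 m hm.ctr hm.anch hE
      (fun e he => hm.near.2.1 e (hE e he) (Lat.mem_edT.1 he).2)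
      (hm.near.loc h hm.ctr hm.anch hm.sub)).2.2
  refine ⟨key, fun U hE hD ⟨r₀, hr₀⟩ hU => ?_⟩
  have hd := ((hP Λ D f (exp (-(Λ.gN l * Pot.GD Pot.nL D f f) / 2)) h).2.2 U hE).mono sdiff_subset
  have k := key _ (amb_Nr h hr₀ hE hD hU)
  rw [← nE_Nr (mem_sdiff.1 hr₀).1 hd] at k
  exact ⟨k, fun r hr => nE_Nr hr hd ▸ k⟩

end Crest.Agent.T145.Kr
end

-- ▼ part T145/KrRj_3
section

/-!
# Row 145, module KERNEL: RJL (`Kr.rjlStmt`), the local form of RJ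
-/

set_option autoImplicit false

namespace Crest.Agent.T145.Kr

open Finset Real RJ57

namespace Rj3

variable {Λ : Lat} {D B : Finset Pt} {u : Pt → ℝ}

/-- an edge along which `u` is not zero lies deep in `D` -/
theorem both {r : ℕ} (h : ∀ x, u x ≠ 0 → bl x r ⊆ D) {x y : Pt} (h1 : |y.1| ≤ r) (h2 : |y.2| ≤ r)
    (hne : u (x + y) - u x ≠ 0) : x ∈ D ∧ x + y ∈ D := by
  have k1 := abs_le.1 h1
  have k2 := abs_le.1 h2
  by_cases h0 : u x = 0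
  · have h3 := h (x + y) (by simpa [h0] using hne)
    exact ⟨h3 (by simp only [mem_bl, Prod.fst_add, Prod.snd_add]; omega), h3 (self_mem_bl _ _)⟩
  · exact ⟨h x h0 (self_mem_bl _ _),
      h x h0 (by simp only [mem_bl, Prod.fst_add, Prod.snd_add]; omega)⟩

theorem mem_of_ne (h : ∀ x, u x ≠ 0 → bl x Λ.rg ⊆ D) {e : Pt × Pt} (he : e.2 - e.1 ∈ Λ.Jp)
    (hne : u e.2 - u e.1 ≠ 0) : e ∈ Λ.edI D := by
  have := both h (x := e.1) (jp_rg he).1 (jp_rg he).2 (by rwa [add_sub_cancel])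
  rw [add_sub_cancel] at this
  exact Lat.mem_edI.2 ⟨he, this⟩

/-- sums over lattice edges of multiples of the gradient only see the edges inside `D` -/
theorem sum_ed (h : ∀ x, u x ≠ 0 → bl x Λ.rg ⊆ D) {ed : Finset (Pt × Pt)} (h1 : Λ.edI D ⊆ ed)
    (h2 : ∀ e ∈ ed, e.2 - e.1 ∈ Λ.Jp) (φ : Pt × Pt → ℝ) :
    ∑ e ∈ ed, (u e.2 - u e.1) * φ e = ∑ e ∈ Λ.edI D, (u e.2 - u e.1) * φ e :=
  (sum_subset h1 fun e he hn => by
    rw [by_contra fun hne : ¬ u e.2 - u e.1 = 0 => hn (mem_of_ne h (h2 e he) hne), zero_mul]).symm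

theorem En_congr (h : ∀ x, u x ≠ 0 → bl x Λ.rg ⊆ D) (h' : ∀ x, u x ≠ 0 → bl x Λ.rg ⊆ B)
    (v : Pt → ℝ) : Λ.En D u v = Λ.En B u v := by
  simp only [Lat.En, mul_div_assoc]
  rw [← sum_ed h (Lat.edI_mono (subset_union_left (s₂ := B))) fun e he => (Lat.mem_edI.1 he).1,
    ← sum_ed h' (Lat.edI_mono (subset_union_right (s₁ := D))) fun e he => (Lat.mem_edI.1 he).1]

theorem nn_rg : nnL.rg = 1 := by decide

theorem eD_eq (h : ∀ x, u x ≠ 0 → bl x 1 ⊆ D) (v : Pt → ℝ) :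
    Pot.eD Pot.nL D u v = nnL.En D u v := by
  rw [Pot.eD, Pot.edF_apply, show Pot.nL.edT D = nnL.edT D from rfl,
    sum_ed (Λ := nnL) (by rwa [nn_rg]) (Lat.edI_subset_edT D) fun e he => (Lat.mem_edT.1 he).1]
  simp [Lat.En, nnL]

theorem op_eq (h : ∀ x, u x ≠ 0 → bl x 1 ⊆ D) : Pot.op (Pot.eD Pot.nL D) u = nnL.Au D u := by
  funext z
  rw [Pot.eD, Pot.op_edF_eq, dv, show Pot.nL.edT D = nnL.edT D from rfl,
    sum_ed (Λ := nnL) (by rwa [nn_rg]) (Lat.edI_subset_edT D) fun e he => (Lat.mem_edT.1 he).1]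
  simp [Lat.Au, dv, nnL]

theorem gt_mul {r : ℕ} (h : ∀ x, u x ≠ 0 → bl x r ⊆ D) {y : Pt} (h1 : |y.1| ≤ r) (h2 : |y.2| ≤ r)
    (x : Pt) : gt D y x * (u (x + y) - u x) = u (x + y) - u x := by
  by_cases h0 : u (x + y) - u x = 0
  · rw [h0, mul_zero]
  · rw [gt_one (both h h1 h2 h0).1 (both h h1 h2 h0).2, one_mul]

theorem Au_eq (h : ∀ x, u x ≠ 0 → bl x Λ.rg ⊆ D) (z : Pt) :
    Λ.Au D u z = (∑ y ∈ Λ.Jp, ((u (z - y + y) - u (z - y)) - (u (z + y) - u z))) / Λ.τ := by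
  rw [Lat.Au, dv_edI, sum_div]
  refine sum_congr rfl fun y hy => ?_
  have h1 := gt_mul h (jp_rg hy).1 (jp_rg hy).2 (z - y)
  have h2 := gt_mul h (jp_rg hy).1 (jp_rg hy).2 z
  rw [sub_add_cancel] at h1 ⊢
  rw [← mul_div_assoc, ← mul_div_assoc, h1, h2, ← sub_div]

theorem Au_nn_eq (h : ∀ x, u x ≠ 0 → bl x 1 ⊆ D) (z : Pt) :
    nnL.Au D u z = ∑ i, (df i u (z - ev i) - df i u z) := by
  rw [Au_nn]
  refine sum_congr rfl fun i _ => ?_
  have h1 := fun x => gt_mul h (y := ev i) (by fin_cases i <;> simp) (by fin_cases i <;> simp) x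
  simp only [df, h1]

/-- global routing of the edges of direction `y` along L-shaped paths -/
theorem route' (ρ : ℕ) (y : Pt) (h1 : |y.1| ≤ ρ) (h2 : |y.2| ≤ ρ) (g : Pt → ℝ) {c : ℝ}
    (hc : ∀ i x, |df i g x| ≤ c) : ∃ H : Fin 2 → Pt → ℝ,
      (∀ z, g (z - y) - g z = ∑ i, (H i (z - ev i) - H i z)) ∧
      (∀ i z, H i z ≠ 0 → ∃ x ∈ bl z ρ, g x ≠ 0) ∧
      ∀ i z, |H i z - co i y * g z| ≤ ρ * (2 * ρ * c) := by
  have c0 : 0 ≤ c := (abs_nonneg _).trans (hc 0 0)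
  obtain ⟨p, p1, p2, p3⟩ := exS (ev 0) g y.1
  obtain ⟨q, q1, q2, q3⟩ := exS (ev 1) (fun x => g (x - y.1 • ev 0)) y.2
  have k1 := abs_le.1 h1
  have k2 := abs_le.1 h2
  refine ⟨![p, q], fun z => ?_, fun i z hz => ?_, fun i z => ?_⟩
  · have a1 := p1 z
    have a2 := q1 z
    rw [show z - y.2 • ev 1 - y.1 • ev 0 = z - y by ext <;> simp] at a2
    simp only [Fin.sum_univ_two, Matrix.cons_val_zero, Matrix.cons_val_one]
    linarith
  · fin_cases i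
    · obtain ⟨j, j1, j2⟩ := p3 z hz
      refine ⟨_, ?_, j2⟩
      simp only [mem_bl, ev0, Prod.fst_sub, Prod.snd_sub, Prod.smul_mk, smul_eq_mul]
      omega
    · obtain ⟨j, j1, j2⟩ := q3 z hz
      refine ⟨_, ?_, j2⟩
      simp only [mem_bl, ev0, ev1, Prod.fst_sub, Prod.snd_sub, Prod.smul_mk, smul_eq_mul]
      omega
  · fin_cases i
    · refine (p2 z _ (2 * ρ * c) fun j hj => ?_).trans
        (mul_le_mul_of_nonneg_right (cast_le h1) (by positivity))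
      have := lip hc z (-j, 0) (ρ := ρ) (by simpa using hj.trans h1) (by simp)
      rwa [show z + (-j, 0) = z - j • ev 0 by ext <;> simp [sub_eq_add_neg]] at this
    · refine (q2 z _ (2 * ρ * c) fun j hj => ?_).trans
        (mul_le_mul_of_nonneg_right (cast_le h2) (by positivity))
      have := lip hc z (-y.1, -j) (ρ := ρ) (by simpa using h1) (by simpa using hj.trans h2)
      rwa [show z + (-y.1, -j) = z - j • ev 1 - y.1 • ev 0 by ext <;> simp [sub_eq_add_neg]] at this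

/-- the local flow: `A u = e₀ A^{nn} u` up to a small flow inside `D` -/
theorem flow (hΛ : Λ.Ok) {z : Pt} {R : ℕ} {c : ℝ} (hc : ∀ i j x, |df j (df i u) x| ≤ c)
    (h : ∀ x, u x ≠ 0 → x ∈ bl z R ∧ bl x (3 * Λ.rg) ⊆ D) :
    F2 (Λ.edI D) (Λ.Au D u - Λ.e0 • nnL.Au D u)
      (2 * (2 * (R + 2 * Λ.rg) + 1) ^ 2 * (8 * Λ.J.card * (Λ.rg : ℝ) ^ 3 * Λ.τ⁻¹ * c) ^ 2) := by
  have hτ := hΛ.pos
  have hρ := hΛ.one_le_rg
  have c0 : 0 ≤ c := (abs_nonneg _).trans (hc 0 0 0)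
  have hD : ∀ r ≤ 3 * Λ.rg, ∀ x, u x ≠ 0 → bl x r ⊆ D := fun r hr x hx =>
    (bl_mono x hr).trans (h x hx).2
  choose! H H1 H2 H3 using fun y (hy : y ∈ Λ.Jp) =>
    route' Λ.rg y (jp_rg hy).1 (jp_rg hy).2 (fun x => u (x + y) - u x) (c := 2 * Λ.rg * c) fun i x => by
      have := lip (hc i) x y (jp_rg hy).1 (jp_rg hy).2
      rwa [show df i (fun x => u (x + y) - u x) x = df i u (x + y) - df i u x by
        simp only [df, add_right_comm x y]; ring]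
  set G : Fin 2 → Pt → ℝ := fun i w => (∑ y ∈ Λ.Jp, H y i w) / Λ.τ - Λ.e0 * df i u w with hG
  have near : ∀ i w, G i w ≠ 0 → ∃ x ∈ bl w (2 * Λ.rg), u x ≠ 0 := fun i w hw => by
    by_contra hn
    push Not at hn
    refine hw ?_
    have e1 : ∑ y ∈ Λ.Jp, H y i w = 0 := sum_eq_zero fun y hy => by
      by_contra h0
      obtain ⟨x, hx, h1⟩ := H2 y hy i w h0
      have k1 := abs_le.1 (jp_rg hy).1
      have k2 := abs_le.1 (jp_rg hy).2
      rw [mem_bl] at hx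
      rw [hn x (by rw [mem_bl]; push_cast; omega), hn (x + y) (by
        simp only [mem_bl, Prod.fst_add, Prod.snd_add]; push_cast; omega), sub_zero] at h1
      exact h1 rfl
    have e2 : df i u w = 0 := by
      rw [df, hn w (self_mem_bl _ _), hn (w + ev i) (by
        fin_cases i <;> simp only [mem_bl, Fin.zero_eta, Fin.mk_one, ev0, ev1, Prod.fst_add,
          Prod.snd_add] <;> push_cast <;> omega), sub_zero]
    simp only [hG, e1, e2, zero_div, mul_zero, sub_zero]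
  have bd : ∀ i w, |G i w| ≤ 8 * Λ.J.card * (Λ.rg : ℝ) ^ 3 * Λ.τ⁻¹ * c := fun i w => by
    have e : G i w = (∑ y ∈ Λ.Jp, ((H y i w - co i y * (u (w + y) - u w)) +
        co i y * (u (w + y) - u w - ∑ j, df j u w * co j y))) / Λ.τ := by
      simp only [hG, mul_sub (co i _) (_ - _), sum_add_distrib, sum_sub_distrib, iso' hΛ, Lat.e0]
      ring
    rw [e, abs_div, abs_of_pos hτ, div_le_iff₀ hτ]
    refine (abs_sum_Jp _ (b := 8 * (Λ.rg : ℝ) ^ 3 * c) (by positivity) fun y hy => ?_).trans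
      (le_of_eq (by field_simp))
    have a1 := H3 y hy i w
    have a2 := mul_le_mul (co_le hy i) (tay hc w y (jp_rg hy).1 (jp_rg hy).2) (abs_nonneg _)
      (Nat.cast_nonneg _)
    rw [← abs_mul] at a2
    exact (abs_add_le _ _).trans (by linarith)
  have key := nn_f2 hΛ D G fun i w hw => by
    obtain ⟨x, hx, h1⟩ := near i w hw
    have h2 := (h x h1).2
    rw [mem_bl] at hx
    refine ⟨h2 (by rw [mem_bl]; push_cast at hx ⊢; omega), h2 ?_⟩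
    fin_cases i <;> simp only [mem_bl, Fin.zero_eta, Fin.mk_one, ev0, ev1, Prod.fst_add,
      Prod.snd_add] <;> push_cast at hx ⊢ <;> omega
  refine f2_mono (f2_congr key (funext fun w => ?_)) ?_
  · rw [Pi.sub_apply, Pi.smul_apply, smul_eq_mul, Au_eq (hD _ (by omega)),
      Au_nn_eq (hD _ (by omega)), sum_congr rfl fun y hy => H1 y hy w]
    simp only [hG, Fin.sum_univ_two, sum_add_distrib, sum_sub_distrib]
    ring
  · have b : ∀ i, ∑ w ∈ D, G i w ^ 2 ≤ (2 * (R + 2 * Λ.rg) + 1) ^ 2 *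
        (8 * Λ.J.card * (Λ.rg : ℝ) ^ 3 * Λ.τ⁻¹ * c) ^ 2 := fun i => by
      classical
      rw [← sum_subset (s₁ := D ∩ bl z (R + 2 * Λ.rg)) inter_subset_left fun w hw hn => ?_]
      · refine (sum_le_card_nsmul _ _ _ fun w _ =>
          sq_le_sq' (neg_le_of_abs_le (bd i w)) (le_of_abs_le (bd i w))).trans ?_
        rw [nsmul_eq_mul]
        refine mul_le_mul_of_nonneg_right ?_ (sq_nonneg _)
        have := card_le_card (inter_subset_right (s₁ := D) (s₂ := bl z (R + 2 * Λ.rg)))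
        rw [card_bl] at this
        exact_mod_cast this
      · by_contra h0
        obtain ⟨x, hx, h1⟩ := near i w fun h2 => h0 (by rw [h2]; simp)
        have h2 := (h x h1).1
        refine hn (mem_inter.2 ⟨hw, ?_⟩)
        rw [mem_bl] at hx h2 ⊢
        push_cast at hx ⊢
        omega
    rw [Fin.sum_univ_two]
    linarith [b 0, b 1]

/-- the local energy comparison -/
theorem energy (hΛ : Λ.Ok) {z : Pt} {R : ℕ} {c c' : ℝ} (hc : ∀ i x, |df i u x| ≤ c)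
    (hc' : ∀ i j x, |df j (df i u) x| ≤ c') (h : ∀ x, u x ≠ 0 → x ∈ bl z R ∧ bl x Λ.rg ⊆ D) :
    |Λ.En D u u - Λ.e0 * nnL.En D u u| ≤ 16 * Λ.J.card * (Λ.rg : ℝ) ^ 3 * Λ.τ⁻¹ *
      ((2 * (R + Λ.rg) + 1) ^ 2 * (c * c') + 2 * (2 * (R + Λ.rg) + 1) * c ^ 2) := by
  have hρ := hΛ.one_le_rg
  have hB : ∀ x, u x ≠ 0 → bl x Λ.rg ⊆ rc (z.1 - (R + Λ.rg), z.2 - (R + Λ.rg))
      (2 * (R + Λ.rg) + 1) (2 * (R + Λ.rg) + 1) := fun x hx w hw => by
    have := (h x hx).1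
    rw [mem_bl] at this hw
    rw [RJ57.mem_rc]
    push_cast
    omega
  rw [En_congr (fun x hx => (h x hx).2) hB,
    En_congr (Λ := nnL) (fun x hx => by rw [nn_rg]; exact (bl_mono x hρ).trans (h x hx).2)
      fun x hx => by rw [nn_rg]; exact (bl_mono x hρ).trans (hB x hx)]
  refine (rj3 hΛ _ _ _ hc hc' hc hc').trans (le_of_eq ?_)
  push_cast
  ring

end Rj3

/-- RJL -/
theorem rjlStmt : RjlStmt := by
  intro F K ε hK hε
  obtain ⟨T, hT, hF⟩ := fam_cst F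
  refine ⟨⌈(3 * T + 1) * K + 10000 * (T ^ 10 * K ^ 4) / ε⌉₊, fun Λ hΛ L hL D z u hu h => ?_⟩
  have ok := mem_ok hΛ
  obtain ⟨h1, h2, h3, -⟩ := hF Λ hΛ
  have m := mono_le hT (Nat.cast_nonneg _) (Nat.cast_nonneg _) (inv_nonneg.2 ok.pos.le) h1 h2 h3
  have hτ := ok.pos
  have hρ := ok.one_le_rg
  have K0 : 0 < K := zero_lt_one.trans_le hK
  have T0 : 0 < T := zero_lt_one.trans_le hT
  have hL' : (3 * T + 1) * K + 10000 * (T ^ 10 * K ^ 4) / ε ≤ L :=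
    (Nat.le_ceil _).trans (by exact_mod_cast hL)
  have a0 : 0 ≤ 10000 * (T ^ 10 * K ^ 4) / ε := by positivity
  have a1 : (3 * T + 1) * K ≤ L := by linarith
  have a2 : 10000 * (T ^ 10 * K ^ 4) ≤ L * ε :=
    (div_le_iff₀ hε).1 (by nlinarith [mul_pos T0 K0])
  have a3 : 3 * T + 1 ≤ L := by nlinarith
  have L1 : (1 : ℝ) ≤ L := by linarith
  have L0 : (0 : ℝ) < L := by linarith
  have hr : 3 * Λ.rg ≤ ⌊(L : ℝ) / K⌋₊ :=
    Nat.le_floor (by rw [le_div_iff₀ K0]; push_cast; nlinarith)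
  have hs : ∀ r ≤ 3 * Λ.rg, ∀ x, u x ≠ 0 → bl x r ⊆ D := fun r hr' x hx =>
    (bl_mono x (hr'.trans hr)).trans (h x hx).2
  have hR : (⌊K * L⌋₊ : ℝ) ≤ K * L := Nat.floor_le (by positivity)
  have hKL : (L : ℝ) ≤ K * L := by nlinarith
  have n1 : 2 * ((⌊K * L⌋₊ : ℝ) + 2 * Λ.rg) + 1 ≤ 4 * (K * L) := by linarith
  have n2 : 2 * ((⌊K * L⌋₊ : ℝ) + Λ.rg) + 1 ≤ 4 * (K * L) := by
    linarith [(Nat.cast_nonneg Λ.rg : (0 : ℝ) ≤ Λ.rg)]
  have fin : ∀ a : ℝ, a ≤ 10000 → a * (T ^ 10 * K ^ 4) / L ≤ ε := fun a ha => by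
    rw [div_le_iff₀ L0]
    nlinarith [mul_le_mul_of_nonneg_right ha (by positivity : 0 ≤ T ^ 10 * K ^ 4)]
  rw [Rj3.op_eq (hs 1 (by omega)), Rj3.eD_eq (hs 1 (by omega))]
  refine ⟨f2_mono (Rj3.flow ok hu.2 fun x hx => ⟨(h x hx).1, hs _ le_rfl x hx⟩) ?_,
    (Rj3.energy ok hu.1 hu.2 fun x hx => ⟨(h x hx).1, hs _ (by omega) x hx⟩).trans ?_⟩
  · calc _ ≤ 2 * (4 * (K * L)) ^ 2 * (8 * Λ.J.card * (Λ.rg : ℝ) ^ 3 * Λ.τ⁻¹ * (K / L ^ 2)) ^ 2 := by
          gcongr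
      _ = 2048 * (((Λ.J.card : ℝ) ^ 2 * (Λ.rg : ℝ) ^ 6 * Λ.τ⁻¹ ^ 2) * K ^ 4) / L / L := by
          field_simp; ring
      _ ≤ 2048 * (T ^ 10 * K ^ 4) / L / 1 := by gcongr; exact m 2 6 2 (by norm_num)
      _ ≤ _ := by rw [div_one]; exact fin _ (by norm_num)
  · have b1 := m 1 3 1 (by norm_num)
    rw [pow_one, pow_one] at b1
    have K3 : K ^ 3 ≤ K ^ 4 := pow_le_pow_right₀ hK (by norm_num)
    calc _ ≤ 16 * Λ.J.card * (Λ.rg : ℝ) ^ 3 * Λ.τ⁻¹ *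
          ((4 * (K * L)) ^ 2 * (K / L * (K / L ^ 2)) + 2 * (4 * (K * L)) * (K / L) ^ 2) := by gcongr
      _ = 16 * ((Λ.J.card * (Λ.rg : ℝ) ^ 3 * Λ.τ⁻¹) * (16 * K ^ 4 + 8 * K ^ 3)) / L := by
          field_simp; ring
      _ ≤ 16 * (T ^ 10 * (16 * K ^ 4 + 8 * K ^ 4)) / L := by gcongr
      _ = 384 * (T ^ 10 * K ^ 4) / L := by ring
      _ ≤ _ := fin _ (by norm_num)

end Crest.Agent.T145.Kr
end

-- ▼ part T145/KrTrf_62
section

/-!
# Row 145, module KERNEL: the collar function of an insertion, `TrfStmt` (helper62)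
-/

set_option autoImplicit false

namespace Crest.Agent.T145.Kr

open Finset Nc Nc.L37

namespace T62

variable {Λ : Lat} {z : Pt} {r c R c' : ℕ} {F G : Cfg Pt → ℝ}

/-- the free box rooted at a far corner is an ambient model -/
theorem amb_corner (hΛ : Λ.Ok) (z : Pt) (h : R + Λ.rg ≤ c') :
    ∃ p ∈ bl z c', Amb Λ (Λ.Nr (bl z c') p) (bl z R) := by
  have h1 := hΛ.one_le_rg
  have hp : (z.1 + c', z.2) ∈ bl z c' := by
    rw [mem_bl]; dsimp only; omega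
  have hq : (z.1 + c', z.2) ∉ bl z R := by
    rw [mem_bl]; dsimp only; omega
  refine ⟨_, hp, hΛ.ctr_Nr _ _, hΛ.anch_Nr_bl hp, fun x hx => ?_, (Geo.lh_Nr h hq).near⟩
  show x ∈ (bl z c').erase _
  exact Finset.mem_erase.2 ⟨fun e => hq (e ▸ hx), bl_mono z (by omega) hx⟩

theorem in_root {p : Pt} (hp : p ∈ bl z c') (hF : DepG (bl z c') F) :
    In Λ z c' F ↔ Ig ((Λ.Nr (bl z c') p).W 0) F := by
  have h : Geo.InL Λ (Λ.N (bl z c')) (bl z c') := Geo.inL_N subset_rfl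
  rw [← h.ig_In hF]
  exact h.ig_Nr hp fun s k => (hF s _ k fun x hx => by simp [cst_apply, hx]).symm

theorem en_root {p : Pt} (hp : p ∈ bl z c') (hF : DepG (bl z c') F) :
    EN Λ z c' F = Ex ((Λ.Nr (bl z c') p).W 0) F := by
  have h : Geo.InL Λ (Λ.N (bl z c')) (bl z c') := Geo.inL_N subset_rfl
  rw [← h.nE_EN hF]
  exact h.nE_Nr hp fun s k => (hF s _ k fun x hx => by simp [cst_apply, hx]).symm

/-- tower property in the free box: an insertion against a tame outer observable -/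
theorem tower (hΛ : Λ.Ok) (hrc : r + 2 * Λ.rg ≤ c) (hcR : c + 2 * Λ.rg ≤ R) (hc' : R + 2 * Λ.rg ≤ c')
    (hF : DepG (bl z (r + Λ.rg)) F) (hI : In Λ z c F) (hG : DepG (an z R c') G) (hT : Tame G) :
    In Λ z c' (fun s => F s * G s) ∧ In Λ z c' (fun s => St Λ z R F s * G s) ∧
      EN Λ z c' (fun s => F s * G s) = EN Λ z c' fun s => St Λ z R F s * G s := by
  obtain ⟨p, hp, hm⟩ := amb_corner (R := R + Λ.rg) (c' := c') hΛ z (by omega)
  obtain ⟨hd, -, -, -, h5⟩ := (U.ld1 Λ hΛ).2 z r c R F hrc hcR hF hI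
  have hh := Geo.amb_hole (c := c) hΛ hm (by omega)
  obtain ⟨h1, h2, h3, -⟩ := h5 _ G hm (hG.dep.out (disj_an z R c')) ((hh.ctr.cen hh.anch).ig hT)
  have hG' : DepG (bl z c') G := hG.mono (an_sub_bl _ _ _)
  have d1 : DepG (bl z c') fun s => F s * G s := (hF.mono (bl_mono z (by omega))).mul hG'
  have d2 : DepG (bl z c') fun s => St Λ z R F s * G s :=
    (hd.mono ((an_sub_bl _ _ _).trans (bl_mono z (by omega)))).mul hG'
  exact ⟨(in_root hp d1).2 h1, (in_root hp d2).2 h2, by rw [en_root hp d1, en_root hp d2, h3]⟩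

theorem tame_bdd {C : ℝ} (h : ∀ s, |F s| ≤ C) : Tame F :=
  ⟨C, {0}, fun s => by simpa using h s⟩

end T62

open T62

theorem trfStmt (hH : HsyStmt) : TrfStmt := by
  intro Λ G W hΛ hG h1
  have hq := hΛ.one_le_rg
  obtain ⟨r₁, hr₁, -, -⟩ := h1.ex
  have hgap := h1.gap
  have hrR : G.r ≤ G.R := by
    have h2 : (G.r : ℝ) ≤ G.R := by
      have := hG.lo
      have h0 : (0 : ℝ) ≤ G.r := Nat.cast_nonneg _
      nlinarith [hG.hW]
    exact_mod_cast h2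
  have hout := hG.out
  have hr := hG.hr
  set a := G.r - Λ.rg with ha
  have hca : G.c + 2 * Λ.rg ≤ a := by omega
  obtain ⟨hpos, hdH, -, hκ⟩ := U.lhd Λ hΛ 0 G.c a (by omega) hca
  obtain ⟨κ, k1, k2, k3⟩ := hκ G.R₂ (by omega)
  have hg1 : 1 ≤ gam Λ G.c a := ((U.lgeo Λ hΛ).1 G.c a G.c a le_rfl le_rfl hca).1
  have hκ0 : 0 < κ := lt_of_lt_of_le (by positivity) k1
  refine ⟨κ, fun F s => St Λ 0 a F s / Hd Λ 0 G.c a s, hκ0, k2, fun F hF => ?_⟩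
  obtain ⟨r₀, hr₀, hg₀, hD⟩ := hF.ex
  obtain ⟨d1, i1, b1, n1, -⟩ := (U.ld1 Λ hΛ).2 0 r₀ G.c a F hr₀ hca hD hF.int
  obtain ⟨d2, -, -, n2, -⟩ := (U.ld1 Λ hΛ).2 0 r₀ G.c G.R F hr₀ (by omega) hD hF.int
  have hN : 0 ≤ G.N₁ Λ F := Nm_nonneg hΛ _ _ _
  have dt : DepG (an 0 a (a + Λ.rg)) fun s => St Λ 0 a F s / Hd Λ 0 G.c a s := fun s t h hst => by
    show St Λ 0 a F s / Hd Λ 0 G.c a s = St Λ 0 a F t / Hd Λ 0 G.c a t
    rw [d1 s t h hst, hdH s t h hst]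
  have bt : ∀ s, |St Λ 0 a F s / Hd Λ 0 G.c a s| ≤ 4 * G.N₁ Λ F := fun s => by
    rw [abs_div, abs_of_pos (hpos s), div_le_iff₀ (hpos s)]
    refine (abs_Ex_le (hΛ.wt_D _ s).nonneg (i1 s)).trans ((b1 s).trans ?_)
    refine mul_le_mul_of_nonneg_right (mul_le_mul_of_nonneg_right ?_ hN) (hpos s).le
    calc gam Λ r₀ G.c * gam Λ G.c a ≤ 2 * 2 := mul_le_mul hg₀ hF.gam (by linarith) (by norm_num)
      _ = 4 := by norm_num
  obtain ⟨s1, s2, s3, -, -, s6⟩ := hH Λ G.c a F hΛ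
  obtain ⟨s4, s5⟩ := s3 (by omega) hca
  refine ⟨dt.mono (an_mono (by omega) (by omega)), bt, ?_, fun ho s => ?_, fun he s => ?_,
    fun h4 => ?_, fun Φ hΦ hT => ?_, d2.mono (an_mono le_rfl (by omega)),
    (n2 G.R₂ (by omega)).2.1, fun φ hφ hb => ?_⟩
  · exact (n1 G.R₂ (by omega)).2.2.2.2.trans (mul_le_mul_of_nonneg_right hg₀ hN)
  · show St Λ 0 a F (-s) / Hd Λ 0 G.c a (-s) = -(St Λ 0 a F s / Hd Λ 0 G.c a s)
    rw [s1, s4 s, ← neg_div]
    congr 1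
    rw [show (fun t => F (-t)) = fun t => -F t from funext ho]
    exact Ex_neg _ _
  · show St Λ 0 a F (-s) / Hd Λ 0 G.c a (-s) = St Λ 0 a F s / Hd Λ 0 G.c a s
    rw [s1, s4 s, show (fun t => F (-t)) = F from funext he]
  · refine (hH Λ G.c a _ hΛ).2.2.2.2.2.2 fun k s => ?_
    show St Λ 0 a F (ga k s) / Hd Λ 0 G.c a (ga k s) = St Λ 0 a F s / Hd Λ 0 G.c a s
    rw [s2, s5, show (fun t => F (ga k t)) = F from funext (s6.1 h4 k)]
  · have hΦ' : DepG (an 0 a G.R₂) Φ := hΦ.mono (an_mono (by omega) le_rfl)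
    obtain ⟨t1, -, t3⟩ := tower hΛ hr₀ hca (c' := G.R₂) (by omega) hD hF.int hΦ' hT
    refine ⟨t1, ?_⟩
    have hcn : Cn (Λ.N (an 0 G.c G.R₂)) (an 0 G.c G.R₂) :=
      (Geo.inL_N subset_rfl).cn (Geo.cnL_an hΛ 0 (by omega))
    have hI : Ig (rW (Λ.N (an 0 G.c G.R₂)) (an 0 G.c G.R₂))
        fun s => St Λ 0 a F s / Hd Λ 0 G.c a s * Φ s :=
      (rW_cen (hΛ.ctr_N _).1 hcn (Geo.an_nonempty 0 (by omega))).ig ((tame_bdd bt).mul hT)
    have := (k3 _ ((dt.mono (an_mono le_rfl (by omega))).mul hΦ') hI).2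
    show EN Λ 0 G.R₂ _ = κ * EA Λ 0 G.c G.R₂ _
    rw [t3, ← this]
    congr 1
    funext s
    have := (hpos s).ne'
    field_simp
  · exact (tower hΛ hr₀ (R := G.R) (c' := G.R₂) (by omega) (by omega) hD hF.int hφ (tame_bdd hb)).2.2.symm

end Crest.Agent.T145.Kr
end

-- ▼ part T145/KrAll_77
section

/-!
# Row 145, module KERNEL: every Prop of `KrDef_77`, without hypotheses (helper77)
-/

set_option autoImplicit false

namespace Crest.Agent.T145.Kr.U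

theorem ncGd : Nc.GdStmt := Nc.U.gd All.t3
theorem inp : Mx.Inp :=
  ⟨All.t1m, All.t1a, All.t1x, All.sd, All.t2p, All.r1, All.r1c, All.br, All.rj, All.afac, ncGd⟩
theorem dlg : DlgStmt := All.dlg_of inp.dl

theorem ks : KsStmt := ksStmt
theorem sw : SwStmt := swStmt
theorem qp : QpStmt := qpStmt
theorem rjl : RjlStmt := rjlStmt
theorem gffA : GffAStmt := gffAStmt Pot.p0Stmt rjl dlg All.afac All.t1a
theorem q : QStmt := qStmt gffA qp
theorem alg : AlgStmt := algStmt sw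
theorem k2 : K2Stmt := k2Stmt alg
theorem k3 : K3Stmt := k3Stmt
theorem m3 : M3Stmt := m3Stmt alg
theorem mom : MomStmt := momStmt
theorem typ : TypStmt := typStmt alg k3 m3 mom
theorem bar : BarStmt := barStmt alg
theorem tr : TrStmt := trStmt Pot.gszStmt alg
theorem uvR : UvRStmt := uvRStmt inp.uv (Mx.gd_of ncGd) alg
theorem r : RStmt := rStmt gffA sw uvR tr alg All.t1a All.t1m
theorem f : FStmt := fStmt inp.mix0 alg All.t1m
theorem lam : LamStmt := lamStmt m3 alg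
theorem k0 : K0Stmt := k0Stmt r f lam k2 bar alg All.t1a All.t1m
theorem ksh : KshStmt := kshStmt ks k0 k2 typ bar alg All.t1a
theorem hol : HolStmt := holStmt ksh bar k3 mom alg
theorem hsy : HsyStmt := hsyStmt
theorem trf : TrfStmt := trfStmt hsy
theorem kOdd : KOddStmt := kOddStmt hol trf k3 mom alg
theorem kEven : KEvenStmt := kEvenStmt hol trf k3 mom alg

end Crest.Agent.T145.Kr.U
end

-- ▼ part T145/DfAlg_3
section

/-!
# Row 145, module Df: ALG (`Df.algStmt`), symmetries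
-/

set_option autoImplicit false

namespace Crest.Agent.T145.Df

open Finset Nc Nc.Geo

namespace Alg3

variable {Λ : Lat}

theorem mem_orb {w v : Pt} : v ∈ orb w ↔ (v.1.natAbs = w.1.natAbs ∧ v.2.natAbs = w.2.natAbs) ∨
    (v.1.natAbs = w.2.natAbs ∧ v.2.natAbs = w.1.natAbs) := by
  rw [orb, mem_filter, Pw3.mem_bl_nr, sub_zero, nr, nr]; omega

theorem card_orb (w : Pt) : (orb w).card ≤ 8 := by
  have h : orb w ⊆ ({w.1, -w.1} ×ˢ {w.2, -w.2}) ∪ ({w.2, -w.2} ×ˢ {w.1, -w.1}) := fun v hv => by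
    simp only [mem_orb, mem_union, mem_product, mem_insert, mem_singleton] at hv ⊢; omega
  have h1 := card_le_two (a := w.1) (b := -w.1)
  have h2 := card_le_two (a := w.2) (b := -w.2)
  refine (card_le_card h).trans ((card_union_le _ _).trans ?_)
  rw [card_product, card_product]
  nlinarith

theorem depG_JL (z : Pt) : DepG (bl z Λ.rg) (JL Λ.J z) := fun s s' k h =>
  sum_congr rfl fun y hy => by
    rw [h z (self_mem_bl _ _), h (z + y) (by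
      simpa only [mem_bl_abs, Prod.fst_add, Prod.snd_add, add_sub_cancel_left] using Lat.le_rg hy)]
    push_cast; ring

theorem ins_JL (z : Pt) : Ins z Λ.rg (JL Λ.J z) :=
  ⟨depG_JL z, Tame.sum _ fun y _ => (Tame.ev z).sub (Tame.ev (z + y))⟩

theorem odd_JL (J : Finset Pt) (z : Pt) : OddF (JL J z) := fun s => by
  simp only [JL, Finsupp.neg_apply, ← sum_neg_distrib]
  exact sum_congr rfl fun _ _ => by push_cast; ring

/-- covariance of `JL` under lattice symmetries -/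
theorem JL_map {φ : Pt ≃ Pt} (h : Λ.Sym φ) (x : Pt) (s : Cfg Pt) :
    JL Λ.J (φ x) (mapH φ s) = JL Λ.J x s := by
  simp only [JL, mapH_apply, Equiv.symm_apply_apply]
  refine (sum_equiv (((Equiv.addLeft x).trans φ).trans (Equiv.subRight (φ x))) (fun y => ?_)
    fun y _ => ?_).symm
  · simpa using (h x (x + y)).symm
  · simp

theorem sum_map {φ : Pt ≃ Pt} {S : Finset Pt} (hS : ∀ x, x ∈ S ↔ φ x ∈ S) {G : Pt → Cfg Pt → ℝ}
    (h : ∀ x s, G (φ x) (mapH φ s) = G x s) (s : Cfg Pt) :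
    ∑ x ∈ S, G x (mapH φ s) = ∑ x ∈ S, G x s :=
  (sum_equiv φ hS fun x _ => (h x s).symm).symm

theorem rot_bl (z x : Pt) (r : ℕ) : x ∈ bl z r ↔ rotZ z x ∈ bl z r := by
  simp only [mem_bl, rotZ, Equiv.coe_fn_mk]; omega

theorem swp_bl (z x : Pt) (r : ℕ) : x ∈ bl z r ↔ swpZ z x ∈ bl z r := by
  simp only [mem_bl, swpZ, Equiv.coe_fn_mk]; omega

theorem KK_map (hΛ : Λ.Ok) {φ : Pt ≃ Pt} (h : Λ.Sym φ) {D D' : Finset Pt}
    (hD : D.map φ.toEmbedding = D') (x y : Pt) :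
    KK Λ (Λ.D D') (φ x) (φ y) = KK Λ (Λ.D D) x y := by
  simp only [KK, h.ex_D0 hΛ hD, JL_map h]

theorem sy4_kk (hΛ : Λ.Ok) (R : ℕ) : Xi.Sy4 (kk Λ R) :=
  Xi.Sy4.of (fun x => by
    simpa only [Om.rotZ_self, kk] using KK_map hΛ (Om.sym_rot hΛ 0) (Om.map_bl_rot 0 R) 0 x) fun x => by
    simpa only [Om.swpZ_self, kk] using KK_map hΛ (Om.sym_swp hΛ 0) (Om.map_bl_swp 0 R) 0 x

theorem orb_eq {K : Pt → ℝ} (h : Xi.Sy4 K) {w v : Pt} (hv : v ∈ orb w) : K v = K w := by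
  have key : ∀ v w : Pt, v.1.natAbs = w.1.natAbs → v.2.natAbs = w.2.natAbs → K v = K w := by
    rintro ⟨a, b⟩ ⟨c, d⟩ h1 h2
    dsimp only at h1 h2
    rcases Int.natAbs_eq_natAbs_iff.1 h1 with rfl | rfl <;>
      rcases Int.natAbs_eq_natAbs_iff.1 h2 with rfl | rfl
    exacts [rfl, h.neg_snd (_, _), h.neg_fst (_, _), h.neg (_, _)]
  rcases mem_orb.1 hv with h1 | h1
  · exact key v w h1.1 h1.2
  · exact (key v w.swap h1.1 h1.2).trans (h.swap w)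

end Alg3

open Alg3

/-- ALG -/
theorem algStmt : AlgStmt := by
  refine ⟨fun _ _ _ => Pw3.mem_bl_nr, fun w => ⟨mem_orb.2 (Or.inl ⟨rfl, rfl⟩), card_orb w,
    fun v hv => by rw [mem_orb] at hv; rw [nr, nr]; omega⟩, fun Λ hΛ z => ?_⟩
  have hr := Om.sym_rot hΛ
  have hs := Om.sym_swp hΛ
  refine ⟨ins_JL z, odd_JL _ z, fun s => ⟨?_, ?_⟩, Om.ins_est hΛ z, Om.even_est z, Om.d4_est hΛ z,
    fun r R => ⟨fun s => ⟨?_, ?_⟩, fun s => ⟨?_, ?_⟩⟩, fun s => ⟨?_, ?_⟩,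
    fun R w => ⟨?_, fun v hv => orb_eq (sy4_kk hΛ R) hv⟩⟩
  · simpa only [Om.rotZ_self] using JL_map (hr z) z s
  · simpa only [Om.swpZ_self] using JL_map (hs z) z s
  · exact sum_map (fun x => by rw [mem_an, mem_an, ← rot_bl, ← rot_bl]) (Om.est_rot hΛ z) s
  · exact sum_map (fun x => by rw [mem_an, mem_an, ← swp_bl, ← swp_bl]) (Om.est_swp hΛ z) s
  · exact sum_map (fun x => rot_bl z x R) (Om.est_rot hΛ z) s
  · exact sum_map (fun x => swp_bl z x R) (Om.est_swp hΛ z) s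
  · exact sum_map (fun x => by simp only [mem_orb, rotZ, Equiv.coe_fn_mk]; simp; omega)
      (JL_map (hr 0)) s
  · exact sum_map (fun x => by simp only [mem_orb, swpZ, Equiv.coe_fn_mk]; simp; omega)
      (JL_map (hs 0)) s
  · have := KK_map hΛ (Lat.sym_add Λ z) (D := bl 0 R) (D' := bl z R) (by
      ext x; rw [mem_map_equiv]; simp [mem_bl]; omega) 0 w
    simpa only [Equiv.coe_addRight, zero_add, add_comm w z, kk] using this

end Crest.Agent.T145.Df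
end

-- ▼ part T145/DfBump_65
section

/-!
# Row 145, module Df: the test functions (`BumpStmt`) and the identity `τ X_u = ∑ u x * JL x` (`IdStmt`) (helper65)
-/

set_option autoImplicit false

namespace Crest.Agent.T145.Df

open Finset

namespace B65

theorem mem_bl0 {x : Pt} {r : ℕ} : x ∈ bl 0 r ↔ nr x ≤ r := by
  rw [mem_bl]; simp only [nr, Prod.fst_zero, Prod.snd_zero]; omega

theorem l1_le (w : Pt) : ∑ i, |co i w| ≤ 2 * (nr w : ℝ) := by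
  rw [S58.l1_eq]
  have h1 : |(w.1 : ℝ)| ≤ nr w := by
    rw [← Int.cast_abs, ← Int.natCast_natAbs, Int.cast_natCast]
    exact_mod_cast le_max_left _ _
  have h2 : |(w.2 : ℝ)| ≤ nr w := by
    rw [← Int.cast_abs, ← Int.natCast_natAbs, Int.cast_natCast]
    exact_mod_cast le_max_right _ _
  linarith

theorem lip_nr {u : Pt → ℝ} {K L : ℝ} (h : Sm2 u K L) (hL : 0 < L) (x y : Pt) :
    |u x - u y| ≤ 2 * K * nr (x - y) / L := by
  have hK := h.nonneg hL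
  calc |u x - u y| ≤ K / L * ∑ i, |co i (x - y)| := h.lip y x
    _ ≤ K / L * (2 * (nr (x - y) : ℝ)) := mul_le_mul_of_nonneg_left (l1_le _) (by positivity)
    _ = _ := by ring

theorem ub_ne {N : ℕ} (hN : 1 ≤ N) {x : Pt} (h : ub N x ≠ 0) : nr x < 2 * N := by
  have hN' : (0 : ℝ) < N := by exact_mod_cast hN
  obtain ⟨⟨h1, h2⟩, h3, h4⟩ := bump_ne hN' (by linarith) (by linarith) h
  have a1 : -(2 * (N : ℤ)) < x.1 := by exact_mod_cast h1
  have a2 : x.1 < (N : ℤ) + N := by exact_mod_cast h2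
  have a3 : -(2 * (N : ℤ)) < x.2 := by exact_mod_cast h3
  have a4 : x.2 < (N : ℤ) + N := by exact_mod_cast h4
  simp only [nr]; omega

theorem ch_ne {N : ℕ} (hN : 1 ≤ N) {x : Pt} (h : ch N x ≠ 0) : nr x < 4 * N := by
  have hN' : (0 : ℝ) < N := by exact_mod_cast hN
  obtain ⟨⟨h1, h2⟩, h3, h4⟩ := bump_ne hN' (by linarith) (by linarith) h
  have a1 : -(4 * (N : ℤ)) < x.1 := by exact_mod_cast h1
  have a2 : x.1 < 3 * (N : ℤ) + N := by exact_mod_cast h2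
  have a3 : -(4 * (N : ℤ)) < x.2 := by exact_mod_cast h3
  have a4 : x.2 < 3 * (N : ℤ) + N := by exact_mod_cast h4
  simp only [nr]; omega

theorem ch_one {N : ℕ} (hN : 1 ≤ N) {x : Pt} (h : nr x ≤ 3 * N) : ch N x = 1 := by
  have hN' : (0 : ℝ) < N := by exact_mod_cast hN
  have a1 : -(4 * (N : ℤ)) + N ≤ x.1 := by simp only [nr] at h; omega
  have a2 : x.1 ≤ 3 * (N : ℤ) := by simp only [nr] at h; omega
  have a3 : -(4 * (N : ℤ)) + N ≤ x.2 := by simp only [nr] at h; omega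
  have a4 : x.2 ≤ 3 * (N : ℤ) := by simp only [nr] at h; omega
  exact bump_one hN' (by exact_mod_cast a1) (by exact_mod_cast a2) (by exact_mod_cast a3)
    (by exact_mod_cast a4)

theorem ub_one {N : ℕ} (hN : 1 ≤ N) {x : Pt} (h : nr x ≤ N) : ub N x = 1 := by
  have hN' : (0 : ℝ) < N := by exact_mod_cast hN
  have a1 : -(2 * (N : ℤ)) + N ≤ x.1 := by simp only [nr] at h; omega
  have a2 : x.1 ≤ (N : ℤ) := by simp only [nr] at h; omega
  have a3 : -(2 * (N : ℤ)) + N ≤ x.2 := by simp only [nr] at h; omega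
  have a4 : x.2 ≤ (N : ℤ) := by simp only [nr] at h; omega
  exact bump_one hN' (by exact_mod_cast a1) (by exact_mod_cast a2) (by exact_mod_cast a3)
    (by exact_mod_cast a4)

theorem UU_nonneg (N : ℕ) (w : Pt) : 0 ≤ UU N w := sum_nonneg fun _ _ => sq_nonneg _

theorem UU_le {N : ℕ} (hN : 1 ≤ N) (w : Pt) : UU N w ≤ 49 * 1152 ^ 2 * (nr w : ℝ) ^ 2 := by
  have hN' : (1 : ℝ) ≤ N := by exact_mod_cast hN
  have hs : Sm2 (ub N) 576 N := bump_sm2 _ _ _ _ (by linarith)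
  have h1 : ∀ x ∈ bl 0 (3 * N), (ub N (x + w) - ub N x) ^ 2 ≤ (1152 * nr w / N) ^ 2 := fun x _ => by
    have := lip_nr hs (by linarith) (x + w) x
    rw [add_sub_cancel_left] at this
    exact sq_le_sq' (by linarith [(abs_le.1 this).1]) (by linarith [(abs_le.1 this).2])
  refine (sum_le_card_nsmul _ _ _ h1).trans ?_
  rw [card_bl, nsmul_eq_mul]
  push_cast
  have h2 : (2 * (3 * (N : ℝ)) + 1) ^ 2 ≤ 49 * N ^ 2 := by nlinarith
  calc (2 * (3 * (N : ℝ)) + 1) ^ 2 * (1152 * nr w / N) ^ 2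
      ≤ 49 * N ^ 2 * (1152 * nr w / N) ^ 2 := mul_le_mul_of_nonneg_right h2 (sq_nonneg _)
    _ = _ := by field_simp

theorem one_le_UU {N : ℕ} (hN : 1 ≤ N) : 1 ≤ UU N (1, 0) := by
  have hN' : (1 : ℝ) ≤ N := by exact_mod_cast hN
  set g : ℕ × ℕ → Pt := fun p => (-(2 * (N : ℤ)) + p.2, p.1) with hg
  set F : Pt → ℝ := fun x => (ub N (x + (1, 0)) - ub N x) ^ 2 with hF
  have inj : Set.InjOn g (range N ×ˢ range N : Finset (ℕ × ℕ)) := fun p _ q _ h => by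
    simp only [hg, Prod.mk.injEq] at h
    ext <;> omega
  have row : ∀ j ∈ range N, 1 ≤ N * ∑ i ∈ range N, F (g (j, i)) := fun j hj => by
    rw [mem_range] at hj
    have e : ∑ i ∈ range N, (ub N (g (j, i + 1)) - ub N (g (j, i))) = 1 := by
      rw [sum_range_sub (fun i => ub N (g (j, i)))]
      have e1 : ub N (g (j, N)) = 1 := ub_one hN (by simp only [hg, nr]; omega)
      have e0 : ub N (g (j, 0)) = 0 := by
        by_contra h
        have := ub_ne hN h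
        simp only [hg, nr] at this
        omega
      rw [e1, e0, sub_zero]
    have cs := sq_sum_le_card_mul_sum_sq (s := range N)
      (f := fun i => ub N (g (j, i + 1)) - ub N (g (j, i)))
    rw [e, card_range] at cs
    refine le_trans (by norm_num) (cs.trans (le_of_eq ?_))
    congr 1
    refine sum_congr rfl fun i _ => ?_
    have : g (j, i + 1) = g (j, i) + (1, 0) := by
      simp only [hg]; ext <;> simp; ring
    rw [this]
  have h1 : ∑ p ∈ range N ×ˢ range N, F (g p) ≤ UU N (1, 0) := by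
    rw [← sum_image (f := F) inj]
    refine sum_le_sum_of_subset_of_nonneg (fun x hx => ?_) fun _ _ _ => sq_nonneg _
    obtain ⟨p, hp, rfl⟩ := mem_image.1 hx
    rw [mem_product, mem_range, mem_range] at hp
    rw [mem_bl0]; simp only [hg, nr]; omega
  rw [sum_product] at h1
  have h2 := sum_le_sum row
  rw [sum_const, card_range, nsmul_eq_mul, mul_one, ← mul_sum] at h2
  nlinarith

theorem sum_JL {Λ : Lat} (hΛ : Λ.Ok) {D B : Finset Pt} {u : Pt → ℝ} (s : Cfg Pt) (hu : Sup B u)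
    (hB : ∀ x ∈ B, bl x Λ.rg ⊆ D) :
    ∑ x ∈ B, u x * JL Λ.J x s = ∑ e ∈ Λ.edI D, (u e.2 - u e.1) * (dE e s : ℝ) := by
  have hBD : B ⊆ D := fun x hx => hB x hx (self_mem_bl _ _)
  have h := ip_dv (E := Λ.edI D) (B := D) (fun e => (dE e s : ℝ))
    (fun e he => ⟨(Lat.mem_edI.1 he).2.1, (Lat.mem_edI.1 he).2.2⟩) u
  rw [ip, ← sum_subset hBD fun x _ hx => by rw [hu x hx, mul_zero]] at h
  rw [sum_congr rfl fun e _ => mul_comm (u e.2 - u e.1) (dE e s : ℝ), ← h]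
  refine sum_congr rfl fun x hx => ?_
  rw [mul_comm, RJ57.dv_edI, JL, hΛ.sum_J]
  congr 1
  refine sum_congr rfl fun y hy => ?_
  have hy' := Lat.le_rg (Lat.mem_Jp.1 hy).1
  rw [abs_le, abs_le] at hy'
  have m1 : x - y ∈ D := hB x hx (by rw [mem_bl]; simp only [Prod.fst_sub, Prod.snd_sub]; omega)
  have m2 : x + y ∈ D := hB x hx (by rw [mem_bl]; simp only [Prod.fst_add, Prod.snd_add]; omega)
  rw [RJ57.gt_one m1 (by rw [sub_add_cancel]; exact hBD hx), RJ57.gt_one (hBD hx) m2]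
  simp only [dE, ← sub_eq_add_neg]
  push_cast
  ring

theorem tau_pr {Λ : Lat} (hΛ : Λ.Ok) {D B : Finset Pt} {u : Pt → ℝ} (s : Cfg Pt) (hu : Sup B u)
    (hB : ∀ x ∈ B, bl x Λ.rg ⊆ D) : Λ.τ * pr (Λ.Au D u) s = ∑ x ∈ B, u x * JL Λ.J x s := by
  rw [sum_JL hΛ s hu hB, Lat.Au, pr_dv, mul_sum]
  refine sum_congr rfl fun e _ => ?_
  have := hΛ.pos.ne'
  field_simp

theorem tame_JL (J : Finset Pt) (x : Pt) : Tame (JL J x) :=
  Tame.sum J fun y _ => (Tame.ev x).sub (Tame.ev (x + y))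

end B65

open B65

theorem bumpStmt : BumpStmt := by
  refine ⟨49 * 1152 ^ 2, by norm_num, fun N hN => ?_⟩
  have hN' : (0 : ℝ) < N := by exact_mod_cast hN
  have hu : Sm2 (ub N) 576 N := bump_sm2 _ _ _ _ hN'
  have hc : Sm2 (ch N) 576 N := bump_sm2 _ _ _ _ hN'
  refine ⟨⟨hu.mono hN' (by norm_num), hc.mono hN' (by norm_num)⟩,
    fun x => ⟨abs_bump_le x, abs_bump_le x, ub_ne hN, ch_ne hN, ch_one hN⟩,
    fun x y => ⟨(lip_nr hu hN' x y).trans ?_, (lip_nr hc hN' x y).trans ?_⟩,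
    fun w => ⟨UU_nonneg N w, UU_le hN w⟩, one_le_UU hN⟩ <;>
  exact div_le_div_of_nonneg_right
    (mul_le_mul_of_nonneg_right (by norm_num) (Nat.cast_nonneg _)) hN'.le

theorem idStmt' : IdStmt := by
  intro Λ hΛ
  refine ⟨fun D B u s hu hB => ⟨sum_JL hΛ s hu hB, tau_pr hΛ s hu hB⟩, fun N hN => ?_⟩
  have hN1 : 1 ≤ N := hΛ.one_le_rg.trans hN
  have hτ := hΛ.pos.ne'
  refine ⟨?_, ?_, ?_⟩
  · rw [Lat.En, Lat.sum_edI, mul_sum, EE]
    refine sum_congr rfl fun y hy => ?_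
    have hy' := Lat.le_rg (Lat.mem_Jp.1 hy).1
    rw [abs_le, abs_le] at hy'
    rw [mul_sum, UU]
    symm
    refine sum_subset_zero_on_sdiff (fun x hx => ?_) (fun x hx => ?_) fun x _ => by field_simp
    · rw [mem_filter, mem_bl, mem_bl]
      rw [mem_bl] at hx
      simp only [Prod.fst_add, Prod.snd_add, Prod.fst_zero, Prod.snd_zero] at hx ⊢
      omega
    · have hx' := (mem_sdiff.1 hx).2
      rw [mem_bl0] at hx'
      have h1 : ub N x = 0 := by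
        by_contra h
        have := ub_ne hN1 h
        omega
      have h2 : ub N (x + y) = 0 := by
        by_contra h
        have := ub_ne hN1 h
        simp only [nr, Prod.fst_add, Prod.snd_add] at this hx'
        omega
      simp [h1, h2]
  · exact (one_le_UU hN1).trans
      (single_le_sum (f := fun y => UU N y) (fun y _ => UU_nonneg N y) hΛ.e1)
  · have hu : Sup (bl 0 (2 * N)) (ub N) := fun x hx => by
      by_contra h
      exact hx (mem_bl0.2 (ub_ne hN1 h).le)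
    have hB : ∀ x ∈ bl 0 (2 * N), bl x Λ.rg ⊆ bl 0 (10 * N) := fun x hx =>
      bl_subset_bl hx (by omega)
    have hc := hΛ.cen_D (bl 0 (10 * N))
    have h0 : Ex (WD Λ (10 * N)) (fun s => pr (Λ.Au (bl 0 (10 * N)) (ub N)) s) = 0 :=
      hc.ex_odd fun s => map_neg _ s
    rw [VJ, Vr, Cv, h0, mul_zero, sub_zero, ← Ex_const_mul]
    have e : ∀ s : Cfg Pt, Λ.τ ^ 2 * (pr (Λ.Au (bl 0 (10 * N)) (ub N)) s *
        pr (Λ.Au (bl 0 (10 * N)) (ub N)) s) = ∑ x ∈ bl 0 (2 * N), ∑ y ∈ bl 0 (2 * N),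
          ub N x * ub N y * (JL Λ.J x s * JL Λ.J y s) := fun s => by
      have := tau_pr hΛ s hu hB
      calc _ = (Λ.τ * pr (Λ.Au (bl 0 (10 * N)) (ub N)) s) *
            (Λ.τ * pr (Λ.Au (bl 0 (10 * N)) (ub N)) s) := by ring
        _ = _ := by
          rw [this, sum_mul_sum]
          exact sum_congr rfl fun x _ => sum_congr rfl fun y _ => by ring
    simp only [e]
    have ht : ∀ x y : Pt, Tame fun s => ub N x * ub N y * (JL Λ.J x s * JL Λ.J y s) := fun x y =>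
      ((tame_JL Λ.J x).mul (tame_JL Λ.J y)).const_mul _
    rw [WD, Ex_sum _ fun x _ => hc.ig (Tame.sum _ fun y _ => ht x y)]
    refine sum_congr rfl fun x _ => ?_
    rw [Ex_sum _ fun y _ => hc.ig (ht x y)]
    exact sum_congr rfl fun y _ => Ex_const_mul _ _ _


end Crest.Agent.T145.Df
end

-- ▼ part T145/DfCau_4

/-!
# Row 145, module Df: the kernel and its derivative are uniformly Cauchy (`Df.cauStmt`, helper4)
-/

set_option autoImplicit false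

namespace Crest.Agent.T145.Df

open Finset Filter Topology Nc

namespace Cau4

/-- the orbit-symmetrised product -/
noncomputable def H (Λ : Lat) (w : Pt) (s : Cfg Pt) : ℝ := JL Λ.J 0 s * ∑ v ∈ orb w, JL Λ.J v s

variable {Λ : Lat} {w : Pt}

theorem ins_J (hA : AlgStmt) (hΛ : Λ.Ok) {v : Pt} {d r : ℕ} (hv : v ∈ bl 0 d) (h : Λ.rg + d ≤ r) :
    Ins 0 r (JL Λ.J v) :=
  ⟨(hA.2.2 Λ hΛ v).1.1.mono (bl_subset_bl hv h), (hA.2.2 Λ hΛ v).1.2⟩

theorem ins_e (hA : AlgStmt) (hΛ : Λ.Ok) {v : Pt} {d r : ℕ} (hv : v ∈ bl 0 d) (h : Λ.rg + d ≤ r) :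
    Ins 0 r (es Λ v) :=
  ⟨(hA.2.2 Λ hΛ v).2.2.2.1.1.mono (bl_subset_bl hv h), (hA.2.2 Λ hΛ v).2.2.2.1.2⟩

theorem orb_sub {v : Pt} (hv : v ∈ orb w) : v ∈ bl 0 (nr w) := (mem_filter.1 hv).1

theorem ins_mul {z : Pt} {r : ℕ} {F G : Cfg Pt → ℝ} (hF : Ins z r F) (hG : Ins z r G) :
    Ins z r fun s => F s * G s := ⟨hF.1.mul hG.1, hF.2.mul hG.2⟩

theorem ins_H (hA : AlgStmt) (hΛ : Λ.Ok) {r : ℕ} (h : Λ.rg + nr w ≤ r) : Ins 0 r (H Λ w) :=
  ins_mul (ins_J hA hΛ (self_mem_bl 0 0) (by omega))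
    ⟨DepG.sum fun _ hv => (ins_J hA hΛ (orb_sub hv) h).1,
      Tame.sum _ fun _ hv => (ins_J hA hΛ (orb_sub hv) h).2⟩

theorem even_H (hA : AlgStmt) (hΛ : Λ.Ok) : EvenF (H Λ w) := fun s => by
  have e : ∀ v, JL Λ.J v (-s) = -JL Λ.J v s := fun v => (hA.2.2 Λ hΛ v).2.1 s
  simp only [H, e, sum_neg_distrib, neg_mul_neg]

theorem d4_H (hA : AlgStmt) (hΛ : Λ.Ok) : D4 0 (H Λ w) := fun s => by
  have e1 := (hA.2.2 Λ hΛ 0).2.2.1 s
  have e2 := (hA.2.2 Λ hΛ w).2.2.2.2.2.2.2.1 s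
  simp only at e2
  simp only [H, e1.1, e1.2, e2.1, e2.2, and_self]

theorem ex_abs_sum {W : Cfg Pt → ℝ} (hW : Cen W) {X : Pt → Cfg Pt → ℝ} {T : Finset Pt} {C : ℝ}
    (hC : 0 ≤ C) (hT : T.card ≤ 8) (h : ∀ v ∈ T, Tame (X v) ∧ Ex W (fun s => |X v s|) ≤ C) :
    Ex W (fun s => |∑ v ∈ T, X v s|) ≤ 8 * C := by
  have h8 : (T.card : ℝ) ≤ 8 := by exact_mod_cast hT
  refine (Ex_mono hW.nonneg (hW.ig (Tame.sum _ fun v hv => (h v hv).1).abs)
    (hW.ig (Tame.sum _ fun v hv => (h v hv).1.abs)) fun s => abs_sum_le_sum_abs _ _).trans ?_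
  rw [Ex_sum _ fun v hv => hW.ig (h v hv).1.abs]
  refine (sum_le_card_nsmul _ _ _ fun v hv => (h v hv).2).trans ?_
  rw [nsmul_eq_mul]
  exact mul_le_mul_of_nonneg_right h8 hC

/-- the bare bounds in one model -/
structure Mo (Λ : Lat) (w : Pt) (ρ : ℕ) (C : ℝ) (W : Cfg Pt → ℝ) : Prop where
  k : Ex W (fun s => |JL Λ.J 0 s * JL Λ.J w s|) ≤ C
  h : Ex W (fun s => |H Λ w s|) ≤ 8 * C
  e : ∀ z ∈ bl 0 ρ, Ex W (fun s => |es Λ z s|) ≤ C
  he : ∀ z ∈ bl 0 ρ, Ex W (fun s => |H Λ w s * es Λ z s|) ≤ 8 * C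

theorem mo (hA : AlgStmt) (hΛ : Λ.Ok) {C : ℝ} (hC : 1 ≤ C) {m : Mdl Pt} (hc : m.Ctr) (ha : m.Anch) {ρ : ℕ}
    (hM : ∀ x y v : Pt, Sees Λ m x → Sees Λ m y → Sees Λ m v →
      Ex (m.W 0) (fun s => |JL Λ.J x s|) ≤ C ∧ Ex (m.W 0) (fun s => |es Λ v s|) ≤ C ∧
      Ex (m.W 0) (fun s => |JL Λ.J x s * JL Λ.J y s|) ≤ C ∧
      Ex (m.W 0) (fun s => |JL Λ.J x s * es Λ v s|) ≤ C ∧
      Ex (m.W 0) (fun s => |JL Λ.J x s * JL Λ.J y s * es Λ v s|) ≤ C)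
    (hS : ∀ x ∈ bl 0 (nr w + ρ), Sees Λ m x) : Mo Λ w ρ C (m.W 0) := by
  have h0 := hS 0 (self_mem_bl _ _)
  have h1 : ∀ v ∈ orb w, Sees Λ m v := fun v hv => hS v (bl_mono 0 (by omega) (orb_sub hv))
  have h2 : ∀ z ∈ bl 0 ρ, Sees Λ m z := fun z hz => hS z (bl_mono 0 (by omega) hz)
  have tJ : ∀ v, Tame (JL Λ.J v) := fun v => (hA.2.2 Λ hΛ v).1.2
  have te : ∀ v, Tame (es Λ v) := fun v => (hA.2.2 Λ hΛ v).2.2.2.1.2
  refine ⟨(hM 0 w 0 h0 (h1 w (hA.2.1 w).1) h0).2.2.1, ?_, fun z hz => (hM 0 0 z h0 h0 (h2 z hz)).2.1,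
    fun z hz => ?_⟩
  · simp only [H, mul_sum]
    exact ex_abs_sum (hc.cen ha) (by linarith) (hA.2.1 w).2.1 fun v hv =>
      ⟨(tJ 0).mul (tJ v), (hM 0 v 0 h0 (h1 v hv) h0).2.2.1⟩
  · simp only [H, mul_sum, sum_mul]
    exact ex_abs_sum (hc.cen ha) (by linarith) (hA.2.1 w).2.1 fun v hv =>
      ⟨((tJ 0).mul (tJ v)).mul (te z), (hM 0 v z h0 (h1 v hv) (h2 z hz)).2.2.2.2⟩

theorem amb_D (hΛ : Λ.Ok) {r R : ℕ} (h : r ≤ R) : Amb Λ (Λ.D (bl 0 R)) (bl 0 r) :=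
  ⟨hΛ.ctr_D _, hΛ.anch_D _, bl_mono 0 h, Lat.near_D (bl_mono 0 h)⟩

/-- the local covariance -/
noncomputable def cv (Λ : Lat) (w : Pt) (R : ℕ) (z : Pt) : ℝ :=
  Ex (WD Λ R) (fun s => H Λ w s * es Λ z s) - Ex (WD Λ R) (H Λ w) * Ex (WD Λ R) (es Λ z)

theorem kd_eq (hA : AlgStmt) (hE : EnStmt) (hΛ : Λ.Ok) {ρ R : ℕ} (h : ρ ≤ R) :
    (orb w).card * kd Λ R w = ∑ z ∈ bl 0 ρ, cv Λ w R z + ∑ z ∈ an 0 ρ (R + Λ.rg),
      Ex (WD Λ R) fun s => (H Λ w s - Ex (WD Λ R) (H Λ w)) * ec Λ (Λ.D (bl 0 R)) z s := by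
  have hW : Cen (WD Λ R) := hΛ.cen_D _
  have tJ : ∀ v, Tame (JL Λ.J v) := fun v => (hA.2.2 Λ hΛ v).1.2
  have te : ∀ v, Tame (es Λ v) := fun v => (hA.2.2 Λ hΛ v).2.2.2.1.2
  have tc : ∀ v, Tame (ec Λ (Λ.D (bl 0 R)) v) := fun v => (te v).sub (Tame.const _)
  have tH : Tame (H Λ w) := (ins_H hA hΛ le_rfl).2
  have e0 : ∀ z, Ex (WD Λ R) (ec Λ (Λ.D (bl 0 R)) z) = 0 := fun z =>
    (hW.wt.ex_sub_const (hW.ig (te z)) _).trans (sub_self _)
  have e1 : ∀ z, (Ex (WD Λ R) fun s => H Λ w s * ec Λ (Λ.D (bl 0 R)) z s) = cv Λ w R z := fun z => by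
    simp only [ec, mul_sub]
    rw [Ex_sub (hW.ig (tH.mul (te z))) (hW.ig (tH.mul_const _)), Ex_mul_const]
    rfl
  have e2 : ∀ z, (Ex (WD Λ R) fun s => (H Λ w s - Ex (WD Λ R) (H Λ w)) * ec Λ (Λ.D (bl 0 R)) z s) =
      cv Λ w R z := fun z => by
    simp only [sub_mul]
    rw [Ex_sub (hW.ig (tH.mul (tc z))) (hW.ig ((tc z).const_mul _)), Ex_const_mul, e0, e1, mul_zero,
      sub_zero]
  have e3 : (orb w).card * kd Λ R w = ∑ v ∈ orb w, kd Λ R v := by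
    rw [sum_congr rfl (hE Λ hΛ R w).2.1, sum_const, nsmul_eq_mul]
  rw [e3, sum_congr rfl fun v _ => (hE Λ hΛ R v).2.2, sum_comm]
  simp only [e2]
  rw [add_comm (∑ z ∈ bl 0 ρ, _), an, sum_sdiff (bl_mono 0 (by omega))]
  refine sum_congr rfl fun z _ => ?_
  rw [← e1, ← Ex_sum _ fun v _ => hW.ig (((tJ 0).mul (tJ v)).mul (tc z))]
  simp only [H, mul_sum, sum_mul]

theorem cov_diff {a a' b b' c c' e C : ℝ} (he : 0 ≤ e) (hC : 1 ≤ C) (h1 : |a - a'| ≤ e * (8 * C))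
    (h2 : |b - b'| ≤ e * (8 * C)) (h3 : |c - c'| ≤ e * C) (h4 : |b'| ≤ 8 * C) (h5 : |c| ≤ C) :
    |a - b * c - (a' - b' * c')| ≤ e * (24 * C ^ 2) := by
  have e1 : a - b * c - (a' - b' * c') = (a - a') - ((b - b') * c + b' * (c - c')) := by ring
  have k1 : |(b - b') * c| ≤ e * (8 * C) * C := by
    rw [abs_mul]; exact mul_le_mul h2 h5 (abs_nonneg _) (by positivity)
  have k2 : |b' * (c - c')| ≤ 8 * C * (e * C) := by
    rw [abs_mul]; exact mul_le_mul h4 h3 (abs_nonneg _) (by positivity)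
  have k3 : e * (8 * C) ≤ e * (8 * C ^ 2) := mul_le_mul_of_nonneg_left (by nlinarith) he
  rw [e1]
  refine (abs_sub _ _).trans ?_
  have := abs_add_le ((b - b') * c) (b' * (c - c'))
  nlinarith

theorem ev_pow (K : ℝ) {p ε : ℝ} (hp : p < 0) (hε : 0 < ε) :
    ∀ᶠ R : ℕ in atTop, K * (R : ℝ) ^ p ≤ ε := by
  have h : Tendsto (fun R : ℕ => K * (R : ℝ) ^ p) atTop (𝓝 (K * 0)) := by
    have := (tendsto_rpow_neg_atTop (neg_pos.2 hp)).comp tendsto_natCast_atTop_atTop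
    simp only [neg_neg] at this
    exact this.const_mul K
  rw [mul_zero] at h
  exact h.eventually (eventually_le_nhds hε)

end Cau4

open Cau4

theorem cauStmt (hA : AlgStmt) (hM : MomStmt) (hS : SemiStmt) (_hK : KbStmt) (hE : EnStmt)
    (hB : AmbStmt) (hF : FarStmt) : CauStmt := by
  intro F P w ε hε
  obtain ⟨C, hC, HM⟩ := hM.1 F
  obtain ⟨C', A, hC', -, HF⟩ := hF F P
  have hβ := P.hβ
  set r := P.r₀ + nr w with hr
  set K : ℝ := C' * (16 * C) * (r : ℝ) ^ P.β with hK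
  obtain ⟨ρ, hρ1, hρ2⟩ := ((ev_pow K (p := 2 - 2 * P.β) (ε := ε / 8) (by linarith)
    (by positivity)).and (eventually_ge_atTop (A * r))).exists
  obtain ⟨R₁, hR₁⟩ := eventually_atTop.1 (ev_pow K (p := 1 - P.β) (ε := ε / 8) (by linarith)
    (by positivity))
  set n : ℝ := ((bl (0 : Pt) ρ).card : ℝ) with hn
  have hn0 : 0 ≤ n := by positivity
  set e : ℝ := ε / (2 * (n + 1) * (24 * C ^ 2)) with he
  have he0 : 0 < e := by positivity
  have he1 : e * (2 * (n + 1) * (24 * C ^ 2)) = ε := div_mul_cancel₀ _ (by positivity)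
  have he2 : e * C ≤ ε := by
    rw [← he1]
    exact mul_le_mul_of_nonneg_left (by nlinarith [mul_nonneg hn0 (sq_nonneg C)]) he0.le
  obtain ⟨R₂, hR₂⟩ := (hB P.W P.r₀ (r + ρ) e he0 (by omega)).exists
  refine ⟨R₁ + R₂ + ρ, fun R R' h1 h2 Λ hΛ hG => ?_⟩
  have ok := hΛ.ok
  have gd := (hG R₂).gd
  have hW := gd.1
  have hg := gd.2.1
  have mD : ∀ R, Mo Λ w ρ C (WD Λ R) := fun R => mo hA ok hC (ok.ctr_D _) (ok.anch_D _)
    (fun x y v => HM Λ hΛ _ x y v (ok.ctr_D _) (ok.anch_D _)) fun x _ => (hM.2 Λ ok x).2.1 _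
  have mN : ∀ a b, r + a ≤ b → Mo Λ w a C ((Λ.Nr (bl 0 (P.W * b)) 0).W 0) := fun a b hb =>
    have a1 := ok.ctr_Nr (bl 0 (P.W * b)) 0
    have a2 := ok.anch_Nr_bl (self_mem_bl (0 : Pt) (P.W * b))
    mo hA ok hC a1 a2 (fun x y v => HM Λ hΛ _ x y v a1 a2) fun x hx =>
      (hM.2 Λ ok x).2.2.1 _ _ (bl_subset_bl hx (by nlinarith))
  have amb : ∀ X, Ins 0 (r + ρ) X → ∀ c, Nm Λ 0 (P.W * (r + ρ)) X ≤ c →
      |Ex (WD Λ R) X - Ex (WD Λ R') X| ≤ e * c := fun X hX c hc =>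
    (hR₂ Λ ok _ (Nat.le_mul_of_pos_left _ (by omega)) gd 0 X _ _ hX (amb_D ok (by omega))
      (amb_D ok (by omega))).trans (mul_le_mul_of_nonneg_left hc he0.le)
  have m2 := mN ρ _ le_rfl
  have iH : Ins 0 (r + ρ) (H Λ w) := ins_H hA ok (by omega)
  refine ⟨(amb _ (ins_mul (ins_J hA ok (self_mem_bl 0 0) (by omega))
    (ins_J hA ok (orb_sub (hA.2.1 w).1) (by omega))) C m2.k).trans he2, ?_⟩
  have aH : ∀ R, |Ex (WD Λ R) (H Λ w)| ≤ 8 * C := fun R =>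
    (abs_Ex_le (ok.cen_D _).nonneg ((ok.cen_D _).ig iH.2)).trans (mD R).h
  have near : |∑ z ∈ bl 0 ρ, cv Λ w R z - ∑ z ∈ bl 0 ρ, cv Λ w R' z| ≤ ε / 2 := by
    rw [← sum_sub_distrib]
    refine (abs_sum_le_sum_abs _ _).trans ((sum_le_card_nsmul _ _ (e * (24 * C ^ 2)) fun z hz => ?_).trans ?_)
    · have ie : Ins 0 (r + ρ) (es Λ z) := ins_e hA ok hz (by omega)
      exact cov_diff he0.le hC (amb _ (ins_mul iH ie) _ (m2.he z hz)) (amb _ iH _ m2.h)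
        (amb _ ie _ (m2.e z hz)) (aH R')
        ((abs_Ex_le (ok.cen_D _).nonneg ((ok.cen_D _).ig ie.2)).trans ((mD R).e z hz))
    · rw [nsmul_eq_mul, ← hn]
      have : 0 ≤ e * (24 * C ^ 2) := by positivity
      nlinarith
  have far : ∀ R, R₁ + R₂ + ρ ≤ R → |∑ z ∈ an 0 ρ (R + Λ.rg),
      Ex (WD Λ R) fun s => (H Λ w s - Ex (WD Λ R) (H Λ w)) * ec Λ (Λ.D (bl 0 R)) z s| ≤ ε / 4 := by
    intro R hR
    have iH' : Ins 0 r (H Λ w) := ins_H hA ok (by omega)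
    have s1 := (hS Λ ok P.W 0 r hW (by omega)).1 _ iH'
    have s2 : nu Λ P.W 0 r (fun s => H Λ w s - Ex (WD Λ R) (H Λ w)) ≤ 16 * C := by
      have := (mN 0 r le_rfl).h
      have := s1.2.2.1 (Ex (WD Λ R) (H Λ w))
      have := aH R
      have : Nm Λ 0 (P.W * r) (H Λ w) ≤ 8 * C := (mN 0 r le_rfl).h
      linarith [s1.2.1]
    have s3 := HF Λ hΛ hG r ρ R (fun s => H Λ w s - Ex (WD Λ R) (H Λ w)) (by omega) hρ2 (by omega)
      ⟨iH'.1.sub (DepG.const _ _), iH'.2.sub (Tame.const _)⟩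
      (fun s => by simp only [even_H hA ok s])
      (fun s => by simp only [(d4_H hA ok s).1, (d4_H hA ok s).2, and_self])
      (((ok.cen_D _).wt.ex_sub_const ((ok.cen_D _).ig iH.2) _).trans (sub_self _))
    refine (abs_sum_le_sum_abs _ _).trans (s3.trans ?_)
    have := hR₁ R (by omega)
    calc _ ≤ K * ((ρ : ℝ) ^ (2 - 2 * P.β) + (R : ℝ) ^ (1 - P.β)) := by
          rw [hK]; gcongr
      _ ≤ _ := by linarith
  have c1 : (1 : ℝ) ≤ (orb w).card := by exact_mod_cast card_pos.2 ⟨w, (hA.2.1 w).1⟩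
  have key : |(orb w).card * (kd Λ R w - kd Λ R' w)| ≤ ε := by
    rw [mul_sub, kd_eq hA hE ok (by omega : ρ ≤ R), kd_eq hA hE ok (by omega : ρ ≤ R')]
    have f1 := abs_le.1 (far R h1)
    have f2 := abs_le.1 (far R' h2)
    have f3 := abs_le.1 near
    rw [abs_le]
    constructor <;> linarith
  rw [abs_mul, abs_of_nonneg (by linarith : (0 : ℝ) ≤ (orb w).card)] at key
  nlinarith [abs_nonneg (kd Λ R w - kd Λ R' w)]

end Crest.Agent.T145.Df
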