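import Mathlib

/-!
# Row 145, odd flow: the scalar Duhamel step and the numerics of one step (helper64)
-/

set_option autoImplicit false

namespace Crest.Agent.T145.Fl

open Set Real

/-- the exponent `α t + β t² / 2` on `[0, 1]` -/
theorem expo_le {α β t : ℝ} (h0 : 0 ≤ t) (h1 : t ≤ 1) : α * t + β * t ^ 2 / 2 ≤ |α| + |β| / 2 := by
  have a1 : α * t ≤ |α| := (mul_le_mul_of_nonneg_right (le_abs_self α) h0).trans
    (mul_le_of_le_one_right (abs_nonneg _) h1)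
  have a2 : β * t ^ 2 ≤ |β| := (mul_le_mul_of_nonneg_right (le_abs_self β) (sq_nonneg t)).trans
    (mul_le_of_le_one_right (abs_nonneg _) (pow_le_one₀ h0 h1))
  linarith


/-- mean value form of the Duhamel formula -/
theorem duh_mvt {f f' : ℝ → ℝ} (α β : ℝ) (hf : ∀ t ∈ Icc (0 : ℝ) 1, HasDerivAt f (f' t) t) :
    ∃ t ∈ Ioo (0 : ℝ) 1, exp (α + β / 2) * f 1 - f 0 =
      exp (α * t + β * t ^ 2 / 2) * (f' t + (α + β * t) * f t) := by
  have hd : ∀ t ∈ Icc (0 : ℝ) 1, HasDerivAt (fun t => exp (α * t + β * t ^ 2 / 2) * f t)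
      (exp (α * t + β * t ^ 2 / 2) * (f' t + (α + β * t) * f t)) t := fun t ht => by
    have h1 : HasDerivAt (fun t : ℝ => α * t + β * t ^ 2 / 2) (α + β * t) t := by
      have := ((hasDerivAt_id' t).const_mul α).add
        (((hasDerivAt_pow 2 t).const_mul β).div_const 2)
      refine this.congr_deriv ?_
      simp; ring
    exact (h1.exp.mul (hf t ht)).congr_deriv (by ring)
  obtain ⟨t, ht, e⟩ := exists_hasDerivAt_eq_slope _ _ zero_lt_one
    (fun t ht => (hd t ht).continuousAt.continuousWithinAt) fun t ht => hd t (Ioo_subset_Icc_self ht)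
  exact ⟨t, ht, by simpa using e.symm⟩

/-- **Duhamel**: `f' = -(α + β t) f + O(E)` on `[0, 1]`, `M` bounds the integrating exponent -/
theorem duh {f f' : ℝ → ℝ} {α β E M : ℝ} (hf : ∀ t ∈ Icc (0 : ℝ) 1, HasDerivAt f (f' t) t)
    (he : ∀ t ∈ Icc (0 : ℝ) 1, |f' t + (α + β * t) * f t| ≤ E)
    (hM : ∀ t ∈ Icc (0 : ℝ) 1, α * t + β * t ^ 2 / 2 ≤ M) :
    |exp (α + β / 2) * f 1 - f 0| ≤ exp M * E := by
  obtain ⟨t, ht, e⟩ := duh_mvt α β hf
  have ht' := Ioo_subset_Icc_self ht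
  rw [e, abs_mul, abs_of_pos (exp_pos _)]
  exact mul_le_mul (exp_le_exp.2 (hM t ht')) (he t ht') (abs_nonneg _) (exp_pos _).le

theorem duh_abs {f f' : ℝ → ℝ} {α β E : ℝ} (hf : ∀ t ∈ Icc (0 : ℝ) 1, HasDerivAt f (f' t) t)
    (he : ∀ t ∈ Icc (0 : ℝ) 1, |f' t + (α + β * t) * f t| ≤ E) :
    |exp (α + β / 2) * f 1 - f 0| ≤ exp (|α| + |β| / 2) * E :=
  duh hf he fun _ ht => expo_le ht.1 ht.2

/-- forward form: `f 1 = exp (-(α + β / 2)) f 0 + O(E)` -/
theorem duh_fwd {f f' : ℝ → ℝ} {α β E : ℝ} (hf : ∀ t ∈ Icc (0 : ℝ) 1, HasDerivAt f (f' t) t)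
    (he : ∀ t ∈ Icc (0 : ℝ) 1, |f' t + (α + β * t) * f t| ≤ E) :
    |f 1 - exp (-(α + β / 2)) * f 0| ≤ exp (2 * |α| + |β|) * E := by
  have h := duh_abs hf he
  have hE : 0 ≤ E := (abs_nonneg _).trans (he 0 ⟨le_rfl, zero_le_one⟩)
  have e : f 1 - exp (-(α + β / 2)) * f 0 = exp (-(α + β / 2)) * (exp (α + β / 2) * f 1 - f 0) := by
    rw [mul_sub, ← mul_assoc, ← exp_add]; simp
  rw [e, abs_mul, abs_of_pos (exp_pos _), show 2 * |α| + |β| = (|α| + |β| / 2) + (|α| + |β| / 2) by ring,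
    exp_add (|α| + |β| / 2), mul_assoc]
  refine mul_le_mul (exp_le_exp.2 ?_) h (abs_nonneg _) (exp_pos _).le
  linarith [neg_abs_le α, neg_abs_le β]

/-- relative closeness gives closeness of the logarithms of the absolute values -/
theorem abs_log_sub_le {u v e : ℝ} (hv : v ≠ 0) (h : |u - v| ≤ e * |v|) (he : e ≤ 1 / 2) :
    u ≠ 0 ∧ abs (log |u| - log |v|) ≤ 2 * e := by
  have p := abs_pos.2 hv
  have e0 : 0 ≤ e := nonneg_of_mul_nonneg_left ((abs_nonneg _).trans h) p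
  have h1 := abs_le.1 ((abs_abs_sub_abs_le_abs_sub u v).trans h)
  have q : 0 < |u| := by nlinarith
  refine ⟨abs_pos.1 q, ?_⟩
  rw [← log_div q.ne' p.ne', abs_le]
  constructor
  · have h2 := one_sub_inv_le_log_of_pos (div_pos q p)
    rw [inv_div] at h2
    have h3 : |v| / |u| ≤ 1 + 2 * e := by rw [div_le_iff₀ q]; nlinarith
    linarith
  · have h2 := log_le_sub_one_of_pos (div_pos q p)
    have h3 : |u| / |v| ≤ 1 + e := by rw [div_le_iff₀ p]; nlinarith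
    linarith

end Crest.Agent.T145.Fl
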