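import Mathlib

-- ▼ part T145/KrA_90
section

/-!
# Row 145, design N: the abstract sector lemma K5 (helper90)

`μ` is a probability weight on `X × Y` that is `η`-close in `ℓ¹` to `π a * π' b * κ a b`.
-/

set_option autoImplicit false

namespace Crest.Agent.T145.KrA

open Finset

variable {X Y : Type*}

/-- `∑ μ Φ` -/
noncomputable def br (μ : X × Y → ℝ) (Φ : X → Y → ℝ) : ℝ := ∑' p, μ p * Φ p.1 p.2

/-- `∑ π u` -/
noncomputable def sm (π u : X → ℝ) : ℝ := ∑' a, π a * u a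

/-- the approximate product structure -/
structure Fac (μ : X × Y → ℝ) (π : X → ℝ) (π' : Y → ℝ) (κ : X → Y → ℝ) (η ω : ℝ) : Prop where
  μ0 : ∀ p, 0 ≤ μ p
  μ1 : HasSum μ 1
  π0 : ∀ a, 0 ≤ π a
  πs : Summable π
  π'0 : ∀ b, 0 ≤ π' b
  π's : Summable π'
  close : ∑' p : X × Y, |μ p - π p.1 * π' p.2 * κ p.1 p.2| ≤ η
  κ1 : ∀ a b, π a ≠ 0 → π' b ≠ 0 → |κ a b - 1| ≤ ω
  η1 : η ≤ 1 / 2
  ω0 : 0 ≤ ω
  ω1 : ω ≤ 1 / 2

theorem summ_bdd {α : Type*} {π u : α → ℝ} (h0 : ∀ a, 0 ≤ π a) (hs : Summable π) {U : ℝ}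
    (hu : ∀ a, π a ≠ 0 → |u a| ≤ U) : Summable fun a => π a * u a := by
  refine Summable.of_norm_bounded (hs.mul_right U) fun a => ?_
  rw [Real.norm_eq_abs, abs_mul, abs_of_nonneg (h0 a)]
  by_cases h : π a = 0
  · simp [h]
  · exact mul_le_mul_of_nonneg_left (hu a h) (h0 a)

theorem abs_tsum_bdd {α : Type*} {π u : α → ℝ} (h0 : ∀ a, 0 ≤ π a) (hs : Summable π) {U : ℝ}
    (hu : ∀ a, π a ≠ 0 → |u a| ≤ U) : |∑' a, π a * u a| ≤ (∑' a, π a) * U := by
  rw [← tsum_mul_right, ← Real.norm_eq_abs]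
  refine tsum_of_norm_bounded (hs.mul_right U).hasSum fun a => ?_
  rw [Real.norm_eq_abs, abs_mul, abs_of_nonneg (h0 a)]
  by_cases h : π a = 0
  · simp [h]
  · exact mul_le_mul_of_nonneg_left (hu a h) (h0 a)

theorem sm_one (π : X → ℝ) : sm π (fun _ => 1) = ∑' a, π a := by simp [sm]

theorem summ_prod {π : X → ℝ} {π' : Y → ℝ} (h0 : ∀ a, 0 ≤ π a) (hs : Summable π)
    (h0' : ∀ b, 0 ≤ π' b) (hs' : Summable π') : Summable fun p : X × Y => π p.1 * π' p.2 :=
  hs.mul_of_nonneg hs' h0 h0'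

theorem tsum_prod_mul {u : X → ℝ} {v : Y → ℝ} (hu : Summable u) (hv : Summable v) :
    ∑' p : X × Y, u p.1 * v p.2 = (∑' a, u a) * ∑' b, v b :=
  (tsum_mul_tsum_of_summable_norm (by simpa using hu.abs) (by simpa using hv.abs)).symm

namespace Fac
variable {μ : X × Y → ℝ} {π : X → ℝ} {π' : Y → ℝ} {κ : X → Y → ℝ} {η ω : ℝ}

theorem ne {p : X × Y} (h : π p.1 * π' p.2 ≠ 0) : π p.1 ≠ 0 ∧ π' p.2 ≠ 0 := mul_ne_zero_iff.1 h

theorem pp0 (h : Fac μ π π' κ η ω) (p : X × Y) : 0 ≤ π p.1 * π' p.2 := mul_nonneg (h.π0 _) (h.π'0 _)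
theorem pps (h : Fac μ π π' κ η ω) : Summable fun p : X × Y => π p.1 * π' p.2 :=
  summ_prod h.π0 h.πs h.π'0 h.π's

theorem κ_le (h : Fac μ π π' κ η ω) {a : X} {b : Y} (ha : π a ≠ 0) (hb : π' b ≠ 0) : |κ a b| ≤ 2 := by
  have := h.κ1 a b ha hb; have := h.ω1
  rw [abs_le] at *; constructor <;> linarith

theorem summ_k (h : Fac μ π π' κ η ω) {Φ : X → Y → ℝ} {B : ℝ} (hΦ : ∀ a b, |Φ a b| ≤ B) :
    Summable fun p : X × Y => π p.1 * π' p.2 * (κ p.1 p.2 * Φ p.1 p.2) :=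
  summ_bdd h.pp0 h.pps (U := 2 * B) fun p hp => by
    rw [abs_mul]
    exact mul_le_mul (h.κ_le (ne hp).1 (ne hp).2) (hΦ _ _) (abs_nonneg _) (by norm_num)

theorem summ_μ (h : Fac μ π π' κ η ω) {Φ : X → Y → ℝ} {B : ℝ} (hΦ : ∀ a b, |Φ a b| ≤ B) :
    Summable fun p : X × Y => μ p * Φ p.1 p.2 :=
  summ_bdd h.μ0 h.μ1.summable fun _ _ => hΦ _ _

theorem abs_br (h : Fac μ π π' κ η ω) {Φ : X → Y → ℝ} {B : ℝ} (hΦ : ∀ a b, |Φ a b| ≤ B) :
    |br μ Φ| ≤ B := by
  have := abs_tsum_bdd h.μ0 h.μ1.summable (u := fun p => Φ p.1 p.2) fun p _ => hΦ _ _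
  rwa [h.μ1.tsum_eq, one_mul] at this

theorem η0 (h : Fac μ π π' κ η ω) : 0 ≤ η := (tsum_nonneg fun _ => abs_nonneg _).trans h.close

/-- transfer to the product structure -/
theorem transfer (h : Fac μ π π' κ η ω) {Φ : X → Y → ℝ} {B : ℝ} (hB : 0 ≤ B)
    (hΦ : ∀ a b, |Φ a b| ≤ B) :
    |br μ Φ - ∑' p : X × Y, π p.1 * π' p.2 * (κ p.1 p.2 * Φ p.1 p.2)| ≤ η * B := by
  have hs : Summable fun p : X × Y => μ p - π p.1 * π' p.2 * κ p.1 p.2 :=
    h.μ1.summable.sub (by simpa using h.summ_k (Φ := fun _ _ => 1) (B := 1) (by simp))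
  rw [br, ← (h.summ_μ hΦ).tsum_sub (h.summ_k hΦ), ← Real.norm_eq_abs]
  refine (tsum_of_norm_bounded (hs.abs.mul_right B).hasSum fun p => ?_).trans ?_
  · have : μ p * Φ p.1 p.2 - π p.1 * π' p.2 * (κ p.1 p.2 * Φ p.1 p.2) =
        (μ p - π p.1 * π' p.2 * κ p.1 p.2) * Φ p.1 p.2 := by ring
    rw [this, Real.norm_eq_abs, abs_mul]
    exact mul_le_mul_of_nonneg_left (hΦ _ _) (abs_nonneg _)
  · rw [tsum_mul_right]; exact mul_le_mul_of_nonneg_right h.close hB

/-- product of the masses -/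
theorem prod_near (h : Fac μ π π' κ η ω) {u : X → ℝ} {v : Y → ℝ} {U V : ℝ} (hU : 0 ≤ U) (hV : 0 ≤ V)
    (hu : ∀ a, |u a| ≤ U) (hv : ∀ b, |v b| ≤ V) :
    |br μ (fun a b => u a * v b) - sm π u * sm π' v| ≤
      (η + (∑' a, π a) * (∑' b, π' b) * ω) * (U * V) := by
  have hΦ : ∀ a b, |u a * v b| ≤ U * V := fun a b => by
    rw [abs_mul]; exact mul_le_mul (hu a) (hv b) (abs_nonneg _) hU
  have h1 := h.transfer (mul_nonneg hU hV) hΦ
  have h2 : sm π u * sm π' v = ∑' p : X × Y, π p.1 * π' p.2 * (u p.1 * v p.2) := by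
    rw [sm, sm, ← tsum_prod_mul (summ_bdd h.π0 h.πs fun a _ => hu a)
      (summ_bdd h.π'0 h.π's fun b _ => hv b)]
    exact tsum_congr fun p => by ring
  have h3 : |(∑' p : X × Y, π p.1 * π' p.2 * (κ p.1 p.2 * (u p.1 * v p.2))) - sm π u * sm π' v| ≤
      (∑' a, π a) * (∑' b, π' b) * (ω * (U * V)) := by
    rw [h2, ← (h.summ_k hΦ).tsum_sub (summ_bdd h.pp0 h.pps fun p _ => hΦ _ _),
      ← tsum_prod_mul h.πs h.π's]
    have := abs_tsum_bdd h.pp0 h.pps (u := fun p => (κ p.1 p.2 - 1) * (u p.1 * v p.2))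
      (U := ω * (U * V)) fun p hp => by
        rw [abs_mul]
        exact mul_le_mul (h.κ1 _ _ (ne hp).1 (ne hp).2) (hΦ _ _) (abs_nonneg _) h.ω0
    refine le_of_eq_of_le ?_ this
    congr 1; exact tsum_congr fun p => by ring
  rw [abs_le] at *
  constructor <;> nlinarith [h1.1, h1.2, h3.1, h3.2]

theorem br_one (h : Fac μ π π' κ η ω) : br μ (fun _ _ => 1) = 1 := by
  simp [br, h.μ1.tsum_eq]

theorem mass (h : Fac μ π π' κ η ω) :
    (∑' a, π a) * (∑' b, π' b) ≤ 3 ∧ |1 - (∑' a, π a) * ∑' b, π' b| ≤ η + 3 * ω := by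
  have h1 := h.prod_near (u := fun _ => 1) (v := fun _ => 1) zero_le_one zero_le_one (by simp) (by simp)
  simp only [mul_one, sm_one] at h1
  rw [h.br_one] at h1
  have hm : 0 ≤ (∑' a, π a) * ∑' b, π' b := mul_nonneg (tsum_nonneg h.π0) (tsum_nonneg h.π'0)
  have := h.η1; have := h.ω1; have := h.ω0
  have h3 : (∑' a, π a) * (∑' b, π' b) ≤ 3 := by
    rw [abs_le] at h1; nlinarith [h1.1]
  exact ⟨h3, h1.trans (by nlinarith)⟩

theorem prod_near' (h : Fac μ π π' κ η ω) {u : X → ℝ} {v : Y → ℝ} {U V : ℝ} (hU : 0 ≤ U) (hV : 0 ≤ V)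
    (hu : ∀ a, |u a| ≤ U) (hv : ∀ b, |v b| ≤ V) :
    |br μ (fun a b => u a * v b) - sm π u * sm π' v| ≤ (η + 3 * ω) * (U * V) :=
  (h.prod_near hU hV hu hv).trans (mul_le_mul_of_nonneg_right
    (by nlinarith [h.mass.1, h.ω0]) (mul_nonneg hU hV))

/-- products of `π`-sums against products of `μ`-sums -/
theorem prod_rule (h : Fac μ π π' κ η ω) {u : X → ℝ} {v : Y → ℝ} {U V : ℝ} (hU : 0 ≤ U) (hV : 0 ≤ V)
    (hu : ∀ a, |u a| ≤ U) (hv : ∀ b, |v b| ≤ V) :
    |sm π u * sm π' v - br μ (fun a _ => u a) * br μ (fun _ b => v b)| ≤ 7 * (η + 3 * ω) * (U * V) := by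
  set e := η + 3 * ω with he
  have e0 : 0 ≤ e := by have := h.η0; have := h.ω0; positivity
  have h1 := h.prod_near' (u := u) (v := fun _ => 1) hU zero_le_one hu (by simp)
  have h2 := h.prod_near' (u := fun _ => 1) (v := v) zero_le_one hV (by simp) hv
  simp only [mul_one, one_mul, sm_one] at h1 h2
  have h3 := h.mass
  have hA : |br μ (fun a _ => u a)| ≤ U := h.abs_br fun a _ => hu a
  have hP : |sm π u| ≤ (∑' a, π a) * U := abs_tsum_bdd h.π0 h.πs fun a _ => hu a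
  have hQ : |sm π' v| ≤ (∑' b, π' b) * V := abs_tsum_bdd h.π'0 h.π's fun b _ => hv b
  have p0 : 0 ≤ ∑' a, π a := tsum_nonneg h.π0
  have q0 : 0 ≤ ∑' b, π' b := tsum_nonneg h.π'0
  set P1 := ∑' a, π a
  set Q1 := ∑' b, π' b
  set Pu := sm π u
  set Qv := sm π' v
  set A := br μ (fun a _ => u a)
  set B := br μ (fun _ b => v b)
  have e1 : Pu * Qv - A * B =
      (1 - P1 * Q1) * (Pu * Qv) - (A - Pu * Q1) * (P1 * Qv) - A * (B - P1 * Qv) := by ring
  have b1 : |(1 - P1 * Q1) * (Pu * Qv)| ≤ e * (3 * (U * V)) := by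
    rw [abs_mul]
    refine mul_le_mul h3.2 ?_ (abs_nonneg _) e0
    rw [abs_mul]
    calc |Pu| * |Qv| ≤ (P1 * U) * (Q1 * V) := mul_le_mul hP hQ (abs_nonneg _) (by positivity)
      _ = (P1 * Q1) * (U * V) := by ring
      _ ≤ 3 * (U * V) := mul_le_mul_of_nonneg_right h3.1 (by positivity)
  have b2 : |(A - Pu * Q1) * (P1 * Qv)| ≤ (e * U) * (3 * V) := by
    rw [abs_mul]
    refine mul_le_mul h1 ?_ (abs_nonneg _) (by positivity)
    rw [abs_mul, abs_of_nonneg p0]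
    calc P1 * |Qv| ≤ P1 * (Q1 * V) := mul_le_mul_of_nonneg_left hQ p0
      _ = (P1 * Q1) * V := by ring
      _ ≤ 3 * V := mul_le_mul_of_nonneg_right h3.1 hV
  have b3 : |A * (B - P1 * Qv)| ≤ U * (e * V) := by
    rw [abs_mul]; exact mul_le_mul hA h2 (abs_nonneg _) hU
  rw [e1]
  refine (abs_sub _ _).trans ?_
  have := abs_sub ((1 - P1 * Q1) * (Pu * Qv)) ((A - Pu * Q1) * (P1 * Qv))
  nlinarith

/-- master lemma -/
theorem master (h : Fac μ π π' κ η ω) {ι : Type*} (T : Finset ι) {u : ι → X → ℝ} {v : ι → Y → ℝ}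
    {U V : ι → ℝ} (hU : ∀ i ∈ T, 0 ≤ U i) (hV : ∀ i ∈ T, 0 ≤ V i) (hu : ∀ i ∈ T, ∀ a, |u i a| ≤ U i)
    (hv : ∀ i ∈ T, ∀ b, |v i b| ≤ V i) {F : X → ℝ} {N β c₀ : ℝ} (hN : 0 ≤ N) (hβ : 0 ≤ β)
    (hF : ∀ a, |F a| ≤ N)
    (hΨ : ∀ b, π' b ≠ 0 → |sm π (fun a => F a * κ a b) - c₀ -
      ∑ i ∈ T, sm π (fun a => F a * u i a) * v i b| ≤ (∑' a, π a) * (N * β))
    {φ : Y → ℝ} {B : ℝ} (hB : 0 ≤ B) (hφ : ∀ b, |φ b| ≤ B) :
    |br μ (fun a b => F a * φ b) - c₀ * sm π' φ -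
      ∑ i ∈ T, br μ (fun a _ => F a * u i a) * br μ (fun _ b => v i b * φ b)| ≤
      N * B * (η + 3 * β + 7 * (η + 3 * ω) * ∑ i ∈ T, U i * V i) := by
  have hΦ : ∀ a b, |F a * φ b| ≤ N * B := fun a b => by
    rw [abs_mul]; exact mul_le_mul (hF a) (hφ b) (abs_nonneg _) hN
  have h1 := h.transfer (mul_nonneg hN hB) hΦ
  have hvφ : ∀ i ∈ T, ∀ b, |v i b * φ b| ≤ V i * B := fun i hi b => by
    rw [abs_mul]; exact mul_le_mul (hv i hi b) (hφ b) (abs_nonneg _) (hV i hi)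
  have hFu : ∀ i ∈ T, ∀ a, |F a * u i a| ≤ N * U i := fun i hi a => by
    rw [abs_mul]; exact mul_le_mul (hF a) (hu i hi a) (abs_nonneg _) hN
  have h2 : ∑' p : X × Y, π p.1 * π' p.2 * (κ p.1 p.2 * (F p.1 * φ p.2)) =
      ∑' b, π' b * (φ b * sm π fun a => F a * κ a b) := by
    have hs : Summable fun q : Y × X => π q.2 * π' q.1 * (κ q.2 q.1 * (F q.2 * φ q.1)) :=
      (Equiv.prodComm Y X).summable_iff.2 (h.summ_k hΦ)
    rw [← (Equiv.prodComm Y X).tsum_eq]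
    refine hs.tsum_prod.trans (tsum_congr fun b => ?_)
    simp only [sm, ← tsum_mul_left]
    exact tsum_congr fun a => by ring
  have sφ : Summable fun b => π' b * φ b := summ_bdd h.π'0 h.π's fun b _ => hφ b
  have sv : ∀ i ∈ T, Summable fun b => π' b * (v i b * φ b) := fun i hi =>
    summ_bdd h.π'0 h.π's fun b _ => hvφ i hi b
  have hE : ∀ b, π' b ≠ 0 → |φ b * (sm π (fun a => F a * κ a b) - c₀ -
      ∑ i ∈ T, sm π (fun a => F a * u i a) * v i b)| ≤ B * ((∑' a, π a) * (N * β)) := fun b hb => by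
    rw [abs_mul]; exact mul_le_mul (hφ b) (hΨ b hb) (abs_nonneg _) hB
  have sE := summ_bdd h.π'0 h.π's hE
  have h3 : ∑' b, π' b * (φ b * sm π fun a => F a * κ a b) =
      (∑' b, π' b * (φ b * (sm π (fun a => F a * κ a b) - c₀ -
        ∑ i ∈ T, sm π (fun a => F a * u i a) * v i b))) + c₀ * sm π' φ +
      ∑ i ∈ T, sm π (fun a => F a * u i a) * sm π' (fun b => v i b * φ b) := by
    have s2 : HasSum (fun b => ∑ i ∈ T, sm π (fun a => F a * u i a) * (π' b * (v i b * φ b)))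
        (∑ i ∈ T, sm π (fun a => F a * u i a) * sm π' (fun b => v i b * φ b)) :=
      hasSum_sum fun i hi => (sv i hi).hasSum.mul_left _
    refine HasSum.tsum_eq ?_
    convert (sE.hasSum.add (sφ.hasSum.mul_left c₀)).add s2 using 1
    · funext b
      have : ∑ i ∈ T, sm π (fun a => F a * u i a) * (π' b * (v i b * φ b)) =
          π' b * (φ b * ∑ i ∈ T, sm π (fun a => F a * u i a) * v i b) := by
        rw [mul_sum, mul_sum]; exact sum_congr rfl fun i _ => by ring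
      rw [this]; ring
    · rfl
  have h4 := abs_tsum_bdd h.π'0 h.π's hE
  have h5 : |∑ i ∈ T, sm π (fun a => F a * u i a) * sm π' (fun b => v i b * φ b) -
      ∑ i ∈ T, br μ (fun a _ => F a * u i a) * br μ (fun _ b => v i b * φ b)| ≤
      N * B * (7 * (η + 3 * ω) * ∑ i ∈ T, U i * V i) := by
    rw [← sum_sub_distrib]
    refine (abs_sum_le_sum_abs _ _).trans ?_
    rw [mul_sum, mul_sum]
    refine sum_le_sum fun i hi => (h.prod_rule (mul_nonneg hN (hU i hi)) (mul_nonneg (hV i hi) hB)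
      (hFu i hi) (hvφ i hi)).trans (le_of_eq (by ring))
  have h6 : (∑' b, π' b) * (B * ((∑' a, π a) * (N * β))) ≤ N * B * (3 * β) := by
    have := mul_le_mul_of_nonneg_right h.mass.1 (mul_nonneg (mul_nonneg hN hB) hβ)
    nlinarith
  rw [h2, h3] at h1
  rw [abs_le] at *
  constructor <;> nlinarith [h1.1, h1.2, h4.1, h4.2, h5.1, h5.2]

/-- master lemma for `μ`-centred `F`: the constant term is eliminated -/
theorem master0 (h : Fac μ π π' κ η ω) {ι : Type*} (T : Finset ι) {u : ι → X → ℝ} {v : ι → Y → ℝ}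
    {U V : ι → ℝ} (hU : ∀ i ∈ T, 0 ≤ U i) (hV : ∀ i ∈ T, 0 ≤ V i) (hu : ∀ i ∈ T, ∀ a, |u i a| ≤ U i)
    (hv : ∀ i ∈ T, ∀ b, |v i b| ≤ V i) {F : X → ℝ} {N β c₀ : ℝ} (hN : 0 ≤ N) (hβ : 0 ≤ β)
    (hF : ∀ a, |F a| ≤ N) (hF0 : br μ (fun a _ => F a) = 0)
    (hΨ : ∀ b, π' b ≠ 0 → |sm π (fun a => F a * κ a b) - c₀ -
      ∑ i ∈ T, sm π (fun a => F a * u i a) * v i b| ≤ (∑' a, π a) * (N * β))
    {φ : Y → ℝ} {B : ℝ} (hB : 0 ≤ B) (hφ : ∀ b, |φ b| ≤ B) :
    |br μ (fun a b => F a * φ b) - ∑ i ∈ T, br μ (fun a _ => F a * u i a) *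
      (br μ (fun _ b => v i b * φ b) - br μ (fun _ b => v i b) * br μ (fun _ b => φ b))| ≤
      N * B * (2 * η + 6 * β + 30 * (η + 3 * ω) * ∑ i ∈ T, U i * V i) := by
  set e := η + 3 * ω with he
  have e0 : 0 ≤ e := by have := h.η0; have := h.ω0; positivity
  have q0 : 0 ≤ ∑' b, π' b := tsum_nonneg h.π'0
  have p0 : 0 ≤ ∑' a, π a := tsum_nonneg h.π0
  set c := sm π' φ / ∑' b, π' b with hc
  have hQ : |sm π' φ| ≤ (∑' b, π' b) * B := abs_tsum_bdd h.π'0 h.π's fun b _ => hφ b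
  have hcB : |c| ≤ B := by
    rw [hc, abs_div, abs_of_nonneg q0]
    exact div_le_of_le_mul₀ q0 hB (by linarith)
  have hcq : c * ∑' b, π' b = sm π' φ := by
    rcases q0.eq_or_lt with h0 | h0
    · rw [← h0, zero_mul] at hQ
      rw [← h0, mul_zero]; exact (abs_nonpos_iff.1 hQ).symm
    · rw [hc, div_mul_cancel₀ _ h0.ne']
  have hφ' : ∀ b, |φ b - c| ≤ 2 * B := fun b => (abs_sub _ _).trans (by linarith [hφ b])
  have h1 := h.master T hU hV hu hv hN hβ hF hΨ (φ := fun b => φ b - c) (by linarith) hφ'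
  have h2 : sm π' (fun b => φ b - c) = 0 := by
    have : sm π' (fun b => φ b - c) = sm π' φ - c * ∑' b, π' b := by
      rw [sm, sm, ← tsum_mul_left, ← (summ_bdd h.π'0 h.π's fun b _ => hφ b).tsum_sub (h.π's.mul_left c)]
      exact tsum_congr fun b => by ring
    rw [this, hcq, sub_self]
  have lin : ∀ {Φ : X → Y → ℝ} {C : ℝ}, 0 ≤ C → (∀ a b, |Φ a b| ≤ C) →
      br μ (fun a b => Φ a b * (φ b - c)) = br μ (fun a b => Φ a b * φ b) - c * br μ Φ := by
    intro Φ C hC hΦ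
    have s1 : Summable fun p : X × Y => μ p * (Φ p.1 p.2 * φ p.2) :=
      h.summ_μ (Φ := fun a b => Φ a b * φ b) (B := C * B) fun a b => by
        rw [abs_mul]; exact mul_le_mul (hΦ a b) (hφ b) (abs_nonneg _) hC
    rw [br, br, br, ← tsum_mul_left, ← s1.tsum_sub ((h.summ_μ hΦ).mul_left c)]
    exact tsum_congr fun p => by ring
  rw [h2, mul_zero, sub_zero, lin (Φ := fun a _ => F a) hN (fun a _ => hF a), hF0, mul_zero,
    sub_zero] at h1
  have hcφ : |c - br μ (fun _ b => φ b)| ≤ 2 * e * B := by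
    have h3 := h.prod_near' (u := fun _ => 1) (v := φ) zero_le_one hB (by simp) hφ
    simp only [one_mul, sm_one] at h3
    have h4 : |c * (1 - (∑' a, π a) * ∑' b, π' b)| ≤ B * e := by
      rw [abs_mul]; exact mul_le_mul hcB h.mass.2 (abs_nonneg _) hB
    have : c - br μ (fun _ b => φ b) = c * (1 - (∑' a, π a) * ∑' b, π' b) -
        (br μ (fun _ b => φ b) - (∑' a, π a) * sm π' φ) := by rw [← hcq]; ring
    rw [this]; refine (abs_sub _ _).trans ?_; nlinarith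
  have h5 : |∑ i ∈ T, br μ (fun a _ => F a * u i a) * br μ (fun _ b => v i b * (φ b - c)) -
      ∑ i ∈ T, br μ (fun a _ => F a * u i a) *
      (br μ (fun _ b => v i b * φ b) - br μ (fun _ b => v i b) * br μ (fun _ b => φ b))| ≤
      N * B * (2 * e * ∑ i ∈ T, U i * V i) := by
    rw [← sum_sub_distrib]
    refine (abs_sum_le_sum_abs _ _).trans ?_
    rw [mul_sum, mul_sum]
    refine sum_le_sum fun i hi => ?_
    rw [lin (Φ := fun _ b => v i b) (hV i hi) (fun _ b => hv i hi b), ← mul_sub]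
    have a1 : |br μ (fun a _ => F a * u i a)| ≤ N * U i := h.abs_br fun a _ => by
      rw [abs_mul]; exact mul_le_mul (hF a) (hu i hi a) (abs_nonneg _) hN
    have a2 : |br μ (fun _ b => v i b)| ≤ V i := h.abs_br fun _ b => hv i hi b
    have : br μ (fun _ b => v i b * φ b) - c * br μ (fun _ b => v i b) -
        (br μ (fun _ b => v i b * φ b) - br μ (fun _ b => v i b) * br μ (fun _ b => φ b)) =
        -(br μ (fun _ b => v i b) * (c - br μ (fun _ b => φ b))) := by ring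
    rw [this, abs_mul, abs_neg, abs_mul]
    calc _ ≤ (N * U i) * (V i * (2 * e * B)) :=
          mul_le_mul a1 (mul_le_mul a2 hcφ (abs_nonneg _) (hV i hi)) (by positivity)
            (mul_nonneg hN (hU i hi))
      _ = _ := by ring
  have hS : 0 ≤ ∑ i ∈ T, U i * V i := sum_nonneg fun i hi => mul_nonneg (hU i hi) (hV i hi)
  have hNB : 0 ≤ N * B * (e * ∑ i ∈ T, U i * V i) := by positivity
  rw [abs_le] at *
  constructor <;> nlinarith [h1.1, h1.2, h5.1, h5.2]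

end Fac

open Real in
/-- the second order kernel -/
noncomputable def k2 (lam H t y : ℝ) : ℝ :=
  1 + y + y ^ 2 / 2 + 2 * lam * (cos (2 * π * H) * cos (2 * π * t) + sin (2 * π * H) * sin (2 * π * t))

open Real in
/-- expansion of `θ(H - t) e^y` -/
theorem k2_near {lam H t y th η₁ β₁ : ℝ} (hl : 0 ≤ lam) (hy : |y| ≤ β₁) (hβ : β₁ ≤ 1)
    (hth : |th - (1 + 2 * lam * cos (2 * π * (H - t)))| ≤ η₁) :
    |th * exp y - k2 lam H t y| ≤ β₁ ^ 3 + 4 * lam * β₁ + 3 * η₁ := by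
  have y1 : |y| ≤ 1 := hy.trans hβ
  have h3 : |exp y - (1 + y + y ^ 2 / 2)| ≤ β₁ ^ 3 := by
    have := Real.exp_bound y1 (n := 3) (by norm_num)
    simp only [sum_range_succ, range_zero, sum_empty, Nat.factorial] at this
    norm_num at this
    have h2 : |y| ^ 3 ≤ β₁ ^ 3 := pow_le_pow_left₀ (abs_nonneg _) hy 3
    have h4 : 0 ≤ |y| ^ 3 := by positivity
    refine this.trans ?_; linarith
  have h1 : |exp y - 1| ≤ 2 * β₁ := (Real.abs_exp_sub_one_le y1).trans (by linarith)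
  have h0 : |exp y| ≤ 3 := by rw [abs_le] at *; constructor <;> linarith [h1.1, h1.2]
  have hc : |cos (2 * π * (H - t))| ≤ 1 := abs_cos_le_one _
  have e : th * exp y - k2 lam H t y = (exp y - (1 + y + y ^ 2 / 2)) +
      2 * lam * (cos (2 * π * (H - t)) * (exp y - 1)) +
      (th - (1 + 2 * lam * cos (2 * π * (H - t)))) * exp y := by
    rw [k2, mul_sub (2 * π), cos_sub]; ring
  have b2 : |2 * lam * (cos (2 * π * (H - t)) * (exp y - 1))| ≤ 2 * lam * (1 * (2 * β₁)) := by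
    rw [abs_mul, abs_of_nonneg (by positivity : 0 ≤ 2 * lam), abs_mul]
    exact mul_le_mul_of_nonneg_left (mul_le_mul hc h1 (abs_nonneg _) zero_le_one) (by positivity)
  have b3 : |(th - (1 + 2 * lam * cos (2 * π * (H - t)))) * exp y| ≤ η₁ * 3 := by
    rw [abs_mul]; exact mul_le_mul hth h0 (abs_nonneg _) ((abs_nonneg _).trans hth)
  rw [e]
  refine (abs_add_le _ _).trans ((add_le_add_left (abs_add_le _ _) _).trans ?_)
  linarith

theorem k2_sub_one {lam H t y β₁ : ℝ} (hl : 0 ≤ lam) (hy : |y| ≤ β₁) (hβ : β₁ ≤ 1) :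
    |k2 lam H t y - 1| ≤ 2 * β₁ + 2 * lam := by
  have hc := Real.abs_cos_le_one (2 * Real.pi * H - 2 * Real.pi * t)
  rw [Real.cos_sub] at hc
  have h2 : y ^ 2 ≤ β₁ := by
    have := abs_nonneg y
    calc y ^ 2 = |y| * |y| := by rw [← sq_abs, sq]
      _ ≤ β₁ * 1 := mul_le_mul hy (hy.trans hβ) this (this.trans hy)
      _ = β₁ := mul_one _
  rw [k2, abs_le] at *
  constructor <;> nlinarith [hc.1, hc.2, sq_nonneg y, hy.1, hy.2]

/-- the structure produced by (K#) -/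
structure Sec (μ : X × Y → ℝ) (π : X → ℝ) (π' : Y → ℝ) (κ : X → Y → ℝ) (H : X → ℝ) (t : Y → ℝ)
    (y : X → Y → ℝ) (ng : X ≃ X) (lam η ω β₀ β₁ : ℝ) : Prop extends Fac μ π π' κ η ω where
  lam0 : 0 ≤ lam
  β₀0 : 0 ≤ β₀
  β₁0 : 0 ≤ β₁
  exp : ∀ a b, π a ≠ 0 → π' b ≠ 0 → |κ a b - k2 lam (H a) (t b) (y a b)| ≤ β₀
  yle : ∀ a b, π a ≠ 0 → π' b ≠ 0 → |y a b| ≤ β₁
  πng : ∀ a, π (ng a) = π a
  Hng : ∀ a, H (ng a) = -H a
  yng : ∀ a b, y (ng a) b = -y a b

theorem sm_odd {π u : X → ℝ} (ng : X ≃ X) (hπ : ∀ a, π (ng a) = π a) (hu : ∀ a, u (ng a) = -u a) :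
    sm π u = 0 := by
  have : sm π u = -sm π u := by
    conv_lhs => rw [sm, ← ng.tsum_eq]
    rw [sm, ← tsum_neg]
    exact tsum_congr fun a => by rw [hπ, hu]; ring
  linarith

namespace Sec
open Real
variable {μ : X × Y → ℝ} {p : X → ℝ} {p' : Y → ℝ} {κ : X → Y → ℝ} {H : X → ℝ} {t : Y → ℝ}
  {y : X → Y → ℝ} {ng : X ≃ X} {lam η ω β₀ β₁ : ℝ}

theorem expand (h : Sec μ p p' κ H t y ng lam η ω β₀ β₁) {F : X → ℝ} {N : ℝ} (hN : 0 ≤ N)
    (hF : ∀ a, |F a| ≤ N) {b : Y} (hb : p' b ≠ 0) :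
    |sm p (fun a => F a * κ a b) - (sm p F + sm p (fun a => F a * y a b) +
      sm p (fun a => F a * y a b ^ 2) / 2 +
      2 * lam * (sm p (fun a => F a * cos (2 * π * H a)) * cos (2 * π * t b) +
        sm p (fun a => F a * sin (2 * π * H a)) * sin (2 * π * t b)))| ≤ (∑' a, p a) * (N * β₀) := by
  have S : ∀ {u : X → ℝ} {U : ℝ}, (∀ a, p a ≠ 0 → |u a| ≤ U) →
      HasSum (fun a => p a * (F a * u a)) (sm p fun a => F a * u a) := fun {u U} hu =>
    (summ_bdd h.π0 h.πs (U := N * U) fun a ha => by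
      rw [abs_mul]; exact mul_le_mul (hF a) (hu a ha) (abs_nonneg _) hN).hasSum
  have s0 : HasSum (fun a => p a * F a) (sm p F) := (summ_bdd h.π0 h.πs fun a _ => hF a).hasSum
  have s1 := S fun a ha => h.toFac.κ_le ha hb
  have s2 := S fun a ha => h.yle a b ha hb
  have s3 := S (u := fun a => y a b ^ 2) (U := β₁ ^ 2) fun a ha => by
    rw [abs_pow]; exact pow_le_pow_left₀ (abs_nonneg _) (h.yle a b ha hb) 2
  have s4 := S (u := fun a => cos (2 * π * H a)) fun a _ => abs_cos_le_one _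
  have s5 := S (u := fun a => sin (2 * π * H a)) fun a _ => abs_sin_le_one _
  have s := s1.sub (((s0.add s2).add (s3.div_const 2)).add
    (((s4.mul_right (cos (2 * π * t b))).add (s5.mul_right (sin (2 * π * t b)))).mul_left (2 * lam)))
  rw [← s.tsum_eq]
  refine le_of_eq_of_le ?_ (abs_tsum_bdd h.π0 h.πs
    (u := fun a => F a * (κ a b - k2 lam (H a) (t b) (y a b))) fun a ha => by
      rw [abs_mul]; exact mul_le_mul (hF a) (h.exp a b ha hb) (abs_nonneg _) hN)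
  congr 1; exact tsum_congr fun a => by rw [k2]; ring

/-- ODD sector with a symmetry group -/
theorem odd (h : Sec μ p p' κ H t y ng lam η ω β₀ β₁) {ι : Type*} (G : Finset ι) (hG : G.Nonempty)
    (g : ι → X ≃ X) (hg : ∀ i ∈ G, ∀ a, p (g i a) = p a) {β₃ : ℝ} (h3 : 0 ≤ β₃)
    (hy : ∀ a b, p a ≠ 0 → p' b ≠ 0 → |∑ i ∈ G, y (g i a) b| ≤ G.card * β₃)
    {F : X → ℝ} {N : ℝ} (hN : 0 ≤ N) (hF : ∀ a, |F a| ≤ N) (hodd : ∀ a, F (ng a) = -F a)
    (hinv : ∀ i ∈ G, ∀ a, F (g i a) = F a) {φ : Y → ℝ} {B : ℝ} (hB : 0 ≤ B) (hφ : ∀ b, |φ b| ≤ B) :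
    |br μ (fun a b => F a * φ b) - 2 * lam * br μ (fun a _ => F a * sin (2 * π * H a)) *
      br μ (fun _ b => sin (2 * π * t b) * φ b)| ≤
      N * B * (η + 3 * (β₀ + β₃) + 14 * lam * (η + 3 * ω)) := by
  have hl := h.lam0
  have key := h.toFac.master ({()} : Finset Unit) (u := fun _ a => sin (2 * π * H a))
    (v := fun _ b => 2 * lam * sin (2 * π * t b)) (U := fun _ => 1) (V := fun _ => 2 * lam)
    (fun _ _ => zero_le_one) (fun _ _ => by positivity) (fun _ _ a => abs_sin_le_one _)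
    (fun _ _ b => by
      rw [abs_mul, abs_of_nonneg (by positivity : 0 ≤ 2 * lam)]
      exact mul_le_of_le_one_right (by positivity) (abs_sin_le_one _))
    (c₀ := 0) (β := β₀ + β₃) hN (add_nonneg h.β₀0 h3) hF ?_ hB hφ
  · simp only [sum_singleton, zero_mul, sub_zero] at key
    have : br μ (fun _ b => 2 * lam * sin (2 * π * t b) * φ b) =
        2 * lam * br μ (fun _ b => sin (2 * π * t b) * φ b) := by
      rw [br, br, ← tsum_mul_left]; exact tsum_congr fun q => by ring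
    rw [this] at key
    refine le_of_eq_of_le ?_ (key.trans (le_of_eq (by ring)))
    congr 1; ring
  · intro b hb
    have e := h.expand hN hF hb
    rw [sm_odd ng h.πng hodd, sm_odd (u := fun a => F a * y a b ^ 2) ng h.πng
      (fun a => by rw [hodd, h.yng]; ring), sm_odd (u := fun a => F a * cos (2 * π * H a)) ng h.πng
      (fun a => by rw [hodd, h.Hng, mul_neg, cos_neg]; ring)] at e
    have e2 : |sm p (fun a => F a * y a b)| ≤ (∑' a, p a) * (N * β₃) := by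
      have c0 : (0 : ℝ) < G.card := by exact_mod_cast hG.card_pos
      have s1 : ∀ i ∈ G, HasSum (fun a => p a * (F a * y (g i a) b)) (sm p fun a => F a * y a b) := by
        intro i hi
        have := (g i).hasSum_iff.2 (summ_bdd h.π0 h.πs (u := fun a => F a * y a b) (U := N * β₁)
          fun a ha => by
            rw [abs_mul]; exact mul_le_mul (hF a) (h.yle a b ha hb) (abs_nonneg _) hN).hasSum
        convert this using 1
        · funext a; simp only [Function.comp, hg i hi, hinv i hi]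
        · rfl
      have s2 := hasSum_sum s1
      rw [sum_const, nsmul_eq_mul] at s2
      have s3 := abs_tsum_bdd h.π0 h.πs (u := fun a => F a * ∑ i ∈ G, y (g i a) b)
        (U := N * (G.card * β₃)) fun a ha => by
          rw [abs_mul]; exact mul_le_mul (hF a) (hy a b ha hb) (abs_nonneg _) hN
      have s4 : ∑' a, p a * (F a * ∑ i ∈ G, y (g i a) b) = G.card * sm p fun a => F a * y a b := by
        rw [← s2.tsum_eq]; exact tsum_congr fun a => by rw [mul_sum, mul_sum]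
      rw [s4, abs_mul, abs_of_pos c0] at s3
      exact le_of_mul_le_mul_left (s3.trans (le_of_eq (by ring))) c0
    simp only [sum_singleton, sub_zero]
    rw [abs_le] at *
    constructor <;> nlinarith [e.1, e.2, e2.1, e2.2]

/-- no symmetry: only the constant survives -/
theorem any (h : Fac μ p p' κ η ω) {F : X → ℝ} {N : ℝ} (hN : 0 ≤ N) (hF : ∀ a, |F a| ≤ N)
    {φ : Y → ℝ} {B : ℝ} (hB : 0 ≤ B) (hφ : ∀ b, |φ b| ≤ B) :
    |br μ (fun a b => F a * φ b) - br μ (fun a _ => F a) * br μ (fun _ b => φ b)| ≤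
      8 * (η + 3 * ω) * (N * B) := by
  have h1 := h.prod_near' hN hB hF hφ
  have h2 := h.prod_rule hN hB hF hφ
  rw [abs_le] at *
  constructor <;> nlinarith [h1.1, h1.2, h2.1, h2.2]

/-- ODD sector without symmetry: dipoles and the sine -/
theorem odd' (h : Sec μ p p' κ H t y ng lam η ω β₀ β₁) {ι : Type*} (T : Finset ι) {yy : ι → X → ℝ}
    {d : ι → Y → ℝ} {y₀ d₀ β₂ : ℝ} (hy0 : 0 ≤ y₀) (hd0 : 0 ≤ d₀) (h2 : 0 ≤ β₂)
    (hyy : ∀ i ∈ T, ∀ a, |yy i a| ≤ y₀) (hd : ∀ i ∈ T, ∀ b, |d i b| ≤ d₀)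
    (hy : ∀ a b, p a ≠ 0 → p' b ≠ 0 → |y a b - ∑ i ∈ T, yy i a * d i b| ≤ β₂)
    {F : X → ℝ} {N : ℝ} (hN : 0 ≤ N) (hF : ∀ a, |F a| ≤ N) (hodd : ∀ a, F (ng a) = -F a)
    {φ : Y → ℝ} {B : ℝ} (hB : 0 ≤ B) (hφ : ∀ b, |φ b| ≤ B) :
    |br μ (fun a b => F a * φ b) - 2 * lam * br μ (fun a _ => F a * sin (2 * π * H a)) *
      br μ (fun _ b => sin (2 * π * t b) * φ b) -
      ∑ i ∈ T, br μ (fun a _ => F a * yy i a) * br μ (fun _ b => d i b * φ b)| ≤
      N * B * (η + 3 * (β₀ + β₂) + 7 * (η + 3 * ω) * (2 * lam + T.card * (y₀ * d₀))) := by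
  classical
  have hl := h.lam0
  have key := h.toFac.master (insertNone T)
    (u := fun o a => o.elim (sin (2 * π * H a)) fun i => yy i a)
    (v := fun o b => o.elim (2 * lam * sin (2 * π * t b)) fun i => d i b)
    (U := fun o => o.elim 1 fun _ => y₀) (V := fun o => o.elim (2 * lam) fun _ => d₀)
    (by rintro (_ | i) _ <;> simp [hy0]) (by rintro (_ | i) _ <;> simp [hd0, hl])
    (by
      rintro (_ | i) hi a
      · exact abs_sin_le_one _
      · exact hyy i (by simpa using hi) a)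
    (by
      rintro (_ | i) hi b
      · simp only [Option.elim]
        rw [abs_mul, abs_of_nonneg (by positivity : 0 ≤ 2 * lam)]
        exact mul_le_of_le_one_right (by positivity) (abs_sin_le_one _)
      · exact hd i (by simpa using hi) b)
    (c₀ := 0) (β := β₀ + β₂) hN (add_nonneg h.β₀0 h2) hF ?_ hB hφ
  · simp only [sum_insertNone, Option.elim, zero_mul, sub_zero, sum_const, nsmul_eq_mul, one_mul] at key
    have : br μ (fun _ b => 2 * lam * sin (2 * π * t b) * φ b) =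
        2 * lam * br μ (fun _ b => sin (2 * π * t b) * φ b) := by
      rw [br, br, ← tsum_mul_left]; exact tsum_congr fun q => by ring
    rw [this] at key
    refine le_of_eq_of_le ?_ key
    congr 1; ring
  · intro b hb
    have e := h.expand hN hF hb
    rw [sm_odd ng h.πng hodd, sm_odd (u := fun a => F a * y a b ^ 2) ng h.πng
      (fun a => by rw [hodd, h.yng]; ring), sm_odd (u := fun a => F a * cos (2 * π * H a)) ng h.πng
      (fun a => by rw [hodd, h.Hng, mul_neg, cos_neg]; ring)] at e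
    have e2 : |sm p (fun a => F a * y a b) - ∑ i ∈ T, sm p (fun a => F a * yy i a) * d i b| ≤
        (∑' a, p a) * (N * β₂) := by
      have s1 : HasSum (fun a => p a * (F a * y a b)) (sm p fun a => F a * y a b) :=
        (summ_bdd h.π0 h.πs (U := N * β₁) fun a ha => by
          rw [abs_mul]; exact mul_le_mul (hF a) (h.yle a b ha hb) (abs_nonneg _) hN).hasSum
      have s2 : HasSum (fun a => ∑ i ∈ T, p a * (F a * yy i a) * d i b)
          (∑ i ∈ T, sm p (fun a => F a * yy i a) * d i b) := hasSum_sum fun i hi =>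
        (summ_bdd h.π0 h.πs (U := N * y₀) fun a _ => by
          rw [abs_mul]; exact mul_le_mul (hF a) (hyy i hi a) (abs_nonneg _) hN).hasSum.mul_right _
      rw [← (s1.sub s2).tsum_eq]
      refine le_of_eq_of_le ?_ (abs_tsum_bdd h.π0 h.πs
        (u := fun a => F a * (y a b - ∑ i ∈ T, yy i a * d i b)) fun a ha => by
          rw [abs_mul]; exact mul_le_mul (hF a) (hy a b ha hb) (abs_nonneg _) hN)
      congr 1
      refine tsum_congr fun a => ?_
      rw [mul_sub, mul_sub, mul_sum, mul_sum]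
      congr 1; exact sum_congr rfl fun i _ => by ring
    simp only [sum_insertNone, Option.elim, sub_zero]
    rw [abs_le] at *
    constructor <;> nlinarith [e.1, e.2, e2.1, e2.2]

/-- EVEN sector, `μ`-centred `F` -/
theorem even (h : Sec μ p p' κ H t y ng lam η ω β₀ β₁) {ι : Type*} (T : Finset ι) {yy : ι → X → ℝ}
    {d : ι → Y → ℝ} {y₀ d₀ β₂ : ℝ} (hy0 : 0 ≤ y₀) (hd0 : 0 ≤ d₀) (h2 : 0 ≤ β₂)
    (hyy : ∀ i ∈ T, ∀ a, |yy i a| ≤ y₀) (hd : ∀ i ∈ T, ∀ b, |d i b| ≤ d₀)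
    (hy : ∀ a b, p a ≠ 0 → p' b ≠ 0 → |y a b - ∑ i ∈ T, yy i a * d i b| ≤ β₂)
    {F : X → ℝ} {N : ℝ} (hN : 0 ≤ N) (hF : ∀ a, |F a| ≤ N) (hev : ∀ a, F (ng a) = F a)
    (hF0 : br μ (fun a _ => F a) = 0) {φ : Y → ℝ} {B : ℝ} (hB : 0 ≤ B) (hφ : ∀ b, |φ b| ≤ B) :
    |br μ (fun a b => F a * φ b) - 2 * lam * br μ (fun a _ => F a * cos (2 * π * H a)) *
      (br μ (fun _ b => cos (2 * π * t b) * φ b) -
        br μ (fun _ b => cos (2 * π * t b)) * br μ (fun _ b => φ b)) -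
      ∑ q ∈ T ×ˢ T, br μ (fun a _ => F a * (yy q.1 a * yy q.2 a)) / 2 *
        (br μ (fun _ b => d q.1 b * d q.2 b * φ b) -
          br μ (fun _ b => d q.1 b * d q.2 b) * br μ (fun _ b => φ b))| ≤
      N * B * (2 * η + 6 * (β₀ + β₂ * (β₁ + β₂)) +
        30 * (η + 3 * ω) * (2 * lam + (T.card * (y₀ * d₀)) ^ 2)) := by
  classical
  have hl := h.lam0
  have hβ1 := h.β₁0
  have hyy2 : ∀ q ∈ T ×ˢ T, ∀ a, |yy q.1 a * yy q.2 a| ≤ y₀ * y₀ := fun q hq a => by
    rw [mem_product] at hq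
    rw [abs_mul]; exact mul_le_mul (hyy _ hq.1 a) (hyy _ hq.2 a) (abs_nonneg _) hy0
  have key := h.toFac.master0 (insertNone (T ×ˢ T))
    (u := fun o a => o.elim (2 * lam * cos (2 * π * H a)) fun q => yy q.1 a * yy q.2 a / 2)
    (v := fun o b => o.elim (cos (2 * π * t b)) fun q => d q.1 b * d q.2 b)
    (U := fun o => o.elim (2 * lam) fun _ => y₀ * y₀) (V := fun o => o.elim 1 fun _ => d₀ * d₀)
    (by rintro (_ | i) _ <;> simp only [Option.elim] <;> positivity)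
    (by rintro (_ | i) _ <;> simp only [Option.elim] <;> positivity)
    (by
      rintro (_ | q) hq a
      · simp only [Option.elim]
        rw [abs_mul, abs_of_nonneg (by positivity : 0 ≤ 2 * lam)]
        exact mul_le_of_le_one_right (by positivity) (abs_cos_le_one _)
      · have := hyy2 q (by simpa using hq) a
        simp only [Option.elim]
        rw [abs_div, abs_two]; linarith [abs_nonneg (yy q.1 a * yy q.2 a)])
    (by
      rintro (_ | q) hq b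
      · exact abs_cos_le_one _
      · have hq' : q.1 ∈ T ∧ q.2 ∈ T := by simpa using hq
        simp only [Option.elim]
        rw [abs_mul]; exact mul_le_mul (hd _ hq'.1 b) (hd _ hq'.2 b) (abs_nonneg _) hd0)
    (c₀ := sm p F) (β := β₀ + β₂ * (β₁ + β₂)) hN (by have := h.β₀0; positivity) hF hF0 ?_ hB hφ
  · simp only [sum_insertNone, Option.elim, sum_const, nsmul_eq_mul, mul_one, card_product] at key
    have e1 : br μ (fun a _ => F a * (2 * lam * cos (2 * π * H a))) =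
        2 * lam * br μ (fun a _ => F a * cos (2 * π * H a)) := by
      rw [br, br, ← tsum_mul_left]; exact tsum_congr fun q => by ring
    have e2 : ∀ q : ι × ι, br μ (fun a _ => F a * (yy q.1 a * yy q.2 a / 2)) =
        br μ (fun a _ => F a * (yy q.1 a * yy q.2 a)) / 2 := fun q => by
      rw [br, br, ← tsum_div_const]; exact tsum_congr fun q => by ring
    simp only [e1, e2] at key
    refine le_of_eq_of_le ?_ (key.trans (le_of_eq ?_))
    · congr 1; ring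
    · push_cast; ring
  · intro b hb
    have e := h.expand hN hF hb
    rw [sm_odd (u := fun a => F a * y a b) ng h.πng (fun a => by rw [hev, h.yng]; ring),
      sm_odd (u := fun a => F a * sin (2 * π * H a)) ng h.πng
      (fun a => by rw [hev, h.Hng, mul_neg, sin_neg]; ring)] at e
    have e1 : sm p (fun a => F a * (2 * lam * cos (2 * π * H a))) =
        2 * lam * sm p (fun a => F a * cos (2 * π * H a)) := by
      rw [sm, sm, ← tsum_mul_left]; exact tsum_congr fun q => by ring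
    have e2 : |sm p (fun a => F a * y a b ^ 2) / 2 - ∑ q ∈ T ×ˢ T,
        sm p (fun a => F a * (yy q.1 a * yy q.2 a / 2)) * (d q.1 b * d q.2 b)| ≤
        (∑' a, p a) * (N * (β₂ * (β₁ + β₂))) := by
      have s1 : HasSum (fun a => p a * (F a * y a b ^ 2)) (sm p fun a => F a * y a b ^ 2) :=
        (summ_bdd h.π0 h.πs (U := N * β₁ ^ 2) fun a ha => by
          rw [abs_mul, abs_pow]
          exact mul_le_mul (hF a) (pow_le_pow_left₀ (abs_nonneg _) (h.yle a b ha hb) 2)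
            (by positivity) hN).hasSum
      have s2 : HasSum (fun a => ∑ q ∈ T ×ˢ T, p a * (F a * (yy q.1 a * yy q.2 a / 2)) * (d q.1 b * d q.2 b))
          (∑ q ∈ T ×ˢ T, sm p (fun a => F a * (yy q.1 a * yy q.2 a / 2)) * (d q.1 b * d q.2 b)) :=
        hasSum_sum fun q hq => (summ_bdd h.π0 h.πs (U := N * (y₀ * y₀)) fun a _ => by
          have := hyy2 q hq a
          rw [abs_mul, abs_div, abs_two]
          exact mul_le_mul (hF a) (by linarith [abs_nonneg (yy q.1 a * yy q.2 a)]) (by positivity)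
            hN).hasSum.mul_right _
      rw [← ((s1.div_const 2).sub s2).tsum_eq]
      refine le_of_eq_of_le ?_ (abs_tsum_bdd h.π0 h.πs
        (u := fun a => F a * ((y a b ^ 2 - (∑ i ∈ T, yy i a * d i b) ^ 2) / 2)) fun a ha => by
          rw [abs_mul]
          refine mul_le_mul (hF a) ?_ (abs_nonneg _) hN
          have a1 := hy a b ha hb
          have a2 := h.yle a b ha hb
          set s := ∑ i ∈ T, yy i a * d i b
          have a3 : |y a b + s| ≤ 2 * β₁ + β₂ := by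
            rw [abs_le] at *; constructor <;> linarith [a1.1, a1.2, a2.1, a2.2]
          rw [abs_div, abs_two, sq_sub_sq, abs_mul]
          have := mul_le_mul a3 a1 (abs_nonneg _) (by positivity)
          nlinarith)
      congr 1
      refine tsum_congr fun a => ?_
      rw [sq (∑ i ∈ T, yy i a * d i b), sum_mul_sum, ← sum_product', sub_div, mul_sub, mul_sub, sum_div,
        mul_sum, mul_sum]
      congr 1
      · ring
      · exact sum_congr rfl fun q _ => by ring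
    simp only [sum_insertNone, Option.elim, e1]
    rw [abs_le] at *
    constructor <;> nlinarith [e.1, e.2, e2.1, e2.2]


end Sec

end Crest.Agent.T145.KrA
end

-- ▼ part T145/KrB_90
section

/-!
# Row 145, design N: the abstract orbit lemma K4 and the form (K#) (helper90)
-/

set_option autoImplicit false

namespace Crest.Agent.T145.KrA

open Finset

variable {X Y : Type*}

/-- `ℓ¹` norm -/
noncomputable def n1 {α : Type*} (f : α → ℝ) : ℝ := ∑' a, |f a|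

section n1
variable {α : Type*} {f g : α → ℝ}
theorem n1_nonneg (f : α → ℝ) : 0 ≤ n1 f := tsum_nonneg fun _ => abs_nonneg _
theorem n1_le {h : α → ℝ} (hh : Summable h) (hf : ∀ a, |f a| ≤ h a) : n1 f ≤ ∑' a, h a :=
  (Summable.of_nonneg_of_le (fun _ => abs_nonneg _) hf hh).tsum_le_tsum hf hh
theorem n1_add (hf : Summable f) (hg : Summable g) : n1 (fun a => f a + g a) ≤ n1 f + n1 g := by
  rw [n1, n1, n1, ← hf.abs.tsum_add hg.abs]
  exact n1_le (hf.abs.add hg.abs) fun a => abs_add_le _ _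
theorem n1_tri {h : α → ℝ} (hf : Summable f) (hg : Summable g) (hh : Summable h) :
    n1 (fun a => f a - h a) ≤ n1 (fun a => f a - g a) + n1 (fun a => g a - h a) := by
  refine le_of_eq_of_le ?_ (n1_add (hf.sub hg) (hg.sub hh))
  congr 1; funext a; ring
theorem n1_comm (f g : α → ℝ) : n1 (fun a => f a - g a) = n1 (fun a => g a - f a) :=
  tsum_congr fun _ => abs_sub_comm _ _
theorem n1_mul (c : ℝ) (f : α → ℝ) : n1 (fun a => c * f a) = |c| * n1 f := by
  simp only [n1, abs_mul, tsum_mul_left]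
theorem n1_of_nonneg (h : ∀ a, 0 ≤ f a) : n1 f = ∑' a, f a := tsum_congr fun a => abs_of_nonneg (h a)
end n1

theorem summ_tens {u : X → ℝ} {v : Y → ℝ} (hu : Summable u) (hv : Summable v) :
    Summable fun p : X × Y => u p.1 * v p.2 :=
  summable_mul_of_summable_norm (by simpa using hu.abs) (by simpa using hv.abs)

theorem n1_tens {u : X → ℝ} {v : Y → ℝ} (hu : Summable u) (hv : Summable v) :
    n1 (fun p : X × Y => u p.1 * v p.2) = n1 u * n1 v := by
  simp only [n1, abs_mul]; exact tsum_prod_mul hu.abs hv.abs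

theorem n1_marg {F : X × Y → ℝ} (hF : Summable F) : n1 (fun a => ∑' b, F (a, b)) ≤ n1 F := by
  rw [n1, n1, hF.abs.tsum_prod]
  refine n1_le hF.abs.prod fun a => ?_
  have := norm_tsum_le_tsum_norm (f := fun b => F (a, b)) (hF.abs.prod_factor a)
  simpa using this

/-- the two inequalities are added -/
theorem orb_step {P : ℤ → X → ℝ} {Q : ℤ → Y → ℝ} {N : ℤ → ℤ → X × Y → ℝ} {M : ℤ} {e : ℝ}
    (hP : ∀ i, Summable (P i)) (hQ : ∀ j, Summable (Q j)) (hN : ∀ i j, Summable (N i j))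
    (Q0 : ∀ j b, 0 ≤ Q j b) (inv : ∀ i j, N (i + 1) (j + 1) = N i j)
    (cl : ∀ i j, |i| ≤ M → |j| ≤ M → n1 (fun p => N i j p - P i p.1 * Q j p.2) ≤ e)
    (ev : ∀ j, ∑' b, Q (-j) b = ∑' b, Q j b) (hM : 1 ≤ M) {i j : ℤ} (hi : |i| ≤ M) (hi' : |i + 1| ≤ M)
    (hj : |j| ≤ M) : (∑' b, Q j b) * n1 (fun a => P i a - P (i + 1) a) ≤ 4 * e := by
  have h1 : ∀ j, |j| ≤ M → |j + 1| ≤ M →
      n1 (fun a => (∑' b, Q j b) * P i a - (∑' b, Q (j + 1) b) * P (i + 1) a) ≤ 2 * e := by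
    intro j hj hj'
    have a1 := cl i j hi hj
    have a2 := cl (i + 1) (j + 1) hi' hj'
    rw [inv] at a2
    have a3 := n1_tri (summ_tens (hP i) (hQ j)) (hN i j) (summ_tens (hP (i + 1)) (hQ (j + 1)))
    rw [n1_comm _ (N i j)] at a3
    have a4 := n1_marg ((summ_tens (hP i) (hQ j)).sub (summ_tens (hP (i + 1)) (hQ (j + 1))))
    have a5 : (fun a => ∑' b, (P i a * Q j b - P (i + 1) a * Q (j + 1) b)) =
        fun a => (∑' b, Q j b) * P i a - (∑' b, Q (j + 1) b) * P (i + 1) a := by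
      funext a
      rw [((hQ j).mul_left _).tsum_sub ((hQ (j + 1)).mul_left _), tsum_mul_left, tsum_mul_left]; ring
    simp only at a4
    rw [a5] at a4
    linarith
  have h2 : ∀ j, |j| ≤ M → |j + 1| ≤ M →
      ((∑' b, Q j b) + ∑' b, Q (j + 1) b) * n1 (fun a => P i a - P (i + 1) a) ≤ 4 * e := by
    intro j hj hj'
    have a1 := h1 j hj hj'
    have a2 := h1 (-(j + 1)) (by rwa [abs_neg]) (by rw [show -(j + 1) + 1 = -j by ring, abs_neg]; exact hj)
    rw [show -(j + 1) + 1 = -j by ring, ev, ev] at a2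
    have a3 := n1_add (((hP i).mul_left (∑' b, Q j b)).sub ((hP (i + 1)).mul_left (∑' b, Q (j + 1) b)))
      (((hP i).mul_left (∑' b, Q (j + 1) b)).sub ((hP (i + 1)).mul_left (∑' b, Q j b)))
    have p0 : 0 ≤ (∑' b, Q j b) + ∑' b, Q (j + 1) b :=
      add_nonneg (tsum_nonneg (Q0 _)) (tsum_nonneg (Q0 _))
    rw [← abs_of_nonneg p0, ← n1_mul]
    refine le_of_eq_of_le ?_ (a3.trans (by linarith))
    congr 1; funext a; ring
  have n0 := n1_nonneg fun a => P i a - P (i + 1) a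
  by_cases hc : j + 1 ≤ M
  · have := h2 j hj (by rw [abs_le] at *; omega)
    have q1 : 0 ≤ ∑' b, Q (j + 1) b := tsum_nonneg (Q0 _)
    nlinarith [mul_nonneg q1 n0]
  · have := h2 (j - 1) (by rw [abs_le] at *; omega) (by rwa [sub_add_cancel])
    rw [sub_add_cancel] at this
    have q1 : 0 ≤ ∑' b, Q (j - 1) b := tsum_nonneg (Q0 _)
    nlinarith [mul_nonneg q1 n0]

theorem orb {P : ℤ → X → ℝ} {Q : ℤ → Y → ℝ} {N : ℤ → ℤ → X × Y → ℝ} {M : ℤ} {e : ℝ}
    (hP : ∀ i, Summable (P i)) (hQ : ∀ j, Summable (Q j)) (hN : ∀ i j, Summable (N i j))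
    (Q0 : ∀ j b, 0 ≤ Q j b) (inv : ∀ i j, N (i + 1) (j + 1) = N i j)
    (cl : ∀ i j, |i| ≤ M → |j| ≤ M → n1 (fun p => N i j p - P i p.1 * Q j p.2) ≤ e)
    (ev : ∀ j, ∑' b, Q (-j) b = ∑' b, Q j b) (hM : 1 ≤ M) {j : ℤ} (hj : |j| ≤ M) (i : ℤ) :
    |i| ≤ M → (∑' b, Q j b) * n1 (fun a => P i a - P 0 a) ≤ 4 * |(i : ℝ)| * e := by
  have q0 : 0 ≤ ∑' b, Q j b := tsum_nonneg (Q0 j)
  induction i using Int.induction_on with
  | zero => intro _; simp [n1]
  | succ n ih =>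
    intro hi
    have hn : |(n : ℤ)| ≤ M := by rw [abs_le] at *; omega
    have a1 := orb_step hP hQ hN Q0 inv cl ev hM hn hi hj
    have a2 := n1_tri (hP (n + 1)) (hP n) (hP 0)
    rw [n1_comm (P (n + 1)) (P n)] at a2
    have a3 := ih hn
    have a4 := mul_le_mul_of_nonneg_left a2 q0
    push_cast at *
    rw [abs_of_nonneg (by positivity)] at a3 ⊢
    linarith
  | pred n ih =>
    intro hi
    have hn : |-(n : ℤ)| ≤ M := by rw [abs_le] at *; omega
    have a1 := orb_step hP hQ hN Q0 inv cl ev hM hi (by rwa [sub_add_cancel]) hj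
    rw [sub_add_cancel] at a1
    have a2 := n1_tri (hP (-n - 1)) (hP (-n)) (hP 0)
    have a3 := ih hn
    have a4 := mul_le_mul_of_nonneg_left a2 q0
    push_cast at *
    rw [abs_neg, abs_of_nonneg (by positivity)] at a3
    rw [show -(n : ℝ) - 1 = -(n + 1) by ring, abs_neg, abs_of_nonneg (by positivity)]
    linarith

/-- a pointwise convex combination of the `P i`, `|i| ≤ 2` -/
theorem n1_conv {P : ℤ → X → ℝ} (hP : ∀ i, Summable (P i)) {π : X → ℝ} {c : ℤ → X → ℝ}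
    (c0 : ∀ i a, 0 ≤ c i a) (c1 : ∀ i a, c i a ≤ 1)
    (hπ : ∀ a, π a - P 0 a = ∑ i ∈ Icc (-2 : ℤ) 2, c i a * (P i a - P 0 a)) :
    Summable π ∧ n1 (fun a => π a - P 0 a) ≤ ∑ i ∈ Icc (-2 : ℤ) 2, n1 fun a => P i a - P 0 a := by
  have s : HasSum (fun a => ∑ i ∈ Icc (-2 : ℤ) 2, |P i a - P 0 a|)
      (∑ i ∈ Icc (-2 : ℤ) 2, n1 fun a => P i a - P 0 a) :=
    hasSum_sum fun i _ => ((hP i).sub (hP 0)).abs.hasSum
  have b : ∀ a, |π a - P 0 a| ≤ ∑ i ∈ Icc (-2 : ℤ) 2, |P i a - P 0 a| := fun a => by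
    rw [hπ]
    refine (abs_sum_le_sum_abs _ _).trans (sum_le_sum fun i _ => ?_)
    rw [abs_mul, abs_of_nonneg (c0 i a)]
    exact mul_le_of_le_one_left (abs_nonneg _) (c1 i a)
  refine ⟨?_, s.tsum_eq ▸ n1_le s.summable b⟩
  have := (Summable.of_norm_bounded s.summable (f := fun a => π a - P 0 a) b).add (hP 0)
  simpa using this

/-- K4, sequence form -/
theorem orb_main {P : ℤ → X → ℝ} {Q : ℤ → Y → ℝ} {N : ℤ → ℤ → X × Y → ℝ} {M : ℤ} {e : ℝ}
    (hP : ∀ i, Summable (P i)) (hQ : ∀ j, Summable (Q j)) (hN : ∀ i j, Summable (N i j))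
    (P0 : ∀ i a, 0 ≤ P i a) (Q0 : ∀ j b, 0 ≤ Q j b) (inv : ∀ i j, N (i + 1) (j + 1) = N i j)
    (cl : ∀ i j, |i| ≤ M → |j| ≤ M → n1 (fun p => N i j p - P i p.1 * Q j p.2) ≤ e)
    (evP : ∀ i, ∑' a, P (-i) a = ∑' a, P i a) (evQ : ∀ j, ∑' b, Q (-j) b = ∑' b, Q j b) (hM : 2 ≤ M)
    {π : X → ℝ} {c : ℤ → X → ℝ} (c0 : ∀ i a, 0 ≤ c i a) (c1 : ∀ i a, c i a ≤ 1)
    (hπ : ∀ a, π a - P 0 a = ∑ i ∈ Icc (-2 : ℤ) 2, c i a * (P i a - P 0 a))
    {π' : Y → ℝ} {c' : ℤ → Y → ℝ} (c0' : ∀ i a, 0 ≤ c' i a) (c1' : ∀ i a, c' i a ≤ 1)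
    (hπ' : ∀ a, π' a - Q 0 a = ∑ i ∈ Icc (-2 : ℤ) 2, c' i a * (Q i a - Q 0 a))
    (hle : ∀ b, |π' b| ≤ ∑ i ∈ Icc (-2 : ℤ) 2, Q i b) {j : ℤ} (hj : |j| ≤ M) :
    n1 (fun p => N 0 j p - π p.1 * π' p.2) ≤ (145 + 4 * |(j : ℝ)|) * e := by
  have hM1 : 1 ≤ M := by omega
  have h0 : |(0 : ℤ)| ≤ M := by simp; omega
  have A := fun j hj i => orb hP hQ hN Q0 inv cl evQ hM1 (j := j) hj i
  have B := fun i hi j => orb (P := Q) (Q := P) (N := fun j i q => N i j (q.2, q.1)) (M := M) (e := e) hQ hP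
    (fun j i => (Equiv.prodComm Y X).summable_iff.2 (hN i j)) P0 (fun j i => by rw [inv])
    (fun j i hj hi => by
      refine le_of_eq_of_le ?_ (cl i j hi hj)
      rw [n1, n1, ← (Equiv.prodComm X Y).tsum_eq]
      exact tsum_congr fun p => by simp [mul_comm]) evP hM1 (j := i) hi j
  obtain ⟨sπ, bπ⟩ := n1_conv hP c0 c1 hπ
  obtain ⟨sπ', bπ'⟩ := n1_conv hQ c0' c1' hπ'
  have hI : ∀ i ∈ Icc (-2 : ℤ) 2, |i| ≤ M := fun i hi => by
    rw [mem_Icc] at hi; rw [abs_le]; omega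
  have sI : ∑ i ∈ Icc (-2 : ℤ) 2, 4 * |(i : ℝ)| * e = 24 * e := by
    rw [show Icc (-2 : ℤ) 2 = {-2, -1, 0, 1, 2} by decide]
    simp; ring
  have p0 : 0 ≤ ∑' a, P 0 a := tsum_nonneg (P0 0)
  have b1 : ∀ j, |j| ≤ M → (∑' b, Q j b) * n1 (fun a => π a - P 0 a) ≤ 24 * e := fun j hj => by
    refine (mul_le_mul_of_nonneg_left bπ (tsum_nonneg (Q0 j))).trans ?_
    rw [mul_sum, ← sI]
    exact sum_le_sum fun i hi => A j hj i (hI i hi)
  have b2 : (∑' a, P 0 a) * n1 (fun a => π' a - Q 0 a) ≤ 24 * e := by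
    refine (mul_le_mul_of_nonneg_left bπ' p0).trans ?_
    rw [mul_sum, ← sI]
    exact sum_le_sum fun i hi => B 0 h0 i (hI i hi)
  have b3 := B 0 h0 j hj
  have b4 : n1 π' * n1 (fun a => π a - P 0 a) ≤ 120 * e := by
    have s : HasSum (fun b => ∑ i ∈ Icc (-2 : ℤ) 2, Q i b) (∑ i ∈ Icc (-2 : ℤ) 2, ∑' b, Q i b) :=
      hasSum_sum fun i _ => (hQ i).hasSum
    have := n1_le s.summable hle
    rw [s.tsum_eq] at this
    refine (mul_le_mul_of_nonneg_right this (n1_nonneg _)).trans ?_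
    rw [sum_mul]
    refine (sum_le_sum fun i hi => b1 i (hI i hi)).trans (le_of_eq ?_)
    simp; ring
  have t1 := n1_tri (hN 0 j) (summ_tens (hP 0) (hQ j)) (summ_tens sπ sπ')
  have t2 := n1_tri (summ_tens (hP 0) (hQ j)) (summ_tens (hP 0) (hQ 0)) (summ_tens sπ sπ')
  have t3 := n1_tri (summ_tens (hP 0) (hQ 0)) (summ_tens (hP 0) sπ') (summ_tens sπ sπ')
  have e1 : n1 (fun p : X × Y => P 0 p.1 * Q j p.2 - P 0 p.1 * Q 0 p.2) =
      (∑' a, P 0 a) * n1 fun b => Q j b - Q 0 b := by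
    rw [← n1_of_nonneg (P0 0), ← n1_tens (hP 0) ((hQ j).sub (hQ 0))]; congr 1; funext p; ring
  have e2 : n1 (fun p : X × Y => P 0 p.1 * Q 0 p.2 - P 0 p.1 * π' p.2) =
      (∑' a, P 0 a) * n1 fun b => π' b - Q 0 b := by
    rw [n1_comm π', ← n1_of_nonneg (P0 0), ← n1_tens (hP 0) ((hQ 0).sub sπ')]; congr 1; funext p; ring
  have e3 : n1 (fun p : X × Y => P 0 p.1 * π' p.2 - π p.1 * π' p.2) =
      n1 π' * n1 fun a => π a - P 0 a := by
    rw [n1_comm π, mul_comm, ← n1_tens ((hP 0).sub sπ) sπ']; congr 1; funext p; ring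
  have := cl 0 j h0 hj
  linarith

/-- the tent -/
noncomputable def tw (u : ℝ) : ℝ := max (1 - |u|) 0

theorem tw_nonneg (u : ℝ) : 0 ≤ tw u := le_max_right _ _
theorem tw_le_one (u : ℝ) : tw u ≤ 1 := max_le (by linarith [abs_nonneg u]) zero_le_one
theorem tw_neg (u : ℝ) : tw (-u) = tw u := by rw [tw, tw, abs_neg]
theorem tw_zero {u : ℝ} (h : 1 ≤ |u|) : tw u = 0 := max_eq_right (by linarith)
theorem lt_of_tw {u : ℝ} (h : tw u ≠ 0) : |u| < 1 := not_le.1 fun h' => h (tw_zero h')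

theorem hasSum_tw (u : ℝ) : HasSum (fun j : ℤ => tw (u + j)) 1 := by
  have h1 := Int.floor_le u
  have h2 := Int.lt_floor_add_one u
  have : ∑ j ∈ ({-⌊u⌋, -⌊u⌋ - 1} : Finset ℤ), tw (u + j) = 1 := by
    rw [sum_pair (by omega)]
    push_cast
    rw [tw, tw, abs_of_nonneg (by linarith), abs_of_nonpos (by linarith), max_eq_left (by linarith),
      max_eq_left (by linarith)]
    ring
  rw [← this]
  refine hasSum_sum_of_ne_finset_zero fun j hj => tw_zero ?_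
  simp only [mem_insert, mem_singleton, not_or] at hj
  rcases (by omega : -⌊u⌋ + 1 ≤ j ∨ j ≤ -⌊u⌋ - 2) with h | h
  · have : (-⌊u⌋ + 1 : ℝ) ≤ j := by exact_mod_cast h
    exact le_abs.2 (Or.inl (by linarith))
  · have : (j : ℝ) ≤ -⌊u⌋ - 2 := by exact_mod_cast h
    exact le_abs.2 (Or.inr (by linarith))

theorem hasSum_tw' (u : ℝ) : HasSum (fun j : ℤ => tw (u - j)) 1 := by
  convert hasSum_tw (-u) using 2 with j
  rw [← tw_neg]; congr 1; ring

theorem tw_far {u : ℝ} (hu : |u| ≤ 1) {j : ℤ} (hj : j ∉ Icc (-2 : ℤ) 2) : tw (u + j) = 0 := by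
  rw [mem_Icc] at hj; rw [abs_le] at hu
  refine tw_zero ?_
  rcases (by omega : 3 ≤ j ∨ j ≤ -3) with h | h
  · have : (3 : ℝ) ≤ j := by exact_mod_cast h
    exact le_abs.2 (Or.inl (by linarith))
  · have : (j : ℝ) ≤ -3 := by exact_mod_cast h
    exact le_abs.2 (Or.inr (by linarith))

/-- shifts, negation, level and typical set -/
structure Act (X : Type*) where
  s : ℤ → X ≃ X
  ng : X ≃ X
  H : X → ℝ
  T : X → Prop
  s_add : ∀ i j a, s (i + j) a = s i (s j a)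
  s_zero : ∀ a, s 0 a = a
  ng_s : ∀ i a, ng (s i a) = s (-i) (ng a)
  H_s : ∀ i a, H (s i a) = H a + i
  H_ng : ∀ a, H (ng a) = -H a
  T_s : ∀ i a, T (s i a) ↔ T a
  T_ng : ∀ a, T (ng a) ↔ T a

open Classical in
/-- indicator of the typical set at level at most `M` -/
noncomputable def Act.bx (A : Act X) (M : ℝ) (a : X) : ℝ := if A.T a ∧ |A.H a| ≤ M then 1 else 0

/-- the shift invariant factor, cut to the typical set and to levels `≤ 1` -/
noncomputable def Act.pi0 (A : Act X) (p : X → ℝ) (a : X) : ℝ :=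
  A.bx 1 a * ∑' j : ℤ, p (A.s j a) * tw (A.H a + j)

/-- the factor of (K#) -/
noncomputable def Act.pib (A : Act X) (p : X → ℝ) (a : X) : ℝ := tw (A.H a) * A.pi0 p a

/-- the folded weight -/
noncomputable def mub (A : Act X) (B : Act Y) (μ : X × Y → ℝ) (q : X × Y) : ℝ :=
  tw (A.H q.1) * tw (B.H q.2) * ∑' j : ℤ, μ (q.1, B.s j q.2)

/-- theta function -/
noncomputable def thf (κ u : ℝ) : ℝ := ∑' j : ℤ, Real.exp (-κ * (u - j) ^ 2 / 2)

namespace Act
variable (A : Act X) {p : X → ℝ}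

theorem bx_nonneg (M : ℝ) (a : X) : 0 ≤ A.bx M a := by unfold bx; split_ifs <;> norm_num
theorem bx_le_one (M : ℝ) (a : X) : A.bx M a ≤ 1 := by unfold bx; split_ifs <;> norm_num
theorem bx_ne {M : ℝ} {a : X} (h : A.bx M a ≠ 0) : A.T a ∧ |A.H a| ≤ M := by
  by_contra h'; exact h (if_neg h')
theorem bx_one {M : ℝ} {a : X} (h : A.T a ∧ |A.H a| ≤ M) : A.bx M a = 1 := if_pos h
theorem bx_ng (M : ℝ) (a : X) : A.bx M (A.ng a) = A.bx M a := by
  unfold bx; rw [A.H_ng, abs_neg, propext (A.T_ng a)]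
theorem bx_s {M : ℝ} {i : ℤ} (hi : |(i : ℝ)| + 1 ≤ M) (a : X) : A.bx 1 a ≤ A.bx M (A.s i a) := by
  by_cases h : A.bx 1 a = 0
  · rw [h]; exact A.bx_nonneg _ _
  · have := A.bx_ne h
    rw [A.bx_one (M := M) ⟨(A.T_s i a).2 this.1, by
      rw [A.H_s]; exact (abs_add_le _ _).trans (by linarith [this.2])⟩]
    exact A.bx_le_one _ _

theorem pi0_eq (p : X → ℝ) (a : X) :
    A.pi0 p a = ∑ i ∈ Icc (-2 : ℤ) 2, tw (A.H a + i) * (A.bx 1 a * p (A.s i a)) := by
  by_cases h : A.bx 1 a = 0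
  · simp [pi0, h]
  · rw [pi0, tsum_eq_sum (s := Icc (-2 : ℤ) 2) fun j hj => by rw [tw_far (A.bx_ne h).2 hj, mul_zero],
      mul_sum]
    exact sum_congr rfl fun i _ => by ring

theorem pi0_sub (p : X → ℝ) (a : X) : A.pi0 p a - A.bx 1 a * p (A.s 0 a) =
    ∑ i ∈ Icc (-2 : ℤ) 2, tw (A.H a + i) * (A.bx 1 a * p (A.s i a) - A.bx 1 a * p (A.s 0 a)) := by
  by_cases h : A.bx 1 a = 0
  · simp [pi0, h]
  · have h1 : ∑ i ∈ Icc (-2 : ℤ) 2, tw (A.H a + i) = 1 :=
      (hasSum_sum_of_ne_finset_zero fun j hj => tw_far (A.bx_ne h).2 hj).unique (hasSum_tw _)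
    simp only [mul_sub, sum_sub_distrib, ← sum_mul, h1, one_mul, A.pi0_eq]

theorem pi0_nonneg (hp : ∀ a, 0 ≤ p a) (a : X) : 0 ≤ A.pi0 p a :=
  mul_nonneg (A.bx_nonneg _ _) (tsum_nonneg fun _ => mul_nonneg (hp _) (tw_nonneg _))
theorem pib_nonneg (hp : ∀ a, 0 ≤ p a) (a : X) : 0 ≤ A.pib p a :=
  mul_nonneg (tw_nonneg _) (A.pi0_nonneg hp a)
theorem pib_le (hp : ∀ a, 0 ≤ p a) (a : X) : A.pib p a ≤ A.pi0 p a :=
  mul_le_of_le_one_left (A.pi0_nonneg hp a) (tw_le_one _)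
theorem pib_ne {a : X} (h : A.pib p a ≠ 0) : A.T a ∧ |A.H a| ≤ 1 :=
  A.bx_ne (left_ne_zero_of_mul (right_ne_zero_of_mul h))

theorem pib_ng (hp : ∀ a, p (A.ng a) = p a) (a : X) : A.pib p (A.ng a) = A.pib p a := by
  rw [pib, pib, pi0, pi0, A.bx_ng, A.H_ng, tw_neg, ← (Equiv.neg ℤ).tsum_eq]
  congr 2
  refine tsum_congr fun j => ?_
  rw [Equiv.neg_apply, ← A.ng_s, hp, ← tw_neg]; push_cast; congr 2; ring

/-- invariance under a symmetry -/
theorem pib_inv (g : X → X) (hp : ∀ a, p (g a) = p a) (hs : ∀ i a, g (A.s i a) = A.s i (g a))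
    (hH : ∀ a, A.H (g a) = A.H a) (hT : ∀ a, A.T (g a) ↔ A.T a) (a : X) : A.pib p (g a) = A.pib p a := by
  have : A.bx 1 (g a) = A.bx 1 a := by unfold bx; rw [hH, propext (hT a)]
  simp only [pib, pi0, this, hH, ← hs, hp]

theorem summ_P (hp : ∀ a, 0 ≤ p a) {M : ℝ} (hs : Summable fun a => A.bx M a * p a) {i : ℤ}
    (hi : |(i : ℝ)| + 1 ≤ M) : Summable fun a => A.bx 1 a * p (A.s i a) :=
  Summable.of_nonneg_of_le (fun _ => mul_nonneg (A.bx_nonneg _ _) (hp _))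
    (fun a => mul_le_mul_of_nonneg_right (A.bx_s hi a) (hp _)) ((A.s i).summable_iff.2 hs)

theorem ev_P (hp : ∀ a, p (A.ng a) = p a) (i : ℤ) :
    ∑' a, A.bx 1 a * p (A.s (-i) a) = ∑' a, A.bx 1 a * p (A.s i a) := by
  rw [← A.ng.tsum_eq]
  exact tsum_congr fun a => by rw [A.bx_ng, ← A.ng_s, hp]

theorem summ_pib (hp : ∀ a, 0 ≤ p a) {M : ℝ} (hM : 3 ≤ M) (hs : Summable fun a => A.bx M a * p a) :
    Summable (A.pib p) := by
  refine Summable.of_nonneg_of_le (A.pib_nonneg hp) (fun a => (A.pib_le hp a).trans ?_)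
    (summable_sum (s := Icc (-2 : ℤ) 2) fun i hi => A.summ_P hp hs (i := i) ?_)
  · rw [A.pi0_eq]
    exact sum_le_sum fun i _ => mul_le_of_le_one_left (mul_nonneg (A.bx_nonneg _ _) (hp _)) (tw_le_one _)
  · rw [mem_Icc] at hi
    have : |(i : ℝ)| ≤ 2 := by rw [abs_le]; exact_mod_cast hi
    linarith

end Act

/-- K4 -/
theorem k4 (A : Act X) (B : Act Y) {ν : X × Y → ℝ} {p : X → ℝ} {q : Y → ℝ} {K : ℕ} {e : ℝ}
    (ν0 : ∀ z, 0 ≤ ν z) (νs : ∀ i a b, ν (A.s i a, B.s i b) = ν (a, b))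
    (p0 : ∀ a, 0 ≤ p a) (q0 : ∀ b, 0 ≤ q b) (pe : ∀ a, p (A.ng a) = p a) (qe : ∀ b, q (B.ng b) = q b)
    (sp : Summable fun a => A.bx (K + 3) a * p a) (sq : Summable fun b => B.bx (K + 3) b * q b)
    (sν : Summable fun z : X × Y => A.bx (K + 3) z.1 * B.bx (K + 3) z.2 * ν z)
    (cl : ∑' z : X × Y, A.bx (K + 3) z.1 * B.bx (K + 3) z.2 * |ν z - p z.1 * q z.2| ≤ e)
    {j : ℤ} (hj : |j| ≤ K + 2) :
    Summable (fun z : X × Y => A.bx 1 z.1 * B.bx 1 z.2 * ν (z.1, B.s j z.2)) ∧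
    n1 (fun z : X × Y => A.bx 1 z.1 * B.bx 1 z.2 * ν (z.1, B.s j z.2) - A.pi0 p z.1 * B.pi0 q z.2) ≤
      (145 + 4 * |(j : ℝ)|) * e := by
  classical
  have c : ∀ {i : ℤ}, |i| ≤ (K + 2 : ℤ) → |(i : ℝ)| + 1 ≤ K + 3 := fun {i} hi => by
    have : |(i : ℝ)| ≤ K + 2 := by exact_mod_cast hi
    linarith
  have sN : ∀ {i j : ℤ}, |i| ≤ (K + 2 : ℤ) → |j| ≤ (K + 2 : ℤ) →
      Summable fun z : X × Y => A.bx 1 z.1 * B.bx 1 z.2 * ν (A.s i z.1, B.s j z.2) := fun {i j} hi hj =>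
    Summable.of_nonneg_of_le (fun z => mul_nonneg (mul_nonneg (A.bx_nonneg _ _) (B.bx_nonneg _ _)) (ν0 _))
      (fun z => mul_le_mul_of_nonneg_right (mul_le_mul (A.bx_s (c hi) _) (B.bx_s (c hj) _)
        (B.bx_nonneg _ _) (A.bx_nonneg _ _)) (ν0 _))
      (((A.s i).prodCongr (B.s j)).summable_iff.2 sν)
  have hd : ∀ i j : ℤ, ∀ z : X × Y, ν (A.s i z.1, B.s j z.2) = ν (z.1, B.s (j - i) z.2) := fun i j z => by
    rw [← νs i z.1, ← B.s_add, add_sub_cancel]
  have h0 : |(0 : ℤ)| ≤ K + 2 := by simp; omega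
  refine ⟨by simpa only [A.s_zero] using sN h0 hj, ?_⟩
  have sab : Summable fun z : X × Y => A.bx (K + 3) z.1 * B.bx (K + 3) z.2 * |ν z - p z.1 * q z.2| := by
    refine ((sν.sub (summ_tens sp sq)).abs).congr fun z => ?_
    rw [show A.bx (K + 3) z.1 * B.bx (K + 3) z.2 * ν z - A.bx (K + 3) z.1 * p z.1 * (B.bx (K + 3) z.2 * q z.2)
      = A.bx (K + 3) z.1 * B.bx (K + 3) z.2 * (ν z - p z.1 * q z.2) by ring, abs_mul,
      abs_of_nonneg (mul_nonneg (A.bx_nonneg _ _) (B.bx_nonneg _ _))]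
  have key := orb_main (M := K + 2) (e := e)
    (P := fun i a => if |i| ≤ (K + 2 : ℤ) then A.bx 1 a * p (A.s i a) else 0)
    (Q := fun j b => if |j| ≤ (K + 2 : ℤ) then B.bx 1 b * q (B.s j b) else 0)
    (N := fun i j z => if Summable (fun z : X × Y => A.bx 1 z.1 * B.bx 1 z.2 * ν (z.1, B.s (j - i) z.2))
      then A.bx 1 z.1 * B.bx 1 z.2 * ν (z.1, B.s (j - i) z.2) else 0)
    (fun i => by
      by_cases h : |i| ≤ (K + 2 : ℤ)
      · simpa only [if_pos h] using A.summ_P p0 sp (c h)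
      · simpa only [if_neg h] using summable_zero)
    (fun i => by
      by_cases h : |i| ≤ (K + 2 : ℤ)
      · simpa only [if_pos h] using B.summ_P q0 sq (c h)
      · simpa only [if_neg h] using summable_zero)
    (fun i j => by
      by_cases h : Summable (fun z : X × Y => A.bx 1 z.1 * B.bx 1 z.2 * ν (z.1, B.s (j - i) z.2))
      · simpa only [if_pos h] using h
      · simpa only [if_neg h] using summable_zero)
    (fun i a => by
      split_ifs
      · exact mul_nonneg (A.bx_nonneg _ _) (p0 _)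
      · exact le_rfl)
    (fun i a => by
      split_ifs
      · exact mul_nonneg (B.bx_nonneg _ _) (q0 _)
      · exact le_rfl)
    (fun i j => by simp only [add_sub_add_right_eq_sub])
    (fun i j hi hj => by
      have s1 := sN hi hj
      simp only [hd] at s1
      simp only [if_pos hi, if_pos hj, if_pos s1]
      refine (n1_le (((A.s i).prodCongr (B.s j)).summable_iff.2 sab) fun z => ?_).trans
        (le_of_eq_of_le (((A.s i).prodCongr (B.s j)).tsum_eq fun z : X × Y =>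
          A.bx (K + 3) z.1 * B.bx (K + 3) z.2 * |ν z - p z.1 * q z.2|) cl)
      rw [← hd, show A.bx 1 z.1 * B.bx 1 z.2 * ν (A.s i z.1, B.s j z.2) -
        A.bx 1 z.1 * p (A.s i z.1) * (B.bx 1 z.2 * q (B.s j z.2)) = A.bx 1 z.1 * B.bx 1 z.2 *
          (ν (A.s i z.1, B.s j z.2) - p (A.s i z.1) * q (B.s j z.2)) by ring, abs_mul,
        abs_of_nonneg (mul_nonneg (A.bx_nonneg _ _) (B.bx_nonneg _ _))]
      exact mul_le_mul_of_nonneg_right (mul_le_mul (A.bx_s (c hi) _) (B.bx_s (c hj) _)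
        (B.bx_nonneg _ _) (A.bx_nonneg _ _)) (abs_nonneg _))
    (fun i => by
      by_cases h : |i| ≤ (K + 2 : ℤ)
      · simp only [abs_neg, if_pos h]; exact A.ev_P pe i
      · simp only [abs_neg, if_neg h])
    (fun i => by
      by_cases h : |i| ≤ (K + 2 : ℤ)
      · simp only [abs_neg, if_pos h]; exact B.ev_P qe i
      · simp only [abs_neg, if_neg h])
    (by omega) (π := A.pi0 p) (c := fun i a => tw (A.H a + i)) (fun _ _ => tw_nonneg _)
    (fun _ _ => tw_le_one _)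
    (fun a => by
      rw [if_pos h0, A.pi0_sub]
      refine sum_congr rfl fun i hi => ?_
      rw [mem_Icc] at hi
      rw [if_pos (by rw [abs_le]; omega)])
    (π' := B.pi0 q) (c' := fun i b => tw (B.H b + i)) (fun _ _ => tw_nonneg _) (fun _ _ => tw_le_one _)
    (fun a => by
      rw [if_pos h0, B.pi0_sub]
      refine sum_congr rfl fun i hi => ?_
      rw [mem_Icc] at hi
      rw [if_pos (by rw [abs_le]; omega)])
    (fun b => by
      rw [abs_of_nonneg (B.pi0_nonneg q0 b), B.pi0_eq]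
      refine sum_le_sum fun i hi => ?_
      rw [mem_Icc] at hi
      rw [if_pos (by rw [abs_le]; omega)]
      exact mul_le_of_le_one_left (mul_nonneg (B.bx_nonneg _ _) (q0 _)) (tw_le_one _)) hj
  have s1 := sN h0 hj
  simp only [hd] at s1
  simp only [if_pos s1] at key
  simpa only [sub_zero] using key

/-- unfolding the level of `b` -/
theorem unfold_b (A : Act X) (B : Act Y) {μ : X × Y → ℝ} (μ0 : ∀ z, 0 ≤ μ z)
    (μ1 : Summable fun z : X × Y => tw (A.H z.1) * μ z) {Ψ : X × Y → ℝ} {C : ℝ} (hΨ : ∀ z, |Ψ z| ≤ C) :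
    (∀ z : X × Y, Summable fun j : ℤ =>
      tw (A.H z.1) * tw (B.H z.2) * (μ (z.1, B.s j z.2) * Ψ (z.1, B.s j z.2))) ∧
    HasSum (fun z : X × Y => ∑' j : ℤ,
      tw (A.H z.1) * tw (B.H z.2) * (μ (z.1, B.s j z.2) * Ψ (z.1, B.s j z.2)))
      (∑' z : X × Y, tw (A.H z.1) * μ z * Ψ z) := by
  let E : (X × Y) × ℤ ≃ (X × Y) × ℤ :=
    { toFun := fun w => ((w.1.1, B.s w.2 w.1.2), w.2)
      invFun := fun w => ((w.1.1, (B.s w.2).symm w.1.2), w.2)
      left_inv := fun w => by simp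
      right_inv := fun w => by simp }
  have g0 : Summable fun w : (X × Y) × ℤ => tw (A.H w.1.1) * μ w.1 * tw (B.H w.1.2 - w.2) := by
    have n0 : ∀ w : (X × Y) × ℤ, 0 ≤ tw (A.H w.1.1) * μ w.1 * tw (B.H w.1.2 - w.2) := fun w =>
      mul_nonneg (mul_nonneg (tw_nonneg _) (μ0 _)) (tw_nonneg _)
    rw [summable_prod_of_nonneg n0]
    have n1 : ∀ z : X × Y, HasSum (fun j : ℤ => tw (A.H z.1) * μ z * tw (B.H z.2 - j))
        (tw (A.H z.1) * μ z) := fun z => by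
      simpa only [mul_one] using (hasSum_tw' (B.H z.2)).mul_left (tw (A.H z.1) * μ z)
    exact ⟨fun z => (n1 z).summable, μ1.congr fun z => (n1 z).tsum_eq.symm⟩
  have g1 : Summable fun w : (X × Y) × ℤ => tw (A.H w.1.1) * μ w.1 * tw (B.H w.1.2 - w.2) * Ψ w.1 :=
    summ_bdd (π := fun w : (X × Y) × ℤ => tw (A.H w.1.1) * μ w.1 * tw (B.H w.1.2 - w.2))
      (u := fun w => Ψ w.1) (U := C)
      (fun w => mul_nonneg (mul_nonneg (tw_nonneg _) (μ0 _)) (tw_nonneg _)) g0 fun w _ => hΨ _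
  have g2 : ∑' w : (X × Y) × ℤ, tw (A.H w.1.1) * μ w.1 * tw (B.H w.1.2 - w.2) * Ψ w.1 =
      ∑' z : X × Y, tw (A.H z.1) * μ z * Ψ z := by
    rw [g1.tsum_prod]
    refine tsum_congr fun z => ?_
    simp only [tsum_mul_right, tsum_mul_left, (hasSum_tw' _).tsum_eq, mul_one]
  have g3 : HasSum (fun w : (X × Y) × ℤ => tw (A.H w.1.1) * tw (B.H w.1.2) *
      (μ (w.1.1, B.s w.2 w.1.2) * Ψ (w.1.1, B.s w.2 w.1.2))) (∑' z : X × Y, tw (A.H z.1) * μ z * Ψ z) := by
    rw [← g2]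
    convert E.hasSum_iff.2 g1.hasSum using 1
    funext w
    simp only [Function.comp, E, Equiv.coe_fn_mk, B.H_s, add_sub_cancel_right]; ring
  exact ⟨fun z => g3.summable.prod_factor z,
    g3.prod_fiberwise fun z => (g3.summable.prod_factor z).hasSum⟩

theorem mub_nonneg (A : Act X) (B : Act Y) {μ : X × Y → ℝ} (μ0 : ∀ z, 0 ≤ μ z) (z : X × Y) :
    0 ≤ mub A B μ z := mul_nonneg (mul_nonneg (tw_nonneg _) (tw_nonneg _)) (tsum_nonneg fun _ => μ0 _)

/-- expectations of functions invariant under the shifts of `b` -/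
theorem hasSum_mub (A : Act X) (B : Act Y) {μ : X × Y → ℝ} (μ0 : ∀ z, 0 ≤ μ z)
    (μ1 : Summable fun z : X × Y => tw (A.H z.1) * μ z) {Φ : X → Y → ℝ} {C : ℝ} (hΦ : ∀ a b, |Φ a b| ≤ C)
    (hs : ∀ j a b, Φ a (B.s j b) = Φ a b) :
    HasSum (fun z => mub A B μ z * Φ z.1 z.2) (∑' z : X × Y, tw (A.H z.1) * μ z * Φ z.1 z.2) := by
  convert (unfold_b A B μ0 μ1 (Ψ := fun z => Φ z.1 z.2) fun z => hΦ _ _).2 using 1
  funext z
  simp only [mub, hs, tsum_mul_left, tsum_mul_right]; ring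

theorem br_mub (A : Act X) (B : Act Y) {μ : X × Y → ℝ} (μ0 : ∀ z, 0 ≤ μ z)
    (μ1 : Summable fun z : X × Y => tw (A.H z.1) * μ z) {Φ : X → Y → ℝ} {C : ℝ} (hΦ : ∀ a b, |Φ a b| ≤ C)
    (hs : ∀ j a b, Φ a (B.s j b) = Φ a b) :
    br (mub A B μ) Φ = ∑' z : X × Y, tw (A.H z.1) * μ z * Φ z.1 z.2 :=
  (hasSum_mub A B μ0 μ1 hΦ hs).tsum_eq

theorem hasSum_mub_one (A : Act X) (B : Act Y) {μ : X × Y → ℝ} (μ0 : ∀ z, 0 ≤ μ z)
    (μ1 : HasSum (fun z : X × Y => tw (A.H z.1) * μ z) 1) : HasSum (mub A B μ) 1 := by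
  have := hasSum_mub A B μ0 μ1.summable (Φ := fun _ _ => 1) (C := 1) (by simp) (by simp)
  simpa only [mul_one, μ1.tsum_eq] using this

theorem summ_thf {κ : ℝ} (hκ : 0 < κ) (u : ℝ) : Summable fun j : ℤ => Real.exp (-κ * (u - j) ^ 2 / 2) := by
  have h1 : ∀ v : ℝ, Summable fun n : ℕ => Real.exp (-κ * (v - n) ^ 2 / 2) := fun v => by
    refine Summable.of_nonneg_of_le (fun _ => (Real.exp_pos _).le) (fun n => ?_)
      ((Real.summable_exp_nat_mul_iff.2 (by linarith : -κ < 0)).mul_left (Real.exp (κ * (v + 1 / 2))))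
    rw [← Real.exp_add]
    exact Real.exp_le_exp.2 (by nlinarith [mul_nonneg hκ.le (sq_nonneg (v - n + 1))])
  refine Summable.of_nat_of_neg (by simpa using h1 u) ?_
  refine (h1 (-u)).congr fun n => ?_
  push_cast; congr 1; ring

set_option maxHeartbeats 1000000 in
open Classical in
/-- (K#), for a cross term bounded by `Y₀` -/
theorem ksharpY (A : Act X) (B : Act Y) {μ : X × Y → ℝ} {p : X → ℝ} {q : Y → ℝ} {y : X → Y → ℝ} {K : ℕ}
    {κ e η₀ τ Y₀ E : ℝ} (e3 : Real.exp Y₀ ≤ E) (hκ : 0 < κ) (μ0 : ∀ z, 0 ≤ μ z) (μs : ∀ i a b, μ (A.s i a, B.s i b) = μ (a, b))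
    (μ1 : HasSum (fun z : X × Y => tw (A.H z.1) * μ z) 1)
    (p0 : ∀ a, 0 ≤ p a) (q0 : ∀ b, 0 ≤ q b) (pe : ∀ a, p (A.ng a) = p a) (qe : ∀ b, q (B.ng b) = q b)
    (ya : ∀ i a b, y (A.s i a) b = y a b) (yb : ∀ i a b, y a (B.s i b) = y a b)
    (y1 : ∀ a b, A.T a → B.T b → |y a b| ≤ Y₀)
    (sp : Summable fun a => A.bx (K + 3) a * p a) (sq : Summable fun b => B.bx (K + 3) b * q b)
    (sμ : Summable fun z : X × Y => A.bx (K + 3) z.1 * B.bx (K + 3) z.2 * μ z)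
    (cl : ∑' z : X × Y, A.bx (K + 3) z.1 * B.bx (K + 3) z.2 *
      |μ z - p z.1 * q z.2 * Real.exp (-κ * (A.H z.1 - B.H z.2) ^ 2 / 2 + y z.1 z.2)| ≤ e)
    (bad : ∑' z : X × Y, tw (A.H z.1) * μ z *
      (if A.T z.1 ∧ B.T z.2 ∧ |A.H z.1 - B.H z.2| < K then 0 else 1) ≤ η₀)
    (tail : ∀ u : ℝ, |u| ≤ 2 →
      ∑' j : ℤ, (if j ∈ Icc (-(K + 1) : ℤ) (K + 1) then 0 else Real.exp (-κ * (u - j) ^ 2 / 2)) ≤ τ) :
    let e' := E * (149 + 4 * K) * (Real.exp (κ * (2 * K + 6) ^ 2 / 2 + Y₀) * e)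
    (∑' a, A.pib p a) * (∑' b, B.pib q b) ≤ Real.exp (2 * κ + Y₀) * (1 + e') ∧
    ∑' z : X × Y, |mub A B μ z - A.pib p z.1 * B.pib q z.2 *
      (thf κ (A.H z.1 - B.H z.2) * Real.exp (y z.1 z.2))| ≤
      (2 * K + 3) * e' + η₀ + E * τ * (Real.exp (2 * κ + Y₀) * (1 + e')) := by
  intro e'
  set k : X × Y → ℝ := fun z => Real.exp (-κ * (A.H z.1 - B.H z.2) ^ 2 / 2 + y z.1 z.2) with hk
  set L := Real.exp (κ * (2 * K + 6) ^ 2 / 2 + Y₀) with hL
  have k0 : ∀ z, 0 < k z := fun z => Real.exp_pos _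
  have E0 : 0 < E := (Real.exp_pos _).trans_le e3
  have kU : ∀ a b, A.T a → B.T b → k (a, b) ≤ E := fun a b ha hb =>
    (Real.exp_le_exp.2 (by
      have := (abs_le.1 (y1 a b ha hb)).2
      nlinarith [mul_nonneg hκ.le (sq_nonneg (A.H a - B.H b))])).trans e3
  have kL : ∀ z : X × Y, A.bx (K + 3) z.1 * B.bx (K + 3) z.2 ≠ 0 → (k z)⁻¹ ≤ L := fun z hz => by
    have ha := A.bx_ne (left_ne_zero_of_mul hz)
    have hb := B.bx_ne (right_ne_zero_of_mul hz)
    rw [hk, ← Real.exp_neg]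
    refine Real.exp_le_exp.2 ?_
    have h1 := (abs_le.1 (y1 _ _ ha.1 hb.1)).1
    have h2 : (A.H z.1 - B.H z.2) ^ 2 ≤ (2 * K + 6) ^ 2 :=
      sq_le_sq' (by linarith [abs_le.1 ha.2, abs_le.1 hb.2]) (by linarith [abs_le.1 ha.2, abs_le.1 hb.2])
    nlinarith [mul_le_mul_of_nonneg_left h2 hκ.le]
  have bb0 : ∀ (M : ℝ) (z : X × Y), 0 ≤ A.bx M z.1 * B.bx M z.2 := fun M z =>
    mul_nonneg (A.bx_nonneg _ _) (B.bx_nonneg _ _)
  have sν : Summable fun z : X × Y => A.bx (K + 3) z.1 * B.bx (K + 3) z.2 * (μ z * (k z)⁻¹) := by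
    simpa only [mul_assoc] using summ_bdd (fun z => mul_nonneg (bb0 _ z) (μ0 z)) sμ
      (u := fun z => (k z)⁻¹) (U := L) fun z hz => by
        rw [abs_of_pos (inv_pos.2 (k0 z))]; exact kL z (left_ne_zero_of_mul hz)
  have sab : Summable fun z : X × Y => A.bx (K + 3) z.1 * B.bx (K + 3) z.2 * |μ z - p z.1 * q z.2 * k z| := by
    have s1 : Summable fun z : X × Y => A.bx (K + 3) z.1 * p z.1 * (B.bx (K + 3) z.2 * q z.2) * k z :=
      summ_bdd (π := fun z : X × Y => A.bx (K + 3) z.1 * p z.1 * (B.bx (K + 3) z.2 * q z.2)) (u := k) (U := E)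
      (fun z : X × Y => mul_nonneg (mul_nonneg (A.bx_nonneg (K + 3) z.1) (p0 z.1))
      (mul_nonneg (B.bx_nonneg (K + 3) z.2) (q0 z.2))) (summ_tens sp sq) fun z hz => by
        rw [abs_of_pos (k0 z)]
        exact kU _ _ (A.bx_ne (left_ne_zero_of_mul (left_ne_zero_of_mul hz))).1
          (B.bx_ne (left_ne_zero_of_mul (right_ne_zero_of_mul hz))).1
    refine ((sμ.sub s1).abs).congr fun z => ?_
    rw [← abs_of_nonneg (bb0 (K + 3) z), ← abs_mul, abs_of_nonneg (bb0 (K + 3) z)]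
    congr 1; ring
  have clν : ∑' z : X × Y, A.bx (K + 3) z.1 * B.bx (K + 3) z.2 * |μ z * (k z)⁻¹ - p z.1 * q z.2| ≤ L * e := by
    have b : ∀ z : X × Y, A.bx (K + 3) z.1 * B.bx (K + 3) z.2 * |μ z * (k z)⁻¹ - p z.1 * q z.2| ≤
        L * (A.bx (K + 3) z.1 * B.bx (K + 3) z.2 * |μ z - p z.1 * q z.2 * k z|) := fun z => by
      by_cases hz : A.bx (K + 3) z.1 * B.bx (K + 3) z.2 = 0
      · simp [hz]
      · rw [show μ z * (k z)⁻¹ - p z.1 * q z.2 = (k z)⁻¹ * (μ z - p z.1 * q z.2 * k z) by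
          field_simp [(k0 z).ne'], abs_mul, abs_of_pos (inv_pos.2 (k0 z))]
        have := mul_le_mul_of_nonneg_right (kL z hz) (mul_nonneg (bb0 (K + 3) z)
          (abs_nonneg (μ z - p z.1 * q z.2 * k z)))
        linarith
    refine ((Summable.of_nonneg_of_le (fun z => mul_nonneg (bb0 _ z) (abs_nonneg _)) b
      (sab.mul_left L)).tsum_le_tsum b (sab.mul_left L)).trans ?_
    rw [tsum_mul_left]
    exact mul_le_mul_of_nonneg_left cl (Real.exp_pos _).le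
  have Le0 : 0 ≤ L * e := (tsum_nonneg fun z => mul_nonneg (bb0 _ z) (abs_nonneg _)).trans clν
  have K4 := fun j hj => k4 A B (ν := fun z => μ z * (k z)⁻¹) (K := K) (e := L * e)
    (fun z => mul_nonneg (μ0 z) (inv_pos.2 (k0 z)).le)
    (fun i a b => by simp only [hk, μs, A.H_s, B.H_s, ya, yb, add_sub_add_right_eq_sub])
    p0 q0 pe qe sp sq sν clν (j := j) hj
  have sA := A.summ_pib p0 (M := K + 3) (by linarith [Nat.cast_nonneg (α := ℝ) K]) sp
  have sB := B.summ_pib q0 (M := K + 3) (by linarith [Nat.cast_nonneg (α := ℝ) K]) sq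
  have sA0 : Summable (A.pi0 p) := by
    refine Summable.of_nonneg_of_le (A.pi0_nonneg p0) (fun a => ?_)
      (summable_sum (s := Icc (-2 : ℤ) 2) fun i hi => A.summ_P p0 sp (i := i) ?_)
    · rw [A.pi0_eq]
      exact sum_le_sum fun i _ => mul_le_of_le_one_left (mul_nonneg (A.bx_nonneg _ _) (p0 _)) (tw_le_one _)
    · rw [mem_Icc] at hi
      have : |(i : ℝ)| ≤ 2 := by rw [abs_le]; exact_mod_cast hi
      linarith [Nat.cast_nonneg (α := ℝ) K]
  have sB0 : Summable (B.pi0 q) := by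
    refine Summable.of_nonneg_of_le (B.pi0_nonneg q0) (fun a => ?_)
      (summable_sum (s := Icc (-2 : ℤ) 2) fun i hi => B.summ_P q0 sq (i := i) ?_)
    · rw [B.pi0_eq]
      exact sum_le_sum fun i _ => mul_le_of_le_one_left (mul_nonneg (B.bx_nonneg _ _) (q0 _)) (tw_le_one _)
    · rw [mem_Icc] at hi
      have : |(i : ℝ)| ≤ 2 := by rw [abs_le]; exact_mod_cast hi
      linarith [Nat.cast_nonneg (α := ℝ) K]
  -- one level
  set D : ℤ → X × Y → ℝ := fun j z =>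
    E * |A.bx 1 z.1 * B.bx 1 z.2 * (μ (z.1, B.s j z.2) * (k (z.1, B.s j z.2))⁻¹) - A.pi0 p z.1 * B.pi0 q z.2|
    with hD
  have sD : ∀ j ∈ Icc (-(K + 1) : ℤ) (K + 1), Summable (D j) ∧ ∑' z, D j z ≤ e' := fun j hj => by
    rw [mem_Icc] at hj
    obtain ⟨s1, s2⟩ := K4 j (by rw [abs_le]; omega)
    refine ⟨(s1.sub (summ_tens sA0 sB0)).abs.mul_left E, ?_⟩
    rw [hD]; simp only [tsum_mul_left]
    have : |(j : ℝ)| ≤ K + 1 := by rw [abs_le]; exact_mod_cast hj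
    have := mul_le_mul_of_nonneg_right (show 145 + 4 * |(j : ℝ)| ≤ 149 + 4 * K by linarith) Le0
    simp only [e']; rw [n1] at s2
    exact (mul_le_mul_of_nonneg_left (s2.trans this) E0.le).trans_eq (by ring)
  have lev : ∀ (j : ℤ) (z : X × Y), A.T z.1 → B.T z.2 →
      |tw (A.H z.1) * tw (B.H z.2) * μ (z.1, B.s j z.2) -
        A.pib p z.1 * B.pib q z.2 * k (z.1, B.s j z.2)| ≤ D j z := fun j z ha hb => by
    by_cases hw : tw (A.H z.1) * tw (B.H z.2) = 0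
    · have : A.pib p z.1 * B.pib q z.2 = 0 := by
        rw [Act.pib, Act.pib, mul_mul_mul_comm, hw, zero_mul]
      rw [hw, this]; simp only [zero_mul, sub_zero, abs_zero, hD]; positivity
    · simp only [hD]
      rw [A.bx_one ⟨ha, (lt_of_tw (left_ne_zero_of_mul hw)).le⟩,
        B.bx_one ⟨hb, (lt_of_tw (right_ne_zero_of_mul hw)).le⟩, one_mul, one_mul]
      have kk := k0 (z.1, B.s j z.2)
      rw [show tw (A.H z.1) * tw (B.H z.2) * μ (z.1, B.s j z.2) -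
        A.pib p z.1 * B.pib q z.2 * k (z.1, B.s j z.2) = tw (A.H z.1) * tw (B.H z.2) * k (z.1, B.s j z.2) *
          (μ (z.1, B.s j z.2) * (k (z.1, B.s j z.2))⁻¹ - A.pi0 p z.1 * B.pi0 q z.2) by
          rw [Act.pib, Act.pib]; field_simp, abs_mul]
      refine mul_le_mul_of_nonneg_right ?_ (abs_nonneg _)
      have w0 := mul_nonneg (tw_nonneg (A.H z.1)) (tw_nonneg (B.H z.2))
      have w1 := mul_le_one₀ (tw_le_one (A.H z.1)) (tw_nonneg (B.H z.2)) (tw_le_one (B.H z.2))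
      rw [abs_of_nonneg (mul_nonneg w0 kk.le)]
      exact (mul_le_of_le_one_left kk.le w1).trans (kU _ _ ha ((B.T_s j _).2 hb))
  have pp0 : ∀ z : X × Y, 0 ≤ A.pib p z.1 * B.pib q z.2 := fun z =>
    mul_nonneg (A.pib_nonneg p0 _) (B.pib_nonneg q0 _)
  have mass : (∑' a, A.pib p a) * (∑' b, B.pib q b) ≤ Real.exp (2 * κ + Y₀) * (1 + e') := by
    have i0 : (0 : ℤ) ∈ Icc (-(K + 1) : ℤ) (K + 1) := by rw [mem_Icc]; omega
    rw [← tsum_prod_mul sA sB]
    have b : ∀ z : X × Y, A.pib p z.1 * B.pib q z.2 ≤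
        Real.exp (2 * κ + Y₀) * (tw (A.H z.1) * μ z + D 0 z) := fun z => by
      have d0 : 0 ≤ D 0 z := by simp only [hD]; positivity
      have m0 := mul_nonneg (tw_nonneg (A.H z.1)) (μ0 z)
      by_cases hz : A.pib p z.1 * B.pib q z.2 = 0
      · rw [hz]; positivity
      · have ha := A.pib_ne (left_ne_zero_of_mul hz)
        have hb := B.pib_ne (right_ne_zero_of_mul hz)
        have h1 := (abs_le.1 (lev 0 z ha.1 hb.1)).1
        rw [B.s_zero] at h1
        have h2 : tw (A.H z.1) * tw (B.H z.2) * μ (z.1, z.2) ≤ tw (A.H z.1) * μ z := by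
          rw [mul_right_comm]; exact mul_le_of_le_one_right m0 (tw_le_one _)
        have h3 : 1 ≤ Real.exp (2 * κ + Y₀) * k (z.1, z.2) := by
          rw [hk, ← Real.exp_add]
          refine Real.one_le_exp ?_
          have a1 := (abs_le.1 (y1 _ _ ha.1 hb.1)).1
          have a2 : (A.H z.1 - B.H z.2) ^ 2 ≤ 2 ^ 2 :=
            sq_le_sq' (by linarith [abs_le.1 ha.2, abs_le.1 hb.2]) (by linarith [abs_le.1 ha.2, abs_le.1 hb.2])
          nlinarith [mul_le_mul_of_nonneg_left a2 hκ.le]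
        calc _ ≤ A.pib p z.1 * B.pib q z.2 * (Real.exp (2 * κ + Y₀) * k (z.1, z.2)) :=
              le_mul_of_one_le_right (pp0 z) h3
          _ = Real.exp (2 * κ + Y₀) * (A.pib p z.1 * B.pib q z.2 * k (z.1, z.2)) := by ring
          _ ≤ _ := mul_le_mul_of_nonneg_left (by linarith) (Real.exp_pos _).le
    refine ((summ_tens sA sB).tsum_le_tsum b ((μ1.summable.add (sD 0 i0).1).mul_left _)).trans ?_
    rw [tsum_mul_left, μ1.summable.tsum_add (sD 0 i0).1, μ1.tsum_eq]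
    exact mul_le_mul_of_nonneg_left (by linarith [(sD 0 i0).2]) (Real.exp_pos _).le
  refine ⟨mass, ?_⟩
  obtain ⟨u1, -⟩ := unfold_b A B μ0 μ1.summable (Ψ := fun _ => 1) (C := 1) (by simp)
  obtain ⟨u2, u3⟩ := unfold_b A B μ0 μ1.summable (C := 1)
    (Ψ := fun z => if A.T z.1 ∧ B.T z.2 ∧ |A.H z.1 - B.H z.2| < K then 0 else 1)
    (fun z => by split_ifs <;> simp)
  simp only [mul_one] at u1
  have τ0 : 0 ≤ τ := (tsum_nonneg fun j => by split_ifs; exacts [le_rfl, (Real.exp_pos _).le]).trans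
    (tail 0 (by simp))
  have s1 : HasSum (fun z => ∑ j ∈ Icc (-(K + 1) : ℤ) (K + 1), D j z)
      (∑ j ∈ Icc (-(K + 1) : ℤ) (K + 1), ∑' z, D j z) := hasSum_sum fun j hj => (sD j hj).1.hasSum
  have s := (s1.add u3).add ((summ_tens sA sB).hasSum.mul_left (E * τ))
  refine (n1_le s.summable fun z => ?_).trans ?_
  · have sk : Summable fun j : ℤ => Real.exp (-κ * (A.H z.1 - B.H z.2 - j) ^ 2 / 2) := summ_thf hκ _
    have hkj : ∀ j : ℤ, k (z.1, B.s j z.2) =
        Real.exp (-κ * (A.H z.1 - B.H z.2 - j) ^ 2 / 2) * Real.exp (y z.1 z.2) := fun j => by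
      simp only [hk, B.H_s, yb, ← Real.exp_add]; congr 1; ring
    have st : Summable fun j : ℤ => (if j ∈ Icc (-(K + 1) : ℤ) (K + 1) then 0 else
        Real.exp (-κ * (A.H z.1 - B.H z.2 - j) ^ 2 / 2)) :=
      Summable.of_nonneg_of_le (fun j => by split_ifs; exacts [le_rfl, (Real.exp_pos _).le])
        (fun j => by split_ifs; exacts [(Real.exp_pos _).le, le_rfl]) sk
    have sm2 : Summable fun j : ℤ => A.pib p z.1 * B.pib q z.2 * k (z.1, B.s j z.2) := by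
      simp only [hkj]; exact (sk.mul_right _).mul_left _
    have eq1 : mub A B μ z - A.pib p z.1 * B.pib q z.2 * (thf κ (A.H z.1 - B.H z.2) * Real.exp (y z.1 z.2)) =
        ∑' j : ℤ, (tw (A.H z.1) * tw (B.H z.2) * μ (z.1, B.s j z.2) -
          A.pib p z.1 * B.pib q z.2 * k (z.1, B.s j z.2)) := by
      rw [(u1 z).tsum_sub sm2]
      simp only [hkj, mub, thf, tsum_mul_left, tsum_mul_right]
    have sf : HasSum (fun j : ℤ => if j ∈ Icc (-(K + 1) : ℤ) (K + 1) then D j z else 0)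
        (∑ j ∈ Icc (-(K + 1) : ℤ) (K + 1), D j z) := by
      have := hasSum_sum_of_ne_finset_zero (L := SummationFilter.unconditional ℤ)
        (f := fun j : ℤ => if j ∈ Icc (-(K + 1) : ℤ) (K + 1) then D j z else 0)
        (s := Icc (-(K + 1) : ℤ) (K + 1)) fun j hj => if_neg hj
      rwa [sum_congr rfl fun j hj => if_pos hj] at this
    have sj := (sf.add (u2 z).hasSum).add (st.hasSum.mul_left (E * (A.pib p z.1 * B.pib q z.2)))
    rw [eq1, ← Real.norm_eq_abs]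
    refine (tsum_of_norm_bounded sj fun j => ?_).trans ?_
    · rw [Real.norm_eq_abs]
      have w0 := mul_nonneg (tw_nonneg (A.H z.1)) (tw_nonneg (B.H z.2))
      have m0 := μ0 (z.1, B.s j z.2)
      have wm := mul_nonneg w0 m0
      have d0 : 0 ≤ D j z := by simp only [hD]; positivity
      have x0 := (Real.exp_pos (-κ * (A.H z.1 - B.H z.2 - j) ^ 2 / 2)).le
      have pz := pp0 z
      by_cases hT : A.T z.1 ∧ B.T z.2
      · by_cases hj : j ∈ Icc (-(K + 1) : ℤ) (K + 1)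
        · have := lev j z hT.1 hT.2
          rw [if_pos hj, if_pos hj, mul_zero, add_zero]
          refine this.trans (le_add_of_nonneg_right (mul_nonneg w0 (mul_nonneg m0 ?_)))
          split_ifs <;> norm_num
        · rw [if_neg hj, if_neg hj, zero_add]
          have b1 : tw (A.H z.1) * tw (B.H z.2) * μ (z.1, B.s j z.2) = tw (A.H z.1) * tw (B.H z.2) *
              (μ (z.1, B.s j z.2) * if A.T z.1 ∧ B.T (B.s j z.2) ∧ |A.H z.1 - B.H (B.s j z.2)| < K
                then 0 else 1) := by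
            by_cases hw : tw (A.H z.1) * tw (B.H z.2) = 0
            · rw [hw, zero_mul, zero_mul]
            · have a1 := abs_lt.1 (lt_of_tw (left_ne_zero_of_mul hw))
              have a2 := abs_lt.1 (lt_of_tw (right_ne_zero_of_mul hw))
              rw [if_neg, mul_one]
              rintro ⟨-, -, h⟩
              rw [B.H_s, abs_lt] at h
              rw [mem_Icc] at hj
              rcases (by omega : (K + 2 : ℤ) ≤ j ∨ j ≤ -(K + 2 : ℤ)) with h' | h'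
              · have : (K + 2 : ℝ) ≤ j := by exact_mod_cast h'
                linarith [h.1]
              · have : (j : ℝ) ≤ -(K + 2 : ℝ) := by exact_mod_cast h'
                linarith [h.2]
          have b2 : A.pib p z.1 * B.pib q z.2 * k (z.1, B.s j z.2) ≤ E * (A.pib p z.1 * B.pib q z.2) *
              Real.exp (-κ * (A.H z.1 - B.H z.2 - j) ^ 2 / 2) := by
            have : Real.exp (y z.1 z.2) ≤ E :=
              (Real.exp_le_exp.2 (abs_le.1 (y1 _ _ hT.1 hT.2)).2).trans e3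
            rw [hkj]; nlinarith [mul_le_mul_of_nonneg_left this (mul_nonneg pz x0)]
          have b3 := mul_nonneg pz (k0 (z.1, B.s j z.2)).le
          rw [← b1, abs_le]; constructor <;> linarith
      · have hz : A.pib p z.1 * B.pib q z.2 = 0 := by
          by_contra hz
          exact hT ⟨(A.pib_ne (left_ne_zero_of_mul hz)).1, (B.pib_ne (right_ne_zero_of_mul hz)).1⟩
        rw [hz, if_neg (fun h : A.T z.1 ∧ B.T (B.s j z.2) ∧ _ => hT ⟨h.1, (B.T_s j _).1 h.2.1⟩)]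
        simp only [zero_mul, sub_zero, mul_zero, add_zero, mul_one]
        rw [abs_of_nonneg wm]
        refine le_add_of_nonneg_left ?_
        split_ifs; exacts [d0, le_rfl]
    · refine add_le_add_right ?_ _
      by_cases hz : A.pib p z.1 * B.pib q z.2 = 0
      · rw [hz]; simp
      · have ha := A.pib_ne (left_ne_zero_of_mul hz)
        have hb := B.pib_ne (right_ne_zero_of_mul hz)
        have := tail (A.H z.1 - B.H z.2) ((abs_sub _ _).trans (by linarith [ha.2, hb.2]))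
        nlinarith [mul_le_mul_of_nonneg_left this (mul_nonneg E0.le (pp0 z))]
  · rw [s.tsum_eq, tsum_prod_mul sA sB]
    have b1 : ∑ j ∈ Icc (-(K + 1) : ℤ) (K + 1), ∑' z, D j z ≤ (2 * K + 3) * e' := by
      refine (sum_le_sum fun j hj => (sD j hj).2).trans (le_of_eq ?_)
      rw [sum_const, Int.card_Icc, nsmul_eq_mul, show (K + 1 + 1 - -(K + 1) : ℤ).toNat = 2 * K + 3 by omega]
      push_cast; ring
    have b2 := mul_le_mul_of_nonneg_left mass (by positivity : 0 ≤ E * τ)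
    linarith


end Crest.Agent.T145.KrA
end

-- ▼ part T145/KrC_90

/-!
# Row 145, design N: theta function, from (K0) to the sector structure (helper90)
-/

set_option autoImplicit false

namespace Crest.Agent.T145.KrA

open Finset Real

variable {X Y : Type*}

/-- Poisson summation for the theta function -/
theorem thf_eq {κ : ℝ} (hκ : 0 < κ) (u : ℝ) :
    thf κ u = √(2 * π / κ) * ∑' n : ℤ, exp (-(2 * π ^ 2 / κ) * n ^ 2) * cos (2 * π * n * u) := by
  have ha : 0 < 2 * π / κ := by positivity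
  have h := Complex.tsum_exp_neg_quadratic (a := ((2 * π / κ : ℝ) : ℂ)) (by simpa using ha)
    (Complex.I * u)
  have e1 : ∀ n : ℤ, Complex.exp (-π / ((2 * π / κ : ℝ) : ℂ) * (n + Complex.I * (Complex.I * u)) ^ 2) =
      ((exp (-κ * (u - n) ^ 2 / 2) : ℝ) : ℂ) := fun n => by
    rw [Complex.ofReal_exp]; congr 1
    have : (π : ℂ) ≠ 0 := by exact_mod_cast pi_ne_zero
    have : (κ : ℂ) ≠ 0 := by exact_mod_cast hκ.ne'
    rw [← mul_assoc, Complex.I_mul_I]; push_cast; field_simp; ring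
  have e2 : ∀ n : ℤ, (Complex.exp (-π * ((2 * π / κ : ℝ) : ℂ) * n ^ 2 + 2 * π * (Complex.I * u) * n)).re =
      exp (-(2 * π ^ 2 / κ) * n ^ 2) * cos (2 * π * n * u) := fun n => by
    have : -π * ((2 * π / κ : ℝ) : ℂ) * n ^ 2 + 2 * π * (Complex.I * u) * n =
        ((-(2 * π ^ 2 / κ) * n ^ 2 : ℝ) : ℂ) + ((2 * π * n * u : ℝ) : ℂ) * Complex.I := by
      push_cast; ring
    rw [this, Complex.exp_add, ← Complex.ofReal_exp, Complex.re_ofReal_mul, Complex.exp_ofReal_mul_I_re]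
  have s2 : Summable fun n : ℤ =>
      Complex.exp (-π * ((2 * π / κ : ℝ) : ℂ) * n ^ 2 + 2 * π * (Complex.I * u) * n) := by
    refine Summable.of_norm ((summ_thf (κ := 4 * π ^ 2 / κ) (by positivity) 0).congr fun n => ?_)
    rw [Complex.norm_exp]; congr 1
    have : -π * ((2 * π / κ : ℝ) : ℂ) * n ^ 2 + 2 * π * (Complex.I * u) * n =
        ((-(2 * π ^ 2 / κ) * n ^ 2 : ℝ) : ℂ) + ((2 * π * n * u : ℝ) : ℂ) * Complex.I := by
      push_cast; ring
    rw [this, Complex.add_re, Complex.ofReal_re, Complex.re_ofReal_mul, Complex.I_re]; ring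
  have e3 : ((2 * π / κ : ℝ) : ℂ) ^ (1 / 2 : ℂ) = ((√(2 * π / κ) : ℝ) : ℂ) := by
    rw [sqrt_eq_rpow, Complex.ofReal_cpow ha.le]; push_cast; rfl
  simp only [e1] at h
  rw [e3, ← Complex.ofReal_tsum] at h
  have h2 := congrArg Complex.re h
  rw [Complex.re_tsum s2] at h2
  simp only [e2] at h2
  rw [h2, ← Complex.ofReal_one, ← Complex.ofReal_div, ← Complex.ofReal_mul, Complex.ofReal_re, thf]
  have : 0 < √(2 * π / κ) := sqrt_pos.2 ha
  field_simp

/-- first harmonic of the theta function -/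
theorem thf_near {κ : ℝ} (hκ : 0 < κ) (hl : exp (-(2 * π ^ 2 / κ)) ≤ 1 / 2) (u : ℝ) :
    |thf κ u / √(2 * π / κ) - (1 + 2 * exp (-(2 * π ^ 2 / κ)) * cos (2 * π * u))| ≤
      4 * exp (-(2 * π ^ 2 / κ)) ^ 4 := by
  set l := exp (-(2 * π ^ 2 / κ)) with hl'
  have l0 : 0 < l := exp_pos _
  have c0 : 0 < 2 * π ^ 2 / κ := by positivity
  rw [thf_eq hκ, mul_div_cancel_left₀ _ (sqrt_pos.2 (by positivity)).ne']
  set f : ℤ → ℝ := fun n => exp (-(2 * π ^ 2 / κ) * n ^ 2) * cos (2 * π * n * u) with hf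
  have hb : ∀ n : ℕ, ∀ m : ℤ, |m| = n + 2 → |f m| ≤ l ^ 4 * (1 / 2) ^ n := fun n m hm => by
    rw [hf, abs_mul, abs_of_pos (exp_pos _)]
    refine (mul_le_of_le_one_right (exp_pos _).le (abs_cos_le_one _)).trans ?_
    have h1 : (m : ℝ) ^ 2 = (n + 2) ^ 2 := by
      rw [← sq_abs]; congr 1; exact_mod_cast hm
    calc exp (-(2 * π ^ 2 / κ) * m ^ 2) ≤ exp (((4 + n : ℕ) : ℝ) * -(2 * π ^ 2 / κ)) := by
          refine exp_le_exp.2 ?_
          rw [h1]; push_cast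
          nlinarith [mul_nonneg c0.le (by positivity : (0 : ℝ) ≤ n ^ 2 + 3 * n)]
      _ = l ^ 4 * l ^ n := by rw [exp_nat_mul, pow_add]
      _ ≤ _ := mul_le_mul_of_nonneg_left (pow_le_pow_left₀ l0.le hl n) (by positivity)
  have g := hasSum_geometric_two.mul_left (l ^ 4)
  have s1 : Summable fun n : ℕ => f ((n + 2 : ℕ) : ℤ) :=
    Summable.of_norm_bounded g.summable fun n => hb n _ (by push_cast; exact abs_of_nonneg (by positivity))
  have s2 : Summable fun n : ℕ => f (-(((n + 1 : ℕ) : ℤ) + 1)) :=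
    Summable.of_norm_bounded g.summable fun n => hb n _ (by
      rw [abs_neg, abs_of_nonneg (by positivity)]; push_cast; ring)
  have b1 : |∑' n : ℕ, f ((n + 2 : ℕ) : ℤ)| ≤ l ^ 4 * 2 :=
    tsum_of_norm_bounded (f := fun n : ℕ => f ((n + 2 : ℕ) : ℤ)) g fun n =>
      hb n _ (by push_cast; exact abs_of_nonneg (by positivity))
  have b2 : |∑' n : ℕ, f (-(((n + 1 : ℕ) : ℤ) + 1))| ≤ l ^ 4 * 2 :=
    tsum_of_norm_bounded (f := fun n : ℕ => f (-(((n + 1 : ℕ) : ℤ) + 1))) g fun n => hb n _ (by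
      rw [abs_neg, abs_of_nonneg (by positivity)]; push_cast; ring)
  have t1 : Summable fun n : ℕ => f n := (summable_nat_add_iff 2).1 s1
  have t2 : Summable fun n : ℕ => f (-((n : ℤ) + 1)) := (summable_nat_add_iff 1).1 s2
  rw [tsum_of_nat_of_neg_add_one t1 t2, ← t1.sum_add_tsum_nat_add 2, ← t2.sum_add_tsum_nat_add 1]
  have f0 : f 0 = 1 := by simp [hf]
  have f1 : f 1 = l * cos (2 * π * u) := by simp [hf, hl']
  have f2 : f (-1) = l * cos (2 * π * u) := by simp [hf, hl']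
  simp only [sum_range_succ, range_zero, sum_empty, Nat.cast_zero, Nat.cast_one, zero_add, f0, f1, f2]
  rw [abs_le] at *
  constructor <;> linarith [b1.1, b1.2, b2.1, b2.2]

theorem thf_tail {κ : ℝ} (hκ : 0 < κ) (hl : exp (-(2 * π ^ 2 / κ)) ≤ 1 / 2) (K : ℕ) {u : ℝ} (hu : |u| ≤ 2) :
    ∑' j : ℤ, (if j ∈ Icc (-(K + 1) : ℤ) (K + 1) then 0 else exp (-κ * (u - j) ^ 2 / 2)) ≤
      3 * √(4 * π / κ) * exp (-κ * K ^ 2 / 4) := by
  have h2 : 0 < κ / 2 := by positivity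
  have s := (summ_thf h2 u).mul_right (exp (-κ * K ^ 2 / 4))
  have b : ∀ j : ℤ, (if j ∈ Icc (-(K + 1) : ℤ) (K + 1) then 0 else exp (-κ * (u - j) ^ 2 / 2)) ≤
      exp (-(κ / 2) * (u - j) ^ 2 / 2) * exp (-κ * K ^ 2 / 4) := fun j => by
    split_ifs with hj
    · positivity
    · rw [← exp_add]
      refine exp_le_exp.2 ?_
      rw [mem_Icc] at hj; rw [abs_le] at hu
      have : (K : ℝ) ^ 2 ≤ (u - j) ^ 2 := by
        rw [← sq_abs (u - j)]
        refine pow_le_pow_left₀ (by positivity) ?_ 2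
        rcases (by omega : (K + 2 : ℤ) ≤ j ∨ j ≤ -(K + 2 : ℤ)) with h' | h'
        · have : (K + 2 : ℝ) ≤ j := by exact_mod_cast h'
          exact le_abs.2 (Or.inr (by linarith))
        · have : (j : ℝ) ≤ -(K + 2 : ℝ) := by exact_mod_cast h'
          exact le_abs.2 (Or.inl (by linarith))
      nlinarith
  refine ((Summable.of_nonneg_of_le (fun j => by split_ifs; exacts [le_rfl, (exp_pos _).le]) b
    s).tsum_le_tsum b s).trans ?_
  rw [tsum_mul_right]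
  refine mul_le_mul_of_nonneg_right ?_ (exp_pos _).le
  have l2 : exp (-(2 * π ^ 2 / (κ / 2))) ≤ 1 / 2 := (exp_le_exp.2 (by
    have : 2 * π ^ 2 / κ ≤ 2 * π ^ 2 / (κ / 2) := div_le_div_of_nonneg_left (by positivity) h2 (by linarith)
    linarith)).trans hl
  have h := (abs_le.1 (thf_near h2 l2 u)).2
  rw [show 2 * π / (κ / 2) = 4 * π / κ by field_simp; ring] at h
  have sp : 0 < √(4 * π / κ) := sqrt_pos.2 (by positivity)
  have l0 := exp_pos (-(2 * π ^ 2 / (κ / 2)))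
  have l4 : exp (-(2 * π ^ 2 / (κ / 2))) ^ 4 ≤ (1 / 2) ^ 4 := pow_le_pow_left₀ l0.le l2 4
  have c1 := mul_le_mul_of_nonneg_left (cos_le_one (2 * π * u)) l0.le
  have : thf (κ / 2) u / √(4 * π / κ) ≤ 3 := by linarith
  rwa [div_le_iff₀ sp] at this

/-- packaging: (K#) gives the sector structure -/
theorem sec_of (A : Act X) (B : Act Y) {μ : X × Y → ℝ} {p : X → ℝ} {q : Y → ℝ} {y : X → Y → ℝ}
    {κ η β₁ : ℝ} (hκ : 0 < κ) (μ0 : ∀ z, 0 ≤ μ z) (μ1 : HasSum (fun z : X × Y => tw (A.H z.1) * μ z) 1)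
    (p0 : ∀ a, 0 ≤ p a) (q0 : ∀ b, 0 ≤ q b) (pe : ∀ a, p (A.ng a) = p a)
    (sp : Summable (A.pib p)) (sq : Summable (B.pib q))
    (yng : ∀ a b, y (A.ng a) b = -y a b) (β0 : 0 ≤ β₁) (y1 : ∀ a b, A.T a → B.T b → |y a b| ≤ β₁)
    (cl : ∑' z : X × Y, |mub A B μ z - A.pib p z.1 * B.pib q z.2 *
      (thf κ (A.H z.1 - B.H z.2) * exp (y z.1 z.2))| ≤ η) (hη : η ≤ 1 / 2)
    (hβ : β₁ ≤ 1 / 20) (hl : exp (-(2 * π ^ 2 / κ)) ≤ 1 / 20) :
    Sec (mub A B μ) (fun a => √(2 * π / κ) * A.pib p a) (B.pib q)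
      (fun a b => thf κ (A.H a - B.H b) / √(2 * π / κ) * exp (y a b)) A.H B.H y A.ng
      (exp (-(2 * π ^ 2 / κ))) η (3 * β₁ + 3 * exp (-(2 * π ^ 2 / κ)))
      (β₁ ^ 3 + 4 * exp (-(2 * π ^ 2 / κ)) * β₁ + 12 * exp (-(2 * π ^ 2 / κ)) ^ 4) β₁ := by
  set l := exp (-(2 * π ^ 2 / κ)) with hl'
  have l0 : 0 < l := exp_pos _
  have s0 : 0 < √(2 * π / κ) := sqrt_pos.2 (by positivity)
  have ex : ∀ a b, √(2 * π / κ) * A.pib p a ≠ 0 → B.pib q b ≠ 0 →
      |thf κ (A.H a - B.H b) / √(2 * π / κ) * exp (y a b) - k2 l (A.H a) (B.H b) (y a b)| ≤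
        β₁ ^ 3 + 4 * l * β₁ + 12 * l ^ 4 := fun a b ha hb =>
    (k2_near l0.le (y1 a b (A.pib_ne (right_ne_zero_of_mul ha)).1 (B.pib_ne hb).1) (by linarith)
      (thf_near hκ (hl.trans (by norm_num)) _)).trans (le_of_eq (by ring))
  refine ⟨⟨mub_nonneg A B μ0, hasSum_mub_one A B μ0 μ1, fun a => mul_nonneg s0.le (A.pib_nonneg p0 a),
    sp.mul_left _, B.pib_nonneg q0, sq, le_of_eq_of_le (tsum_congr fun z => ?_) cl, fun a b ha hb => ?_,
    hη, by positivity, by linarith⟩, l0.le, by positivity, β0, ex,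
    fun a b ha hb => y1 a b (A.pib_ne (right_ne_zero_of_mul ha)).1 (B.pib_ne hb).1,
    fun a => by rw [A.pib_ng pe], A.H_ng, yng⟩
  · congr 2; field_simp
  · have h1 := ex a b ha hb
    have h2 := k2_sub_one (H := A.H a) (t := B.H b) l0.le
      (y1 a b (A.pib_ne (right_ne_zero_of_mul ha)).1 (B.pib_ne hb).1) (by linarith)
    have h3 : β₁ ^ 3 ≤ β₁ / 2 := by nlinarith [mul_nonneg β0 β0]
    have h4 : l ^ 4 ≤ l / 12 := by
      have : l ^ 3 ≤ (1 / 20) ^ 3 := pow_le_pow_left₀ l0.le hl 3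
      nlinarith
    have h5 : 4 * l * β₁ ≤ β₁ / 2 := by nlinarith
    rw [abs_le] at *
    constructor <;> linarith [h1.1, h1.2, h2.1, h2.2]

/-- folding the diagonal shifts -/
theorem fold_diag (A : Act X) (B : Act Y) {μ f : X × Y → ℝ} (μ0 : ∀ z, 0 ≤ μ z) (f0 : ∀ z, 0 ≤ f z)
    (μs : ∀ i a b, μ (A.s i a, B.s i b) = μ (a, b)) (μ1 : HasSum (fun z : X × Y => tw (A.H z.1) * μ z) 1)
    {C : ℝ} (hs : ∀ z : X × Y, Summable fun j : ℤ => f (A.s j z.1, B.s j z.2))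
    (hC : ∀ z : X × Y, ∑' j : ℤ, f (A.s j z.1, B.s j z.2) ≤ C) :
    Summable (fun z => μ z * f z) ∧ ∑' z, μ z * f z ≤ C := by
  let E : (X × Y) × ℤ ≃ (X × Y) × ℤ :=
    { toFun := fun w => ((A.s w.2 w.1.1, B.s w.2 w.1.2), w.2)
      invFun := fun w => (((A.s w.2).symm w.1.1, (B.s w.2).symm w.1.2), w.2)
      left_inv := fun w => by simp
      right_inv := fun w => by simp }
  have n0 : ∀ w : (X × Y) × ℤ, 0 ≤ tw (A.H w.1.1) * μ w.1 * f (A.s w.2 w.1.1, B.s w.2 w.1.2) := fun w =>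
    mul_nonneg (mul_nonneg (tw_nonneg _) (μ0 _)) (f0 _)
  have n1 : ∀ z : X × Y, HasSum (fun j : ℤ => tw (A.H z.1) * μ z * f (A.s j z.1, B.s j z.2))
      (tw (A.H z.1) * μ z * ∑' j : ℤ, f (A.s j z.1, B.s j z.2)) := fun z => (hs z).hasSum.mul_left _
  have b : ∀ z : X × Y, tw (A.H z.1) * μ z * ∑' j : ℤ, f (A.s j z.1, B.s j z.2) ≤ tw (A.H z.1) * μ z * C :=
    fun z => mul_le_mul_of_nonneg_left (hC z) (mul_nonneg (tw_nonneg _) (μ0 _))
  have s1 : Summable fun z : X × Y => tw (A.H z.1) * μ z * ∑' j : ℤ, f (A.s j z.1, B.s j z.2) :=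
    Summable.of_nonneg_of_le (fun z => mul_nonneg (mul_nonneg (tw_nonneg _) (μ0 _))
      (tsum_nonneg fun _ => f0 _)) b (μ1.summable.mul_right C)
  have g0 : Summable fun w : (X × Y) × ℤ => tw (A.H w.1.1) * μ w.1 * f (A.s w.2 w.1.1, B.s w.2 w.1.2) := by
    rw [summable_prod_of_nonneg n0]
    exact ⟨fun z => (n1 z).summable, s1.congr fun z => (n1 z).tsum_eq.symm⟩
  have g1 : HasSum (fun w : (X × Y) × ℤ => μ w.1 * f w.1 * tw (A.H w.1.1 - w.2))
      (∑' z : X × Y, tw (A.H z.1) * μ z * ∑' j : ℤ, f (A.s j z.1, B.s j z.2)) := by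
    rw [← E.hasSum_iff]
    have := g0.hasSum
    rw [g0.tsum_prod, tsum_congr fun z => (n1 z).tsum_eq] at this
    convert this using 1
    funext w
    simp only [Function.comp, E, Equiv.coe_fn_mk, A.H_s, add_sub_cancel_right, μs]; ring
  have g2 := g1.prod_fiberwise (g := fun z => μ z * f z) fun z => by
    simpa only [mul_one] using (hasSum_tw' (A.H z.1)).mul_left (μ z * f z)
  refine ⟨g2.summable, g2.tsum_eq.le.trans ((s1.tsum_le_tsum b (μ1.summable.mul_right C)).trans ?_)⟩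
  rw [tsum_mul_right, μ1.tsum_eq, one_mul]

/-- a weight close to a product of probability weights is close to the product of its marginals -/
theorem marg_prod {ρ : X × Y → ℝ} {p : X → ℝ} {q : Y → ℝ} {ε : ℝ} (sρ : Summable ρ)
    (p0 : ∀ a, 0 ≤ p a) (q0 : ∀ b, 0 ≤ q b) (p1 : HasSum p 1) (q1 : HasSum q 1)
    (cl : n1 (fun z : X × Y => ρ z - p z.1 * q z.2) ≤ ε) :
    1 - ε ≤ ∑' z, ρ z ∧ n1 (fun a => ∑' b, ρ (a, b)) ≤ 1 + ε ∧ n1 (fun b => ∑' a, ρ (a, b)) ≤ 1 + ε ∧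
    n1 (fun z : X × Y => ρ z - (∑' b, ρ (z.1, b)) * ∑' a, ρ (a, z.2)) ≤ (3 + ε) * ε := by
  have spq := summ_tens p1.summable q1.summable
  have sρ' : Summable fun z : Y × X => ρ (z.2, z.1) := (Equiv.prodComm Y X).summable_iff.2 sρ
  have sa : Summable fun a => ∑' b, ρ (a, b) := sρ.prod
  have sb : Summable fun b => ∑' a, ρ (a, b) := sρ'.prod
  have m1 : n1 (fun a => (∑' b, ρ (a, b)) - p a) ≤ ε := by
    refine le_of_eq_of_le ?_ ((n1_marg (sρ.sub spq)).trans cl)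
    congr 1; funext a
    dsimp only
    rw [(sρ.prod_factor a).tsum_sub (q1.summable.mul_left _), tsum_mul_left, q1.tsum_eq, mul_one]
  have m2 : n1 (fun b => (∑' a, ρ (a, b)) - q b) ≤ ε := by
    have h := n1_marg (sρ'.sub (summ_tens q1.summable p1.summable))
    have h2 : n1 (fun z : Y × X => ρ (z.2, z.1) - q z.1 * p z.2) =
        n1 (fun z : X × Y => ρ z - p z.1 * q z.2) := by
      rw [n1, n1, ← (Equiv.prodComm X Y).tsum_eq]
      exact tsum_congr fun z => by simp [mul_comm]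
    refine le_of_eq_of_le ?_ (h.trans (h2.le.trans cl))
    congr 1; funext b
    have sb' : Summable fun a => ρ (a, b) := sρ'.prod_factor b
    dsimp only
    rw [sb'.tsum_sub (p1.summable.mul_left _), tsum_mul_left, p1.tsum_eq, mul_one]
  have np : n1 p = 1 := by rw [n1_of_nonneg p0, p1.tsum_eq]
  have nq : n1 q = 1 := by rw [n1_of_nonneg q0, q1.tsum_eq]
  have na : n1 (fun a => ∑' b, ρ (a, b)) ≤ 1 + ε := by
    have := n1_add (sa.sub p1.summable) p1.summable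
    simp only [sub_add_cancel] at this; linarith
  have nb : n1 (fun b => ∑' a, ρ (a, b)) ≤ 1 + ε := by
    have := n1_add (sb.sub q1.summable) q1.summable
    simp only [sub_add_cancel] at this; linarith
  refine ⟨?_, na, nb, ?_⟩
  · have h := norm_tsum_le_tsum_norm (f := fun z : X × Y => ρ z - p z.1 * q z.2) (sρ.sub spq).abs
    rw [sρ.tsum_sub spq, tsum_prod_mul p1.summable q1.summable, p1.tsum_eq, q1.tsum_eq,
      Real.norm_eq_abs] at h
    have := (abs_le.1 (h.trans cl)).1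
    linarith
  · have t1 := n1_tri sρ spq (summ_tens sa sb)
    have t2 := n1_tri spq (summ_tens p1.summable sb) (summ_tens sa sb)
    have e1 : n1 (fun z : X × Y => p z.1 * q z.2 - p z.1 * ∑' a, ρ (a, z.2)) =
        n1 p * n1 fun b => (∑' a, ρ (a, b)) - q b := by
      rw [n1_comm _ q, ← n1_tens p1.summable (q1.summable.sub sb)]; congr 1; funext z; ring
    have e2 : n1 (fun z : X × Y => p z.1 * (∑' a, ρ (a, z.2)) - (∑' b, ρ (z.1, b)) * ∑' a, ρ (a, z.2)) =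
        n1 (fun a => (∑' b, ρ (a, b)) - p a) * n1 fun b => ∑' a, ρ (a, b) := by
      rw [n1_comm _ p, ← n1_tens (p1.summable.sub sa) sb]; congr 1; funext z; ring
    have := mul_le_mul m1 nb (n1_nonneg _) ((n1_nonneg _).trans m1)
    rw [e1, e2, np] at t2
    nlinarith


end Crest.Agent.T145.KrA
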