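import Crest.Agent.T145.DfDef_70
import Crest.Agent.T145.NcLat_37
import Crest.Agent.T145.Brg_14
import Crest.Agent.T145.Soft_23
import Crest.Agent.T145.FlFus_4
import Crest.Agent.T145.OmB_11
import Crest.Agent.T145.NcT4Def_78
import Crest.Agent.T145.KrKsh_77
import Crest.Agent.T145.TopDef_76
import Crest.Agent.T145.T5_11
import Crest.Agent.T145.XyH_48

-- ▼ part T145/DfAna_22
section

/-!
# Row 145, module Df: the analytic lemma `AnaStmt` (helper22)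
-/

set_option autoImplicit false

namespace Crest.Agent.T145.Df

open Finset Filter Topology

namespace Ana22

/-- a uniformly Cauchy sequence has a uniform limit -/
theorem lim {s : Set ℝ} {f : ℕ → ℝ → ℝ}
    (h : ∀ ε, 0 < ε → ∃ R₀ : ℕ, ∀ R R' : ℕ, R₀ ≤ R → R₀ ≤ R' → ∀ τ ∈ s, |f R τ - f R' τ| ≤ ε) :
    ∃ g, TendstoUniformlyOn f g atTop s := by
  have h1 : UniformCauchySeqOn f atTop s := Metric.uniformCauchySeqOn_iff.2 fun ε hε => by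
    obtain ⟨R₀, h0⟩ := h (ε / 2) (half_pos hε)
    exact ⟨R₀, fun R hR R' hR' τ hτ => (h0 R R' hR hR' τ hτ).trans_lt (half_lt_self hε)⟩
  exact ⟨fun τ => limUnder atTop fun R => f R τ, h1.tendstoUniformlyOn_of_tendsto fun τ hτ =>
    (h1.cauchySeq hτ).tendsto_limUnder⟩

theorem tendsto_bl : Tendsto (fun l : ℕ => bl (0 : Pt) l) atTop atTop :=
  tendsto_atTop_finset_of_monotone (fun _ _ h => bl_mono 0 h) fun x => by
    obtain ⟨R, hR⟩ := exists_subset_bl {x} 0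
    exact ⟨R, hR (mem_singleton_self x)⟩

end Ana22

open Ana22

theorem anaStmt (hP : PwStmt) : AnaStmt := by
  intro a b γ C k k' u T G hγ hd hc hb hu hT hG τ₀ hτ₀
  choose K hK using fun w => lim (s := Set.Ioo a b) (f := fun R => k R w) fun ε hε =>
    (hc w ε hε).imp fun _ h R R' h1 h2 τ hτ => (h R R' h1 h2 τ hτ).1
  choose K' hK' using fun w => lim (s := Set.Ioo a b) (f := fun R => k' R w) fun ε hε =>
    (hc w ε hε).imp fun _ h R R' h1 h2 τ hτ => (h R R' h1 h2 τ hτ).2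
  have hKd : ∀ w, ∀ τ ∈ Set.Ioo a b, HasDerivAt (K w) (K' w τ) τ := fun w τ hτ =>
    hasDerivAt_of_tendstoUniformlyOn isOpen_Ioo (hK' w) (.of_forall fun R => hd R w)
      (fun τ hτ => (hK w).tendsto_at hτ) hτ
  have hKb : ∀ w, ∀ τ ∈ Set.Ioo a b, |K w τ| ≤ C * (1 + (nr w : ℝ)) ^ (-γ) ∧
      |K' w τ| ≤ C * (1 + (nr w : ℝ)) ^ (-γ) := fun w τ hτ =>
    ⟨le_of_tendsto ((hK w).tendsto_at hτ).abs ((hb w).mono fun _ h => (h τ hτ).1),
      le_of_tendsto ((hK' w).tendsto_at hτ).abs ((hb w).mono fun _ h => (h τ hτ).2)⟩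
  have hφ : (Ultrafilter.of (atTop : Filter ℕ) : Filter ℕ) ≤ atTop := Ultrafilter.of_le _
  generalize Ultrafilter.of (atTop : Filter ℕ) = φ at hφ
  have hU : ∀ w, ∃ U, |U| ≤ C * (nr w : ℝ) ^ 2 ∧ Tendsto (fun n => u n w) φ (𝓝 U) := fun w => by
    obtain ⟨U, h1, h2⟩ := isCompact_Icc.ultrafilter_le_nhds (φ.map fun n => u n w)
      (le_principal_iff.2 (mem_map.2 (univ_mem' fun n => abs_le.1 (hu n w))))
    exact ⟨U, abs_le.2 h1, h2⟩
  choose U hUb hU using hU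
  have hE : Tendsto (fun n => ∑ y ∈ T, u n y) φ (𝓝 (∑ y ∈ T, U y)) := tendsto_finsetSum _ fun y _ => hU y
  have hE1 : 1 ≤ ∑ y ∈ T, U y := ge_of_tendsto hE (hφ hT)
  have hC : 0 ≤ C := by simpa [nr] using (abs_nonneg _).trans (hu 0 (1, 0))
  have hS : Summable fun w : Pt => C * C * (1 + (nr w : ℝ)) ^ (-(γ - 2)) :=
    (hP.2.2.2.2 (γ - 2) (by linarith)).mul_left _
  have hB : ∀ (w : Pt) (x : ℝ), |x| ≤ C * (1 + (nr w : ℝ)) ^ (-γ) →
      ‖x * U w‖ ≤ C * C * (1 + (nr w : ℝ)) ^ (-(γ - 2)) := fun w x hx => by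
    have h0 : (0 : ℝ) ≤ nr w := Nat.cast_nonneg _
    rw [Real.norm_eq_abs, abs_mul, show -(γ - 2) = -γ + 2 by ring, Real.rpow_add (by positivity),
      Real.rpow_two]
    calc _ ≤ C * (1 + (nr w : ℝ)) ^ (-γ) * (C * (1 + (nr w : ℝ)) ^ 2) :=
          mul_le_mul hx ((hUb w).trans (by gcongr; linarith)) (abs_nonneg _) (by positivity)
      _ = _ := by ring
  have hs : ∀ τ ∈ Set.Ioo a b, Summable fun w => K w τ * U w := fun τ hτ =>
    .of_norm_bounded hS fun w => hB w _ (hKb w τ hτ).1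
  have hD := hasDerivAt_tsum_of_isPreconnected (g := fun w τ => K w τ * U w) hS isOpen_Ioo
    isPreconnected_Ioo (fun w τ hτ => (hKd w τ hτ).mul_const (U w))
    (fun w τ hτ => hB w _ (hKb w τ hτ).2) hτ₀ (hs τ₀ hτ₀) hτ₀
  have hGe : ∀ τ ∈ Set.Ioo a b, G τ = -((∑' w, K w τ * U w) / 2) / ∑ y ∈ T, U y := fun τ hτ => by
    have h1 : ∀ ε, 0 < ε → |G τ * ∑ y ∈ T, U y + (∑' w, K w τ * U w) / 2| ≤ ε := fun ε hε => by
      refine le_of_tendsto (tendsto_const_nhds.add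
        (((hs τ hτ).hasSum.comp tendsto_bl).div_const 2)).abs ((hG τ hτ ε hε).mono fun l₁ h₁ => ?_)
      refine le_of_tendsto (tendsto_const_nhds.add ((tendsto_finsetSum (bl 0 l₁) fun w _ =>
        ((hK w).tendsto_at hτ).mul_const (U w)).div_const 2)).abs (h₁.mono fun l₂ h₂ => ?_)
      exact le_of_tendsto ((hE.const_mul (G τ)).add ((tendsto_finsetSum (bl 0 l₁) fun w _ =>
        (hU w).const_mul (k l₂ w τ)).div_const 2)).abs (hφ h₂)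
    have h2 := abs_nonpos_iff.1 (le_of_forall_pos_le_add fun ε hε => (h1 ε hε).trans_eq (zero_add ε).symm)
    rw [eq_div_iff (by linarith)]; linarith
  exact ((hD.differentiableAt.div_const 2).neg.div_const _).congr_of_eventuallyEq
    (eventually_of_mem (isOpen_Ioo.mem_nhds hτ₀) hGe)

end Crest.Agent.T145.Df
end

-- ▼ part T145/DfDer_15
section

/-!
# Row 145, module Df: the size of the `τ`-derivative of the kernel (`derStmt`) (helper15)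
-/

set_option autoImplicit false

namespace Crest.Agent.T145.Df

open Finset Filter Nc

namespace Der15

variable {Λ : Lat}

/-- `J_0 ∑_{orbit of w} J_v`, centred in the box of radius `R` -/
noncomputable def GG (Λ : Lat) (R : ℕ) (w : Pt) (s : Cfg Pt) : ℝ :=
  ∑ v ∈ orb w, JL Λ.J 0 s * JL Λ.J v s - ∑ v ∈ orb w, kk Λ R v

theorem nr_neg (v : Pt) : nr (0 - v) = nr v := by simp [nr]

theorem mem_bl0 (hA : AlgStmt) {v : Pt} {r : ℕ} : v ∈ bl 0 r ↔ nr v ≤ r := by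
  rw [hA.1, sub_zero]

theorem ins_JJ (hA : AlgStmt) (h : Λ.Ok) {v : Pt} {r : ℕ} (hr : nr v + Λ.rg ≤ r) :
    Ins 0 r fun s => JL Λ.J 0 s * JL Λ.J v s :=
  ⟨((hA.2.2 Λ h 0).1.1.mono (bl_mono 0 (by omega))).mul ((hA.2.2 Λ h v).1.1.mono
    (bl_subset_bl ((mem_bl0 hA).2 le_rfl) (by omega))), (hA.2.2 Λ h 0).1.2.mul (hA.2.2 Λ h v).1.2⟩

theorem ins_sum (hA : AlgStmt) (h : Λ.Ok) {w : Pt} {r : ℕ} (hr : nr w + Λ.rg ≤ r) :
    Ins 0 r fun s => ∑ v ∈ orb w, JL Λ.J 0 s * JL Λ.J v s :=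
  ⟨DepG.sum fun v hv => (ins_JJ hA h (by rw [(hA.2.1 w).2.2 v hv]; exact hr)).1,
    Tame.sum _ fun v _ => (ins_JJ hA h le_rfl).2⟩

theorem GG_ins (hA : AlgStmt) (h : Λ.Ok) (R : ℕ) {w : Pt} {r : ℕ} (hr : nr w + Λ.rg ≤ r) :
    Ins 0 r (GG Λ R w) :=
  ⟨(ins_sum hA h hr).1.sub (DepG.const _ _), (ins_sum hA h hr).2.sub (Tame.const _)⟩

theorem GG_even (hA : AlgStmt) (h : Λ.Ok) (R : ℕ) (w : Pt) : EvenF (GG Λ R w) := fun s => by
  simp only [GG, (hA.2.2 Λ h _).2.1 s, neg_mul_neg]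

theorem GG_d4 (hA : AlgStmt) (h : Λ.Ok) (R : ℕ) (w : Pt) : D4 0 (GG Λ R w) := fun s => by
  have h1 := (hA.2.2 Λ h 0).2.2.1 s
  have h2 := (hA.2.2 Λ h w).2.2.2.2.2.2.2.1 s
  simp only at h2
  simp only [GG, ← mul_sum, h1.1, h1.2, h2.1, h2.2, and_self]

theorem GG_mean (hA : AlgStmt) (h : Λ.Ok) (R : ℕ) (w : Pt) : Ex (WD Λ R) (GG Λ R w) = 0 := by
  have hc := h.cen_D (bl 0 R)
  refine (hc.wt.ex_sub_const (hc.ig (ins_sum hA h le_rfl).2) _).trans ?_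
  rw [Ex_sum _ fun v _ => hc.ig (ins_JJ hA h le_rfl).2]
  exact sub_self _

theorem tame_ec (hA : AlgStmt) (h : Λ.Ok) (m : Mdl Pt) (z : Pt) : Tame (ec Λ m z) :=
  (hA.2.2 Λ h z).2.2.2.1.2.sub (Tame.const _)

/-- near part and far part of the derivative -/
theorem split (hA : AlgStmt) (hE : EnStmt) (h : Λ.Ok) {R ρ : ℕ} (hρ : ρ ≤ R + Λ.rg) (w : Pt) :
    (#(orb w) : ℝ) * kd Λ R w =
      ∑ v ∈ orb w, ∑ z ∈ bl 0 ρ,
        Ex (WD Λ R) (fun s => JL Λ.J 0 s * JL Λ.J v s * ec Λ (Λ.D (bl 0 R)) z s) +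
      ∑ z ∈ an 0 ρ (R + Λ.rg), Ex (WD Λ R) fun s => GG Λ R w s * ec Λ (Λ.D (bl 0 R)) z s := by
  have hc : Cen (WD Λ R) := h.cen_D (bl 0 R)
  rw [← nsmul_eq_mul, ← sum_const, sum_congr rfl fun v hv =>
    ((hE Λ h R w).2.1 v hv).symm.trans (hE Λ h R v).2.2]
  simp only [← L37.bl_union_an 0 hρ, sum_union (L37.disj_an 0 ρ (R + Λ.rg)).symm, sum_add_distrib]
  rw [sum_comm (s := orb w) (t := an 0 ρ (R + Λ.rg))]
  congr 1
  refine sum_congr rfl fun z _ => ?_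
  have t := tame_ec hA h (Λ.D (bl 0 R)) z
  have e0 : Ex (WD Λ R) (ec Λ (Λ.D (bl 0 R)) z) = 0 :=
    (hc.wt.ex_sub_const (hc.ig (hA.2.2 Λ h z).2.2.2.1.2) _).trans (sub_self _)
  have i1 := fun v => hc.ig ((ins_JJ hA h (v := v) le_rfl).2.mul t)
  simp only [GG]
  generalize ∑ v ∈ orb w, kk Λ R v = c
  simp only [sub_mul, sum_mul]
  rw [Ex_sub (Ig.sum _ fun v _ => i1 v) ((hc.ig t).const_mul _), Ex_const_mul, e0, mul_zero, sub_zero,
    Ex_sum _ fun v _ => i1 v]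

theorem amb_box (hA : AlgStmt) (h : Λ.Ok) {R r : ℕ} {z : Pt} (hz : nr z + r ≤ R) :
    Amb Λ (Λ.D (bl 0 R)) (bl z r) :=
  L37.Amb.mono' (L37.amb_D h _) (bl_subset_bl ((mem_bl0 hA).2 le_rfl) (by omega))

/-- the norm of the symmetrised two-point insertion -/
theorem nu_GG (hA : AlgStmt) (hS : SemiStmt) (h : Λ.Ok) {W r R : ℕ} {w : Pt} {b : ℝ} (hW : 2 ≤ W)
    (hr : nr w + Λ.rg ≤ r)
    (h1 : ∀ v ∈ orb w, nu Λ W 0 r (fun s => JL Λ.J 0 s * JL Λ.J v s) ≤ b ∧ |kk Λ R v| ≤ b) :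
    nu Λ W 0 r (GG Λ R w) ≤ 16 * b := by
  obtain ⟨s1, s2⟩ := hS Λ h W 0 r hW (by omega)
  have b0 : 0 ≤ b := (abs_nonneg _).trans (h1 w (hA.2.1 w).1).2
  have c8 : (#(orb w) : ℝ) * b ≤ 8 * b :=
    mul_le_mul_of_nonneg_right (by exact_mod_cast (hA.2.1 w).2.1) b0
  have a1 := (s2 Pt (orb w) _ fun v hv => ins_JJ hA h (by rw [(hA.2.1 w).2.2 v hv]; exact hr)).trans
    (sum_le_card_nsmul _ _ _ fun v hv => (h1 v hv).1)
  have a2 := (abs_sum_le_sum_abs _ _).trans (sum_le_card_nsmul _ _ _ fun v hv => (h1 v hv).2)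
  have a3 := (s1 _ (ins_sum hA h hr)).2.2.1 (∑ v ∈ orb w, kk Λ R v)
  rw [nsmul_eq_mul] at a1 a2
  exact a3.trans (by linarith)

/-- two balls and the rest -/
theorem three {B B₁ B₂ : Finset Pt} (T : Pt → ℝ) (h1 : B₁ ⊆ B) (h2 : B₂ ⊆ B)
    (h : Disjoint B₁ B₂ ∨ B₁ = B₂) {a b : ℝ} (a1 : |∑ z ∈ B₁, T z| ≤ a) (a2 : |∑ z ∈ B₂, T z| ≤ a)
    (b0 : 0 ≤ b) (hb : ∀ z ∈ B, z ∉ B₁ → z ∉ B₂ → |T z| ≤ b) :
    |∑ z ∈ B, T z| ≤ 2 * a + #B * b := by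
  have a0 : 0 ≤ a := (abs_nonneg _).trans a1
  have e : |∑ z ∈ B₁ ∪ B₂, T z| ≤ 2 * a := by
    rcases h with h | h
    · rw [sum_union h]; exact (abs_add_le _ _).trans (by linarith)
    · rw [h, union_self]; linarith
  have e2 : |∑ z ∈ B \ (B₁ ∪ B₂), T z| ≤ #B * b := by
    refine ((abs_sum_le_sum_abs _ _).trans (sum_le_card_nsmul _ _ b fun z hz => ?_)).trans ?_
    · rw [Finset.mem_sdiff, Finset.mem_union, not_or] at hz
      exact hb z hz.1 hz.2.1 hz.2.2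
    · rw [nsmul_eq_mul]
      exact mul_le_mul_of_nonneg_right (by exact_mod_cast card_le_card sdiff_subset) b0
  rw [← sum_sdiff (union_subset h1 h2)]
  exact (abs_add_le _ _).trans (by linarith)

end Der15

open Der15

theorem derStmt (hA : AlgStmt) (hP : PwStmt) (hS : SemiStmt) (hK : KbStmt) (hE : EnStmt)
    (hF : FarStmt) (hN : NearStmt) (hM : MidStmt) : DerStmt := by
  intro F P
  obtain ⟨Ck, k1, hK⟩ := hK F P
  obtain ⟨Cf, Af, f1, f2, hF⟩ := hF F P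
  obtain ⟨Cn, An, n1, n3, hN⟩ := hN F P
  obtain ⟨Cm, m1, hM⟩ := hM F P An n3
  have hβ := P.hβ
  have hβ' := P.hβ'
  refine ⟨8 * (2 * Cn + (3 * Af * (P.r₀ + 2)) ^ 2 * Cm) +
    Cf * (16 * Ck) * (2 * (P.r₀ + 2 : ℝ) ^ (2 - P.β)), fun w => ?_⟩
  set d := nr w with hd
  set r := 2 * d + P.r₀ + 1 with hr
  set ρ := Af * r with hρ
  have rρ : r ≤ ρ := Nat.le_mul_of_pos_left _ f2
  have r1 : (1 : ℝ) ≤ r := by exact_mod_cast (by omega : 1 ≤ r)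
  have ρ1 : (r : ℝ) ≤ ρ := by exact_mod_cast rρ
  have ev : ∀ᶠ R : ℕ in atTop, (R : ℝ) ^ (1 - P.β) ≤ (ρ : ℝ) ^ (2 - 2 * P.β) := by
    have := (tendsto_rpow_neg_atTop (y := P.β - 1) (by linarith)).comp tendsto_natCast_atTop_atTop
    simp only [neg_sub] at this
    exact this.eventually_le_const (Real.rpow_pos_of_pos (by linarith) _)
  filter_upwards [ev, eventually_ge_atTop (ρ + d)] with R hR1 hR2 Λ hΛ hRg
  have h : Λ.Ok := ⟨hΛ.1 ▸ F.adm, F.pos.trans_le hΛ.2.2.1⟩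
  obtain ⟨hW, h0, -⟩ := (hRg 0).gd
  have D0 : (0 : ℝ) < 1 + d := by positivity
  have Dr : (r : ℝ) ≤ (P.r₀ + 2) * (1 + d) := by
    rw [hr]; push_cast; nlinarith [mul_nonneg (Nat.cast_nonneg (α := ℝ) P.r₀) (Nat.cast_nonneg d)]
  have nv : ∀ v ∈ orb w, nr (0 - v) = d := fun v hv => (nr_neg v).trans ((hA.2.1 w).2.2 v hv)
  have nv' : ∀ v ∈ orb w, nr v = d := (hA.2.1 w).2.2
  have a0 : Amb Λ (Λ.D (bl 0 R)) (bl 0 d) := L37.Amb.mono' (L37.amb_D h _) (bl_mono 0 (by omega))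
  have av : ∀ v ∈ orb w, Amb Λ (Λ.D (bl 0 R)) (bl v d) := fun v hv =>
    amb_box hA h (by rw [nv' v hv]; omega)
  have g1 := nu_GG hA hS h (R := R) (w := w) (r := r) (b := Ck * (1 + (d : ℝ)) ^ (-(2 * P.α))) hW
    (by omega) fun v hv => by
      have := hK Λ hΛ d (hRg d) 0 v
      rw [nv v hv, min_self] at this
      exact ⟨this.2 r (by omega), this.1 _ a0 (av v hv)⟩
  have far := hF Λ hΛ hRg r ρ R _ (by omega) le_rfl (by omega) (GG_ins hA h R (w := w) (by omega))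
    (GG_even hA h R w) (GG_d4 hA h R w) (GG_mean hA h R w)
  set γ := (1 + (d : ℝ)) ^ (2 - P.β - 2 * P.α) with hγ
  have γ0 : 0 < γ := Real.rpow_pos_of_pos D0 _
  have near : ∀ v ∈ orb w, |∑ z ∈ bl 0 ρ,
      Ex (WD Λ R) (fun s => JL Λ.J 0 s * JL Λ.J v s * ec Λ (Λ.D (bl 0 R)) z s)| ≤
      (2 * Cn + (3 * Af * (P.r₀ + 2)) ^ 2 * Cm) * γ := fun v hv => by
    have q1 := hN Λ hΛ hRg _ 0 v (by rw [nv v hv]; exact a0) (by rw [nv v hv]; exact av v hv)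
    have q2 := hN Λ hΛ hRg _ v 0 (by rw [sub_zero, nv' v hv]; exact av v hv)
      (by rw [sub_zero, nv' v hv]; exact a0)
    rw [nv v hv] at q1
    simp only [sub_zero, nv' v hv, mul_comm (JL Λ.J v _)] at q2
    have dA : d / An ≤ d / 3 := Nat.div_le_div_left n3 (by norm_num)
    refine (three _ (bl_mono 0 (by omega)) (bl_subset_bl ((mem_bl0 hA).2 (nv' v hv).le) (by omega)) ?_
      q1 q2 (b := Cm * (1 + (d : ℝ)) ^ (-P.β - 2 * P.α)) (by positivity) fun z hz z1 z2 => ?_).trans ?_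
    · rcases Nat.eq_zero_or_pos d with d0 | d0
      · have := nv' v hv
        rw [d0, nr] at this
        rw [show v = 0 from Prod.ext (by simp only [Prod.fst_zero]; omega)
          (by simp only [Prod.snd_zero]; omega)]
        exact Or.inr rfl
      · refine Or.inl (disjoint_left.2 fun x x1 x2 => ?_)
        have := (mem_bl0 hA).1 (bl_subset_bl x1 le_rfl (mem_bl_comm.1 x2))
        rw [nv' v hv] at this
        omega
    · have := hM Λ hΛ hRg (Λ.D (bl 0 R)) 0 v z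
      rw [nv v hv] at this
      exact this a0 (av v hv) (amb_box hA h (by have := (mem_bl0 hA).1 hz; omega)) z1 z2
    · have e : γ = (1 + (d : ℝ)) ^ 2 * (1 + (d : ℝ)) ^ (-P.β - 2 * P.α) := by
        rw [hγ, ← Real.rpow_two, ← Real.rpow_add D0]; congr 1; ring
      have e2 : (2 * (ρ : ℝ) + 1) ^ 2 ≤ (3 * Af * (P.r₀ + 2) * (1 + d)) ^ 2 := by
        refine pow_le_pow_left₀ (by positivity) ?_ 2
        have : (ρ : ℝ) = Af * r := by rw [hρ]; push_cast; ring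
        nlinarith [mul_le_mul_of_nonneg_left Dr (Nat.cast_nonneg (α := ℝ) Af)]
      rw [hP.2.1, add_mul]
      refine add_le_add (by rw [mul_assoc]) ((mul_le_mul_of_nonneg_right e2 (by positivity)).trans_eq ?_)
      rw [e]; ring
  have far2 : Cf * nu Λ P.W 0 r (GG Λ R w) * (r : ℝ) ^ P.β *
      ((ρ : ℝ) ^ (2 - 2 * P.β) + (R : ℝ) ^ (1 - P.β)) ≤
      Cf * (16 * Ck) * (2 * (P.r₀ + 2 : ℝ) ^ (2 - P.β)) * γ := by
    have u1 : (ρ : ℝ) ^ (2 - 2 * P.β) ≤ (r : ℝ) ^ (2 - 2 * P.β) :=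
      Real.rpow_le_rpow_of_nonpos (by linarith) ρ1 (by linarith)
    have u2 : (r : ℝ) ^ P.β * (r : ℝ) ^ (2 - 2 * P.β) ≤
        (P.r₀ + 2 : ℝ) ^ (2 - P.β) * (1 + (d : ℝ)) ^ (2 - P.β) := by
      rw [← Real.rpow_add (by linarith), ← Real.mul_rpow (by positivity) D0.le,
        show P.β + (2 - 2 * P.β) = 2 - P.β by ring]
      exact Real.rpow_le_rpow (by linarith) Dr (by linarith)
    have e : γ = (1 + (d : ℝ)) ^ (-(2 * P.α)) * (1 + (d : ℝ)) ^ (2 - P.β) := by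
      rw [hγ, ← Real.rpow_add D0]; congr 1; ring
    have u3 : (r : ℝ) ^ P.β * ((ρ : ℝ) ^ (2 - 2 * P.β) + (R : ℝ) ^ (1 - P.β)) ≤
        2 * ((P.r₀ + 2 : ℝ) ^ (2 - P.β) * (1 + (d : ℝ)) ^ (2 - P.β)) :=
      (mul_le_mul_of_nonneg_left (show _ ≤ 2 * (r : ℝ) ^ (2 - 2 * P.β) by linarith)
        (by positivity)).trans (by linarith)
    rw [mul_assoc]
    refine (mul_le_mul (mul_le_mul_of_nonneg_left g1 (by linarith)) u3 (by positivity)
      (by positivity)).trans_eq ?_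
    rw [e]; ring
  have c1 : (1 : ℝ) ≤ #(orb w) := by exact_mod_cast card_pos.2 ⟨w, (hA.2.1 w).1⟩
  have c8 : (#(orb w) : ℝ) ≤ 8 := by exact_mod_cast (hA.2.1 w).2.1
  have s1 := (abs_sum_le_sum_abs _ _).trans (sum_le_card_nsmul _ _ _ near)
  have s2 := (abs_sum_le_sum_abs _ _).trans (far.trans far2)
  have s3 := (congrArg abs (split hA hE h (R := R) (ρ := ρ) (by omega) w)).trans_le (abs_add_le _ _)
  rw [abs_mul, Nat.abs_cast] at s3
  rw [nsmul_eq_mul] at s1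
  have s4 := mul_le_mul_of_nonneg_right c8
    (show 0 ≤ (2 * Cn + (3 * Af * (P.r₀ + 2)) ^ 2 * Cm) * γ by positivity)
  nlinarith [mul_le_mul_of_nonneg_right c1 (abs_nonneg (kd Λ R w))]

end Crest.Agent.T145.Df
end

-- ▼ part T145/DfEn_56
section

/-!
# Row 145, module Df: EN (energy insertion star by star) and AMB (helper56)
-/

set_option autoImplicit false

namespace Crest.Agent.T145.Df

open Finset Filter Topology Nc

namespace En56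

/-- the stars carry the energy, up to a constant -/
theorem sum_es {Λ : Lat} (hΛ : Λ.Ok) (R : ℕ) : ∃ c : ℝ, ∀ s : Cfg Pt, (∀ x, x ∉ bl 0 R → s x = 0) →
    (Λ.D (bl 0 R)).en Λ.xy Λ.τ 0 s = ∑ z ∈ bl 0 (R + Λ.rg), es Λ z s + c := by
  refine ⟨∑ _e ∈ Λ.edT (bl 0 R), Tau5.eps Λ.xy Λ.τ 0 -
    (∑ _z ∈ bl (0 : Pt) (R + Λ.rg), ∑ _y ∈ Λ.J, Tau5.eps Λ.xy Λ.τ 0) / 2, fun s hs => ?_⟩
  have h := B14.sum_edT (Λ := Λ) hΛ.1 (D := bl 0 R) (U := bl 0 (R + Λ.rg))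
    (bl_mono 0 (Nat.le_add_right _ _))
    (fun x hx y hy => by
      have := Lat.le_rg hy
      rw [abs_le, abs_le] at this
      rw [mem_bl] at hx ⊢
      simp only [Prod.fst_add, Prod.snd_add, Prod.fst_zero, Prod.snd_zero] at hx ⊢
      push_cast; omega)
    (fun u v => Tau5.eps Λ.xy Λ.τ (s v - s u) - Tau5.eps Λ.xy Λ.τ 0)
    (fun u v => by rw [← neg_sub (s u), Tau5.eps_neg])
    fun u v hu hv => by rw [hs u hu, hs v hv, sub_self, sub_self]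
  simp only [sum_sub_distrib] at h
  have e : (Λ.D (bl 0 R)).en Λ.xy Λ.τ 0 s =
      ∑ e ∈ Λ.edT (bl 0 R), Tau5.eps Λ.xy Λ.τ (s e.2 - s e.1) :=
    sum_congr rfl fun e _ => by rw [Pi.zero_apply, add_zero]; rfl
  simp only [es, ← sum_div]
  rw [e]; linarith

end En56

theorem enStmt (hA : AlgStmt) : EnStmt := by
  intro Λ hΛ R
  have tJ : ∀ z, Tame (JL Λ.J z) := fun z => (hA.2.2 Λ hΛ z).1.2
  have tE : ∀ z, Tame (es Λ z) := fun z => (hA.2.2 Λ hΛ z).2.2.2.1.2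
  have hd : ∀ w, HasDerivAt (fun τ => kk (Λ.at' τ) R w) (kd Λ R w) Λ.τ := fun w =>
    Tau5.ctr_hasDerivAt (xy := Λ.xy) (hΛ.ctr_D (bl 0 R)) (hΛ.anch_D _) 0 hΛ.2 ((tJ 0).mul (tJ w))
  refine fun w => ⟨hd w, fun v hv => (hd v).unique ((hd w).congr_of_eventuallyEq ?_), ?_⟩
  · filter_upwards [Ioi_mem_nhds hΛ.2] with τ hτ
    exact ((hA.2.2 _ (hΛ.at' hτ) 0).2.2.2.2.2.2.2.2 R w).2 v hv
  · obtain ⟨c, hc⟩ := En56.sum_es hΛ R
    have hW : Cen (WD Λ R) := hΛ.cen_D _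
    have tF := (tJ 0).mul (tJ w)
    have tS : Tame fun s => ∑ z ∈ bl 0 (R + Λ.rg), es Λ z s := Tame.sum _ fun z _ => tE z
    have e1 : kd Λ R w = Cv (WD Λ R) (fun s => ∑ z ∈ bl 0 (R + Λ.rg), es Λ z s + c)
        fun s => JL Λ.J 0 s * JL Λ.J w s := by
      have hc' : ∀ s, WD Λ R s ≠ 0 → _ := fun s hs => hc s fun x hx => Mdl.W_ne_zero hs hx
      rw [kd, Cv_comm, Cv, Cv, Ex_congr hc', Ex_congr fun s hs => by rw [hc' s hs]]
    rw [e1, Cv_add_left (hW.ig tS) (hW.ig (Tame.const c)) (hW.ig (tS.mul tF))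
      (hW.ig ((Tame.const c).mul tF)), hW.wt.cv_const_left, add_zero,
      Cv_sum_left _ (fun z _ => hW.ig (tE z)) fun z _ => hW.ig ((tE z).mul tF)]
    refine sum_congr rfl fun z _ => ?_
    simp only [ec, mul_sub]
    rw [Ex_sub (hW.ig (tF.mul (tE z))) (hW.ig (tF.mul (Tame.const _))), Ex_mul_const, Cv_comm]
    rfl

theorem ambStmt (hD : DecStmt) : AmbStmt := by
  intro W r₀ r ε hε hr
  obtain ⟨n, hn⟩ := exists_pow_lt_of_lt_one (show 0 < ε / 20 by positivity)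
    (show (1 / 2 : ℝ) < 1 by norm_num)
  filter_upwards [eventually_ge_atTop ((4 * W ^ 4) ^ (n + 1) * r + r₀)] with R hR
  intro Λ hΛ L hL hG z F m m' hF hm hm'
  have h2 := hG.2.1
  have e : R - Λ.rg + Λ.rg = R := by omega
  have hc := hΛ.cen_Nr_bl (self_mem_bl z (W * r))
  have h := (hD Λ hΛ (1 / 400) W r₀ L (by norm_num) (by norm_num) hG z r n (R - Λ.rg) F hr
    (by omega) (by omega) hF.1 (hc.ig hF.2) m (e.symm ▸ hm)).2.1 m' (e.symm ▸ hm')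
  refine h.trans (mul_le_mul_of_nonneg_right ?_ (Ex_nonneg hc.wt.nonneg fun _ _ => abs_nonneg _))
  rw [show (200 * (1 / 400) : ℝ) = 1 / 2 by norm_num]
  linarith

end Crest.Agent.T145.Df
end

-- ▼ part T145/DfFar_58
section

/-!
# Row 145, module Df: an even insertion of mean zero against the far stars (`Df.FarStmt`; helper58)
-/

set_option autoImplicit false

namespace Crest.Agent.T145.Df

open Finset Filter Topology Nc

namespace Far58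

theorem rpow_le {x y c β : ℝ} (hx : 0 < x) (hy : 0 < y) (hβ : 0 ≤ β) (h : x ≤ c * y) :
    y ^ (-β) ≤ c ^ β * x ^ (-β) := by
  have hc : 0 < c := by
    by_contra hc
    nlinarith [mul_nonneg (neg_nonneg.2 (not_lt.1 hc)) hy.le]
  have h1 : x ^ β ≤ c ^ β * y ^ β := by
    rw [← Real.mul_rpow hc.le hy.le]; exact Real.rpow_le_rpow hx.le h hβ
  have h2 := Real.rpow_pos_of_pos hx β
  have h3 := Real.rpow_pos_of_pos hy β
  rw [Real.rpow_neg hx.le, Real.rpow_neg hy.le, ← div_eq_mul_inv, le_div_iff₀ h2, inv_mul_le_iff₀ h3]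
  linarith

theorem rpow_le_nat {x y c : ℕ} {β : ℝ} (hx : 0 < x) (hβ : 0 ≤ β) (h : x ≤ c * y) :
    (y : ℝ) ^ (-β) ≤ (c : ℝ) ^ β * (x : ℝ) ^ (-β) := by
  have hy : 0 < y := by
    rcases Nat.eq_zero_or_pos y with rfl | hy
    · omega
    · exact hy
  exact rpow_le (by exact_mod_cast hx) (by exact_mod_cast hy) hβ (by exact_mod_cast h)

theorem mem_bl0 {z : Pt} {a : ℕ} : z ∈ bl 0 a ↔ nr z ≤ a := by
  rw [mem_bl]; simp only [nr, Prod.fst_zero, Prod.snd_zero]; omega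

theorem disj {z : Pt} {a b : ℕ} (h : a + b < nr z) : Disjoint (bl 0 a) (bl z b) := by
  rw [Finset.disjoint_left]
  intro x hx hx'
  rw [mem_bl] at hx hx'
  simp only [nr, Prod.fst_zero, Prod.snd_zero] at h hx
  omega

theorem amb_D {Λ : Lat} (hΛ : Λ.Ok) {U B : Finset Pt} (h : U ⊆ B) : Amb Λ (Λ.D B) U :=
  ⟨hΛ.ctr_D B, hΛ.anch_D B, h, Lat.near_D h⟩

theorem ins_mono {z : Pt} {r r' : ℕ} {G : Cfg Pt → ℝ} (h : Ins z r G) (hr : r ≤ r') : Ins z r' G :=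
  ⟨h.1.mono (bl_mono z hr), h.2⟩

theorem ins_ec (hA : AlgStmt) {Λ : Lat} (hΛ : Λ.Ok) (m : Mdl Pt) (z : Pt) : Ins z Λ.rg (ec Λ m z) :=
  have h := (hA.2.2 Λ hΛ z).2.2.2.1
  ⟨h.1.sub (DepG.const _ _), h.2.sub (Tame.const _)⟩

/-- the profile of a star at distance `t` -/
noncomputable def fz (β : ℝ) (R N t : ℕ) : ℝ :=
  (t : ℝ) ^ (-β) + if R ≤ 2 * t then ((1 + N - t : ℕ) : ℝ) ^ (-β) else 0

theorem le_fz (β : ℝ) (R N t : ℕ) : (t : ℝ) ^ (-β) ≤ fz β R N t := by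
  unfold fz
  split_ifs
  · exact le_add_of_nonneg_right (by positivity)
  · rw [add_zero]

theorem le_fz' (β : ℝ) {R t : ℕ} (N : ℕ) (h : R ≤ 2 * t) : ((1 + N - t : ℕ) : ℝ) ^ (-β) ≤ fz β R N t := by
  unfold fz
  rw [if_pos h]
  exact le_add_of_nonneg_left (by positivity)

theorem fz_nonneg (β : ℝ) (R N t : ℕ) : 0 ≤ fz β R N t := le_trans (by positivity) (le_fz β R N t)

/-- the mean of the modulus of the centred star in the model with a hole -/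
theorem hole_le (hA : AlgStmt) (hM : MomStmt) (F : Fa) : ∃ C : ℝ, 1 ≤ C ∧ ∀ Λ, F.Mem Λ → Λ.Ok →
    ∀ (B H : Finset Pt) (z : Pt), (hole (Λ.D B) H).Ctr → (hole (Λ.D B) H).Anch → Disjoint (bl z Λ.rg) H →
      Ex ((hole (Λ.D B) H).W 0) (fun s => |ec Λ (Λ.D B) z s|) ≤ C := by
  obtain ⟨C, hC, h⟩ := hM.1 F
  refine ⟨2 * C, by linarith, fun Λ hF hΛ B H z hc ha hd => ?_⟩
  have hs : Sees Λ (Λ.D B) z := (hM.2 Λ hΛ z).2.1 B
  have hs' : Sees Λ (hole (Λ.D B) H) z := (hM.2 Λ hΛ z).2.2.2 _ H hs hd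
  have h1 := (h Λ hF _ z z z (hΛ.ctr_D B) (hΛ.anch_D B) hs hs hs).2.1
  have h2 := (h Λ hF _ z z z hc ha hs' hs' hs').2.1
  have ht : Tame (es Λ z) := (hA.2.2 Λ hΛ z).2.2.2.1.2
  have hcen := hc.cen ha
  have hcD := (hΛ.ctr_D B).cen (hΛ.anch_D B)
  have h3 : |Ex ((Λ.D B).W 0) (es Λ z)| ≤ C := (abs_Ex_le hcD.nonneg (hcD.ig ht)).trans h1
  calc _ ≤ Ex ((hole (Λ.D B) H).W 0) (fun s => |es Λ z s| + C) :=
        Ex_mono hcen.nonneg (hcen.ig (ht.sub (Tame.const _)).abs) (hcen.ig (ht.abs.add (Tame.const _)))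
          fun s => (abs_sub _ _).trans (by linarith)
    _ = Ex ((hole (Λ.D B) H).W 0) (fun s => |es Λ z s|) + C := hcen.wt.ex_add_const (hcen.ig ht.abs) C
    _ ≤ 2 * C := by linarith

/-- the star at `z` against an insertion flowed to the scale `a ≈ |z| / (4 W²)` -/
theorem star (hA : AlgStmt) (hM : MomStmt) (hF : FusStmt) (hI : IoStmt) (hP : ProStmt) (hS : SemiStmt)
    (F : Fa) (P : Par) : ∃ K : ℝ, 1 ≤ K ∧ ∀ Λ, F.Mem Λ → Λ.Ok → (∀ L, Rg Λ P L) →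
    ∀ (a R : ℕ) (G : Cfg Pt → ℝ) (z : Pt), P.r₀ ≤ a → 4 * (P.W * (P.W * a)) ≤ nr z →
      nr z ≤ 8 * (P.W * (P.W * a)) → nr z ≤ R + Λ.rg → Ins 0 a G →
      |Ex (WD Λ R) fun s => G s * ec Λ (Λ.D (bl 0 R)) z s| ≤
        K * nu Λ P.W 0 a G * fz P.β R (R + Λ.rg) (nr z) := by
  obtain ⟨Cm, hCm, hm⟩ := hole_le hA hM F
  obtain ⟨Cp, hCp, hp⟩ := hP F P
  have hβ : 0 ≤ P.β := by linarith [P.hβ]
  obtain ⟨c, hc⟩ : ∃ c : ℕ, c = 8 * (P.W * (P.W * P.r₀)) + 1 := ⟨_, rfl⟩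
  have hD : 1 ≤ (c : ℝ) ^ P.β := Real.one_le_rpow (by exact_mod_cast (by omega : 1 ≤ c)) hβ
  refine ⟨4 * ((Cm + Cp) * (c : ℝ) ^ P.β), by nlinarith, fun Λ hFΛ hΛ hRg a R G z ha h4 h8 hN hG => ?_⟩
  obtain ⟨hW, hr₀, -⟩ := (hRg a).gd
  have hrg := hΛ.one_le_rg
  have hWa : 2 * a ≤ P.W * a := Nat.mul_le_mul_right _ hW
  have hQ : 2 * (P.W * a) ≤ P.W * (P.W * a) := Nat.mul_le_mul_right _ hW
  have hWr : P.W * P.r₀ ≤ P.W * a := Nat.mul_le_mul_left _ ha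
  have hWr' : 2 * P.r₀ ≤ P.W * P.r₀ := Nat.mul_le_mul_right _ hW
  have hWW : 2 * (P.W * P.r₀) ≤ P.W * (P.W * P.r₀) := Nat.mul_le_mul_right _ hW
  have hW1 : P.W * 1 ≤ P.W * P.r₀ := Nat.mul_le_mul_left _ (by omega)
  have hν : 0 ≤ nu Λ P.W 0 a G := ((hS Λ hΛ P.W 0 a hW (by omega)).1 G hG).1
  have hf := fz_nonneg P.β R (R + Λ.rg) (nr z)
  -- it is enough to bound the second factor
  suffices h : ∃ x : ℝ, x ≤ (Cm + Cp) * ((c : ℝ) ^ P.β * fz P.β R (R + Λ.rg) (nr z)) ∧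
      |Ex (WD Λ R) fun s => G s * ec Λ (Λ.D (bl 0 R)) z s| ≤ 4 * nu Λ P.W 0 a G * x by
    obtain ⟨x, hx, h⟩ := h
    calc _ ≤ 4 * nu Λ P.W 0 a G * ((Cm + Cp) * ((c : ℝ) ^ P.β * fz P.β R (R + Λ.rg) (nr z))) :=
          h.trans (mul_le_mul_of_nonneg_left hx (by positivity))
      _ = _ := by ring
  have hcf : 0 ≤ (c : ℝ) ^ P.β * fz P.β R (R + Λ.rg) (nr z) := by positivity
  by_cases hb : nr z + P.W * P.r₀ ≤ R
  · -- two disjoint boxes
    obtain ⟨b, hbd⟩ : ∃ b, b = (R - nr z) / P.W := ⟨_, rfl⟩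
    have hb1 : P.W * b ≤ R - nr z := hbd ▸ Nat.mul_div_le _ _
    have hb2 : R - nr z < P.W * (b + 1) := hbd ▸ Nat.lt_mul_div_succ _ (by omega)
    have hb3 : P.r₀ ≤ b := by
      rw [hbd, Nat.le_div_iff_mul_le (by omega), mul_comm]; omega
    have hm1 : P.W * min a b ≤ P.W * a := Nat.mul_le_mul_left _ (min_le_left _ _)
    have hm2 : P.W * min a b ≤ P.W * b := Nat.mul_le_mul_left _ (min_le_right _ _)
    have hamb : Amb Λ (Λ.D (bl 0 R)) (bl z (P.W * min a b)) :=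
      amb_D hΛ (bl_subset_bl (mem_bl0.2 le_rfl) (by omega))
    refine ⟨nu Λ P.W z (min a b) (ec Λ (Λ.D (bl 0 R)) z), ?_, ?_⟩
    · have h1 := (hp Λ hFΛ a (hRg a) z (min a b) (le_min ha hb3) (min_le_left _ _)).2 _ hamb
      have h2 : ((min a b : ℕ) : ℝ) ^ (-P.β) ≤ (c : ℝ) ^ P.β * fz P.β R (R + Λ.rg) (nr z) := by
        rcases le_total a b with hab | hab
        · rw [min_eq_left hab]
          refine (rpow_le_nat (x := nr z) (c := c) (by omega) hβ ?_).trans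
            (mul_le_mul_of_nonneg_left (le_fz _ _ _ _) (by positivity))
          have : P.W * (P.W * 1) * a ≤ P.W * (P.W * P.r₀) * a :=
            Nat.mul_le_mul_right _ (Nat.mul_le_mul_left _ hW1)
          rw [hc]; nlinarith
        · rw [min_eq_right hab]
          have hab' : P.W * (b + 1) ≤ P.W * (a + 1) := Nat.mul_le_mul_left _ (by omega)
          have hWb : P.W * 1 ≤ P.W * b := Nat.mul_le_mul_left _ (by omega)
          have hWb' : 2 * b ≤ P.W * b := Nat.mul_le_mul_right _ hW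
          have hWa' : P.W * 1 ≤ P.W * a := Nat.mul_le_mul_left _ (by omega)
          simp only [mul_add] at hab' hb2
          refine (rpow_le_nat (x := 1 + (R + Λ.rg) - nr z) (c := c) (by omega) hβ ?_).trans
            (mul_le_mul_of_nonneg_left (le_fz' _ _ (by omega)) (by positivity))
          have h5 : 4 * P.W * b ≤ c * b := Nat.mul_le_mul_right _ (by omega)
          rw [mul_assoc] at h5
          omega
      nlinarith
    · exact ((hF Λ hΛ P.W P.r₀ _ (hRg a).gd 0 z a (min a b) G _ ha (by omega) (le_min ha hb3)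
        ((min_le_left _ _).trans (by omega)) hG (ins_mono (ins_ec hA hΛ _ z) (by omega))
        (disj (by omega))).1 _ (amb_D hΛ (bl_mono _ (by omega))) hamb).1
  · -- the star is near the boundary
    obtain ⟨h1, h2, h3⟩ := hI Λ hΛ P.W P.r₀ _ (hRg a).gd 0 a (Λ.D (bl 0 R)) ha le_rfl
      (amb_D hΛ (bl_mono _ (by omega)))
    have he := ins_ec hA hΛ (Λ.D (bl 0 R)) z
    refine ⟨_, ?_, h3 G _ hG he.2 (he.1.dep.out (disj (by omega)).symm)⟩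
    have h5 := hm Λ hFΛ hΛ _ _ z h1 h2 (disj (a := P.W * a) (by omega)).symm
    have h6 : ((1 : ℕ) : ℝ) ^ (-P.β) ≤ (c : ℝ) ^ P.β * fz P.β R (R + Λ.rg) (nr z) :=
      (rpow_le_nat (x := 1 + (R + Λ.rg) - nr z) (c := c) (by omega) hβ (by omega)).trans
        (mul_le_mul_of_nonneg_left (le_fz' _ _ (by omega)) (by positivity))
    rw [Nat.cast_one, Real.one_rpow] at h6
    nlinarith

/-- one star -/
theorem point (hA : AlgStmt) (hM : MomStmt) (hF : FusStmt) (hI : IoStmt) (hP : ProStmt) (hS : SemiStmt)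
    (F : Fa) (P : Par) : ∃ K : ℝ, 1 ≤ K ∧ ∀ Λ, F.Mem Λ → (∀ L, Rg Λ P L) →
    ∀ (r R : ℕ) (G : Cfg Pt → ℝ) (z : Pt), P.r₀ ≤ r → 4 * (P.W * P.W) * r ≤ nr z → nr z ≤ R + Λ.rg →
      Ins 0 r G → EvenF G → D4 0 G → Ex (WD Λ R) G = 0 →
      |Ex (WD Λ R) fun s => G s * ec Λ (Λ.D (bl 0 R)) z s| ≤
        K * nu Λ P.W 0 r G * (r : ℝ) ^ P.β * ((nr z : ℝ) ^ (-P.β) * fz P.β R (R + Λ.rg) (nr z)) := by
  obtain ⟨K, hK, h⟩ := star hA hM hF hI hP hS F P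
  have hβ : 0 ≤ P.β := by linarith [P.hβ]
  obtain ⟨c, hc⟩ : ∃ c : ℕ, c = 8 * (P.W * P.W) + 1 := ⟨_, rfl⟩
  have hD : 1 ≤ (c : ℝ) ^ P.β := Real.one_le_rpow (by exact_mod_cast (by omega : 1 ≤ c)) hβ
  have hC := P.hC
  refine ⟨K * (P.C * (c : ℝ) ^ P.β), one_le_mul_of_one_le_of_one_le hK
    (one_le_mul_of_one_le_of_one_le hC hD), fun Λ hFΛ hRg r R G z hr h4 hN hG he hd h0 => ?_⟩
  have hΛ : Λ.Ok := ⟨hFΛ.1 ▸ F.adm, F.pos.trans_le hFΛ.2.2.1⟩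
  obtain ⟨hW, hr₀, -⟩ := (hRg 0).gd
  have hrg := hΛ.one_le_rg
  have hpos : 0 < 4 * (P.W * P.W) := by positivity
  obtain ⟨a, had⟩ : ∃ a, a = nr z / (4 * (P.W * P.W)) := ⟨_, rfl⟩
  have ha1 : 4 * (P.W * P.W) * a ≤ nr z := had ▸ Nat.mul_div_le _ _
  have ha2 : nr z < 4 * (P.W * P.W) * (a + 1) := had ▸ Nat.lt_mul_div_succ _ hpos
  have ha3 : r ≤ a := by rw [had, Nat.le_div_iff_mul_le hpos, mul_comm]; exact h4
  have ha4 : 4 * (P.W * P.W) * (a + 1) ≤ 4 * (P.W * P.W) * (2 * a) := Nat.mul_le_mul_left _ (by omega)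
  have ha5 : 4 * (P.W * (P.W * a)) ≤ nr z := by nlinarith
  have ha6 : nr z ≤ 8 * (P.W * (P.W * a)) := by nlinarith
  have hWa : 2 * a ≤ P.W * a := Nat.mul_le_mul_right _ hW
  have hQ : 2 * (P.W * a) ≤ P.W * (P.W * a) := Nat.mul_le_mul_right _ hW
  have h1 := h Λ hFΛ hΛ hRg a R G z (by omega) ha5 ha6 hN (ins_mono hG ha3)
  have h2 := (hRg a).even 0 r a G (Λ.D (bl 0 R)) hr ha3 le_rfl hG he hd
    (amb_D hΛ (bl_mono _ (by omega))) h0
  have hν : 0 ≤ nu Λ P.W 0 r G := ((hS Λ hΛ P.W 0 r hW (by omega)).1 G hG).1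
  have h3 : (a : ℝ) ^ (-P.β) ≤ (c : ℝ) ^ P.β * (nr z : ℝ) ^ (-P.β) :=
    rpow_le_nat (by omega) hβ (by rw [hc]; nlinarith)
  have h5 : ((r : ℝ) / a) ^ P.β = (r : ℝ) ^ P.β * (a : ℝ) ^ (-P.β) := by
    rw [Real.div_rpow (by positivity) (by positivity), Real.rpow_neg (by positivity), div_eq_mul_inv]
  have hf := fz_nonneg P.β R (R + Λ.rg) (nr z)
  calc _ ≤ K * (P.C * ((r : ℝ) ^ P.β * ((c : ℝ) ^ P.β * (nr z : ℝ) ^ (-P.β))) * nu Λ P.W 0 r G) *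
        fz P.β R (R + Λ.rg) (nr z) := by
        refine h1.trans (mul_le_mul_of_nonneg_right (mul_le_mul_of_nonneg_left (h2.trans ?_)
          (by linarith)) hf)
        rw [h5]
        gcongr
    _ = _ := by ring

theorem sum_fz (hP : PwStmt) {β : ℝ} (hβ : 1 < β) : ∃ C : ℝ, 1 ≤ C ∧ ∀ ρ R N : ℕ, 1 ≤ ρ → 1 ≤ R →
    ∑ t ∈ Ioc ρ N, 8 * (t : ℝ) * ((t : ℝ) ^ (-β) * fz β R N t) ≤
      C * ((ρ : ℝ) ^ (2 - 2 * β) + (R : ℝ) ^ (1 - β)) := by
  obtain ⟨C₁, h₁⟩ := hP.2.2.1 (2 * β - 1) (by linarith)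
  obtain ⟨C₂, h₂⟩ := hP.2.2.1 β hβ
  have hs : ∀ ρ N : ℕ, ∑ t ∈ Ioc ρ N, ((1 + N - t : ℕ) : ℝ) ^ (-β) ≤ 1 + |C₂| := by
    intro ρ N
    have e1 : ∑ t ∈ Ioc 0 N, ((1 + N - t : ℕ) : ℝ) ^ (-β) = ∑ t ∈ Ioc 0 N, (t : ℝ) ^ (-β) := by
      refine sum_nbij' (fun t => 1 + N - t) (fun t => 1 + N - t) ?_ ?_ ?_ ?_ fun _ _ => rfl <;>
        intro t ht <;> simp only [mem_Ioc] at ht ⊢ <;> omega
    have e2 : Ioc 0 N ⊆ insert 1 (Ioc 1 N) := fun t ht => by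
      simp only [mem_Ioc, mem_insert] at ht ⊢; omega
    have e3 := h₂ 1 N le_rfl
    rw [Nat.cast_one, Real.one_rpow, mul_one] at e3
    calc _ ≤ ∑ t ∈ Ioc 0 N, ((1 + N - t : ℕ) : ℝ) ^ (-β) :=
          sum_le_sum_of_subset_of_nonneg (Ioc_subset_Ioc_left (Nat.zero_le _)) fun _ _ _ => by positivity
      _ ≤ ∑ t ∈ insert 1 (Ioc 1 N), ((t : ℕ) : ℝ) ^ (-β) :=
          e1.trans_le (sum_le_sum_of_subset_of_nonneg e2 fun _ _ _ => by positivity)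
      _ ≤ _ := by
          rw [sum_insert (by simp), Nat.cast_one, Real.one_rpow]
          linarith [le_abs_self C₂]
  have h2 : (0 : ℝ) < 2 ^ (β - 1) := by positivity
  have hC2 := abs_nonneg C₂
  have hC1 := abs_nonneg C₁
  have hK : 0 ≤ 8 * 2 ^ (β - 1) * (1 + |C₂|) := by positivity
  refine ⟨1 + 8 * |C₁| + 8 * 2 ^ (β - 1) * (1 + |C₂|), by linarith, fun ρ R N hρ hR => ?_⟩
  have hρ' : (0 : ℝ) ≤ (ρ : ℝ) ^ (2 - 2 * β) := by positivity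
  have hR' : (0 : ℝ) ≤ (R : ℝ) ^ (1 - β) := by positivity
  have e1 := h₁ ρ N hρ
  rw [show 1 - (2 * β - 1) = 2 - 2 * β by ring] at e1
  have e2 : ∀ t ∈ Ioc ρ N, 8 * (t : ℝ) * ((t : ℝ) ^ (-β) * fz β R N t) ≤
      8 * (t : ℝ) ^ (-(2 * β - 1)) +
        8 * 2 ^ (β - 1) * (R : ℝ) ^ (1 - β) * ((1 + N - t : ℕ) : ℝ) ^ (-β) := by
    intro t ht
    have ht0 : (0 : ℝ) < t := by rw [mem_Ioc] at ht; exact_mod_cast (by omega : 0 < t)
    have e3 : (t : ℝ) * (t : ℝ) ^ (-β) = (t : ℝ) ^ (-(β - 1)) := by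
      rw [show -(β - 1) = 1 + -β by ring, Real.rpow_add ht0, Real.rpow_one]
    have e4 : (t : ℝ) ^ (-(2 * β - 1)) = (t : ℝ) ^ (-(β - 1)) * (t : ℝ) ^ (-β) := by
      rw [← Real.rpow_add ht0]; congr 1; ring
    have e5 : (0 : ℝ) ≤ ((1 + N - t : ℕ) : ℝ) ^ (-β) := by positivity
    rw [e4, show 8 * (t : ℝ) * ((t : ℝ) ^ (-β) * fz β R N t) =
      8 * ((t : ℝ) * (t : ℝ) ^ (-β)) * fz β R N t by ring, e3, fz]
    split_ifs with h
    · have e6 := rpow_le_nat (β := β - 1) (c := 2) hR (by linarith) h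
      rw [show -(β - 1) = 1 - β by ring] at e6 ⊢
      rw [Nat.cast_ofNat] at e6
      nlinarith [mul_le_mul_of_nonneg_right e6 e5]
    · have : 0 ≤ 8 * 2 ^ (β - 1) * (R : ℝ) ^ (1 - β) * ((1 + N - t : ℕ) : ℝ) ^ (-β) := by positivity
      linarith
  refine (sum_le_sum e2).trans ?_
  rw [sum_add_distrib, ← mul_sum, ← mul_sum]
  have e7 := mul_le_mul_of_nonneg_left (hs ρ N) (show 0 ≤ 8 * 2 ^ (β - 1) * (R : ℝ) ^ (1 - β) by positivity)
  have e8 := mul_le_mul_of_nonneg_right (le_abs_self C₁) hρ'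
  nlinarith [mul_nonneg hC1 hR', mul_nonneg hK hρ']

end Far58

open Far58 in
theorem farStmt (hA : AlgStmt) (hPw : PwStmt) (hM : MomStmt) (hF : FusStmt) (hI : IoStmt) (hP : ProStmt)
    (hS : SemiStmt) : FarStmt := by
  intro F P
  obtain ⟨K, hK, h⟩ := point hA hM hF hI hP hS F P
  obtain ⟨C, hC, hs⟩ := sum_fz hPw P.hβ
  refine ⟨K * C, 4 * (P.W * P.W) + 1, one_le_mul_of_one_le_of_one_le hK hC, by omega,
    fun Λ hFΛ hRg r ρ R G hr hρ hR hG he hd h0 => ?_⟩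
  have hΛ : Λ.Ok := ⟨hFΛ.1 ▸ F.adm, F.pos.trans_le hFΛ.2.2.1⟩
  obtain ⟨hW, hr₀, -⟩ := (hRg 0).gd
  have hrg := hΛ.one_le_rg
  have hν : 0 ≤ nu Λ P.W 0 r G := ((hS Λ hΛ P.W 0 r hW (by omega)).1 G hG).1
  rw [add_mul] at hρ
  calc _ ≤ ∑ z ∈ an 0 ρ (R + Λ.rg), K * nu Λ P.W 0 r G * (r : ℝ) ^ P.β *
        ((nr (z - 0) : ℝ) ^ (-P.β) * fz P.β R (R + Λ.rg) (nr (z - 0))) := by
        refine sum_le_sum fun z hz => ?_
        rw [an, Finset.mem_sdiff, mem_bl0, mem_bl0] at hz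
        rw [sub_zero]
        exact h Λ hFΛ hRg r R G z hr (by omega) hz.1 hG he hd h0
    _ = K * nu Λ P.W 0 r G * (r : ℝ) ^ P.β *
        ∑ t ∈ Ioc ρ (R + Λ.rg), 8 * (t : ℝ) * ((t : ℝ) ^ (-P.β) * fz P.β R (R + Λ.rg) t) := by
        rw [← mul_sum, hPw.1 0 ρ (R + Λ.rg) fun t => (t : ℝ) ^ (-P.β) * fz P.β R (R + Λ.rg) t]
    _ ≤ K * nu Λ P.W 0 r G * (r : ℝ) ^ P.β *
        (C * ((ρ : ℝ) ^ (2 - 2 * P.β) + (R : ℝ) ^ (1 - P.β))) :=
        mul_le_mul_of_nonneg_left (hs ρ R _ (by omega) (by omega)) (by positivity)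
    _ = _ := by ring

end Crest.Agent.T145.Df
end

-- ▼ part T145/DfKb_30
section

/-!
# Row 145, module Df: the two-point function (KB) and the middle stars (MID) (helper30)
-/

set_option autoImplicit false

namespace Crest.Agent.T145.Df

open Finset Nc

namespace K30

theorem mem_nr {z x : Pt} {r : ℕ} : x ∈ bl z r ↔ nr (x - z) ≤ r := by
  rw [mem_bl, nr, max_le_iff, Prod.fst_sub, Prod.snd_sub]; omega

theorem nr_comm (x y : Pt) : nr (x - y) = nr (y - x) := by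
  simp only [nr, Prod.fst_sub, Prod.snd_sub]; omega

theorem disj {x y : Pt} {a b : ℕ} (h : a + b < nr (x - y)) : Disjoint (bl x a) (bl y b) := by
  refine disjoint_left.2 fun z h1 h2 => ?_
  rw [mem_bl] at h1 h2
  rw [nr, lt_max_iff, Prod.fst_sub, Prod.snd_sub] at h
  omega

theorem amb_mono {Λ : Lat} {m : Mdl Pt} {U U' : Finset Pt} (h : Amb Λ m U') (hU : U ⊆ U') :
    Amb Λ m U := ⟨h.ctr, h.anch, hU.trans h.sub, h.near.mono hU⟩

theorem ins_mono {z z' : Pt} {r r' : ℕ} {F : Cfg Pt → ℝ} (h : Ins z r F) (hs : bl z r ⊆ bl z' r') :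
    Ins z' r' F := ⟨h.1.mono hs, h.2⟩

theorem pw {a B ρ p : ℝ} (ha : 0 < a) (hρ : 0 < ρ) (hp : 0 ≤ p) (h : a ≤ B * ρ) :
    ρ ^ (-p) ≤ B ^ p * a ^ (-p) := by
  have hB : 0 < B := (mul_pos_iff_of_pos_right hρ).1 (ha.trans_le h)
  have := Real.rpow_le_rpow ha.le h hp
  rw [Real.mul_rpow hB.le hρ.le] at this
  rw [Real.rpow_neg hρ.le, Real.rpow_neg ha.le, ← div_eq_mul_inv, inv_eq_one_div,
    div_le_div_iff₀ (Real.rpow_pos_of_pos hρ p) (Real.rpow_pos_of_pos ha p), one_mul]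
  exact this

theorem pw1 {a B p : ℝ} (ha : 0 < a) (hp : 0 ≤ p) (h : a ≤ B) : 1 ≤ B ^ p * a ^ (-p) := by
  simpa using K30.pw (ρ := 1) ha one_pos hp (by simpa using h)

theorem div_lt (d k : ℕ) (hk : 0 < k) : 1 + d ≤ k * (d / k + 1) := by
  have := Nat.lt_mul_div_succ d hk; omega

end K30

open K30

/-- KB -/
theorem kbStmt (hA : AlgStmt) (hM : MomStmt) (hS : SemiStmt) (hF : FusStmt) (hP : ProStmt) :
    KbStmt := by
  intro F P
  obtain ⟨C₁, hC₁, hM1⟩ := hM.1 F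
  obtain ⟨C₂, hC₂, hP⟩ := hP F P
  have hα : 0 ≤ 2 * P.α := by linarith [P.hα]
  set B : ℝ := (((2 * P.W + 1) * (P.r₀ + 2) : ℕ) : ℝ) with hB
  have hB1 : 1 ≤ B := by
    rw [hB]; exact_mod_cast Nat.mul_pos (by omega) (by omega)
  have hBp : 1 ≤ B ^ (2 * P.α) := Real.one_le_rpow hB1 hα
  refine ⟨(C₁ + 4 * C₂ ^ 2) * B ^ (2 * P.α),
    one_le_mul_of_one_le_of_one_le (by nlinarith) hBp, fun Λ hΛ L hR x y => ?_⟩
  have ok := hΛ.ok
  obtain ⟨hW, hr, -⟩ := id hR.gd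
  have hg := ok.one_le_rg
  set d := nr (x - y) with hd
  set ρ := min (d / (2 * P.W + 1)) L with hρ
  have hμ : 1 + min d L ≤ (2 * P.W + 1) * (ρ + 1) := by
    rcases le_total (d / (2 * P.W + 1)) L with h | h
    · rw [hρ, min_eq_left h]
      exact le_trans (by omega) (div_lt d _ (by omega))
    · rw [hρ, min_eq_right h]
      exact le_trans (by omega) (Nat.le_mul_of_pos_left _ (by omega))
  have ha : (0 : ℝ) < 1 + (min d L : ℕ) := by positivity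
  have hq : (0 : ℝ) ≤ B ^ (2 * P.α) * (1 + (min d L : ℕ) : ℝ) ^ (-(2 * P.α)) := by positivity
  have iJ := fun z => ((hA.2.2 Λ ok) z).1
  have hxy : y ∈ bl x d := mem_nr.2 (nr_comm _ _).le
  rw [mul_assoc]
  rcases lt_or_ge ρ P.r₀ with h | h
  · have k : 1 ≤ B ^ (2 * P.α) * (1 + (min d L : ℕ) : ℝ) ^ (-(2 * P.α)) := by
      refine pw1 ha hα ?_
      rw [hB]
      exact_mod_cast hμ.trans (Nat.mul_le_mul_left _ (by omega))
    have k' : C₁ ≤ (C₁ + 4 * C₂ ^ 2) *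
        (B ^ (2 * P.α) * (1 + (min d L : ℕ) : ℝ) ^ (-(2 * P.α))) := by nlinarith
    refine ⟨fun m hx hy => ?_, fun R hRd => ?_⟩
    · have sx := (hM.2 Λ ok x).1 m _ hx.near (self_mem_bl _ _)
      have sy := (hM.2 Λ ok y).1 m _ hy.near (self_mem_bl _ _)
      exact ((abs_Ex_le (hx.ctr.cen hx.anch).nonneg ((hx.ctr.cen hx.anch).ig
        ((iJ x).2.mul (iJ y).2))).trans (hM1 Λ hΛ m x y x hx.ctr hx.anch sx sy sx).2.2.1).trans k'
    · have hWR : R ≤ P.W * R := Nat.le_mul_of_pos_left _ (by omega)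
      have i : Ins x R fun s => JL Λ.J x s * JL Λ.J y s :=
        ⟨((iJ x).1.mono (bl_mono _ (by omega))).mul ((iJ y).1.mono (bl_subset_bl hxy (by omega))),
          (iJ x).2.mul (iJ y).2⟩
      have sx := (hM.2 Λ ok x).2.2.1 (bl x (P.W * R)) x (bl_mono _ (by omega))
      have sy := (hM.2 Λ ok y).2.2.1 (bl x (P.W * R)) x (bl_subset_bl hxy (by omega))
      exact (((hS Λ ok P.W x R hW (by omega)).1 _ i).2.1.trans (hM1 Λ hΛ _ x y x (ok.ctr_Nr _ _)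
        (ok.anch_Nr_bl (self_mem_bl _ _)) sx sy sx).2.2.1).trans k'
  · have hρL : ρ ≤ L := min_le_right _ _
    have hρd : (2 * P.W + 1) * ρ ≤ d :=
      (Nat.mul_le_mul_left _ (min_le_left _ _)).trans (Nat.mul_div_le _ _)
    have hρW : ρ ≤ P.W * L := hρL.trans (Nat.le_mul_of_pos_left _ (by omega))
    have e : (2 * P.W + 1) * ρ = P.W * ρ + P.W * ρ + ρ := by ring
    have ix := ins_mono (iJ x) (bl_mono x (by omega : Λ.rg ≤ ρ))
    have iy := ins_mono (iJ y) (bl_mono y (by omega : Λ.rg ≤ ρ))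
    have fus := hF Λ ok P.W P.r₀ _ hR.gd x y ρ ρ _ _ h hρW h hρW ix iy (disj (by omega))
    have hρ0 : (0 : ℝ) < ρ := by exact_mod_cast (by omega : 0 < ρ)
    have k : (ρ : ℝ) ^ (-(2 * P.α)) ≤ B ^ (2 * P.α) * (1 + (min d L : ℕ) : ℝ) ^ (-(2 * P.α)) := by
      refine K30.pw ha hρ0 hα ?_
      rw [hB]
      have : (2 * P.W + 1) * (ρ + 1) ≤ (2 * P.W + 1) * (P.r₀ + 2) * ρ := by
        rw [mul_assoc]; exact Nat.mul_le_mul_left _ (by nlinarith)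
      exact_mod_cast hμ.trans this
    have k' : 4 * nu Λ P.W x ρ (JL Λ.J x) * nu Λ P.W y ρ (JL Λ.J y) ≤ (C₁ + 4 * C₂ ^ 2) *
        (B ^ (2 * P.α) * (1 + (min d L : ℕ) : ℝ) ^ (-(2 * P.α))) := by
      have a1 := (hP Λ hΛ L hR x ρ h hρL).1
      have a2 := (hP Λ hΛ L hR y ρ h hρL).1
      have a3 := ((hS Λ ok P.W y ρ hW (by omega)).1 _ iy).1
      have a4 : nu Λ P.W x ρ (JL Λ.J x) * nu Λ P.W y ρ (JL Λ.J y) ≤
          C₂ * (ρ : ℝ) ^ (-P.α) * (C₂ * (ρ : ℝ) ^ (-P.α)) :=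
        mul_le_mul a1 a2 a3 (by positivity)
      rw [show C₂ * (ρ : ℝ) ^ (-P.α) * (C₂ * (ρ : ℝ) ^ (-P.α)) =
        C₂ ^ 2 * ((ρ : ℝ) ^ (-P.α) * (ρ : ℝ) ^ (-P.α)) by ring, ← Real.rpow_add hρ0,
        show -P.α + -P.α = -(2 * P.α) by ring] at a4
      nlinarith [mul_le_mul_of_nonneg_left k (sq_nonneg C₂)]
    exact ⟨fun m hx hy => (fus.1 m (amb_mono hx (bl_mono _ (by omega)))
      (amb_mono hy (bl_mono _ (by omega)))).1.trans k', fun R hRd =>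
        (fus.2 x R (bl_mono _ (by omega)) (bl_subset_bl hxy (by omega))).trans k'⟩

/-- MID -/
theorem midStmt (hA : AlgStmt) (hM : MomStmt) (hS : SemiStmt) (hF : FusStmt) (hP : ProStmt) :
    MidStmt := by
  intro F P A hA3
  obtain ⟨C₁, hC₁, hM1⟩ := hM.1 F
  obtain ⟨C₂, hC₂, hP⟩ := hP F P
  have hα : 0 ≤ P.β + 2 * P.α := by linarith [P.hα, P.hβ]
  set B : ℝ := ((A * (2 * P.W + 1) * (P.r₀ + 2) : ℕ) : ℝ) with hB
  have hB1 : 1 ≤ B := by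
    rw [hB]; exact_mod_cast Nat.mul_pos (Nat.mul_pos (by omega) (by omega)) (by omega)
  have hBp : 1 ≤ B ^ (P.β + 2 * P.α) := Real.one_le_rpow hB1 hα
  have hC3 : 0 ≤ C₂ ^ 3 := by positivity
  refine ⟨(C₁ + C₁ ^ 2 + 8 * C₂ ^ 3) * B ^ (P.β + 2 * P.α),
    one_le_mul_of_one_le_of_one_le (by nlinarith) hBp, fun Λ hΛ hR m x y z hx hy hz zx zy => ?_⟩
  have ok := hΛ.ok
  obtain ⟨hW, hr, -⟩ := id (hR 0).gd
  have hg := ok.one_le_rg
  set d := nr (x - y) with hd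
  set ρ := d / A / (2 * P.W + 1) with hρ
  have hμ : 1 + d ≤ A * (2 * P.W + 1) * (ρ + 1) := by
    rw [mul_assoc]
    exact (div_lt d A (by omega)).trans (Nat.mul_le_mul_left _
      ((add_comm _ _).le.trans (div_lt (d / A) _ (by omega))))
  have ha : (0 : ℝ) < 1 + d := by positivity
  have hq : (0 : ℝ) ≤ B ^ (P.β + 2 * P.α) * (1 + d : ℝ) ^ (-(P.β + 2 * P.α)) := by positivity
  have iJ := fun z => ((hA.2.2 Λ ok) z).1
  have iE := ((hA.2.2 Λ ok) z).2.2.2.1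
  rw [mul_assoc, show -P.β - 2 * P.α = -(P.β + 2 * P.α) by ring]
  rcases lt_or_ge ρ P.r₀ with h | h
  · have k : 1 ≤ B ^ (P.β + 2 * P.α) * (1 + d : ℝ) ^ (-(P.β + 2 * P.α)) := by
      refine pw1 ha hα ?_
      rw [hB]
      exact_mod_cast hμ.trans (Nat.mul_le_mul_left _ (by omega))
    have sx := (hM.2 Λ ok x).1 m _ hx.near (self_mem_bl _ _)
    have sy := (hM.2 Λ ok y).1 m _ hy.near (self_mem_bl _ _)
    have sz := (hM.2 Λ ok z).1 m _ hz.near (self_mem_bl _ _)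
    obtain ⟨-, m2, m3, -, m5⟩ := hM1 Λ hΛ m x y z hx.ctr hx.anch sx sy sz
    have cen := hx.ctr.cen hx.anch
    have t2 := (iJ x).2.mul (iJ y).2
    have b1 := (abs_Ex_le cen.nonneg (cen.ig (t2.mul iE.2))).trans m5
    have b2 := (abs_Ex_le cen.nonneg (cen.ig t2)).trans m3
    have b3 := (abs_Ex_le cen.nonneg (cen.ig iE.2)).trans m2
    simp only [ec, mul_sub]
    rw [Ex_sub (cen.ig (t2.mul iE.2)) (cen.ig (t2.mul (Tame.const _))), Ex_mul_const]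
    refine (abs_sub _ _).trans ?_
    rw [abs_mul]
    have b4 := mul_le_mul b2 b3 (abs_nonneg _) (by linarith)
    nlinarith
  · have hρd : (2 * P.W + 1) * ρ ≤ d / A := Nat.mul_div_le _ _
    have hdA : d / A ≤ d := Nat.div_le_self _ _
    have hρW : ρ ≤ P.W * ρ := Nat.le_mul_of_pos_left _ (by omega)
    have e : (2 * P.W + 1) * ρ = P.W * ρ + P.W * ρ + ρ := by ring
    have ix := ins_mono (iJ x) (bl_mono x (by omega : Λ.rg ≤ ρ))
    have iy := ins_mono (iJ y) (bl_mono y (by omega : Λ.rg ≤ ρ))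
    have iz : Ins z ρ (ec Λ m z) :=
      ⟨(iE.1.mono (bl_mono z (by omega))).sub (DepG.const _ _), iE.2.sub (Tame.const _)⟩
    rw [mem_nr, nr_comm, not_le] at zx zy
    have az := amb_mono hz (bl_mono z (by omega : P.W * ρ ≤ d))
    have fus := ((hF Λ ok P.W P.r₀ _ (hR ρ).gd x y ρ ρ _ _ h hρW h hρW ix iy (disj (by omega))).1 m
      (amb_mono hx (bl_mono _ (by omega))) (amb_mono hy (bl_mono _ (by omega)))).2 z ρ _ h hρW iz az
      (disj (by omega)) (disj (by omega))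
    refine fus.trans ?_
    have hρ0 : (0 : ℝ) < ρ := by exact_mod_cast (by omega : 0 < ρ)
    have k : (ρ : ℝ) ^ (-(P.β + 2 * P.α)) ≤
        B ^ (P.β + 2 * P.α) * (1 + d : ℝ) ^ (-(P.β + 2 * P.α)) := by
      refine K30.pw ha hρ0 hα ?_
      rw [hB]
      have : A * (2 * P.W + 1) * (ρ + 1) ≤ A * (2 * P.W + 1) * (P.r₀ + 2) * ρ := by
        rw [mul_assoc _ (P.r₀ + 2)]; exact Nat.mul_le_mul_left _ (by nlinarith)
      exact_mod_cast hμ.trans this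
    have a1 := (hP Λ hΛ ρ (hR ρ) x ρ h le_rfl).1
    have a2 := (hP Λ hΛ ρ (hR ρ) y ρ h le_rfl).1
    have a2' := (hP Λ hΛ ρ (hR ρ) z ρ h le_rfl).2 m az
    have a3 := ((hS Λ ok P.W y ρ hW (by omega)).1 _ iy).1
    have a3' := ((hS Λ ok P.W z ρ hW (by omega)).1 _ iz).1
    have a4 : nu Λ P.W x ρ (JL Λ.J x) * nu Λ P.W y ρ (JL Λ.J y) * nu Λ P.W z ρ (ec Λ m z) ≤
        C₂ * (ρ : ℝ) ^ (-P.α) * (C₂ * (ρ : ℝ) ^ (-P.α)) * (C₂ * (ρ : ℝ) ^ (-P.β)) :=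
      mul_le_mul (mul_le_mul a1 a2 a3 (by positivity)) a2' a3' (by positivity)
    rw [show C₂ * (ρ : ℝ) ^ (-P.α) * (C₂ * (ρ : ℝ) ^ (-P.α)) * (C₂ * (ρ : ℝ) ^ (-P.β)) =
      C₂ ^ 3 * ((ρ : ℝ) ^ (-P.α) * (ρ : ℝ) ^ (-P.α) * (ρ : ℝ) ^ (-P.β)) by ring,
      ← Real.rpow_add hρ0, ← Real.rpow_add hρ0,
      show -P.α + -P.α + -P.β = -(P.β + 2 * P.α) by ring] at a4
    nlinarith [mul_le_mul_of_nonneg_left k hC3, mul_nonneg (by positivity : 0 ≤ C₁ + C₁ ^ 2) hq]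

end Crest.Agent.T145.Df
end

-- ▼ part T145/DfNear_55
section

/-!
# Row 145, module Df: the stars near one of the two points (`Df.nearStmt`, helper55)
-/

set_option autoImplicit false

namespace Crest.Agent.T145.Df

open Finset Nc K30

namespace Near55

theorem split (x : Pt) (g : Pt → ℝ) {a n : ℕ} (h : a ≤ n) :
    ∑ z ∈ bl x n, g z = ∑ z ∈ bl x a, g z + ∑ u ∈ Ioc a n, ∑ z ∈ an x (u - 1) u, g z := by
  induction n, h using Nat.le_induction with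
  | base => simp
  | succ n h ih =>
    rw [sum_Ioc_succ_top h, ← add_assoc, ← ih, Nat.add_sub_cancel, an, add_comm (∑ z ∈ bl x n, _),
      sum_sdiff (bl_mono x (Nat.le_succ n))]

theorem card_shell (hP : PwStmt) (x : Pt) {u : ℕ} (hu : 1 ≤ u) :
    ((an x (u - 1) u).card : ℝ) = 8 * u := by
  obtain ⟨t, rfl⟩ : ∃ t, u = t + 1 := ⟨u - 1, by omega⟩
  have := hP.1 x t (t + 1) fun _ => 1
  simpa using this

variable {Λ : Lat} {m : Mdl Pt} {P : Par}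

theorem ins_ec (hA : AlgStmt) (ok : Λ.Ok) (m : Mdl Pt) (z : Pt) : Ins z Λ.rg (ec Λ m z) :=
  ⟨((hA.2.2 Λ ok) z).2.2.2.1.1.sub (DepG.const _ _), ((hA.2.2 Λ ok) z).2.2.2.1.2.sub (Tame.const _)⟩

theorem ins_Je (hA : AlgStmt) (ok : Λ.Ok) (m : Mdl Pt) {x z : Pt} {t r : ℕ} (hz : z ∈ bl x t)
    (h : Λ.rg + t ≤ r) : Ins x r fun s => JL Λ.J x s * ec Λ m z s :=
  ⟨(((hA.2.2 Λ ok) x).1.1.mono (bl_mono x (by omega))).mul
    ((ins_ec hA ok m z).1.mono (bl_subset_bl hz h)), ((hA.2.2 Λ ok) x).1.2.mul (ins_ec hA ok m z).2⟩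

/-- an odd `D4` piece against the second point -/
theorem core (hA : AlgStmt) (hS : SemiStmt) (hF : FusStmt) (ok : Λ.Ok) (hR : ∀ L, Rg Λ P L) {C : ℝ}
    {x y : Pt} {ρ : ℕ} (hJ : nu Λ P.W y ρ (JL Λ.J y) ≤ C * (ρ : ℝ) ^ (-P.α))
    (hρ : (2 * P.W + 1) * ρ ≤ nr (x - y)) (hx : Amb Λ m (bl x (nr (x - y))))
    (hy : Amb Λ m (bl y (nr (x - y)))) {S : Finset Pt} {t r : ℕ} (hSt : S ⊆ bl x t)
    (hD : D4 x fun s => ∑ z ∈ S, es Λ z s) (h1 : Λ.rg + t ≤ r) (h2 : P.r₀ ≤ r) (h3 : r ≤ ρ) {b : ℝ}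
    (hb0 : 0 ≤ b) (hb : ∀ z ∈ S, nu Λ P.W x r (fun s => JL Λ.J x s * ec Λ m z s) ≤ b) :
    |∑ z ∈ S, Ex (m.W 0) fun s => JL Λ.J x s * JL Λ.J y s * ec Λ m z s| ≤
      4 * P.C * C * (S.card * b * (r : ℝ) ^ P.α) * (ρ : ℝ) ^ (-(2 * P.α)) := by
  obtain ⟨hW, hr, -⟩ := id (hR 0).gd
  have hg := ok.one_le_rg
  have a := hA.2.2 Λ ok
  have cen := hx.ctr.cen hx.anch
  have iz := fun z (hz : z ∈ S) => ins_Je hA ok m (hSt hz) h1
  set H : Cfg Pt → ℝ := fun s => ∑ z ∈ S, JL Λ.J x s * ec Λ m z s with hH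
  have iH : Ins x r H := ⟨DepG.sum fun z hz => (iz z hz).1, Tame.sum _ fun z hz => (iz z hz).2⟩
  have eH : ∀ s, H s = JL Λ.J x s * (∑ z ∈ S, es Λ z s - ∑ z ∈ S, Ex (m.W 0) (es Λ z)) := fun s => by
    simp only [hH, ec, ← mul_sum, sum_sub_distrib]
  have oH : OddF H := fun s => by
    have e : ∀ z, es Λ z (-s) = es Λ z s := fun z => (a z).2.2.2.2.1 s
    rw [eH, eH, (a x).2.1 s]
    simp only [e, neg_mul]
  have dH : D4 x H := fun s => by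
    have e1 := (a x).2.2.1 s
    have e2 := hD s
    simp only at e2
    simp only [eH, e1.1, e1.2, e2.1, e2.2, and_self]
  have n1 : nu Λ P.W x r H ≤ S.card * b :=
    ((hS Λ ok P.W x r hW (by omega)).2 _ S _ iz).trans
      ((sum_le_card_nsmul _ _ _ hb).trans_eq (nsmul_eq_mul _ _))
  have n2 := (hR ρ).odd x r ρ H h2 h3 le_rfl iH oH dH
  have e : (2 * P.W + 1) * ρ = P.W * ρ + P.W * ρ + ρ := by ring
  have hρW : ρ ≤ P.W * ρ := Nat.le_mul_of_pos_left _ (by omega)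
  have iy := ins_mono (a y).1 (bl_mono y (by omega : Λ.rg ≤ ρ))
  have iH' := ins_mono iH (bl_mono x h3)
  have fus := ((hF Λ ok P.W P.r₀ _ (hR ρ).gd x y ρ ρ _ _ (by omega) hρW (by omega) hρW iH' iy
    (disj (by omega))).1 m (amb_mono hx (bl_mono _ (by omega))) (amb_mono hy (bl_mono _ (by omega)))).1
  have e1 : (∑ z ∈ S, Ex (m.W 0) fun s => JL Λ.J x s * JL Λ.J y s * ec Λ m z s) =
      Ex (m.W 0) fun s => H s * JL Λ.J y s := by
    rw [← Ex_sum _ fun z _ => cen.ig (((a x).1.2.mul (a y).1.2).mul (ins_ec hA ok m z).2)]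
    refine Ex_congr fun s _ => ?_
    simp only [hH, sum_mul]
    exact sum_congr rfl fun z _ => by ring
  rw [e1]
  refine fus.trans ?_
  have hρ0 : (0 : ℝ) < ρ := by exact_mod_cast (by omega : 0 < ρ)
  have p0 : 0 ≤ P.C := by linarith [P.hC]
  have n3 : nu Λ P.W x ρ H ≤ P.C * ((r : ℝ) / ρ) ^ P.α * (S.card * b) :=
    n2.trans (mul_le_mul_of_nonneg_left n1 (by positivity))
  have n4 := mul_le_mul n3 hJ ((hS Λ ok P.W y ρ hW (by omega)).1 _ iy).1 (by positivity)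
  rw [mul_assoc]
  refine (mul_le_mul_of_nonneg_left n4 (by norm_num)).trans_eq ?_
  rw [Real.div_rpow (by positivity) hρ0.le, show -(2 * P.α) = -P.α + -P.α by ring, Real.rpow_add hρ0,
    div_eq_mul_inv, ← Real.rpow_neg hρ0.le]
  ring

end Near55

open Near55

set_option maxHeartbeats 1000000 in
/-- NEAR -/
theorem nearStmt (hA : AlgStmt) (hP : PwStmt) (hM : MomStmt) (hS : SemiStmt) (hF : FusStmt)
    (hR : ProStmt) : NearStmt := by
  intro F P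
  obtain ⟨C₁, hC₁, hM1⟩ := hM.1 F
  obtain ⟨C₂, hC₂, hR⟩ := hR F P
  obtain ⟨C₃, hC₃⟩ := hP.2.2.2.1 (1 - P.β) (by linarith [P.hβ'])
  have hα : 0 ≤ P.α := by linarith [P.hα]
  have hβ : 0 ≤ P.β := by linarith [P.hβ]
  have p0 : 0 ≤ P.C := by linarith [P.hC]
  have c1 : 0 ≤ C₁ := by linarith
  have c2 : 0 ≤ C₂ := by linarith
  set q := 2 * P.W + 1 with hq
  set t₀ := q * P.r₀ with ht₀
  set A := 2 * q + 2 with hAq
  set B : ℝ := ((A * (t₀ + 1) : ℕ) : ℝ) with hB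
  have hB1 : 1 ≤ B := by
    rw [hB]; exact_mod_cast Nat.mul_pos (by omega) (by omega)
  have hBp : 1 ≤ B ^ (2 * P.α) := Real.one_le_rpow hB1 (by positivity)
  set b₀ : ℝ := (2 * (t₀ : ℝ) + 1) ^ 2 * (C₁ + C₁ ^ 2) with hb₀
  have hb1 : 1 ≤ b₀ := one_le_mul_of_one_le_of_one_le
    (one_le_pow₀ (by linarith [(Nat.cast_nonneg t₀ : (0 : ℝ) ≤ t₀)])) (by nlinarith)
  set K₀ : ℝ := 4 * P.C * C₂ * (b₀ * ((2 * t₀ : ℕ) : ℝ) ^ P.α) with hK₀
  set K₁ : ℝ := 4 * P.C * C₂ * (8 * (4 * C₂ ^ 2 * (2 * q : ℝ) ^ (P.α + P.β)) * 2 ^ P.α) with hK₁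
  have k0 : 0 ≤ K₀ := by positivity
  have k1 : 0 ≤ K₁ := by positivity
  have k2 : 0 ≤ K₁ * |C₃| := by positivity
  refine ⟨(b₀ + K₀ + K₁ * |C₃|) * B ^ (2 * P.α), A, one_le_mul_of_one_le_of_one_le (by linarith) hBp,
    by omega, fun Λ hΛ hG m x y hx hy => ?_⟩
  have ok := hΛ.ok
  obtain ⟨hW, hr, -⟩ := id (hG 0).gd
  have hg := ok.one_le_rg
  have a := hA.2.2 Λ ok
  have cen := hx.ctr.cen hx.anch
  set d := nr (x - y) with hd
  set n := d / A with hn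
  have hnd : A * n ≤ d := Nat.mul_div_le _ _
  have hnd' : n ≤ d := Nat.div_le_self _ _
  have ha : (0 : ℝ) < 1 + d := by positivity
  have ha1 : (1 : ℝ) ≤ 1 + d := by linarith [(Nat.cast_nonneg d : (0 : ℝ) ≤ d)]
  have hu1 : 1 ≤ (1 + d : ℝ) ^ (2 - P.β) := Real.one_le_rpow ha1 (by linarith [P.hβ'])
  have hQ : 0 ≤ B ^ (2 * P.α) * (1 + d : ℝ) ^ (-(2 * P.α)) := by positivity
  have sx := (hM.2 Λ ok x).1 m _ hx.near (self_mem_bl _ _)
  have sy := (hM.2 Λ ok y).1 m _ hy.near (self_mem_bl _ _)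
  have sz := fun z (hz : z ∈ bl x d) => (hM.2 Λ ok z).1 m _ hx.near hz
  have me : ∀ z ∈ bl x d, |Ex (m.W 0) (es Λ z)| ≤ C₁ := fun z hz =>
    (abs_Ex_le cen.nonneg (cen.ig (a z).2.2.2.1.2)).trans
      (hM1 Λ hΛ m x y z hx.ctr hx.anch sx sy (sz z hz)).2.1
  rw [show 2 - P.β - 2 * P.α = -(2 * P.α) + (2 - P.β) by ring, Real.rpow_add ha,
    show ∀ u v w z : ℝ, u * v * (w * z) = u * z * (v * w) from fun _ _ _ _ => by ring]
  rcases lt_or_ge n t₀ with h | h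
  · have k : 1 ≤ B ^ (2 * P.α) * (1 + d : ℝ) ^ (-(2 * P.α)) := by
      refine pw1 ha (by positivity) ?_
      rw [hB]
      exact_mod_cast (div_lt d A (by omega)).trans (Nat.mul_le_mul_left _ (by omega))
    have b : ∀ z ∈ bl x n, |Ex (m.W 0) fun s => JL Λ.J x s * JL Λ.J y s * ec Λ m z s| ≤
        C₁ + C₁ ^ 2 := fun z hz => by
      have hz' := bl_mono x hnd' hz
      obtain ⟨-, -, m3, -, m5⟩ := hM1 Λ hΛ m x y z hx.ctr hx.anch sx sy (sz z hz')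
      have t2 := (a x).1.2.mul (a y).1.2
      have te := (a z).2.2.2.1.2
      have b1 := (abs_Ex_le cen.nonneg (cen.ig (t2.mul te))).trans m5
      have b2 := (abs_Ex_le cen.nonneg (cen.ig t2)).trans m3
      simp only [ec, mul_sub]
      rw [Ex_sub (cen.ig (t2.mul te)) (cen.ig (t2.mul (Tame.const _))), Ex_mul_const]
      refine (abs_sub _ _).trans ?_
      rw [abs_mul]
      rw [pow_two C₁]
      exact add_le_add b1 (mul_le_mul b2 (me z hz') (abs_nonneg _) c1)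
    have b' := (abs_sum_le_sum_abs _ _).trans (sum_le_card_nsmul _ _ _ b)
    rw [nsmul_eq_mul, hP.2.1] at b'
    have hn' : (n : ℝ) ≤ t₀ := by exact_mod_cast h.le
    have b'' : (2 * (n : ℝ) + 1) ^ 2 * (C₁ + C₁ ^ 2) ≤ b₀ :=
      mul_le_mul_of_nonneg_right (pow_le_pow_left₀ (by positivity) (by linarith) 2) (by positivity)
    refine (b'.trans b'').trans (le_trans ?_ (le_mul_of_one_le_right (by positivity) k))
    exact le_trans (by linarith) (le_mul_of_one_le_right (by positivity) hu1)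
  · set ρ := d / q with hρ
    have hρd : q * ρ ≤ d := Nat.mul_div_le _ _
    have hρd' : ρ ≤ d := Nat.div_le_self _ _
    have hnρ : 2 * n ≤ ρ := by
      rw [hρ, Nat.le_div_iff_mul_le (by omega)]
      exact le_trans (by rw [hAq]; nlinarith) hnd
    have ht : P.r₀ ≤ t₀ := Nat.le_mul_of_pos_left _ (by omega)
    have hρ0 : (0 : ℝ) < ρ := by exact_mod_cast (by omega : 0 < ρ)
    have hJ := (hR Λ hΛ ρ (hG ρ) y ρ (by omega) le_rfl).1
    have k : (ρ : ℝ) ^ (-(2 * P.α)) ≤ B ^ (2 * P.α) * (1 + d : ℝ) ^ (-(2 * P.α)) := by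
      refine K30.pw ha hρ0 (by positivity) ?_
      rw [hB]
      have h1 := div_lt d q (by omega)
      have h2 : q * (ρ + 1) ≤ A * (t₀ + 1) * ρ := by
        have : q * (ρ + 1) ≤ A * ρ := by rw [hAq]; nlinarith
        exact this.trans (Nat.mul_le_mul_right _ (Nat.le_mul_of_pos_right _ (by omega)))
      exact_mod_cast h1.trans h2
    -- the central piece
    have f0 : |∑ z ∈ bl x t₀, Ex (m.W 0) fun s => JL Λ.J x s * JL Λ.J y s * ec Λ m z s| ≤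
        K₀ * (ρ : ℝ) ^ (-(2 * P.α)) := by
      have := core hA hS hF ok hG hJ hρd hx hy (S := bl x t₀) (r := 2 * t₀) subset_rfl
        ((a x).2.2.2.2.2.2.1 0 t₀).2 (by omega) (by omega) (by omega) (b := C₁ + C₁ ^ 2)
        (by positivity) fun z hz => by
          have hWR : 2 * t₀ ≤ P.W * (2 * t₀) := Nat.le_mul_of_pos_left _ (by omega)
          refine ((hS Λ ok P.W x (2 * t₀) hW (by omega)).1 _ (ins_Je hA ok m hz (by omega))).2.1.trans ?_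
          have c := ok.ctr_Nr (bl x (P.W * (2 * t₀))) x
          have an' := ok.anch_Nr_bl (self_mem_bl x (P.W * (2 * t₀)))
          have ce := c.cen an'
          have ux := (hM.2 Λ ok x).2.2.1 (bl x (P.W * (2 * t₀))) x (bl_mono _ (by omega))
          have uz := (hM.2 Λ ok z).2.2.1 (bl x (P.W * (2 * t₀))) x (bl_subset_bl hz (by omega))
          obtain ⟨m1, -, -, m4, -⟩ := hM1 Λ hΛ _ x x z c an' ux ux uz
          have tJ := (a x).1.2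
          have te := (a z).2.2.2.1.2
          have mz := me z (bl_mono x (by omega) hz)
          refine (Ex_mono (G := fun s => |JL Λ.J x s * es Λ z s| + |JL Λ.J x s| * C₁) ce.nonneg
            (ce.ig (tJ.mul (ins_ec hA ok m z).2).abs)
            (ce.ig ((tJ.mul te).abs.add (tJ.abs.mul_const _))) fun s => ?_).trans ?_
          · simp only [ec, mul_sub]
            refine (abs_sub _ _).trans (add_le_add le_rfl ?_)
            rw [abs_mul]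
            exact mul_le_mul_of_nonneg_left mz (abs_nonneg _)
          · rw [Ex_add (ce.ig (tJ.mul te).abs) (ce.ig (tJ.abs.mul_const _)), Ex_mul_const]
            rw [pow_two C₁]
            exact add_le_add m4 (mul_le_mul_of_nonneg_right m1 c1)
      rwa [hP.2.1] at this
    -- the shells
    have f1 : ∀ u ∈ Ioc t₀ n,
        |∑ z ∈ an x (u - 1) u, Ex (m.W 0) fun s => JL Λ.J x s * JL Λ.J y s * ec Λ m z s| ≤
          K₁ * (ρ : ℝ) ^ (-(2 * P.α)) * (u : ℝ) ^ (1 - P.β) := fun u hu => by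
      obtain ⟨u1, u2⟩ := mem_Ioc.1 hu
      set σ := u / q with hσ
      have s1 : q * σ ≤ u := Nat.mul_div_le _ _
      have s2 : P.r₀ ≤ σ := by
        rw [hσ, Nat.le_div_iff_mul_le (by omega), mul_comm]; omega
      have s3 : u ≤ 2 * q * σ := by
        have := div_lt u q (by omega)
        nlinarith
      have e : q * σ = P.W * σ + P.W * σ + σ := by rw [hq]; ring
      have hσW : σ ≤ P.W * σ := Nat.le_mul_of_pos_left _ (by omega)
      have hσ0 : (0 : ℝ) < σ := by exact_mod_cast (by omega : 0 < σ)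
      have hu0 : (0 : ℝ) < u := by exact_mod_cast (by omega : 0 < u)
      have := core hA hS hF ok hG hJ hρd hx hy (S := an x (u - 1) u) (t := u) (r := 2 * u)
        sdiff_subset ((a x).2.2.2.2.2.2.1 (u - 1) u).1 (by omega) (by omega) (by omega)
        (b := 4 * C₂ ^ 2 * ((2 * q : ℝ) ^ (P.α + P.β) * (u : ℝ) ^ (-(P.α + P.β)))) (by positivity)
        fun z hz => by
          obtain ⟨z1, z2⟩ := mem_sdiff.1 hz
          rw [mem_nr, nr_comm, not_le] at z2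
          have ix := ins_mono (a x).1 (bl_mono x (by omega : Λ.rg ≤ σ))
          have iz := ins_mono (ins_ec hA ok m z) (bl_mono z (by omega : Λ.rg ≤ σ))
          refine ((hF Λ ok P.W P.r₀ _ (hG σ).gd x z σ σ _ _ s2 hσW s2 hσW ix iz (disj (by omega))).2 x
            (2 * u) (bl_mono _ (by omega)) (bl_subset_bl z1 (by omega))).trans ?_
          have a1 := (hR Λ hΛ σ (hG σ) x σ s2 le_rfl).1
          have a2 := (hR Λ hΛ σ (hG σ) z σ s2 le_rfl).2 m (amb_mono hx (bl_subset_bl z1 (by omega)))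
          have a4 := mul_le_mul a1 a2 ((hS Λ ok P.W z σ hW (by omega)).1 _ iz).1 (by positivity)
          rw [show C₂ * (σ : ℝ) ^ (-P.α) * (C₂ * (σ : ℝ) ^ (-P.β)) =
            C₂ ^ 2 * ((σ : ℝ) ^ (-P.α) * (σ : ℝ) ^ (-P.β)) by ring, ← Real.rpow_add hσ0,
            show -P.α + -P.β = -(P.α + P.β) by ring] at a4
          have a5 : (σ : ℝ) ^ (-(P.α + P.β)) ≤ (2 * q : ℝ) ^ (P.α + P.β) * (u : ℝ) ^ (-(P.α + P.β)) :=
            K30.pw hu0 hσ0 (by positivity) (by exact_mod_cast s3)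
          linarith [mul_le_mul_of_nonneg_left a5 (sq_nonneg C₂)]
      refine this.trans_eq ?_
      have e2 : (u : ℝ) ^ (1 - P.β) = u * (u : ℝ) ^ (-(P.α + P.β)) * (u : ℝ) ^ P.α := by
        rw [mul_assoc, ← Real.rpow_add hu0, show 1 - P.β = 1 + (-(P.α + P.β) + P.α) by ring,
          Real.rpow_add hu0, Real.rpow_one]
      rw [card_shell hP x (by omega), e2, hK₁, Nat.cast_mul, Nat.cast_ofNat,
        Real.mul_rpow (by norm_num) hu0.le]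
      ring
    have f2 : ∑ u ∈ Ioc t₀ n, (u : ℝ) ^ (1 - P.β) ≤ |C₃| * (1 + d : ℝ) ^ (2 - P.β) := by
      refine (hC₃ t₀ n).trans ?_
      rw [show 1 - P.β + 1 = 2 - P.β by ring]
      refine mul_le_mul (le_abs_self _) (Real.rpow_le_rpow (by positivity) ?_ (by linarith [P.hβ']))
        (by positivity) (abs_nonneg _)
      have : (n : ℝ) ≤ d := by exact_mod_cast hnd'
      linarith
    rw [split x _ h]
    refine (abs_add_le _ _).trans ?_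
    have f3 := (abs_sum_le_sum_abs _ _).trans (sum_le_sum f1)
    rw [← mul_sum] at f3
    have f4 := f3.trans (mul_le_mul_of_nonneg_left f2 (by positivity))
    refine (add_le_add f0 f4).trans (le_trans ?_ (mul_le_mul_of_nonneg_left k (by positivity)))
    have g0 : 0 ≤ (ρ : ℝ) ^ (-(2 * P.α)) := by positivity
    have g1 : K₀ ≤ (b₀ + K₀) * (1 + d : ℝ) ^ (2 - P.β) :=
      le_trans (by linarith) (le_mul_of_one_le_right (by positivity) hu1)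
    linarith [mul_le_mul_of_nonneg_right g1 g0]

end Crest.Agent.T145.Df
end

-- ▼ part T145/DfOpen_10
section

/-!
# Row 145, module Df: the regime holds at all scales in a neighbourhood (helper10)
-/

set_option autoImplicit false

namespace Crest.Agent.T145.Df

open Finset Filter Topology Nc

namespace Op10

theorem exists_nat_one_le {δ : ℝ} (hδ : 0 < δ) : ∃ n : ℕ, 1 ≤ n ∧ ∀ r : ℕ, n ≤ r → 1 ≤ δ * r := by
  obtain ⟨n, hn⟩ := exists_nat_ge (1 / δ)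
  refine ⟨n + 1, by omega, fun r hr => ?_⟩
  have h1 : (n : ℝ) ≤ r := by exact_mod_cast (by omega : n ≤ r)
  have h2 := (div_le_iff₀ hδ).1 (hn.trans h1)
  linarith

theorem tendsto_gN (hm : T1mStmt) {Λ : Lat} (h : Λ.Ok) : Tendsto Λ.gN atTop (𝓝 Λ.gI) :=
  (hm.1 Λ h).1.div_const _

theorem cont_gN (hd : T1dStmt) {Λ : Lat} (h : Λ.Ok) (l : ℕ) :
    Tendsto (fun τ => (Λ.at' τ).gN l) (𝓝 Λ.τ) (𝓝 (Λ.gN l)) :=
  (hd.2.2 Λ l h).1.continuousAt (Ioi_mem_nhds h.2)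

/-- the upper bound on the stiffness at all large scales, near `τ₀` -/
theorem upper (hm : T1mStmt) (hd : T1dStmt) {Λ : Lat} (h : Λ.Ok) {δ : ℝ} (hδ : 0 < δ) :
    ∀ᶠ l₀ : ℕ in atTop, ∀ᶠ τ in 𝓝 Λ.τ, ∀ l, l₀ ≤ l → (Λ.at' τ).gN l ≤ Λ.gI + δ := by
  have ht : 0 < (Λ.fa2 h).τ₂ := (Lat.mem_fa2 h).tau2_pos
  obtain ⟨d, hd0, H⟩ := hm.2.1 (Λ.fa2 h) (δ / 2 / (Λ.fa2 h).τ₂) (by positivity)
  obtain ⟨n, -, hn⟩ := exists_nat_one_le hd0
  obtain ⟨a, ha1, ha2⟩ := (((tendsto_gN hm h).eventually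
    (gt_mem_nhds (by linarith : Λ.gI < Λ.gI + δ / 2))).and (eventually_ge_atTop n)).exists
  filter_upwards [eventually_ge_atTop (n * a)] with l₀ hl₀
  filter_upwards [Lat.ev_mem_fa2 h, (cont_gN hd h a).eventually (gt_mem_nhds ha1)] with τ hτ h1 l hl
  have hs : Sep d a l := by
    refine ⟨hn a ha2, ?_⟩
    have h2 : (n : ℝ) * a ≤ l := by exact_mod_cast hl₀.trans hl
    have h3 := hn n le_rfl
    have h4 : (0 : ℝ) ≤ a := Nat.cast_nonneg _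
    nlinarith
  have h2 := (H _ hτ).1 a l hs
  have h3 := hτ.e0_pos
  have h4 : δ / 2 / (Λ.fa2 h).τ₂ / (Λ.at' τ).e0 ≤ δ / 2 := by
    rw [div_div, div_le_iff₀ (by positivity)]
    nlinarith [hτ.one_le_mul_e0]
  have h5 : (Λ.at' τ).gN l ≤ (Λ.at' τ).gN a + δ / 2 / (Λ.fa2 h).τ₂ / (Λ.at' τ).e0 := by
    rw [Lat.gN, Lat.gN, ← add_div]
    exact div_le_div_of_nonneg_right h2 h3.le
  linarith

/-- the kernel sum is continuous in `τ`, uniformly in the test function -/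
theorem cont_sum (hB : BumpStmt) (hE : EnStmt) {Λ : Lat} (h : Λ.Ok) (l₁ l₂ : ℕ) {ε : ℝ} (hε : 0 < ε) :
    ∀ᶠ τ in 𝓝 Λ.τ, ∀ N : ℕ, 1 ≤ N →
      |∑ w ∈ bl 0 l₁, kk (Λ.at' τ) l₂ w * UU N w - ∑ w ∈ bl 0 l₁, kk Λ l₂ w * UU N w| ≤ ε := by
  obtain ⟨C, -, hC⟩ := hB
  have h1 : Tendsto (fun τ => ∑ w ∈ bl 0 l₁, |kk (Λ.at' τ) l₂ w - kk Λ l₂ w| * (C * (nr w : ℝ) ^ 2))
      (𝓝 Λ.τ) (𝓝 (∑ w ∈ bl 0 l₁, |kk Λ l₂ w - kk Λ l₂ w| * (C * (nr w : ℝ) ^ 2))) :=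
    tendsto_finsetSum _ fun w _ =>
      ((((hE Λ h l₂ w).1.continuousAt.tendsto).sub_const _).abs).mul_const _
  simp only [sub_self, abs_zero, zero_mul, sum_const_zero] at h1
  filter_upwards [h1.eventually (gt_mem_nhds hε)] with τ hτ N hN
  rw [← sum_sub_distrib]
  refine ((abs_sum_le_sum_abs _ _).trans (sum_le_sum fun w _ => ?_)).trans hτ.le
  have h2 := (hC N hN).2.2.2.1 w
  rw [← sub_mul, abs_mul, abs_of_nonneg h2.1]
  exact mul_le_mul_of_nonneg_left h2.2 (abs_nonneg _)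

end Op10

open Op10

theorem openStmt (hR : RegStmt) (hP : RepStmt) (hU : UpStmt) (hL : LimStmt) (hB : BumpStmt)
    (hI : IdStmt) (hE : EnStmt) (hm : T1mStmt) (hd : T1dStmt) : OpenStmt := by
  intro Λ h hg
  have hg0 : 0 < Λ.gI := lt_trans (by positivity) hg
  obtain ⟨δ₀, hδ₀, HR⟩ := hR (Λ.fa2 h) Λ.gI hg
  obtain ⟨δ, hδ, hδ1, hδ2⟩ : ∃ δ, 0 < δ ∧ δ ≤ δ₀ ∧ δ ≤ Λ.gI / 2 :=
    ⟨min δ₀ (Λ.gI / 2), lt_min hδ₀ (half_pos hg0), min_le_left _ _, min_le_right _ _⟩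
  have h0 : ∀ᶠ l₀ : ℕ in atTop, ∀ l, l₀ ≤ l → |Λ.gN l - Λ.gI| < δ := by
    have := (Metric.tendsto_nhds.1 (tendsto_gN hm h)) δ hδ
    exact (eventually_forall_ge_atTop.2 this).mono fun _ h l hl => h l hl
  obtain ⟨l₀, ⟨P, M, hM, HR⟩, hup, hl₀⟩ := (HR.and ((upper hm hd h hδ).and h0)).exists
  have hΛ := Lat.mem_fa2 h
  have hR0 : ∀ L, Rg Λ P L := fun L => HR Λ hΛ L fun l h1 _ => (hl₀ l h1).le.trans hδ1
  have hε : 0 < δ / 6 := by positivity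
  obtain ⟨d, hd0, HU⟩ := hU (Λ.fa2 h) (δ / 6) hε
  obtain ⟨n, hn1, hn⟩ := exists_nat_one_le hd0
  obtain ⟨l₁, HP⟩ := (hP (Λ.fa2 h) P (4 * n * M) (δ / 6) hε).exists
  obtain ⟨l₂, HP⟩ := HP.exists
  obtain ⟨L₀, HP⟩ := eventually_atTop.1 HP
  obtain ⟨j₀, HL⟩ := eventually_atTop.1 ((Metric.tendsto_nhds.1 (hL Λ h hg0)) (δ / 6) hε)
  set L₁ := M * (L₀ + 1) + n + 2 ^ j₀ + Λ.rg with hL₁
  have hlow : ∀ᶠ τ in 𝓝 Λ.τ, ∀ l ∈ Icc l₀ L₁, Λ.gI - δ < (Λ.at' τ).gN l :=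
    (eventually_all_finset _).2 fun l hl => (cont_gN hd h l).eventually
      (lt_mem_nhds (by have := abs_lt.1 (hl₀ l (mem_Icc.1 hl).1); linarith))
  have main : ∀ᶠ τ in 𝓝 Λ.τ, (Λ.fa2 h).Mem (Λ.at' τ) ∧ 0 < (Λ.at' τ).gI ∧ ∀ L, Rg (Λ.at' τ) P L := by
    filter_upwards [Lat.ev_mem_fa2 h, hup, hlow, cont_sum hB hE h l₁ l₂ hε] with τ hτ hup hlow hc
    have key : ∀ l, l₀ ≤ l → Λ.gI - δ ≤ (Λ.at' τ).gN l := by
      by_contra hne
      push Not at hne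
      classical
      obtain ⟨h1, h2⟩ := Nat.find_spec hne
      have h3 : ∀ l, l < Nat.find hne → l₀ ≤ l → Λ.gI - δ ≤ (Λ.at' τ).gN l := fun l hl h =>
        not_lt.1 fun h' => Nat.find_min hne hl ⟨h, h'⟩
      generalize Nat.find hne = s at h1 h2 h3
      have h4 : L₁ < s := not_le.1 fun h' => (hlow s (mem_Icc.2 ⟨h1, h'⟩)).not_gt h2
      have hpos : 1 ≤ 2 ^ j₀ := Nat.one_le_two_pow
      obtain ⟨L, hL1, hL2⟩ : ∃ L, M * L < s ∧ s ≤ M * (L + 1) := by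
        refine ⟨(s - 1) / M, ?_, ?_⟩
        · have := Nat.mul_div_le (s - 1) M; omega
        · have := Nat.lt_mul_div_succ (s - 1) hM; omega
      have hL3 : L₀ + 1 ≤ L := by
        by_contra h'
        have := Nat.mul_le_mul_left M (by omega : L + 1 ≤ L₀ + 1)
        omega
      have hRg : Rg (Λ.at' τ) P L := HR _ hτ L fun l h5 h6 => by
        have := h3 l (by omega) h5
        have := hup l h5
        exact abs_le.2 ⟨by linarith, by linarith⟩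
      have hns : s ≤ n * s := Nat.le_mul_of_pos_left s hn1
      obtain ⟨j, hj1, hj2⟩ : ∃ j, n * s ≤ 2 ^ j ∧ 2 ^ j ≤ 2 * (n * s) := by
        obtain ⟨j, h1, h2⟩ := exists_nat_pow_near (by omega : 1 ≤ n * s) (by norm_num : 1 < 2)
        exact ⟨j + 1, h2.le, by rw [pow_succ]; omega⟩
      have hLM : L ≤ M * L := Nat.le_mul_of_pos_left L hM
      have hN1 : L ≤ 2 ^ j := by omega
      have hN2 : 2 ^ j ≤ 4 * n * M * L := by
        have a1 : M * (L + 1) ≤ M * (2 * L) := Nat.mul_le_mul_left M (by omega)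
        have a2 : n * s ≤ n * (M * (2 * L)) := Nat.mul_le_mul_left n (hL2.trans a1)
        calc 2 ^ j ≤ 2 * (n * (M * (2 * L))) := by omega
          _ = 4 * n * M * L := by ring
      have hj : j₀ ≤ j := (Nat.pow_le_pow_iff_right (by norm_num : 1 < 2)).1 (by omega)
      have hs : Sep d s (2 ^ j) := by
        refine ⟨hn s (by omega), ?_⟩
        have b1 : (n : ℝ) * s ≤ ((2 ^ j : ℕ) : ℝ) := by exact_mod_cast hj1
        have b2 := hn n le_rfl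
        have b3 : (0 : ℝ) ≤ s := Nat.cast_nonneg _
        nlinarith
      have e1 := abs_le.1 (HP L (by omega) _ hτ hRg _ hN1 hN2)
      have e2 := abs_le.1 (HP L (by omega) _ hΛ (hR0 L) _ hN1 hN2)
      have e3 := abs_le.1 (hc (2 ^ j) (by omega))
      have e4 : VJ (Λ.at' τ) (2 ^ j) ≤ Λ.a * (Λ.at' τ).gN s * EE Λ.J (2 ^ j) + δ / 6 :=
        HU _ hτ s _ hs
      have e5 := HL j hj
      rw [Real.dist_0_eq_abs] at e5
      have e5 := abs_lt.1 e5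
      have e6 : 1 ≤ EE Λ.J (2 ^ j) := ((hI Λ h).2 _ (by omega)).2.1
      have e7 : 1 ≤ Λ.a * EE Λ.J (2 ^ j) := one_le_mul_of_one_le_of_one_le h.one_le_a e6
      have e8 : Λ.a * EE Λ.J (2 ^ j) * (Λ.at' τ).gN s ≤ Λ.a * EE Λ.J (2 ^ j) * (Λ.gI - δ) :=
        mul_le_mul_of_nonneg_left h2.le (by linarith)
      have e9 : δ ≤ Λ.a * EE Λ.J (2 ^ j) * δ := le_mul_of_one_le_left hδ.le e7
      nlinarith
    refine ⟨hτ, ?_, fun L => HR _ hτ L fun l h1 _ => ?_⟩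
    · have : Λ.gI - δ ≤ (Λ.at' τ).gI :=
        ge_of_tendsto (tendsto_gN hm hτ.ok) (eventually_atTop.2 ⟨l₀, key⟩)
      linarith
    · have := key l h1
      have := hup l h1
      exact abs_le.2 ⟨by linarith, by linarith⟩
  obtain ⟨η, hη, H⟩ := Metric.eventually_nhds_iff.1 main
  exact ⟨Λ.fa2 h, P, η, hη, fun τ hτ => H hτ⟩

end Crest.Agent.T145.Df
end

-- ▼ part T145/DfQuad_41
section

/-!
# Row 145, module Df: the deterministic quadratic-form estimate `QuadStmt` (helper41)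
-/

set_option autoImplicit false

namespace Crest.Agent.T145.Df

open Finset Filter Topology Nc

namespace Q41

theorem nr_add (x y : Pt) : nr (x + y) ≤ nr x + nr y := by
  simp only [nr, Prod.fst_add, Prod.snd_add]; omega

theorem nr_sub_le (x y : Pt) : nr (x - y) ≤ nr x + nr y := by
  simp only [nr, Prod.fst_sub, Prod.snd_sub]; omega

theorem nr_comm (x y : Pt) : nr (x - y) = nr (y - x) := by
  simp only [nr, Prod.fst_sub, Prod.snd_sub]; omega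

theorem nr_le_sub (x y : Pt) : nr x ≤ nr (x - y) + nr y := by
  simp only [nr, Prod.fst_sub, Prod.snd_sub]; omega

/-- the symmetric weight -/
def Ps (u c : Pt → ℝ) (x y : Pt) : ℝ := u x ^ 2 * c y + u y ^ 2 * c x - 2 * (u x * u y)

theorem ident (B : Finset Pt) (K : Pt → Pt → ℝ) (hK : ∀ x y, K x y = K y x) (u c : Pt → ℝ) :
    ∑ x ∈ B, ∑ y ∈ B, u x * u y * K x y =
      ∑ x ∈ B, u x ^ 2 * ∑ y ∈ B, c y * K x y - (∑ x ∈ B, ∑ y ∈ B, K x y * Ps u c x y) / 2 := by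
  have h1 : ∑ x ∈ B, ∑ y ∈ B, K x y * (u y ^ 2 * c x) = ∑ x ∈ B, ∑ y ∈ B, K x y * (u x ^ 2 * c y) := by
    rw [sum_comm]
    exact sum_congr rfl fun x _ => sum_congr rfl fun y _ => by rw [hK]
  have h2 : ∑ x ∈ B, u x ^ 2 * ∑ y ∈ B, c y * K x y = ∑ x ∈ B, ∑ y ∈ B, K x y * (u x ^ 2 * c y) := by
    refine sum_congr rfl fun x _ => ?_
    rw [mul_sum]
    exact sum_congr rfl fun y _ => by ring
  have h3 : ∑ x ∈ B, ∑ y ∈ B, K x y * Ps u c x y =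
      ∑ x ∈ B, ∑ y ∈ B, K x y * (u x ^ 2 * c y) + ∑ x ∈ B, ∑ y ∈ B, K x y * (u y ^ 2 * c x) -
        2 * ∑ x ∈ B, ∑ y ∈ B, u x * u y * K x y := by
    rw [mul_sum, ← sum_add_distrib, ← sum_sub_distrib]
    refine sum_congr rfl fun x _ => ?_
    rw [mul_sum, ← sum_add_distrib, ← sum_sub_distrib]
    exact sum_congr rfl fun y _ => by simp only [Ps]; ring
  rw [h3, h1, h2]; ring

/-- the facts on the two bumps that are used -/
structure Bp (u c : Pt → ℝ) (C : ℝ) (N : ℕ) : Prop where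
  u1 : ∀ x, |u x| ≤ 1
  c1 : ∀ x, |c x| ≤ 1
  us : ∀ x, u x ≠ 0 → nr x < 2 * N
  co : ∀ x, nr x ≤ 3 * N → c x = 1
  lip : ∀ x y, |u x - u y| ≤ C * nr (x - y) / N

variable {u c : Pt → ℝ} {C : ℝ} {N : ℕ}

theorem Bp.near (h : Bp u c C N) {x y : Pt} (hd : nr (x - y) ≤ N) : Ps u c x y = (u y - u x) ^ 2 := by
  have e1 : u x ^ 2 * c y = u x ^ 2 := by
    by_cases hx : u x = 0
    · simp [hx]
    · have := h.us x hx
      have h2 := nr_le_sub y x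
      rw [nr_comm y x] at h2
      rw [h.co y (by omega), mul_one]
  have e2 : u y ^ 2 * c x = u y ^ 2 := by
    by_cases hy : u y = 0
    · simp [hy]
    · have := h.us y hy
      have h2 := nr_le_sub x y
      rw [h.co x (by omega), mul_one]
  simp only [Ps, e1, e2]; ring

theorem Bp.supp (h : Bp u c C N) {x y : Pt} (h0 : Ps u c x y ≠ 0) : nr x < 2 * N ∨ nr y < 2 * N := by
  by_contra hc
  push Not at hc
  have hx : u x = 0 := by by_contra hx; have := h.us x hx; omega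
  have hy : u y = 0 := by by_contra hy; have := h.us y hy; omega
  exact h0 (by simp [Ps, hx, hy])

theorem Bp.ps_le (h : Bp u c C N) (hN : 1 ≤ N) (x y : Pt) :
    |Ps u c x y| ≤ (C ^ 2 + 4) * (nr (x - y) : ℝ) ^ 2 / (N : ℝ) ^ 2 := by
  have hN' : (0 : ℝ) < N := by exact_mod_cast hN
  have hd0 : (0 : ℝ) ≤ (nr (x - y) : ℝ) ^ 2 / (N : ℝ) ^ 2 := by positivity
  rw [mul_div_assoc]
  by_cases hd : nr (x - y) ≤ N
  · rw [h.near hd, abs_of_nonneg (sq_nonneg _), ← sq_abs, abs_sub_comm]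
    have h1 := h.lip x y
    have h2 : |u x - u y| ^ 2 ≤ (C * nr (x - y) / N) ^ 2 := pow_le_pow_left₀ (abs_nonneg _) h1 2
    have h3 : (C * nr (x - y) / N) ^ 2 = C ^ 2 * ((nr (x - y) : ℝ) ^ 2 / (N : ℝ) ^ 2) := by ring
    rw [h3] at h2
    nlinarith
  · have h1 : (1 : ℝ) ≤ (nr (x - y) : ℝ) ^ 2 / (N : ℝ) ^ 2 := by
      rw [le_div_iff₀ (by positivity), one_mul]
      have : (N : ℝ) ≤ nr (x - y) := by exact_mod_cast (by omega : N ≤ nr (x - y))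
      exact pow_le_pow_left₀ hN'.le this 2
    have a1 : |u x ^ 2 * c y| ≤ 1 := by
      rw [abs_mul, abs_pow]
      exact mul_le_one₀ (pow_le_one₀ (abs_nonneg _) (h.u1 x)) (abs_nonneg _) (h.c1 y)
    have a2 : |u y ^ 2 * c x| ≤ 1 := by
      rw [abs_mul, abs_pow]
      exact mul_le_one₀ (pow_le_one₀ (abs_nonneg _) (h.u1 y)) (abs_nonneg _) (h.c1 x)
    have a3 : |u x * u y| ≤ 1 := by
      rw [abs_mul]
      exact mul_le_one₀ (h.u1 x) (abs_nonneg _) (h.u1 y)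
    have a4 : |Ps u c x y| ≤ 4 := by
      simp only [Ps]
      rw [abs_le] at a1 a2 a3 ⊢
      constructor <;> linarith [a1.1, a1.2, a2.1, a2.2, a3.1, a3.2]
    nlinarith [sq_nonneg C]

/-- the radial weight of the far part -/
theorem wt_le {p : ℝ} (hp : 0 < p) {t L : ℕ} (ht : 1 ≤ t) (hL : 1 ≤ L) :
    (1 + (min t L : ℕ) : ℝ) ^ (-p) ≤ (t : ℝ) ^ (-p) + (L : ℝ) ^ (-p) := by
  have ht' : (0 : ℝ) < t := by exact_mod_cast ht
  have hL' : (0 : ℝ) < L := by exact_mod_cast hL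
  have p1 : 0 ≤ (t : ℝ) ^ (-p) := by positivity
  have p2 : 0 ≤ (L : ℝ) ^ (-p) := by positivity
  rcases le_total t L with h | h
  · rw [min_eq_left h]
    have : (1 + (t : ℝ)) ^ (-p) ≤ (t : ℝ) ^ (-p) :=
      Real.rpow_le_rpow_of_nonpos ht' (by linarith) (by linarith)
    linarith
  · rw [min_eq_right h]
    have : (1 + (L : ℝ)) ^ (-p) ≤ (L : ℝ) ^ (-p) :=
      Real.rpow_le_rpow_of_nonpos hL' (by linarith) (by linarith)
    linarith

/-- the radial sum of the far part -/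
theorem rad_le {p C₁ : ℝ} (hp : 4 < p)
    (h1 : ∀ r R : ℕ, 1 ≤ r → ∑ t ∈ Ioc r R, (t : ℝ) ^ (-(p - 3)) ≤ C₁ * (r : ℝ) ^ (1 - (p - 3)))
    {l L N : ℕ} (hl : 1 ≤ l) (hL : 1 ≤ L) :
    ∑ t ∈ Ioc l (8 * N), 8 * (t : ℝ) * ((1 + (min t L : ℕ) : ℝ) ^ (-p) * (t : ℝ) ^ 2) ≤
      8 * C₁ * (l : ℝ) ^ (4 - p) + 8 * 8 ^ 4 * ((N : ℝ) ^ 4 * (L : ℝ) ^ (-p)) := by
  have hL' : (0 : ℝ) < L := by exact_mod_cast hL
  have p2 : 0 ≤ (L : ℝ) ^ (-p) := by positivity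
  have hb : ∀ t ∈ Ioc l (8 * N), 8 * (t : ℝ) * ((1 + (min t L : ℕ) : ℝ) ^ (-p) * (t : ℝ) ^ 2) ≤
      8 * (t : ℝ) ^ (-(p - 3)) + 8 * (8 * (N : ℝ)) ^ 3 * (L : ℝ) ^ (-p) := by
    intro t ht
    rw [mem_Ioc] at ht
    have ht1 : 1 ≤ t := by omega
    have ht' : (0 : ℝ) < t := by exact_mod_cast ht1
    have hw := wt_le (p := p) (by linarith) ht1 hL
    have e : (t : ℝ) ^ (-(p - 3)) = (t : ℝ) ^ (-p) * (t : ℝ) ^ 3 := by
      rw [← Real.rpow_natCast, ← Real.rpow_add ht']; congr 1; push_cast; ring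
    have h3 : (t : ℝ) ^ 3 ≤ (8 * (N : ℝ)) ^ 3 :=
      pow_le_pow_left₀ ht'.le (by exact_mod_cast ht.2) 3
    have h4 : 0 ≤ (t : ℝ) ^ 3 := by positivity
    calc 8 * (t : ℝ) * ((1 + (min t L : ℕ) : ℝ) ^ (-p) * (t : ℝ) ^ 2)
        = 8 * ((1 + (min t L : ℕ) : ℝ) ^ (-p) * (t : ℝ) ^ 3) := by ring
      _ ≤ 8 * (((t : ℝ) ^ (-p) + (L : ℝ) ^ (-p)) * (t : ℝ) ^ 3) := by gcongr
      _ = 8 * (t : ℝ) ^ (-(p - 3)) + 8 * (t : ℝ) ^ 3 * (L : ℝ) ^ (-p) := by rw [e]; ring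
      _ ≤ _ := by gcongr
  refine (sum_le_sum hb).trans ?_
  rw [sum_add_distrib, ← mul_sum, sum_const, nsmul_eq_mul]
  have h5 := h1 l (8 * N) hl
  have e5 : (1 - (p - 3)) = 4 - p := by ring
  rw [e5] at h5
  have h6 : ((Ioc l (8 * N)).card : ℝ) ≤ 8 * N := by
    rw [Nat.card_Ioc]
    exact_mod_cast Nat.sub_le _ _
  have h7 : ((Ioc l (8 * N)).card : ℝ) * (8 * (8 * (N : ℝ)) ^ 3 * (L : ℝ) ^ (-p)) ≤
      8 * N * (8 * (8 * (N : ℝ)) ^ 3 * (L : ℝ) ^ (-p)) := by gcongr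
  have e7 : 8 * N * (8 * (8 * (N : ℝ)) ^ 3 * (L : ℝ) ^ (-p)) =
      8 * 8 ^ 4 * ((N : ℝ) ^ 4 * (L : ℝ) ^ (-p)) := by ring
  linarith

section
variable (hb : ∀ (z x : Pt) (r : ℕ), x ∈ bl z r ↔ nr (x - z) ≤ r)
include hb

theorem mem0 {x : Pt} {r : ℕ} : x ∈ bl 0 r ↔ nr x ≤ r := by rw [hb, sub_zero]

/-- the near part is a sum over `x ∈ bl 0 (3 N)`, `w ∈ bl 0 l` -/
theorem near_eq (h : Bp u c C N) (K : Pt → Pt → ℝ) {l : ℕ} (hl : l ≤ N) :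
    ∑ x ∈ bl 0 (4 * N), ∑ y ∈ (bl 0 (4 * N)).filter (fun y => nr (y - x) ≤ l), K x y * Ps u c x y =
      ∑ x ∈ bl 0 (3 * N), ∑ w ∈ bl 0 l, K x (x + w) * (u (x + w) - u x) ^ 2 := by
  symm
  have hsub : bl (0 : Pt) (3 * N) ⊆ bl 0 (4 * N) := fun x hx => by
    rw [mem0 hb] at hx ⊢; omega
  rw [← sum_subset hsub]
  · refine sum_congr rfl fun x hx => ?_
    rw [mem0 hb] at hx
    refine sum_nbij' (fun w => x + w) (fun y => y - x) ?_ ?_ ?_ ?_ ?_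
    · intro w hw
      rw [mem0 hb] at hw
      have := nr_add x w
      rw [mem_filter, mem0 hb, add_sub_cancel_left]
      omega
    · intro y hy
      rw [mem_filter] at hy
      rw [mem0 hb]; exact hy.2
    · intro w _; simp
    · intro y _; simp
    · intro w hw
      rw [mem0 hb] at hw
      rw [h.near]
      rw [nr_comm, add_sub_cancel_left]; omega
  · intro x _ hx
    rw [mem0 hb] at hx
    refine sum_eq_zero fun y hy => ?_
    rw [mem_filter] at hy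
    by_contra h0
    have h1 := h.supp (right_ne_zero_of_mul h0)
    have h2 := nr_le_sub x y
    rw [nr_comm x y] at h2
    omega

/-- the far part -/
theorem far_le (h : Bp u c C N) (hN : 1 ≤ N) {K : Pt → Pt → ℝ} (hK : ∀ x y, K x y = K y x) {A : ℝ} (hA : 0 ≤ A)
    {g : ℕ → ℝ} (hg : ∀ t, 0 ≤ g t)
    (hb1 : ∀ x ∈ bl 0 (4 * N), ∀ y ∈ bl 0 (4 * N), nr x < 2 * N → |K x y| ≤ A * g (nr (x - y)))
    (hs : ∀ (z : Pt) (r R : ℕ) (f : ℕ → ℝ),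
      ∑ x ∈ an z r R, f (nr (x - z)) = ∑ t ∈ Ioc r R, 8 * (t : ℝ) * f t) (l : ℕ) {x : Pt}
    (hx : x ∈ bl 0 (4 * N)) :
    |∑ y ∈ (bl 0 (4 * N)).filter (fun y => ¬ nr (y - x) ≤ l), K x y * Ps u c x y| ≤
      A * (C ^ 2 + 4) / (N : ℝ) ^ 2 * ∑ t ∈ Ioc l (8 * N), 8 * (t : ℝ) * (g t * (t : ℝ) ^ 2) := by
  rw [← hs x l (8 * N) fun t => g t * (t : ℝ) ^ 2, mul_sum]
  refine (abs_sum_le_sum_abs _ _).trans ?_
  have hsub : (bl 0 (4 * N)).filter (fun y => ¬ nr (y - x) ≤ l) ⊆ an x l (8 * N) := by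
    intro y hy
    rw [mem_filter, mem0 hb] at hy
    rw [mem0 hb] at hx
    have := nr_sub_le y x
    rw [an, Finset.mem_sdiff, hb, hb]
    omega
  refine le_trans (sum_le_sum fun y hy => ?_) (sum_le_sum_of_subset_of_nonneg hsub fun y _ _ => ?_)
  · rw [mem_filter] at hy
    by_cases h0 : Ps u c x y = 0
    · rw [h0, mul_zero, abs_zero]
      have := hg (nr (y - x))
      positivity
    · have hk : |K x y| ≤ A * g (nr (y - x)) := by
        rcases h.supp h0 with h1 | h1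
        · rw [nr_comm]; exact hb1 x hx y hy.1 h1
        · rw [hK]; exact hb1 y hy.1 x hx h1
      have hP := h.ps_le hN x y
      rw [nr_comm] at hP
      have := hg (nr (y - x))
      rw [abs_mul]
      calc |K x y| * |Ps u c x y|
          ≤ (A * g (nr (y - x))) * ((C ^ 2 + 4) * (nr (y - x) : ℝ) ^ 2 / (N : ℝ) ^ 2) :=
            mul_le_mul hk hP (abs_nonneg _) (by positivity)
        _ = _ := by ring
  · have := hg (nr (y - x))
    positivity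

end

theorem fin_le {C D E T₁ T₂ T₃ T₄ a b c d : ℝ} (hC : 0 ≤ C) (hD : 0 ≤ D) (hE : 0 ≤ E) (t1 : 0 ≤ T₁)
    (t2 : 0 ≤ T₂) (t3 : 0 ≤ T₃) (t4 : 0 ≤ T₄) (b1 : |a| ≤ 25 * T₁) (b2 : |d - b| ≤ 9 * C * T₂)
    (b3 : |c| ≤ E * (8 * D * T₃ + 8 * 8 ^ 4 * T₄)) :
    |a - (b + c) / 2 + d / 2| ≤ (25 + 9 * C + E * (8 * D + 8 * 8 ^ 4)) * (T₁ + T₂ + T₃ + T₄) := by
  rw [abs_le] at b1 b2 b3 ⊢
  have m1 : 0 ≤ C * T₁ := by positivity
  have m2 : 0 ≤ C * T₂ := by positivity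
  have m3 : 0 ≤ C * T₃ := by positivity
  have m4 : 0 ≤ C * T₄ := by positivity
  have n1 : 0 ≤ E * T₁ := by positivity
  have n2 : 0 ≤ E * T₂ := by positivity
  have n3 : 0 ≤ E * T₃ := by positivity
  have n4 : 0 ≤ E * T₄ := by positivity
  have o1 : 0 ≤ E * D * T₁ := by positivity
  have o2 : 0 ≤ E * D * T₂ := by positivity
  have o3 : 0 ≤ E * D * T₃ := by positivity
  have o4 : 0 ≤ E * D * T₄ := by positivity
  have e : (25 + 9 * C + E * (8 * D + 8 * 8 ^ 4)) * (T₁ + T₂ + T₃ + T₄) =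
      25 * (T₁ + T₂ + T₃ + T₄) + 9 * (C * T₁ + C * T₂ + C * T₃ + C * T₄) +
      8 * (E * D * T₁ + E * D * T₂ + E * D * T₃ + E * D * T₄) +
      8 * 8 ^ 4 * (E * T₁ + E * T₂ + E * T₃ + E * T₄) := by ring
  have e2 : 9 * C * T₂ = 9 * (C * T₂) := by ring
  have e3 : E * (8 * D * T₃ + 8 * 8 ^ 4 * T₄) = 8 * (E * D * T₃) + 8 * 8 ^ 4 * (E * T₄) := by ring
  rw [e2] at b2
  rw [e3] at b3
  rw [e]
  constructor <;> linarith [b1.1, b1.2, b2.1, b2.2, b3.1, b3.2]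

end Q41

open Q41 in
theorem quadStmt (hA : AlgStmt) (hP : PwStmt) (hB : BumpStmt) : QuadStmt := by
  intro p hp
  obtain ⟨hb, -, -⟩ := hA
  obtain ⟨hs, hcard, hp1, -, -⟩ := hP
  obtain ⟨C, hC, hB⟩ := hB
  obtain ⟨C₁, hC₁⟩ := hp1 (p - 3) (by linarith)
  refine ⟨25 + 9 * C + 81 * (C ^ 2 + 4) * (8 * |C₁| + 8 * 8 ^ 4), ?_⟩
  intro K k A η₁ η₂ l L N hl hlL hLN hK h1 h2 h3
  have hN : 1 ≤ N := by omega
  have hN' : (1 : ℝ) ≤ N := by exact_mod_cast hN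
  have hl' : (1 : ℝ) ≤ l := by exact_mod_cast hl
  have hL' : (0 : ℝ) < L := by exact_mod_cast (by omega : 0 < L)
  obtain ⟨-, hB1, hB2, hB3, -⟩ := hB N hN
  have h : Bp (ub N) (ch N) C N :=
    ⟨fun x => (hB1 x).1, fun x => (hB1 x).2.1, fun x => (hB1 x).2.2.1, fun x => (hB1 x).2.2.2.2,
      fun x y => (hB2 x y).1⟩
  have z0 : ∀ r : ℕ, (0 : Pt) ∈ bl 0 r := fun r => by rw [mem0 hb]; simp [nr]
  have hA0 : 0 ≤ A := by
    have := (abs_nonneg _).trans (h1 0 (z0 _) 0 (z0 _) (by simp [nr]; omega))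
    exact nonneg_of_mul_nonneg_left this (by positivity)
  have hη₁ : 0 ≤ η₁ := (abs_nonneg _).trans (h2 0 (z0 _))
  have hη₂ : 0 ≤ η₂ := (abs_nonneg _).trans (h3 0 (z0 _) 0 (z0 _))
  have hsub : bl (0 : Pt) (2 * N) ⊆ bl 0 (4 * N) := fun x hx => by
    rw [mem0 hb] at hx ⊢; omega
  have hu0 : ∀ x, x ∉ bl (0 : Pt) (2 * N) → ub N x = 0 := fun x hx => by
    rw [mem0 hb] at hx
    by_contra h0
    have := h.us x h0
    omega
  -- the double sum over the big box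
  have e1 : ∑ x ∈ bl 0 (2 * N), ∑ y ∈ bl 0 (2 * N), ub N x * ub N y * K x y =
      ∑ x ∈ bl 0 (4 * N), ∑ y ∈ bl 0 (4 * N), ub N x * ub N y * K x y := by
    rw [← sum_subset hsub fun x _ hx => sum_eq_zero fun y _ => by rw [hu0 x hx]; ring]
    exact sum_congr rfl fun x _ => sum_subset hsub fun y _ hy => by rw [hu0 y hy]; ring
  have e2 : ∑ x ∈ bl 0 (4 * N), ub N x ^ 2 * ∑ y ∈ bl 0 (4 * N), ch N y * K x y =
      ∑ x ∈ bl 0 (2 * N), ub N x ^ 2 * ∑ y ∈ bl 0 (4 * N), ch N y * K x y :=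
    (sum_subset hsub fun x _ hx => by rw [hu0 x hx]; ring).symm
  have e3 : ∑ x ∈ bl 0 (4 * N), ∑ y ∈ bl 0 (4 * N), K x y * Ps (ub N) (ch N) x y =
      ∑ x ∈ bl 0 (3 * N), ∑ w ∈ bl 0 l, K x (x + w) * (ub N (x + w) - ub N x) ^ 2 +
      ∑ x ∈ bl 0 (4 * N), ∑ y ∈ (bl 0 (4 * N)).filter (fun y => ¬ nr (y - x) ≤ l),
        K x y * Ps (ub N) (ch N) x y := by
    rw [← near_eq hb h K (hlL.trans hLN), ← sum_add_distrib]
    exact sum_congr rfl fun x _ => (sum_filter_add_sum_filter_not _ _ _).symm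
  -- first term
  have b1 : |∑ x ∈ bl 0 (2 * N), ub N x ^ 2 * ∑ y ∈ bl 0 (4 * N), ch N y * K x y| ≤
      25 * ((N : ℝ) ^ 2 * η₁) := by
    refine (abs_sum_le_sum_abs _ _).trans ((sum_le_card_nsmul _ _ η₁ fun x hx => ?_).trans ?_)
    · rw [abs_mul, abs_pow]
      have a := pow_le_one₀ (n := 2) (abs_nonneg _) (h.u1 x)
      have b := h2 x hx
      calc _ ≤ 1 * η₁ := mul_le_mul a b (abs_nonneg _) zero_le_one
        _ = η₁ := one_mul _
    · rw [nsmul_eq_mul, hcard, ← mul_assoc]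
      refine mul_le_mul_of_nonneg_right ?_ hη₁
      push_cast
      nlinarith
  -- near term
  have b2 : |∑ w ∈ bl 0 l, k w * UU N w -
      ∑ x ∈ bl 0 (3 * N), ∑ w ∈ bl 0 l, K x (x + w) * (ub N (x + w) - ub N x) ^ 2| ≤
      9 * C * ((l : ℝ) ^ 4 * η₂) := by
    rw [sum_comm, ← sum_sub_distrib]
    refine (abs_sum_le_sum_abs _ _).trans
      ((sum_le_card_nsmul _ _ (η₂ * (C * (l : ℝ) ^ 2)) fun w hw => ?_).trans ?_)
    · have hw' : (nr w : ℝ) ≤ l := by exact_mod_cast (mem0 hb).1 hw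
      have hU : UU N w ≤ C * (l : ℝ) ^ 2 := (hB3 w).2.trans (by gcongr)
      refine le_trans ?_ (mul_le_mul_of_nonneg_left hU hη₂)
      simp only [UU]
      rw [mul_sum, mul_sum, ← sum_sub_distrib]
      refine (abs_sum_le_sum_abs _ _).trans (sum_le_sum fun x hx => ?_)
      rw [← sub_mul, abs_mul, abs_of_nonneg (sq_nonneg (ub N (x + w) - ub N x)), abs_sub_comm]
      exact mul_le_mul_of_nonneg_right (h3 x hx w hw) (sq_nonneg _)
    · rw [nsmul_eq_mul, hcard]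
      have a : (2 * (l : ℝ) + 1) ^ 2 ≤ 9 * (l : ℝ) ^ 2 := by nlinarith
      calc _ ≤ 9 * (l : ℝ) ^ 2 * (η₂ * (C * (l : ℝ) ^ 2)) := by gcongr
        _ = _ := by ring
  -- far term
  have q1 : 0 ≤ (l : ℝ) ^ (4 - p) := by positivity
  have q2 : 0 ≤ (N : ℝ) ^ 4 * (L : ℝ) ^ (-p) := by positivity
  have b3 : |∑ x ∈ bl 0 (4 * N), ∑ y ∈ (bl 0 (4 * N)).filter (fun y => ¬ nr (y - x) ≤ l),
        K x y * Ps (ub N) (ch N) x y| ≤
      81 * (C ^ 2 + 4) * (8 * |C₁| * (A * (l : ℝ) ^ (4 - p)) +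
        8 * 8 ^ 4 * (A * (N : ℝ) ^ 4 * (L : ℝ) ^ (-p))) := by
    have hr := rad_le (N := N) hp hC₁ hl (hl.trans hlL)
    have hr' : ∑ t ∈ Ioc l (8 * N), 8 * (t : ℝ) * ((1 + (min t L : ℕ) : ℝ) ^ (-p) * (t : ℝ) ^ 2) ≤
        8 * |C₁| * (l : ℝ) ^ (4 - p) + 8 * 8 ^ 4 * ((N : ℝ) ^ 4 * (L : ℝ) ^ (-p)) := by
      refine hr.trans ?_
      have := le_abs_self C₁
      gcongr
    refine (abs_sum_le_sum_abs _ _).trans ((sum_le_card_nsmul _ _
      (A * (C ^ 2 + 4) / (N : ℝ) ^ 2 *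
        (8 * |C₁| * (l : ℝ) ^ (4 - p) + 8 * 8 ^ 4 * ((N : ℝ) ^ 4 * (L : ℝ) ^ (-p)))) fun x hx => ?_).trans ?_)
    · refine (far_le hb h hN hK hA0 (g := fun t => (1 + (min t L : ℕ) : ℝ) ^ (-p))
        (fun t => by positivity) h1 hs l hx).trans ?_
      exact mul_le_mul_of_nonneg_left hr' (by positivity)
    · rw [nsmul_eq_mul, hcard]
      have a : (2 * ((4 * N : ℕ) : ℝ) + 1) ^ 2 ≤ 81 * (N : ℝ) ^ 2 := by push_cast; nlinarith
      calc _ ≤ 81 * (N : ℝ) ^ 2 * (A * (C ^ 2 + 4) / (N : ℝ) ^ 2 *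
            (8 * |C₁| * (l : ℝ) ^ (4 - p) + 8 * 8 ^ 4 * ((N : ℝ) ^ 4 * (L : ℝ) ^ (-p)))) := by gcongr
        _ = _ := by field_simp
  rw [e1, ident _ K hK (ub N) (ch N), e2, e3]
  exact fin_le (by linarith) (abs_nonneg _) (by positivity) (by positivity) (by positivity) (by positivity)
    (by positivity) b1 b2 b3

end Crest.Agent.T145.Df
end

-- ▼ part T145/DfReg_70
section

/-!
# Row 145, module Df (helper70): the regime from T4, K-ODD and K-EVEN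
-/

set_option autoImplicit false

namespace Crest.Agent.T145.Df

open Finset Filter Topology Nc Real

namespace Reg70

/-- iteration of a one step contraction -/
theorem iter {f : ℕ → ℝ} {B lo R : ℕ} {a : ℝ} (hB : 2 ≤ B) (ha : 0 ≤ a) (ha3 : a ≤ 3) (hlo : 1 ≤ lo)
    (h0 : ∀ ρ, 0 ≤ f ρ) (h1 : ∀ ρ, lo ≤ ρ → B * ρ ≤ R → (B : ℝ) ^ a * f (B * ρ) ≤ f ρ)
    (h2 : ∀ ρ, lo ≤ ρ → ρ ≤ R → f R ≤ 2 * f ρ) (hR : lo ≤ R) :
    f R ≤ 2 * (B : ℝ) ^ 3 * ((lo : ℝ) / R) ^ a * f lo := by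
  have B0 : (0 : ℝ) < B := by exact_mod_cast (by omega : 0 < B)
  have B1 : (1 : ℝ) ≤ B := by exact_mod_cast (by omega : 1 ≤ B)
  have R0 : (0 : ℝ) < R := by exact_mod_cast (by omega : 0 < R)
  have key : ∀ j r : ℕ, lo ≤ r → r ≤ R → R < B ^ j * r →
      f R ≤ 2 * (B : ℝ) ^ 3 * ((r : ℝ) / R) ^ a * f r := by
    intro j
    induction j with
    | zero => intro r _ h h'; simp only [pow_zero, one_mul] at h'; omega
    | succ j ih =>
      intro r hr hrR hj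
      have r0 : (0 : ℝ) < r := by exact_mod_cast (by omega : 0 < r)
      by_cases hc : B * r ≤ R
      · have hle : r ≤ B * r := Nat.le_mul_of_pos_left _ (by omega)
        have := ih (B * r) (hr.trans hle) hc (by rwa [pow_succ, mul_assoc] at hj)
        refine this.trans ?_
        have e : (((B * r : ℕ) : ℝ) / R) ^ a = ((r : ℝ) / R) ^ a * (B : ℝ) ^ a := by
          rw [← mul_rpow (by positivity) B0.le]; congr 1; push_cast; ring
        rw [e, ← mul_assoc, mul_assoc _ ((B : ℝ) ^ a)]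
        exact mul_le_mul_of_nonneg_left (h1 r hr hc) (by positivity)
      · refine (h2 r hr hrR).trans ?_
        refine mul_le_mul_of_nonneg_right ?_ (h0 r)
        have l1 : (B : ℝ)⁻¹ ≤ (r : ℝ) / R := by
          rw [inv_eq_one_div, div_le_div_iff₀ B0 R0]
          have : (R : ℝ) ≤ B * r := by exact_mod_cast (by omega : R ≤ B * r)
          linarith
        have l2 : ((B : ℝ)⁻¹) ^ (3 : ℝ) ≤ ((r : ℝ) / R) ^ a :=
          (rpow_le_rpow_of_exponent_ge (by positivity) (inv_le_one_of_one_le₀ B1) ha3).trans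
            (rpow_le_rpow (by positivity) l1 ha)
        rw [show (3 : ℝ) = ((3 : ℕ) : ℝ) by norm_num, rpow_natCast, inv_pow] at l2
        have := mul_le_mul_of_nonneg_left l2 (by positivity : 0 ≤ (B : ℝ) ^ 3)
        rw [mul_inv_cancel₀ (by positivity)] at this
        rw [mul_assoc]
        linarith
  refine key R lo le_rfl hR ?_
  have := Nat.lt_pow_self (n := R) (show 1 < B by omega)
  calc R < B ^ R := this
    _ ≤ B ^ R * lo := Nat.le_mul_of_pos_right _ (by omega)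

variable {Λ : Lat} {z : Pt} {c : ℕ} {F X Y : Cfg Pt → ℝ}

theorem nm_tri (hΛ : Λ.Ok) (hI : In Λ z c X) {K : ℝ} (hY : ∀ s, |Y s| ≤ K) :
    Nm Λ z c X ≤ Nm Λ z c (fun s => X s - Y s) + K := by
  have hW := (hΛ.cen_Nr_bl (self_mem_bl z c)).wt
  have hJ : Ig ((Λ.Nr (bl z c) z).W 0) fun s => |X s - Y s| :=
    (Ig.sub hI (hW.ig_bdd hY)).abs hW.nonneg
  have := Ex_add hJ (hW.ig_const K)
  rw [hW.ex_const] at this
  refine le_trans ?_ this.le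
  refine Ex_mono' hW.nonneg (Ig.abs hW.nonneg hI) (hJ.add (hW.ig_const K)) fun s _ => ?_
  have := abs_add_le (X s - Y s) (Y s)
  rw [sub_add_cancel] at this
  linarith [hY s]

theorem d4_trl (h : D4 z F) : D4 0 (trl (-z) F) := fun s => by
  have e1 : mapH (Equiv.subRight (-z)) (mapH (rotZ 0) s) =
      mapH (rotZ z) (mapH (Equiv.subRight (-z)) s) := by
    ext y; simp only [mapH_apply]; congr 1; ext <;> simp [rotZ] <;> ring
  have e2 : mapH (Equiv.subRight (-z)) (mapH (swpZ 0) s) =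
      mapH (swpZ z) (mapH (Equiv.subRight (-z)) s) := by
    ext y; simp only [mapH_apply]; congr 1; ext <;> simp [swpZ] <;> ring
  simp only [trl, e1, e2, (h _).1, (h _).2, and_self]

theorem odd_trl (h : OddF F) (z : Pt) : OddF (trl z F) := fun s => by
  simp only [trl, map_neg, h _]

theorem even_trl (h : EvenF F) (z : Pt) : EvenF (trl z F) := fun s => by
  simp only [trl, map_neg, h _]

theorem ins_trl {r : ℕ} (h : Ins z r F) : Ins 0 r (trl (-z) F) := by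
  simpa using Om.ins_trl h (-z)

theorem nu_trl (hΛ : Λ.Ok) (W : ℕ) (z : Pt) (r : ℕ) (F : Cfg Pt → ℝ) :
    nu Λ W 0 r (trl (-z) F) = nu Λ W z r F := by
  simp only [nu, Om.St_trl hΛ, Om.Nm_trl hΛ, sub_neg_eq_add, zero_add]

theorem two_trl (hΛ : Λ.Ok) (z : Pt) (r R c : ℕ) (F : Cfg Pt → ℝ) (e : ℝ) :
    Nm Λ 0 c (fun s => St Λ 0 R (St Λ 0 r (trl (-z) F)) s - e) =
      Nm Λ z c fun s => St Λ z R (St Λ z r F) s - e := by
  have := Om.Nm_trl hΛ 0 (-z) c fun s => St Λ z R (St Λ z r F) s - e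
  rw [sub_neg_eq_add, zero_add] at this
  rw [← this]
  simp only [Om.St_trl hΛ, sub_neg_eq_add, zero_add]
  rfl

/-- the one step contractions at the origin -/
structure Core (Λ : Lat) (W B r₀ L : ℕ) (θ θ' : ℝ) : Prop where
  odd : ∀ (ρ : ℕ) (F : Cfg Pt → ℝ), r₀ ≤ ρ → B * ρ ≤ L → Ins 0 ρ F → OddF F → D4 0 F →
    Nm Λ 0 (W * (B * ρ)) (St Λ 0 (B * ρ) (St Λ 0 ρ F)) ≤ θ * nu Λ W 0 ρ F
  even : ∀ (ρ : ℕ) (F : Cfg Pt → ℝ), r₀ ≤ ρ → B * ρ ≤ L → Ins 0 ρ F → EvenF F →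
    ∃ e : ℝ, Nm Λ 0 (W * (B * ρ)) (fun s => St Λ 0 (B * ρ) (St Λ 0 ρ F) s - e) ≤ θ' * nu Λ W 0 ρ F

section gd
variable {W r₀ L r R : ℕ} (hΛ : Λ.Ok) (hG : Gd Λ (1 / 400) W r₀ (W * L))
include hΛ hG

omit hΛ in
theorem gam_two (h0 : r₀ ≤ r) (hL : r ≤ W * L) : gam Λ r (W * r) ≤ 2 :=
  (hG.2.2 r h0 hL).trans (by norm_num)

omit hΛ in
theorem rg_le (h0 : r₀ ≤ r) : r + 2 * Λ.rg ≤ W * r := by
  have h2 : 2 * r ≤ W * r := Nat.mul_le_mul_right _ hG.1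
  have := hG.2.1
  omega

omit hΛ in
theorem le_W (r : ℕ) : r ≤ W * r := Nat.le_mul_of_pos_left _ (by have := hG.1; omega)

theorem up (h0 : r₀ ≤ r) (hr : r ≤ R) (hL : R ≤ L) (hF : Ins z r F) :
    nu Λ W z R F ≤ 2 * nu Λ W z r F := by
  have h1 := rg_le hG h0
  have h2 := rg_le hG (h0.trans hr)
  refine (FlF4.nu_up hΛ (q := r) (r := r) le_rfl h1 (Nat.mul_le_mul_left W hr) hr (by omega)
    (hF.1.mono (bl_mono z (by omega))) (FlF4.In_tame hΛ _ _ hF.2)).trans ?_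
  exact mul_le_mul_of_nonneg_right (gam_two hG h0 ((hr.trans hL).trans (le_W hG L)))
    (FlF4.nu_nonneg hΛ _ _ _ _)

theorem two (h0 : r₀ ≤ r) (hr : r ≤ R) (hF : Ins z r F) :
    DepG (bl z (R + Λ.rg)) (St Λ z R (St Λ z r F)) ∧ In Λ z (W * R) (St Λ z R (St Λ z r F)) ∧
      Nm Λ z (W * R) (St Λ z R (St Λ z r F)) = nu Λ W z R F := by
  have h2 := rg_le hG (h0.trans hr)
  have d : ∀ p, r + Λ.rg ≤ p → DepG (bl z p) F := fun p hp => hF.1.mono (bl_mono z (by omega))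
  have d' : ∀ p, r + Λ.rg ≤ p → DepG (bl z p) (St Λ z r F) := fun p hp => FlF4.depG_St hΛ (d p hp) hp
  have i := FlF4.In_tame hΛ z (W * R) hF.2
  exact ⟨FlF4.depG_St hΛ (d' _ (by omega)) le_rfl,
    FlF4.In_St hΛ (d' _ (by omega)) (by omega) (FlF4.In_St hΛ (d _ (by omega)) (by omega) i),
    FlF4.nu_St hΛ (by omega) hr (d _ (by omega)) i⟩

/-- the constant is controlled when the mean vanishes in an ambient model -/
theorem cst_le (h0 : r₀ ≤ r) (hr : r ≤ R) (hL : R ≤ L) (hF : Ins z r F) {m : Mdl Pt}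
    (hm : Amb Λ m (bl z (W * R))) (hE : Ex (m.W 0) F = 0) (e : ℝ) :
    nu Λ W z R F ≤ 3 * Nm Λ z (W * R) fun s => St Λ z R (St Λ z r F) s - e := by
  obtain ⟨h1, h2, h3⟩ := two hΛ hG h0 hr hF
  have h4 := rg_le hG (h0.trans hr)
  have hW := hm.ctr.wt hm.anch 0
  have hN := (hΛ.cen_Nr_bl (self_mem_bl z (W * R))).wt
  have a1 : Amb Λ m (bl z R) := FlF4.amb_mono hm (bl_mono z (by omega))
  have a2 : Amb Λ m (bl z r) := FlF4.amb_mono hm (bl_mono z (by omega))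
  have i0 : Ig (m.W 0) F := FlF4.ig_tame hm.ctr hm.anch hF.2
  have i1 : Ig (m.W 0) (St Λ z r F) := by
    rw [FlF4.St_cE hΛ a2]; exact FlF4.ig_cE hm.ctr hm.anch a2.sub i0
  have i2 : Ig (m.W 0) (St Λ z R (St Λ z r F)) := by
    rw [FlF4.St_cE hΛ a1]; exact FlF4.ig_cE hm.ctr hm.anch a1.sub i1
  have e2 : Ex (m.W 0) (St Λ z R (St Λ z r F)) = 0 := by
    rw [FlF4.St_cE hΛ a1, FlF4.ex_cE hm.ctr hm.anch a1.sub i1, FlF4.St_cE hΛ a2,
      FlF4.ex_cE hm.ctr hm.anch a2.sub i0, hE]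
  have k := (FlF4.ld1 Λ hΛ).1 Unit m univ (fun _ => z) (fun _ => R) (fun _ => W * R)
    (fun _ s => St Λ z R (St Λ z r F) s - e) (fun i _ j _ h => absurd (Subsingleton.elim i j) h)
    hm.ctr hm.anch fun _ _ => ⟨hm, h4, h1.comp fun t => t - e, Ig.sub h2 (hN.ig_const e)⟩
  simp only [univ_unique, prod_singleton] at k
  have e3 : Ex (m.W 0) (fun s => St Λ z R (St Λ z r F) s - e) = -e := by
    rw [Ex_sub i2 (hW.ig_const e), e2, hW.ex_const, zero_sub]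
  have k1 := abs_Ex_le hW.nonneg k.1
  rw [e3, abs_neg] at k1
  have k2 := mul_le_mul_of_nonneg_right (gam_two hG (h0.trans hr) (hL.trans (le_W hG L)))
    (L37.Nm_nonneg hΛ z (W * R) fun s => St Λ z R (St Λ z r F) s - e)
  have k3 := nm_tri hΛ h2 (Y := fun _ => e) (K := |e|) fun _ => le_rfl
  rw [h3] at k3
  linarith [k.2]

end gd

theorem rg_of_core (hΛ : Λ.Ok) (P : Par) {B L : ℕ} {θ θ' : ℝ} (hB : 2 ≤ B) (hα : P.α ≤ 3)
    (hC : P.C = 2 * (B : ℝ) ^ 3) (hG : Gd Λ (1 / 400) P.W P.r₀ (P.W * L))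
    (h : Core Λ P.W B P.r₀ L θ θ') (h1 : (B : ℝ) ^ P.α * θ ≤ 1) (h2 : (B : ℝ) ^ P.β * (3 * θ') ≤ 1) :
    Rg Λ P L := by
  have r1 : 1 ≤ P.r₀ := by have := hG.2.1; have := hΛ.one_le_rg; omega
  have n0 : ∀ z ρ F, 0 ≤ nu Λ P.W z ρ F := fun z ρ F => FlF4.nu_nonneg hΛ _ _ _ _
  have mo : ∀ {z r ρ F}, Ins z r F → r ≤ ρ → Ins z ρ F := fun {z _ _ _} hF h =>
    ⟨hF.1.mono (bl_mono z h), hF.2⟩
  have bl' : ∀ ρ, ρ ≤ B * ρ := fun ρ => Nat.le_mul_of_pos_left _ (by omega)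
  have fin : ∀ {a x y t : ℝ}, (B : ℝ) ^ a * t ≤ 1 → 0 ≤ y → x ≤ t * y → (B : ℝ) ^ a * x ≤ y :=
    fun {a x y t} k1 k2 k3 => (mul_le_mul_of_nonneg_left k3 (by positivity)).trans (by
      rw [← mul_assoc]; exact mul_le_of_le_one_left k2 k1)
  refine ⟨hG, fun z r R F h0 hr hL hF ho hd => ?_, fun z r R F m h0 hr hL hF he _ hm hE => ?_⟩
  · rw [hC]
    refine iter (f := fun ρ => nu Λ P.W z ρ F) hB (by linarith [P.hα]) hα (r1.trans h0) (fun ρ => n0 _ _ _)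
      (fun ρ k1 k2 => fin h1 (n0 _ _ _) ?_)
      (fun ρ k1 k2 => up hΛ hG (h0.trans k1) k2 hL (mo hF k1)) hr
    have := h.odd ρ _ (h0.trans k1) (k2.trans hL) (ins_trl (mo hF k1)) (odd_trl ho _) (d4_trl hd)
    rwa [(two hΛ hG (h0.trans k1) (bl' ρ) (ins_trl (mo hF k1))).2.2, nu_trl hΛ, nu_trl hΛ] at this
  · rw [hC]
    refine iter (f := fun ρ => nu Λ P.W z ρ F) hB (by linarith [P.hβ]) (by linarith [P.hβ'])
      (r1.trans h0) (fun ρ => n0 _ _ _) (fun ρ k1 k2 => fin h2 (n0 _ _ _) ?_)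
      (fun ρ k1 k2 => up hΛ hG (h0.trans k1) k2 hL (mo hF k1)) hr
    obtain ⟨e, this⟩ := h.even ρ _ (h0.trans k1) (k2.trans hL) (ins_trl (mo hF k1)) (even_trl he _)
    rw [two_trl hΛ, nu_trl hΛ] at this
    have k3 := cst_le hΛ hG (h0.trans k1) (bl' ρ) (k2.trans hL) (mo hF k1)
      (FlF4.amb_mono hm (bl_mono z (Nat.mul_le_mul_left _ k2))) hE e
    linarith

/-- the condenser of one step -/
def gm (W₀ W ρ : ℕ) : Kr.Gm := ⟨W₀ * ρ, 2 * W₀ ^ 2 * ρ, W * (2 * W₀ ^ 2) * ρ, W₀ * (W * (2 * W₀ ^ 2) * ρ)⟩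

theorem gm_ok {W₀ W ρ : ℕ} (h0 : 2 ≤ W₀) (hW : 1024 ≤ W) (hρ : 64 ≤ ρ) : (gm W₀ W ρ).Ok W := by
  have h1 : W₀ * ρ ≤ W₀ ^ 2 * ρ := Nat.mul_le_mul_right _ (Nat.le_self_pow two_ne_zero _)
  have h2 : 2 * ρ ≤ W₀ * ρ := Nat.mul_le_mul_right _ h0
  refine ⟨by exact_mod_cast hW, ?_, ?_, ?_, ?_, Nat.mul_le_mul_right _ h0⟩
  · change 2 * (W₀ * ρ) ≤ 2 * W₀ ^ 2 * ρ
    rw [mul_assoc]; omega
  · change 64 ≤ 2 * W₀ ^ 2 * ρ
    rw [mul_assoc]; omega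
  · simp only [gm]; push_cast; exact le_of_eq (by ring)
  · simp only [gm]; push_cast
    have : (0 : ℝ) ≤ W * (2 * W₀ ^ 2) * ρ := by positivity
    nlinarith

theorem gm_adm (hΛ : Λ.Ok) {W₀ W r₀ L ρ : ℕ} (hG : Gd Λ (1 / 400) W₀ r₀ (W₀ * L)) (h0 : r₀ ≤ ρ)
    (hL : ρ ≤ L) (hF : Ins 0 ρ F) : (gm W₀ W ρ).Adm Λ (St Λ 0 ρ F) := by
  have h1 : 2 * (W₀ * ρ) ≤ W₀ * (W₀ * ρ) := Nat.mul_le_mul_right _ hG.1
  have h2 : 2 * ρ ≤ W₀ * ρ := Nat.mul_le_mul_right _ hG.1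
  have h3 := hG.2.1
  have e : 2 * W₀ ^ 2 * ρ = 2 * (W₀ * (W₀ * ρ)) := by ring
  refine ⟨⟨ρ, rg_le hG h0, gam_two hG h0 (hL.trans (le_W hG L)),
    FlF4.depG_St hΛ (hF.1.mono (bl_mono _ (by omega))) le_rfl⟩, ?_, ?_, ?_⟩
  · change W₀ * ρ + 3 * Λ.rg ≤ 2 * W₀ ^ 2 * ρ
    omega
  · change gam Λ (W₀ * ρ) (2 * W₀ ^ 2 * ρ - Λ.rg) ≤ 2
    exact (FlF4.gam_le hΛ hG (a := W₀ * ρ) (by omega) (Nat.mul_le_mul_left _ hL) le_rfl
      (by omega)).trans (by norm_num)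
  · change In Λ 0 (W₀ * ρ) _
    exact FlF4.In_St hΛ (hF.1.mono (bl_mono _ (by omega))) (by omega) (FlF4.In_tame hΛ _ _ hF.2)

theorem lam_bd {C cp g g₂ W p : ℝ} (C0 : 0 ≤ C) (W1 : 1 ≤ W) (g0 : 0 ≤ g) (hg : g ≤ g₂) (hp : p ≤ π * g)
    (h1 : log W / (2 * π) - C ≤ cp⁻¹) :
    exp (-(2 * π ^ 2 / (cp / g))) ≤ exp (2 * π ^ 2 * g₂ * C) * W ^ (-p) := by
  have p0 := pi_pos
  have e1 : 2 * π ^ 2 / (cp / g) = π * g * (2 * π * cp⁻¹) := by
    rw [div_div_eq_mul_div, div_eq_mul_inv]; ring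
  have e2 : log W - 2 * π * C ≤ 2 * π * cp⁻¹ := by
    have := mul_le_mul_of_nonneg_left h1 (by positivity : 0 ≤ 2 * π)
    rwa [mul_sub, mul_div_cancel₀ _ (by positivity)] at this
  have e3 := mul_le_mul_of_nonneg_left e2 (by positivity : 0 ≤ π * g)
  have e4 := mul_le_mul_of_nonneg_right hp (log_nonneg W1)
  have e5 := mul_le_mul_of_nonneg_right hg (by positivity : 0 ≤ 2 * π ^ 2 * C)
  rw [rpow_def_of_pos (by linarith), ← exp_add, exp_le_exp, e1]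
  nlinarith

theorem num {W b k A : ℝ} (W1 : 1 ≤ W) (b1 : 1 ≤ b) (k0 : 0 < k) (k4 : k ≤ 1 / 4) (A0 : 0 ≤ A)
    (h : (3 + 4 * A) * b ^ (3 : ℝ) ≤ W ^ (k / 2)) :
    (W * b) ^ (2 + 2 * k) * (W ^ (-3 + 3 * (k / 6)) + 4 * (A * W ^ (-(2 + 3 * k)))) ≤ 1 ∧
      (W * b) ^ (2 - k) * (3 * W ^ (-2 + 3 * (k / 6))) ≤ 1 := by
  have W0 : 0 < W := by linarith
  have b0 : 0 < b := by linarith
  have l : ∀ {x y : ℝ}, x + y ≤ -(k / 2) → W ^ x * W ^ y ≤ W ^ (-(k / 2)) := fun {x y} h => by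
    rw [← rpow_add W0]; exact rpow_le_rpow_of_exponent_le W1 h
  have hb : ∀ {x : ℝ}, x ≤ 3 → b ^ x ≤ b ^ (3 : ℝ) := fun h => rpow_le_rpow_of_exponent_le b1 h
  have t0 : 0 < W ^ (-(k / 2)) := by positivity
  have c0 : 0 < b ^ (3 : ℝ) := by positivity
  have m : (3 + 4 * A) * b ^ (3 : ℝ) * W ^ (-(k / 2)) ≤ 1 := by
    refine (mul_le_mul_of_nonneg_right h t0.le).trans_eq ?_
    rw [← rpow_add W0, add_neg_cancel, rpow_zero]
  constructor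
  · rw [mul_rpow W0.le b0.le]
    have l1 := l (x := 2 + 2 * k) (y := -3 + 3 * (k / 6)) (by linarith)
    have l2 := l (x := 2 + 2 * k) (y := -(2 + 3 * k)) (by linarith)
    have l3 : W ^ (2 + 2 * k) * (W ^ (-3 + 3 * (k / 6)) + 4 * (A * W ^ (-(2 + 3 * k)))) ≤
        (3 + 4 * A) * W ^ (-(k / 2)) := by nlinarith [mul_le_mul_of_nonneg_left l2 A0]
    calc _ = b ^ (2 + 2 * k) * (W ^ (2 + 2 * k) * (W ^ (-3 + 3 * (k / 6)) +
            4 * (A * W ^ (-(2 + 3 * k))))) := by ring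
      _ ≤ b ^ (3 : ℝ) * ((3 + 4 * A) * W ^ (-(k / 2))) :=
          mul_le_mul (hb (by linarith)) l3 (by positivity) c0.le
      _ ≤ 1 := by linarith
  · rw [mul_rpow W0.le b0.le]
    have l1 := l (x := 2 - k) (y := -2 + 3 * (k / 6)) (by linarith)
    have l3 : W ^ (2 - k) * (3 * W ^ (-2 + 3 * (k / 6))) ≤ (3 + 4 * A) * W ^ (-(k / 2)) := by
      nlinarith [mul_nonneg A0 t0.le]
    calc _ = b ^ (2 - k) * (W ^ (2 - k) * (3 * W ^ (-2 + 3 * (k / 6)))) := by ring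
      _ ≤ b ^ (3 : ℝ) * ((3 + 4 * A) * W ^ (-(k / 2))) :=
          mul_le_mul (hb (by linarith)) l3 (by positivity) c0.le
      _ ≤ 1 := by linarith

theorem odd_step (hΛ : Λ.Ok) {G : Kr.Gm} {g t l : ℝ} (hI : In Λ 0 G.R₂ (G.T Λ F))
    (a1 : |G.E Λ fun t => F t * Kr.sn G.eq t| ≤ 2 * G.N₁ Λ F)
    (a2 : G.N₂ Λ (fun s => G.T Λ F s - 2 * G.lam g * G.E Λ (fun t => F t * Kr.sn G.eq t) *
      Kr.sn (Kr.hm 0 G.R) s) ≤ t * G.N₁ Λ F) (hl : G.lam g ≤ l) :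
    G.N₂ Λ (G.T Λ F) ≤ (t + 4 * l) * G.N₁ Λ F := by
  have l0 : 0 ≤ G.lam g := (exp_pos _).le
  have n0 : 0 ≤ G.N₁ Λ F := L37.Nm_nonneg hΛ _ _ _
  have tri := nm_tri hΛ hI (K := 2 * G.lam g * (2 * G.N₁ Λ F))
    (Y := fun s => 2 * G.lam g * G.E Λ (fun t => F t * Kr.sn G.eq t) * Kr.sn (Kr.hm 0 G.R) s) fun s => by
      rw [abs_mul, abs_mul, abs_of_nonneg (by positivity : 0 ≤ 2 * G.lam g)]
      exact (mul_le_of_le_one_right (by positivity) (abs_sin_le_one _)).trans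
        (mul_le_mul_of_nonneg_left a1 (by positivity))
  refine tri.trans ((add_le_add a2 le_rfl).trans ?_)
  nlinarith [mul_le_mul_of_nonneg_right hl n0]

theorem low_of (hΛ : Λ.Ok) {C g₀ δ : ℝ} {l : ℕ} (C1 : 1 ≤ C) (c4 : 1 / Λ.e0 ≤ C) (g0 : 0 < g₀)
    (e2 : δ ≤ g₀ / 2) (h : |Λ.gN l - g₀| ≤ δ) : g₀ / (2 * C) ≤ Λ.tN l := by
  have := (abs_le.1 h).1
  have h1 : 1 ≤ C * Λ.e0 := (div_le_iff₀ hΛ.e0_pos).1 c4
  rw [← hΛ.gN_mul, div_le_iff₀ (by positivity)]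
  have h2 : g₀ / 2 ≤ Λ.gN l := by linarith
  nlinarith [mul_le_mul h2 h1 zero_le_one (by linarith)]

theorem drop_of (hΛ : Λ.Ok) {C d δ : ℝ} {l l' : ℕ} (C1 : 1 ≤ C) (c3 : Λ.e0 ≤ C) (δ0 : 0 < δ)
    (e3 : δ ≤ d / (2 * C)) (h : Λ.gN l - Λ.gN l' ≤ 2 * δ) : Λ.tN l - Λ.tN l' ≤ d := by
  rw [← hΛ.gN_mul, ← hΛ.gN_mul, ← sub_mul]
  have := (le_div_iff₀ (by positivity)).1 e3
  linarith [mul_le_mul h c3 hΛ.e0_pos.le (by positivity)]

theorem g_of {k g₀ g δ : ℝ} (k0 : 0 < k) (hk : 4 * k ≤ π * g₀ - 2) (e1 : δ ≤ k / 4) (h : -δ ≤ g - g₀) :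
    2 + 3 * k ≤ π * g := by
  nlinarith [pi_le_four, pi_pos]

theorem dyad {R : ℕ} (hR : 1 ≤ R) : ∃ j : ℕ, R ≤ 2 ^ j ∧ 2 ^ j ≤ 2 * R :=
  ⟨Nat.log 2 R + 1, (Nat.lt_pow_succ_log_self one_lt_two R).le, by
    rw [pow_succ']; exact Nat.mul_le_mul_left _ (Nat.pow_log_le_self 2 (by omega))⟩

end Reg70

open Reg70 in
theorem regStmt (hO : Kr.KOddStmt) (hE : Kr.KEvenStmt) (hG : GdStmt) : RegStmt := by
  intro F g₀ hg
  have p0 := pi_pos
  have g0 : 0 < g₀ := lt_trans (by positivity) hg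
  have hκ : 0 < π * g₀ - 2 := by have := (div_lt_iff₀ p0).1 hg; linarith
  obtain ⟨k, k0, k4, hk⟩ : ∃ k : ℝ, 0 < k ∧ k ≤ 1 / 4 ∧ 4 * k ≤ π * g₀ - 2 :=
    ⟨min (π * g₀ - 2) 1 / 4, by positivity, by linarith [min_le_right (π * g₀ - 2) 1],
      by linarith [min_le_left (π * g₀ - 2) 1]⟩
  obtain ⟨C, C1, hC⟩ := F.exists_bound
  obtain ⟨Cc, Cc0, hcap⟩ := Kr.K77.cap_bd
  have t0 : 0 < g₀ / (2 * C) := by positivity
  obtain ⟨W', r₁, c, c1, hgd⟩ := hG F _ (1 / 400) t0 (by norm_num)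
  obtain ⟨W₁, hW₁⟩ := hO F _ (k / 6) t0 (by positivity) (by linarith)
  obtain ⟨W₂, hW₂⟩ := hE F _ (k / 6) t0 (by positivity) (by linarith)
  obtain ⟨W₀, W2, hW₀⟩ : ∃ W₀ : ℕ, 2 ≤ W₀ ∧ W' ≤ W₀ := ⟨max 2 W', le_max_left _ _, le_max_right _ _⟩
  set A := exp (2 * π ^ 2 * (g₀ + 1) * Cc) with hA
  obtain ⟨W, w1, w2, w3, w4⟩ : ∃ W : ℕ, 1024 ≤ W ∧ W₁ ≤ W ∧ W₂ ≤ W ∧
      (3 + 4 * A) * ((2 * W₀ ^ 2 : ℕ) : ℝ) ^ (3 : ℝ) ≤ (W : ℝ) ^ (k / 2) := by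
    have T := tendsto_natCast_atTop_atTop (R := ℝ)
    exact ((eventually_ge_atTop 1024).and ((T.eventually_ge_atTop W₁).and ((T.eventually_ge_atTop W₂).and
      (((tendsto_rpow_atTop (by positivity : 0 < k / 2)).comp T).eventually_ge_atTop _)))).exists
  obtain ⟨δ₁, d1, h₁⟩ := hW₁ W w2 2 one_le_two
  obtain ⟨δ₂, d2, h₂⟩ := hW₂ W w3 2 one_le_two
  obtain ⟨d, d0, dl1, dl2⟩ : ∃ d : ℝ, 0 < d ∧ d ≤ δ₁ ∧ d ≤ δ₂ :=
    ⟨min δ₁ δ₂, lt_min d1 d2, min_le_left _ _, min_le_right _ _⟩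
  obtain ⟨δ, δ0, e1, e2, e3⟩ : ∃ δ : ℝ, 0 < δ ∧ δ ≤ k / 4 ∧ δ ≤ g₀ / 2 ∧ δ ≤ d / (2 * C) :=
    ⟨min (k / 4) (min (g₀ / 2) (d / (2 * C))), by positivity, min_le_left _ _,
      (min_le_right _ _).trans (min_le_left _ _), (min_le_right _ _).trans (min_le_right _ _)⟩
  refine ⟨δ, δ0, ?_⟩
  filter_upwards [ev_sep_atTop d0] with l₀ hl
  obtain ⟨r₀, q1, q2, q3, q4, q5⟩ : ∃ r₀ : ℕ, Sep d l₀ r₀ ∧ l₀ ≤ r₀ ∧ r₁ ≤ r₀ ∧ 64 ≤ r₀ ∧
      2 * F.base.rg ≤ r₀ :=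
    (hl.and ((eventually_ge_atTop _).and ((eventually_ge_atTop _).and
      ((eventually_ge_atTop _).and (eventually_ge_atTop _))))).exists
  have b1 : 1 ≤ 2 * W₀ ^ 2 := by have := Nat.le_self_pow two_ne_zero W₀; omega
  have B2 : 2 ≤ W * (2 * W₀ ^ 2) := le_trans (by omega) (Nat.le_mul_of_pos_right W b1)
  have W1 : (1 : ℝ) ≤ W := by exact_mod_cast (by omega : 1 ≤ W)
  have cW : 1 ≤ c * W₀ := Nat.mul_pos c1 (by omega)
  refine ⟨⟨W₀, r₀, 2 * ((W * (2 * W₀ ^ 2) : ℕ) : ℝ) ^ 3, 2 + 2 * k, 2 - k, ?_, by linarith, by linarith,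
    by linarith, by linarith⟩, 4 * (c * W₀), by omega, fun Λ hΛ L fl => ?_⟩
  · have : (1 : ℝ) ≤ ((W * (2 * W₀ ^ 2) : ℕ) : ℝ) := by exact_mod_cast (by omega : 1 ≤ W * (2 * W₀ ^ 2))
    linarith [one_le_pow₀ (n := 3) this]
  have ok := hΛ.ok
  obtain ⟨-, -, c3, c4, -⟩ := hC Λ hΛ
  have low : ∀ l, l₀ ≤ l → l ≤ 4 * (c * W₀) * L → g₀ / (2 * C) ≤ Λ.tN l := fun l k1 k2 =>
    low_of ok C1 c4 g0 e2 (fl l k1 k2)
  have gd : Gd Λ (1 / 400) W₀ r₀ (W₀ * L) := by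
    refine ⟨W2, hΛ.rg_eq ▸ q5, fun r k1 k2 => ?_⟩
    have k3 : W₀ * L ≤ c * (W₀ * L) := Nat.le_mul_of_pos_left _ c1
    have := (hgd Λ hΛ).1 (c * (W₀ * L)) (low _ (by omega) (by rw [mul_assoc, mul_assoc]; omega))
    rw [Nat.mul_div_cancel_left _ c1] at this
    exact FlF4.gam_le ok this (q3.trans k1) k2 le_rfl (Nat.mul_le_mul_right _ hW₀)
  have win : ∀ ρ, r₀ ≤ ρ → W * (2 * W₀ ^ 2) * ρ ≤ L → ρ ≤ L ∧ (2 + 3 * k ≤ π * Λ.gN l₀ ∧ 0 ≤ Λ.gN l₀ ∧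
      Λ.gN l₀ ≤ g₀ + 1) ∧ ∃ L', Λ.Win (g₀ / (2 * C)) d l₀ L' ∧ (gm W₀ W ρ).At 2 L' := by
    intro ρ k1 k2
    have k3 : ρ ≤ W * (2 * W₀ ^ 2) * ρ := Nat.le_mul_of_pos_left _ (by omega)
    have k4 : L ≤ c * W₀ * L := Nat.le_mul_of_pos_left _ cW
    obtain ⟨j, j1, j2⟩ := dyad (R := W * (2 * W₀ ^ 2) * ρ) (by omega)
    have f1 := abs_le.1 (fl l₀ le_rfl (by rw [mul_assoc]; omega))
    have f2 := abs_le.1 (fl (2 * 2 ^ j) (by omega) (by rw [mul_assoc]; omega))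
    exact ⟨by omega, ⟨g_of k0 hk e1 f1.1, by linarith, by linarith⟩, 2 ^ j,
      ⟨⟨j, rfl⟩, q1.mono_right (by omega), low _ (by omega) (by rw [mul_assoc]; omega),
        drop_of ok C1 c3 δ0 e3 (by linarith)⟩, j1, by exact_mod_cast j2⟩
  have nm := num W1 (b := ((2 * W₀ ^ 2 : ℕ) : ℝ)) (by exact_mod_cast b1) k0 k4 (exp_pos _).le w4
  rw [← Nat.cast_mul] at nm
  refine rg_of_core ok _ B2 (by dsimp only; linarith) rfl gd ⟨fun ρ H k1 k2 hH ho hd => ?_,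
    fun ρ H k1 k2 hH he => ?_⟩ nm.1 nm.2
  · obtain ⟨k3, ⟨g1, g2, g3⟩, L', hw, ha⟩ := win ρ k1 k2
    have hk := gm_ok W2 w1 (q4.trans k1)
    obtain ⟨a1, a2⟩ := (h₁ Λ hΛ l₀ L' (hw.mono_d dl1) _ hk ha (by linarith)).2 _ (gm_adm ok gd k1 k3 hH)
      (Om.odd_St ho _ _) (Om.d4_St ok hd _)
    have k4 : ρ ≤ W * (2 * W₀ ^ 2) * ρ := Nat.le_mul_of_pos_left _ (by omega)
    have k5 := odd_step (G := gm W₀ W ρ) ok (two ok gd k1 k4 hH).2.1 a1 a2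
      (lam_bd Cc0 W1 g2 g3 g1 (hcap _ _ hk).1)
    exact k5
  · obtain ⟨k3, ⟨g1, -⟩, L', hw, ha⟩ := win ρ k1 k2
    exact ⟨_, ((h₂ Λ hΛ l₀ L' (hw.mono_d dl2) _ (gm_ok W2 w1 (q4.trans k1)) ha (by linarith)).2 _
      (gm_adm ok gd k1 k3 hH) (Om.even_St he _ _)).1⟩

end Crest.Agent.T145.Df
end

-- ▼ part T145/DfRep_19
section

/-!
# Row 145, module Df: REP (helper19)

`Df.repStmt`: the variance of the test function is read on the kernel at bounded distance.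
-/

set_option autoImplicit false

namespace Crest.Agent.T145.Df

open Finset Filter Topology Nc

namespace Rep19

theorem amb_D {Λ : Lat} (h : Λ.Ok) {U D : Finset Pt} (hU : U ⊆ D) : Amb Λ (Λ.D D) U :=
  ⟨h.ctr_D D, h.anch_D D, hU, Lat.near_D hU⟩

theorem ev_pow (a : ℝ) {q ε : ℝ} (hq : q < 0) (hε : 0 < ε) :
    ∀ᶠ n : ℕ in atTop, a * (n : ℝ) ^ q ≤ ε := by
  have h := ((tendsto_rpow_neg_atTop (neg_pos.2 hq)).comp tendsto_natCast_atTop_atTop).const_mul a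
  simp only [neg_neg, mul_zero, Function.comp_def] at h
  exact h.eventually (eventually_le_nhds hε)

theorem nr_sub {x y : Pt} {N : ℕ} (hx : nr x < 2 * N) (hy : y ∈ bl 0 (4 * N)) : nr (x - y) ≤ 6 * N := by
  rw [mem_bl] at hy
  simp only [nr, Prod.fst_sub, Prod.snd_sub, Prod.fst_zero, Prod.snd_zero] at hx hy ⊢
  omega

theorem add_mem {x w : Pt} {l : ℕ} (hw : w ∈ bl 0 l) : x + w ∈ bl x l := by
  rw [mem_bl] at hw ⊢
  simp only [Prod.fst_add, Prod.snd_add, Prod.fst_zero, Prod.snd_zero] at hw ⊢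
  omega

theorem pow_le {N L M : ℕ} (hL : 1 ≤ L) (h : N ≤ M * L) (k : ℕ) (p : ℝ) :
    (N : ℝ) ^ k * (L : ℝ) ^ (-p) ≤ (M : ℝ) ^ k * (L : ℝ) ^ (k - p) := by
  have hL' : (0 : ℝ) < L := by exact_mod_cast hL
  have h' : (N : ℝ) ≤ M * L := by exact_mod_cast h
  rw [sub_eq_add_neg, Real.rpow_add hL', Real.rpow_natCast, ← mul_assoc, ← mul_pow]
  gcongr

end Rep19

open Rep19

/-- REP -/
theorem repStmt (hA : AlgStmt) (hM : MomStmt) (hI : IdStmt) (hB : AmbStmt) (hK : KbStmt) (hS : SumStmt)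
    (hQ : QuadStmt) : RepStmt := by
  intro F P M ε hε
  have hα := P.hα
  obtain ⟨C, hC⟩ := hQ (2 * P.α) (by linarith)
  obtain ⟨A, hA1, HK⟩ := hK F P
  obtain ⟨Cs, L₀, HS⟩ := hS F P
  obtain ⟨Cm, hm1, HM⟩ := hM.1 F
  have hε4 : 0 < ε / 4 := by positivity
  filter_upwards [eventually_ge_atTop 1, ev_pow (|C| * A) (q := 4 - 2 * P.α) (by linarith) hε4]
    with l hl1 hl2
  have hl : (0 : ℝ) < l := by exact_mod_cast hl1
  set e : ℝ := ε / 4 / ((|C| + 1) * (l : ℝ) ^ 4 * Cm) with he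
  have he0 : 0 < e := by positivity
  filter_upwards [hB P.W P.r₀ (P.r₀ + l) e he0 (Nat.le_add_right _ _)] with R HB
  filter_upwards [eventually_ge_atTop l, eventually_ge_atTop R, eventually_ge_atTop L₀,
    eventually_ge_atTop P.r₀,
    ev_pow (|C| * |Cs| * (M : ℝ) ^ 2) (q := (2 : ℕ) - P.α) (by push_cast; linarith) hε4,
    ev_pow (|C| * A * (M : ℝ) ^ 4) (q := (4 : ℕ) - 2 * P.α) (by push_cast; linarith) hε4]
    with L hL1 hL2 hL3 hL4 hL5 hL6 Λ hΛ hR N hN hNM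
  have hO : Λ.Ok := ⟨hΛ.1 ▸ F.adm, F.pos.trans_le hΛ.2.2.1⟩
  have hW := hR.gd.1
  have hr := hR.gd.2.1
  have hWr : P.r₀ + l ≤ P.W * (P.r₀ + l) := Nat.le_mul_of_pos_left _ (by omega)
  have key := hC (KK Λ (Λ.D (bl 0 (10 * N)))) (kk Λ R) A (|Cs| * (L : ℝ) ^ (-P.α)) (e * Cm) l L N
    hl1 hL1 hN (fun x y => by simp only [KK, mul_comm])
    (fun x hx y hy h2 => by
      have h3 := nr_sub h2 hy
      exact (HK Λ hΛ L hR x y).1 _ (amb_D hO (bl_subset_bl hx (by omega)))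
        (amb_D hO (bl_subset_bl hy (by omega))))
    (fun x hx => (HS Λ hΛ L N hL3 hN hR x hx).trans
      (mul_le_mul_of_nonneg_right (le_abs_self _) (by positivity)))
    (fun x hx w hw => by
      have hx' := hA.2.2 Λ hO x
      have hw' := hA.2.2 Λ hO (x + w)
      have s1 : bl x Λ.rg ⊆ bl x (P.r₀ + l) := bl_mono x (by omega)
      have s2 : bl (x + w) Λ.rg ⊆ bl x (P.r₀ + l) := bl_subset_bl (add_mem hw) (by omega)
      have s3 : bl x (P.r₀ + l) ⊆ bl x (P.W * (P.r₀ + l)) := bl_mono x hWr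
      rw [← (hx'.2.2.2.2.2.2.2.2 R w).1]
      refine (HB Λ hO (P.W * L) (hL2.trans (Nat.le_mul_of_pos_left _ (by omega))) hR.gd x
        (fun s => JL Λ.J x s * JL Λ.J (x + w) s) _ _
        ⟨(hx'.1.1.mono s1).mul (hw'.1.1.mono s2), hx'.1.2.mul hw'.1.2⟩
        (amb_D hO (bl_subset_bl hx (by omega))) (amb_D hO subset_rfl)).trans
        (mul_le_mul_of_nonneg_left ?_ he0.le)
      exact (HM Λ hΛ _ x (x + w) x (hO.ctr_Nr _ _) (hO.anch_Nr_bl (self_mem_bl _ _))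
        ((hM.2 Λ hO x).2.2.1 _ _ (s1.trans s3)) ((hM.2 Λ hO (x + w)).2.2.1 _ _ (s2.trans s3))
        ((hM.2 Λ hO x).2.2.1 _ _ (s1.trans s3))).2.2.1)
  rw [((hI Λ hO).2 N (by omega)).2.2]
  refine key.trans ?_
  have hA0 : 0 ≤ A := by linarith
  have hL : 1 ≤ L := hl1.trans hL1
  have b1 : |C| * ((N : ℝ) ^ 2 * (|Cs| * (L : ℝ) ^ (-P.α))) ≤ ε / 4 := by
    refine le_trans ?_ hL5
    have := mul_le_mul_of_nonneg_left (pow_le hL hNM 2 P.α) (mul_nonneg (abs_nonneg C) (abs_nonneg Cs))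
    linarith
  have b2 : |C| * ((l : ℝ) ^ 4 * (e * Cm)) ≤ ε / 4 := by
    have : (|C| + 1) * ((l : ℝ) ^ 4 * (e * Cm)) = ε / 4 := by rw [he]; field_simp
    rw [← this]
    gcongr
    linarith
  have b3 : |C| * (A * (N : ℝ) ^ 4 * (L : ℝ) ^ (-(2 * P.α))) ≤ ε / 4 := by
    refine le_trans ?_ hL6
    have := mul_le_mul_of_nonneg_left (pow_le hL hNM 4 (2 * P.α)) (mul_nonneg (abs_nonneg C) hA0)
    linarith
  refine (mul_le_mul_of_nonneg_right (le_abs_self C) (by positivity)).trans ?_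
  rw [mul_add, mul_add, mul_add, ← mul_assoc |C| A]
  linarith

end Crest.Agent.T145.Df
end

-- ▼ part T145/DfSum_36
section

/-!
# Row 145, module Df: the sum rule `SumStmt` (helper36)
-/

set_option autoImplicit false

namespace Crest.Agent.T145.Df

open Finset Nc

namespace Sum36

theorem abs_le_four (g : ℝ) : |g| ≤ 1 + g ^ 4 := by
  have h1 : |g| ^ 2 = g ^ 2 := sq_abs g
  have h2 : g ^ 4 = (|g| ^ 2) ^ 2 := by rw [h1]; ring
  rw [h2]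
  nlinarith [sq_nonneg (|g| ^ 2 - 1), sq_nonneg (|g| - 1), abs_nonneg g, sq_nonneg (|g| ^ 2)]

theorem rpow_le {L r : ℕ} {A α : ℝ} (hA : 0 < A) (hα : 0 ≤ α) (hL : 1 ≤ L) (h : (L : ℝ) ≤ A * r) :
    (r : ℝ) ^ (-α) ≤ A ^ α * (L : ℝ) ^ (-α) := by
  have hL' : (0 : ℝ) < L := by exact_mod_cast hL
  have h1 : (L : ℝ) / A ≤ r := by rw [div_le_iff₀ hA]; linarith
  have h2 : (r : ℝ) ^ (-α) ≤ ((L : ℝ) / A) ^ (-α) :=
    Real.rpow_le_rpow_of_nonpos (div_pos hL' hA) h1 (by linarith)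
  refine h2.trans_eq ?_
  rw [Real.div_rpow hL'.le hA.le, Real.rpow_neg hA.le, div_inv_eq_mul, mul_comm]

theorem nr_edge {Λ : Lat} {e : Pt × Pt} (h : e.2 - e.1 ∈ Λ.Jp) : nr (e.2 - e.1) ≤ Λ.rg := by
  have := Lat.le_rg (Lat.mem_Jp.1 h).1
  rw [abs_le, abs_le] at this
  unfold nr
  omega

end Sum36

open Sum36 in
theorem sumStmt (hA : AlgStmt) (hB : BumpStmt) (hI : IdStmt) (hO : IoStmt) (hP : ProStmt)
    (hBr : BrStmt) : SumStmt := by
  intro F P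
  obtain ⟨Cp, hCp, hP⟩ := hP F P
  obtain ⟨Cb, hCb, hB⟩ := hB
  set rg : ℕ := ProbabilityR.HeightModel.interactionRange F.J with hrg
  set n₀ : ℝ := 882 * F.J.card * (Cb * rg) ^ 2 with hn₀
  refine ⟨4 * (Cp * (4 * (P.W : ℝ) ^ 2) ^ P.α) * (1 + 24 * Real.exp F.τ₂ * n₀ ^ 2),
    2 * P.W ^ 2 * (P.r₀ + 1), fun Λ hΛ L N hL hN hR x hx => ?_⟩
  have hok : Λ.Ok := ⟨hΛ.1 ▸ F.adm, F.pos.trans_le hΛ.2.2.1⟩
  have hrg' : Λ.rg = rg := by rw [hrg, ← hΛ.1]; rfl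
  obtain ⟨hW, hr₀, -⟩ := id hR.gd
  set W := P.W with hWdef
  set r := L / (2 * W ^ 2) with hr
  have hW2 : 0 < 2 * W ^ 2 := by positivity
  have hr1 : P.r₀ + 1 ≤ r := (Nat.le_div_iff_mul_le hW2).2 (by rw [mul_comm]; exact hL)
  have hr2 : 2 * W ^ 2 * r ≤ L := Nat.mul_div_le _ _
  have hr3 : L < 2 * W ^ 2 * (r + 1) := Nat.lt_mul_div_succ _ hW2
  have hWW : W * (W * r) = W ^ 2 * r := by ring
  have hr4 : 2 * (W * (W * r)) ≤ L := by rw [hWW, ← mul_assoc]; exact hr2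
  have hr5 : r ≤ W * r := Nat.le_mul_of_pos_left _ (by omega)
  have hr6 : W * r ≤ W * (W * r) := Nat.le_mul_of_pos_left _ (by omega)
  have hN1 : 1 ≤ N := by omega
  have hN' : (0 : ℝ) < N := by exact_mod_cast hN1
  obtain ⟨-, hb, hlip, -⟩ := hB N hN1
  set D := bl 0 (10 * N) with hD
  set m := Λ.D D with hm
  have hamb : Amb Λ m (bl x (W * (W * r) + Λ.rg)) :=
    have hs : bl x (W * (W * r) + Λ.rg) ⊆ D := bl_subset_bl hx (by omega)
    ⟨hok.ctr_D D, hok.anch_D D, hs, Lat.near_D hs⟩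
  obtain ⟨hc, ha, hio⟩ := hO Λ hok W P.r₀ (W * L) hR.gd x r m (by omega)
    (Nat.mul_le_mul_left _ (by omega)) hamb
  set φ : Pt × Pt → ℝ := fun e => ch N e.2 - ch N e.1 with hφ
  set ed := (Λ.edI D).filter fun e => φ e ≠ 0 with hed
  have hfar : ∀ e ∈ ed, e.1 ∉ bl x (W * (W * r)) ∧ e.2 ∉ bl x (W * (W * r)) := by
    intro e he
    obtain ⟨he1, he2⟩ := mem_filter.1 he
    have hj := (Lat.mem_edI.1 he1).1
    have key : ∀ y, y ∈ bl 0 (3 * N) → ch N y = 1 := fun y hy =>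
      (hb y).2.2.2.2 (by simpa using (hA.1 0 y _).1 hy)
    have hs : bl x (W * (W * r) + Λ.rg) ⊆ bl 0 (3 * N) := bl_subset_bl hx (by omega)
    refine not_or.1 fun h => he2 ?_
    have h1 := Lat.edge_near hj
    have h12 : e.1 ∈ bl x (W * (W * r) + Λ.rg) ∧ e.2 ∈ bl x (W * (W * r) + Λ.rg) := by
      simp only [T145.mem_bl] at h h1 ⊢
      omega
    simp only [hφ, key _ (hs h12.1), key _ (hs h12.2), sub_self]
  have hG : ∀ s, pr (dv ed φ) s = ∑ y ∈ bl 0 (4 * N), ch N y * JL Λ.J y s := by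
    intro s
    rw [hBr.1, ((hI Λ hok).1 D (bl 0 (4 * N)) (ch N) s (fun y hy => ?_)
      fun y hy => bl_subset_bl hy (by omega)).1]
    · exact sum_filter_of_ne (f := fun e => φ e * (dE e s : ℝ)) fun e _ h => left_ne_zero_of_mul h
    · by_contra h
      exact hy ((hA.1 0 y _).2 (by simpa using ((hb y).2.2.2.1 h).le))
  have hJ : ∀ y, Ins y Λ.rg (JL Λ.J y) := fun y => (hA.2.2 Λ hok y).1
  have hcen : Cen (m.W 0) := hok.cen_D D
  have hsum : ∑ y ∈ bl 0 (4 * N), ch N y * KK Λ m x y =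
      Ex (m.W 0) fun s => JL Λ.J x s * pr (dv ed φ) s := by
    simp only [hG, mul_sum]
    rw [Ex_sum _ fun y _ => hcen.ig ((hJ x).2.mul ((hJ y).2.const_mul _))]
    refine sum_congr rfl fun y _ => ?_
    rw [KK, ← Ex_const_mul]
    congr 1; funext s; ring
  have hout : Out (bl x (W * (W * r))) fun s => pr (dv ed φ) s := by
    intro s s' h
    show pr _ s = pr _ s'
    rw [hBr.1, hBr.1]
    refine sum_congr rfl fun e he => ?_
    rw [dE, dE, h _ (hfar e he).1, h _ (hfar e he).2]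
  have h1 := hio (JL Λ.J x) (fun s => pr (dv ed φ) s)
    ⟨(hJ x).1.mono (bl_mono _ (by omega)), (hJ x).2⟩ (Tame.hom _) hout
  have hn : ∑ e ∈ ed, φ e ^ 2 ≤ n₀ := by
    have hc1 : ed.card ≤ 2 * ((21 * N) ^ 2 * F.J.card) := by
      refine ((card_filter_le _ _).trans (card_le_card (Lat.edI_subset_edT D))).trans
        ((Lat.card_edT_le D).trans ?_)
      rw [hD, card_bl]
      refine Nat.mul_le_mul_left _ (Nat.mul_le_mul (Nat.pow_le_pow_left (by omega) _) ?_)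
      rw [← hΛ.1]; exact card_filter_le _ _
    have hc2 : (ed.card : ℝ) ≤ 2 * ((21 * N) ^ 2 * F.J.card) := by exact_mod_cast hc1
    have he : ∀ e ∈ ed, φ e ^ 2 ≤ (Cb * rg / N) ^ 2 := by
      intro e he
      have h2 : (nr (e.2 - e.1) : ℝ) ≤ rg := by
        rw [← hrg']; exact_mod_cast nr_edge (Lat.mem_edI.1 (mem_filter.1 he).1).1
      have h3 : |φ e| ≤ Cb * rg / N := (hlip e.2 e.1).2.trans (by gcongr)
      exact sq_le_sq' (by linarith [abs_le.1 h3]) (abs_le.1 h3).2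
    refine (sum_le_card_nsmul _ _ _ he).trans ?_
    rw [nsmul_eq_mul]
    refine (mul_le_mul_of_nonneg_right hc2 (sq_nonneg _)).trans_eq ?_
    rw [hn₀]; field_simp; ring
  have hsub : ed ⊆ (hole m (bl x (W * r))).ed := fun e he =>
    mem_filter.2 ⟨Lat.edI_subset_edT D (mem_filter.1 he).1,
      fun h => (hfar e he).1 (bl_mono _ hr6 h), fun h => (hfar e he).2 (bl_mono _ hr6 h)⟩
  have h4 := (hBr.2.1 Λ (hole m (bl x (W * r))) (dv ed φ) n₀ hok hc ha ed hsub (fun _ _ => rfl)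
    ⟨φ, fun _ _ => rfl, hn⟩).2.2
  have hcen' : Cen ((hole m (bl x (W * r))).W 0) := hc.cen ha
  have h5 : Ex ((hole m (bl x (W * r))).W 0) (fun s => |pr (dv ed φ) s|) ≤
      1 + 24 * Real.exp F.τ₂ * n₀ ^ 2 := by
    have i4 := hcen'.ig ((Tame.hom (pr (dv ed φ))).pow 4)
    refine (Ex_mono hcen'.nonneg (hcen'.ig (Tame.hom _).abs) ((hcen'.wt.ig_const 1).add i4)
      fun s => abs_le_four _).trans ?_
    rw [Ex_add (hcen'.wt.ig_const 1) i4, hcen'.wt.ex_const]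
    have : Real.exp Λ.τ ≤ Real.exp F.τ₂ := Real.exp_le_exp.2 hΛ.2.2.2
    nlinarith [sq_nonneg n₀]
  have h6 := (hP Λ hΛ L hR x r (by omega) (by omega)).1
  have hWr : (0 : ℝ) < W := by exact_mod_cast (by omega : 0 < W)
  have h7 : (r : ℝ) ^ (-P.α) ≤ (4 * (W : ℝ) ^ 2) ^ P.α * (L : ℝ) ^ (-P.α) := by
    refine rpow_le (by positivity) (by linarith [P.hα]) (by omega) ?_
    have : L ≤ 4 * W ^ 2 * r := by nlinarith
    exact_mod_cast this
  have h8 : nu Λ W x r (JL Λ.J x) ≤ Cp * (4 * (W : ℝ) ^ 2) ^ P.α * (L : ℝ) ^ (-P.α) :=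
    h6.trans (by rw [mul_assoc]; gcongr)
  rw [hsum]
  refine h1.trans ?_
  have h9 : 0 ≤ Ex ((hole m (bl x (W * r))).W 0) (fun s => |pr (dv ed φ) s|) :=
    Ex_nonneg hcen'.nonneg fun _ _ => abs_nonneg _
  calc _ ≤ 4 * (Cp * (4 * (W : ℝ) ^ 2) ^ P.α * (L : ℝ) ^ (-P.α)) *
        Ex ((hole m (bl x (W * r))).W 0) (fun s => |pr (dv ed φ) s|) := by gcongr
    _ ≤ 4 * (Cp * (4 * (W : ℝ) ^ 2) ^ P.α * (L : ℝ) ^ (-P.α)) *
        (1 + 24 * Real.exp F.τ₂ * n₀ ^ 2) := by gcongr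
    _ = _ := by ring

end Crest.Agent.T145.Df
end

-- ▼ part T145/DfTop_70
section

/-!
# Row 145, module Df: `Top.DiffStmt` from the leaves (helper70)
-/

set_option autoImplicit false

namespace Crest.Agent.T145.Df

open Finset Filter Topology Nc

theorem mem_ok {F : Fa} {Λ : Lat} (h : F.Mem Λ) : Λ.Ok := ⟨h.1 ▸ F.adm, F.pos.trans_le h.2.2.1⟩

theorem amb_D {Λ : Lat} (h : Λ.Ok) {U D : Finset Pt} (hU : U ⊆ D) : Amb Λ (Λ.D D) U :=
  ⟨h.ctr_D D, h.anch_D D, hU, Lat.near_D hU⟩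

theorem diffStmt (hA : AlgStmt) (hB : BumpStmt) (hI : IdStmt) (hE : EnStmt) (hK : KbStmt) (hR : RepStmt)
    (hL : LimStmt) (hD : DerStmt) (hC : CauStmt) (hN : AnaStmt) (hO : OpenStmt) : Top.DiffStmt := by
  intro Λ hΛ hg
  obtain ⟨F, P, η, hη, H⟩ := hO Λ hΛ hg
  obtain ⟨C₁, hC₁, HK⟩ := hK F P
  obtain ⟨C₂, HD⟩ := hD F P
  obtain ⟨C₃, hC₃, HB⟩ := hB
  have hab : ∀ τ ∈ Set.Ioo (Λ.τ - η) (Λ.τ + η), |τ - Λ.τ| < η := fun τ h => by
    rw [abs_lt]; constructor <;> linarith [h.1, h.2]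
  have ha : 0 < Λ.a := one_pos.trans_le hΛ.one_le_a
  have hp : Tendsto (fun n : ℕ => 2 ^ n) atTop atTop := tendsto_pow_atTop_atTop_of_one_lt one_lt_two
  have key := hN (Λ.τ - η) (Λ.τ + η) (2 * P.α + P.β - 2) (max (max C₁ C₂) C₃)
    (fun R w τ => kk (Λ.at' τ) R w) (fun R w τ => kd (Λ.at' τ) R w) (fun n w => UU (2 ^ n) w)
    (Λ.J.filter posD) (fun τ => Λ.a * (Λ.at' τ).gI) (by linarith [P.hγ])
    (fun R w τ hτ => (hE (Λ.at' τ) (mem_ok (H τ (hab τ hτ)).1) R w).1)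
    (fun w ε hε => by
      obtain ⟨R₀, h⟩ := hC F P w ε hε
      exact ⟨R₀, fun R R' h1 h2 τ hτ => h R R' h1 h2 _ (H τ (hab τ hτ)).1 (H τ (hab τ hτ)).2.2⟩)
    (fun w => by
      filter_upwards [HD w, eventually_ge_atTop (2 * nr w)] with R h1 h2 τ hτ
      obtain ⟨a1, -, a3⟩ := H τ (hab τ hτ)
      have b0 : (1 : ℝ) ≤ 1 + nr w := le_add_of_nonneg_right (Nat.cast_nonneg _)
      have b1 : 0 ≤ (1 + (nr w : ℝ)) ^ (-(2 * P.α + P.β - 2)) := Real.rpow_nonneg (by linarith) _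
      have e : nr (0 - w) = nr w := by simp [nr]
      refine ⟨?_, ?_⟩
      · have := (HK _ a1 (nr w) (a3 _) 0 w).1 ((Λ.at' τ).D (bl 0 R))
          (amb_D (mem_ok a1) fun x hx => by
            rw [hA.1] at hx ⊢; rw [e] at hx; omega)
          (amb_D (mem_ok a1) fun x hx => by
            rw [hA.1] at hx ⊢; rw [e] at hx
            simp only [nr, Prod.fst_sub, Prod.snd_sub, Prod.fst_zero, Prod.snd_zero] at hx h2 ⊢
            omega)
        rw [e, min_self] at this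
        refine this.trans (mul_le_mul ((le_max_left _ _).trans (le_max_left _ _))
          (Real.rpow_le_rpow_of_exponent_le b0 (by linarith [P.hβ'])) (Real.rpow_nonneg (by linarith) _)
          (by positivity))
      · refine (h1 _ a1 a3).trans ?_
        rw [show 2 - P.β - 2 * P.α = -(2 * P.α + P.β - 2) by ring]
        exact mul_le_mul_of_nonneg_right ((le_max_right _ _).trans (le_max_left _ _)) b1)
    (fun n w => by
      obtain ⟨a1, a2⟩ := (HB (2 ^ n) Nat.one_le_two_pow).2.2.2.1 w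
      rw [abs_of_nonneg a1]
      exact a2.trans (mul_le_mul_of_nonneg_right (le_max_right _ _) (by positivity)))
    (by
      filter_upwards [hp.eventually (eventually_ge_atTop Λ.rg)] with n hn
      exact ((hI Λ hΛ).2 _ hn).2.1)
    (fun τ hτ ε hε => by
      obtain ⟨a1, a2, a3⟩ := H τ (hab τ hτ)
      have b1 := Metric.tendsto_nhds.1 (hL _ (mem_ok a1) a2) (ε / 2) (half_pos hε)
      filter_upwards [hR F P 1 (ε / 2) (half_pos hε)] with l₁ h1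
      filter_upwards [h1] with l₂ h2
      filter_upwards [hp.eventually h2, b1] with n h3 h4
      have h5 := h3 _ a1 (a3 _) (2 ^ n) le_rfl (by omega)
      rw [Real.dist_eq, sub_zero] at h4
      have e1 : (Λ.at' τ).a = Λ.a := rfl
      have e2 : EE (Λ.at' τ).J (2 ^ n) = ∑ y ∈ Λ.J.filter posD, UU (2 ^ n) y := rfl
      rw [e1, e2] at h4
      rw [abs_le] at h5 ⊢
      rw [abs_lt] at h4
      constructor <;> linarith [h4.1, h4.2, h5.1, h5.2])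
    Λ.τ ⟨by linarith, by linarith⟩
  have := key.const_mul Λ.a⁻¹
  refine this.congr_of_eventuallyEq (Eventually.of_forall fun τ => ?_)
  simp only [← mul_assoc, inv_mul_cancel₀ ha.ne', one_mul]

end Crest.Agent.T145.Df
end

-- ▼ part T145/DfUp_12
section

/-!
# Row 145, module Df: the upper bound `UpStmt` and the limit `LimStmt` (helper12)
-/

set_option autoImplicit false

namespace Crest.Agent.T145.Df

open Finset Filter Topology

namespace Up12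

theorem sm2_mono {u : Pt → ℝ} {K K' L : ℝ} (h : Sm2 u K L) (hK : K ≤ K') (hL : 0 ≤ L) : Sm2 u K' L :=
  ⟨fun i x => (h.1 i x).trans (by gcongr), fun i j x => (h.2 i j x).trans (by gcongr)⟩

theorem tau_tN {Λ : Lat} (h : Λ.Ok) (l : ℕ) : Λ.τ * Λ.tN l = Λ.a * Λ.gN l := by
  rw [← h.gN_mul, ← h.e0_mul]; ring

theorem tau_tI {Λ : Lat} (h : Λ.Ok) : Λ.τ * Λ.tI = Λ.a * Λ.gI := by
  rw [← h.gI_mul, ← h.e0_mul]; ring

theorem reg_bl (hB : BrStmt) (l : ℕ) {N : ℕ} (hN : 1 ≤ N) {K : ℝ} (hK : 4 * 21 ^ 2 ≤ K) :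
    Reg (bl 0 (10 * N)) K l N := by
  have h1 : ((2 * (10 * N) + 1 : ℕ) : ℝ) ≤ 21 * N := by exact_mod_cast (by omega)
  have h := hB.2.2.2.2.2.1 ((0 : Pt).1 - (10 * N : ℕ), (0 : Pt).2 - (10 * N : ℕ)) _ _ l N 21
    (by norm_num) h1 h1
  rw [bl_eq_sq]
  exact ⟨h.1.trans (by gcongr), h.2.trans (by gcongr)⟩

theorem EE_le {Λ : Lat} {C : ℝ} (hC : 0 ≤ C) {N : ℕ} (h : ∀ w, UU N w ≤ C * (nr w : ℝ) ^ 2) :
    EE Λ.J N ≤ Λ.J.card * (C * (Λ.rg : ℝ) ^ 2) := by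
  have h1 := sum_le_card_nsmul (Λ.J.filter posD) (UU N) (C * (Λ.rg : ℝ) ^ 2) fun y hy => by
    have h2 := Lat.le_rg (mem_filter.1 hy).1
    rw [abs_le, abs_le] at h2
    have h3 : nr y ≤ Λ.rg := by unfold nr; omega
    have h4 : (nr y : ℝ) ≤ Λ.rg := by exact_mod_cast h3
    exact (h y).trans (by gcongr)
  rw [nsmul_eq_mul] at h1
  refine h1.trans (mul_le_mul_of_nonneg_right ?_ (by positivity))
  exact_mod_cast card_filter_le _ _

end Up12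

open Up12

/-- UP -/
theorem upStmt (hx : T1xStmt) (hBr : BrStmt) (hB : BumpStmt) (hI : IdStmt) : UpStmt := by
  intro F ε hε
  obtain ⟨C, hC, hB⟩ := hB
  have hp : 0 < 2 * F.τ₂ ^ 2 + 1 := by positivity
  refine exists_of_ev ?_
  filter_upwards [ev_sep_mem (hx F (max C (4 * 21 ^ 2)) (ε / (2 * F.τ₂ ^ 2 + 1)) (by positivity)),
    ev_large F.base.rg] with δ h1 h2 Λ hΛ l N hs
  have hok := hΛ.ok
  have hN := hs.one_le_L
  have hN' : (0 : ℝ) ≤ N := Nat.cast_nonneg _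
  have h3 := h1 Λ hΛ l N hs (Λ.D (bl 0 (10 * N))) (bl 0 (10 * N)) (ub N) (fun _ => 0)
    (hBr.2.2.2.1 Λ _ hok) (reg_bl hBr l hN (le_max_right _ _))
    (sm2_mono (hB N hN).1.1 (le_max_left _ _) hN') fun e _ => by rw [abs_zero]; positivity
  have e0 : dv (Λ.edI (bl 0 (10 * N))) (fun _ => (0 : ℝ)) = 0 := by funext x; simp [dv]
  rw [e0, pr_zero, add_zero] at h3
  simp only [zero_mul, sum_const_zero, mul_zero, add_zero, ne_eq, OfNat.ofNat_ne_zero,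
    not_false_eq_true, zero_pow] at h3
  have h4 := ((hok.cen_D (bl 0 (10 * N))).vr_le_M _).trans h3
  obtain ⟨h5, -, -⟩ := (hI Λ hok).2 N (hΛ.rg_eq ▸ (h2 l N hs).2.2)
  have h6 : Λ.τ ^ 2 ≤ F.τ₂ ^ 2 := pow_le_pow_left₀ hok.2.le hΛ.tau_le 2
  have h7 : 2 * Λ.τ ^ 2 * (ε / (2 * F.τ₂ ^ 2 + 1)) ≤ ε := by
    rw [← mul_div_assoc, div_le_iff₀ hp]; nlinarith
  rw [← tau_tN hok, ← h5]
  unfold VJ WD
  nlinarith [mul_le_mul_of_nonneg_left h4 (sq_nonneg Λ.τ)]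

/-- LIM -/
theorem limStmt (hD : DlgStmt) (hm : T1mStmt) (hBr : BrStmt) (hB : BumpStmt) (hI : IdStmt) : LimStmt := by
  intro Λ hok hg
  obtain ⟨C, hC, hB⟩ := hB
  set E : ℝ := Λ.J.card * (C * (Λ.rg : ℝ) ^ 2) with hE
  have hE0 : 0 ≤ E := by positivity
  have hτ := hok.2
  refine Metric.tendsto_nhds.2 fun ε hε => ?_
  have hp : 0 < Λ.τ ^ 2 + Λ.τ * E + 1 := by positivity
  set η : ℝ := ε / (Λ.τ ^ 2 + Λ.τ * E + 1) with hη
  have hη0 : 0 < η := by positivity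
  have hK : (1 : ℝ) ≤ max C 2 := hC.trans (le_max_left _ _)
  obtain ⟨δ, l, -, hl, H⟩ := Soft.exists_l hm hD hok (hok.gI_pos_iff.1 hg) hK hη0 hη0
  filter_upwards [H, tendsto_two_pow.eventually (eventually_ge_atTop Λ.rg)] with j ⟨_, h1⟩ hj
  set N : ℕ := 2 ^ j with hNdef
  have hN : 1 ≤ N := Nat.one_le_two_pow
  have hN' : (0 : ℝ) ≤ N := Nat.cast_nonneg _
  obtain ⟨b1, b2, -, b4, -⟩ := hB N hN
  have h2 := (h1 (Λ.D (bl 0 (10 * N))) (bl 0 (10 * N)) 0 (ub N) (hBr.2.2.2.1 Λ _ hok) (Loc.refl _)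
    (sm2_mono b1.1 (le_max_left _ _) hN') fun x hx => by
      have h3 := (b2 x).2.2.1 hx
      have h4 : x ∈ bl 0 (2 * N) := by
        rw [mem_bl]; unfold nr at h3; simp only [Prod.fst_zero, Prod.snd_zero]; omega
      have h5 : 2 * N ≤ ⌊max C 2 * (N : ℝ)⌋₊ := Nat.le_floor (by
        push_cast; exact mul_le_mul_of_nonneg_right (le_max_right _ _) hN')
      have h6 : ⌊(N : ℝ) / max C 2⌋₊ ≤ N := Nat.floor_le_of_le (div_le_self hN' hK)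
      exact ⟨bl_mono _ h5 h4, bl_subset_bl h4 (by omega)⟩).1
  obtain ⟨h5, h6, -⟩ := (hI Λ hok).2 N hj
  have h7 : EE Λ.J N ≤ E := EE_le (by linarith) fun w => (b4 w).2
  have e : VJ Λ N - Λ.a * Λ.gI * EE Λ.J N =
      Λ.τ ^ 2 * (Vr ((Λ.D (bl 0 (10 * N))).W 0) (pr (Λ.Au (bl 0 (10 * N)) (ub N)))
        (pr (Λ.Au (bl 0 (10 * N)) (ub N))) - Λ.tN l * Λ.En (bl 0 (10 * N)) (ub N) (ub N)) +
      Λ.τ * EE Λ.J N * (Λ.tN l - Λ.tI) := by
    rw [← tau_tI hok, ← h5]; unfold VJ WD; ring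
  rw [Real.dist_eq, sub_zero, e]
  refine (abs_add_le _ _).trans_lt ?_
  rw [abs_mul, abs_mul, abs_of_nonneg (sq_nonneg Λ.τ),
    abs_of_nonneg (show 0 ≤ Λ.τ * EE Λ.J N by positivity)]
  have h8 : η * (Λ.τ ^ 2 + Λ.τ * E + 1) = ε := div_mul_cancel₀ _ hp.ne'
  have h9 : Λ.τ * EE Λ.J N * |Λ.tN l - Λ.tI| ≤ Λ.τ * E * η := by gcongr
  nlinarith [mul_le_mul_of_nonneg_left h2 (sq_nonneg Λ.τ)]

end Crest.Agent.T145.Df
end

-- ▼ part T145/Top_76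

/-!
# Row 145: S0198, S0199, S0201 from the interface Props (helper76); S0200, S0202 are in `T5_11`
-/

set_option autoImplicit false

namespace Crest.Agent.T145.Top

open Filter Topology Crest.ProbabilityR.HeightModel Crest.ProbabilityR.SpinModel T511

theorem at_self (Λ : Lat) : Λ.at' Λ.τ = Λ := rfl

theorem crit_of (hD : DiffStmt) {Λ : Lat} (h : Λ.Ok) (hge : 2 / Real.pi ≤ Λ.gI)
    (hz : ∀ τ, 0 < τ → τ < Λ.τ → (Λ.at' τ).gI = 0) : Λ.Crit := by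
  refine ⟨h, le_antisymm ?_ hge, hz⟩
  by_contra hn
  push Not at hn
  have hc := (hD Λ h hn).continuousAt
  have hpi : 0 < 2 / Real.pi := by positivity
  have e1 : ∀ᶠ τ in 𝓝 Λ.τ, 0 < (Λ.at' τ).gI :=
    hc.eventually (lt_mem_nhds (show (0 : ℝ) < (Λ.at' Λ.τ).gI by rw [at_self]; linarith))
  have e2 : ∀ᶠ τ in 𝓝 Λ.τ, 0 < τ := lt_mem_nhds h.pos
  obtain ⟨τ, ⟨a1, a2⟩, a3⟩ :=
    (((e1.and e2).filter_mono (nhdsWithin_le_nhds (s := Set.Iio Λ.τ))).and self_mem_nhdsWithin).exists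
  exact a1.ne' (hz τ a2 a3)

/-! ## the discrete Gaussian model -/

theorem dg_crit (h1 : T1mStmt) (h5 : T5AStmt) (hE : FS.E1Stmt) (hD : DiffStmt) {J : Finset Pt}
    (hJ : IsAdmissible J) : (dg J (criticalTemp J)).Crit := by
  have hc := crit_pos h1 h5 hE hJ
  have hk : (0 : ℝ) < J.card := by exact_mod_cast (dg_ok hJ hc).card_pos
  refine crit_of hD (dg_ok hJ hc) (le_gI h1 h5 hE hJ le_rfl) fun τ h0 hτ => ?_
  have e : (τ * (4 * Real.pi ^ 2) / J.card) * J.card / (4 * Real.pi ^ 2) = τ := by field_simp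
  rw [← e, dg_at]
  refine gI_eq_zero h5 hJ (by positivity) ?_
  simp only [dg] at hτ
  rw [lt_div_iff₀ (by positivity)] at hτ
  rwa [div_lt_iff₀ hk]

theorem s0201_of (h1 : T1mStmt) (h5 : T5AStmt) (hT : TLimStmt) (hE : FS.E1Stmt) (h3 : FS.E3Stmt)
    (h4 : FS.E4Stmt) (hD : DiffStmt) (hS : SlopeStmt) (J : Finset (ℤ × ℤ)) (hJ : IsAdmissible J) :
    ∃ L : ℕ, 2 ≤ L ∧ ∃ βeff : ℝ → ℝ,
      (∀ β : ℝ, criticalTemp J ≤ β → 0 < βeff β) ∧
      (∀ β : ℝ, criticalTemp J ≤ β → ∀ u : ℝ × ℝ → ℝ, IsSmoothPeriodic u →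
        Filter.Tendsto
          (fun N : ℕ => Real.log (torusLaplace J β (L ^ N) (fun x => -flatLaplacian u x)))
          Filter.atTop
          (nhds (βeff β / (2 * varianceConst J) *
            unitSquarePairing (fun x => -flatLaplacian u x) u))) ∧
      βeff (criticalTemp J) = 8 * Real.pi * varianceConst J ∧
      Filter.Tendsto
        (fun β : ℝ => (βeff β - βeff (criticalTemp J)) / (β - criticalTemp J))
        (nhdsWithin (criticalTemp J) (Set.Ioi (criticalTemp J))) Filter.atTop ∧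
      DifferentiableOn ℝ βeff (Set.Ioi (criticalTemp J)) ∧
      ∃ c : ℝ, 0 < c ∧ ∃ C β₀ : ℝ, ∀ β : ℝ, β₀ ≤ β →
        abs (βeff β - β) ≤ C * Real.exp (-c * β) := by
  have hc := crit_pos h1 h5 hE hJ
  have hk : (0 : ℝ) < J.card := by exact_mod_cast (dg_ok hJ hc).card_pos
  have hv := FS.varianceConst_pos hJ
  have hpi : 0 < 2 / Real.pi := by positivity
  have hcr := dg_crit h1 h5 hE hD hJ
  set βc := criticalTemp J with hβc
  have hlim : ∀ β, βc ≤ β → FS.Lim J β 2 (4 * Real.pi ^ 2 * varianceConst J * (dg J β).gI) :=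
    fun β hβ => hT J β hJ (hc.trans_le hβ) (hpi.trans_le (le_gI h1 h5 hE hJ hβ))
  have hcont : Tendsto (fun b : ℝ => b * J.card / (4 * Real.pi ^ 2)) (𝓝[>] βc) (𝓝[>] (dg J βc).τ) := by
    refine tendsto_nhdsWithin_iff.2 ⟨?_, ?_⟩
    · exact ((by fun_prop : Continuous fun b : ℝ => b * J.card / (4 * Real.pi ^ 2)).tendsto _).mono_left
        nhdsWithin_le_nhds
    · filter_upwards [self_mem_nhdsWithin] with b hb
      have hb' : βc < b := hb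
      show βc * J.card / (4 * Real.pi ^ 2) < b * J.card / (4 * Real.pi ^ 2)
      gcongr
  have hsl := (hS _ rfl hcr).comp hcont
  have hsl' : Tendsto (fun β : ℝ => ((dg J β).gI - 2 / Real.pi) / (β - βc)) (𝓝[>] βc) atTop := by
    have := hsl.const_mul_atTop (r := J.card / (4 * Real.pi ^ 2)) (by positivity)
    refine this.congr' ?_
    filter_upwards [self_mem_nhdsWithin] with b hb
    have hb' : 0 < b - βc := sub_pos.2 hb
    have e : b * J.card / (4 * Real.pi ^ 2) - (dg J βc).τ = (b - βc) * (J.card / (4 * Real.pi ^ 2)) := by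
      simp only [dg]; ring
    simp only [Function.comp, dg_at, e]
    field_simp
  refine ⟨2, le_rfl, fun β => 4 * Real.pi ^ 2 * varianceConst J * (dg J β).gI, fun β hβ => ?_, hlim, ?_, ?_,
    fun β hβ => ?_, FS.abs_sub_le_of h3 h4 hJ le_rfl hlim⟩
  · have := hpi.trans_le (le_gI h1 h5 hE hJ hβ)
    positivity
  · simp only [hcr.2.1]; field_simp; ring
  · have := hsl'.const_mul_atTop (r := 4 * Real.pi ^ 2 * varianceConst J) (by positivity)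
    refine this.congr fun b => ?_
    simp only [hcr.2.1]; ring
  · have hβ' : βc < β := hβ
    obtain ⟨b, ⟨a1, a2⟩, a3⟩ := (((hsl'.eventually (eventually_gt_atTop 0)).and
      ((gt_mem_nhds hβ').filter_mono nhdsWithin_le_nhds)).and self_mem_nhdsWithin).exists
    have a3' : βc < b := a3
    have a4 : 2 / Real.pi < (dg J b).gI := by
      have := (div_pos_iff_of_pos_right (sub_pos.2 a3')).1 a1
      linarith
    have a5 := a4.trans_le (gI_mono h1 hJ (hc.trans a3') a2.le)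
    have a6 := hD _ (dg_ok hJ (hc.trans hβ')) a5
    have a7 : DifferentiableAt ℝ (fun b : ℝ => b * J.card / (4 * Real.pi ^ 2)) β := by fun_prop
    have a8 : DifferentiableAt ℝ (fun b : ℝ => (dg J b).gI) β :=
      DifferentiableAt.comp (g := fun τ => ((dg J β).at' τ).gI) β a6 a7
    exact (a8.const_mul _).differentiableWithinAt

/-! ## the XY model -/

/-- the height threshold -/
noncomputable def bh : ℝ := sInf {b : ℝ | 0 < b ∧ (xyL b).Rough}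

theorem xy_mono (h1 : T1mStmt) {b b' : ℝ} (hb : 0 < b) (h : b ≤ b') : (xyL b).gI ≤ (xyL b').gI :=
  (h1.1 _ (xyL_ok hb)).2.2.2.1 hb (hb.trans_le h) h

theorem bh_pos (h1 : T1mStmt) (h5 : T5AStmt) (hR : XyRoughStmt) : 0 < bh := by
  have hpi : 0 < 2 / Real.pi := by positivity
  refine hpi.trans_le (le_csInf hR fun b hb => ?_)
  have a1 := (h5 _ (xyL_ok hb.1)).1.1 hb.2
  have a2 := (h1.1 _ (xyL_ok hb.1)).2.2.1
  rw [xyL_a, div_one] at a2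
  exact a1.trans a2

theorem xy_zero (h5 : T5AStmt) {b : ℝ} (hb : 0 < b) (h : b < bh) : (xyL b).gI = 0 :=
  (h5 _ (xyL_ok hb)).2.1 fun hr =>
    not_lt.2 (csInf_le (s := {b : ℝ | 0 < b ∧ (xyL b).Rough}) ⟨0, fun _ hb => hb.1.le⟩ ⟨hb, hr⟩) h

theorem xy_ge (h1 : T1mStmt) (h5 : T5AStmt) (hR : XyRoughStmt) {b : ℝ} (hb : bh ≤ b) :
    2 / Real.pi ≤ (xyL b).gI := by
  have hc := bh_pos h1 h5 hR
  refine le_trans ?_ (xy_mono h1 hc hb)
  by_contra hn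
  push Not at hn
  have hu := (h1.1 _ (xyL_ok hc)).2.2.2.2.1 _ hc _ hn
  have hle : 𝓝[>] bh ≤ 𝓝[Set.Ioi 0] bh := nhdsWithin_mono _ fun b hb => hc.trans hb
  obtain ⟨b, hb1, hb2⟩ := ((hu.filter_mono hle).and self_mem_nhdsWithin).exists
  obtain ⟨b', hb', hlt⟩ := exists_lt_of_csInf_lt hR hb2
  have a1 := (h5 _ (xyL_ok hb'.1)).1.1 hb'.2
  have a2 := xy_mono h1 hb'.1 hlt.le
  have a3 : (xyL b).gI < 2 / Real.pi := hb1
  linarith

theorem xy_crit (h1 : T1mStmt) (h5 : T5AStmt) (hR : XyRoughStmt) (hD : DiffStmt) : (xyL bh).Crit :=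
  crit_of hD (xyL_ok (bh_pos h1 h5 hR)) (xy_ge h1 h5 hR le_rfl) fun _ h0 hτ => xy_zero h5 h0 hτ

theorem m_pos (h1 : T1mStmt) (h5 : T5AStmt) (hL : MassLoStmt) {b : ℝ} (hb : 0 < b) (h : b < bh)
    {C : ℕ → ℝ} {m : ℝ} (hC : IsC b C) (hm : IsM C m) : 0 < m := by
  have hpi : 0 < 1 / Real.pi := by positivity
  have hz := xy_zero h5 hb h
  have e : 2 / Real.pi - 1 / Real.pi = 1 / Real.pi := by ring
  obtain ⟨c, L₁, hc, H⟩ := hL b b (1 / Real.pi) 1 hb le_rfl (by rw [hz]; positivity) hpi one_pos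
  have t := tendsto_gN h1 (xyL_ok hb)
  rw [hz] at t
  obtain ⟨L, ⟨a1, a2⟩, a3⟩ := (((t.eventually (ge_mem_nhds hpi)).and (eventually_ge_atTop L₁)).and
    (eventually_gt_atTop 0)).exists
  refine lt_of_lt_of_le ?_ (H b le_rfl le_rfl L a2 (by rwa [e]) C m hC hm)
  have : (0 : ℝ) < L := by exact_mod_cast a3
  positivity

theorem m_zero (h1 : T1mStmt) (h5 : T5AStmt) (hR : XyRoughStmt) (hU : MassUpStmt) {b : ℝ} (h : bh ≤ b)
    {C : ℕ → ℝ} {m : ℝ} (hC : IsC b C) (hm : IsM C m) : m = 0 := by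
  have hb := (bh_pos h1 h5 hR).trans_le h
  have hpi : 0 < 1 / Real.pi := by positivity
  refine le_antisymm ?_ (Xy48.m_nonneg hb hC hm)
  obtain ⟨K, L₁, H⟩ := hU b b (1 / Real.pi) (1 / 2) hb hpi (by norm_num)
  have t := tendsto_gN h1 (xyL_ok hb)
  have g := xy_ge h1 h5 hR h
  have e : 2 / Real.pi = 1 / Real.pi + 1 / Real.pi := by ring
  have t2 : Tendsto (fun L : ℕ => K / (L : ℝ) ^ (1 - 1 / 2 : ℝ)) atTop (𝓝 0) :=
    ((tendsto_rpow_atTop (by norm_num)).comp tendsto_natCast_atTop_atTop).const_div_atTop K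
  refine ge_of_tendsto t2 ?_
  filter_upwards [t.eventually (le_mem_nhds (show 1 / Real.pi < (xyL b).gI by linarith)),
    eventually_ge_atTop L₁] with L a1 a2 using H b le_rfl le_rfl L a2 a1 C m hC hm

theorem bc_eq (h1 : T1mStmt) (h5 : T5AStmt) (hR : XyRoughStmt) (hU : MassUpStmt) (hL : MassLoStmt)
    {C : ℝ → ℕ → ℝ} {m : ℝ → ℝ} (hC : ∀ b, 0 < b → IsC b (C b)) (hm : ∀ b, 0 < b → IsM (C b) (m b)) :
    sInf {b : ℝ | 0 < b ∧ m b = 0} = bh := by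
  have hc := bh_pos h1 h5 hR
  have e : {b : ℝ | 0 < b ∧ m b = 0} = Set.Ici bh := by
    ext b
    refine ⟨fun hb => not_lt.1 fun h => (m_pos h1 h5 hL hb.1 h (hC b hb.1) (hm b hb.1)).ne' hb.2,
      fun hb => ⟨hc.trans_le hb, m_zero h1 h5 hR hU hb (hC b (hc.trans_le hb)) (hm b (hc.trans_le hb))⟩⟩
  rw [e, csInf_Ici]

theorem s0198_of (h1 : T1mStmt) (h5 : T5AStmt) (hR : XyRoughStmt) (hD : DiffStmt) (hU : MassUpStmt)
    (hL : MassLoStmt) (hX : CritStmt) (C : ℝ → ℕ → ℝ)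
    (hC : ∀ b : ℝ, 0 < b → ∀ r : ℕ,
      Filter.Tendsto (fun R : ℕ => xyBoxCorrelation b R r) Filter.atTop (nhds (C b r)))
    (m : ℝ → ℝ)
    (hm : ∀ b : ℝ, 0 < b →
      Filter.Tendsto (fun r : ℕ => -Real.log (C b r) / r) Filter.atTop (nhds (m b))) :
    ∃ B : ℝ, 0 < B ∧
      Filter.Tendsto
        (fun r : ℕ => C (sInf {b : ℝ | 0 < b ∧ m b = 0}) r * (r : ℝ) ^ ((1 : ℝ) / 4) /
          Real.log r ^ ((1 : ℝ) / 8))
        Filter.atTop (nhds B) := by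
  have hc := bh_pos h1 h5 hR
  rw [bc_eq h1 h5 hR hU hL hC hm]
  refine hX bh (xy_crit h1 h5 hR hD) (C bh) (hC bh hc) ?_
  have := hm bh hc
  rwa [m_zero h1 h5 hR hU le_rfl (hC bh hc) (hm bh hc)] at this

theorem s0199_of (h1 : T1mStmt) (h5 : T5AStmt) (hR : XyRoughStmt) (hD : DiffStmt) (hU : MassUpStmt)
    (hL : MassLoStmt) (hS : ScaleStmt) (C : ℝ → ℕ → ℝ)
    (hC : ∀ b : ℝ, 0 < b → ∀ r : ℕ,
      Filter.Tendsto (fun R : ℕ => xyBoxCorrelation b R r) Filter.atTop (nhds (C b r)))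
    (m : ℝ → ℝ)
    (hm : ∀ b : ℝ, 0 < b →
      Filter.Tendsto (fun r : ℕ => -Real.log (C b r) / r) Filter.atTop (nhds (m b))) :
    ∃ A : ℝ, 0 < A ∧
      Filter.Tendsto
        (fun b : ℝ => Real.sqrt (sInf {b' : ℝ | 0 < b' ∧ m b' = 0} - b) * Real.log (1 / m b))
        (nhdsWithin (sInf {b' : ℝ | 0 < b' ∧ m b' = 0}) (Set.Iio (sInf {b' : ℝ | 0 < b' ∧ m b' = 0})))
        (nhds A) := by
  have hc := bh_pos h1 h5 hR
  rw [bc_eq h1 h5 hR hU hL hC hm]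
  have hcr := xy_crit h1 h5 hR hD
  obtain ⟨A, hA, H⟩ := hS bh hcr
  refine ⟨A, hA, Metric.tendsto_nhds.2 fun η hη => ?_⟩
  obtain ⟨ε, hε, hε1, hε2, hε3⟩ : ∃ ε : ℝ, 0 < ε ∧ ε ≤ A / 2 ∧ ε ≤ 1 ∧ ε * (A + 4) ≤ η := by
    refine ⟨min (min (A / 2) 1) (η / (A + 4)), by positivity, (min_le_left _ _).trans (min_le_left _ _),
      (min_le_left _ _).trans (min_le_right _ _), (le_div_iff₀ (by positivity)).1 (min_le_right _ _)⟩
  obtain ⟨ε₁, hε₁, H1⟩ := H ε hε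
  obtain ⟨K, L₁, HU⟩ := hU (bh / 2) bh ε₁ ε (by positivity) hε₁ hε
  obtain ⟨c, L₂, hc0, HL⟩ := hL (bh / 2) bh ε₁ ε (by positivity) (by linarith) hcr.2.1.le hε₁ hε
  have t0 : Tendsto (fun b : ℝ => √(bh - b)) (𝓝[<] bh) (𝓝 0) := by
    have : Tendsto (fun b : ℝ => √(bh - b)) (𝓝 bh) (𝓝 (√(bh - bh))) :=
      (by fun_prop : Continuous fun b : ℝ => √(bh - b)).tendsto _
    rw [sub_self, Real.sqrt_zero] at this
    exact this.mono_left nhdsWithin_le_nhds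
  have sm : ∀ k : ℝ, ∀ᶠ b in 𝓝[<] bh, |√(bh - b) * k| < ε := fun k => by
    have := (t0.mul_const k).abs
    rw [zero_mul, abs_zero] at this
    exact this.eventually (gt_mem_nhds hε)
  filter_upwards [H1, sm (Real.log K), sm (Real.log c), sm (Real.log (L₁ + L₂ + 1 : ℕ)),
    self_mem_nhdsWithin, (le_mem_nhds (half_lt_self hc)).filter_mono nhdsWithin_le_nhds]
    with b ⟨⟨L, a1, a2⟩, ⟨L', a3, a4⟩⟩ s1 s2 s3 hb hb2
  have hb' : b < bh := hb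
  have hb0 : 0 < b := by linarith
  have hq : 0 < √(bh - b) := Real.sqrt_pos.2 (by linarith)
  have big : ∀ N : ℕ, |√(bh - b) * Real.log N - A| ≤ ε → L₁ + L₂ + 1 ≤ N := fun N hN => by
    by_contra hn
    push Not at hn
    have b1 : Real.log N ≤ Real.log (L₁ + L₂ + 1 : ℕ) := by
      rcases Nat.eq_zero_or_pos N with rfl | hN0
      · simpa using Real.log_natCast_nonneg (L₁ + L₂ + 1)
      · exact Real.log_le_log (by exact_mod_cast hN0) (by exact_mod_cast hn.le)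
    have b2 := mul_le_mul_of_nonneg_left b1 hq.le
    have b3 := (abs_le.1 hN).1
    have b4 := (abs_lt.1 s3).2
    linarith
  have g1 := big L a1
  have g2 := big L' a3
  have hL0 : (0 : ℝ) < L := by exact_mod_cast (by omega : 0 < L)
  have hL0' : (0 : ℝ) < L' := by exact_mod_cast (by omega : 0 < L')
  have u := HU b hb2 hb'.le L (by omega) a2 _ _ (hC b hb0) (hm b hb0)
  have l := HL b hb2 hb'.le L' (by omega) a4 _ _ (hC b hb0) (hm b hb0)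
  have mp : 0 < m b := lt_of_lt_of_le (by positivity) l
  have hK : 0 < K := (div_pos_iff_of_pos_right (by positivity)).1 (mp.trans_le u)
  have u' := Real.log_le_log mp u
  have l' := Real.log_le_log (by positivity) l
  rw [Real.log_div hK.ne' (by positivity), Real.log_rpow hL0] at u'
  rw [Real.log_div hc0.ne' (by positivity), Real.log_rpow hL0'] at l'
  rw [Real.dist_eq, one_div, Real.log_inv, abs_lt]
  have u2 := mul_le_mul_of_nonneg_left u' hq.le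
  have l2 := mul_le_mul_of_nonneg_left l' hq.le
  obtain ⟨p1, p2⟩ := abs_le.1 a1
  obtain ⟨p3, p4⟩ := abs_le.1 a3
  obtain ⟨p5, p6⟩ := abs_lt.1 s1
  obtain ⟨p7, p8⟩ := abs_lt.1 s2
  set x := √(bh - b) * Real.log L
  set y := √(bh - b) * Real.log L'
  have e1 : √(bh - b) * (Real.log K - (1 - ε) * Real.log L) =
    √(bh - b) * Real.log K - (1 - ε) * x := by simp only [x]; ring
  have e2 : √(bh - b) * (Real.log c - (1 + ε) * Real.log L') =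
    √(bh - b) * Real.log c - (1 + ε) * y := by simp only [y]; ring
  rw [e1] at u2
  rw [e2] at l2
  constructor <;> nlinarith

end Crest.Agent.T145.Top
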