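import Crest.Agent.T145.AllU_21
import Crest.Agent.T145.DfCau_4_Mg
import Crest.Agent.T145.Top_76_Mg
import Crest.Agent.T145.DfMom_23
import Crest.Agent.T145.DfSemi_51
import Crest.Agent.T145.FlDef_82
import Crest.Agent.T145.FlCone_64
import Crest.Agent.T145.FlBare_80
import Crest.Agent.T145.FlEnv_30
import Crest.Agent.T145.AFac_66
import Crest.Agent.T145.FlDef2_82
import Crest.Agent.T145.Soft_23
import Crest.Agent.T145.KrDef_77
import Crest.Agent.T145.NcT4Def_78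
import Crest.Agent.T145.Fac_45
import Crest.Agent.T145.FlSXa_44
import Crest.Agent.T145.FlOde_64
import Crest.Agent.T145.OmB_11
import Crest.Agent.T145.MbDef2_25
import Crest.Agent.T145.T5_11
import Crest.Agent.T145.CorB_59

-- ▼ part T145/AllD_21
section

/-!
# Row 145: P1 (differentiability off the critical value) without hypotheses (helper21)
-/

set_option autoImplicit false

namespace Crest.Agent.T145.All

namespace D
open Df

theorem mom : MomStmt := momStmt br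
theorem pro : ProStmt := proStmt algStmt mom semiStmt
theorem en : EnStmt := enStmt algStmt
theorem amb : AmbStmt := ambStmt Nc.U.dec
theorem kb : KbStmt := kbStmt algStmt mom semiStmt fusStmt pro
theorem mid : MidStmt := midStmt algStmt mom semiStmt fusStmt pro
theorem sum : SumStmt := sumStmt algStmt bumpStmt idStmt' ioStmt pro br
theorem quad : QuadStmt := quadStmt algStmt pwStmt bumpStmt
theorem rep : RepStmt := repStmt algStmt mom idStmt' amb kb sum quad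
theorem up : UpStmt := upStmt t1x br bumpStmt idStmt'
theorem lim : LimStmt := limStmt dlg t1m br bumpStmt idStmt'
theorem far : FarStmt := farStmt algStmt pwStmt mom fusStmt ioStmt pro semiStmt
theorem near : NearStmt := nearStmt algStmt pwStmt mom semiStmt fusStmt pro
theorem der : DerStmt := derStmt algStmt pwStmt semiStmt kb en far near mid
theorem cau : CauStmt := cauStmt algStmt mom semiStmt kb en amb far
theorem ana : AnaStmt := anaStmt pwStmt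
theorem reg : RegStmt := regStmt Kr.U.kOdd Kr.U.kEven gd
theorem opn : OpenStmt := openStmt reg rep up lim bumpStmt idStmt' en t1m t1d

end D

theorem p1 : Top.DiffStmt :=
  Df.diffStmt Df.algStmt Df.bumpStmt Df.idStmt' D.en D.kb D.rep D.lim D.der D.cau D.ana D.opn

end Crest.Agent.T145.All
end

-- ▼ part T145/FlSYD_74
section

/-!
# Row 145, STEP-y: the interpolated charge and the per-site bound (helper74)
-/

set_option autoImplicit false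

namespace Crest.Agent.T145.Fl

open Finset Pot Xi Real

/-- the interpolated charge -/
noncomputable def xt (W R t : ℝ) : Pt → ℝ := xi R + t • A0 (wt R (W * R))

/-- the per-site bound of STEP-y (zones 1 and 2) -/
def SiteYStmt : Prop := ∀ (p : Par) (W : ℕ), 2 ≤ W → 4 ≤ p.w → ∃ κ C : ℝ, 0 < κ ∧ κ ≤ 1 ∧ 0 ≤ C ∧
  ∀ Λ ω r₁ L N, Env p Λ ω L N → Pur p W Λ r₁ L → ∀ R Y : ℝ, Maj p Λ L R Y → C * Y ≤ 1 → C * R ≤ L →
    (r₁ : ℝ) ^ 2 ≤ R → 1 / 4 ≤ gk ω R → ∀ t ∈ Set.Icc (0 : ℝ) 1, ∀ z : Pt, z ∉ bl 0 ⌊R⌋₊ → eu z ≤ R * Y ^ (-κ) →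
      8 * eu z ≤ N →
      |ω (fun s => Jz 0 s * cp (xt W R t) 0 s * Jz z s) +
        2 * π * gk ω R * xt W R t z * ω fun s => Jz 0 s * cp (xt W R t) (-(π / 2)) s| ≤
        C * Y ^ 2 / R ^ 4 * (Y ^ (5 / 2 * κ) + ind (z ∈ bl 0 ⌈4 * (W * R)⌉₊) * Y ^ (κ * cw p.w / 5))

end Crest.Agent.T145.Fl
end

-- ▼ part T145/FlSm_31
section

/-!
# Row 145, odd flow: soft smallness of `J` from small charged expectations (helper31)
-/

set_option autoImplicit false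

namespace Crest.Agent.T145.Fl

open Finset Pot Xi Real

namespace Sm31

section flow
variable {D S : Finset Pt} {f : Pt → ℝ} {a e : Pt} {k : ℕ}


/-- the flow that moves `f` by `a` costs `c ^ 2 * ∑ f²` -/
def Q (D S : Finset Pt) (f : Pt → ℝ) (a : Pt) (c : ℝ) : Prop :=
  F2 (nnL.edI D) (fun y => f (y - a) - f y) (c ^ 2 * ∑ x ∈ S, f x ^ 2)




end flow




/-- the Lasota–Yorke step from `Ks` and `low₁` -/
theorem ly {p : Par} {W : ℕ} {Λ : Lat} {ω : (Cfg Pt → ℝ) → ℝ} {r₁ L N r : ℕ} (h : Pack p W Λ ω r₁ L N)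
    (hW : 144 ≤ W) (h0 : p.r₀ ≤ r) (h1 : r₁ ≤ r) (hL : p.w * (W * r) ≤ L) {F : Cfg Pt → ℝ}
    (hF : Ins 0 r F) (ho : OddF F) (hd : D4 0 F) :
    (W : ℝ) ^ 2 * nu Λ p.w 0 (W * r) F ≤ W ^ 3 * |ell ω (2 * (W * r)) F| + nu Λ p.w 0 r F / 4 := by
  have hG := h.toEnv.toGs
  have hΛ := h.toEnv.ok
  have r2 := Cone.two_le hG h0
  have hrg : 2 * Λ.rg ≤ r := hG.gd.2.1.trans h0
  have w4 := A51.four_le hG r
  have w4' := A51.four_le hG (W * r)
  have rW : r ≤ W * r := Nat.le_mul_of_pos_left r (by omega)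
  have W1 : (144 : ℝ) ≤ W := by exact_mod_cast hW
  have W0 : (0 : ℝ) < W := by linarith
  have e0 := Beta3.ew_nonneg p.w
  have e1 := Beta3.ew_le p.w
  have iS : Ins 0 r (Sn (r / 4)) := ins_Sn4 (by omega)
  obtain ⟨-, c, hc⟩ := h.ks r h0 h1 hL F hF ho hd
  have hS := (h.ks r h0 h1 hL _ iS (odd_Sn _) (d4_Sn _)).1
  have hl := h.low₁ r h0 h1 hL
  have s1 := (semiStmt Λ p.w r 0 hΛ (by omega)).1
  have s2 := (semiStmt Λ p.w (W * r) 0 hΛ (by omega)).1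
  have hS1 := (s1 _ iS).2.2.2.1 1 (abs_Sn_le _)
  have ν0 := (s1 _ hF).1
  set ν := nu Λ p.w 0 r F
  set x := (W : ℝ) ^ (ew p.w / 10) with hx
  have x1 : 1 ≤ x := one_le_rpow (by linarith) (by linarith)
  have x6 : x ^ 6 ≤ W := by
    rw [hx, ← rpow_natCast, ← rpow_mul W0.le]
    exact (rpow_le_rpow_of_exponent_le (by linarith) (by push_cast; linarith)).trans_eq (rpow_one _)
  have p2 : (W : ℝ) ^ (-2 + ew p.w / 10) = x / W ^ 2 := by
    rw [rpow_add W0, rpow_neg W0.le, rpow_two]; ring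
  have p3 : (W : ℝ) ^ (-3 + ew p.w / 10) = x / W ^ 3 := by
    rw [rpow_add W0, rpow_neg W0.le, show (3 : ℝ) = (3 : ℕ) by norm_num, rpow_natCast]; ring
  have p4 : (W : ℝ) ^ (-2 - ew p.w / 10) = 1 / (W ^ 2 * x) := by
    rw [rpow_sub W0, rpow_neg W0.le, rpow_two]; ring
  rw [p2] at hS; rw [p3] at hc; rw [p4] at hl
  have iF := hF.mono rW
  have iS' := iS.mono rW
  have iD := iF.sub (iS'.smul c)
  have a1 := Cone.abs_ell_le h.toEnv (h0.trans rW) hL iD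
  rw [Cone.ell_sub h.toEnv (h0.trans rW) hL iF iS'] at a1
  push_cast at a1
  set l := ell ω (2 * ((W : ℝ) * r)) F
  set lS := ell ω (2 * ((W : ℝ) * r)) (Sn (r / 4))
  have a2 : nu Λ p.w 0 (W * r) F ≤ x / W ^ 3 * ν + |c| * (x / W ^ 2) := by
    have := ((s2 _ iD).2.2.2.2 _ (iS'.smul c)).1
    simp only [sub_add_cancel] at this
    rw [(s2 _ iS').2.2.1 c] at this
    refine this.trans (add_le_add hc (mul_le_mul_of_nonneg_left (hS.trans ?_) (abs_nonneg _)))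
    exact mul_le_of_le_one_right (by positivity) hS1
  have a3 : |c| * (1 / (W ^ 2 * x)) ≤ |l| + 2 * (x / W ^ 3 * ν) := by
    have lS0 : 0 ≤ lS := le_trans (by positivity) hl
    calc _ ≤ |c| * lS := by gcongr
      _ = |l - (l - c * lS)| := by rw [sub_sub_cancel, abs_mul, abs_of_nonneg lS0]
      _ ≤ |l| + |l - c * lS| := abs_sub _ _
      _ ≤ _ := by linarith
  have a4 : |c| * (x / W ^ 2) ≤ x ^ 2 * (|l| + 2 * (x / W ^ 3 * ν)) := by
    calc _ = x ^ 2 * (|c| * (1 / (W ^ 2 * x))) := by field_simp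
      _ ≤ _ := by gcongr
  have x2 : x ^ 2 ≤ W := (pow_le_pow_right₀ x1 (by norm_num)).trans x6
  have x3 : 12 * x ^ 3 ≤ W := by
    refine (pow_le_pow_iff_left₀ (by positivity) W0.le two_ne_zero).1 ?_
    nlinarith
  have x4 : x ≤ x ^ 3 := le_self_pow₀ x1 (by norm_num)
  calc _ ≤ (W : ℝ) ^ 2 * (x / W ^ 3 * ν + x ^ 2 * (|l| + 2 * (x / W ^ 3 * ν))) := by
        gcongr; linarith
    _ = W ^ 2 * x ^ 2 * |l| + (x + 2 * x ^ 3) / W * ν := by field_simp; ring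
    _ ≤ W ^ 2 * W * |l| + 1 / 4 * ν := by
        have : (x + 2 * x ^ 3) / W ≤ 1 / 4 := by rw [div_le_iff₀ W0]; linarith
        gcongr
    _ = _ := by ring

end Sm31



end Crest.Agent.T145.Fl
end

-- ▼ part T145/FlSmW_31
section

/-!
# Row 145, odd flow: SMALL in a window (helper31)
-/

set_option autoImplicit false

namespace Crest.Agent.T145.Fl

open Finset Pot Xi Real

namespace Sm31

/-- averaging weights with a bound on the Laplacian -/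
theorem wts' : ∃ C : ℝ, 1 ≤ C ∧ ∀ k : ℕ, 1 ≤ k → ∃ h : Pt → ℝ, Pot.Sup (bl 0 k) h ∧ (∀ x, 0 ≤ h x) ∧
    (k : ℝ) ^ 2 ≤ ∑ x ∈ bl 0 k, h x ∧ E0 (bl 0 k) h ≤ C ∧ ∀ x, |A0 h x| ≤ C / (k : ℝ) ^ 2 := by
  obtain ⟨C, hC, h⟩ := sm_chi 2
  refine ⟨1 + 216 * C ^ 2 + 8 * C, by nlinarith, fun k hk => ?_⟩
  have k1 : (1 : ℝ) ≤ k := by exact_mod_cast hk
  have hs : Pot.Sup (bl 0 k) (Xi.chi (k / 2)) := sup_chi (by positivity) (by linarith)
  refine ⟨Xi.chi (k / 2), hs, chi_nonneg _, ?_, ?_, fun x => ?_⟩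
  · have h1 : ∑ x ∈ bl 0 (k / 2), Xi.chi ((k : ℝ) / 2) x = ((2 * (k / 2) + 1 : ℕ) : ℝ) ^ 2 := by
      rw [Finset.sum_congr rfl fun x hx => chi_one (by positivity) (by exact_mod_cast Nat.cast_div_le) hx]
      simp [card_bl]
    refine le_trans ?_ (Finset.sum_le_sum_of_subset_of_nonneg (bl_mono 0 (Nat.div_le_self k 2))
      fun x _ _ => chi_nonneg _ x)
    rw [h1]
    have : k ≤ 2 * (k / 2) + 1 := by omega
    gcongr
  · refine (B80.E0_le (k := C / (k / 2)) hs fun e he x _ =>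
      (h _ (by positivity)).one one_le_two he trivial).trans ?_
    rw [card_bl]; push_cast
    calc 6 * (C / ((k : ℝ) / 2)) ^ 2 * (2 * k + 1) ^ 2 ≤ 6 * (C / ((k : ℝ) / 2)) ^ 2 * (3 * k) ^ 2 := by
          gcongr; linarith
      _ = 216 * C ^ 2 := by field_simp; ring
      _ ≤ _ := by linarith
  · rw [A0_apply, abs_neg]
    refine ((h _ (by positivity)).abs_lap fun _ _ => trivial).trans ?_
    rw [show 2 * (C / ((k : ℝ) / 2) ^ 2) = 8 * C / (k : ℝ) ^ 2 by field_simp; ring]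
    gcongr; nlinarith

/-- the coefficient of the reference insertion from off-centre lower bounds -/
theorem coef {p : Par} {Λ : Lat} {L n : ℕ} (hG : Gs p Λ L) {m : Mdl Pt} {U : Finset Pt}
    (hm : Nc.Amb Λ m U) (h0 : p.r₀ ≤ n) (hL : p.w * n ≤ L) (hU : bl 0 (p.w * n + n) ⊆ U)
    {h : Pt → ℝ} (hs : Pot.Sup (bl 0 n) h) (hp : ∀ x, 0 ≤ h x) {S B : Cfg Pt → ℝ} (hS : Ins 0 n S)
    (hB : Out (bl 0 (2 * n)) B) (hB1 : ∀ s, |B s| ≤ 1) {b : ℝ} (hb : 0 ≤ b)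
    (hl : ∀ z ∈ bl (0 : Pt) n, b ≤ Ex (m.W 0) fun t => trl z S t * B t) (c : ℝ) :
    (∑ x ∈ bl 0 n, h x) * (|c| * b) ≤ |Ex (m.W 0) fun s => pr (A0 h) s * B s| +
      (∑ x ∈ bl 0 n, h x) * (32 * nu Λ p.w 0 n fun s => Jz 0 s - c * S s) := by
  have hΛ := hG.mem.ok
  have n2 := Cone.two_le hG h0
  have w4 := A51.four_le hG n
  have hrg : 2 * Λ.rg ≤ n := hG.gd.2.1.trans h0
  have tB : Tame B := Tame.bdd hB1
  have ig : ∀ {F : Cfg Pt → ℝ}, Tame F → Ig (m.W 0) F := FlF4.ig_tame hm.ctr hm.anch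
  have iD : Ins 0 n fun s => Jz 0 s - c * S s := (ins_Jz 0 (by omega)).sub (hS.smul c)
  set ν := nu Λ p.w 0 n fun s => Jz 0 s - c * S s with hν
  have site : ∀ z ∈ bl (0 : Pt) n, |(Ex (m.W 0) fun s => Jz z s * B s) -
      c * Ex (m.W 0) fun t => trl z S t * B t| ≤ 32 * ν := fun z hz => by
    have a := ((prodStmt p Λ L hG m U Unit ∅ (fun _ => 0) (fun _ => 0) (fun _ _ => 1) B hm
      ⟨by simp, by simp, by simp, by simp, by simp⟩ (by simp) hB1).2 z n h0 hL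
      ((bl_subset_bl hz le_rfl).trans hU) (by simp)).2.1 _ (iD.trl z)
      (hB.mono (bl_subset_bl hz (by omega)))
    rw [((semiStmt Λ p.w n z hΛ (by omega)).2 _ iD).2.1, ← hν, trl_sub, trl_smul, trl_Jz] at a
    simp only [Finset.prod_empty, one_mul, mul_one] at a
    rw [← Ex_const_mul, ← Ex_sub (ig ((tame_Jz z).mul tB)) (ig (((tame_trl hS.2 z).mul tB).const_mul c))]
    exact (le_of_eq (congrArg abs (congrArg _ (funext fun s => by ring)))).trans a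
  have e1 : Ex (m.W 0) (fun s => pr (A0 h) s * B s) =
      ∑ z ∈ bl 0 n, h z * Ex (m.W 0) fun s => Jz z s * B s := by
    simp only [pr_A0 hs, Finset.sum_mul, mul_assoc]
    rw [Ex_sum _ fun z _ => ig (((tame_Jz z).mul tB).const_mul _)]
    exact Finset.sum_congr rfl fun z _ => Ex_const_mul _ _ _
  set A := ∑ z ∈ bl 0 n, h z * Ex (m.W 0) fun t => trl z S t * B t with hA
  have a1 : (∑ x ∈ bl 0 n, h x) * b ≤ A := by
    rw [Finset.sum_mul]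
    exact Finset.sum_le_sum fun z hz => mul_le_mul_of_nonneg_left (hl z hz) (hp z)
  have T0 : 0 ≤ ∑ x ∈ bl 0 n, h x := Finset.sum_nonneg fun x _ => hp x
  have a2 : |Ex (m.W 0) (fun s => pr (A0 h) s * B s) - c * A| ≤ (∑ x ∈ bl 0 n, h x) * (32 * ν) := by
    rw [e1, hA, Finset.mul_sum, ← Finset.sum_sub_distrib, Finset.sum_mul]
    refine (Finset.abs_sum_le_sum_abs _ _).trans (Finset.sum_le_sum fun z hz => ?_)
    rw [mul_left_comm, ← mul_sub, abs_mul, abs_of_nonneg (hp z)]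
    exact mul_le_mul_of_nonneg_left (site z hz) (hp z)
  have A0' : 0 ≤ A := (mul_nonneg T0 hb).trans a1
  calc _ = |c| * ((∑ x ∈ bl 0 n, h x) * b) := by ring
    _ ≤ |c| * A := by gcongr
    _ = |Ex (m.W 0) (fun s => pr (A0 h) s * B s) -
          (Ex (m.W 0) (fun s => pr (A0 h) s * B s) - c * A)| := by
        rw [sub_sub_cancel, abs_mul, abs_of_nonneg A0']
    _ ≤ _ := (abs_sub _ _).trans (add_le_add le_rfl a2)

theorem num {W r t x c₀ c ν ν' ε T : ℝ} (r0 : 0 < r) (t1 : 1 ≤ t) (hW : t ^ 10 = W)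
    (xt : x ≤ t) (c0 : 0 < c₀) (ht : 2 + 262144 / c₀ ≤ t) (ν0 : 0 ≤ ν) (ε0 : 0 < ε)
    (hT : (W * r) ^ 2 ≤ T) (h1 : ν' ≤ x / W ^ 3 * ν + |c| * (x / W ^ 2))
    (h2 : T * (|c| * (c₀ / (4096 * W ^ 2 * t))) ≤ ε * c₀ / (4096 * W) + T * (32 * (x / W ^ 3 * ν))) :
    (W * r) ^ 2 * ν' ≤ ε + r ^ 2 * ν / 2 := by
  have t0 : 0 < t := by linarith
  have W0 : 0 < W := hW ▸ pow_pos t0 10
  have T0 : 0 < T := lt_of_lt_of_le (by positivity) hT
  have h3 : |c| * (c₀ / (4096 * W ^ 2 * t)) ≤ ε * c₀ / (4096 * W) / (W * r) ^ 2 + 32 * (t / W ^ 3 * ν) := by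
    have : |c| * (c₀ / (4096 * W ^ 2 * t)) ≤ ε * c₀ / (4096 * W) / T + 32 * (x / W ^ 3 * ν) := by
      rw [div_add' _ _ _ T0.ne', le_div_iff₀ T0]; linarith
    refine this.trans ?_
    gcongr
  have h4 : |c| * (x / W ^ 2) ≤ 4096 * t ^ 2 / c₀ *
      (ε * c₀ / (4096 * W) / (W * r) ^ 2 + 32 * (t / W ^ 3 * ν)) := by
    calc _ ≤ |c| * (t / W ^ 2) := by gcongr
      _ = 4096 * t ^ 2 / c₀ * (|c| * (c₀ / (4096 * W ^ 2 * t))) := by field_simp
      _ ≤ _ := by gcongr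
  have p2 : t ^ 2 / W ≤ 1 := by
    rw [div_le_one W0, ← hW]; exact pow_le_pow_right₀ t1 (by norm_num)
  have p3 : (t + 131072 / c₀ * t ^ 3) / W ≤ 1 / 2 := by
    rw [div_le_iff₀ W0, ← hW]
    have a1 : t ≤ t ^ 3 := le_self_pow₀ t1 (by norm_num)
    have a2 : t ^ 4 ≤ t ^ 10 := pow_le_pow_right₀ t1 (by norm_num)
    have a3 : (2 + 262144 / c₀) * t ^ 3 ≤ t * t ^ 3 := by gcongr
    have a4 : 262144 / c₀ = 2 * (131072 / c₀) := by ring
    nlinarith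
  calc _ ≤ (W * r) ^ 2 * (t / W ^ 3 * ν + 4096 * t ^ 2 / c₀ *
        (ε * c₀ / (4096 * W) / (W * r) ^ 2 + 32 * (t / W ^ 3 * ν))) := by
        refine mul_le_mul_of_nonneg_left (h1.trans (add_le_add ?_ h4)) (sq_nonneg _)
        gcongr
    _ = t ^ 2 / W * ε + (t + 131072 / c₀ * t ^ 3) / W * (r ^ 2 * ν) := by field_simp; ring
    _ ≤ 1 * ε + 1 / 2 * (r ^ 2 * ν) := by gcongr
    _ = _ := by ring

end Sm31

open Sm31 in
/-- SMALL in a window -/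
theorem smallWStmt (hLow : LowStmt) (hSg : SgStmt) : SmallWStmt := fun p θ₀ hθ => by
  obtain ⟨c₀, c0, hlow⟩ := hLow p.F θ₀ (1 / 10) hθ (by norm_num)
  obtain ⟨K, K1, hw⟩ := wts'
  obtain ⟨W₀, W1, hW₀⟩ := Cone.ev_rpow (2 + 262144 / c₀) (show (0 : ℝ) < 1 / 10 by norm_num)
  refine ⟨W₀, fun W hW => ?_⟩
  have w1 : (1 : ℝ) ≤ W := by exact_mod_cast W1.trans hW
  have W0 : (0 : ℝ) < W := by linarith
  obtain ⟨δ₀, s, hδ₀, hlow⟩ := hlow (16 * W) (by linarith)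
  refine ⟨δ₀, s + 1, hδ₀, fun ε₁ hε => ?_⟩
  obtain ⟨δ₁, hδ₁, hsg⟩ := hSg p.F θ₀ K (ε₁ * c₀ / (4096 * W)) hθ K1 (by positivity)
  refine ⟨min δ₀ δ₁, lt_min hδ₀ hδ₁, fun l r₁ => ?_⟩
  obtain ⟨ra, hlow⟩ := hlow l
  obtain ⟨rb, hsg⟩ := hsg l
  refine ⟨r₁ + p.r₀ + 4 * ra + rb, by omega, fun Λ N L hG hc hL hks r hr hrL => ?_⟩
  have hΛ := hG.mem.ok
  have h0 : p.r₀ ≤ r := by omega
  have r2 := Cone.two_le hG h0
  have r0 : (0 : ℝ) < r := by exact_mod_cast (show 0 < r by omega)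
  have hrg : 2 * Λ.rg ≤ r := hG.gd.2.1.trans h0
  have w4 := A51.four_le hG r
  have w4' := A51.four_le hG (W * r)
  have rW : r ≤ W * r := Nat.le_mul_of_pos_left r (by omega)
  have p1 : 1 ≤ 2 ^ s := Nat.one_le_two_pow
  have L2 : 2 ^ s * L + 2 ^ s * L ≤ 2 ^ N := by rw [← two_mul, ← mul_assoc, ← pow_succ']; exact hL
  have L1 : L ≤ 2 ^ s * L := Nat.le_mul_of_pos_left L p1
  have hm := FlF4.amb_bx (z := 0) (p := 2 ^ N) hΛ le_rfl
  set m := FlF4.bx Λ 0 (2 ^ N + Λ.rg)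
  obtain ⟨h, hs, hp, hT, hE, hA⟩ := hw (W * r) (by omega)
  have iS : Ins 0 r (Sn (r / 4)) := ins_Sn4 (by omega)
  have iJ : Ins 0 r (Jz 0) := ins_Jz 0 (by omega)
  obtain ⟨-, c, hc1⟩ := hks r h0 (by omega) hrL _ iJ (odd_Jz 0) (d4_Jz 0)
  have hS := (hks r h0 (by omega) hrL _ iS (odd_Sn _) (d4_Sn _)).1
  have s1 := (semiStmt Λ p.w r 0 hΛ (by omega)).1
  have s2 := (semiStmt Λ p.w (W * r) 0 hΛ (by omega)).1
  have hS1 := (s1 _ iS).2.2.2.1 1 (abs_Sn_le _)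
  have n1 : (1 : ℝ) ≤ (W : ℝ) * r := by exact_mod_cast (show 1 ≤ W * r by omega)
  have hO : Out (bl 0 (2 * (W * r))) (Sn (4 * (W * r))) := out_Sn (by linarith) (by push_cast; linarith)
  set t := (W : ℝ) ^ (1 / 10 : ℝ) with ht
  have t1 : 1 ≤ t := one_le_rpow w1 (by norm_num)
  have t10 : t ^ 10 = W := by rw [ht, ← rpow_natCast, ← rpow_mul W0.le]; norm_num
  have low : ∀ z ∈ bl (0 : Pt) (W * r), c₀ / (4096 * W ^ 2 * t) ≤
      Ex (m.W 0) fun u => trl z (Sn (r / 4)) u * Sn (4 * (W * r)) u := fun z hz => by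
    refine le_trans ?_ (hlow Λ N hG.mem ⟨hc.1.mono_d (min_le_left _ _), hc.2⟩ (r / 4) (4 * (W * r)) z
      (2 ^ N) m ?_ (by nlinarith) (le_of_eq (by ring)) ?_ ?_ le_rfl hm)
    · rw [show (r : ℝ) / 4 / (4 * (W * r)) = (16 * (W : ℝ))⁻¹ by field_simp; norm_num,
        inv_rpow (by positivity), rpow_add (by positivity), rpow_two, mul_rpow (by norm_num) W0.le, ← ht,
        ← div_eq_mul_inv]
      have : (16 : ℝ) ^ (1 / 10 : ℝ) ≤ 16 :=
        (rpow_le_rpow_of_exponent_le (by norm_num) (by norm_num)).trans_eq (rpow_one _)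
      refine div_le_div_of_nonneg_left c0.le (by positivity) ?_
      calc _ ≤ (16 * (W : ℝ)) ^ 2 * (16 * t) := by gcongr
        _ = _ := by ring
    · have : ((4 * ra : ℕ) : ℝ) ≤ r := by exact_mod_cast (show 4 * ra ≤ r by omega)
      push_cast at this; linarith
    · have := eu_le_of_bl hz
      rw [sub_zero] at this; push_cast at this; linarith
    · have : 2 ^ s * (4 * (W * r)) ≤ 2 ^ N :=
        (Nat.mul_le_mul_left _ (w4'.trans hrL)).trans (by omega)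
      exact_mod_cast this
  have a1 := coef hG hm (h0.trans rW) hrL (bl_mono 0 (by omega)) hs hp (iS.mono rW) hO (abs_Sn_le _)
    (by positivity) low c
  have a2 := (hsg Λ N hG.mem (hc.1.mono_d (min_le_right _ _)) 0 (W * r) h m (by omega) (by omega) hs hA hE
    (FlF4.amb_mono hm (bl_mono 0 (by omega)))).2 _ (hO.mono (bl_mono 0 (by omega))) (abs_Sn_le _)
  have e0 := Beta3.ew_nonneg p.w
  have e1 := Beta3.ew_le p.w
  set x := (W : ℝ) ^ (ew p.w / 10) with hx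
  have x0 : 0 ≤ x := rpow_nonneg W0.le _
  have p2 : (W : ℝ) ^ (-2 + ew p.w / 10) = x / W ^ 2 := by
    rw [rpow_add W0, rpow_neg W0.le, rpow_two]; ring
  have p3 : (W : ℝ) ^ (-3 + ew p.w / 10) = x / W ^ 3 := by
    rw [rpow_add W0, rpow_neg W0.le, show (3 : ℝ) = (3 : ℕ) by norm_num, rpow_natCast]; ring
  rw [p2] at hS; rw [p3] at hc1
  have iS' := iS.mono rW
  have iD := (iJ.mono rW).sub (iS'.smul c)
  have T0 : 0 ≤ ∑ x ∈ bl 0 (W * r), h x := Finset.sum_nonneg fun x _ => hp x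
  push_cast at hT ⊢
  refine num (x := x) (c := c) r0 t1 t10 (rpow_le_rpow_of_exponent_le w1 (by linarith)) c0 (hW₀ W hW)
    (s1 _ iJ).1 hε hT ?_ (a1.trans (add_le_add a2 (by gcongr)))
  have := ((s2 _ iD).2.2.2.2 _ (iS'.smul c)).1
  simp only [sub_add_cancel] at this
  rw [(s2 _ iS').2.2.1 c] at this
  refine this.trans (add_le_add hc1 (mul_le_mul_of_nonneg_left (hS.trans ?_) (abs_nonneg _)))
  exact mul_le_of_le_one_right (by positivity) hS1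

end Crest.Agent.T145.Fl
end

-- ▼ part T145/FlSoft_45
section

/-!
# Row 145, module Fl: the soft atoms SG (neutral charges are Gaussian) and SC (charges are small) (helper45)
-/

set_option autoImplicit false

namespace Crest.Agent.T145.Fl

open Finset Real

namespace Soft45


/-- SC: at every scale of a window, in every model that is ambient on `M` times the support -/
def ScW : Prop := ∀ (F : Fa) (θ₀ ε : ℝ), 0 < θ₀ → 0 < ε → ∃ M : ℕ, 1 ≤ M ∧ ∀ K : ℝ, 1 ≤ K →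
  ∃ δ : ℝ, 0 < δ ∧ ∀ Λ, F.Mem Λ → ∀ l L, Λ.Win θ₀ δ l L → ∀ n : ℕ, (l : ℝ) ≤ δ * n → M * n ≤ L →
    ∀ (z : Pt) (ξ : Pt → ℝ) (q : ℤ) (φ : ℝ) (m : Mdl Pt), q ≠ 0 → Chq (bl z n) ξ q →
      (∀ x, |ξ x| ≤ K / (n : ℝ) ^ 2) → Nc.Amb Λ m (bl z (M * n)) → |Ex (m.W 0) (cp ξ φ)| ≤ ε

theorem op_eq {D : Finset Pt} {v : Pt → ℝ} (hv : Pot.Sup D v) :
    Pot.op (Pot.eD Pot.nL D) v = A0 v := by
  funext x
  have h1 : Pot.op (Pot.eD Pot.nL D) v x = Pot.op (Pot.eD Pot.nL (insert x D)) v x := by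
    rw [Pot.op, Pot.op, (Pot.sy_eD _).symm, (Pot.sy_eD (insert x D)).symm,
      Pot.eD_of_sup Pot.nL_ok (subset_insert x D) _ hv]
  rw [h1, Pot.op_eD Pot.nL_ok (mem_insert_self x D), Pot.A0_eq]
  rfl

theorem xg_A0 {D : Finset Pt} {v : Pt → ℝ} (hv : Pot.Sup D v) (c : ℝ) :
    Kr.xg D (c • A0 v) = c • A0 v ∧ Pot.GD Pot.nL D (c • A0 v) (c • A0 v) = c ^ 2 * E0 D v := by
  have hc := Pot.co_eD Pot.nL_ok D
  have h1 : Pot.gr D (Pot.eD Pot.nL D) (c • A0 v) = c • v := by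
    rw [hc.gr_smul, ← op_eq hv, hc.gr_op hv]
  refine ⟨by rw [Kr.xg, h1, Pot.op_smul, op_eq hv], ?_⟩
  rw [Pot.GD, Pot.G, h1, Pot.ip, E0, mul_sum]
  exact sum_congr rfl fun x _ => by simp only [Pi.smul_apply, smul_eq_mul]; ring

theorem ex_cp {W : Cfg Pt → ℝ} (h : Cen W) (ξ : Pt → ℝ) (φ : ℝ) :
    Ex W (cp ξ φ) = cos φ * Ph W ((2 * π) • pr ξ) := by
  have h1 : cp ξ φ = fun s => cos φ * cos (((2 * π) • pr ξ) s) - sin φ * sin (((2 * π) • pr ξ) s) := by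
    funext s
    simp only [cp, cos_add, AddMonoidHom.smul_apply, smul_eq_mul]
    ring
  rw [h1, Ex_sub (h.ig ((Tame.cos _).const_mul _)) (h.ig ((Tame.sin _).const_mul _)), Ex_const_mul,
    Ex_const_mul, h.ex_odd (F := fun s => sin (((2 * π) • pr ξ) s)) fun s => by rw [map_neg, sin_neg]]
  simp [Ph]

theorem depG_cp {U : Finset Pt} {ξ : Pt → ℝ} {q : ℤ} (h : Chq U ξ q) (φ : ℝ) : DepG U (cp ξ φ) := by
  intro s s' k e
  have h1 : pr ξ s' = pr ξ s + ((q * k : ℤ) : ℝ) := by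
    rw [pr_of_fsupp ξ _ h.1, pr_of_fsupp ξ _ h.1, Int.cast_mul, ← h.2, sum_mul, ← sum_add_distrib]
    exact sum_congr rfl fun x hx => by rw [e x hx]; push_cast; ring
  simp only [cp, h1]
  rw [show 2 * π * (pr ξ s + ((q * k : ℤ) : ℝ)) + φ = 2 * π * pr ξ s + φ + ((q * k : ℤ) : ℝ) * (2 * π) by
    ring, cos_add_int_mul_two_pi]

theorem abs_q_le {z : Pt} {n : ℕ} {ξ : Pt → ℝ} {q : ℤ} {K : ℝ} (hn : 1 ≤ n) (hK : 0 ≤ K)
    (h : Chq (bl z n) ξ q) (hb : ∀ x, |ξ x| ≤ K / (n : ℝ) ^ 2) : |(q : ℝ)| ≤ 9 * K := by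
  have hn' : (1 : ℝ) ≤ n := by exact_mod_cast hn
  rw [← h.2]
  refine (abs_sum_le_sum_abs _ _).trans ((sum_le_card_nsmul _ _ _ fun x _ => hb x).trans ?_)
  rw [card_bl, nsmul_eq_mul, mul_div_assoc', div_le_iff₀ (by positivity)]
  push_cast
  nlinarith [mul_nonneg hK (show (0 : ℝ) ≤ 5 * n ^ 2 - 4 * n - 1 by nlinarith)]

/-- the conditional mean of `X` given the outside of `D` is small when the variances agree -/
theorem dec {Λ : Lat} (h : Λ.Ok) {D : Finset Pt} {m : Mdl Pt} (hm : Nc.Amb Λ m D) (X : Cfg Pt →+ ℝ)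
    {G : Cfg Pt → ℝ} (hG : Out D G) (hb : ∀ s, |G s| ≤ 1) :
    Ex (m.W 0) (fun s => X s * G s) ^ 2 ≤ Vr (m.W 0) X X - Vr ((Λ.D D).W 0) X X := by
  have hC := hm.ctr.cen hm.anch
  have hW := hC.wt
  have t2 : Tame fun s => X s * X s := (Tame.hom X).mul (Tame.hom X)
  obtain ⟨i1, e1⟩ := hm.near.dlr h hm.ctr.1 hm.sub hW (hC.ig t2)
  obtain ⟨-, e2⟩ := hm.near.dlr_mul h hm.ctr.1 hm.sub hW (F := fun s => X s) hG
    (hC.ig ((Tame.bdd hb).mul (Tame.hom X)))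
  have k : ∀ s, Ex ((Λ.D D).W s) (fun t => X t) ^ 2 ≤
      Ex ((Λ.D D).W s) (fun t => X t * X t) - Vr ((Λ.D D).W 0) X X := fun s => by
    have k := (corQStmt _ _ _ (Md.ctr_rsd_W (h.ctr_D D)) (fun q => h.se_D D q) (h.cen_D D).pos0 s 0 X
      (h.wt_D D s).pos).1
    rw [tilt_zero] at k
    have k' : Vr ((Λ.D D).W 0) X X ≤ Vr ((Λ.D D).W s) X X := k
    rw [Vr, Vr, Cv, Cv] at k'
    rw [Vr, Cv]; linarith
  have i2 := i1.sub (hW.ig_const (Vr ((Λ.D D).W 0) X X))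
  have i3 := i2.of_le hW.nonneg (fun _ => sq_nonneg _) k
  have b2 : ∀ s, |G s ^ 2| ≤ 1 := fun s => by rw [abs_pow]; exact pow_le_one₀ (abs_nonneg _) (hb s)
  have h1 := Ex_mul_sq_le hW.nonneg (hW.ig_bdd b2) i3
  have h2 := Ex_mono hW.nonneg i3 i2 k
  rw [Ex_sub i1 (hW.ig_const _), hW.ex_const, ← e1, ← hC.Vr_eq] at h2
  have h3 : Ex (m.W 0) (fun s => G s ^ 2) ≤ 1 := (le_abs_self _).trans (hW.abs_ex_le fun s _ => b2 s)
  rw [show (fun s => X s * G s) = fun s => G s * X s from funext fun s => mul_comm _ _, e2]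
  exact h1.trans ((mul_le_of_le_one_left (Ex_nonneg hW.nonneg fun _ _ => sq_nonneg _) h3).trans h2)

theorem sgC (hA : Kr.GffAStmt) (hT : T1mStmt) (F : Fa) {θ₀ K ε : ℝ} (hθ : 0 < θ₀) (hK : 1 ≤ K)
    (hε : 0 < ε) : ∃ δ : ℝ, 0 < δ ∧
    ∀ Λ, F.Mem Λ → ∀ l L, Λ.Win θ₀ δ l L → ∀ r : ℝ, (l : ℝ) ≤ δ * r → r ≤ K * L →
    ∀ (z : Pt) (n : ℕ) (v : Pt → ℝ) (m : Mdl Pt) (c : ℝ), |c| ≤ 8 → (n : ℝ) ≤ K * r →
      Pot.Sup (bl z n) v → (∀ x ∈ bl z n, |A0 v x| ≤ K / r ^ 2) → Nc.Amb Λ m (bl z n) →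
      Gs3 (m.W 0) (c • pr (A0 v)) (c ^ 2 * (Λ.gN l * E0 (bl z n) v)) ε := by
  have hK2 : 1 ≤ 8 * K ^ 2 := by nlinarith
  obtain ⟨δ₁, hδ₁, H⟩ := hA F (θ₀ / 2) (8 * K ^ 2) ε (by positivity) hK2 hε
  obtain ⟨δ₂, hδ₂, W⟩ := hT.2.2 F θ₀ δ₁ 0 hθ hδ₁
  refine ⟨min (min δ₂ 1) (δ₁ / (2 * K)), by positivity,
    fun Λ hΛ l L hw r hl hr z n v m c hc hn hv hb hm => ?_⟩
  have hO := hΛ.ok
  set δ := min (min δ₂ 1) (δ₁ / (2 * K)) with hδ
  have hδ0 : 0 < δ := by positivity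
  have d1 : δ ≤ 1 := (min_le_left _ _).trans (min_le_right _ _)
  have d2 : δ * (2 * K) ≤ δ₁ := (le_div_iff₀ (by positivity)).1 (min_le_right _ _)
  have hl1 : (1 : ℝ) ≤ l := by exact_mod_cast F45.win_l hw
  have hL1 : (1 : ℝ) ≤ L := by exact_mod_cast F45.win_L hw
  have hr1 : 1 ≤ r := by
    by_contra h
    nlinarith [not_le.1 h]
  obtain ⟨j, j1, j2⟩ := exists_nat_pow_near (le_min hr1 hL1) one_lt_two
  have k1 : ((2 ^ j : ℕ) : ℝ) ≤ r := by push_cast; exact j1.trans (min_le_left _ _)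
  have k2 : 2 ^ j ≤ L := by exact_mod_cast j1.trans (min_le_right _ _)
  have k0 : (0 : ℝ) < (2 ^ j : ℕ) := by positivity
  have k3 : r ≤ 2 * K * (2 ^ j : ℕ) := by
    have : r ≤ K * min r L := by
      rcases le_total r L with h | h
      · rw [min_eq_left h]; nlinarith
      · rwa [min_eq_right h]
    rw [pow_succ] at j2
    push_cast; nlinarith
  have hw' := (W Λ hΛ l L (F45.win_mono hw ((min_le_left _ _).trans (min_le_left _ _)))).2.2 j k2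
    (Or.inr ⟨by nlinarith [hw.2.1.1], by nlinarith⟩)
  obtain ⟨e1, e2⟩ := xg_A0 hv c
  have hE : ∀ e ∈ Λ.edT (bl z n), e ∈ m.ed := fun e he =>
    (hm.near.1 e (Lat.mem_edT.1 he).2).2 (Lat.mem_edT.1 he).1
  have h3 := (H Λ hΛ l (2 ^ j) hw' (bl z n) (c • A0 v)
    ⟨z, 2 ^ j, bl_mono z (Nat.le_floor (by nlinarith)), by nlinarith, Pot.ext_bl _ _ _⟩
    fun x hx => by
      rw [Pi.smul_apply, smul_eq_mul, abs_mul]
      calc |c| * |A0 v x| ≤ 8 * K * (K / ((2 ^ j : ℕ) : ℝ) ^ 2) :=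
            mul_le_mul (by nlinarith) ((hb x hx).trans (by gcongr)) (abs_nonneg _) (by positivity)
        _ = _ := by ring).2 m hm.ctr hm.anch hE
    (fun e he => hm.near.2.1 e (hE e he) (Lat.mem_edT.1 he).2) (hm.near.loc hO hm.ctr hm.anch hm.sub)
  rwa [e1, e2, pr_smul, mul_left_comm] at h3


theorem le_mul_of_ceil {δ : ℝ} (hδ : 0 < δ) {l n : ℕ} (h : ⌈(l : ℝ) / δ⌉₊ ≤ n) : (l : ℝ) ≤ δ * n :=
  (div_le_iff₀' hδ).1 (Nat.ceil_le.1 h)

theorem amb_mono {Λ : Lat} {m : Mdl Pt} {D D' : Finset Pt} (h : Nc.Amb Λ m D') (hD : D ⊆ D') :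
    Nc.Amb Λ m D := ⟨h.ctr, h.anch, hD.trans h.sub, h.near.mono hD⟩

theorem scW (h2 : T2pStmt) (hR : R1cStmt) (hP : Nc.PDecStmt) (hT : T1mStmt) : ScW := by
  intro F θ₀ ε hθ hε
  obtain ⟨C, c, hc, P⟩ := hP F θ₀ hθ
  have ht : 0 < ε / (2 * ((C : ℝ) + 1)) := by positivity
  obtain ⟨M₁, hM₁⟩ := exists_nat_ge (((C : ℝ) + 1) / (ε / (2 * ((C : ℝ) + 1))) ^ c⁻¹ + (C + 1) * (C + 1))
  have hp : 0 < (ε / (2 * ((C : ℝ) + 1))) ^ c⁻¹ := rpow_pos_of_pos ht _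
  have m0 : 0 ≤ ((C : ℝ) + 1) / (ε / (2 * ((C : ℝ) + 1))) ^ c⁻¹ := by positivity
  have m1 : (C + 1) * (C + 1) ≤ M₁ := by exact_mod_cast (show ((C : ℝ) + 1) * (C + 1) ≤ M₁ by linarith)
  have m1' : (0 : ℝ) < M₁ := by exact_mod_cast (show 0 < M₁ by nlinarith)
  have m2 : (C : ℝ) * (((C : ℝ) + 1) / M₁) ^ c ≤ ε / 2 := by
    have h1 : ((C : ℝ) + 1) / M₁ ≤ (ε / (2 * ((C : ℝ) + 1))) ^ c⁻¹ := by
      rw [div_le_comm₀ m1' hp]; nlinarith [show (0 : ℝ) ≤ ((C : ℝ) + 1) * (C + 1) by positivity]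
    have h2 := rpow_le_rpow (by positivity) h1 hc.le
    rw [rpow_inv_rpow ht.le hc.ne'] at h2
    calc _ ≤ ((C : ℝ) + 1) * (ε / (2 * ((C : ℝ) + 1))) :=
          mul_le_mul (by linarith) h2 (by positivity) (by positivity)
      _ = ε / 2 := by field_simp
  refine ⟨(6 + C) * (M₁ + 2), by nlinarith, fun K hK => ?_⟩
  set K₁ : ℝ := 8 * K * (6 * ((M₁ : ℝ) + 2)) ^ 2 with hK₁
  have hK₁0 : 0 ≤ K₁ := by positivity
  have hJ : (0 : ℝ) ≤ 2 * F.J.card * (100 * K₁) ^ 2 := by positivity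
  obtain ⟨δ₁, hδ₁, H⟩ := h2 F (θ₀ / 2) (9 * K + 2 * F.J.card * (100 * K₁) ^ 2) (ε / 2) (by positivity)
    (by linarith) (by positivity)
  obtain ⟨δ₂, hδ₂, W⟩ := hT.2.2 F θ₀ δ₁ 0 hθ hδ₁
  refine ⟨min (min δ₂ δ₁) (1 / ((F.base.rg : ℝ) + 1)), by positivity,
    fun Λ hΛ l L hw n hl hL z ξ q φ m hq hξ hb hm => ?_⟩
  have hO := hΛ.ok
  set δ := min (min δ₂ δ₁) (1 / ((F.base.rg : ℝ) + 1)) with hδ
  have hs : Sep δ l n := ⟨hw.2.1.1, hl⟩
  have hn : Λ.rg + 1 ≤ n := by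
    have h1 := hs.large (n := F.base.rg + 1) (by
      push_cast; rw [mul_comm]; exact (le_div_iff₀ (by positivity)).1 (min_le_right _ _))
    rw [hΛ.rg_eq]; nlinarith [h1.2, hs.one_le_l]
  have hn1 : 1 ≤ n := by omega
  have hn0 : (0 : ℝ) < n := by exact_mod_cast hn1
  set b := (M₁ + 2) * n with hb'
  obtain ⟨j, j1, j2⟩ := exists_nat_pow_near (show 1 ≤ 2 * b + 1 by omega) one_lt_two
  have b1 : M₁ * n + 2 * n = b := by rw [hb']; ring
  have k1 : 2 ^ (j + 1) ≤ 6 * b := by rw [pow_succ]; omega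
  have hMb : (6 + C) * (M₁ + 2) * n = 6 * b + C * b := by rw [hb']; ring
  set L' := 2 ^ (j + 1) with hL'
  have hL'1 : 1 ≤ L' := by omega
  have hw' := (W Λ hΛ l L (F45.win_mono hw ((min_le_left _ _).trans (min_le_left _ _)))).2.2 (j + 1)
    (by omega) (Or.inr ((hs.mono ((min_le_left _ _).trans (min_le_right _ _))).mono_right (by omega)))
  set a : Pt := (z.1 - b, z.2 - b) with ha
  have hsub : bl z b ⊆ sq a L' := fun x hx => by
    rw [mem_bl] at hx; rw [mem_sq]; simp only [ha]; omega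
  have haa : a ∈ sq a L' := self_mem_sq a hL'1
  have hm' : Nc.Amb Λ (Λ.Nr (sq a L') a) (bl z (M₁ * n + Λ.rg)) :=
    ⟨hO.ctr_Nr _ _, hO.anch_Nr haa, fun x hx => mem_erase.2 ⟨fun e => by
      rw [e, mem_bl] at hx; simp only [ha] at hx; omega, hsub (bl_mono z (by omega) hx)⟩,
      Lat.near_Nr (Lat.edT_subset_edI fun x hx => (bl_subset_bl hx (by omega)).trans hsub) a⟩
  have hcp : ∀ s, |cp ξ φ s| ≤ 1 := fun s => abs_cos_le_one _
  have hcN := hO.cen_Nr_bl (self_mem_bl z ((C + 1) * n))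
  have h3 := (P Λ hΛ (2 * L) n ((C + 1) * n) (M₁ * n) z (cp ξ φ) (Or.inl hw.2.2.1) hn1 (by nlinarith)
    (by nlinarith) (by nlinarith) (depG_cp hξ φ) (hcN.ig (Tame.bdd hcp)) m
    ⟨hm.ctr, hm.anch, (bl_mono z (by omega)).trans hm.sub, hm.near.mono (bl_mono z (by omega))⟩).2.1 _ hm'
  have h4 : Nc.Nm Λ z ((C + 1) * n) (cp ξ φ) ≤ 1 :=
    (le_abs_self _).trans (hcN.wt.abs_ex_le fun s _ => by rw [abs_abs]; exact hcp s)
  have e : (((C + 1) * n : ℕ) : ℝ) / (M₁ * n : ℕ) = ((C : ℝ) + 1) / M₁ := by push_cast; field_simp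
  rw [e] at h3
  have h5 := h3.trans ((mul_le_of_le_one_right (by positivity) h4).trans m2)
  have hmap : (sq 0 L').map (Equiv.addRight a).toEmbedding = sq a L' := by rw [map_sq_add, zero_add]
  have hsum : ∑ x ∈ sq a L', ((2 * π) • ξ) x = 2 * π * q := by
    simp only [Pi.smul_apply, smul_eq_mul]
    rw [← mul_sum, ← hξ.2, sum_subset ((bl_mono z (by omega)).trans hsub) fun x _ hx => hξ.1 x hx]
  have h6 := (Λ.sym_add a).Ph_Nr hO hmap (self_mem_sq 0 hL'1) haa hsum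
  have h7 := hR Λ L' K₁ q (fun x => ((2 * π) • ξ) (Equiv.addRight a x)) (fun _ => 0) hO hL'1
    (fun x hx => by
      have : Equiv.addRight a x ∉ bl z n := fun h => hx (by
        have h1 := hsub (bl_mono z (by omega) h)
        rw [← hmap] at h1
        exact (mem_map' _).1 h1)
      simp only [Pi.smul_apply, hξ.1 _ this, smul_zero])
    (fun x => by
      have h1 : (L' : ℝ) ≤ 6 * ((M₁ : ℝ) + 2) * n := by
        have : L' ≤ 6 * (M₁ + 2) * n := by rw [mul_assoc]; exact k1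
        exact_mod_cast this
      have h0 : (0 : ℝ) < L' := by exact_mod_cast hL'1
      rw [Pi.smul_apply, smul_eq_mul, abs_mul, abs_of_pos two_pi_pos]
      calc 2 * π * |ξ (Equiv.addRight a x)| ≤ 8 * (K / (n : ℝ) ^ 2) :=
            mul_le_mul (by nlinarith [pi_le_four]) (hb _) (abs_nonneg _) (by positivity)
        _ = K₁ / (6 * ((M₁ : ℝ) + 2) * n) ^ 2 := by rw [hK₁]; field_simp
        _ ≤ _ := by gcongr)
    (fun _ => by simpa using hK₁0)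
    (by rw [sum_const_zero, add_zero, ← hsum, ← hmap, sum_map]; rfl)
  have e2 : side L' (fun _ => 0) = 0 := by funext x; simp [side]
  rw [e2, add_zero] at h7
  obtain ⟨ψ, p1, p2⟩ := h7
  have h8 := H Λ hΛ l L' hw' q _ hq ((abs_q_le hn1 (by linarith) hξ hb).trans (by linarith))
    ⟨ψ, p1, (F45.sum_sq_le hΛ hL'1 p2).trans (by linarith)⟩
  have hc' := hO.cen_Nr haa
  have h9 : |Ex ((Λ.Nr (sq a L') a).W 0) (cp ξ φ)| ≤ ε / 2 := by
    rw [ex_cp hc', abs_mul, abs_of_pos (hc'.ph_pos _), ← pr_smul, h6]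
    exact (mul_le_of_le_one_left ((F45.cenN hO hL'1).ph_pos _).le (abs_cos_le_one φ)).trans h8
  linarith [abs_sub_abs_le_abs_sub (Ex (m.W 0) (cp ξ φ)) (Ex ((Λ.Nr (sq a L') a).W 0) (cp ξ φ))]

end Soft45

open Soft45

/-- SG -/
theorem sgStmt (hA : Kr.GffAStmt) (hT : T1mStmt) : SgStmt := by
  intro F θ₀ K ε hθ hK hε
  obtain ⟨δ, hδ, H⟩ := sgC hA hT F hθ hK (show 0 < min ε (ε ^ 2 / 2) by positivity)
  refine ⟨δ, hδ, fun l => ⟨⌈(l : ℝ) / δ⌉₊, fun Λ N hΛ hw z n v m h1 h2 hv hb _ hm => ?_⟩⟩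
  have hO := hΛ.ok
  have hn : (0 : ℝ) ≤ n := n.cast_nonneg
  have key : ∀ m, Nc.Amb Λ m (bl z n) →
      Gs3 (m.W 0) (pr (A0 v)) (Λ.gN l * E0 (bl z n) v) (min ε (ε ^ 2 / 2)) := fun m hm => by
    simpa only [one_smul, one_pow, one_mul] using H Λ hΛ l _ hw n (le_mul_of_ceil hδ h1)
      ((Nat.cast_le.2 h2).trans (le_mul_of_one_le_left (by positivity) hK)) z n v m 1 (by norm_num)
      (le_mul_of_one_le_left hn hK) hv (fun x _ => hb x) hm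
  have hm' := amb_mono hm (bl_mono z n.le_succ)
  obtain ⟨g1, g2, g3⟩ := key m hm'
  have g4 := (key (Λ.D (bl z n)) ⟨hO.ctr_D _, hO.anch_D _, subset_rfl, Lat.near_D subset_rfl⟩).1
  refine ⟨⟨g1.trans (min_le_left _ _), g2.trans (min_le_left _ _), g3.trans (min_le_left _ _)⟩,
    fun G hG hG1 => abs_le_of_sq_le_sq' ((dec hO hm' _ hG hG1).trans ?_) hε.le |> abs_le.2⟩
  linarith [(abs_le.1 (g1.trans (min_le_right _ _))).2, (abs_le.1 (g4.trans (min_le_right _ _))).1]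

/-- SC -/
theorem scStmt (h2 : T2pStmt) (hR : R1cStmt) (hP : Nc.PDecStmt) (hT : T1mStmt) : ScStmt := by
  intro F θ₀ K ε hθ hK hε
  obtain ⟨M, -, H⟩ := scW h2 hR hP hT F θ₀ ε hθ hε
  obtain ⟨δ, hδ, H⟩ := H K hK
  refine ⟨δ, M, hδ, fun l => ⟨⌈(l : ℝ) / δ⌉₊, fun Λ N hΛ hw z R n ξ q φ m h1 h2 h3 hq hξ hb hm => ?_⟩⟩
  have k : M * R ≤ n := (Nat.mul_le_mul_right R Nat.lt_two_pow_self.le).trans h2
  exact H Λ hΛ l _ hw R (le_mul_of_ceil hδ h1) (k.trans h3) z ξ q φ m hq hξ hb (amb_mono hm (bl_mono z k))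

end Crest.Agent.T145.Fl
end

-- ▼ part T145/FlSXb_44
section

/-!
# Row 145, module FLOW (helper44): STEP-x, part b: the sine-sine expectations
-/

set_option autoImplicit false

namespace Crest.Agent.T145.Fl.SX44

open Finset Pot Xi Real

/-- the side conditions on the scales -/
structure Sc (W w R u L a n r : ℝ) : Prop where
  M1 : 1 ≤ 10 ^ 4 * W * w * u ^ 91
  a64 : 64 * a ≤ R
  T1 : 4 * W * R ≤ 10 ^ 4 * W * w * u ^ 91 * (a / 4)
  T2 : 4 * W * R ≤ 10 ^ 4 * W * w * u ^ 91 * R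
  T3 : R ≤ 4 * W * R
  n1 : 8 * (4 * W * R) ≤ n
  n2 : n ≤ 10 ^ 4 * W * w * u ^ 91 * (a / 4)
  n3 : n ≤ 10 ^ 4 * W * w * u ^ 91 * R
  n4 : n + 1 + w * r ≤ L
  n5 : 4 * W * R / n ≤ 1 / u ^ 81
  r1 : R / (10 ^ 4 * W * w * u ^ 91) ≤ r
  r2 : r ≤ 10 ^ 4 * W * w * u ^ 91 * R

theorem sc {W w R u L a n r : ℝ} (hW : 2 ≤ W) (hw : 4 ≤ w) (hR : 1 ≤ R) (hu : 1 ≤ u)
    (h1 : (70 * W) ^ 2 * R ≤ L) (h2 : u ^ 162 * R ≤ L) (ha : 0 < a) (h3 : 16 * w * a ≤ R)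
    (h4 : R ≤ 32 * w * (u ^ 10 * a)) (h5 : 32 * W * R * u ^ 81 ≤ n) (h6 : n ≤ 32 * W * R * u ^ 81 + 1)
    (h7 : a / 8 ≤ r) (h8 : r ≤ a / 4) : Sc W w R u L a n r := by
  have hU : 1 ≤ u ^ 81 := one_le_pow₀ hu
  have hV : 1 ≤ u ^ 10 := one_le_pow₀ hu
  have e : u ^ 91 = u ^ 81 * u ^ 10 := by ring
  have e' : u ^ 162 = (u ^ 81) ^ 2 := by ring
  rw [e'] at h2
  set U := u ^ 81
  set V := u ^ 10
  have hL : 70 * W * U * R ≤ L := by
    refine le_of_pow_le_pow_left₀ two_ne_zero (le_trans (by positivity) h1) ?_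
    calc _ = ((70 * W) ^ 2 * R) * (U ^ 2 * R) := by ring
      _ ≤ L * L := mul_le_mul h1 h2 (by positivity) (le_trans (by positivity) h1)
      _ = _ := by ring
  have p1 : W * R ≤ W * R * U := le_mul_of_one_le_right (by positivity) hU
  have p2 : 2 * R ≤ W * R := by nlinarith
  have p3 : W * R * U ≤ W * (32 * w * (V * a)) * U := by gcongr
  have p4 : 4 ≤ w * V := by nlinarith
  have p5 : W * R * U * 4 ≤ W * R * U * (w * V) := by gcongr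
  have p6 : 0 ≤ W * w * U * V * a := by positivity
  have p7 : w * r ≤ w * (a / 4) := by gcongr
  have p8 : 1 ≤ W * U := by nlinarith
  have p9 : w * V * a * 1 ≤ w * V * a * (W * U) := by gcongr
  have p10 : 4 * a ≤ w * a := by gcongr
  refine ⟨?_, by linarith, ?_, ?_, by linarith, by linarith, ?_, ?_, by linarith, ?_, ?_, ?_⟩ <;>
    try rw [e]
  · nlinarith
  · nlinarith
  · nlinarith
  · nlinarith
  · nlinarith
  · rw [div_le_div_iff₀ (by linarith) (by positivity)]; nlinarith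
  · rw [div_le_iff₀ (by positivity)]
    calc R ≤ 10 ^ 4 * W * w * (U * V) * (a / 8) := by nlinarith
      _ ≤ 10 ^ 4 * W * w * (U * V) * r := by gcongr
      _ = _ := by ring
  · nlinarith

theorem expo_le {g t B : ℝ} (k : ℝ) (hk : 0 ≤ k) (hk4 : k ≤ 4) (h0 : 0 ≤ g) (h1 : g ≤ 1) (hB : 0 ≤ B)
    (ht : -B ≤ t) : -k * π ^ 2 * g * t ≤ 40 * B := by
  have h2 : π ^ 2 ≤ 10 := by nlinarith [pi_lt_d2, pi_pos]
  have h3 : k * π ^ 2 * g ≤ 4 * 10 * 1 := by gcongr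
  have h4 : 0 ≤ k * π ^ 2 * g := by positivity
  nlinarith

theorem pk_ge {C : ℝ} (hC0 : 0 ≤ C) (hC : ∀ r : ℝ, 0 < r → ∀ z : Pt, z ≠ 0 →
    |pk z - cr r - log (eu z / r) / (2 * π)| ≤ C / eu z) {r : ℝ} (hr : 0 < r) {z : Pt}
    (h1 : 1 ≤ eu z) (h2 : r / 2 ≤ eu z) : -(C + 1) ≤ pk z - cr r := by
  have h3 := (abs_le.1 (hC r hr z fun h => by rw [h, eu_zero] at h1; linarith)).1
  have h4 : C / eu z ≤ C := div_le_self hC0 h1
  have h5 : -1 ≤ log (eu z / r) := by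
    have h6 : (2 : ℝ)⁻¹ ≤ eu z / r := by rw [le_div_iff₀ hr]; linarith
    have h7 := log_le_log (by norm_num) h6
    rw [log_inv] at h7
    linarith [log_two_lt_d9]
  have h8 : -1 ≤ log (eu z / r) / (2 * π) := by
    rw [le_div_iff₀ (by positivity)]; linarith [pi_gt_three]
  linarith

theorem small_u {t Y u : ℝ} {i j : ℕ} (hu : 1 ≤ u) (huY : u ^ (2 * j) * Y ≤ 1) (h0 : 0 ≤ t)
    (h1 : t ^ 2 ≤ Y) (h2 : i + 81 ≤ j) : t * u ^ i ≤ 1 / u ^ 81 := by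
  rw [le_div_iff₀ (by positivity), mul_assoc, ← pow_add]
  refine le_trans (mul_le_mul_of_nonneg_left (pow_le_pow_right₀ hu h2) h0) ?_
  refine le_of_pow_le_pow_left₀ two_ne_zero zero_le_one ?_
  calc _ = u ^ (2 * j) * t ^ 2 := by ring
    _ ≤ u ^ (2 * j) * Y := by gcongr
    _ ≤ _ := by linarith

theorem neu_num {CN CX D u Y E X : ℝ} {j : ℕ} (hN : 0 ≤ CN) (hX : 0 ≤ CX) (_hD : 0 ≤ D) (hu : 1 ≤ u)
    (hM : 1 ≤ D * u ^ 91) (hY : 0 ≤ Y) (hY1 : Y ≤ 1) (huY : u ^ (2 * j) * Y ≤ 1) (hj : 809 ≤ j)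
    (h0 : 0 ≤ X) (hE : X ≤ E) :
    CN * (1 + CX * (1 + log (D * u ^ 91))) ^ 3 * (D * u ^ 91) ^ 5 * Y * X ≤
      CN * (1 + CX) ^ 3 * D ^ 8 * E / u ^ 81 := by
  have h1 := log_nonneg hM
  have h2 := log_le_sub_one_of_pos (one_pos.trans_le hM)
  have h5 : 1 + CX * (1 + log (D * u ^ 91)) ≤ (1 + CX) * (D * u ^ 91) := by nlinarith
  have hE0 := h0.trans hE
  calc _ ≤ CN * ((1 + CX) * (D * u ^ 91)) ^ 3 * (D * u ^ 91) ^ 5 * Y * E := by gcongr
    _ = CN * (1 + CX) ^ 3 * D ^ 8 * E * (Y * u ^ 728) := by ring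
    _ ≤ CN * (1 + CX) ^ 3 * D ^ 8 * E * (1 / u ^ 81) :=
      mul_le_mul_of_nonneg_left (small_u hu huY hY (by nlinarith) (by omega)) (by positivity)
    _ = _ := by ring

theorem chg_num {CM CX D u Y : ℝ} {j k : ℕ} (hC : 0 ≤ CM) (hD : 0 ≤ D) (hu : 1 ≤ u)
    (hM : 1 ≤ D * u ^ 91) (hY : 0 ≤ Y) (huY : u ^ (2 * j) * Y ≤ 1) (hj : 91 * k + 81 ≤ j)
    (hk : 4 * CM * CX ≤ k) :
    CM * √Y * exp (CM * (4 * (CX * (1 + log (D * u ^ 91))))) ≤ CM * (3 * D) ^ k / u ^ 81 := by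
  have h0 := log_nonneg hM
  have h1 : exp (CM * (4 * (CX * (1 + log (D * u ^ 91))))) ≤ (3 * (D * u ^ 91)) ^ k := by
    calc _ ≤ exp (k * (1 + log (D * u ^ 91))) := by
          refine exp_le_exp.2 ?_
          rw [show CM * (4 * (CX * (1 + log (D * u ^ 91)))) =
            4 * CM * CX * (1 + log (D * u ^ 91)) by ring]
          exact mul_le_mul_of_nonneg_right hk (by linarith)
      _ = (exp 1 * (D * u ^ 91)) ^ k := by rw [exp_nat_mul, exp_add, exp_log (by linarith)]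
      _ ≤ _ := by gcongr; linarith [exp_one_lt_d9]
  calc _ ≤ CM * √Y * (3 * (D * u ^ 91)) ^ k := by gcongr
    _ = CM * (3 * D) ^ k * (√Y * u ^ (91 * k)) := by
      rw [mul_pow, mul_pow, mul_pow, ← pow_mul]; ring
    _ ≤ CM * (3 * D) ^ k * (1 / u ^ 81) := mul_le_mul_of_nonneg_left
        (small_u hu huY (sqrt_nonneg _) (sq_sqrt hY).le hj) (by positivity)
    _ = _ := by ring

theorem exp_num {g E P B ε : ℝ} (h0 : 0 ≤ g) (h1 : g ≤ 1) (hB : 0 ≤ B) (hE : -B ≤ E) (hP : -B ≤ P)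
    (h : |E - 2 * P| ≤ ε) :
    |exp (-2 * π ^ 2 * g * E) - exp (-4 * π ^ 2 * g * P)| ≤ exp (40 * B) * (20 * ε) := by
  refine (abs_exp_sub (expo_le 2 (by norm_num) (by norm_num) h0 h1 hB hE)
    (expo_le 4 (by norm_num) le_rfl h0 h1 hB hP)).trans (mul_le_mul_of_nonneg_left ?_ (exp_pos _).le)
  rw [show -2 * π ^ 2 * g * E - -4 * π ^ 2 * g * P = -(2 * π ^ 2 * g * (E - 2 * P)) by ring, abs_neg,
    abs_mul, abs_of_nonneg (show 0 ≤ 2 * π ^ 2 * g by positivity)]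
  have h5 : π ^ 2 ≤ 10 := by nlinarith [pi_lt_d2, pi_pos]
  exact mul_le_mul (by nlinarith) h (abs_nonneg _) (by norm_num)

theorem half_num {a₁ a₂ e A₁ A₂ A U : ℝ} (hU : 0 ≤ U) (h1 : |a₁| ≤ A₁ / U) (h2 : |a₂ - e| ≤ A₂ / U)
    (h3 : A₁ + A₂ ≤ A) : |(a₁ + a₂) / 2 - e / 2| ≤ A / U := by
  rw [show (a₁ + a₂) / 2 - e / 2 = (a₁ + (a₂ - e)) / 2 by ring, abs_div, abs_two]
  refine (half_le_self (abs_nonneg _)).trans ((abs_add_le _ _).trans ((add_le_add h1 h2).trans ?_))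
  rw [← add_div]
  exact div_le_div_of_nonneg_right h3 hU

set_option maxHeartbeats 1000000 in
theorem sines (hN : NeuStmt) (hC : CmStmt) (hX : XfStmt) (p : Par) {W : ℕ} (hW : 2 ≤ W) :
    ∃ (A : ℝ) (j : ℕ), 1 ≤ A ∧ 10 ≤ j ∧ ∀ Λ ω L N m, Env p Λ ω L N → Rep Λ ω m 0 N → ∀ R Y u : ℝ,
      Maj p Λ L R Y → A * Y ≤ 1 → A * R ≤ L → 1 / 4 ≤ gk ω R → gk ω R ≤ 1 → 1 ≤ u → u ^ j * Y ≤ 1 →
      u ^ j * R ≤ L → ∀ a : ℕ, A ≤ a → 16 * p.w * (a : ℝ) ≤ R → R ≤ 32 * p.w * (u ^ 10 * a) →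
      ∀ x : Pt, R / 2 ≤ eu x → eu x ≤ 4 * W * R →
      |Ex (m.W 0) (fun s => Sn (a / 4) s * trl x (Sn (a / 4)) s) -
        exp (-4 * π ^ 2 * gk ω R * (pk x - cr (a / 4) - er (a / 4))) / 2| ≤ A / u ^ 81 ∧
      |Ex (m.W 0) (fun s => Sn (a / 4) s * Sn R s) - exp (-2 * π ^ 2 * gk ω R *
        (log (R / (a / 4)) / (2 * π) - er (a / 4) - er R)) / 2| ≤ A / u ^ 81 ∧
      exp (-4 * π ^ 2 * gk ω R * (pk x - cr R + er R)) ≤ A := by
  obtain ⟨CN, hN0, hN⟩ := hN p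
  obtain ⟨CM, hM0, hM⟩ := hC p
  obtain ⟨CX, hX0, hX1, hX2, hX3⟩ := hX
  obtain ⟨Cp, hp0, hp⟩ := pk_sub_cr
  obtain ⟨Ce, he0, he⟩ := abs_er_le
  obtain ⟨k, hk⟩ : ∃ k : ℕ, 4 * CM * CX ≤ k := exists_nat_ge _
  obtain ⟨D, hD⟩ : ∃ t : ℝ, t = 10 ^ 4 * W * p.w := ⟨_, rfl⟩
  obtain ⟨B, hB⟩ : ∃ t : ℝ, t = 2 * Cp + 2 * Ce + CX + 2 := ⟨_, rfl⟩
  have hcτ0 : 0 < FlF4.cB p.F.τ₂ 1 := FlF4.cB_pos _ _
  have hD0 : 0 ≤ D := by rw [hD]; positivity
  have hB0 : 0 ≤ B := by rw [hB]; positivity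
  obtain ⟨A₁, hA₁⟩ : ∃ t : ℝ, t = CN * (1 + CX) ^ 3 * D ^ 8 * exp (40 * B) := ⟨_, rfl⟩
  obtain ⟨A₂, hA₂⟩ : ∃ t : ℝ, t = CM * (3 * D) ^ k := ⟨_, rfl⟩
  obtain ⟨A₃, hA₃⟩ : ∃ t : ℝ, t = 2 * π * (FlF4.cB p.F.τ₂ 1 * √CX) := ⟨_, rfl⟩
  obtain ⟨A₄, hA₄⟩ : ∃ t : ℝ, t = exp (40 * B) * (20 * CX) := ⟨_, rfl⟩
  obtain ⟨A₅, hA₅⟩ : ∃ t : ℝ, t = (70 * W) ^ 2 := ⟨_, rfl⟩
  obtain ⟨A₆, hA₆⟩ : ∃ t : ℝ, t = exp (40 * B) := ⟨_, rfl⟩
  have q1 : 0 ≤ A₁ := by rw [hA₁]; positivity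
  have q2 : 0 ≤ A₂ := by rw [hA₂]; positivity
  have q3 : 0 ≤ A₃ := by rw [hA₃]; positivity
  have q4 : 0 ≤ A₄ := by rw [hA₄]; positivity
  have q5 : 0 ≤ A₅ := by rw [hA₅]; positivity
  have q6 : 1 ≤ A₆ := by rw [hA₆]; exact one_le_exp (by positivity)
  obtain ⟨A, a1, a2, a3, a4, a5⟩ : ∃ A : ℝ, A₁ + A₂ + A₃ + A₄ ≤ A ∧ A₅ ≤ A ∧ A₆ ≤ A ∧ CM ≤ A ∧
      8 * (CX + CN + 2) ≤ A := ⟨A₁ + A₂ + A₃ + A₄ + A₅ + A₆ + CM + 8 * (CX + CN + 2), by linarith,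
    by linarith, by linarith, by linarith, by linarith⟩
  refine ⟨A, 2 * (91 * k + 900), q6.trans a3, by omega, ?_⟩
  intro Λ ω L N m hE hm R Y u hMaj hAY hAR hg1 hg2 hu huY huR a ha ha1 ha2 x hx1 hx2
  have hR := hMaj.1
  have hR0 : 0 < R := one_pos.trans_le hR
  have hY := Y_pos hMaj
  have hA5 : ∀ t : ℝ, t ≤ A → t * Y ≤ 1 ∧ t * R ≤ L := fun t h1 =>
    ⟨le_trans (mul_le_mul_of_nonneg_right h1 hY.le) hAY,
      le_trans (mul_le_mul_of_nonneg_right h1 hR0.le) hAR⟩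
  have hY1 : Y ≤ 1 := by simpa using (hA5 1 (q6.trans a3)).1
  have hLN' := hE.le
  have hLN : (L : ℝ) ≤ N := by exact_mod_cast hLN'
  obtain ⟨n, hn1, hn2⟩ : ∃ n : ℕ, 32 * W * R * u ^ 81 ≤ n ∧ (n : ℝ) ≤ 32 * W * R * u ^ 81 + 1 :=
    ⟨_, Nat.le_ceil _, (Nat.ceil_lt_add_one (by positivity)).le⟩
  obtain ⟨r, hr1, hr2⟩ : ∃ r : ℕ, (r : ℝ) ≤ a / 4 ∧ (a : ℝ) / 4 - 1 ≤ r := by
    refine ⟨a / 4, Nat.cast_div_le, ?_⟩
    have h1 : a ≤ 4 * (a / 4) + 4 := by omega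
    have h2 : (a : ℝ) ≤ 4 * (a / 4 : ℕ) + 4 := by exact_mod_cast h1
    linarith only [h2]
  have hA8 := a5.trans ha
  obtain ⟨M1, a64, T1, T2, T3, n1, n2, n3, n4, n5, r1, r2⟩ :=
    sc (by exact_mod_cast hW) (by exact_mod_cast hE.w4) hR hu (hA₅ ▸ (hA5 _ a2).2)
    (le_trans (mul_le_mul_of_nonneg_right (pow_le_pow_right₀ hu (by omega)) hR0.le) huR)
    (by linarith only [hA8, hX0, hN0]) ha1 ha2 hn1 hn2 (by linarith only [hA8, hX0, hN0, hr2]) hr1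
  rw [← hD] at M1 T1 T2 n2 n3 r1 r2
  obtain ⟨ρ, hρ⟩ : ∃ t : ℝ, t = a / 4 := ⟨_, rfl⟩
  rw [← hρ] at T1 n2 hr1 hr2 ⊢
  have b1 : CX + CN + 2 ≤ ρ / 2 := by linarith only [hA8, hρ]
  have b2 : 256 * ρ ≤ R := by linarith only [a64, hρ]
  have hρ1 : 1 ≤ ρ := by linarith only [b1, hX0, hN0]
  have hρ0 : 0 < ρ := one_pos.trans_le hρ1
  have hg0 : 0 ≤ gk ω R := by linarith only [hg1]
  have hU : 1 ≤ u ^ 81 := one_le_pow₀ hu
  have hU0 : 0 ≤ u ^ 81 := zero_le_one.trans hU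
  have hr0 : 1 ≤ r := by
    have : (1 : ℝ) ≤ r := by linarith only [b1, hX0, hN0, hr2]
    exact_mod_cast this
  have hwr : (0 : ℝ) ≤ p.w * r := by positivity
  have b3 : 32 * R ≤ 4 * n := by linarith only [n1, T3]
  have b4 : (n : ℝ) + 1 ≤ L := by linarith only [n4, hwr]
  have hn0 : (0 : ℝ) < n := by linarith only [b3, hR0]
  have hnN : n + 1 + p.w * r ≤ L := by exact_mod_cast n4
  have neu : ∀ v : Pt → ℝ, Pot.Sup (bl 0 n) v →
      Sm 3 Set.univ (CX * (1 + log (D * u ^ 91))) r v → -B ≤ E0 (bl 0 n) v →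
      |ω (cp (A0 v) 0) - exp (-2 * π ^ 2 * gk ω R * E0 (bl 0 n) v)| ≤ A₁ / u ^ 81 := by
    intro v h1 h2 h3
    refine (hN Λ ω L N hE R Y _ hMaj hY1 M1 (by linarith only [b3, b4, hR0]) r n _ v
      (by linarith only [b1, hr2, hX0, hN0]) r1 r2 n3 (by omega) (by omega) h1 h2).trans ?_
    rw [hA₁]
    exact neu_num hN0 hX0 hD0 hu M1 hY.le hY1 huY (by omega) (zero_le_one.trans (le_max_left _ _))
      (max_le (hA₆ ▸ q6) (exp_le_exp.2 (expo_le 2 (by norm_num) (by norm_num) hg0 hg2 hB0 h3)))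
  have chg : ∀ (f : Pt → ℝ) (φ : ℝ), F2 (nnL.edI (bl 0 N)) f (4 * (CX * (1 + log (D * u ^ 91)))) →
      |ω (cp (((2 : ℤ) : ℝ) • xi R + f) φ)| ≤ A₂ / u ^ 81 := by
    intro f φ hf
    refine ((hM Λ ω L N hE R Y hMaj hY1 (by linarith only [a4, ha, a64, hρ, hρ0]) (hA5 CM a4).2 hg1
      (hA5 CM a4).1 2 (by norm_num) (by norm_num)).2 0 f _ φ
      (bl_mono _ (Nat.ceil_le.2 (by linarith only [b3, b4, hLN, hR0]))) hf).trans ?_
    rw [hA₂]
    exact chg_num hM0 hD0 hu M1 hY.le huY (by omega) hk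
  have mv : ∀ z : Pt, eu z ≤ 4 * W * R →
      F2 (nnL.edI (bl 0 N)) ((fun y => xi ρ (y - z)) - xi R) (CX * (1 + log (D * u ^ 91))) :=
    fun z hz => hX1 _ (4 * W * R) ρ R z N hρ1 hR (by linarith only [b2, T3, hρ0]) T3 hz T1 T2
      (by linarith only [n1, b4, hLN])
  have mv0 := mv 0 (by rw [eu_zero]; linarith only [T3, hR0])
  simp only [sub_zero] at mv0
  have c1 : Chq (bl 0 N) (xi ρ) 1 := chq_xi hρ0 (by linarith only [b2, b3, b4, hLN, hρ0])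
  have c2 : Chq (bl 0 N) (xi R) 1 := chq_xi hR0 (by linarith only [b3, b4, hLN, hR0])
  have c3 : Chq (bl 0 N) (fun y => xi ρ (y - x)) (0 + 1) := by
    simpa using (chq_flow (mv x hx2)).add c2
  have e1 := abs_le.1 (he ρ hρ1)
  have e2 := abs_le.1 (he R hR)
  have hx3 : 1 ≤ eu x := by linarith only [hx1, b2, hρ1]
  have k1 := pk_ge hp0 hp hρ0 hx3 (by linarith only [hx1, b2, hρ1])
  have k2 := pk_ge hp0 hp hR0 hx3 hx1
  have n6 : eu x / n ≤ 1 / u ^ 81 := le_trans (div_le_div_of_nonneg_right hx2 hn0.le) n5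
  have n7 : 1 / u ^ 81 ≤ 1 := (div_le_one (one_pos.trans_le hU)).2 hU
  refine ⟨?_, ?_, le_trans (exp_le_exp.2 (expo_le 4 (by norm_num) le_rfl hg0 hg2 hB0
    (by linarith only [hB, k2, e2.1, hp0, he0, hX0]))) (hA₆ ▸ a3)⟩
  · obtain ⟨v, v1, v2, v3, v4⟩ := hX3 _ ρ x n r M1 (by linarith only [b1, hN0, hρ0]) (fun h => by
      have h1 := eu_le_of_bl h
      have h2 := (Nat.ceil_lt_add_one (show 0 ≤ 4 * ρ + 4 by positivity)).le
      rw [sub_zero] at h1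
      linarith only [h1, h2, hx1, b2, hρ1]) (by linarith only [n1, hx2]) n2 hr0 hr1
    have v5 : |E0 (bl 0 n) v - 2 * (pk x - cr ρ - er ρ)| ≤ CX * (1 / u ^ 81) :=
      v3.trans (by rw [mul_div_assoc]; exact mul_le_mul_of_nonneg_left n6 hX0)
    have v6 : CX * (1 / u ^ 81) ≤ CX := mul_le_of_le_one_right hX0 n7
    have v7 : -B ≤ E0 (bl 0 n) v := by linarith only [(abs_le.1 v5).1, v6, hB, k1, e1.2]
    rw [trl_Sn, Sn_eq, sinsin hm c1 c3]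
    refine half_num hU0 (A₁ := A₂) (A₂ := A₃ + A₁ + A₄) ?_ ?_ (by linarith only [a1])
    · rw [show xi ρ + (fun y => xi ρ (y - x)) = ((2 : ℤ) : ℝ) • xi R +
        ((xi ρ - xi R) + ((fun y => xi ρ (y - x)) - xi R)) by funext y; simp; ring]
      exact chg _ _ ((mv0.add (mv x hx2)).mono (le_of_eq (by ring)))
    · have hq : 0 ≤ eu x / n := div_nonneg (eu_nonneg x) hn0.le
      have h1 := lip hE.mem hm (c1.sub c3) (n := n + 1) (by omega) (a := √CX * (eu x / n))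
        (by positivity) (v4.mono (by rw [mul_pow, sq_sqrt hX0]))
      have h3 := exp_num hg0 hg2 hB0 v7 (by linarith only [hB, k1, e1.2, hp0, he0, hX0]) v5
      have h5 : 2 * π * (FlF4.cB p.F.τ₂ 1 * (√CX * (eu x / n))) ≤ A₃ / u ^ 81 := by
        calc _ ≤ 2 * π * (FlF4.cB p.F.τ₂ 1 * (√CX * (1 / u ^ 81))) := by gcongr
          _ = _ := by rw [hA₃]; ring
      have h6 : exp (40 * B) * (20 * (CX * (1 / u ^ 81))) = A₄ / u ^ 81 := by rw [hA₄]; ring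
      rw [add_div, add_div]
      exact (abs_sub_le _ _ _).trans (add_le_add ((abs_sub_le _ _ _).trans
        (add_le_add (h1.trans h5) (neu v v1 v2 v7))) (h3.trans h6.le))
  · obtain ⟨v1, v2⟩ := hX2 _ ρ R n r M1 (by linarith only [b2, hρ1]) (T3.trans T1)
      (by linarith only [b1, hN0, hρ0]) (by linarith only [b3, hR0]) hr0 hr1
    rw [Sn_eq, Sn_eq, sinsin hm c1 c2]
    refine half_num hU0 (A₁ := A₂) (A₂ := A₁) ?_ ?_ (by linarith only [a1, q3, q4])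
    · rw [show xi ρ + xi R = ((2 : ℤ) : ℝ) • xi R + (xi ρ - xi R) by funext y; simp; ring]
      exact chg _ _ (mv0.mono (by linarith only [mv0.nonneg]))
    · rw [xi_sub, ← v1]
      refine neu _ ((sup_Phi hρ0 (by linarith only [b2, b3, hρ0])).sub
        (sup_Phi hR0 (by linarith only [b3, hR0]))) v2 ?_
      have : 0 ≤ log (R / ρ) / (2 * π) := div_nonneg
        (log_nonneg ((one_le_div hρ0).2 (by linarith only [b2, hρ0]))) (by positivity)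
      rw [v1]; linarith only [this, e1.2, e2.2, hB, hp0, hX0]

end Crest.Agent.T145.Fl.SX44
end

-- ▼ part T145/FlStepX_44
section

/-!
# Row 145, module FLOW (helper44): STEP-x
-/

set_option autoImplicit false

namespace Crest.Agent.T145.Fl

open Finset Pot Xi Real

namespace SX44

theorem num1 {a b c Q y u : ℝ} (hQ : 1 ≤ Q) (hy : 0 ≤ y) (hu : 1 ≤ u) (ha0 : 0 ≤ a) (hb0 : 0 ≤ b)
    (ha : a ≤ Q * y) (hb : b ≤ 3 * (Q * y / u)) (hc : c ≤ a + b) :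
    32 * a * b + 32 * b * c ≤ 480 * Q ^ 2 * y ^ 2 / u := by
  have h1 : Q * y / u ≤ Q * y := div_le_self (by positivity) hu
  calc _ ≤ 32 * b * (a + (a + b)) := by nlinarith
    _ ≤ 32 * (3 * (Q * y / u)) * (5 * (Q * y)) := by gcongr; linarith
    _ = _ := by ring

theorem scale_ge {T R c l a : ℝ} (hT : 1 ≤ T) (hR : T ^ 4 ≤ R) (hc : c ≤ T) (hl0 : 0 ≤ l) (hl : l ≤ T)
    (ha : 0 ≤ a) (h : R ≤ c * (l * a)) : T ≤ a ∧ R ≤ a ^ 2 := by
  have h1 : R ≤ T ^ 2 * a := h.trans (by rw [pow_two, mul_assoc]; gcongr)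
  have h2 : T ^ 2 ≤ a := le_of_mul_le_mul_left (a := T ^ 2) (by nlinarith) (by positivity)
  exact ⟨by nlinarith, by nlinarith⟩

theorem rpow_le_self {t e : ℝ} (ht : 1 ≤ t) (he : e ≤ 1 / 10) : t ^ e ≤ t := by
  simpa using rpow_le_rpow_of_exponent_le ht (show e ≤ 1 by linarith)

end SX44

open SX44

set_option maxHeartbeats 1000000 in
theorem stepXStmt (hS : SemiStmt) (hP : ProdStmt) (hN : NeuStmt) (hC : CmStmt) (hX : XfStmt) :
    StepXStmt := by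
  intro p W hW
  obtain ⟨A₁, j, hA₁, hj, hsin⟩ := sines hN hC hX p hW
  have hW' : (2 : ℝ) ≤ W := by exact_mod_cast hW
  obtain ⟨A, a1, a2, a3, a4, a5⟩ : ∃ A : ℝ, A₁ ≤ A ∧ 480 * ((32 * p.w) ^ 3 * W) ^ 2 ≤ A ∧
      (p.r₀ : ℝ) ≤ A ∧ 5 * W ≤ A ∧ 32 * p.w ≤ A := by
    have h1 : (0 : ℝ) ≤ 480 * ((32 * p.w) ^ 3 * W) ^ 2 := by positivity
    have h2 : (0 : ℝ) ≤ p.r₀ := by positivity
    have h3 : (0 : ℝ) ≤ 32 * p.w := by positivity
    exact ⟨A₁ + 480 * ((32 * p.w) ^ 3 * W) ^ 2 + p.r₀ + 5 * W + 32 * p.w, by linarith, by linarith,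
      by linarith, by linarith, by linarith⟩
  have hA : 1 ≤ A := hA₁.trans a1
  have hAC : A ≤ 18 * A ^ 5 := by nlinarith [le_self_pow₀ hA (show 5 ≠ 0 by norm_num)]
  refine ⟨18 * A ^ 5, 1 / j, by positivity, by have : 0 < j := by omega
                                               positivity, ?_⟩
  intro Λ ω r₁ L N hE hPur R Y hMaj hCY hCR hr₁ hg1 hg2 x hx1 hx2
  have hR := hMaj.1
  have hR0 : 0 < R := one_pos.trans_le hR
  have hY := Y_pos hMaj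
  have hA5 : ∀ t : ℝ, t ≤ A → t * Y ≤ 1 ∧ t * R ≤ L := fun t h1 =>
    ⟨le_trans (mul_le_mul_of_nonneg_right (h1.trans hAC) hY.le) hCY,
      le_trans (mul_le_mul_of_nonneg_right (h1.trans hAC) hR0.le) hCR⟩
  have hY1 : Y ≤ 1 := by simpa using (hA5 1 hA).1
  have hRL : R ≤ L := by simpa using (hA5 1 hA).2
  have hLN' := hE.le
  have hLN : (L : ℝ) ≤ N := by exact_mod_cast hLN'
  have hw : (4 : ℝ) ≤ p.w := by exact_mod_cast hE.w4
  obtain ⟨u, hu, huY, huR, huδ⟩ := exists_u (j := j) (by omega) hY hY1 hR0 hRL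
  have hu0 : 0 < u := one_pos.trans_le hu
  have hT : A ≤ 1 / Y := (le_div_iff₀ hY).2 (hA5 A le_rfl).1
  have hT1 : 1 ≤ 1 / Y := hA.trans hT
  have hT2 : u ^ 10 ≤ 1 / Y := (pow_le_pow_right₀ hu hj).trans ((le_div_iff₀ hY).2 huY)
  have hT3 := R_ge hMaj
  obtain ⟨k, a, s1, s2, s3, s4⟩ := scales hW (w := p.w) (by have := hE.w4; omega) (R := R)
    (one_le_pow₀ (n := 10) hu) (by
      calc _ ≤ 1 / Y * (1 / Y) := mul_le_mul (by linarith only [a5, hT, hw]) hT2 (by positivity)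
            (by positivity)
        _ ≤ (1 / Y) ^ 4 := by rw [← pow_two]; exact pow_le_pow_right₀ hT1 (by norm_num)
        _ ≤ R := hT3)
  have hl : 1 ≤ (W : ℝ) ^ k := one_le_pow₀ (by linarith only [hW'])
  have ha0 : (0 : ℝ) ≤ a := Nat.cast_nonneg a
  obtain ⟨s5, s6⟩ := scale_ge hT1 hT3 (a5.trans hT) (zero_le_one.trans hl) (s1.trans hT2) ha0 s4
  have haA : A ≤ a := hT.trans s5
  have ha1 : 1 ≤ a := by exact_mod_cast hA.trans haA
  have har : p.r₀ ≤ a := by exact_mod_cast a3.trans haA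
  have har1 : r₁ ≤ a := by
    exact_mod_cast le_of_pow_le_pow_left₀ two_ne_zero ha0 (hr₁.trans s6)
  obtain ⟨b, hb⟩ : ∃ b : ℕ, b = W ^ k * a := ⟨_, rfl⟩
  have hb' : (b : ℝ) = (W : ℝ) ^ k * a := by rw [hb]; push_cast; rfl
  have hab : a ≤ b := hb ▸ Nat.le_mul_of_pos_left a (by positivity)
  have hab' : (a : ℝ) ≤ b := by exact_mod_cast hab
  rw [← hb'] at s3
  have hb0 : (0 : ℝ) ≤ b := Nat.cast_nonneg b
  have t1 : 4 * (b : ℝ) ≤ p.w * b := mul_le_mul_of_nonneg_right hw hb0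
  have t2 : (p.w : ℝ) * a ≤ p.w * b := mul_le_mul_of_nonneg_left hab' (by positivity)
  have t3 : (1 : ℝ) ≤ b := (hA.trans haA).trans hab'
  have hwb : p.w * b ≤ L := by
    have : (p.w : ℝ) * b ≤ L := by linarith only [s3, hRL, t1, hb0]
    exact_mod_cast this
  have hwa : p.w * a ≤ L := (Nat.mul_le_mul_left _ hab).trans hwb
  have hbr : p.r₀ ≤ b := har.trans hab
  have t4 : 5 * W * R ≤ N := (hA5 _ a4).2.trans hLN
  have t5 : 2 * R ≤ W * R := mul_le_mul_of_nonneg_right hW' hR0.le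
  have hsub : bl x (p.w * b) ⊆ bl 0 N := fun y hy => mem_bl_of_eu (by
    have h1 := eu_le_of_bl hy
    have h2 := eu_add_le (y - x) x
    push_cast at h1
    rw [sub_add_cancel] at h2
    rw [sub_zero]
    linarith only [h1, h2, hx2, s3, t4, t5, hR0])
  have hdis : Disjoint (bl 0 (p.w * b)) (bl x (p.w * b)) := disjoint_left.2 fun y h0 hy => by
    have h1 := eu_le_of_bl hy
    have h2 := eu_le_of_bl h0
    have h3 := eu_add_le (x - y) y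
    push_cast at h1 h2
    rw [sub_add_cancel, eu_sub_comm] at h3
    rw [sub_zero] at h2
    linarith only [h1, h2, h3, hx1, s3, hR0]
  have hbw : b ≤ p.w * b := Nat.le_mul_of_pos_left b (by have := hE.w4; omega)
  obtain ⟨m, hm⟩ := hE.amb 0
  have hc := hm.1.ctr.cen hm.1.anch
  obtain ⟨α, hα, hG, -⟩ := hPur a k (Jz 0) har har1 (hb ▸ hwb) (ins_Jz 0 ha1) (odd_Jz 0) (d4_Jz 0)
  rw [← hb] at hG
  rw [mul_comm _ (k : ℝ), rpow_natCast_mul (by positivity)] at hα hG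
  have iJ : Ins 0 b (Jz 0) := ins_Jz 0 (ha1.trans hab)
  have iS : Ins 0 b (Sn (a / 4)) := (ins_Sn4 ha1).mono hab
  have iG : Ins 0 b fun s => Jz 0 s - α * Sn (a / 4) s := iJ.sub (iS.smul α)
  have sb := (hS Λ p.w b 0 hE.mem.ok (rg_le hE.toGs hbr)).1
  have n1 := ((hS Λ p.w a 0 hE.mem.ok (rg_le hE.toGs har)).1 _ (ins_Jz 0 ha1)).1
  have n2 := (sb _ iJ).1
  have n3 := (sb _ iG).1
  have n4 : nu Λ p.w 0 b (fun s => α * Sn (a / 4) s) ≤
      nu Λ p.w 0 b (Jz 0) + nu Λ p.w 0 b fun s => Jz 0 s - α * Sn (a / 4) s := by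
    simpa using ((sb _ iJ).2.2.2.2 _ iG).2
  obtain ⟨c, hc'⟩ : ∃ c : ℝ, c = 32 * p.w := ⟨_, rfl⟩
  obtain ⟨l, hl'⟩ : ∃ l : ℝ, l = (W : ℝ) ^ k := ⟨_, rfl⟩
  obtain ⟨y, hy'⟩ : ∃ y : ℝ, y = Y / R ^ 2 := ⟨_, rfl⟩
  have p1 := prof_le hMaj har hwa (t := 32 * p.w * W ^ k) (by linarith only [s3, hab', t1, hb0])
    (by rw [mul_assoc]; exact s4) n1
  have p2 := prof_le hMaj hbr hwb (t := 32 * p.w) (by linarith only [s3, t1, hb0])
    (by rw [hb']; exact s4) n2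
  rw [← hc', ← hy'] at p1 p2
  rw [← hc'] at a2
  rw [← hl'] at p1 hα hG s1 s2 hl
  have hc1 : 1 ≤ c := by linarith only [hc', hw]
  have hy : 0 ≤ y := by rw [hy']; positivity
  have he := ew_le p.w
  have hQ : 1 ≤ c ^ 3 * W := one_le_mul_of_one_le_of_one_le (one_le_pow₀ hc1) (by linarith only [hW'])
  have hQ' : c ^ 3 ≤ c ^ 3 * W := le_mul_of_one_le_right (by positivity) (by linarith only [hW'])
  have hQA : 480 * (c ^ 3 * W) ≤ A := le_trans (mul_le_mul_of_nonneg_left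
    (le_self_pow₀ hQ two_ne_zero) (by norm_num)) a2
  have m1 : nu Λ p.w 0 b (Jz 0) ≤ c ^ 3 * W * y := by
    calc _ ≤ y * (c ^ 2 * c) := p2.trans (by gcongr; exact rpow_le_self hc1 he)
      _ = c ^ 3 * y := by ring
      _ ≤ _ := mul_le_mul_of_nonneg_right hQ' hy
  have m2 : nu Λ p.w 0 b (fun s => Jz 0 s - α * Sn (a / 4) s) ≤ 3 * (c ^ 3 * W * y / u) := by
    have h1 := decay hl hu (by linarith only [hW']) s2 he
    have h2 := rpow_le_self hc1 he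
    rw [mul_rpow (by positivity) (by positivity)] at p1
    calc _ ≤ 3 * l ^ (-(11 / 5) : ℝ) * (y * ((c * l) ^ 2 * (c * l ^ ew p.w))) :=
          hG.trans (mul_le_mul_of_nonneg_left (p1.trans (by gcongr)) (by positivity))
      _ = 3 * (c ^ 3 * y) * (l ^ (-(11 / 5) : ℝ) * (l ^ 2 * l ^ ew p.w)) := by ring
      _ ≤ 3 * (c ^ 3 * y) * (W / u) := mul_le_mul_of_nonneg_left h1 (by positivity)
      _ = _ := by ring
  have m3 : |α| ≤ A * y * u ^ 40 := by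
    have h1 := rpow_le_self hl he
    have h2 := rpow_le_self (one_le_mul_of_one_le_of_one_le hc1 hl) he
    calc _ ≤ 2 * l * (y * ((c * l) ^ 2 * (c * l))) :=
          hα.trans (mul_le_mul (by gcongr) (p1.trans (by gcongr)) n1 (by positivity))
      _ = 2 * c ^ 3 * y * l ^ 4 := by ring
      _ ≤ A * y * (u ^ 10) ^ 4 := by gcongr; linarith only [hQ', hQA, hQ]
      _ = _ := by ring
  obtain ⟨f5, f6, f7⟩ := hsin Λ ω L N m hE hm R Y u hMaj (hA5 _ a1).1 (hA5 _ a1).2 hg1 hg2 hu huY huR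
    a (a1.trans haA) (by linarith only [s3, t2]) (by
      rw [← hc']
      calc R ≤ c * (l * a) := by rw [hc', hl']; exact s4
        _ ≤ _ := by gcongr) x hx1 hx2
  have hwN : p.w * b ≤ N := hwb.trans hLN'
  have dN : ∀ {F}, Ins 0 b F → Ins 0 N F := fun h => h.mono (hbw.trans hwN)
  have dX : ∀ {F}, Ins 0 b F → Ins 0 N (trl x F) := fun h =>
    (h.trl x).of_subset ((bl_mono x hbw).trans hsub)
  have iR : Ins 0 N (Sn R) := ins_Sn hR0 (by linarith only [t4, t5, hR0])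
  have oR : Out (bl 0 b) (Sn R) := out_Sn hR0 (by linarith only [s3, t1, t3])
  have hl1 : ell ω R (Jz 0) = Ex (m.W 0) fun s => Jz 0 s * Sn R s := hm.2 _ ((dN iJ).mul iR).1
  have f1 : |KK ω x - α ^ 2 * Ex (m.W 0) fun s => Sn (a / 4) s * trl x (Sn (a / 4)) s| ≤
      A * y ^ 2 / u := by
    have h1 := prod2 hS hP hE.toGs hm.1 hbr hwb hwN hsub hdis iJ iG
    have h2 := prod2 hS hP hE.toGs hm.1 hbr hwb hwN hsub hdis iG (iS.smul α)
    rw [KK, ← trl_Jz x, hm.2 _ ((dN iJ).mul (dX iJ)).1, ← Ex_const_mul, ← Ex_sub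
      (hc.ig ((dN iJ).mul (dX iJ)).2) (hc.ig (((dN iS).mul (dX iS)).smul _).2), Ex_congr
      (G := fun s => Jz 0 s * trl x (fun s => Jz 0 s - α * Sn (a / 4) s) s +
        (Jz 0 s - α * Sn (a / 4) s) * trl x (fun s => α * Sn (a / 4) s) s)
      (fun s _ => by simp only [trl]; ring),
      Ex_add (hc.ig ((dN iJ).mul (dX iG)).2) (hc.ig ((dN iG).mul (dX (iS.smul α))).2)]
    refine (abs_add_le _ _).trans ((add_le_add h1 h2).trans ((num1 hQ hy hu n2 n3 m1 m2 n4).trans ?_))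
    gcongr
  have f2 : |ell ω R (Jz 0) - α * Ex (m.W 0) fun s => Sn (a / 4) s * Sn R s| ≤ A * y / u := by
    have h1 := prod1 hP hE.toGs hm.1 hbr hwb hwN iG oR (abs_Sn_le R)
    rw [hl1, ← Ex_const_mul, ← Ex_sub (hc.ig ((dN iJ).mul iR).2) (hc.ig (((dN iS).mul iR).smul _).2),
      Ex_congr (G := fun s => (Jz 0 s - α * Sn (a / 4) s) * Sn R s) fun s _ => by ring]
    calc _ ≤ 32 * (3 * (c ^ 3 * W * y / u)) := h1.trans (by gcongr)
      _ = 96 * (c ^ 3 * W) * y / u := by ring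
      _ ≤ _ := by gcongr; linarith only [hQA, hQ]
  have f3 : |ell ω R (Jz 0)| ≤ A * y := by
    have h1 := prod1 hP hE.toGs hm.1 hbr hwb hwN iJ oR (abs_Sn_le R)
    rw [hl1]
    calc _ ≤ 32 * (c ^ 3 * W * y) := h1.trans (by gcongr)
      _ = 32 * (c ^ 3 * W) * y := by ring
      _ ≤ _ := by gcongr; linarith only [hQA, hQ]
  have hU : 0 ≤ u ^ 81 := by positivity
  have hρ : (0 : ℝ) < a / 4 := by linarith only [hA, haA]
  refine (fin hA hy hu (by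
    rw [← exp_nat_mul, ← exp_add, ← cr_sub hρ hR0]; congr 1; push_cast; ring) f1 f2 f3 m3
    (f5.trans (div_le_div_of_nonneg_right a1 hU)) (f6.trans (div_le_div_of_nonneg_right a1 hU))
    ((abs_of_pos (exp_pos _)).trans_le (f7.trans a1))).trans ?_
  calc _ = 18 * A ^ 5 * Y ^ 2 * (1 / u) / R ^ 4 := by rw [hy']; field_simp
    _ ≤ _ := by gcongr

end Crest.Agent.T145.Fl
end

-- ▼ part T145/FlStepY_74
section

/-!
# Row 145, STEP-y: the Duhamel formula for the left functional (helper74)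
-/

set_option autoImplicit false

namespace Crest.Agent.T145.Fl

open Finset Pot Xi Real

namespace SY74

theorem depG_cp {U : Finset Pt} {ξ : Pt → ℝ} {q : ℤ} (h : Chq U ξ q) (φ : ℝ) : DepG U (cp ξ φ) := by
  intro s s' k e
  have : pr ξ s' = pr ξ s + q * k := by
    simp only [pr_of_fsupp ξ _ h.1]
    rw [← h.2, sum_mul, ← sum_add_distrib]
    exact sum_congr rfl fun x hx => by rw [e x hx]; push_cast; ring
  rw [cp, cp, this, ← cos_add_int_mul_two_pi _ (q * k)]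
  congr 1; push_cast; ring

theorem out_cp {B U : Finset Pt} {ξ : Pt → ℝ} (hU : Pot.Sup U ξ) (h : ∀ y ∈ B, ξ y = 0) (φ : ℝ) :
    Out B (cp ξ φ) := fun s s' e => by
  have : pr ξ s = pr ξ s' := by
    simp only [pr_of_fsupp ξ _ hU]
    refine sum_congr rfl fun x _ => ?_
    by_cases hx : x ∈ B
    · simp [h x hx]
    · rw [e x hx]
  rw [cp, cp, this]

theorem abs_cp (ξ : Pt → ℝ) (φ : ℝ) (s : Cfg Pt) : |cp ξ φ s| ≤ 1 := abs_cos_le_one _

theorem tame_cp (ξ : Pt → ℝ) (φ : ℝ) : Tame (cp ξ φ) := Tame.bdd (abs_cp ξ φ)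

theorem xt_apply (W R t : ℝ) (x : Pt) : xt W R t x = xi R x + t * (xi (W * R) x - xi R x) := by
  simp [xt, A0_wt]

theorem chq_xt {W R : ℝ} (hW : 1 ≤ W) (hR : 0 < R) {n : ℕ} (hn : 2 * (W * R) ≤ n) (t : ℝ) :
    Chq (bl 0 n) (xt W R t) 1 := by
  have h1 : 2 * R ≤ n := by nlinarith
  have h2 : 0 < W * R := by positivity
  refine ⟨fun x hx => by rw [xt_apply, sup_xi hR h1 x hx, sup_xi h2 hn x hx]; ring, ?_⟩
  simp only [xt_apply, sum_add_distrib, ← mul_sum, sum_sub_distrib, sum_xi hR h1, sum_xi h2 hn]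
  simp

theorem xt_in {W R : ℝ} (hW : 1 ≤ W) (hR : 0 < R) {n : ℕ} (hn : (n : ℝ) + 1 ≤ R) (t : ℝ) :
    ∀ x ∈ bl 0 n, xt W R t x = 0 := fun x hx => by
  rw [xt_apply, xi_in hR hn hx, xi_in (by positivity) (by nlinarith) hx]; ring

theorem der {μ : Cfg Pt → ℝ} (h : Cen μ) {H : Cfg Pt → ℝ} (hH : Tame H) (ξ η : Pt → ℝ) (t : ℝ) :
    HasDerivAt (fun t : ℝ => Ex μ fun s => H s * cp (ξ + t • η) (-(π / 2)) s)
      (2 * π * Ex μ fun s => H s * cp (ξ + t • η) 0 s * pr η s) t := by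
  rw [← Ex_const_mul]
  refine hasDerivAt_Ex (ε := 1) (Φ := fun t s => H s * cp (ξ + t • η) (-(π / 2)) s)
    (Φ' := fun t s => 2 * π * (H s * cp (ξ + t • η) 0 s * pr η s))
    (B := fun s => 2 * π * |H s * pr η s|) h.nonneg one_pos
    (h.ig ((hH.mul (Tame.hom _)).abs.const_mul _)) (h.ig (hH.mul (tame_cp _ _))) (fun s y _ => ?_)
    fun s y _ => ?_
  · simp only [cp, pr_add, pr_smul, AddMonoidHom.add_apply, AddMonoidHom.smul_apply, smul_eq_mul,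
      ← sub_eq_add_neg, cos_sub_pi_div_two, add_zero]
    have h1 : HasDerivAt (fun y : ℝ => 2 * π * (pr ξ s + y * pr η s)) (2 * π * pr η s) y := by
      simpa using (((hasDerivAt_id y).mul_const (pr η s)).const_add (pr ξ s)).const_mul (2 * π)
    exact (h1.sin.const_mul (H s)).congr_deriv (by ring)
  · rw [abs_mul, abs_of_pos two_pi_pos, mul_right_comm (H s), abs_mul (H s * pr η s)]
    exact mul_le_mul_of_nonneg_left (mul_le_of_le_one_right (abs_nonneg _) (abs_cp _ _ _)) two_pi_pos.le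

variable {p : Par} {Λ : Lat} {ω : (Cfg Pt → ℝ) → ℝ} {L N : ℕ}

/-- the derivative of the left functional along the interpolation, after the flux identity -/
theorem der_om (h : Env p Λ ω L N) {W R : ℝ} (hW : 1 ≤ W) (hR : 0 < R) {n : ℕ} (hn : 2 * (W * R) ≤ n)
    (hN : n ≤ N / 4) (h1 : 1 ≤ n) : ∃ D : Finset Pt, bl 0 N ⊆ D ∧ D ⊆ bl 0 (N + N / 4) ∧ ∀ t : ℝ,
    HasDerivAt (fun t : ℝ => ω fun s => Jz 0 s * cp (xt W R t) (-(π / 2)) s)
      (2 * π * ∑ z ∈ D, wt R (W * R) z * ω fun s => Jz 0 s * cp (xt W R t) 0 s * Jz z s) t := by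
  obtain ⟨D, hD, hD', hf⟩ := h.flux
  obtain ⟨m, hm, hω⟩ := h.amb 0
  have hc : Cen (m.W 0) := hm.ctr.cen hm.anch
  have hd : ∀ t φ, DepG (bl 0 n) fun s => Jz 0 s * cp (xt W R t) φ s := fun t φ =>
    ((Om.depG_Jz 0).mono (bl_mono 0 h1)).mul (depG_cp (chq_xt hW hR hn t) φ)
  have hT : ∀ t φ, Tame fun s => Jz 0 s * cp (xt W R t) φ s := fun t φ => (Om.tame_Jz 0).mul (tame_cp _ _)
  refine ⟨D, hD, hD', fun t => ?_⟩
  have e1 : (fun t : ℝ => ω fun s => Jz 0 s * cp (xt W R t) (-(π / 2)) s) =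
      fun t : ℝ => Ex (m.W 0) fun s => Jz 0 s * cp (xt W R t) (-(π / 2)) s :=
    funext fun t => hω _ ((hd t _).mono (bl_mono 0 (by omega)))
  rw [e1]
  refine (der hc (Om.tame_Jz 0) (xi R) (A0 (wt R (W * R))) t).congr_deriv ?_
  congr 1
  set c := Real.log (W * R / R) / (2 * π)
  have hs : Pot.Sup (bl 0 n) fun x => wt R (W * R) x - c := fun x hx =>
    sub_eq_zero.2 (wt_out hR (by nlinarith) (by linarith) hx)
  have e2 : ∀ s, pr (A0 (wt R (W * R))) s = ∑ z ∈ bl 0 n, (wt R (W * R) z - c) * Jz z s := fun s => by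
    rw [← A0_sub_const _ c, pr_A0 hs]
  calc _ = Ex (m.W 0) fun s => ∑ z ∈ bl 0 n,
        (wt R (W * R) z - c) * (Jz 0 s * cp (xt W R t) 0 s * Jz z s) :=
        Ex_congr fun s _ => by rw [e2, mul_sum]; exact sum_congr rfl fun z _ => by rw [xt]; ring
    _ = ∑ z ∈ bl 0 n, (wt R (W * R) z - c) * ω fun s => Jz 0 s * cp (xt W R t) 0 s * Jz z s := by
        rw [Ex_sum _ fun z _ => hc.ig (((hT t 0).mul (Om.tame_Jz z)).const_mul _)]
        refine sum_congr rfl fun z hz => ?_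
        rw [Ex_const_mul, hω _ (((hd t 0).mono (bl_mono 0 (by omega))).mul
          ((Om.depG_Jz z).mono (bl_one_sub (by omega) z hz)))]
    _ = ∑ z ∈ D, (wt R (W * R) z - c) * ω fun s => Jz 0 s * cp (xt W R t) 0 s * Jz z s :=
        sum_subset ((bl_mono 0 (by omega)).trans hD) fun z _ hz => mul_eq_zero_of_left (hs z hz) _
    _ = _ := by
        simp only [sub_mul, sum_sub_distrib, ← mul_sum]
        rw [hf _ ⟨(hd t 0).mono (bl_mono 0 hN), hT t 0⟩, mul_zero, sub_zero]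

theorem cw_bd {w : ℕ} (hw : 4 ≤ w) : 0 < cw w ∧ cw w ≤ 1 := by
  have h1 : (4 : ℝ) ≤ w := by exact_mod_cast hw
  have h2 : (2 : ℝ) ≤ 4 * (w : ℝ) ^ 4 := by nlinarith [one_le_pow₀ (show (1 : ℝ) ≤ w by linarith) (n := 4)]
  have h3 : 0 < log (4 * (w : ℝ) ^ 4) := log_pos (by linarith)
  exact ⟨div_pos (log_pos one_lt_two) h3, (div_le_one h3).2 (log_le_log two_pos h2)⟩

theorem rpow_le {x K y c δ : ℝ} (hx : 0 ≤ x) (hK : 1 ≤ K) (hy : 0 < y) (hy1 : y ≤ 1) (h : x ≤ K * y)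
    (hδ : 0 ≤ δ) (hc : δ ≤ c) (hc1 : c ≤ 1) : x ^ c ≤ K * y ^ δ :=
  calc x ^ c ≤ (K * y) ^ c := rpow_le_rpow hx h (hδ.trans hc)
    _ = K ^ c * y ^ c := mul_rpow (by linarith) hy.le
    _ ≤ K * y ^ δ := mul_le_mul (by simpa using rpow_le_rpow_of_exponent_le hK hc1)
        (rpow_le_rpow_of_exponent_ge hy hy1 hc) (by positivity) (by linarith)

theorem sum_ind_le (S T : Finset Pt) : ∑ z ∈ S, ind (z ∈ T) ≤ T.card := by
  rw [← sum_subset (inter_subset_left (s₁ := S) (s₂ := T)) fun z hz h => ind_neg fun h' =>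
    h (mem_inter.2 ⟨hz, h'⟩), sum_congr rfl fun z hz => ind_pos (mem_inter.1 hz).2]
  simpa using card_le_card (inter_subset_right (s₁ := S))

/-- the norm of `J` at half the reference scale -/
theorem nu_J {R Y : ℝ} (hw : 4 ≤ p.w) (hM : Maj p Λ L R Y) (hY : 0 ≤ Y) (h4 : 4 ≤ R) (h0 : 2 * p.r₀ ≤ R)
    (hL : p.w * R ≤ L) : nu Λ p.w 0 ⌊R / 2⌋₊ (Jz 0) ≤ 64 * Y / R ^ 2 := by
  have a1 : (⌊R / 2⌋₊ : ℝ) ≤ R / 2 := Nat.floor_le (by linarith)
  have a2 : R / 2 < ⌊R / 2⌋₊ + 1 := Nat.lt_floor_add_one _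
  have a3 : R / 4 ≤ ⌊R / 2⌋₊ := by linarith
  have a4 : (0 : ℝ) < ⌊R / 2⌋₊ := by linarith
  have hw0 : (0 : ℝ) ≤ p.w := Nat.cast_nonneg _
  have h1 := hM.2.2 ⌊R / 2⌋₊ (Nat.le_floor (by linarith))
    (by exact_mod_cast (show (p.w : ℝ) * ⌊R / 2⌋₊ ≤ L by nlinarith))
  have h2 : max (⌊R / 2⌋₊ / R) (R / ⌊R / 2⌋₊) ^ ew p.w ≤ 4 * 1 ^ ew p.w :=
    rpow_le (le_max_of_le_left (by positivity)) (by norm_num) one_pos le_rfl
      (max_le (by rw [div_le_iff₀ (by linarith)]; linarith) (by rw [div_le_iff₀ a4]; linarith))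
      (by rw [ew]; linarith [(cw_bd hw).1]) le_rfl (by rw [ew]; linarith [(cw_bd hw).2])
  rw [one_rpow, mul_one] at h2
  have h3 := h1.trans (mul_le_mul_of_nonneg_left h2 hY)
  rw [le_div_iff₀ (by positivity)]
  rcases le_total (nu Λ p.w 0 ⌊R / 2⌋₊ (Jz 0)) 0 with h | h
  · nlinarith [mul_nonneg (neg_nonneg.2 h) (sq_nonneg R)]
  · nlinarith [mul_le_mul_of_nonneg_left (show R ^ 2 ≤ 16 * (⌊R / 2⌋₊ : ℝ) ^ 2 by nlinarith) h]

/-- the scales -/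
structure Sc (p : Par) (W κ R Y : ℝ) (L N : ℕ) : Prop where
  W2 : 2 ≤ W
  w4 : 4 ≤ p.w
  κ0 : 0 < κ
  κ1 : κ ≤ 1
  R4 : 4 ≤ R
  r0 : 2 * p.r₀ ≤ R
  Y0 : 0 < Y
  Y1 : Y ≤ 1
  QY : 96 * p.w * W ≤ Y ^ (-κ)
  RL : 768 * p.w * W * R ≤ L
  LN : L ≤ N

/-- the support radius and the far radius -/
noncomputable def na (W R : ℝ) : ℕ := ⌈2 * (W * R)⌉₊
noncomputable def bb (κ R Y : ℝ) (N : ℕ) : ℕ := min ⌊R * Y ^ (-κ) / 2⌋₊ (N / 16)

namespace Sc
variable {W κ R Y : ℝ} (h : Sc p W κ R Y L N)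
include h

theorem R0 : 0 < R := by linarith [h.R4]
theorem WR : R ≤ W * R := le_mul_of_one_le_left h.R0.le (by linarith [h.W2])
theorem w4' : (4 : ℝ) ≤ p.w := by exact_mod_cast h.w4
omit h in
theorem n1 : 2 * (W * R) ≤ na W R := Nat.le_ceil _
theorem n2 : (na W R : ℝ) ≤ 3 * (W * R) := by
  have := Nat.ceil_lt_add_one (show 0 ≤ 2 * (W * R) by linarith [h.WR, h.R4])
  rw [na]; linarith [h.WR, h.R4]
theorem n0 : 1 ≤ na W R := by
  exact_mod_cast (show (1 : ℝ) ≤ na W R by linarith [n1 (W := W) (R := R), h.WR, h.R4])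
theorem nL : 256 * (p.w * na W R) ≤ L := by
  have := mul_le_mul_of_nonneg_left h.n2 (show (0 : ℝ) ≤ 256 * p.w by positivity)
  exact_mod_cast (show (256 : ℝ) * (p.w * na W R) ≤ L by linarith [h.RL])
theorem wn : 4 * na W R ≤ p.w * na W R := Nat.mul_le_mul_right _ h.w4
theorem L0 : (0 : ℝ) < L := by
  have := h.nL; have := h.wn; have := h.n0
  exact_mod_cast (show 0 < L by omega)
theorem wR : p.w * R ≤ L := by
  have := mul_le_mul_of_nonneg_left h.WR (show (0 : ℝ) ≤ p.w by positivity)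
  have : 0 ≤ p.w * (W * R) := mul_nonneg (by positivity) (by linarith [h.WR, h.R4])
  linarith [h.RL]
theorem RL1 : R / L ≤ 1 :=
  (div_le_one h.L0).2 ((le_mul_of_one_le_left h.R0.le (by linarith [h.w4'])).trans h.wR)
theorem b1 : (bb κ R Y N : ℝ) ≤ R * Y ^ (-κ) / 2 :=
  (Nat.cast_le.2 (min_le_left _ _)).trans (Nat.floor_le (by have := h.R0; have := h.Y0; positivity))
omit h in
theorem b2 : 16 * bb κ R Y N ≤ N := by rw [bb]; omega
theorem b3 : 16 * (p.w * na W R) ≤ bb κ R Y N := le_min (Nat.le_floor (by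
  have h1 := mul_le_mul_of_nonneg_left h.n2 (show (0 : ℝ) ≤ 16 * p.w by positivity)
  have h2 := mul_le_mul_of_nonneg_left h.QY h.R0.le
  push_cast; linarith)) (by have := h.nL; have := h.LN; omega)
theorem b0 : 1 ≤ bb κ R Y N := by have := h.b3; have := h.wn; have := h.n0; omega
theorem δ0 : 0 < κ * cw p.w / 5 := by have := h.κ0; have := (cw_bd h.w4).1; positivity
theorem δc : κ * cw p.w / 5 ≤ cw p.w / 2 := by
  have := mul_le_of_le_one_left (cw_bd h.w4).1.le h.κ1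
  linarith [(cw_bd h.w4).1]

theorem nl : ((na W R : ℝ) / L) ^ (cw p.w / 2) ≤ 96 * W * (R / L) ^ (κ * cw p.w / 5) :=
  rpow_le (by positivity) (by linarith [h.W2]) (div_pos h.R0 h.L0) h.RL1 (by
    rw [mul_div_assoc']
    exact div_le_div_of_nonneg_right (by linarith [h.n2, h.WR, h.R4]) h.L0.le) h.δ0.le h.δc
    (by linarith [(cw_bd h.w4).2])

theorem nb : ((na W R : ℝ) / bb κ R Y N) ^ (cw p.w / 2) ≤
    96 * W * (Y ^ (κ * cw p.w / 5) + (R / L) ^ (κ * cw p.w / 5)) := by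
  have Y0 := h.Y0
  have R0 := h.R0
  have L0 := h.L0
  have W2 := h.W2
  obtain ⟨hc0, hc1⟩ := cw_bd h.w4
  have h2 : (1 : ℝ) ≤ bb κ R Y N := by exact_mod_cast h.b0
  have p1 : 0 ≤ W * Y ^ (κ * cw p.w / 5) := by positivity
  have p2 : 0 ≤ W * (R / L) ^ (κ * cw p.w / 5) := by positivity
  rcases min_choice ⌊R * Y ^ (-κ) / 2⌋₊ (N / 16) with e | e
  · have h1 : R * Y ^ (-κ) / 2 < bb κ R Y N + 1 := by rw [bb, e]; exact Nat.lt_floor_add_one _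
    have h3 : R ≤ 4 * bb κ R Y N * Y ^ κ := by
      have := mul_le_mul_of_nonneg_right (show R * Y ^ (-κ) ≤ 4 * bb κ R Y N by linarith)
        (rpow_pos_of_pos Y0 κ).le
      rwa [mul_assoc, ← rpow_add Y0, neg_add_cancel, rpow_zero, mul_one] at this
    have := rpow_le (x := na W R / bb κ R Y N) (K := 12 * W) (y := Y ^ κ) (c := cw p.w / 2)
      (δ := cw p.w / 5) (by positivity) (by linarith) (by positivity) (rpow_le_one Y0.le h.Y1 h.κ0.le)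
      (by
        rw [div_le_iff₀ (by linarith)]
        linarith [h.n2, mul_le_mul_of_nonneg_left h3 (show 0 ≤ W by linarith)])
      (by positivity) (by linarith) (by linarith)
    rw [← rpow_mul Y0.le, ← mul_div_assoc] at this
    linarith
  · have h1 : (L : ℝ) ≤ 32 * bb κ R Y N := by
      have := h.b0; have := h.LN
      exact_mod_cast (show L ≤ 32 * bb κ R Y N by rw [bb, e] at *; omega)
    have := rpow_le (x := na W R / bb κ R Y N) (K := 96 * W) (y := R / L) (c := cw p.w / 2)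
      (δ := κ * cw p.w / 5) (by positivity) (by linarith) (by positivity) h.RL1 (by
        rw [mul_div_assoc', div_le_div_iff₀ (by linarith) L0]
        linarith [mul_le_mul h.n2 h1 L0.le (by positivity)]) h.δ0.le h.δc (by linarith)
    linarith

theorem nR : ((na W R : ℝ) / R) ^ ew p.w ≤ 3 * W := by
  obtain ⟨hc0, hc1⟩ := cw_bd h.w4
  have := rpow_le (x := na W R / R) (K := 3 * W) (δ := ew p.w) (div_nonneg (by positivity) h.R0.le)
    (by linarith [h.W2]) one_pos le_rfl (by rw [div_le_iff₀ h.R0]; linarith [h.n2])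
    (by rw [ew]; positivity) le_rfl (by rw [ew]; linarith)
  rwa [one_rpow, mul_one] at this

/-- zones 1 and 2 -/
theorem z12 {e : Pt → ℝ} {B Cw : ℝ} (hB : 0 ≤ B) (hCw : 0 ≤ Cw) (hw : ∀ z, |wt R (W * R) z| ≤ Cw)
    (he : ∀ z : Pt, z ∉ bl 0 ⌊R⌋₊ → eu z ≤ R * Y ^ (-κ) → 8 * eu z ≤ N → |e z| ≤
      B / R ^ 4 * (Y ^ (5 / 2 * κ) + ind (z ∈ bl 0 ⌈4 * (W * R)⌉₊) * Y ^ (κ * cw p.w / 5))) :
    ∑ z ∈ bl 0 (bb κ R Y N), |wt R (W * R) z * e z| ≤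
      Cw * (4 + 121 * W ^ 2) * (B * Y ^ (κ * cw p.w / 5) / R ^ 2) := by
  have Y0 := h.Y0
  have R0 := h.R0
  have b1 := h.b1
  refine (sum_le_sum (g := fun z => Cw * (B / R ^ 4 *
    (Y ^ (5 / 2 * κ) + ind (z ∈ bl 0 ⌈4 * (W * R)⌉₊) * Y ^ (κ * cw p.w / 5)))) fun z hz => ?_).trans ?_
  · have i0 := ind_nonneg (z ∈ bl 0 ⌈4 * (W * R)⌉₊)
    by_cases h0 : z ∈ bl 0 ⌊R⌋₊
    · rw [wt_in R0 h.WR (Nat.floor_le R0.le) h0, zero_mul, abs_zero]; positivity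
    have hz' : eu z ≤ 2 * bb κ R Y N := by simpa using (eu_near hz).1
    have b2' : (16 : ℝ) * bb κ R Y N ≤ N := by exact_mod_cast b2
    rw [abs_mul]
    exact mul_le_mul (hw z) (he z h0 (by linarith) (by linarith)) (abs_nonneg _) hCw
  · rw [← mul_sum, ← mul_sum, sum_add_distrib, ← sum_mul, sum_const, card_bl, nsmul_eq_mul]
    have c1 : (((2 * bb κ R Y N + 1) ^ 2 : ℕ) : ℝ) * Y ^ (5 / 2 * κ) ≤
        4 * R ^ 2 * Y ^ (κ * cw p.w / 5) := by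
      have h2 : (1 : ℝ) ≤ bb κ R Y N := by exact_mod_cast h.b0
      have d1 : (2 * bb κ R Y N + 1 : ℝ) ≤ 2 * (R * Y ^ (-κ)) := by linarith
      have d2 : Y ^ (-κ) * Y ^ (-κ) * Y ^ (5 / 2 * κ) ≤ Y ^ (κ * cw p.w / 5) := by
        rw [← rpow_add Y0, ← rpow_add Y0]
        exact rpow_le_rpow_of_exponent_ge Y0 h.Y1
          (by linarith [mul_le_of_le_one_right h.κ0.le (cw_bd h.w4).2, h.κ0])
      push_cast
      calc _ ≤ (2 * (R * Y ^ (-κ))) ^ 2 * Y ^ (5 / 2 * κ) := by gcongr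
        _ = 4 * R ^ 2 * (Y ^ (-κ) * Y ^ (-κ) * Y ^ (5 / 2 * κ)) := by ring
        _ ≤ _ := by gcongr
    have c2 : ∑ z ∈ bl 0 (bb κ R Y N), ind (z ∈ bl 0 ⌈4 * (W * R)⌉₊) ≤ 121 * W ^ 2 * R ^ 2 := by
      refine (sum_ind_le _ _).trans ?_
      have := Nat.ceil_lt_add_one (show 0 ≤ 4 * (W * R) by linarith [h.WR])
      rw [card_bl]; push_cast
      calc _ ≤ (11 * (W * R)) ^ 2 := by gcongr; linarith [h.WR, h.R4]
        _ = _ := by ring
    calc _ ≤ Cw * (B / R ^ 4 * (4 * R ^ 2 * Y ^ (κ * cw p.w / 5) +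
          121 * W ^ 2 * R ^ 2 * Y ^ (κ * cw p.w / 5))) := by gcongr
      _ = _ := by field_simp

/-- zone 3 -/
theorem z3 (hFus : FusStmt) (hE : Env p Λ ω L N) (hM : Maj p Λ L R Y) {CF : ℝ} (hCF : 0 ≤ CF)
    (hFar : ∀ (a b : ℕ) (G : Cfg Pt → ℝ), p.r₀ ≤ a → R ≤ a → 16 * p.w * a ≤ b → 16 * p.w * a ≤ L →
      Ins 0 a G → ∑ z ∈ bl 0 (N + N / 4) \ bl 0 b, |ω fun s => G s * Jz z s| ≤
        CF * nu Λ p.w 0 a G * Y * (a / R) ^ ew p.w *
          (((a : ℝ) / b) ^ (cw p.w / 2) + ((a : ℝ) / L) ^ (cw p.w / 2))) (t : ℝ) :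
    ∑ z ∈ bl 0 (N + N / 4) \ bl 0 (bb κ R Y N), |ω fun s => Jz 0 s * cp (xt W R t) 0 s * Jz z s| ≤
      CF * 128 * (3 * W) * (192 * W) *
        (Y ^ 2 * (Y ^ (κ * cw p.w / 5) + (R / L) ^ (κ * cw p.w / 5)) / R ^ 2) := by
  have Y0 := h.Y0
  have R0 := h.R0
  have L0 := h.L0
  have W2 := h.W2
  have R4 := h.R4
  have hq := chq_xt (W := W) (by linarith) R0 n1 t
  have hJ := nu_J h.w4 hM Y0.le h.R4 h.r0 h.wR
  have rr1 : (⌊R / 2⌋₊ : ℝ) ≤ R / 2 := Nat.floor_le (by linarith)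
  have rr0 : p.r₀ ≤ ⌊R / 2⌋₊ := Nat.le_floor (by linarith [h.r0])
  have rr2 : 1 ≤ ⌊R / 2⌋₊ := Nat.le_floor (by push_cast; linarith)
  have Rn : R ≤ na W R := by linarith [n1 (W := W) (R := R), h.WR]
  have rrn : ⌊R / 2⌋₊ ≤ na W R := by exact_mod_cast (show (⌊R / 2⌋₊ : ℝ) ≤ na W R by linarith)
  have hG : Ins 0 (na W R) fun s => Jz 0 s * cp (xt W R t) 0 s :=
    ⟨((Om.depG_Jz 0).mono (bl_mono 0 h.n0)).mul (depG_cp hq 0), (Om.tame_Jz 0).mul (tame_cp _ _)⟩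
  have nL := h.nL
  have f1 := hFar _ (bb κ R Y N) _ (rr0.trans rrn) Rn (by rw [mul_assoc]; exact h.b3) (by rw [mul_assoc]; omega) hG
  have f2 := (hFus p Λ L hE.toGs 0 (na W R) (by omega)).1 _ _ _ rr0 rrn (Om.ins_Jz 0 rr2) (depG_cp hq 0)
    (out_cp hq.1 (xt_in (by linarith) R0 (by linarith) t) 0) (abs_cp _ _)
  have f3 := h.nb
  have f4 : ((na W R : ℝ) / L) ^ (cw p.w / 2) ≤
      96 * W * (Y ^ (κ * cw p.w / 5) + (R / L) ^ (κ * cw p.w / 5)) :=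
    h.nl.trans (mul_le_mul_of_nonneg_left (le_add_of_nonneg_left (by positivity)) (by linarith))
  have f5 := h.nR
  have f6 := f2.trans (mul_le_mul_of_nonneg_left hJ two_pos.le)
  calc _ ≤ _ := f1
    _ ≤ CF * (2 * (64 * Y / R ^ 2)) * Y * (3 * W) *
        (96 * W * (Y ^ (κ * cw p.w / 5) + (R / L) ^ (κ * cw p.w / 5)) +
          96 * W * (Y ^ (κ * cw p.w / 5) + (R / L) ^ (κ * cw p.w / 5))) := by gcongr
    _ = _ := by ring

end Sc

theorem exists_sc (p : Par) {W κ : ℝ} (hW : 2 ≤ W) (hw : 4 ≤ p.w) (hκ : 0 < κ) (hκ1 : κ ≤ 1) :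
    ∃ C : ℝ, 0 ≤ C ∧ ∀ Λ ω L N, Env p Λ ω L N → ∀ R Y : ℝ, Maj p Λ L R Y → C * Y ≤ 1 → C * R ≤ L →
      Sc p W κ R Y L N := by
  have w4 : (4 : ℝ) ≤ p.w := by exact_mod_cast hw
  have p1 : 0 ≤ (96 * p.w * W) ^ κ⁻¹ := by positivity
  have p2 : 0 ≤ 768 * p.w * W := by positivity
  have p3 : (0 : ℝ) ≤ 2 * p.r₀ := by positivity
  refine ⟨(96 * p.w * W) ^ κ⁻¹ + 768 * p.w * W + 2 * p.r₀ + 4, by positivity,
    fun Λ ω L N hE R Y hM hY hR => ?_⟩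
  have R1 := hM.1
  have R0 : 0 < R := by linarith
  have Y0 : 0 < Y := (rpow_pos_of_pos R0 _).trans_le hM.2.1
  have RC : (96 * p.w * W) ^ κ⁻¹ + 768 * p.w * W + 2 * p.r₀ + 4 ≤ R := by
    have h1 : R⁻¹ ≤ R ^ (-ew p.w) := by
      rw [← rpow_neg_one]
      exact rpow_le_rpow_of_exponent_le R1 (by rw [ew]; linarith [(cw_bd hw).2])
    have h2 := (mul_le_mul_of_nonneg_left (h1.trans hM.2.1) (by positivity)).trans hY
    rwa [← div_eq_mul_inv, div_le_one R0] at h2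
  refine ⟨hW, hw, hκ, hκ1, by linarith, by linarith, Y0,
    (le_mul_of_one_le_left Y0.le (by linarith)).trans hY, ?_,
    (mul_le_mul_of_nonneg_right (by linarith) R0.le).trans hR, hE.le⟩
  have h1 : (96 * p.w * W) ^ κ⁻¹ ≤ Y⁻¹ := by
    rw [← one_div Y, le_div_iff₀ Y0]
    exact (mul_le_mul_of_nonneg_right (by linarith) Y0.le).trans hY
  have := rpow_le_rpow p1 h1 hκ.le
  rwa [rpow_inv_rpow (by positivity) hκ.ne', inv_rpow Y0.le, ← rpow_neg Y0.le] at this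

theorem alg {D : Finset Pt} {w T x : Pt → ℝ} {g f u v t : ℝ} (e1 : ∑ z ∈ D, w z * x z = u + (v - u) * t) :
    2 * π * ∑ z ∈ D, w z * T z + (4 * π ^ 2 * g * u + 4 * π ^ 2 * g * (v - u) * t) * f =
      2 * π * ∑ z ∈ D, w z * (T z + 2 * π * g * x z * f) := by
  have : ∑ z ∈ D, w z * (T z + 2 * π * g * x z * f) =
      ∑ z ∈ D, w z * T z + 2 * π * g * f * ∑ z ∈ D, w z * x z := by
    rw [mul_sum, ← sum_add_distrib]; exact sum_congr rfl fun z _ => by ring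
  rw [this, e1]; ring

theorem expo {g u v K : ℝ} (g0 : 0 ≤ g) (g1 : g ≤ 1) (hu : |u| ≤ K) (hv : |v| ≤ K) :
    2 * |4 * π ^ 2 * g * u| + |4 * π ^ 2 * g * (v - u)| ≤ 16 * π ^ 2 * K := by
  have h3 : |v - u| ≤ 2 * K := (abs_sub _ _).trans (by linarith)
  have g2 : 4 * π ^ 2 * g ≤ 4 * π ^ 2 := mul_le_of_le_one_right (by positivity) g1
  rw [abs_mul _ u, abs_mul _ (v - u), abs_of_nonneg (show 0 ≤ 4 * π ^ 2 * g by positivity)]
  linarith [mul_le_mul g2 hu (abs_nonneg _) (by positivity), mul_le_mul g2 h3 (abs_nonneg _) (by positivity)]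

end SY74

open SY74 in
theorem stepYStmt (hFus : FusStmt) (hFar : FarStmt) (hS : SiteYStmt) : StepYStmt := by
  intro p W hW
  by_cases hw : 4 ≤ p.w
  swap
  · exact ⟨0, 1, le_rfl, one_pos, fun Λ ω _ L N h => absurd h.w4 hw⟩
  obtain ⟨κ, CS, hκ, hκ1, hCS, hS⟩ := hS p W hW hw
  obtain ⟨CF, hCF, hFar⟩ := hFar p
  have W2 : (2 : ℝ) ≤ W := by exact_mod_cast hW
  obtain ⟨C₀, hC₀, hsc⟩ := exists_sc p W2 hw hκ hκ1
  obtain ⟨Cw, hCw, hwt⟩ := sm_wt 0 (M := W) (by linarith)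
  obtain ⟨Cx, hCx, hxi⟩ := sum_abs_xi
  obtain ⟨CE, hCE⟩ : ∃ CE : ℝ,
    CE = 2 * π * Cw * (CS * (4 + 121 * W ^ 2) + CF * 128 * (3 * W) * (192 * W)) := ⟨_, rfl⟩
  have CE0 : 0 ≤ CE := by rw [hCE]; positivity
  have C₁0 : 0 ≤ exp (16 * π ^ 2 * (Cw * Cx)) * CE := by positivity
  refine ⟨C₀ + CS + exp (16 * π ^ 2 * (Cw * Cx)) * CE, κ * cw p.w / 5, by positivity,
    by have := (cw_bd hw).1; positivity, fun Λ ω r₁ L N hE hP R Y hM hCY hCR hr₁ hg hg1 => ?_⟩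
  have R1 := hM.1
  have R0 : 0 < R := by linarith
  have Y0 : 0 < Y := (rpow_pos_of_pos R0 _).trans_le hM.2.1
  have h := hsc Λ ω L N hE R Y hM ((mul_le_mul_of_nonneg_right (by linarith) Y0.le).trans hCY)
    ((mul_le_mul_of_nonneg_right (by linarith) R0.le).trans hCR)
  replace hS := hS Λ ω r₁ L N hE hP R Y hM ((mul_le_mul_of_nonneg_right (by linarith) Y0.le).trans hCY)
    ((mul_le_mul_of_nonneg_right (by linarith) R0.le).trans hCR) hr₁ hg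
  have L0 := h.L0
  have WR := h.WR
  have nL := h.nL
  have wn := h.wn
  have LN := h.LN
  have b2 := Sc.b2 (κ := κ) (R := R) (Y := Y) (N := N)
  have b3 := h.b3
  have hw' : ∀ z, |wt R (W * R) z| ≤ Cw := fun z => by
    simpa [difs] using hwt R (W * R) (by simpa using R0) WR le_rfl [] le_rfl (by simp) z trivial
  obtain ⟨D, hD, hD', hder⟩ := der_om hE (W := W) (by linarith) R0 Sc.n1 (by omega) h.n0
  have hsx : ∀ r, 1 ≤ r → |∑ z ∈ bl 0 (na W R), wt R (W * R) z * xi r z| ≤ Cw * Cx := fun r hr =>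
    (abs_sum_le_sum_abs _ _).trans <| (sum_le_sum (g := fun z => Cw * |xi r z|) fun z _ => by
      rw [abs_mul]; exact mul_le_mul_of_nonneg_right (hw' z) (abs_nonneg _)).trans <| by
      rw [← mul_sum]; exact mul_le_mul_of_nonneg_left (hxi r hr _) hCw
  have uv := wt_pair R0 (show 0 < W * R by positivity) (n := na W R) (Nat.ceil_mono (by linarith)) le_rfl
  rw [mul_div_assoc, div_self R0.ne', mul_one] at uv
  simp only [mul_add, sum_add_distrib] at uv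
  have h1 := hsx R R1
  have h2 := hsx (W * R) (by linarith)
  have e1 : ∀ t, ∑ z ∈ D, wt R (W * R) z * xt W R t z = ∑ z ∈ bl 0 (na W R), wt R (W * R) z * xi R z +
      (∑ z ∈ bl 0 (na W R), wt R (W * R) z * xi (W * R) z -
        ∑ z ∈ bl 0 (na W R), wt R (W * R) z * xi R z) * t := fun t => by
    rw [← sum_subset ((bl_mono 0 (show na W R ≤ N by omega)).trans hD) fun z _ hz => by
      rw [(chq_xt (W := W) (by linarith) R0 Sc.n1 t).1 z hz, mul_zero], ← sum_sub_distrib, sum_mul,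
      ← sum_add_distrib]
    exact sum_congr rfl fun z _ => by rw [xt_apply]; ring
  generalize ∑ z ∈ bl 0 (na W R), wt R (W * R) z * xi R z = u at *
  generalize ∑ z ∈ bl 0 (na W R), wt R (W * R) z * xi (W * R) z = v at *
  have key := duh_fwd (α := 4 * π ^ 2 * gk ω R * u) (β := 4 * π ^ 2 * gk ω R * (v - u))
    (E := CE * (Y ^ 2 * (Y ^ (κ * cw p.w / 5) + (R / L) ^ (κ * cw p.w / 5)) / R ^ 2))
    (fun t _ => hder t) fun t ht => by
    have z12 := h.z12 (by positivity) hCw hw' (hS t ht)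
    have z3 := mul_le_mul_of_nonneg_left (h.z3 hFus hE hM hCF (hFar Λ ω L N hE R Y hM) t) hCw
    rw [alg (e1 t), abs_mul, abs_of_pos two_pi_pos]
    have s1 := (abs_sum_le_sum_abs (fun z => wt R (W * R) z * (ω (fun s => Jz 0 s * cp (xt W R t) 0 s * Jz z s) +
        2 * π * gk ω R * xt W R t z * ω fun s => Jz 0 s * cp (xt W R t) (-(π / 2)) s)) D).trans
      ((sum_le_sum_of_subset_of_nonneg hD' fun _ _ _ => abs_nonneg _).trans_eq
        (sum_sdiff (bl_mono 0 (show bb κ R Y N ≤ N + N / 4 by omega))).symm)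
    rw [mul_sum] at z3
    have s2 := s1.trans (add_le_add ((sum_le_sum fun z hz => by
      rw [(chq_xt (W := W) (by linarith) R0 Sc.n1 t).1 z fun h => (mem_sdiff.1 hz).2 (bl_mono 0 (by omega) h),
        mul_zero, zero_mul, add_zero, abs_mul]
      exact mul_le_mul_of_nonneg_right (hw' z) (abs_nonneg _)).trans z3) z12)
    refine (mul_le_mul_of_nonneg_left s2 two_pi_pos.le).trans ?_
    have s3 : 0 ≤ 2 * π * Cw * (CS * (4 + 121 * W ^ 2)) * (Y ^ 2 * (R / L) ^ (κ * cw p.w / 5) / R ^ 2) := by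
      positivity
    refine (le_add_of_nonneg_right s3).trans_eq ?_
    rw [hCE]; ring
  have e0 : ∀ r : ℝ, (fun s => Jz 0 s * cp (xi r) (-(π / 2)) s) = fun s => Jz 0 s * Sn r s := fun r =>
    funext fun s => by rw [cp, Sn, ← sub_eq_add_neg, cos_sub_pi_div_two]
  have x0 : xt W R 0 = xi R := by simp [xt]
  have x1 : xt W R 1 = xi (W * R) := by simp [xt, A0_wt]
  simp only [x0, x1, e0] at key
  rw [show -(4 * π ^ 2 * gk ω R * u + 4 * π ^ 2 * gk ω R * (v - u) / 2) = -2 * π ^ 2 * gk ω R * (u + v) by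
    ring, uv, show er R - er (W * R) + log W / (2 * π) = log W / (2 * π) + er R - er (W * R) by ring] at key
  refine key.trans ?_
  have h4 := expo (by linarith) hg1 h1 h2
  calc _ ≤ exp (16 * π ^ 2 * (Cw * Cx)) *
        (CE * (Y ^ 2 * (Y ^ (κ * cw p.w / 5) + (R / L) ^ (κ * cw p.w / 5)) / R ^ 2)) := by gcongr
    _ = exp (16 * π ^ 2 * (Cw * Cx)) * CE * Y ^ 2 *
        (Y ^ (κ * cw p.w / 5) + (R / L) ^ (κ * cw p.w / 5)) / R ^ 2 := by ring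
    _ ≤ _ := by gcongr; linarith

end Crest.Agent.T145.Fl
end

-- ▼ part T145/MbBad_10

/-!
# Row 145, module MB: BADG and Y0 (helper10)
-/

set_option autoImplicit false

namespace Crest.Agent.T145.Mb

open Finset



theorem y0Stmt : Y0Stmt := by
  intro F l hl
  by_cases h : F.τ₁ ≤ F.τ₂
  · have ok : (⟨F.J, F.xy, F.τ₂⟩ : Lat).Ok := ⟨F.adm, F.pos.trans_le h⟩
    have h0 : (0 : Pt) ∈ sq 0 l := self_mem_sq 0 hl
    refine ⟨(⟨F.J, F.xy, F.τ₂⟩ : Lat).Y l, (ok.cen_Nr h0).ph_pos _, fun Λ hΛ => ?_⟩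
    have e : Λ = (⟨F.J, F.xy, F.τ₂⟩ : Lat).at' Λ.τ := by
      obtain ⟨J, xy, τ⟩ := Λ
      obtain ⟨rfl, rfl, -⟩ := hΛ
      rfl
    rw [e]
    exact (ok.loc_at_Nr (F.pos.trans_le hΛ.2.2.1) hΛ.2.2.2 (ok.anch_Nr h0)).ph _
  · exact ⟨1, one_pos, fun Λ hΛ => absurd (hΛ.2.2.1.trans hΛ.2.2.2) h⟩

end Crest.Agent.T145.Mb
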