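import Crest.Agent.T145.FlEnt_65
import Crest.Agent.T145.FlDef2_82
import Crest.Agent.T145.FlOBas_98
import Crest.Agent.T145.FlCone_64
import Crest.Agent.T145.FlSw_22
import Crest.Agent.T145.FlRate_98
import Crest.Agent.T145.FlEnv_30
import Crest.Agent.T145.Soft_23
import Crest.Agent.T145.FlAmb_4
import Crest.Agent.T145.FlA_51
import Crest.Agent.T145.FlOpe_4
import Crest.Agent.T145.MbBad_10_Mg
import Crest.Agent.T145.FlBas_4
import Crest.Agent.T145.FlBare_80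
import Crest.Agent.T145.FlLink_65_Mg
import Crest.Agent.T145.MidVar_29
import Crest.Agent.T145.MidVg_19
import Crest.Agent.T145.MidMo_32
import Crest.Agent.T145.FlLow_84_Mg
import Crest.Agent.T145.FlCc_87
import Crest.Agent.T145.FlCm_62
import Crest.Agent.T145.FlFar_57
import Crest.Agent.T145.FlKb_14
import Crest.Agent.T145.FlKs_11
import Crest.Agent.T145.FlLj_36
import Crest.Agent.T145.FlLoc_94
import Crest.Agent.T145.FlNeu_31
import Crest.Agent.T145.FlStep_58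
import Crest.Agent.T145.FlXf_91

-- ▼ part T145/FlEnt2_65
section

/-!
# Row 145, odd flow: `Ent2Stmt` (helper65)
-/

set_option autoImplicit false

namespace Crest.Agent.T145.Fl

theorem ent2Stmt (hS : SemiStmt) (hP : ProdStmt) (hF : FusStmt) (hB : BareStmt) (hM : CmStmt)
    (hA : AkStmt) : Ent2Stmt := fun w => by
  obtain ⟨W₀, h⟩ := ent2 hS hP hF hB hM hA w
  refine ⟨W₀, fun p W hp hW => ?_⟩
  obtain ⟨C, D, -, hD, h⟩ := h p W hp hW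
  exact ⟨C, D, hD, h⟩

end Crest.Agent.T145.Fl
end

-- ▼ part T145/FlOA_98
section

/-!
# Row 145, packaging of the odd flow (helper98): the leaves STEP, POS, ENT
-/

set_option autoImplicit false

namespace Crest.Agent.T145.Fl

open Finset Real

theorem st_mono {e e' x y x' y' : ℝ} (h : KT.St e x y x' y') (he : e ≤ e') : KT.St e' x y x' y' :=
  ⟨h.pos, h.pos', h.hx.trans (mul_le_mul_of_nonneg_right he (sq_nonneg _)),
    h.hy.trans (mul_le_mul_of_nonneg_right he (add_nonneg (abs_nonneg _) h.pos.le))⟩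

theorem leaf_step (hS : StepStmt) : Leaf OStep := by
  intro F θ₀ q _ h
  obtain ⟨C, δ, hC, h0, h1, hS⟩ := hS q.p q.W q.D h.two_le_W
  have hC1 : 0 < C + 1 := by linarith
  refine (((((h.base one_pos C).and (evp_ε (inv_pos.2 hC1))).and (evp_d h0)).and (evp_θ' h0)).and
    (evp_C (C * 2 ^ (q.s + 1)))).mono fun P ⟨⟨⟨⟨hb, hε⟩, hd⟩, hθ⟩, hPC⟩ l a => ?_
  obtain ⟨r₁, k₀, hb⟩ := hb l
  refine ⟨max a k₀, fun Λ N k hV hk hB => ?_⟩
  obtain ⟨hR, hN, hL, hL'⟩ := hb Λ N k hV (le_of_max_le_right hk)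
  have hη : |q.x Λ N k| + q.y Λ N k ≤ (C + 1)⁻¹ := (hB k (le_of_max_le_left hk) le_rfl).trans hε
  have hη0 : 0 ≤ |q.x Λ N k| + q.y Λ N k := add_nonneg (abs_nonneg _) (q.y_nonneg Λ N k)
  have hη1 : (C + 1) * (|q.x Λ N k| + q.y Λ N k) ≤ 1 := by
    rwa [← le_div_iff₀' hC1, one_div]
  have h2 := hS Λ _ r₁ _ _ hR.env hR.pur (q.R k)
    (hR.cone' (zero_le_one.trans h.C1) (le_of_max_le_right hk) hL').1
    ((mul_le_mul_of_nonneg_left (q.R_mono k.le_succ) hC).trans hL)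
    (hR.sq_le (le_of_max_le_right hk)) (by change C * (|q.x Λ N k| + q.y Λ N k) ≤ 1; nlinarith)
  rw [q.R_succ] at h2
  refine st_mono h2 ?_
  change C * (|q.x Λ N k| + q.y Λ N k) ^ δ + C * (q.R k / q.L N) ^ δ ≤
    P.C * ((|q.x Λ N k| + q.y Λ N k) ^ P.d + P.θ ^ (N - q.v * k))
  have h3 := rpow_le_rpow_of_exponent_ge' hη0 (by nlinarith) P.d0.le hd
  have h4 := q.ratio_rpow (N := N) (k := k)
    (le_trans (Nat.add_le_add_right (Nat.mul_le_mul_left _ k.le_succ) _) hN) h1.le hθ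
  have h5 : C ≤ P.C := (le_mul_of_one_le_right hC (one_le_pow₀ one_le_two)).trans hPC
  have h6 := P.θ0
  rw [mul_add]
  refine add_le_add (mul_le_mul h5 h3 (rpow_nonneg hη0 _) P.C0) ?_
  calc _ ≤ C * (2 ^ (q.s + 1) * P.θ ^ (N - q.v * k)) := mul_le_mul_of_nonneg_left h4 hC
    _ = C * 2 ^ (q.s + 1) * P.θ ^ (N - q.v * k) := by ring
    _ ≤ _ := by gcongr

theorem leaf_pos : Leaf OPos := by
  intro F θ₀ q _ h
  refine (h.base one_pos 0).mono fun P hb l => ?_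
  obtain ⟨r₁, k₀, hb⟩ := hb l
  have hD : 0 < q.D := one_pos.trans_le h.D1
  refine ⟨k₀, fun k hk => ⟨q.R k ^ (-ew q.p.w) / q.D,
    div_pos (rpow_pos_of_pos (q.R_pos k) _) hD, fun Λ N hV => ?_⟩⟩
  obtain ⟨hR, -, -, hL⟩ := hb Λ N k hV hk
  rw [div_le_iff₀' hD]
  exact (hR.cone' (zero_le_one.trans h.C1) hk hL).1.2.1

theorem leaf_ent : Leaf OEnt := by
  intro F θ₀ q _ h
  obtain ⟨c, C, -, hC, hy⟩ := E65.yk_cmp akStmt h.two_le_W
  obtain ⟨m, hm, hr⟩ := q.range q.p.w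
  refine ((h.base one_pos 0).and (evp_δ h.δ0)).mono fun P ⟨hb, hδ⟩ ε hε => ?_
  have hC1 : 0 < 4 * C + 1 := by linarith
  obtain ⟨δ₃, h0, -, h2⟩ := h.res (ε / (4 * C + 1)) (div_pos hε hC1)
  refine ⟨δ₃, m, h0, fun l => ?_⟩
  obtain ⟨r₁, k₀, hb⟩ := hb l
  obtain ⟨r₂, k₁, h2⟩ := h2 l
  refine ⟨max k₀ k₁, fun Λ N k hV hk hN hW => ?_⟩
  rw [Dat.fw_w] at hN hW
  obtain ⟨hR, -, -, hL⟩ := hb Λ N k hV (le_of_max_le_left hk)
  have hk1 := Nat.mul_le_mul_left q.v (le_of_max_le_right hk)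
  have hR' := h2 Λ _ hV.1 ⟨hW, hV.2.1.2.trans hδ⟩ (by omega)
  have hM := hR'.maj _ (q.R_mono (le_of_max_le_right hk))
  have e : q.R k = 2 * ((q.W ^ k : ℕ) : ℝ) := by rw [Nat.cast_pow]; rfl
  have ha : (0 : ℝ) < (q.W ^ k : ℕ) := by exact_mod_cast Nat.pow_pos q.one_le_W
  have hwL : q.p.w * q.W ^ k ≤ q.L (q.v * k + m) := by
    have h3 := hr _ k le_rfl
    rw [e] at h3
    have h4 : ((q.p.w * q.W ^ k : ℕ) : ℝ) ≤ q.L (q.v * k + m) := by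
      rw [Nat.cast_mul]
      exact le_trans (mul_le_mul_of_nonneg_left (by linarith) (Nat.cast_nonneg _)) h3
    exact_mod_cast h4
  have h0' := hR.r0_le (le_of_max_le_left hk)
  have h3 := hM.prof.le hM.pos.le (q.R_pos k) two_pos h0' hwL (by rw [e]; linarith)
    (by rw [e]; linarith)
  have h4 := Cone.abs_ell_le hR.env h0' (hwL.trans (q.L_mono hN))
    (ins_Jz 0 (Nat.pow_pos q.one_le_W))
  have h5 := hR.lnk' (zero_le_one.trans h.C1) (le_of_max_le_left hk) hL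
  rw [e] at h5
  have h6 := (hy (tor Λ N) (q.W ^ k) (Nat.pow_pos q.one_le_W) h5.1 h5.2).2
  have h7 : (2 : ℝ) ^ ew q.p.w ≤ 2 :=
    (rpow_le_rpow_of_exponent_le one_le_two ((ew_le' hR.gs.w4).trans (by norm_num))).trans
      (rpow_one _).le
  change yk (tor Λ N) q.W (q.R k) ≤ ε
  rw [e]
  refine h6.trans ?_
  rw [le_div_iff₀ (by positivity)] at h3
  have h8 := hM.pos
  calc C * E65.lam (tor Λ N) (q.W ^ k)
      ≤ C * (((q.W ^ k : ℕ) : ℝ) ^ 2 * (2 * nu Λ q.p.w 0 (q.W ^ k) (Jz 0))) := by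
        unfold E65.lam; gcongr
    _ = 2 * C * (nu Λ q.p.w 0 (q.W ^ k) (Jz 0) * ((q.W ^ k : ℕ) : ℝ) ^ 2) := by ring
    _ ≤ 2 * C * (ε / (4 * C + 1) * 2) := by
        refine mul_le_mul_of_nonneg_left (h3.trans ?_) (by positivity)
        gcongr
    _ = 4 * C * (ε / (4 * C + 1)) := by ring
    _ ≤ (4 * C + 1) * (ε / (4 * C + 1)) := by gcongr; linarith
    _ = ε := mul_div_cancel₀ _ hC1.ne'

end Crest.Agent.T145.Fl
end

-- ▼ part T145/FlOddB_64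
section

/-!
# Row 145, odd flow: from a verified scale to the results of the core (helper64)
-/

set_option autoImplicit false

namespace Crest.Agent.T145.Fl.O64

open Finset Real

variable {q : Dat} {F : Fa} {θ₀ y₀ A : ℝ} {Λ : Lat} {r₁ k₀ N k : ℕ}

theorem W_cast (q : Dat) : (q.W : ℝ) = 2 ^ q.v := by simp [Dat.W]
theorem W_pow (q : Dat) (k : ℕ) : q.fw.r k = q.W ^ k := by simp [Dat.W, Dat.fw, Mid.Fw.r, pow_mul]
theorem R_eq (q : Dat) (k : ℕ) : q.R k = 2 * (q.W : ℝ) ^ k := rfl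
theorem R_eq' (q : Dat) (k : ℕ) : q.R k = 2 * ((q.W ^ k : ℕ) : ℝ) := by rw [R_eq, Nat.cast_pow]
theorem one_le_W (q : Dat) : 1 ≤ q.W := Nat.one_le_two_pow
theorem one_le_W' (q : Dat) : (1 : ℝ) ≤ q.W := by exact_mod_cast one_le_W q
theorem one_le_Wk (q : Dat) (k : ℕ) : (1 : ℝ) ≤ (q.W : ℝ) ^ k := one_le_pow₀ (one_le_W' q)
theorem R_pos (q : Dat) (k : ℕ) : 0 < q.R k := by rw [R_eq]; linarith [one_le_Wk q k]
theorem R_mono (q : Dat) {j k : ℕ} (h : j ≤ k) : q.R j ≤ q.R k := by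
  rw [R_eq, R_eq]; linarith [pow_le_pow_right₀ (one_le_W' q) h]
theorem four_le_W (c : q.Core F θ₀) : 4 ≤ q.W := Nat.pow_le_pow_right two_pos c.v2
theorem four_le_W' (c : q.Core F θ₀) : (4 : ℝ) ≤ q.W := by exact_mod_cast four_le_W c
theorem L_mono (q : Dat) {N N' : ℕ} (h : N ≤ N') : q.L N ≤ q.L N' :=
  Nat.pow_le_pow_right two_pos (Nat.sub_le_sub_right h _)
theorem L_le (q : Dat) (N : ℕ) : q.L N ≤ 2 ^ N := Nat.pow_le_pow_right two_pos (Nat.sub_le _ _)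
theorem kap_eq (q : Dat) : q.fw.κ = π * log q.W := by rw [W_cast]; rfl
theorem kap_nonneg (q : Dat) : 0 ≤ q.fw.κ := by
  rw [kap_eq]; exact mul_nonneg pi_pos.le (log_nonneg (one_le_W' q))
theorem x_eq (q : Dat) (Λ : Lat) (N k : ℕ) :
    q.fw.x Λ N k = q.fw.κ * (gk (tor Λ N) (q.R k) - 2 / π) := by
  rw [kap_eq]; change xk _ _ _ = _; rw [xk]; field_simp

/-- `2 ^ (-c)` -/
noncomputable def th (c : ℝ) : ℝ := (1 / 2 : ℝ) ^ c

theorem th_pos (c : ℝ) : 0 < th c := rpow_pos_of_pos (by norm_num) c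
theorem th_lt {c : ℝ} (h : 0 < c) : th c < 1 := rpow_lt_one (by norm_num) (by norm_num) h

theorem ratio (h : q.v * k + q.s ≤ N) (c : ℝ) :
    (q.R k / q.L N) ^ c = (2 ^ (q.s + 1) : ℝ) ^ c * th c ^ (N - q.v * k) := by
  obtain ⟨n, rfl⟩ := Nat.exists_eq_add_of_le h
  rw [th, ← rpow_mul_natCast (by norm_num), mul_comm c, rpow_natCast_mul (by norm_num),
    ← mul_rpow (by positivity) (by positivity), R_eq, W_cast, Dat.L,
    show q.v * k + q.s + n - q.s = q.v * k + n by omega, show q.v * k + q.s + n - q.v * k = q.s + n by omega]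
  congr 1
  push_cast
  rw [← pow_mul, one_div, inv_pow]
  field_simp
  ring

/-- the scale `k` of the torus `N` is verified, with room `A` -/
structure At (q : Dat) (Λ : Lat) (y₀ A : ℝ) (r₁ k₀ N k : ℕ) : Prop extends q.Res Λ y₀ r₁ k₀ N where
  k0 : k₀ ≤ k
  room : A * (q.W : ℝ) ^ (k + 1) ≤ q.L N
  top : q.v * k + q.s ≤ N

theorem base (c : q.Core F θ₀) (hy : 0 < y₀) (A : ℝ) : ∃ (δ : ℝ) (s : ℕ), 0 < δ ∧ q.s ≤ s ∧
    A ≤ 2 ^ (s - q.s) ∧ ∀ l, ∃ r₁ k₀,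
    ∀ (P : Mid.Par) Λ N k, s ≤ P.s → P.δ ≤ δ → q.fw.V F θ₀ P Λ l N k → k₀ ≤ k →
      At q Λ y₀ A r₁ k₀ N k := by
  obtain ⟨δ, h0, h1, H⟩ := c.res y₀ hy
  obtain ⟨t, ht⟩ := pow_unbounded_of_one_lt A (one_lt_two (α := ℝ))
  refine ⟨δ, q.s + t, h0, by omega, by simpa using ht.le, fun l => ?_⟩
  obtain ⟨r₁, k₀, H⟩ := H l
  refine ⟨r₁, k₀, fun P Λ N k hs hδ hV hk => ?_⟩
  have h2 : q.v * (k + 1) + P.s ≤ N := hV.2.2
  have h3 : q.v * k₀ ≤ q.v * k := Nat.mul_le_mul_left _ hk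
  rw [mul_add, mul_one] at h2
  refine ⟨H Λ N hV.1 ⟨hV.2.1.1.mono_d hδ, hV.2.1.2.trans (hδ.trans h1)⟩ (by omega), hk, ?_, by omega⟩
  calc _ ≤ 2 ^ t * (q.W : ℝ) ^ (k + 1) := by gcongr
    _ = 2 ^ (t + q.v * (k + 1)) := by rw [W_cast, ← pow_mul, pow_add]
    _ ≤ q.L N := by
      rw [Dat.L]; push_cast
      exact pow_le_pow_right₀ one_le_two (by rw [mul_add, mul_one]; omega)

namespace At
variable (h : At q Λ y₀ A r₁ k₀ N k)
include h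

theorem env : Env q.p Λ (tor Λ N) (q.L N) (nA Λ N) := h.pack.toEnv
theorem gs : Gs q.p Λ (q.L N) := h.pack.toGs

theorem r1_le : r₁ ≤ q.W ^ k := by
  have h1 := h.r1.trans (Nat.pow_le_pow_right (one_le_W q) h.k0)
  nlinarith
theorem r0_le : q.p.r₀ ≤ q.W ^ k := h.r0.trans h.r1_le

theorem room' {B : ℝ} (hB : B ≤ A) {t : ℝ} (ht : t ≤ B * (q.W : ℝ) ^ (k + 1)) : t ≤ q.L N :=
  ht.trans ((mul_le_mul_of_nonneg_right hB (by positivity)).trans h.room)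

theorem roomR {B : ℝ} (h0 : 0 ≤ B) (hB : 2 * B ≤ A) : B * q.R k ≤ q.L N := h.room' hB (by
  have := mul_le_mul_of_nonneg_left (pow_le_pow_right₀ (one_le_W' q) (by omega : k ≤ k + 1)) h0
  rw [R_eq]; linarith)

theorem roomN {n : ℕ} (hn : n ≤ q.W ^ (k + 1)) {B : ℝ} (h0 : 0 ≤ B) (hB : B ≤ A) : B * n ≤ q.L N :=
  h.room' hB (mul_le_mul_of_nonneg_left (by exact_mod_cast hn) h0)

theorem roomW {n : ℕ} (hn : n ≤ q.W ^ (k + 1)) (hB : (q.p.w : ℝ) ≤ A) : q.p.w * n ≤ q.L N := by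
  exact_mod_cast h.roomN hn (Nat.cast_nonneg _) hB

theorem majR : Maj q.p Λ (q.L N) (q.R k) y₀ := h.maj _ (R_mono q h.k0)

theorem majD (h0 : 0 ≤ q.C) (hA : 2 * q.C ≤ A) :
    Maj q.p Λ (q.L N) (q.R k) (q.D * q.y Λ N k) ∧ q.y Λ N k ≤ y₀ := h.cone k h.k0 (h.roomR h0 hA)

theorem lnkR (h0 : 0 ≤ q.C) (hA : 2 * q.C ≤ A) :
    1 / 4 ≤ gk (tor Λ N) (q.R k) ∧ gk (tor Λ N) (q.R k) ≤ 1 := h.lnk _ (R_mono q h.k0) (h.roomR h0 hA)

end At


end Crest.Agent.T145.Fl.O64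
end

-- ▼ part T145/FlOC_64
section

/-!
# Row 145, packaging of the odd flow (helper64): the leaves GJ, AMBX, AMBY
-/

set_option autoImplicit false

namespace Crest.Agent.T145.Fl

open Finset Real Filter Topology

namespace O64

variable {q : Dat} {F : Fa} {θ₀ y₀ A : ℝ} {Λ : Lat} {r₁ k₀ N k : ℕ}

theorem evp_at (c : q.Core F θ₀) (hy : 0 < y₀) (A : ℝ) : Evp fun P => A ≤ 2 ^ P.s ∧ ∀ l, ∃ r₁ k₀,
    ∀ Λ N k, q.fw.V F θ₀ P Λ l N k → k₀ ≤ k → At q Λ y₀ A r₁ k₀ N k := by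
  obtain ⟨δ, s, h0, -, h2, H⟩ := base c hy A
  refine ((evp_δ h0).and (evp_s s)).mono fun P ⟨a, b⟩ =>
    ⟨h2.trans (pow_le_pow_right₀ one_le_two (by omega)), fun l => ?_⟩
  obtain ⟨r₁, k₀, H⟩ := H l
  exact ⟨r₁, k₀, fun Λ N k hV hk => H P Λ N k b a hV hk⟩

theorem evp_th (w : ℕ) : Evp fun P => 4 ≤ w → th (cw w) ≤ P.θ := by
  by_cases h : 4 ≤ w
  · exact (evp_θ (th_lt (cw_pos (by omega : 1 ≤ w)))).mono fun _ a _ => a
  · exact evp_true fun _ a => absurd a h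

theorem At.ratio_le (h : At q Λ y₀ A r₁ k₀ N k) {θ : ℝ} (hθ : 4 ≤ q.p.w → th (cw q.p.w) ≤ θ) :
    (q.R k / q.L N) ^ cw q.p.w ≤ (2 ^ (q.s + 1) : ℝ) ^ cw q.p.w * θ ^ (N - q.v * k) := by
  rw [ratio h.top]
  exact mul_le_mul_of_nonneg_left (pow_le_pow_left₀ (th_pos _).le (hθ h.gs.w4) _) (by positivity)

theorem scales (c : q.Core F θ₀) {r : ℕ} (h1 : q.fw.r k ≤ r) (h2 : r ≤ q.fw.r (k + 1)) :
    q.R k / q.W ≤ r ∧ (r : ℝ) ≤ q.W * q.R k := by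
  rw [W_pow] at h1 h2
  have a1 : (q.W : ℝ) ^ k ≤ r := by exact_mod_cast h1
  have a2 : (r : ℝ) ≤ (q.W : ℝ) ^ (k + 1) := by exact_mod_cast h2
  have a3 := four_le_W' c
  have a4 := one_le_Wk q k
  rw [pow_succ] at a2
  rw [R_eq, div_le_iff₀ (by linarith)]
  constructor <;> nlinarith

theorem At.two_R (h : At q Λ y₀ A r₁ k₀ N k) (hA : 6 ≤ A) : 2 * q.R k + 1 ≤ q.L N := by
  have := h.roomR (B := 3) (by norm_num) (by linarith)
  linarith [q.one_le_R k]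

theorem x_sub (q : Dat) (Λ : Lat) (N k : ℕ) (g : ℝ) :
    |q.fw.κ * (g - 2 / π) - q.fw.x Λ N k| = q.fw.κ * |g - gk (tor Λ N) (q.R k)| := by
  rw [x_eq, ← mul_sub, abs_mul, abs_of_nonneg (kap_nonneg q)]; congr 2; ring

theorem small (q : Dat) (t : ℝ) {c ε : ℝ} (hc : 0 < c) (hε : 0 < ε) :
    ∃ N₀, ∀ N, N₀ ≤ N → (t / q.L N) ^ c < ε := by
  have h1 : Tendsto (fun N => (q.L N : ℝ)) atTop atTop := by
    simp only [q.L_cast]
    exact (tendsto_pow_atTop_atTop_of_one_lt one_lt_two).comp (tendsto_sub_atTop_nat q.s)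
  have h2 := (tendsto_const_nhds (x := t).div_atTop h1).rpow_const (p := c) (Or.inr hc.le)
  rw [zero_rpow hc.ne'] at h2
  exact eventually_atTop.1 (h2.eventually (gt_mem_nhds hε))

theorem unif (K e : ℝ) {ε : ℝ} (hε : 0 < ε) : ∃ η, 0 < η ∧ ∀ a b a' b' : ℝ, |a| ≤ 4 → |a'| ≤ 4 → |b| ≤ 1 →
    |b'| ≤ 1 → |a - a'| < η → |b - b'| < η →
      abs (K * |a| * exp (-2 * π ^ 2 * b * e) - K * |a'| * exp (-2 * π ^ 2 * b' * e)) ≤ ε := by
  have hc : Continuous fun u : ℝ × ℝ => K * |u.1| * exp (-2 * π ^ 2 * u.2 * e) := by fun_prop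
  obtain ⟨η, h0, h⟩ := Metric.uniformContinuousOn_iff.1
    ((isCompact_Icc (a := ((-4, -1) : ℝ × ℝ)) (b := (4, 1))).uniformContinuousOn_of_continuous
      hc.continuousOn) ε hε
  refine ⟨η, h0, fun a b a' b' h1 h2 h3 h4 h5 h6 => ?_⟩
  rw [abs_le] at h1 h2 h3 h4
  exact (h (a, b) ⟨⟨h1.1, h3.1⟩, h1.2, h3.2⟩ (a', b') ⟨⟨h2.1, h4.1⟩, h2.2, h4.2⟩ (max_lt h5 h6)).le

theorem At.nu_le (h : At q Λ 1 A r₁ k₀ N k) (hA : (q.p.w : ℝ) ≤ A) :
    nu Λ q.p.w 0 (q.W ^ k) (Jz 0) ≤ 2 := by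
  have a1 : (1 : ℝ) ≤ (q.W ^ k : ℕ) := by exact_mod_cast Nat.pow_pos (one_le_W q)
  have h3 := h.majR.prof.le one_pos.le (R_pos q k) two_pos h.r0_le
    (h.roomW (Nat.pow_le_pow_right (one_le_W q) k.le_succ) hA) (by rw [R_eq']; linarith)
    (by rw [R_eq']; linarith)
  have h7 : (2 : ℝ) ^ ew q.p.w ≤ 2 :=
    (rpow_le_rpow_of_exponent_le one_le_two ((ew_le' h.gs.w4).trans (by norm_num))).trans
      (rpow_one _).le
  refine h3.trans ?_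
  rw [one_mul, div_le_iff₀ (by positivity)]
  nlinarith

end O64

open O64

theorem leaf_gj : Leaf OGj := by
  intro F θ₀ q _ c
  obtain ⟨C, C0, H⟩ := Amb4.gj q.p
  have c0 : 0 ≤ q.C := zero_le_one.trans c.C1
  have k0 := kap_nonneg q
  refine (((evp_at c one_pos (C + 2 * q.C + 6)).and (evp_th q.p.w)).and
    (evp_C (q.fw.κ * C * q.D ^ 2 * q.W ^ 5))).mono fun P ⟨⟨⟨_, hb⟩, hθ⟩, hC⟩ l => ?_
  obtain ⟨r₁, k₀, hb⟩ := hb l
  refine ⟨k₀, q.fw.κ * C * q.D ^ 2 * q.W * (2 ^ (q.s + 1) : ℝ) ^ cw q.p.w,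
    fun Λ N k hV hk r m z h1 h2 hm => ?_⟩
  have h := hb Λ N k hV hk
  obtain ⟨s1, s2⟩ := scales c h1 h2
  obtain ⟨hM, y1⟩ := h.majD c0 (by linarith)
  have y0 := q.y_nonneg Λ N k
  have e := H Λ _ _ _ h.env m z (FlF4.amb_mono hm (bl_mono z (L_le q N))) _ _ _ hM (one_le_W' q) r s1 s2
    (h.roomN (W_pow q _ ▸ h2) C0 (by linarith)) (h.two_R (by linarith))
  have t := h.ratio_le hθ
  have t0 := P.θ0
  rw [x_sub]
  change _ ≤ P.C * q.y Λ N k ^ 2 + _ * (P.θ ^ (N - q.v * k) + P.θ ^ k)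
  calc _ ≤ q.fw.κ * (C * (q.D * q.y Λ N k) ^ 2 * (q.W ^ 5 + q.W * (q.R k / q.L N) ^ cw q.p.w)) :=
        mul_le_mul_of_nonneg_left e k0
    _ = q.fw.κ * C * q.D ^ 2 * q.W ^ 5 * q.y Λ N k ^ 2 +
        q.fw.κ * C * q.D ^ 2 * q.W * (q.y Λ N k ^ 2 * (q.R k / q.L N) ^ cw q.p.w) := by ring
    _ ≤ P.C * q.y Λ N k ^ 2 + q.fw.κ * C * q.D ^ 2 * q.W *
        (1 * ((2 ^ (q.s + 1) : ℝ) ^ cw q.p.w * (P.θ ^ (N - q.v * k) + P.θ ^ k))) := by
        have := R_pos q k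
        gcongr
        · exact pow_le_one₀ y0 y1
        · exact t.trans (mul_le_mul_of_nonneg_left (le_add_of_nonneg_right (by positivity))
            (by positivity))
    _ = _ := by ring

theorem leaf_ambx : Leaf OAmbx := by
  intro F θ₀ q _ c
  obtain ⟨C, C0, H⟩ := Amb4.gk_amb q.p
  have k0 := kap_nonneg q
  refine ((evp_at c one_pos (2 * C)).and (evp_th q.p.w)).mono fun P ⟨⟨_, hb⟩, hθ⟩ l => ?_
  obtain ⟨r₁, k₀, hb⟩ := hb l
  refine ⟨k₀, q.fw.κ * C * (2 ^ (q.s + 1) : ℝ) ^ cw q.p.w, fun Λ N N' k hV hV' hN hk => ?_⟩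
  have h := hb Λ N k hV hk
  have h' := hb Λ N' k hV' hk
  have e := (H Λ _ _ _ _ _ _ h.env h'.env ((L_mono q hN).trans h'.env.le)).2 _ _ h.majR
    (h.roomR C0 le_rfl)
  rw [abs_sub_comm, x_eq q Λ N', x_sub]
  refine (mul_le_mul_of_nonneg_left (e.trans (mul_le_mul_of_nonneg_left (h.ratio_le hθ)
    (by positivity))) k0).trans_eq ?_
  rw [Dat.fw_w]; ring

theorem leaf_amby : Leaf OAmby := by
  intro F θ₀ q _ c
  obtain ⟨C, C0, H⟩ := Amb4.gk_amb q.p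
  have c0 : 0 ≤ q.C := zero_le_one.trans c.C1
  have w0 : (0 : ℝ) ≤ q.p.w := Nat.cast_nonneg _
  refine (evp_at c one_pos (2 * C + 2 * q.C + q.p.w)).mono fun P ⟨_, hb⟩ l => ?_
  obtain ⟨r₁, k₀, hb⟩ := hb l
  refine ⟨k₀, fun k hk ε hε => ?_⟩
  by_cases hw : 4 ≤ q.p.w
  swap
  · exact ⟨0, fun Λ N _ hV _ _ _ => absurd (hb Λ N k hV hk).gs.w4 hw⟩
  obtain ⟨η, η0, U⟩ := O64.unif (√(π * log q.W * Ak q.W (q.R k) / 2) * q.R k ^ 2) (Xi.er (q.R k)) hε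
  have c1 : 0 < 4 * C + 1 := by linarith
  obtain ⟨N₁, s1⟩ := O64.small q (q.R k) (cw_pos (by omega : 1 ≤ q.p.w)) (div_pos η0 c1)
  obtain ⟨N₂, s2⟩ := O64.small q ((4 * q.W ^ k : ℕ) : ℝ) (cw_pos (by omega : 1 ≤ q.p.w)) (div_pos η0 c1)
  have key : ∀ Λ N N', q.fw.V F θ₀ P Λ l N k → q.fw.V F θ₀ P Λ l N' k → max N₁ N₂ ≤ N → N ≤ N' →
      |q.fw.y Λ N' k - q.fw.y Λ N k| ≤ ε := fun Λ N N' hV hV' h1 hN => by
    have h := hb Λ N k hV hk
    have h' := hb Λ N' k hV' hk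
    have a1 : 1 ≤ q.W ^ k := Nat.pow_pos (one_le_W q)
    have a2 : (1 : ℝ) ≤ (q.W ^ k : ℕ) := by exact_mod_cast a1
    have a3 : 4 * q.W ^ k ≤ q.W ^ (k + 1) := by rw [pow_succ']; exact Nat.mul_le_mul_right _ (four_le_W c)
    have hA : (q.p.w : ℝ) ≤ 2 * C + 2 * q.C + q.p.w := by linarith
    have n := h.nu_le hA
    have b : ∀ {M}, At q Λ 1 (2 * C + 2 * q.C + q.p.w) r₁ k₀ M k →
        |ell (tor Λ M) (q.R k) (Jz 0)| ≤ 4 ∧ |gk (tor Λ M) (q.R k)| ≤ 1 := fun g => by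
      have g1 := Cone.abs_ell_le g.env g.r0_le (g.roomW (by omega) hA) (ins_Jz 0 a1)
      have g2 := g.lnkR c0 (by linarith)
      rw [← R_eq'] at g1
      exact ⟨by linarith, abs_le.2 ⟨by linarith, g2.2⟩⟩
    obtain ⟨e1, e2⟩ := H Λ _ _ _ _ _ _ h.env h'.env ((L_mono q hN).trans h'.env.le)
    have i := ins_Sn (r := 4 * q.W ^ k) (R_pos q k) (by rw [R_eq]; push_cast; linarith)
    have f := (fusStmt q.p Λ _ h.gs 0 (4 * q.W ^ k) (h.roomW a3 hA)).1 (q.W ^ k) (Jz 0) (Sn (q.R k))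
      h.r0_le (by omega) (ins_Jz 0 a1) i.1 (out_Sn (R_pos q k) (by rw [R_eq']; linarith)) (abs_Sn_le _)
    have d1 := e1 (4 * q.W ^ k) _ (h.r0_le.trans (by omega)) (h.roomW a3 hA)
      (((ins_Jz 0 a1).mono (by omega)).mul i)
    have d2 := e2 _ _ h.majR (h.roomR C0 (by linarith))
    have t1 := s1 N (le_of_max_le_left h1)
    have t2 := s2 N (le_of_max_le_right h1)
    rw [lt_div_iff₀ c1] at t1 t2
    have p1 : 0 ≤ (q.R k / q.L N) ^ cw q.p.w := by have := R_pos q k; positivity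
    have p2 : 0 ≤ (((4 * q.W ^ k : ℕ) : ℝ) / q.L N) ^ cw q.p.w := by positivity
    refine U _ _ _ _ (b h').1 (b h).1 (b h').2 (b h).2 (d1.trans_lt ?_) (d2.trans_lt ?_)
    · refine (mul_le_mul_of_nonneg_left (f.trans (by linarith : _ ≤ (4 : ℝ))) (by positivity)).trans_lt ?_
      nlinarith
    · nlinarith [mul_nonneg C0 p1]
  refine ⟨max N₁ N₂, fun Λ N N' hV hV' h1 h2 => ?_⟩
  rcases le_total N N' with h | h
  · rw [abs_sub_comm]; exact key Λ N N' hV hV' h1 h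
  · exact key Λ N' N hV' hV h2 h

end Crest.Agent.T145.Fl
end

-- ▼ part T145/FlOnu_14
section

/-!
# Row 145 (helper14): the packaging leaves `ONu`, `OKb`
-/

set_option autoImplicit false

namespace Crest.Agent.T145.Fl

open Finset Pot Xi Real

namespace On14

variable {p : Par} {Λ : Lat} {L : ℕ}

theorem win_mono {θ δ δ' : ℝ} {l L : ℕ} (h : Λ.Win θ δ l L) (hd : δ ≤ δ') : Λ.Win θ δ' l L :=
  ⟨h.1, ⟨h.2.1.1.trans (mul_le_mul_of_nonneg_right hd (Nat.cast_nonneg _)),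
    h.2.1.2.trans (mul_le_mul_of_nonneg_right hd (Nat.cast_nonneg _))⟩, h.2.2.1, h.2.2.2.trans hd⟩

theorem amb_union {m : Mdl Pt} {U U' : Finset Pt} (h : Nc.Amb Λ m U) (h' : Nc.Amb Λ m U') :
    Nc.Amb Λ m (U ∪ U') := by
  refine ⟨h.ctr, h.anch, union_subset h.sub h'.sub, fun e he => ?_, fun e he he' => ?_,
    fun x hx => (mem_union.1 hx).elim (h.near.2.2 x) (h'.near.2.2 x)⟩
  · simp only [mem_union] at he
    by_cases h1 : e.1 ∈ U ∨ e.2 ∈ U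
    · exact h.near.1 e h1
    · exact h'.near.1 e (by tauto)
  · simp only [mem_union] at he'
    by_cases h1 : e.1 ∈ U ∨ e.2 ∈ U
    · exact h.near.2.1 e he h1
    · exact h'.near.2.1 e he (by tauto)

theorem nu_J (h : Gs p Λ L) {r : ℕ} (h0 : p.r₀ ≤ r) (z : Pt) :
    nu Λ p.w z r (Jz z) = nu Λ p.w 0 r (Jz 0) := by
  have h1 := A51.four_le h r
  have h2 := h.gd.2.1
  have h3 := h.mem.ok.one_le_rg
  have e := ((semiStmt Λ p.w r z h.mem.ok (by omega)).2 (Jz 0) (Om.ins_Jz _ (by omega))).2.1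
  rwa [Om.trl_Jz, zero_add] at e

/-- the norm in a larger box -/
theorem nm_le (h : Gs p Λ L) {r c : ℕ} {z : Pt} {F : Cfg Pt → ℝ} (h0 : p.r₀ ≤ r) (hL : r ≤ L)
    (hc : p.w * r + 3 * Λ.rg ≤ c) (hF : Ins z r F) :
    Nc.Nm Λ z c (Nc.St Λ z r F) ≤ 2 * nu Λ p.w z r F := by
  have iS := (A51.ir h h0 hF).St h.mem.ok
  exact (((FlF4.ld1 Λ h.mem.ok).2 z r (p.w * r) (p.w * r + 2 * Λ.rg) _ iS.rc le_rfl iS.dep
    iS.ig).2.2.2.1 c (by omega)).2.2.2.2.trans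
    (mul_le_mul_of_nonneg_right (A51.gam_le h h0 hL).2 (A51.nu_nonneg h.mem.ok _ _ _ _))

/-- two currents in any ambient model -/
theorem jj_le (h : Gs p Λ L) {r : ℕ} {z z' : Pt} {m : Mdl Pt} (h0 : p.r₀ ≤ r) (hL : p.w * r ≤ L)
    (hm : Nc.Amb Λ m (bl z (p.w * r))) (hm' : Nc.Amb Λ m (bl z' (p.w * r)))
    (hd : Disjoint (bl z (p.w * r)) (bl z' (p.w * r))) :
    |Ex (m.W 0) fun s => Jz z s * Jz z' s| ≤ 16 * nu Λ p.w 0 r (Jz 0) ^ 2 := by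
  have h2 := h.gd.2.1
  have h3 := h.mem.ok.one_le_rg
  have := (prodStmt p Λ L h m _ Bool univ (fun i => cond i z z') (fun _ => r)
    (fun i => Jz (cond i z z')) (fun _ => 1) (amb_union hm hm')
    ⟨by simp, fun i _ => Om.ins_Jz _ (by omega), fun _ _ => ⟨h0, hL⟩,
      fun i _ => by cases i; exacts [subset_union_right, subset_union_left],
      fun i _ j _ hij => by
        cases i <;> cases j
        exacts [absurd rfl hij, hd.symm, hd, absurd rfl hij]⟩ (fun _ _ _ _ _ => rfl) (by simp)).1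
  simpa only [Fintype.prod_bool, cond_true, cond_false, mul_one, nu_J h h0, pow_two] using this

/-- what the core gives in the verified range -/
theorem base {F : Fa} {θ₀ : ℝ} {q : Dat} (c : q.Core F θ₀) (A : ℝ) (hA : 0 ≤ A) :
    Evp fun P => A ≤ P.C ∧ q.p.w + 2 ≤ 2 ^ P.s ∧ ∀ l, ∃ a₁, ∀ Λ N k, q.fw.V F θ₀ P Λ l N k → a₁ ≤ k →
      Gs q.p Λ (q.L N) ∧ 0 ≤ q.y Λ N k ∧ ∀ r : ℕ, q.fw.r k ≤ r → 2 ^ P.s * r ≤ 2 ^ N →
        q.p.r₀ ≤ r ∧ q.p.w * r ≤ q.L N ∧ nu Λ q.p.w 0 r (Jz 0) ≤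
          q.D * q.y Λ N k * (2 * r / q.fw.r k) ^ ew q.p.w / (r : ℝ) ^ 2 := by
  obtain ⟨δ, h0, h1, h⟩ := c.res 1 one_pos
  obtain ⟨t, ht, ht'⟩ : ∃ t : ℕ, q.p.w + 2 ≤ 2 ^ t ∧ 2 * q.C ≤ 2 ^ t := by
    refine ⟨q.p.w + 2 + ⌈2 * q.C⌉₊, (Nat.le_add_right _ _).trans Nat.lt_two_pow_self.le, ?_⟩
    have : ⌈2 * q.C⌉₊ ≤ 2 ^ (q.p.w + 2 + ⌈2 * q.C⌉₊) :=
      (Nat.le_add_left _ _).trans Nat.lt_two_pow_self.le
    exact (Nat.le_ceil _).trans (by exact_mod_cast this)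
  refine ⟨⟨q.s + t, A, 1 / 2, 1 / 2, 1, δ, hA, by norm_num, by norm_num, by norm_num, by norm_num,
    one_pos, h0⟩, fun P hP => ⟨hP.2.1, ht.trans (Nat.pow_le_pow_right two_pos (le_of_add_le_right hP.1)),
      fun l => ?_⟩⟩
  obtain ⟨r₁, k₀, h⟩ := h l
  refine ⟨k₀, fun Λ N k hV hk => ?_⟩
  have hs : q.s + t ≤ P.s := hP.1
  have hδ : P.δ ≤ δ := hP.2.2.2.2.2
  have hN : q.v * (k + 1) + P.s ≤ N := hV.2.2
  have hk' : q.v * k₀ ≤ q.v * k := Nat.mul_le_mul_left _ hk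
  rw [mul_add_one] at hN
  have res := h Λ N hV.1 ⟨win_mono hV.2.1.1 hδ, hV.2.1.2.trans (hδ.trans h1)⟩ (by omega)
  have hr : q.fw.r k = q.W ^ k := by rw [Dat.W, ← pow_mul]; rfl
  have hR : q.R k = 2 * q.fw.r k := by rw [hr, Dat.R, Rk]; push_cast; rfl
  have hr0 : (0 : ℝ) < q.fw.r k := by rw [Mid.Fw.r]; positivity
  have hM := (res.cone k hk (by
    have : 2 ^ t * q.fw.r k ≤ q.L N := by
      rw [Mid.Fw.r, ← pow_add]; exact Nat.pow_le_pow_right two_pos (by change t + q.v * k ≤ _; omega)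
    have h2 : (2 : ℝ) ^ t * q.fw.r k ≤ q.L N := by exact_mod_cast this
    rw [hR]; nlinarith)).1
  have hy : 0 ≤ q.y Λ N k := by rw [Dat.y, yk]; positivity
  refine ⟨res.pack.toGs, hy, fun r h2 h3 => ?_⟩
  have h4 : q.p.r₀ ≤ r := by
    have a1 := res.r0
    have a2 := res.r1
    have a3 : q.W ^ k₀ ≤ q.W ^ k := Nat.pow_le_pow_right (by rw [Dat.W]; positivity) hk
    have a4 : r₁ ≤ r₁ ^ 2 := Nat.le_self_pow two_ne_zero _
    omega
  have h5 : q.p.w * r ≤ q.L N := by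
    have a1 : 2 ^ q.s * (2 ^ t * r) ≤ 2 ^ q.s * q.L N := by
      rw [Dat.L, ← pow_add, Nat.add_sub_cancel' (by omega), ← mul_assoc, ← pow_add]
      exact (Nat.mul_le_mul_right _ (Nat.pow_le_pow_right two_pos hs)).trans h3
    exact (Nat.mul_le_mul_right _ (by omega)).trans (Nat.le_of_mul_le_mul_left a1 (by positivity))
  have h6 : (q.fw.r k : ℝ) ≤ r := by exact_mod_cast h2
  have h7 := hr0.trans_le h6
  have hD := c.D1
  refine ⟨h4, h5, Prof.le hM.2.2 (by positivity) (by rw [hR]; positivity) (by positivity) h4 h5 ?_ ?_⟩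
  · rw [hR, div_le_iff₀ (by positivity), ← mul_div_assoc, le_div_iff₀ hr0]; nlinarith
  · rw [hR, show 2 * (r : ℝ) / q.fw.r k * (2 * q.fw.r k) = 4 * r by field_simp; norm_num]; linarith

end On14

theorem leaf_nu : Leaf ONu := fun F θ₀ q _ c => by
  have hD := c.D1
  refine (On14.base c (4 * q.W * q.D) (by positivity)).mono fun P ⟨hC, hs, h⟩ l => ?_
  obtain ⟨a₁, h⟩ := h l
  refine ⟨a₁, fun Λ N k hV hk r n z h1 h2 h3 => ?_⟩
  obtain ⟨hG, hy, h⟩ := h Λ N k hV hk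
  obtain ⟨h4, h5, h6⟩ := h r h1 (by
    refine (Nat.mul_le_mul_left _ h2).trans ?_
    rw [Mid.Fw.r, ← pow_add]; exact Nat.pow_le_pow_right two_pos (by have := hV.2.2; omega))
  have a1 := A51.four_le hG r
  have a2 := hG.gd.2.1
  have a3 := hG.mem.ok.one_le_rg
  have a4 : (q.p.w + 2) * r ≤ n := (Nat.mul_le_mul_right _ hs).trans h3
  have hr0 : (0 : ℝ) < q.fw.r k := by rw [Mid.Fw.r]; positivity
  have h7 : (2 * r / q.fw.r k : ℝ) ^ ew q.p.w ≤ 2 * q.W := by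
    have b1 : (q.fw.r k : ℝ) ≤ r := by exact_mod_cast h1
    have b2 : r ≤ q.W * q.fw.r k := h2.trans_eq (by
      rw [Mid.Fw.r, Mid.Fw.r, Dat.W, ← pow_add, mul_add_one, add_comm]; rfl)
    have b3 : (r : ℝ) ≤ q.W * q.fw.r k := by exact_mod_cast b2
    refine ((rpow_le_rpow_of_exponent_le (by rw [le_div_iff₀ hr0]; linarith)
      ((ew_le' hG.w4).trans (by norm_num))).trans_eq (rpow_one _)).trans ?_
    rw [div_le_iff₀ hr0]; linarith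
  refine (On14.nm_le hG h4 (by omega) (by rw [add_mul] at a4; omega) (Om.ins_Jz _ (by omega))).trans ?_
  rw [On14.nu_J hG h4]
  calc _ ≤ 2 * (q.D * q.y Λ N k * (2 * q.W) / (r : ℝ) ^ 2) := by
        gcongr; exact h6.trans (by gcongr)
    _ = 4 * q.W * q.D * q.y Λ N k / (r : ℝ) ^ 2 := by ring
    _ ≤ P.C * q.y Λ N k / (r : ℝ) ^ 2 := by gcongr

theorem leaf_kb : Leaf OKb := fun F θ₀ q _ c => by
  have hD := c.D1
  refine (On14.base c (32 * q.D ^ 2) (by positivity)).mono fun P ⟨hC, hs, h⟩ l => ?_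
  obtain ⟨a₁, h⟩ := h l
  refine ⟨a₁, fun Λ N k hV hk r m z z' h1 h2 hm hm' hd => ?_⟩
  obtain ⟨hG, hy, h⟩ := h Λ N k hV hk
  obtain ⟨h4, h5, h6⟩ := h r h1 h2
  have a4 : q.p.w * r ≤ 2 ^ P.s * r := Nat.mul_le_mul_right _ (by omega)
  have hr0 : (0 : ℝ) < q.fw.r k := by rw [Mid.Fw.r]; positivity
  have b1 : (q.fw.r k : ℝ) ≤ r := by exact_mod_cast h1
  have b2 := hr0.trans_le b1
  have h7 : ((2 * r / q.fw.r k : ℝ) ^ ew q.p.w) ^ 2 ≤ 2 * r / q.fw.r k := by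
    rw [← rpow_two, ← rpow_mul (by positivity)]
    exact (rpow_le_rpow_of_exponent_le (by rw [le_div_iff₀ hr0]; linarith)
      (by linarith [ew_le' hG.w4])).trans_eq (rpow_one _)
  refine (On14.jj_le hG h4 h5 (FlF4.amb_mono hm (bl_mono z a4)) (FlF4.amb_mono hm' (bl_mono z' a4))
    (hd.mono (bl_mono z a4) (bl_mono z' a4))).trans ?_
  have h8 := A51.nu_nonneg hG.mem.ok q.p.w 0 r (Jz 0)
  calc _ ≤ 16 * (q.D * q.y Λ N k * (2 * r / q.fw.r k) ^ ew q.p.w / (r : ℝ) ^ 2) ^ 2 := by gcongr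
    _ = 16 * (q.D * q.y Λ N k / (r : ℝ) ^ 2) ^ 2 * ((2 * r / q.fw.r k : ℝ) ^ ew q.p.w) ^ 2 := by ring
    _ ≤ 16 * (q.D * q.y Λ N k / (r : ℝ) ^ 2) ^ 2 * (2 * r / q.fw.r k) := by gcongr
    _ = 32 * q.D ^ 2 * q.y Λ N k ^ 2 / (q.fw.r k * (r : ℝ) ^ 3) := by field_simp; ring
    _ ≤ P.C * q.y Λ N k ^ 2 / (q.fw.r k * (r : ℝ) ^ 3) := by gcongr

end Crest.Agent.T145.Fl
end

-- ▼ part T145/FlOpe_64
section

/-!
# Row 145, packaging of the odd flow (helper64): the leaf OPE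
-/

set_option autoImplicit false

namespace Crest.Agent.T145.Fl

open Finset Real O64

theorem O64.half_le {q : Dat} {F : Fa} {θ₀ : ℝ} (c : q.Core F θ₀) {Λ : Lat} {N k : ℕ}
    (h : |q.fw.x Λ N k| ≤ 1 / 10) : 1 / 2 ≤ gk (tor Λ N) (q.R k) := by
  have a1 : 1 - (4 : ℝ)⁻¹ ≤ log q.W :=
    (one_sub_inv_le_log_of_pos four_pos).trans (log_le_log four_pos (four_le_W' c))
  have a2 : 1 ≤ q.fw.κ := by rw [kap_eq]; nlinarith [pi_gt_three]
  have a3 : 63 / 100 ≤ 2 / π := by rw [le_div_iff₀ pi_pos]; linarith [pi_lt_d2]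
  rw [x_eq] at h
  by_contra hn
  nlinarith [(abs_le.1 h).1]

theorem leaf_ope (hO : OpeFStmt) : Leaf Mid.Ope := by
  intro F θ₀ q _ c
  obtain ⟨C, C0, H⟩ := hO q.p q.W q.W c.two_le_W (one_le_W' q)
  have c0 : 0 ≤ q.C := zero_le_one.trans c.C1
  have d0 : 0 ≤ q.D := zero_le_one.trans c.D1
  have w0 : (0 : ℝ) ≤ q.p.w := Nat.cast_nonneg _
  have c1 : 0 < C * q.D + 1 := by positivity
  refine (((((evp_at c (inv_pos.2 c1) (2 * C + 2 * q.C + q.p.w)).and (evp_th q.p.w)).and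
    (evp_C (C * q.D ^ (26 / 25 : ℝ)))).and (evp_ε (ε := 1 / 10) (by norm_num))).and
    (evp_d (d := 1 / 25) (by norm_num))).mono fun P ⟨⟨⟨⟨⟨hA, hb⟩, hθ⟩, hC⟩, hε⟩, hd⟩ l a => ?_
  obtain ⟨r₁, k₀, hb⟩ := hb l
  refine ⟨max a k₀, C * (2 ^ (q.s + 1) : ℝ) ^ cw q.p.w, fun Λ N k hV hk hB r h1 h2 => ?_⟩
  have h := hb Λ N k hV (le_of_max_le_right hk)
  obtain ⟨s1, s2⟩ := scales c h1 h2
  obtain ⟨hM, y1⟩ := h.majD c0 (by linarith)
  have y0 := q.y_nonneg Λ N k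
  have η1 : q.fw.η Λ N k ≤ 1 / 10 := (hB k (le_of_max_le_left hk) le_rfl).trans hε
  have η2 : q.fw.η Λ N k = |q.fw.x Λ N k| + q.y Λ N k := rfl
  have x0 := abs_nonneg (q.fw.x Λ N k)
  have b1 : C * (q.D * q.y Λ N k) ≤ 1 := by
    have := mul_le_mul_of_nonneg_left y1 c1.le
    rw [mul_inv_cancel₀ c1.ne'] at this
    nlinarith
  obtain ⟨α, ρ, ρ0, ρ1, E⟩ := H Λ _ r₁ _ _ h.env h.pur _ _ hM b1 (h.roomR C0 (by linarith))
    (h.toRes.sq_le h.k0) (half_le c (by linarith)) r s1 s2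
  have b2 : C * (q.D * q.y Λ N k) ^ (26 / 25 : ℝ) ≤ P.C * q.fw.η Λ N k ^ (1 + P.d) := by
    rw [mul_rpow d0 y0, ← mul_assoc]
    refine mul_le_mul hC ((rpow_le_rpow y0 (by linarith) (by norm_num)).trans
      (rpow_le_rpow_of_exponent_ge' (by linarith) (by linarith) (by linarith [P.d0]) (by linarith)))
      (by positivity) P.C0
  refine ⟨α, Xi.xi ρ, Xi.sup_xi ρ0 ρ1, Xi.sum_xi ρ0 ρ1, fun z => ⟨fun n hn => ?_, fun m hm => ?_⟩⟩
  · have b3 : q.p.w ≤ 2 ^ P.s := by exact_mod_cast (by linarith : (q.p.w : ℝ) ≤ 2 ^ P.s)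
    exact ((E z).1 n ((Nat.mul_le_mul_right r b3).trans hn)).trans
      (div_le_div_of_nonneg_right b2 (by positivity))
  · refine ((E z).2 m (FlF4.amb_mono hm (bl_mono z (L_le q N)))).trans
      (div_le_div_of_nonneg_right ?_ (by positivity))
    rw [mul_add, mul_assoc]
    exact add_le_add b2 (mul_le_mul_of_nonneg_left (h.ratio_le hθ) C0)

end Crest.Agent.T145.Fl
end

-- ▼ part T145/FlSY_60
section

/-!
# Row 145, STEP-y: the per-site bound `SiteYStmt` (helper60)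
-/

set_option autoImplicit false

namespace Crest.Agent.T145.Fl

open Finset Pot Xi Real

namespace SY60

/-! ## the interpolated charge -/

section det
variable {W R t : ℝ} {n : ℕ}

theorem xt_apply (W R t : ℝ) (y : Pt) : xt W R t y = xi R y + t * (xi (W * R) y - xi R y) := by
  rw [xt, A0_wt]; rfl

theorem xt_in (hW : 1 ≤ W) (hR : 0 < R) (hn : (n : ℝ) + 1 ≤ R) {y : Pt} (hy : y ∈ bl 0 n) :
    xt W R t y = 0 := by
  have : R ≤ W * R := le_mul_of_one_le_left hR.le hW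
  rw [xt_apply, xi_in hR hn hy, xi_in (by linarith) (by linarith) hy]; ring

theorem chq_xt (hW : 1 ≤ W) (hR : 0 < R) (hn : 2 * (W * R) ≤ n) : Chq (bl 0 n) (xt W R t) 1 := by
  have h0 : R ≤ W * R := le_mul_of_one_le_left hR.le hW
  have h1 := chq_xi (r := n) hR (by linarith)
  have h2 := (chq_xi (r := n) (by linarith) hn).sub h1
  rw [sub_self] at h2
  rw [xt, A0_wt]
  simpa only [add_zero] using h1.add (h2.smul t)

theorem lr_xt : ∃ σ : ℝ, 0 ≤ σ ∧ ∀ (W R t : ℝ) (z : Pt) (r : ℕ), 1 ≤ W → t ∈ Set.Icc (0 : ℝ) 1 → 1 ≤ r →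
    (r : ℝ) ≤ R → ∃ u, Lr (xt W R t) u z r σ := by
  obtain ⟨C, h0, hC⟩ := lr_wt
  refine ⟨C, h0, fun W R t z r hW ht hr hR => ?_⟩
  have hr1 : (1 : ℝ) ≤ r := by exact_mod_cast hr
  have h1 := hC R (W * R) 1 t z r hr hR (le_mul_of_one_le_left (by linarith) hW)
  rw [one_smul] at h1
  refine ⟨_, h1.mono ?_⟩
  rw [abs_of_nonneg ht.1, abs_of_nonneg (sub_nonneg.2 ht.2), sub_add_cancel, one_mul]
  exact mul_le_of_le_one_right h0 (pow_le_one₀ (div_nonneg (by linarith) (by linarith))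
    ((div_le_one (by linarith)).2 hR))

theorem f2_xt {W : ℝ} (hW : 1 ≤ W) : ∃ A : ℝ, 0 ≤ A ∧ ∀ (R t : ℝ) (n : ℕ), 8 * W < R →
    t ∈ Set.Icc (0 : ℝ) 1 → 2 * (W * R) + 2 ≤ n → F2 (nnL.edI (bl 0 n)) (xt W R t - xi R) A := by
  obtain ⟨C, h0, hC⟩ := sm_wt 1 hW
  refine ⟨6 * C ^ 2 * (7 * W) ^ 2, by positivity, fun R t n hR ht hn => ?_⟩
  have hR0 : 0 < R := by linarith
  have hWR : R ≤ W * R := le_mul_of_one_le_left hR0.le hW
  have h1 := hC R (W * R) (by simpa using hR) hWR le_rfl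
  set b := ⌈2 * (W * R)⌉₊ with hb
  have hb1 : (b : ℝ) < 2 * (W * R) + 1 := Nat.ceil_lt_add_one (by positivity)
  have hb2 : 2 * (W * R) ≤ b := Nat.le_ceil _
  have hbn : b + 1 ≤ n := by
    have : ((b + 1 : ℕ) : ℝ) ≤ n := by push_cast; linarith
    exact_mod_cast this
  set v : Pt → ℝ := fun x => wt R (W * R) x - log (W * R / R) / (2 * π) with hv
  have hs : Pot.Sup (bl 0 b) v := fun x hx => by
    rw [hv]; simp only; rw [wt_out hR0 hWR (by linarith) hx, sub_self]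
  have h2 := B80.f2_gb hs ((B80.gb_bl hs).mono (bl_mono 0 hbn))
  have h3 := B80.E0_le (k := C / R) hs fun e he x _ => by
    have := h1 [e] le_rfl (by simpa using he) x trivial
    simpa [difs, dif, hv] using this
  rw [hv, A0_sub_const] at h2
  have h4 := RJ57.f2_smul t h2
  refine RJ57.f2_mono (RJ57.f2_congr h4 (by rw [xt, add_sub_cancel_left])) ?_
  have h5 : E0 (bl 0 b) v ≤ 6 * C ^ 2 * (7 * W) ^ 2 := by
    refine h3.trans ?_
    rw [card_bl]; push_cast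
    calc 6 * (C / R) ^ 2 * (2 * (b : ℝ) + 1) ^ 2 ≤ 6 * (C / R) ^ 2 * (7 * W * R) ^ 2 := by
          gcongr; nlinarith
      _ = _ := by field_simp
  exact (mul_le_of_le_one_left (B80.E0_nonneg hs) (pow_le_one₀ ht.1 ht.2)).trans h5

end det

/-! ## scales -/

theorem small {K κ : ℝ} (hK : 1 ≤ K) (h0 : 0 < κ) (h1 : κ ≤ 1) : ∃ C : ℝ, K ≤ C ∧
    ∀ Y : ℝ, 0 < Y → C * Y ≤ 1 → K * Y ^ κ ≤ 1 := by
  refine ⟨K ^ κ⁻¹, ?_, fun Y hY h => ?_⟩
  · conv_lhs => rw [← rpow_one K]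
    exact rpow_le_rpow_of_exponent_le hK (one_le_inv_iff₀.2 ⟨h0, h1⟩)
  · have h2 := rpow_le_one (by positivity) h h0.le
    rwa [mul_rpow (by positivity) hY.le, rpow_inv_rpow (by linarith) h0.ne'] at h2

/-- the small parameter `x = Y ^ κ` -/
structure Sc (K R Y x : ℝ) : Prop where
  K4 : 4 ≤ K
  R1 : 1 ≤ R
  Y0 : 0 < Y
  Yx : Y ≤ x
  Kx : K * x ≤ 1
  big : 1 ≤ R * x ^ 100

theorem sc_of {p : Par} {Λ : Lat} {L : ℕ} {R Y K κ : ℝ} (hw : 4 ≤ p.w) (h : Maj p Λ L R Y) (hK : 4 ≤ K)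
    (h1 : κ ≤ 1) (hY : Y ≤ 1) (hx : K * Y ^ κ ≤ 1) : Sc K R Y (Y ^ κ) := by
  have hY0 := h.pos
  have hR := h.one_le
  have h2 : Y ≤ Y ^ κ := by
    conv_lhs => rw [← rpow_one Y]
    exact rpow_le_rpow_of_exponent_ge hY0 hY h1
  refine ⟨hK, hR, hY0, h2, hx, ?_⟩
  have h3 : R ^ (-(1 / 100 : ℝ)) ≤ Y ^ κ :=
    ((rpow_le_rpow_of_exponent_le hR (by linarith [ew_le' hw])).trans h.2.1).trans h2
  have h4 := pow_le_pow_left₀ (by positivity) h3 100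
  rw [← rpow_natCast, ← rpow_mul (by linarith)] at h4
  norm_num at h4
  rw [rpow_neg_one] at h4
  calc (1 : ℝ) = R * R⁻¹ := by field_simp
    _ ≤ _ := by gcongr

namespace Sc
variable {K R Y x : ℝ} (h : Sc K R Y x)
include h

theorem x0 : 0 < x := h.Y0.trans_le h.Yx
theorem x4 : x ≤ 1 / 4 := by nlinarith [h.K4, h.Kx, h.x0]
theorem x1 : x ≤ 1 := by linarith [h.x4]
theorem R0 : 0 < R := by linarith [h.R1]

theorem big' {k : ℕ} (hk : k ≤ 99) : K ≤ R * x ^ k := by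
  have h1 : x ^ 100 ≤ x ^ (k + 1) := pow_le_pow_of_le_one h.x0.le h.x1 (by omega)
  have h2 : 1 ≤ R * x ^ k * x := by
    rw [mul_assoc, ← pow_succ]; exact h.big.trans (mul_le_mul_of_nonneg_left h1 h.R0.le)
  have h3 := h.x0
  exact le_of_mul_le_mul_right (h.Kx.trans h2) h3

theorem Rx : K ≤ R * x := by simpa using h.big' (k := 1) (by norm_num)

theorem rp {a b : ℝ} (hab : b ≤ a) : x ^ a ≤ x ^ b := rpow_le_rpow_of_exponent_ge h.x0 h.x1 hab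

theorem inv_rp (a : ℝ) : x⁻¹ ^ a = x ^ (-a) := by rw [inv_rpow h.x0.le, rpow_neg h.x0.le]

end Sc

theorem disj {z : Pt} {n k : ℕ} (hz : z ∉ bl 0 n) (hk : k + k ≤ n) : Disjoint (bl 0 k) (bl z k) :=
  disjoint_left.2 fun _ h1 h2 => hz (bl_subset_bl h1 hk (mem_bl_comm.1 h2))

theorem sub_N {z : Pt} {N k : ℕ} (hz : 8 * eu z ≤ N) (hk : 8 * (k : ℝ) ≤ N) : bl z k ⊆ bl 0 N := by
  refine bl_subset_bl (mem_bl_rad z) ?_
  have := rad_le_eu z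
  have h2 : ((k + rad z : ℕ) : ℝ) ≤ N := by push_cast; linarith [eu_nonneg z]
  exact_mod_cast h2

theorem nu0 {p : Par} {Λ : Lat} {L : ℕ} (h : Gs p Λ L) (r : ℕ) : 0 ≤ nu Λ p.w 0 r (Jz 0) :=
  FlF4.nu_nonneg h.mem.ok _ _ _ _

/-! ## the contact-free term -/

theorem Sc.fin1 {K R Y x C ν a ρ e : ℝ} (hS : Sc K R Y x) (C0 : 0 ≤ C) (he : e ≤ 1 / 1000) (hn0 : 0 ≤ ν)
    (a0 : 0 < a) (r1 : 2 * (R * x) ≤ ρ) (hn : ν ≤ Y * (x ^ 41)⁻¹ ^ e / a ^ 2) :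
    C * ν * ν * (a / ρ) ^ 4 * x ^ 7 ≤ C * Y ^ 2 / R ^ 4 * x ^ (5 / 2 : ℝ) := by
  have x0 := hS.x0
  have R0 := hS.R0
  have Y0 := hS.Y0
  have e2 : ((x ^ 41)⁻¹ ^ e) ^ 2 * x ^ 3 ≤ x ^ (5 / 2 : ℝ) := by
    rw [← rpow_natCast x 41, ← rpow_neg x0.le, ← rpow_mul x0.le, ← rpow_natCast _ 2, ← rpow_mul x0.le,
      ← rpow_natCast x 3, ← rpow_add x0]
    exact hS.rp (by push_cast; linarith)
  have hM0 : 0 ≤ (x ^ 41)⁻¹ ^ e := by positivity
  generalize (x ^ 41)⁻¹ ^ e = M at *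
  have := mul_pos R0 x0
  have ρ0 : 0 < ρ := by linarith
  calc C * ν * ν * (a / ρ) ^ 4 * x ^ 7
      ≤ C * (Y * M / a ^ 2) * (Y * M / a ^ 2) * (a / (R * x)) ^ 4 * x ^ 7 := by
        gcongr; linarith
    _ = C * Y ^ 2 / R ^ 4 * (M ^ 2 * x ^ 3) := by field_simp
    _ ≤ _ := by gcongr

theorem Sc.ceil {K R Y x : ℝ} (hS : Sc K R Y x) {c : ℝ} (hc : 0 ≤ c) :
    c * (R * x) ≤ ⌈c * (R * x)⌉₊ ∧ (⌈c * (R * x)⌉₊ : ℝ) + 1 ≤ (c + 1) * (R * x) := by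
  have := Nat.ceil_lt_add_one (a := c * (R * x)) (mul_nonneg hc (mul_pos hS.R0 hS.x0).le)
  exact ⟨Nat.le_ceil _, by linarith [hS.Rx, hS.K4]⟩

theorem Sc.sm {K R Y x : ℝ} (hS : Sc K R Y x) {c : ℝ} (hc : c ≤ K) : c * (R * x) ≤ R :=
  calc c * (R * x) ≤ K * (R * x) := mul_le_mul_of_nonneg_right hc (mul_pos hS.R0 hS.x0).le
    _ = K * x * R := by ring
    _ ≤ R := mul_le_of_le_one_left hS.R0.le hS.Kx

theorem ccJ (hC : CcStmt) (p : Par) (W : ℕ) (A : ℝ) (hW : 2 ≤ W) (hw : 4 ≤ p.w) :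
    ∃ κ C : ℝ, 0 < κ ∧ κ ≤ 1 ∧ 0 ≤ C ∧ ∀ Λ ω r₁ L N, Env p Λ ω L N → Pur p W Λ r₁ L → ∀ R Y K : ℝ,
      Maj p Λ L R Y → C * Y ≤ 1 → C * R ≤ L → (r₁ : ℝ) ^ 2 ≤ R → 1 / 4 ≤ gk ω R → Sc K R Y (Y ^ κ) →
      (p.r₀ : ℝ) ≤ K → 24 * (p.w : ℝ) ≤ K → 8 * R ≤ L →
      ∀ (z : Pt) (ζ : Pt → ℝ), z ∉ bl 0 ⌊R⌋₊ → eu z ≤ R * Y ^ (-κ) → 8 * eu z ≤ N →
      (∀ y ∈ bl 0 ⌈2 * (R * Y ^ κ)⌉₊, ζ y = 0) → (∀ y ∈ bl z ⌈2 * (R * Y ^ κ)⌉₊, ζ y = 0) →
      Pot.Sup (bl 0 N) ζ → F2 (nnL.edI (bl 0 N)) (ζ - xi R) A →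
      |ω fun s => Jz 0 s * Jz z s * cp ζ 0 s| ≤ C * Y ^ 2 / R ^ 4 * Y ^ (5 / 2 * κ) := by
  obtain ⟨κ₀, hκ₀, hκ⟩ := hC p W A hW
  obtain ⟨C, C0, hC⟩ := hκ (min κ₀ 1) (lt_min hκ₀ one_pos) (min_le_left _ _)
  refine ⟨min κ₀ 1, C, lt_min hκ₀ one_pos, min_le_right _ _, C0, ?_⟩
  generalize min κ₀ 1 = κ at hC
  intro Λ ω r₁ L N hE hP R Y K hM hY hL hr₁ hg hS hK0 hKw h8 z ζ hz hzR hzN h0 hz0 hs hF
  have e1 : ∀ k : ℕ, Y ^ ((k : ℝ) * κ) = (Y ^ κ) ^ k := fun k => by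
    rw [mul_comm, rpow_mul hS.Y0.le, rpow_natCast]
  have e41 : Y ^ (41 * κ) = (Y ^ κ) ^ 41 := by exact_mod_cast e1 41
  have e40 : Y ^ (40 * κ) = (Y ^ κ) ^ 40 := by exact_mod_cast e1 40
  have e7 : Y ^ (7 * κ) = (Y ^ κ) ^ 7 := by exact_mod_cast e1 7
  have e5 : Y ^ (5 / 2 * κ) = (Y ^ κ) ^ (5 / 2 : ℝ) := by rw [mul_comm, rpow_mul hS.Y0.le]
  have hC' := hC Λ ω r₁ L N hE hP R Y hM hY hL hg z ⌈2 * (R * Y ^ κ)⌉₊ ⌈R * (Y ^ κ) ^ 41⌉₊ N 0 ζ (Jz 0) (Jz 0)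
  rw [e41, e40, e7, trl_Jz] at hC'
  rw [e5]
  clear e1 e41 e40 e7 e5 hC hκ
  generalize Y ^ κ = x at *
  have x0 := hS.x0
  have R0 := hS.R0
  have K4 := hS.K4
  have h41 := hS.big' (k := 41) (by norm_num)
  have hw' : (4 : ℝ) ≤ p.w := by exact_mod_cast hw
  have hLN : (L : ℝ) ≤ N := by exact_mod_cast hE.le
  obtain ⟨r1, r2⟩ := hS.ceil (c := 2) (by norm_num)
  have a1 : R * x ^ 41 ≤ ⌈R * x ^ 41⌉₊ := Nat.le_ceil _
  have a2 : (⌈R * x ^ 41⌉₊ : ℝ) ≤ 2 * (R * x ^ 41) := by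
    have := Nat.ceil_lt_add_one (a := R * x ^ 41) (by positivity); linarith
  generalize ⌈R * x ^ 41⌉₊ = a at *
  generalize ⌈2 * (R * x)⌉₊ = ρ at *
  have hx40 : x ^ 40 ≤ 1 := pow_le_one₀ x0.le hS.x1
  have a3 : (a : ℝ) ≤ ρ * x ^ 40 := a2.trans (by
    rw [show 2 * (R * x ^ 41) = 2 * (R * x) * x ^ 40 by ring]; gcongr)
  have ρ0 : (0 : ℝ) ≤ ρ := Nat.cast_nonneg _
  have a4 : (a : ℝ) ≤ ρ := a3.trans (mul_le_of_le_one_right ρ0 hx40)
  have hwρ : 8 * ((p.w : ℝ) * ρ) ≤ R :=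
    calc 8 * ((p.w : ℝ) * ρ) ≤ 8 * (p.w * (3 * (R * x))) := by gcongr; linarith
      _ = 24 * p.w * (R * x) := by ring
      _ ≤ R := hS.sm hKw
  have h4ρ : 4 * (ρ : ℝ) ≤ p.w * ρ := mul_le_mul_of_nonneg_right hw' ρ0
  have hρR : (ρ : ℝ) ≤ R := by linarith
  have ha0 : p.r₀ ≤ a := by exact_mod_cast hK0.trans (h41.trans a1)
  have ha1 : r₁ ≤ a := by
    have h82 := hS.big' (k := 82) (by norm_num)
    have : (r₁ : ℝ) ^ 2 ≤ (R * x ^ 41) ^ 2 := hr₁.trans (by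
      rw [show (R * x ^ 41) ^ 2 = R * (R * x ^ 82) by ring]
      exact le_mul_of_one_le_right R0.le (by linarith))
    exact_mod_cast (abs_le_of_sq_le_sq' this (by positivity)).2.trans a1
  have a0 : (0 : ℝ) < a := by linarith
  have ia : 1 ≤ a := by exact_mod_cast a0
  have h9 := hC' ha0 ha1 a1 a3 hρR hzR (disj hz (Nat.le_floor (by push_cast; linarith)))
    (sub_N hzN (by push_cast; linarith)) le_rfl (by linarith) hzN
    (ins_Jz 0 ia) (odd_Jz 0) (d4_Jz 0) (ins_Jz 0 ia) (odd_Jz 0) (d4_Jz 0) h0 hz0 hs hF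
  have hwa : p.w * a ≤ L := by
    have h1 := mul_le_mul_of_nonneg_left a4 (show (0 : ℝ) ≤ p.w by positivity)
    have : ((p.w * a : ℕ) : ℝ) ≤ L := by push_cast; linarith
    exact_mod_cast this
  exact h9.trans (hS.fin1 C0 (ew_le' hw) (nu0 hE.toGs a) a0 r1
    (hM.prof.le hS.Y0.le R0 (M := (x ^ 41)⁻¹) (by positivity) ha0 hwa
    (by rw [div_inv_eq_mul]; exact a1) (a4.trans (hρR.trans (le_mul_of_one_le_left R0.le
      (one_le_inv_iff₀.2 ⟨by positivity, pow_le_one₀ x0.le hS.x1⟩))))))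

/-! ## the contact term -/

theorem Sc.fin2 {K R Y x CJ CK σ B ν r e T U P g g' ξ : ℝ} (hS : Sc K R Y x) (J0 : 0 ≤ CJ) (K0 : 0 ≤ CK)
    (σ0 : 0 ≤ σ) (B1 : 1 ≤ B) (e0 : 0 < e) (he : e ≤ 1 / 1000) (hn0 : 0 ≤ ν) (hr : R / B ≤ r)
    (hn : ν ≤ Y * B ^ e / r ^ 2)
    (h1 : |T - U - 2 * π * g' * ξ * P| ≤ CJ * ν * (σ * (1 + σ)) * x⁻¹ ^ (2 * e) *
      (Y * (4 * (R * x) / r) ^ (100 * e / 4) + Y ^ 2) / r ^ 2)
    (h2 : |g - g'| ≤ CK * Y ^ 2 * x⁻¹ ^ (2 * e)) (h3 : |ξ| ≤ 4 * σ / r ^ 2) (h4 : |P| ≤ 16 * ν) :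
    |T + 2 * π * g * ξ * -P| ≤ |U| + (CJ * (σ * (1 + σ)) * (4 * B + 1) + 2 * π * CK * (4 * σ) * 16) * B ^ 5 *
      Y ^ 2 / R ^ 4 * x ^ (100 * e / 5) := by
  have x0 := hS.x0
  have R0 := hS.R0
  have Y0 := hS.Y0
  have r0 : 0 < r := (div_pos R0 (by linarith)).trans_le hr
  have hi : 1 / r ^ 2 ≤ B ^ 2 / R ^ 2 := by
    rw [← one_pow 2, ← div_pow, ← div_pow]
    refine pow_le_pow_left₀ (by positivity) ?_ 2
    rw [div_le_div_iff₀ r0 R0]; rw [div_le_iff₀ (by linarith)] at hr; linarith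
  have hB : B ^ e ≤ B := by
    conv_rhs => rw [← rpow_one B]
    exact rpow_le_rpow_of_exponent_le B1 (by linarith)
  have hν : ν ≤ Y * B * (B ^ 2 / R ^ 2) := hn.trans (by
    rw [div_eq_mul_one_div]; gcongr)
  have e1 : (4 * (R * x) / r) ^ (100 * e / 4) ≤ 4 * B * x ^ (100 * e / 4) := by
    have a1 : 4 * (R * x) / r ≤ 4 * B * x := by
      rw [div_le_iff₀ r0]; rw [div_le_iff₀ (by linarith)] at hr; nlinarith
    refine (rpow_le_rpow (by positivity) a1 (by positivity)).trans ?_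
    rw [mul_rpow (by positivity) x0.le]
    gcongr
    conv_rhs => rw [← rpow_one (4 * B)]
    exact rpow_le_rpow_of_exponent_le (by linarith) (by linarith)
  have e2 : x⁻¹ ^ (2 * e) * x ^ (100 * e / 4) ≤ x ^ (100 * e / 5) := by
    rw [hS.inv_rp, ← rpow_add x0]; exact hS.rp (by linarith)
  have e3 : x⁻¹ ^ (2 * e) * Y ≤ x ^ (100 * e / 5) := by
    refine (mul_le_mul_of_nonneg_left hS.Yx (by positivity)).trans ?_
    rw [hS.inv_rp, ← rpow_add_one x0.ne']; exact hS.rp (by linarith)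
  have hM0 : 0 ≤ x⁻¹ ^ (2 * e) := by positivity
  have hq0 : 0 ≤ x ^ (100 * e / 4) := by positivity
  generalize x⁻¹ ^ (2 * e) = M at *
  generalize x ^ (100 * e / 5) = q at *
  generalize x ^ (100 * e / 4) = q' at *
  generalize (4 * (R * x) / r) ^ (100 * e / 4) = q'' at *
  have b1 : |T - U - 2 * π * g' * ξ * P| ≤ CJ * (σ * (1 + σ)) * (4 * B + 1) * B ^ 5 * Y ^ 2 / R ^ 4 * q :=
    calc _ ≤ _ := h1
      _ = CJ * ν * (σ * (1 + σ)) * (Y * (q'' * M + M * Y)) * (1 / r ^ 2) := by ring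
      _ ≤ CJ * (Y * B * (B ^ 2 / R ^ 2)) * (σ * (1 + σ)) * (Y * (4 * B * q + q)) * (B ^ 2 / R ^ 2) := by
          have : q'' * M ≤ 4 * B * q :=
            (mul_le_mul_of_nonneg_right e1 hM0).trans (by rw [mul_assoc, mul_comm q']; gcongr)
          have h0 : 0 ≤ q := le_trans (by positivity) e3
          by_cases hq : 0 ≤ q'' * M + M * Y
          · gcongr
          · refine le_trans (mul_nonpos_of_nonpos_of_nonneg (mul_nonpos_of_nonneg_of_nonpos (by positivity)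
              (mul_nonpos_of_nonneg_of_nonpos Y0.le (not_le.1 hq).le)) (by positivity)) (by positivity)
      _ = _ := by field_simp
  have b2 : |2 * π * (g - g') * ξ * P| ≤ 2 * π * CK * (4 * σ) * 16 * B ^ 5 * Y ^ 2 / R ^ 4 * q :=
    calc _ = 2 * π * |g - g'| * |ξ| * |P| := by
          rw [abs_mul, abs_mul, abs_mul, abs_of_pos (by positivity : 0 < 2 * π)]
      _ ≤ 2 * π * (CK * Y ^ 2 * M) * (4 * σ * (B ^ 2 / R ^ 2)) * (16 * (Y * B * (B ^ 2 / R ^ 2))) := by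
          gcongr
          · exact h3.trans (by rw [div_eq_mul_one_div]; gcongr)
          · exact h4.trans (by gcongr)
      _ = 2 * π * CK * (4 * σ) * 16 * B ^ 5 * Y ^ 2 / R ^ 4 * (M * Y) := by field_simp
      _ ≤ _ := by gcongr
  have e : T + 2 * π * g * ξ * -P = U + ((T - U - 2 * π * g' * ξ * P) - 2 * π * (g - g') * ξ * P) := by ring
  rw [e]
  refine (abs_add_le _ _).trans (add_le_add le_rfl ((abs_sub _ _).trans ?_))
  calc _ ≤ _ := add_le_add b1 b2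
    _ = _ := by ring

end SY60

open SY60

set_option maxHeartbeats 800000 in
theorem siteYStmt (hP : ProdStmt) (hJ : LjStmt) (hK : KbStmt) (hC : CcStmt) : SiteYStmt := by
  intro p W hW hw
  have hW2 : (2 : ℝ) ≤ W := by exact_mod_cast hW
  have hW1 : (1 : ℝ) ≤ W := by linarith
  have hw' : (4 : ℝ) ≤ p.w := by exact_mod_cast hw
  obtain ⟨CS, S0, hSw⟩ := swStmt
  obtain ⟨σ, σ0, hσ⟩ := lr_xt
  obtain ⟨A, A0', hA⟩ := f2_xt hW1
  obtain ⟨κ, CC, κ0, κ1, C0, hCC⟩ := ccJ hC p W (2 * A + 2 * (CS * σ ^ 2)) hW hw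
  obtain ⟨CJ, J0, hJ⟩ := hJ p
  obtain ⟨CK, K0, hK⟩ := hK p
  obtain ⟨K, hK1, hK2, hK3, hK4⟩ : ∃ K : ℝ, 38400 * (p.w : ℝ) ≤ K ∧ 16 * p.w * (p.r₀ + 1 : ℝ) ≤ K ∧ CJ ≤ K ∧
      9 * (W : ℝ) ≤ K := by
    have : (0 : ℝ) ≤ 16 * p.w * (p.r₀ + 1 : ℝ) := by positivity
    exact ⟨38400 * p.w + 16 * p.w * (p.r₀ + 1 : ℝ) + CJ + 9 * W, by linarith, by linarith, by linarith,
      by linarith⟩
  obtain ⟨C₁, hC₁, hsm⟩ := small (K := K) (by linarith) κ0 κ1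
  set D := (CJ * (σ * (1 + σ)) * (4 * (16 * p.w) + 1) + 2 * π * CK * (4 * σ) * 16) * (16 * (p.w : ℝ)) ^ 5
    with hD
  have D0 : 0 ≤ D := by positivity
  refine ⟨κ, C₁ + CC + D, κ0, κ1, by linarith, ?_⟩
  intro Λ ω r₁ L N hE hPu R Y hM hY hL hr₁ hg t ht z hz hzR hzN
  have Y0 := hM.pos
  have R1 := hM.one_le
  have R0 : 0 < R := by linarith
  have mo : ∀ c u v : ℝ, 0 ≤ u → c ≤ C₁ + CC + D → (C₁ + CC + D) * u ≤ v → c * u ≤ v := fun c u v hu hc h =>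
    (mul_le_mul_of_nonneg_right hc hu).trans h
  have hY1 : Y ≤ 1 := by linarith [mo 1 Y 1 Y0.le (by linarith) hY]
  have hS := sc_of hw hM (K := K) (by linarith) κ1 hY1 (hsm Y Y0 (mo _ _ _ Y0.le (by linarith) hY))
  have hKL : K * R ≤ L := mo _ _ _ R0.le (by linarith) hL
  have hLN : (L : ℝ) ≤ N := by exact_mod_cast hE.le
  have hr0K : (p.r₀ : ℝ) + 1 ≤ K := le_trans (le_mul_of_one_le_left (by positivity) (by linarith)) hK2
  have h8 : 8 * R ≤ L := (mul_le_mul_of_nonneg_right (by linarith) R0.le).trans hKL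
  have hWR : 9 * (W * R) ≤ L := by
    rw [← mul_assoc]; exact (mul_le_mul_of_nonneg_right hK4 R0.le).trans hKL
  have hWR1 : 2 * R ≤ W * R := mul_le_mul_of_nonneg_right hW2 R0.le
  have hcc := hCC Λ ω r₁ L N hE hPu R Y K hM (mo _ _ _ Y0.le (by linarith) hY)
    (mo _ _ _ R0.le (by linarith) hL) hr₁ hg hS (by linarith) (by linarith) h8 z
  have hKR : K ≤ R := by simpa using hS.big' (k := 0) (by norm_num)
  have hF := hA R t N (by linarith) ht (by linarith)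
  have hq : Chq (bl 0 N) (xt W R t) 1 := chq_xt hW1 R0 (by linarith)
  have e0 : (fun s => Jz 0 s * cp (xt W R t) 0 s * Jz z s) = fun s => Jz 0 s * Jz z s * cp (xt W R t) 0 s :=
    funext fun s => mul_right_comm _ _ _
  have e1 : Y ^ (κ * cw p.w / 5) = (Y ^ κ) ^ (100 * ew p.w / 5) := by
    rw [← rpow_mul Y0.le, ← cw_eq_ew, mul_div_assoc]
  have q0 : 0 ≤ Y ^ (5 / 2 * κ) := by positivity
  have hCD : CC ≤ C₁ + CC + D ∧ D ≤ C₁ + CC + D := ⟨by linarith, by linarith⟩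
  rw [e0, e1]
  clear hCC hA hsm mo e0 e1 hY hL hD
  generalize C₁ + CC + D = C at hCD ⊢
  generalize Y ^ (5 / 2 * κ) = q at *
  generalize Y ^ (-κ) = xi' at *
  generalize Y ^ κ = x at *
  have x0 := hS.x0
  have hRx := hS.Rx
  obtain ⟨r1, r2⟩ := hS.ceil (c := 2) (by norm_num)
  have hin : ∀ k : ℕ, (k : ℝ) + 1 ≤ R → ∀ y ∈ bl 0 k, xt W R t y = 0 := fun k hk y hy => xt_in hW1 R0 hk hy
  have h3 := hS.sm (c := 2 + 1) (by linarith)
  by_cases hz1 : z ∈ bl 0 ⌈4 * (W * R)⌉₊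
  swap
  · have hout : ∀ y ∈ bl z ⌈2 * (R * x)⌉₊, xt W R t y = 0 := fun y hy =>
      (chq_xt (t := t) hW1 R0 (Nat.le_ceil (2 * (W * R)))).1 y fun h => hz1 (bl_subset_bl h (by
        have h1 := Nat.ceil_lt_add_one (a := 2 * (W * R)) (by positivity)
        have h2 := Nat.le_ceil (4 * (W * R))
        have : ((⌈2 * (R * x)⌉₊ + ⌈2 * (W * R)⌉₊ : ℕ) : ℝ) ≤ ⌈4 * (W * R)⌉₊ := by push_cast; linarith
        exact_mod_cast this) (mem_bl_comm.1 hy))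
    rw [ind_neg hz1, zero_mul, add_zero, hout z (self_mem_bl _ _), mul_zero, zero_mul, add_zero]
    refine (hcc _ hz hzR hzN (hin _ (by linarith)) hout hq.1
      (RJ57.f2_mono hF (by nlinarith [sq_nonneg σ]))).trans ?_
    gcongr
    exact hCD.1
  rw [ind_pos hz1, one_mul]
  have hB : 0 < 16 * (p.w : ℝ) := by linarith
  obtain ⟨r, hr1, hr2⟩ : ∃ r : ℕ, R / (16 * p.w) ≤ r ∧ 8 * ((p.w : ℝ) * r) ≤ R := by
    refine ⟨⌊R / (8 * p.w)⌋₊, ?_, ?_⟩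
    · have h1 := Nat.lt_floor_add_one (R / (8 * p.w))
      have h2 : 1 ≤ R / (16 * p.w) := (one_le_div hB).2 (by linarith)
      have h4 : R / (8 * p.w) = 2 * (R / (16 * p.w)) := by field_simp; ring
      linarith
    · have h1 := Nat.floor_le (a := R / (8 * p.w)) (by positivity)
      rw [le_div_iff₀ (by linarith)] at h1; linarith
  have r0 : (0 : ℝ) ≤ r := Nat.cast_nonneg _
  have h4r : 4 * (r : ℝ) ≤ p.w * r := mul_le_mul_of_nonneg_right hw' r0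
  have hρr : 2400 * (R * x) ≤ r := le_trans (by
    rw [le_div_iff₀ hB]; linarith [hS.sm hK1]) hr1
  have hr0 : p.r₀ + 1 ≤ r := by
    have : (p.r₀ : ℝ) + 1 ≤ r := le_trans (by rw [le_div_iff₀ hB]; linarith) hr1
    exact_mod_cast this
  have hwL : p.w * r ≤ L := by
    have : ((p.w * r : ℕ) : ℝ) ≤ L := by push_cast; linarith
    exact_mod_cast this
  have hrw : r ≤ p.w * r := Nat.le_mul_of_pos_left _ (by omega)
  obtain ⟨u, hu⟩ := hσ W R t z r hW1 ht (by omega) (by linarith)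
  obtain ⟨-, s2, s3⟩ := hSw _ u z r σ hu (by omega)
  obtain ⟨n1, n2⟩ := hS.ceil (c := 8) (by norm_num)
  have hnr : ⌈8 * (R * x)⌉₊ + 1 ≤ r := by
    have : ((⌈8 * (R * x)⌉₊ + 1 : ℕ) : ℝ) ≤ r := by push_cast; linarith
    exact_mod_cast this
  obtain ⟨s4, s5, s6⟩ := s3 (4 * (R * x)) ⌈8 * (R * x)⌉₊ (by linarith) (by linarith) hnr
  have hsub : bl z (p.w * r) ⊆ bl 0 N := sub_N hzN (by push_cast; linarith)
  have hdis : Disjoint (bl 0 (p.w * r)) (bl z (p.w * r)) := disj hz (Nat.le_floor (by push_cast; linarith))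
  have hsA := (sup_A0 s4).mono (bl_mono z (hnr.trans hrw))
  have hρr' : ⌈2 * (R * x)⌉₊ ≤ p.w * r := by
    have : (⌈2 * (R * x)⌉₊ : ℝ) ≤ (p.w * r : ℕ) := by push_cast; linarith
    exact_mod_cast this
  have hU := hcc (xt W R t - A0 (sw u z (4 * (R * x)))) hz hzR hzN
    (fun y hy => by
      rw [Pi.sub_apply, hin _ (by linarith) y hy, hsA y (disjoint_left.1 hdis (bl_mono 0 hρr' hy)), sub_self])
    (s6 _ (by linarith))
    (fun y hy => by rw [Pi.sub_apply, hq.1 y hy, hsA y fun h => hy (hsub h), sub_self])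
    (RJ57.f2_congr (RJ57.f2_mono (RJ57.f2_add hF (RJ57.f2_smul (-1) (B80.f2_gb s4 ((B80.gb_bl s4).mono
      ((bl_mono z (hnr.trans hrw)).trans hsub))))) (by
        have h1 : (4 * (R * x) / r) ^ 4 ≤ 1 := pow_le_one₀ (by positivity)
          ((div_le_one (by linarith)).2 (by linarith))
        have h2 := mul_le_of_le_one_right (show 0 ≤ CS * σ ^ 2 by positivity) h1
        linarith)) (by rw [neg_one_smul]; abel))
  have hfar : Far p L (bl 0 N) (univ : Finset Unit) (fun _ => 0) (fun _ => r) fun _ => Jz 0 :=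
    ⟨by simp, fun _ _ => ins_Jz 0 (by omega), fun _ _ => ⟨by omega, hwL⟩,
      fun _ _ => bl_mono 0 (hwL.trans hE.le), fun _ _ _ _ h => (h rfl).elim⟩
  have hx1 : 1 ≤ x⁻¹ := one_le_inv_iff₀.2 ⟨x0, hS.x1⟩
  have hRM : R ≤ x⁻¹ * R := le_mul_of_one_le_left R0.le hx1
  have hvan : ∀ y ∈ bl 0 r, xt W R t y = 0 := hin r (by linarith)
  have h1 := (hJ Λ ω L N hE R Y x⁻¹ hM hx1 0 Unit univ _ _ _ z r σ 0 _ u 1 hfar (fun _ _ => hvan) hq hwL hsub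
    (fun _ _ => hdis) hu (by linarith)).1 (4 * (R * x)) (by linarith) (by linarith)
    (by rw [div_inv_eq_mul]; linarith)
  have h2 := (hK Λ ω L N hE R Y hM).2.2 (4 * (R * x)) R x⁻¹ hx1 (by linarith) (hS.sm hS.K4)
    (by rw [div_inv_eq_mul]; linarith) hRM (by linarith)
  obtain ⟨m, hm, hω⟩ := hE.amb 0
  have hd : ∀ φ, DepG (bl 0 N) fun s => Jz 0 s * cp (xt W R t) φ s := fun φ =>
    (ins_Jz 0 (show 1 ≤ N by have := hE.le; omega)).1.mul (depG_cp hq φ)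
  have h4 := (hP p Λ L hE.toGs m _ Unit univ _ _ _ (cp (xt W R t) (0 + π / 2)) hm hfar
    (fun _ _ => out_cp hvan _) (abs_cp_le _ _)).1
  simp only [univ_unique, prod_singleton] at h1 h4
  rw [← hω _ (hd _)] at h4
  have e2 : ω (fun s => Jz 0 s * cp (xt W R t) (-(π / 2)) s) =
      -ω fun s => Jz 0 s * cp (xt W R t) (0 + π / 2) s := by
    rw [hω _ (hd _), hω _ (hd _), ← Ex_neg]
    congr 1; funext s; rw [cp_half, cp_neg_half, add_zero]; ring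
  rw [e2]
  rw [cw_eq_ew] at h1
  refine (hS.fin2 J0 K0 σ0 (by linarith) (ew_pos (by omega)) (ew_le' hw) (nu0 hE.toGs r) hr1
    (hM.prof.le Y0.le R0 hB (by omega) hwL hr1 (by nlinarith)) h1 h2 (s2 z (self_mem_bl _ _)).2 h4).trans ?_
  rw [mul_add (C * Y ^ 2 / R ^ 4)]
  refine add_le_add (hU.trans ?_) ?_
  · gcongr; exact hCD.1
  · gcongr; exact hCD.2

end Crest.Agent.T145.Fl
end

-- ▼ part T145/Fin_76

/-!
# Row 145: the odd flow and the middle glue without hypotheses (helper76)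
-/

set_option autoImplicit false

namespace Crest.Agent.T145.Fin

section fl
open Fl

theorem kb : KbStmt := kbStmt semiStmt prodStmt Fl.bareStmt
theorem loc : LocStmt := locStmt Fl.rateStmt
theorem lj : LjStmt := ljStmt semiStmt prodStmt Fl.bareStmt loc Fl.swStmt (betaStmt kb)
theorem far : FarStmt := farStmt semiStmt prodStmt Fl.rateStmt
theorem cm : CmStmt := cmStmt lj kb far semiStmt
theorem neu : NeuStmt := neuStmt lj kb
theorem cc : CcStmt := ccStmt semiStmt prodStmt cm xfStmt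
theorem stepY : StepYStmt := stepYStmt fusStmt far (siteYStmt prodStmt lj kb cc)
theorem stepX : StepXStmt := stepXStmt semiStmt prodStmt neu cm xfStmt
theorem step : Fl.StepStmt := Fl.stepStmt kb stepY stepX akStmt
theorem sg : SgStmt := sgStmt Kr.U.gffA All.t1m
theorem sc : ScStmt := scStmt All.t2p All.r1c All.pdec All.t1m
theorem low : LowStmt := lowStmt sg sc
theorem link : LinkStmt := linkStmt neu sg All.t1a
theorem core : CoreStmt := coreStmt All.gd (ksWStmt Kr.U.kOdd Kr.U.q All.t1m) low (smallWStmt low sg)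
  (entLowStmt All.step2 All.t2 All.t1m Mb.y0Stmt All.afac) link purStmt
  (ent2Stmt semiStmt prodStmt fusStmt Fl.bareStmt cm akStmt)
theorem oStep : Leaf OStep := leaf_step step
theorem lOdd : Leaf Mid.Odd :=
  leaf_odd oStep leaf_pos leaf_ent leaf_nu leaf_kb leaf_gj leaf_ambx leaf_amby
theorem odd : Mid.OddStmt := oddStmt core lOdd
theorem ope : Mid.OpeStmt := opeStmt core lOdd (leaf_ope (opeFStmt cm kb))

end fl

theorem vx : Mid.VxStmt := Mid.vxStmt (Mid.vgStmt Mid.varStmt)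
theorem up : Mid.UpStmt := Mid.upStmt Mid.chiStmt All.t1x All.t1a
theorem dn : Mid.DnStmt := Mid.dnStmt Mid.chiStmt All.dlg All.t1a
theorem slope : Top.SlopeStmt := Mid.slopeStmt odd All.t1m All.t1d vx dn (Mid.moStmt Mid.chiStmt)
theorem critXy : Vx.CritXy := Mid.critXy ope vx dn All.t1m All.t1d
theorem scale (hL : Mid.LinStmt) : Top.ScaleStmt := Mid.scaleStmt hL vx up dn All.t1m All.t1d

end Crest.Agent.T145.Fin
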