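import Crest.Agent.T145.EvAmb_49
import Crest.Agent.T145.EvCl1_14_Mg
import Crest.Agent.T145.EvBas_9
import Crest.Agent.T145.EvCloK_19_Mg
import Crest.Agent.T145.EvT2_17_Mg
import Crest.Agent.T145.EvCr3_60
import Crest.Agent.T145.EvDk_4_Mg
import Crest.Agent.T145.EvS4F_14_Mg
import Crest.Agent.T145.EvNdd_68_Mg
import Crest.Agent.T145.EvX2_81_Mg
import Crest.Agent.T145.EvNg_75_Mg
import Crest.Agent.T145.EvS1A_55
import Crest.Agent.T145.EvSh_87
import Crest.Agent.T145.EvTLin_70
import Crest.Agent.T145.EvXg_91_Mg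
import Crest.Agent.T145.FlCone_64
import Crest.Agent.T145.FlCm_62
import Crest.Agent.T145.FlNeu_31
import Crest.Agent.T145.Fin_76
import Crest.Agent.T145.EvS2_48
import Crest.Agent.T145.EvS4_36
import Crest.Agent.T145.EvS4Adm_46
import Crest.Agent.T145.EvS1_48_Mg

-- ▼ part T145/EvAll_2
section

/-!
# Row 145, the even sector: assembly (helper2)
-/

set_option autoImplicit false

namespace Crest.Agent.T145.Ev.U

open Fl

theorem loc : LocStmt := locStmt rateStmt
theorem kb : KbStmt := kbStmt semiStmt prodStmt Fl.bareStmt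
theorem lj : LjStmt := ljStmt semiStmt prodStmt Fl.bareStmt loc swStmt (betaStmt kb)
theorem neu : NeuStmt := neuStmt lj kb
theorem cm : CmStmt := cmStmt lj kb (farStmt semiStmt prodStmt rateStmt) semiStmt
theorem ap : ApStmt := apStmt semiStmt fusStmt
theorem amb : AmbStmt := ambStmt basStmt farEStmt ap
theorem cr3 : Cr3Stmt := cr3Stmt semiStmt prodStmt fusStmt loc swStmt basStmt farEStmt
theorem locN : LocNStmt := locNStmt rateStmt
theorem cg : CgStmt := cgStmt cm
theorem epur : EpurStmt := epurStmt tgStmt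
theorem sh : ShStmt := shStmt basStmt
theorem dk : DkStmt := dkStmt sh cr3 kb basStmt

theorem ng : NgStmt := ngStmt neu Fl.bareStmt
theorem x1 : X1Stmt := x1Stmt ng xfStmt detStmt
theorem x2 : X2Stmt := x2Stmt cg xfStmt
theorem x4 : X4Stmt := x4Stmt ng cg xgStmt xfStmt
theorem low : Ev.LowStmt := Ev.lowStmt tgStmt xfStmt (x1uStmt ng xfStmt detStmt) x2 ng cg
theorem s3 : S3Stmt := s3Stmt loc x2 farEStmt basStmt tgStmt

theorem lin_of (s1 : S1Stmt) (s2 : S2Stmt) (s4 : S4Stmt)
    (hC : CoreStmt) (hO : Leaf Mid.Odd) (hS : Leaf OStep) (hL : LinkStmt)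
    (hK : Kr.KEvenStmt) (hT : T1mStmt) : Mid.LinStmt :=
  have dc := dcStmt low basStmt
  have b1 := b1Stmt s1 vlStmt
  have env := envStmt edStmt epur (keWStmt hK hT) hL
  linStmt hC hO tDerStmt
    (tLinStmt env (lnStmt dc (uStmt4 dk) (vStmt sh cr3 s2 s3 detStmt neu cm kb) b1 (ndStmt dc s1 vlStmt ng))
      (closeStmt (cl1Stmt tgStmt basStmt dc b1 (t2Stmt s4 basStmt dk cr3)) dk ap amb) hS)
    (tAmbStmt env amb)

end Crest.Agent.T145.Ev.U
end

-- ▼ part T145/FinE_1

/-!
# Row 145: the last glue, the scale statement from S1 (helper1)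
-/

set_option autoImplicit false

namespace Crest.Agent.T145.Ev.U

open Fl

theorem s2 : S2Stmt := s2Stmt semiStmt prodStmt loc swStmt x1 x2 farEStmt detStmt basStmt tgStmt
theorem s4 : S4Stmt :=
  S4.s4_of basStmt (S4.aS locN basStmt) (S4.bS60 semiStmt prodStmt loc swStmt xfStmt basStmt)
    (S4.fS Fl.bareStmt farEStmt) S4.admS
    (S4.repS semiStmt puStmt hfStmt x2 x4 detStmt basStmt tgStmt)

theorem scale_of (s1 : S1Stmt) : Top.ScaleStmt :=
  Fin.scale (lin_of s1 s2 s4 Fin.core Fin.lOdd Fin.oStep Fin.link Kr.U.kEven All.t1m)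

end Crest.Agent.T145.Ev.U
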