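import Crest.Agent.T145.Fkg_86
import Crest.Agent.T145.Short_53
import Crest.Agent.T145.Loc_51
import Crest.Agent.T145.Br_73
import Crest.Agent.T145.Rgh_74
import Crest.Agent.T145.PotD_17
import Crest.Agent.T145.PotPo_44

-- ▼ part T145/Es_28
section

/-!
# Row 145: Edwards–Sokal at the level `-1/2`, the screen lemma (helper28)

`Z (-1 on L, 0 elsewhere) / Z 0 ≥ P (L is not joined to the other pins) ≥ ∏ local non-crossing probabilities`.
-/

set_option autoImplicit false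

namespace Crest.Agent.T145.Es28

open Finset

section bern
variable {ι : Type*} [DecidableEq ι] {E : Finset ι} {p : ι → ℝ}

theorem bern_neg (E : Finset ι) (p : ι → ℝ) (P : ι → Prop) [DecidablePred P] (Φ : Finset ι → ℝ) :
    Sw9.bern E p P (fun ω => -Φ ω) = -Sw9.bern E p P Φ := by
  simp only [Sw9.bern, mul_neg, sum_neg_distrib]

theorem bern_const (E : Finset ι) (p : ι → ℝ) (P : ι → Prop) [DecidablePred P] (c : ℝ) :
    Sw9.bern E p P (fun _ => c) = c := by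
  rw [Sw9.bern, ← sum_mul, Sw9.sum_ite_prod]; simp

theorem bern_sub (E : Finset ι) (p : ι → ℝ) (P : ι → Prop) [DecidablePred P] (Φ Ψ : Finset ι → ℝ) :
    Sw9.bern E p P (fun ω => Φ ω - Ψ ω) = Sw9.bern E p P Φ - Sw9.bern E p P Ψ := by
  simp only [Sw9.bern, mul_sub, sum_sub_distrib]

theorem bern_nonneg (hp : ∀ e ∈ E, 0 ≤ p e ∧ p e ≤ 1) (P : ι → Prop) [DecidablePred P]
    {Φ : Finset ι → ℝ} (h : ∀ ω, 0 ≤ Φ ω) : 0 ≤ Sw9.bern E p P Φ := by
  have := Sw9.bern_le hp P (Φ := fun _ => 0) h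
  rwa [bern_const] at this

theorem bern_le_one (hp : ∀ e ∈ E, 0 ≤ p e ∧ p e ≤ 1) (P : ι → Prop) [DecidablePred P]
    {Φ : Finset ι → ℝ} (h : ∀ ω, Φ ω ≤ 1) : Sw9.bern E p P Φ ≤ 1 := by
  have := Sw9.bern_le hp P (Ψ := fun _ => 1) h
  rwa [bern_const] at this

/-- only subsets of `E` matter -/
theorem bern_le' (hp : ∀ e ∈ E, 0 ≤ p e ∧ p e ≤ 1) (P : ι → Prop) [DecidablePred P]
    {Φ Ψ : Finset ι → ℝ} (h : ∀ ω, ω ⊆ E → Φ ω ≤ Ψ ω) :
    Sw9.bern E p P Φ ≤ Sw9.bern E p P Ψ := by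
  refine sum_le_sum fun ω hω => mul_le_mul_of_nonneg_left
    (h _ ((filter_subset _ _).trans (mem_powerset.1 hω))) (prod_nonneg fun e he => ?_)
  split_ifs
  · exact (hp e he).1
  · exact sub_nonneg.2 (hp e he).2

theorem bern_anti (E : Finset ι) {p₁ p₂ : ι → ℝ} (P₁ P₂ : ι → Prop) [DecidablePred P₁]
    [DecidablePred P₂] (h₁ : ∀ e ∈ E, 0 ≤ p₁ e ∧ p₁ e ≤ 1) (h₂ : ∀ e ∈ E, 0 ≤ p₂ e ∧ p₂ e ≤ 1)
    (h : ∀ e ∈ E, (if P₁ e then p₁ e else 0) ≤ if P₂ e then p₂ e else 0)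
    {Φ : Finset ι → ℝ} (hΦ : Antitone Φ) : Sw9.bern E p₂ P₂ Φ ≤ Sw9.bern E p₁ P₁ Φ := by
  have := Sw9.bern_mono E P₁ P₂ h₁ h₂ h (fun ω => -Φ ω) fun _ _ k => neg_le_neg (hΦ k)
  rw [bern_neg, bern_neg] at this
  linarith

/-- Harris inequality -/
theorem harris (hp : ∀ e ∈ E, 0 ≤ p e ∧ p e ≤ 1) (P : ι → Prop) [DecidablePred P]
    {Φ Ψ : Finset ι → ℝ} (hΦ : Antitone Φ) (hΨ : Antitone Ψ) :
    Sw9.bern E p P Φ * Sw9.bern E p P Ψ ≤ Sw9.bern E p P fun ω => Φ ω * Ψ ω := by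
  induction E using Finset.induction_on generalizing Φ Ψ with
  | empty => simp [Sw9.bern]
  | insert a E ha ih =>
    have k := fun e he => hp e (mem_insert_of_mem he)
    have i0 := ih k hΦ hΨ
    have i1 := ih k (Φ := fun ω => Φ (insert a ω)) (Ψ := fun ω => Ψ (insert a ω))
      (fun _ _ hh => hΦ (insert_subset_insert a hh)) fun _ _ hh => hΨ (insert_subset_insert a hh)
    have j0 : (Sw9.bern E p P fun ω => Φ (insert a ω)) ≤ Sw9.bern E p P Φ :=
      Sw9.bern_le k P fun ω => hΦ (subset_insert a ω)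
    have j1 : (Sw9.bern E p P fun ω => Ψ (insert a ω)) ≤ Sw9.bern E p P Ψ :=
      Sw9.bern_le k P fun ω => hΨ (subset_insert a ω)
    rw [Sw9.bern_insert ha, Sw9.bern_insert ha, Sw9.bern_insert ha]
    have a1 := hp a (mem_insert_self _ _)
    have b0 : 0 ≤ if P a then p a else 0 := by split_ifs; exacts [a1.1, le_rfl]
    have b1 : (if P a then p a else 0) ≤ 1 := by split_ifs; exacts [a1.2, zero_le_one]
    generalize (if P a then p a else 0) = q at *
    nlinarith [mul_le_mul_of_nonneg_left i0 (sub_nonneg.2 b1), mul_le_mul_of_nonneg_left i1 b0,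
      mul_nonneg (mul_nonneg b0 (sub_nonneg.2 b1)) (mul_nonneg (sub_nonneg.2 j0) (sub_nonneg.2 j1))]

theorem anti_prod {α κ : Type*} [Preorder α] (T : Finset κ) {Φ : κ → α → ℝ}
    (hΦ : ∀ i ∈ T, Antitone (Φ i)) (h0 : ∀ i ∈ T, ∀ a, 0 ≤ Φ i a) :
    Antitone fun a => ∏ i ∈ T, Φ i a := fun a b hab =>
  prod_le_prod (fun i hi => h0 i hi b) fun i hi => hΦ i hi hab

theorem harris_prod (hp : ∀ e ∈ E, 0 ≤ p e ∧ p e ≤ 1) (P : ι → Prop) [DecidablePred P] {κ : Type*}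
    (T : Finset κ) {Φ : κ → Finset ι → ℝ} (hΦ : ∀ i ∈ T, Antitone (Φ i))
    (h0 : ∀ i ∈ T, ∀ ω, 0 ≤ Φ i ω) :
    ∏ i ∈ T, Sw9.bern E p P (Φ i) ≤ Sw9.bern E p P fun ω => ∏ i ∈ T, Φ i ω := by
  classical
  induction T using Finset.induction_on with
  | empty => simp [bern_const]
  | insert a T ha ih =>
    have k := fun i hi => hΦ i (mem_insert_of_mem hi)
    have k0 := fun i hi => h0 i (mem_insert_of_mem hi)
    simp only [prod_insert ha]
    exact (mul_le_mul_of_nonneg_left (ih k k0)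
      (bern_nonneg hp P (h0 a (mem_insert_self _ _)))).trans
      (harris hp P (hΦ a (mem_insert_self _ _)) (anti_prod T k k0))

end bern

/-- FKG for a finite product of decreasing `[0,1]`-valued functions -/
theorem fkg_prod {α κ : Type*} [DistribLattice α] {W : α → ℝ} (hL : LSM W) (hW : Wt W) (T : Finset κ)
    {F : κ → α → ℝ} (hF : ∀ i ∈ T, Antitone (F i)) (h0 : ∀ i ∈ T, ∀ a, 0 ≤ F i a)
    (h1 : ∀ i ∈ T, ∀ a, F i a ≤ 1) : ∏ i ∈ T, Ex W (F i) ≤ Ex W fun a => ∏ i ∈ T, F i a := by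
  classical
  induction T using Finset.induction_on with
  | empty => simp [hW.ex_const]
  | insert a T ha ih =>
    have k := fun i hi => hF i (mem_insert_of_mem hi)
    have k0 := fun i hi => h0 i (mem_insert_of_mem hi)
    have k1 := fun i hi => h1 i (mem_insert_of_mem hi)
    have a0 := h0 a (mem_insert_self _ _)
    have a1 := h1 a (mem_insert_self _ _)
    have p0 : ∀ x, 0 ≤ ∏ i ∈ T, F i x := fun x => prod_nonneg fun i hi => k0 i hi x
    have p1 : ∀ x, ∏ i ∈ T, F i x ≤ 1 := fun x =>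
      prod_le_one (fun i hi => k0 i hi x) fun i hi => k1 i hi x
    simp only [prod_insert ha]
    have c := hL.cv_nonneg_anti hW (hF a (mem_insert_self _ _)) (anti_prod T k k0)
      (hW.ig_bdd (C := 1) fun x => by rw [abs_of_nonneg (a0 x)]; exact a1 x)
      (hW.ig_bdd (C := 1) fun x => by rw [abs_of_nonneg (p0 x)]; exact p1 x)
      (hW.ig_bdd (C := 1) fun x => by
        rw [abs_of_nonneg (mul_nonneg (a0 x) (p0 x))]; exact mul_le_one₀ (a1 x) (p0 x) (p1 x))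
    have e := mul_le_mul_of_nonneg_left (ih k k0 k1) (Ex_nonneg hW.nonneg fun x _ => a0 x)
    unfold Cv at c
    linarith

section mdl
variable {V : Type*} [DecidableEq V] {m : Mdl V}

/-- expectation of `Φ` (bonds above the level `k`) given the heights -/
noncomputable def ph (m : Mdl V) (k : ℤ) (Φ : Finset (V × V) → ℝ) (s : Cfg V) : ℝ :=
  Sw9.bern m.ed (m.pB k s) (fun e => k < s e.1) Φ


theorem ph_nonneg (hm : m.Fm) (k : ℤ) {Φ : Finset (V × V) → ℝ} (h : ∀ ω, 0 ≤ Φ ω) (s : Cfg V) :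
    0 ≤ ph m k Φ s := bern_nonneg (fun _ he => Mdl.pB_mem hm k s he) _ h

theorem ph_le_one (hm : m.Fm) (k : ℤ) {Φ : Finset (V × V) → ℝ} (h : ∀ ω, Φ ω ≤ 1) (s : Cfg V) :
    ph m k Φ s ≤ 1 := bern_le_one (fun _ he => Mdl.pB_mem hm k s he) _ h

theorem ph_anti (hm : m.Fm) (k : ℤ) {Φ : Finset (V × V) → ℝ} (hΦ : Antitone Φ) :
    Antitone (ph m k Φ) := fun s t hst =>
  bern_anti _ _ _ (fun _ he => Mdl.pB_mem hm k s he) (fun _ he => Mdl.pB_mem hm k t he)
    (fun _ he => Mdl.pB_mono hm k hst he) hΦ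

theorem ph_level (hm : m.Fm) {k k' : ℤ} (hk : k ≤ k') {Φ : Finset (V × V) → ℝ} (hΦ : Antitone Φ)
    (s : Cfg V) : ph m k Φ s ≤ ph m k' Φ s := by
  refine bern_anti _ _ _ (fun _ he => Mdl.pB_mem hm k' s he) (fun _ he => Mdl.pB_mem hm k s he)
    (fun e he => ?_) hΦ
  by_cases c : k' < s e.1
  · rw [if_pos c, if_pos (by omega)]
    by_cases d : k' < s e.2
    · unfold Mdl.pB
      refine sub_le_sub_left (div_le_div_of_nonneg_right ((hm e he).anti ?_)
        ((hm e he).pos' _).le) _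
      rw [abs_of_pos (by omega : 0 < s e.1 - k'), abs_of_pos (by omega : 0 < s e.2 - k'),
        abs_of_pos (by omega : 0 < s e.1 - k), abs_of_pos (by omega : 0 < s e.2 - k),
        abs_of_pos (by omega), abs_of_pos (by omega)]
      omega
    · rw [Mdl.pB_zero hm he (mul_nonpos_of_nonneg_of_nonpos (by omega) (by omega))]
      exact (Mdl.pB_mem hm k s he).1
  · rw [if_neg c]
    split_ifs
    exacts [(Mdl.pB_mem hm k s he).1, le_rfl]

/-- a level read on the configuration -/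
theorem low (hm : m.Fm) {W : Cfg V → ℝ} (hW : Wt W) {Φ : Finset (V × V) → ℝ} (hΦ : Antitone Φ)
    (h0 : ∀ ω, 0 ≤ Φ ω) (h1 : ∀ ω, Φ ω ≤ 1) (r : Cfg V → ℤ) (k : ℤ) :
    Pr W (fun s => r s ≤ k) - Ex W (fun s => 1 - ph m (r s) Φ s) ≤ Ex W (ph m k Φ) := by
  have b : ∀ j s, |1 - ph m j Φ s| ≤ 1 := fun j s => by
    have := ph_nonneg hm j h0 s
    have := ph_le_one hm j h1 s
    rw [abs_le]; constructor <;> linarith
  have i1 : Ig W fun s => 1 - ph m (r s) Φ s := hW.ig_bdd fun s => b _ s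
  have i2 : Ig W (ph m k Φ) := hW.ig_bdd (C := 1) fun s => by
    rw [abs_of_nonneg (ph_nonneg hm k h0 s)]; exact ph_le_one hm k h1 s
  rw [Pr, ← Ex_sub (hW.ig_ind _) i1]
  refine Ex_mono hW.nonneg ((hW.ig_ind _).sub i1) i2 fun s => ?_
  by_cases c : r s ≤ k
  · rw [ind_pos c]; linarith [ph_level hm c hΦ s]
  · rw [ind_neg c]; linarith [ph_nonneg hm k h0 s, ph_le_one hm (r s) h1 s]

theorem cross_anti (S I : Finset V) : Antitone fun ω : Finset (V × V) => ind (¬ Cross S I ω) :=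
  fun _ _ h => ind_mono fun a ⟨x, hx, y, hy, c⟩ => a ⟨x, hx, y, hy, Md.conn_mono h c⟩

/-- a crossing above the level is a crossing -/
theorem one_sub_ph_le (hm : m.Fm) (k : ℤ) (S I : Finset V) (s : Cfg V) :
    1 - ph m k (fun ω => ind (¬ Cross S I ω)) s ≤ m.cB k (fun p => ind (Cross S I p.2)) s := by
  have e : m.cB k (fun p => ind (Cross S I p.2)) s =
      Sw9.bern m.ed (m.pB k s) (fun _ => True) fun ω => ind (Cross S I ω) := by
    rw [← Mdl.bern_eq hm k s (fun _ => True)]; simp only [filter_true, Mdl.cB]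
  have h := bern_anti m.ed (fun e => k < s e.1) (fun _ => True) (fun _ he => Mdl.pB_mem hm k s he)
    (fun _ he => Mdl.pB_mem hm k s he) (fun e he => by
      rw [if_pos trivial]; split_ifs; exacts [le_rfl, (Mdl.pB_mem hm k s he).1]) (cross_anti S I)
  simp only [ind_not, bern_sub, bern_const] at h
  rw [e, ph]
  simp only [ind_not, bern_sub, bern_const]
  linarith

theorem edge_anti (e : V × V) : Antitone fun ω : Finset (V × V) => ind (e ∉ ω) :=
  fun _ _ h => ind_mono fun a b => a (h b)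

/-- an edge with an end at or below the level is closed -/
theorem ph_edge (hm : m.Fm) (k : ℤ) (e : V × V) (s : Cfg V) (h : s e.1 ≤ k ∨ s e.2 ≤ k) :
    ph m k (fun ω => ind (e ∉ ω)) s = 1 := by
  refine le_antisymm (ph_le_one hm k (fun _ => ind_le_one _) s) ?_
  have := bern_anti m.ed (fun e => k < s e.1) (fun e' => e' ≠ e) (p₁ := m.pB k s) (p₂ := m.pB k s)
    (fun _ he => Mdl.pB_mem hm k s he) (fun _ he => Mdl.pB_mem hm k s he) (fun e' he => by
      by_cases c : e' = e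
      · subst c
        rw [if_neg (fun a : e' ≠ e' => a rfl)]
        split_ifs with d
        · exact (Mdl.pB_zero hm he (mul_nonpos_of_nonneg_of_nonpos (by omega) (by omega))).le
        · exact le_rfl
      · rw [if_pos c]; split_ifs; exacts [le_rfl, (Mdl.pB_mem hm k s he).1]) (edge_anti e)
  refine le_trans (le_of_eq ?_) this
  rw [← bern_const m.ed (m.pB k s) (fun e' => e' ≠ e) 1]
  exact sum_congr rfl fun ω _ => by simp only []; rw [ind_pos (by simp)]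

/-! ### the level `-1/2` -/

/-- `|a + 1/2| + |b + 1/2|` -/
def hl (a b : ℤ) : ℤ := (|2 * a + 1| + |2 * b + 1|) / 2

theorem hl_pp {a b : ℤ} (ha : 0 ≤ a) (hb : 0 ≤ b) : hl a b = a + b + 1 := by
  unfold hl; rw [abs_of_pos (by omega), abs_of_pos (by omega)]; omega
theorem hl_pn {a b : ℤ} (ha : 0 ≤ a) (hb : b < 0) : hl a b = a - b := by
  unfold hl; rw [abs_of_pos (by omega), abs_of_neg (by omega)]; omega
theorem hl_np {a b : ℤ} (ha : a < 0) (hb : 0 ≤ b) : hl a b = b - a := by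
  unfold hl; rw [abs_of_neg (by omega), abs_of_pos (by omega)]; omega
theorem hl_nn {a b : ℤ} (ha : a < 0) (hb : b < 0) : hl a b = -a - b - 1 := by
  unfold hl; rw [abs_of_neg (by omega), abs_of_neg (by omega)]; omega
theorem hl_left (a b : ℤ) : hl (-a - 1) b = hl a b := by
  unfold hl; rw [show 2 * (-a - 1) + 1 = -(2 * a + 1) by ring, abs_neg]
theorem hl_right (a b : ℤ) : hl a (-b - 1) = hl a b := by
  unfold hl; rw [show 2 * (-b - 1) + 1 = -(2 * b + 1) by ring, abs_neg]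
theorem abs_le_hl (a b : ℤ) : |b - a| ≤ |hl a b| := by
  rcases le_or_gt 0 a with ha | ha <;> rcases le_or_gt 0 b with hb | hb
  · rw [hl_pp ha hb, abs_of_pos (by omega : 0 < a + b + 1), abs_le]; omega
  · rw [hl_pn ha hb, abs_sub_comm]
  · rw [hl_np ha hb]
  · rw [hl_nn ha hb, abs_of_pos (by omega : 0 < -a - b - 1), abs_le]; omega

/-- bond weight at the level `-1/2` -/
noncomputable def bh (m : Mdl V) (s : Cfg V) (e : V × V) (o : Prop) [Decidable o] : ℝ :=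
  if o then m.w e (dE e s) - m.w e (hl (s e.1) (s e.2)) else m.w e (hl (s e.1) (s e.2))

/-- open probability at the level `-1/2` -/
noncomputable def pH (m : Mdl V) (s : Cfg V) (e : V × V) : ℝ :=
  1 - m.w e (hl (s e.1) (s e.2)) / m.w e (dE e s)

omit [DecidableEq V] in
theorem bh_eq (hm : m.Fm) (s : Cfg V) {e : V × V} (he : e ∈ m.ed) (o : Prop) [Decidable o] :
    bh m s e o = m.w e (dE e s) * if o then pH m s e else 1 - pH m s e := by
  have := ((hm e he).pos' (dE e s)).ne'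
  unfold bh pH
  split_ifs <;> field_simp
  ring

omit [DecidableEq V] in
theorem pH_mem (hm : m.Fm) (s : Cfg V) {e : V × V} (he : e ∈ m.ed) :
    0 ≤ pH m s e ∧ pH m s e ≤ 1 := by
  have p := (hm e he).pos' (dE e s)
  refine ⟨sub_nonneg.2 ((div_le_one p).2 ((hm e he).anti (abs_le_hl _ _))),
    sub_le_self _ (div_nonneg ((hm e he).nonneg _) p.le)⟩

omit [DecidableEq V] in
theorem bh_nonneg (hm : m.Fm) (s : Cfg V) {e : V × V} (he : e ∈ m.ed) (o : Prop) [Decidable o] :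
    0 ≤ bh m s e o := by
  rw [bh_eq hm s he]
  refine mul_nonneg ((hm e he).nonneg _) ?_
  split_ifs
  exacts [(pH_mem hm s he).1, sub_nonneg.2 (pH_mem hm s he).2]

omit [DecidableEq V] in
theorem pH_zero (hm : m.Fm) {s : Cfg V} {e : V × V} (he : e ∈ m.ed)
    (h : ¬ (0 ≤ s e.1 ↔ 0 ≤ s e.2)) : pH m s e = 0 := by
  have : m.w e (hl (s e.1) (s e.2)) = m.w e (dE e s) := by
    rcases le_or_gt 0 (s e.1) with ha | ha <;> rcases le_or_gt 0 (s e.2) with hb | hb
    · exact absurd (iff_of_true ha hb) h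
    · rw [hl_pn ha hb, ← (hm e he).even, neg_sub]; rfl
    · rw [hl_np ha hb]; rfl
    · exact absurd (iff_of_false (by omega) (by omega)) h
  rw [pH, this, div_self ((hm e he).pos' _).ne', sub_self]

omit [DecidableEq V] in
theorem pH_le_pB (hm : m.Fm) (s : Cfg V) {e : V × V} (he : e ∈ m.ed) :
    (if -1 < s e.1 then pH m s e else 0) ≤ if -1 < s e.1 then m.pB (-1) s e else 0 := by
  split_ifs with c
  · by_cases d : 0 ≤ s e.2
    · unfold pH Mdl.pB
      refine sub_le_sub_left (div_le_div_of_nonneg_right ((hm e he).anti ?_)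
        ((hm e he).pos' _).le) _
      rw [hl_pp (by omega) d, abs_of_pos (by omega : 0 < s e.1 - -1),
        abs_of_pos (by omega : 0 < s e.2 - -1), abs_of_pos (by omega), abs_of_pos (by omega)]
      omega
    · rw [pH_zero hm he (by omega)]; exact (Mdl.pB_mem hm _ s he).1
  · exact le_rfl

/-- no pinned site outside `L` is joined to `L` -/
def Good (m : Mdl V) (L : Finset V) (ω : Finset (V × V)) : Prop :=
  ∀ y ∈ L, ∀ x, x ∉ m.A → x ∉ L → ¬ Conn ω y x

omit [DecidableEq V] in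
theorem good_anti (m : Mdl V) (L : Finset V) : Antitone fun ω => ind (Good m L ω) :=
  fun _ _ h => ind_mono fun a y hy x hx hx' c => a y hy x hx hx' (Md.conn_mono h c)

/-- reflection about `-1/2` on `C` -/
noncomputable def rf (C : Finset V) (s : Cfg V) : Cfg V := pw C (-s - cst C 1) s

theorem rf_mem {C : Finset V} (s : Cfg V) {x : V} (hx : x ∈ C) : rf C s x = -s x - 1 := by
  rw [rf, pw_of_mem _ _ hx]; simp [cst_of_mem 1 hx]
theorem rf_not {C : Finset V} (s : Cfg V) {x : V} (hx : x ∉ C) : rf C s x = s x :=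
  pw_of_notMem _ _ hx
theorem rf_rf (C : Finset V) (s : Cfg V) : rf C (rf C s) = s := by
  ext x
  by_cases hx : x ∈ C
  · rw [rf_mem _ hx, rf_mem _ hx]; ring
  · rw [rf_not _ hx, rf_not _ hx]

/-- joint weight at the level `-1/2` (no site weights) -/
noncomputable def jh (m : Mdl V) (η : Cfg V) (ω : Finset (V × V)) (s : Cfg V) : ℝ :=
  ind (∀ x, x ∉ m.A → s x = η x) * ∏ e ∈ m.ed, bh m s e (e ∈ ω)

theorem jh_nonneg (hm : m.Fm) (η : Cfg V) (ω : Finset (V × V)) (s : Cfg V) : 0 ≤ jh m η ω s :=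
  mul_nonneg (ind_nonneg _) (prod_nonneg fun _ he => bh_nonneg hm s he _)

theorem sum_jh (h1 : ∀ x ∈ m.A, ∀ k, m.site x k = 1) (η s : Cfg V) :
    ∑ ω ∈ m.ed.powerset, jh m η ω s = m.W η s := by
  simp only [jh, bh]
  rw [← mul_sum, Sw9.sum_ite_prod, Mdl.W, prod_congr rfl fun x hx => h1 x hx (s x), prod_const_one,
    mul_one]
  simp only [sub_add_cancel]

theorem jh_le (hm : m.Fm) (h1 : ∀ x ∈ m.A, ∀ k, m.site x k = 1) (η : Cfg V)
    {ω : Finset (V × V)} (hω : ω ∈ m.ed.powerset) (s : Cfg V) : jh m η ω s ≤ m.W η s := by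
  rw [← sum_jh h1]
  exact single_le_sum (f := fun ω => jh m η ω s) (fun ω _ => jh_nonneg hm η ω s) hω

theorem jh_rf (hm : m.Fm) {L : Finset V} (hL : Disjoint L m.A) {ω : Finset (V × V)}
    (hg : Good m L ω) (s : Cfg V) : jh m (cst L (-1)) ω (rf (cl L ω) s) = jh m 0 ω s := by
  unfold jh
  congr 1
  · refine ind_congr (forall_congr' fun x => forall_congr' fun hx => ?_)
    by_cases c : x ∈ L
    · rw [rf_mem _ (Md.subset_cl L ω c), cst_of_mem _ c]; simp only [Finsupp.coe_zero, Pi.zero_apply]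
      omega
    · have : x ∉ cl L ω := fun a => by
        obtain ⟨y, hy, k⟩ := Md.mem_cl.1 a
        exact hg y hy x hx c k
      rw [rf_not _ this, cst_of_notMem _ c]; rfl
  · refine prod_congr rfl fun e he => ?_
    unfold bh dE
    by_cases a : e.1 ∈ cl L ω <;> by_cases b : e.2 ∈ cl L ω
    · rw [rf_mem _ a, rf_mem _ b, hl_left, hl_right,
        show -s e.2 - 1 - (-s e.1 - 1) = -(s e.2 - s e.1) by ring, (hm e he).even]
    · have : e ∉ ω := fun k => b ((Md.cl_closed k).1 a)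
      rw [if_neg this, if_neg this, rf_mem _ a, rf_not _ b, hl_left]
    · have : e ∉ ω := fun k => a ((Md.cl_closed k).2 b)
      rw [if_neg this, if_neg this, rf_not _ a, rf_mem _ b, hl_right]
    · rw [rf_not _ a, rf_not _ b]

/-- on the support, a path from `L` uses only bonds above the level -/
theorem good_of_plus (hm : m.Fm) {L : Finset V} (hL : Disjoint L m.A) {ω : Finset (V × V)}
    (hω : ω ⊆ m.ed) {s : Cfg V} (hj : jh m 0 ω s ≠ 0)
    (hg : Good m L (ω.filter fun e => -1 < s e.1)) : Good m L ω := by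
  have h0 : ∀ x, x ∉ m.A → s x = 0 := ind_ne_zero.1 (left_ne_zero_of_mul hj)
  have hs : ∀ e ∈ ω, (0 ≤ s e.1 ↔ 0 ≤ s e.2) := fun e he => by
    by_contra c
    have := prod_ne_zero_iff.1 (right_ne_zero_of_mul hj) e (hω he)
    rw [bh_eq hm s (hω he), if_pos he, pH_zero hm (hω he) c, mul_zero] at this
    exact this rfl
  intro y hy x hx hx' c
  have key : ∀ z, Conn ω y z → 0 ≤ s z ∧ Conn (ω.filter fun e => -1 < s e.1) y z := by
    intro z hz
    induction hz with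
    | refl => exact ⟨(h0 y (disjoint_left.1 hL hy)).ge, Md.conn_refl _ _⟩
    | @tail u v _ huv ih =>
      rcases huv with k | k
      · exact ⟨(hs _ k).1 ih.1, ih.2.tail (Or.inl (mem_filter.2 ⟨k, by have := ih.1; simp only; omega⟩))⟩
      · have := (hs _ k).2 ih.1
        exact ⟨this, ih.2.tail (Or.inr (mem_filter.2 ⟨k, by simp only at this ⊢; omega⟩))⟩
  exact hg y hy x hx hx' (key x c).2

/-- Edwards–Sokal lower bound for a unit level difference -/
theorem es (hm : m.Fm) (h1 : ∀ x ∈ m.A, ∀ k, m.site x k = 1) {L : Finset V} (hL : Disjoint L m.A)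
    (hW : Wt (m.W 0)) (hW' : Summable (m.W (cst L (-1)))) :
    Zs (m.W 0) * Ex (m.W 0) (ph m (-1) fun ω => ind (Good m L ω)) ≤ Zs (m.W (cst L (-1))) := by
  have s0 : ∀ ω ∈ m.ed.powerset, Summable (jh m 0 ω) := fun ω hω =>
    hW.summ.of_nonneg_of_le (jh_nonneg hm 0 ω) (jh_le hm h1 0 hω)
  have s1 : ∀ ω ∈ m.ed.powerset, Summable (jh m (cst L (-1)) ω) := fun ω hω =>
    hW'.of_nonneg_of_le (jh_nonneg hm _ ω) (jh_le hm h1 _ hω)
  have pt : ∀ s, m.W 0 s * ph m (-1) (fun ω => ind (Good m L ω)) s ≤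
      ∑ ω ∈ m.ed.powerset, ind (Good m L ω) * jh m 0 ω s := fun s => by
    have a := bern_anti m.ed (fun e => -1 < s e.1) (fun e => -1 < s e.1)
      (fun _ he => pH_mem hm s he) (fun _ he => Mdl.pB_mem hm (-1) s he)
      (fun _ he => pH_le_pB hm s he) (good_anti m L)
    refine (mul_le_mul_of_nonneg_left a (hW.nonneg s)).trans ?_
    rw [Sw9.bern, mul_sum]
    refine sum_le_sum fun ω hω => ?_
    have e : m.W 0 s * ∏ e ∈ m.ed, (if e ∈ ω then pH m s e else 1 - pH m s e) = jh m 0 ω s := by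
      rw [jh, prod_congr rfl fun e he => bh_eq hm s he (e ∈ ω), prod_mul_distrib, Mdl.W,
        prod_congr rfl fun x hx => h1 x hx (s x), prod_const_one, mul_one, mul_assoc]
    rw [← mul_assoc, e, mul_comm]
    by_cases z : jh m 0 ω s = 0
    · rw [z, mul_zero, mul_zero]
    · exact mul_le_mul_of_nonneg_right (ind_mono (good_of_plus hm hL (mem_powerset.1 hω) z))
        (jh_nonneg hm 0 ω s)
  rw [← hW.tsum_eq]
  have ig : Ig (m.W 0) (ph m (-1) fun ω => ind (Good m L ω)) := hW.ig_bdd (C := 1) fun s => by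
    rw [abs_of_nonneg (ph_nonneg hm _ (fun _ => ind_nonneg _) s)]
    exact ph_le_one hm _ (fun _ => ind_le_one _) s
  refine (ig.tsum_le_tsum pt (summable_sum fun ω hω => (s0 ω hω).mul_left _)).trans ?_
  rw [Summable.tsum_finsetSum fun ω hω => (s0 ω hω).mul_left _, Zs,
    ← tsum_congr (sum_jh h1 (cst L (-1))), Summable.tsum_finsetSum s1]
  refine sum_le_sum fun ω hω => ?_
  by_cases g : Good m L ω
  · simp only [ind_pos g, one_mul]
    rw [← (Function.Involutive.toPerm _ (rf_rf (cl L ω))).tsum_eq (jh m (cst L (-1)) ω)]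
    exact le_of_eq (tsum_congr fun s => (jh_rf hm hL g s).symm)
  · simp only [ind_neg g, zero_mul, tsum_zero]
    exact tsum_nonneg (jh_nonneg hm _ ω)

/-- the screen lemma -/
theorem screen (hm : m.Fm) (h1 : ∀ x ∈ m.A, ∀ k, m.site x k = 1) {L : Finset V}
    (hL : Disjoint L m.A) (hW : Wt (m.W 0)) (hW' : Summable (m.W (cst L (-1)))) {κ : Type*}
    (T : Finset κ) {Φ : κ → Finset (V × V) → ℝ} (hΦ : ∀ i ∈ T, Antitone (Φ i))
    (h0 : ∀ i ∈ T, ∀ ω, 0 ≤ Φ i ω) (hle : ∀ i ∈ T, ∀ ω, Φ i ω ≤ 1)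
    (hc : ∀ ω, ω ⊆ m.ed → ¬ Good m L ω → ∃ i ∈ T, Φ i ω = 0) :
    Zs (m.W 0) * ∏ i ∈ T, Ex (m.W 0) (ph m (-1) (Φ i)) ≤ Zs (m.W (cst L (-1))) := by
  refine le_trans (mul_le_mul_of_nonneg_left ?_ hW.pos.le) (es hm h1 hL hW hW')
  have n : m.Nn := fun x hx k => by rw [h1 x hx]; exact zero_le_one
  refine (fkg_prod (Mdl.lsm hm.lc n 0) hW T (fun i hi => ph_anti hm _ (hΦ i hi))
    (fun i hi => ph_nonneg hm _ (h0 i hi)) fun i hi => ph_le_one hm _ (hle i hi)).trans ?_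
  refine Ex_mono hW.nonneg (hW.ig_bdd (C := 1) fun s => ?_) (hW.ig_bdd (C := 1) fun s => ?_)
    fun s => ?_
  · rw [abs_of_nonneg (prod_nonneg fun i hi => ph_nonneg hm _ (h0 i hi) s)]
    exact prod_le_one (fun i hi => ph_nonneg hm _ (h0 i hi) s) fun i hi => ph_le_one hm _ (hle i hi) s
  · rw [abs_of_nonneg (ph_nonneg hm _ (fun _ => ind_nonneg _) s)]
    exact ph_le_one hm _ (fun _ => ind_le_one _) s
  · refine (harris_prod (fun _ he => Mdl.pB_mem hm (-1) s he) _ T hΦ h0).trans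
      (bern_le' (fun _ he => Mdl.pB_mem hm (-1) s he) _ fun ω hω => ?_)
    by_cases g : Good m L ω
    · rw [ind_pos g]; exact prod_le_one (fun i hi => h0 i hi ω) fun i hi => hle i hi ω
    · obtain ⟨i, hi, z⟩ := hc ω hω g
      rw [ind_neg g, prod_eq_zero hi z]

end mdl

end Crest.Agent.T145.Es28
end

-- ▼ part T145/EsL_28
section

/-!
# Row 145: the cluster of the pins at level `-1` avoids a small set with positive probability (helper28)
-/

set_option autoImplicit false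

namespace Crest.Agent.T145.Es28

open Finset

variable {V : Type*} [DecidableEq V] {m : Mdl V}

/-- `P` contains every pinned end of an edge -/
def Pins (m : Mdl V) (P : Finset V) : Prop :=
  Disjoint P m.A ∧ ∀ e ∈ m.ed, (e.1 ∉ m.A → e.1 ∈ P) ∧ (e.2 ∉ m.A → e.2 ∈ P)

theorem rest_shift (h1 : ∀ x k, m.site x k = 1) {P C : Finset V} (hP : Pins m P) (hC : P ⊆ C)
    (ζ s : Cfg V) :
    (m.rest (-1) C ζ).W ζ (s + pw (m.A \ C) (cst (m.A \ C) (-1)) ζ) =
      (m.rest 0 C (ζ + cst C 1)).W 0 s := by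
  have hu : ∀ x ∈ m.A \ C, pw (m.A \ C) (cst (m.A \ C) (-1)) ζ x = -1 := fun x hx => by
    rw [pw_of_mem _ _ hx, cst_of_mem _ hx]
  simp only [Mdl.W, Mdl.rest, h1, one_mul]
  congr 1
  · congr 1
    · refine ind_congr (forall_congr' fun x => forall_congr' fun hx => ?_)
      rw [Finsupp.add_apply, pw_of_notMem _ _ hx]
      simp
    · refine prod_congr rfl fun e he => ?_
      obtain ⟨he, a, b⟩ := mem_filter.1 he
      have a' : e.1 ∈ m.A \ C := mem_sdiff.2 ⟨by_contra fun k => a (hC ((hP.2 e he).1 k)), a⟩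
      have b' : e.2 ∈ m.A \ C := mem_sdiff.2 ⟨by_contra fun k => b (hC ((hP.2 e he).2 k)), b⟩
      simp only [dE, Finsupp.add_apply, hu _ a', hu _ b']
      congr 1; ring
  · refine prod_congr rfl fun y hy => ?_
    rw [Finsupp.add_apply, hu y hy]
    congr 1
    · refine prod_congr rfl fun e he => ?_
      rw [Finsupp.add_apply, cst_of_mem _ (mem_filter.1 he).2.1]
      congr 3 <;> ring
    · refine prod_congr rfl fun e he => ?_
      rw [Finsupp.add_apply, cst_of_mem _ (mem_filter.1 he).2.1]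
      congr 3 <;> ring

theorem cl_nonneg (hm : m.Fm) {P : Finset V} (hP : Disjoint P m.A) {p : Cfg V × Finset (V × V)}
    (hp : m.J (-1) 0 p ≠ 0) {x : V} (hx : x ∈ cl P p.2) : 0 ≤ p.1 x := by
  obtain ⟨y, hy, c⟩ := Md.mem_cl.1 hx
  clear hx
  induction c with
  | refl => exact (Md.J_off hp y (disjoint_left.1 hP hy)).ge
  | @tail u v _ huv ih =>
    rcases huv with k | k
    · have := Mdl.J_sign hm (s := p.1) (ω := p.2) hp k
      simp only at this
      by_contra c; nlinarith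
    · have := Mdl.J_sign hm (s := p.1) (ω := p.2) hp k
      simp only at this
      by_contra c; nlinarith

/-- given the cluster of the pins, an average is rarely far below the level -/
theorem rest_tail [Countable V] (hc : m.Ctr) (ha : m.Anch) (h1 : ∀ x k, m.site x k = 1)
    {P C B : Finset V} (hP : Pins m P) (hC : P ⊆ C) {ζ : Cfg V} (hζ : ∀ x ∈ C, 0 ≤ ζ x)
    {φ : V → ℝ} (h0 : ∀ x, 0 ≤ φ x) (hs : ∀ x, x ∉ B → φ x = 0) (hsum : ∑ x ∈ B, φ x = 1)
    (hB : B ⊆ m.A) {t : ℝ} (ht : 0 < t) :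
    Pr ((m.rest (-1) C ζ).W ζ) (fun s => pr φ s < -1 - t) ≤
      Vr ((m.free (m.A \ C)).W 0) (pr φ) (pr φ) / t ^ 2 := by
  have hA : (m.free (m.A \ C)).Anch := Mix53.free_anch ha sdiff_subset
  set u := pw (m.A \ C) (cst (m.A \ C) (-1)) ζ with hu
  have e : Pr ((m.rest (-1) C ζ).W ζ) (fun s => pr φ s < -1 - t) =
      Pr ((m.rest 0 C (ζ + cst C 1)).W 0) fun s => pr φ (s + u) < -1 - t := by
    unfold Pr
    rw [← Ex_equiv (Equiv.addRight u)]
    simp only [Equiv.coe_addRight, hu, rest_shift h1 hP hC]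
  have hW := Mix53.rest_wt0 hc hA (ζ + cst C 1)
  have hS := Mix53.rest_se0 hc hA (ζ + cst C 1)
  have lo : -1 ≤ pr φ u := by
    rw [pr_of_fsupp φ u hs, ← hsum, ← sum_neg_distrib]
    refine sum_le_sum fun x hx => ?_
    have : (-1 : ℝ) ≤ u x := by
      by_cases c : x ∈ m.A \ C
      · rw [hu, pw_of_mem _ _ c, cst_of_mem _ c]; norm_num
      · have c' : x ∈ C := by_contra fun k => c (mem_sdiff.2 ⟨hB hx, k⟩)
        rw [hu, pw_of_notMem _ _ c]
        have : (0 : ℝ) ≤ ζ x := by exact_mod_cast hζ x c'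
        linarith
    nlinarith [h0 x]
  rw [e]
  refine le_trans ?_ (div_le_div_of_nonneg_right (Mix53.rest_vr_le hc hA (ζ + cst C 1) (pr φ))
    (sq_nonneg t))
  rw [Vr_even (Mix53.rest_even hc C _), le_div_iff₀' (pow_pos ht 2)]
  refine hW.markov (hS.ig ((Tame.hom _).mul (Tame.hom _))) (fun s => mul_self_nonneg _)
    fun s k => ?_
  rw [map_add] at k
  nlinarith

/-- the local bound -/
theorem loc_bound [Countable V] (hc : m.Ctr) (ha : m.Anch) (h1 : ∀ x k, m.site x k = 1)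
    {P K B : Finset V} (hP : Pins m P) {φ : V → ℝ} (h0 : ∀ x, 0 ≤ φ x) (hs : ∀ x, x ∉ B → φ x = 0)
    (hsum : ∑ x ∈ B, φ x = 1) (hB : B ⊆ m.A) {t v : ℝ} (ht : 0 < t) (hv : 0 ≤ v)
    (hPV : ∀ ω, ω ⊆ m.ed → Cross P K ω →
      Vr ((m.free (m.A \ cl P ω)).W 0) (pr φ) (pr φ) ≤ v) :
    Pr (m.W 0) (fun s => pr φ s < -1 - t) - v / t ^ 2 ≤
      Ex (m.W 0) (ph m (-1) fun ω => ind (¬ Cross P K ω)) := by
  have hm := hc.1
  have hn := hc.nn
  have hW := Md.ctr_wt hc ha 0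
  have hJ := Mdl.wt_J hm hn (-1) hW
  have a1 : 1 - Pr (m.J (-1) 0) (fun p => Cross P K p.2) ≤
      Ex (m.W 0) (ph m (-1) fun ω => ind (¬ Cross P K ω)) := by
    have k := Mdl.ex_J_cB hm hn hW (h := -1) (F := fun p => ind (Cross P K p.2)) (hJ.ig_ind _)
    have ig : Ig (m.W 0) (ph m (-1) fun ω => ind (¬ Cross P K ω)) := hW.ig_bdd (C := 1) fun s => by
      rw [abs_of_nonneg (ph_nonneg hm _ (fun _ => ind_nonneg _) s)]
      exact ph_le_one hm _ (fun _ => ind_le_one _) s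
    have := Ex_mono hW.nonneg ((hW.ig_const 1).sub ig) k.1 (one_sub_ph_le hm (-1) P K)
    rw [Ex_sub (hW.ig_const 1) ig, hW.ex_const, ← k.2] at this
    unfold Pr; linarith
  have hH : ∀ p q : Cfg V × Finset (V × V), Md.dat P p = Md.dat P q →
      ind (Cross P K p.2) = ind (Cross P K q.2) := fun p q h => by
    have e := (Md.dat_eq_iff.1 h).1
    have : ∀ ω : Finset (V × V), Cross P K ω ↔ ∃ y ∈ K, y ∈ cl P ω := fun ω =>
      ⟨fun ⟨x, hx, y, hy, c⟩ => ⟨y, hy, Md.mem_cl.2 ⟨x, hx, c⟩⟩, fun ⟨y, hy, c⟩ =>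
        let ⟨x, hx, c'⟩ := Md.mem_cl.1 c; ⟨x, hx, y, hy, c'⟩⟩
    exact ind_congr (by rw [this, this, e])
  have i2 : Ig (m.J (-1) 0) fun p => ind (Cross P K p.2) * ind (pr φ p.1 < -1 - t) :=
    (hJ.ig_ind _).mul_ind hJ.nonneg _
  have x := Md.expl_mul m (-1) 0 P (F := fun p => ind (pr φ p.1 < -1 - t)) hJ hH i2
  have a2 : Ex (m.J (-1) 0) (fun p => ind (Cross P K p.2) * ind (pr φ p.1 < -1 - t)) ≤ v / t ^ 2 := by
    rw [x.2]
    refine hJ.ex_le x.1 fun p hp => ?_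
    by_cases c : Cross P K p.2
    · rw [ind_pos c, one_mul]
      have w := Md.wt_rest m (-1) P hJ
        (fun C ζ => Mdl.J_nonneg (Mix53.rest_fm hm _ C ζ) (Mix53.rest_nn hm hn _ C ζ) _ _) hp
      refine (Mdl.pr_J_fst w fun s => pr φ s < -1 - t).le.trans ?_
      exact (rest_tail hc ha h1 hP (Md.subset_cl P p.2) (fun x hx => cl_nonneg hm hP.1 hp hx) h0 hs
        hsum hB ht).trans (div_le_div_of_nonneg_right (hPV _ (Md.J_sub hp) c) (sq_nonneg t))
    · rw [ind_neg c, zero_mul]; positivity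
  have a3 : Pr (m.W 0) (fun s => pr φ s < -1 - t) ≤ 1 - Pr (m.J (-1) 0) (fun p => Cross P K p.2) +
      Ex (m.J (-1) 0) fun p => ind (Cross P K p.2) * ind (pr φ p.1 < -1 - t) := by
    rw [← Mdl.pr_J_fst hJ, ← hJ.pr_not, Pr, Pr, ← Ex_add (hJ.ig_ind _) i2]
    refine Ex_mono hJ.nonneg (hJ.ig_ind _) ((hJ.ig_ind _).add i2) fun p => ?_
    by_cases c : Cross P K p.2
    · rw [ind_pos c, one_mul, ind_neg (not_not.2 c), zero_add]
    · rw [ind_neg c, zero_mul, ind_pos c, add_zero]; exact ind_le_one _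
  linarith

/-- spreading from one value of the characteristic function -/
theorem spread {L : Type*} [AddCommGroup L] {W : L → ℝ} (hW : Wt W) (he : ∀ s, W (-s) = W s)
    (X : L →+ ℝ) {a : ℝ} (ha : 0 < a) (h : Ph W ((1 / (2 * a)) • X) ≤ 1 / 5) :
    1 / 6 ≤ Pr W fun s => X s < -a := by
  have e : Pr W (fun s => a < X s) = Pr W fun s => X s < -a := by
    unfold Pr
    rw [← Ex_equiv (Equiv.neg L)]
    simp only [Equiv.neg_apply, he, map_neg, lt_neg]
  have ic : Ig W fun s => Real.cos (((1 / (2 * a)) • X) s) :=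
    hW.ig_bdd fun s => Real.abs_cos_le_one _
  have i1 := hW.ig_ind fun s => a < X s
  have i2 := hW.ig_ind fun s => X s < -a
  have k : Ex W (fun s => 7 / 8 - (2 * ind (a < X s) + 2 * ind (X s < -a))) ≤
      Ph W ((1 / (2 * a)) • X) := by
    refine Ex_mono hW.nonneg ((hW.ig_const _).sub ((i1.const_mul 2).add (i2.const_mul 2))) ic
      fun s => ?_
    have c := Real.neg_one_le_cos (((1 / (2 * a)) • X) s)
    by_cases c1 : a < X s
    · rw [ind_pos c1]; linarith [ind_nonneg (X s < -a)]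
    by_cases c2 : X s < -a
    · rw [ind_pos c2]; linarith [ind_nonneg (a < X s)]
    rw [ind_neg c1, ind_neg c2]
    have q := Real.one_sub_sq_div_two_le_cos (x := ((1 / (2 * a)) • X) s)
    have r : (((1 / (2 * a)) • X) s) ^ 2 ≤ 1 / 4 := by
      rw [AddMonoidHom.smul_apply, smul_eq_mul, one_div, inv_mul_eq_div, div_pow,
        div_le_iff₀ (by positivity)]
      nlinarith [not_lt.1 c1, not_lt.1 c2]
    linarith
  rw [Ex_sub (hW.ig_const _) ((i1.const_mul 2).add (i2.const_mul 2)), hW.ex_const,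
    Ex_add (i1.const_mul 2) (i2.const_mul 2), Ex_const_mul, Ex_const_mul] at k
  unfold Pr at e ⊢
  linarith

end Crest.Agent.T145.Es28
end

-- ▼ part T145/EsD_28

/-!
# Row 145: in a window the cluster of the pins misses a small ball with probability `≥ 1 / 12` (helper28)
-/

set_option autoImplicit false

namespace Crest.Agent.T145.Es28

open Finset

variable {Λ : Lat} {D : Finset Pt}

/-- the pins of the Dirichlet model -/
noncomputable def pins (Λ : Lat) (D : Finset Pt) : Finset Pt :=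
  ((Λ.edT D).image Prod.fst ∪ (Λ.edT D).image Prod.snd) \ D

theorem pins_D (Λ : Lat) (D : Finset Pt) : Pins (Λ.D D) (pins Λ D) :=
  ⟨sdiff_disjoint, fun _ he =>
    ⟨fun h => mem_sdiff.2 ⟨mem_union_left _ (mem_image_of_mem _ he), h⟩,
      fun h => mem_sdiff.2 ⟨mem_union_right _ (mem_image_of_mem _ he), h⟩⟩⟩

/-- uniform density on a ball -/
noncomputable def un (z : Pt) (r : ℕ) (x : Pt) : ℝ := ind (x ∈ bl z r) / ((2 * r + 1 : ℕ) : ℝ) ^ 2

theorem un_nonneg (z : Pt) (r : ℕ) (x : Pt) : 0 ≤ un z r x :=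
  div_nonneg (ind_nonneg _) (by positivity)

theorem un_off {z x : Pt} {r : ℕ} (h : x ∉ bl z r) : un z r x = 0 := by
  simp only [un, ind_neg h, zero_div]

theorem un_on {z x : Pt} {r : ℕ} (h : x ∈ bl z r) : un z r x = 1 / ((2 * r + 1 : ℕ) : ℝ) ^ 2 := by
  simp only [un, ind_pos h]

theorem sum_un (z : Pt) (r : ℕ) : ∑ x ∈ bl z r, un z r x = 1 := by
  rw [sum_congr rfl fun x hx => un_on hx, sum_const, card_bl, nsmul_eq_mul]
  push_cast
  field_simp

theorem conn_cl {P : Finset Pt} {ω : Finset (Pt × Pt)} (hω : ω ⊆ Λ.edT D) {x y : Pt} (hy : y ∈ P)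
    (h : Conn ω y x) : Conn (Λ.edI (cl P ω)) y x := by
  induction h with
  | refl => exact Conn.refl _ _
  | @tail u v hu huv ih =>
    have a : u ∈ cl P ω := Md.mem_cl.2 ⟨y, hy, hu⟩
    have b : v ∈ cl P ω := Md.mem_cl.2 ⟨y, hy, .tail hu huv⟩
    exact .tail ih (huv.imp (fun k => Lat.mem_edI.2 ⟨(Lat.mem_edT.1 (hω k)).1, a, b⟩)
      fun k => Lat.mem_edI.2 ⟨(Lat.mem_edT.1 (hω k)).1, b, a⟩)

/-- a crossing cluster pins the average -/
theorem pinned_var : ∃ C : ℝ, 0 ≤ C ∧ ∀ (Λ : Lat) (D : Finset Pt) (z : Pt) (ρ : ℕ), Λ.Ok →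
    bl z (2 * ρ) ⊆ D → ∀ ω, ω ⊆ Λ.edT D → Cross (pins Λ D) (bl z ρ) ω →
      Vr (((Λ.D D).free (D \ cl (pins Λ D) ω)).W 0) (pr (un z (2 * ρ))) (pr (un z (2 * ρ))) ≤
        Λ.τ * (C * Λ.rg) := by
  obtain ⟨C, hC⟩ := Pot.poinStmt
  refine ⟨4 * |C|, by positivity, fun Λ D z ρ h hD ω hω ⟨y, hy, x, hx, c⟩ => ?_⟩
  set K := cl (pins Λ D) ω with hK
  have hQ : bl x ρ ⊆ bl z (2 * ρ) := bl_subset_bl hx (by omega)
  have hr := Pot.rowStmt Λ h K x y ρ (Md.mem_cl.2 ⟨y, hy, c⟩)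
    (fun k => (mem_sdiff.1 hy).2 (hD (hQ k))) (conn_cl hω hy c).symm
  have hco : Pot.Co (D \ K) (Pot.edF (Λ.edT D)) := (Pot.co_eD h D).mono sdiff_subset
  refine F2A.vr_le h.pos ((h.ctr_D D).free sdiff_subset) ((h.anch_D D).free sdiff_subset)
    subset_rfl (fun _ _ => rfl) ((hco.f2A_iff _ _).2 (hco.G_le_of (by positivity) fun u hu => ?_))
  set n : ℕ := 2 * (2 * ρ) + 1 with hn
  have n0 : (0 : ℝ) < n := by positivity
  have e1 : Pot.ip (D \ K) (un z (2 * ρ)) u = ∑ x ∈ bl z (2 * ρ), 1 / (n : ℝ) ^ 2 * u x := by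
    rw [← Pot.ip_of_sup sdiff_subset _ hu, Pot.ip, ← sum_subset hD fun x _ k => by
      rw [un_off k, zero_mul]]
    exact sum_congr rfl fun x k => by rw [un_on k]
  have e2 : (∑ x ∈ bl z (2 * ρ), 1 / (n : ℝ) ^ 2 * u x) ^ 2 ≤
      (∑ x ∈ bl z (2 * ρ), u x ^ 2) / (n : ℝ) ^ 2 := by
    refine (sum_mul_sq_le_sq_mul_sq _ _ _).trans_eq ?_
    rw [sum_const, card_bl, nsmul_eq_mul, ← hn]
    push_cast
    field_simp
  have e3 : Pot.eN Pot.nL (bl z (2 * ρ)) u u ≤ Pot.edF (Λ.edT D) u u :=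
    Pot.edF_mono (fun e he => by
      obtain ⟨a, b, -⟩ := Lat.mem_edI.1 he
      rw [Pot.nL_Jp, mem_insert, mem_singleton] at a
      exact Lat.mem_edT.2 ⟨a.elim (fun k => k ▸ h.e1) fun k => k ▸ h.e2, .inl (hD b)⟩) u
  have e4 := (hC (z.1 - (2 * ρ : ℕ), z.2 - (2 * ρ : ℕ)) n u).2.1 (K ∩ bl x ρ)
    (by rw [← bl_eq_sq]; exact inter_subset_right.trans hQ)
    fun w k => hu w fun k' => (mem_sdiff.1 k').2 (mem_inter.1 k).1
  rw [← bl_eq_sq] at e4
  set S := ∑ x ∈ bl z (2 * ρ), u x ^ 2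
  set E := Pot.eN Pot.nL (bl z (2 * ρ)) u u
  have S0 : 0 ≤ S := sum_nonneg fun _ _ => sq_nonneg _
  have E0 : 0 ≤ E := (Pot.sy_edF _).nonneg _
  have g0 : (0 : ℝ) ≤ Λ.rg := by positivity
  have key : ∀ c : ℕ, ρ + 1 ≤ Λ.rg * c → c * S ≤ C * (n : ℝ) ^ 3 * E →
      S / (n : ℝ) ^ 2 ≤ 4 * |C| * Λ.rg * E := fun c h1 h2 => by
    have h3 : (n : ℝ) ≤ 4 * (Λ.rg * c) := by exact_mod_cast (by omega : n ≤ 4 * (Λ.rg * c))
    have h4 : C * (n : ℝ) ^ 3 * E ≤ |C| * (n : ℝ) ^ 3 * E := by gcongr; exact le_abs_self C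
    rw [div_le_iff₀ (by positivity)]
    refine le_of_mul_le_mul_left ?_ n0
    calc (n : ℝ) * S ≤ 4 * (Λ.rg * c) * S := mul_le_mul_of_nonneg_right h3 S0
      _ = 4 * Λ.rg * (c * S) := by ring
      _ ≤ 4 * Λ.rg * (|C| * (n : ℝ) ^ 3 * E) := mul_le_mul_of_nonneg_left (h2.trans h4) (by positivity)
      _ = _ := by ring
  rw [e1]
  exact e2.trans ((hr.elim (fun k => key _ k e4.1) fun k => key _ k e4.2).trans
    (mul_le_mul_of_nonneg_left e3 (by positivity)))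

theorem gr_smul_ge (h : Λ.Ok) (D : Finset Pt) (f : Pt → ℝ) {c : ℝ} (hc : c ≠ 0) :
    c ^ 2 * (Λ.D D).gr Λ.τ f ≤ (Λ.D D).gr Λ.τ (c • f) := by
  obtain ⟨n, hn⟩ := R74.exists_F2A h D (c • f)
  refine (Λ.D D).le_gr h.pos hn fun n' h' => ?_
  have := (Λ.D D).gr_le h.pos.le (h'.smul c⁻¹)
  rw [smul_smul, inv_mul_cancel₀ hc, one_smul] at this
  refine (mul_le_mul_of_nonneg_left this (sq_nonneg c)).trans_eq ?_
  field_simp

/-- the local bound in a window -/
def LocStmt : Prop := ∀ (F : Fa) (θ₀ : ℝ), 0 < θ₀ → ∃ (k : ℕ) (δ : ℝ), 0 < δ ∧ ∀ Λ, F.Mem Λ →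
  ∀ l i : ℕ, Λ.Win θ₀ δ l (2 ^ (k + i)) → ∀ (D : Finset Pt) (z : Pt), bl z (2 ^ (k + i)) ⊆ D →
    1 / 12 ≤ Ex ((Λ.D D).W 0)
      (ph (Λ.D D) (-1) fun ω => ind (¬ Cross (pins Λ D) (bl z (2 ^ i)) ω))

theorem locStmt (hG : GffDStmt) (hm : T1mStmt) : LocStmt := fun F θ₀ h0 => by
  obtain ⟨C, C0, hC⟩ := pinned_var
  obtain ⟨B, B1, hB⟩ := F.exists_bound
  set v : ℝ := B * (C * B) with hv
  have v0 : 0 ≤ v := by positivity
  set t : ℝ := 12 * v + 1 with ht
  have t0 : 0 < t := by positivity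
  set c : ℝ := 1 / (2 * (1 + t)) with hc
  have c0 : 0 < c := by positivity
  have c1 : c ≤ 1 := by rw [hc, div_le_one (by positivity)]; linarith
  obtain ⟨k, hk⟩ := exists_nat_ge (6 * (98 * B ^ 4) / (θ₀ / 2 * c ^ 2))
  obtain ⟨δ₁, p1, H1⟩ := hG F θ₀ (16 ^ (k + 1)) (1 / 10) h0 (one_le_pow₀ (by norm_num)) (by norm_num)
  obtain ⟨δ₂, p2, H2⟩ := hm.2.2 F θ₀ 1 0 h0 one_pos
  have p3 : (0 : ℝ) < 1 / (F.base.rg * 2 ^ (2 * k + 3) + 1) := by positivity
  refine ⟨2 * k + 3, min δ₁ (min δ₂ (1 / (F.base.rg * 2 ^ (2 * k + 3) + 1))), by positivity,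
    fun Λ hΛ l i hw D z hD => ?_⟩
  have h := hΛ.ok
  obtain ⟨b1, b2, -, -, -, b3, -, b4⟩ := hB Λ hΛ
  have τ0 := h.pos
  have hθ := (H2 Λ hΛ l _ (hw.mono le_rfl ((min_le_right _ _).trans (min_le_left _ _)))).2.1
  have hw1 := hw.mono le_rfl (min_le_left _ _)
  have hrg : Λ.rg ≤ 2 * 2 ^ i := by
    have s := hw.sep.mono ((min_le_right _ _).trans (min_le_right _ _))
    have a := (s.large (n := F.base.rg * 2 ^ (2 * k + 3)) (by
      push_cast
      rw [mul_one_div, div_le_one (by positivity)]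
      linarith)).2
    have b := Nat.le_mul_of_pos_right (F.base.rg * 2 ^ (2 * k + 3)) s.one_le_l
    have := b.trans a
    rw [pow_add 2 (2 * k + 3), mul_comm, Nat.mul_le_mul_left_iff (by positivity)] at this
    rw [hΛ.rg_eq]; omega
  set r : ℕ := 2 * 2 ^ i with hr
  have hL : 2 ^ (2 * k + 3 + i) = 4 * (4 ^ k * r) := by
    rw [hr, pow_add, pow_add, pow_mul]; ring
  rw [hL] at hw1 hD
  set o : Pt := ((2 * (4 ^ k * r) : ℕ), (2 * (4 ^ k * r) : ℕ)) with ho
  have hp : r ≤ 4 ^ k * r := Nat.le_mul_of_pos_left _ (by positivity)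
  have r0 : 0 < r := by positivity
  have hD0 : bl o (4 ^ k * r) ⊆ sq 0 (4 * (4 ^ k * r)) := fun x hx => by
    rw [mem_bl] at hx
    rw [mem_sq]
    simp only [ho, Prod.fst_zero, Prod.snd_zero] at hx ⊢
    omega
  have hK : ∀ x, |(c • un o r) x| ≤ 16 ^ (k + 1) / ((4 * (4 ^ k * r) : ℕ) : ℝ) ^ 2 := fun x => by
    have hr0 : (0 : ℝ) < r := by positivity
    have : (16 : ℝ) ^ (k + 1) / ((4 * (4 ^ k * r) : ℕ) : ℝ) ^ 2 = 1 / (r : ℝ) ^ 2 := by
      push_cast
      rw [show (16 : ℝ) = 4 ^ 2 by norm_num, ← pow_mul, mul_comm 2, pow_mul, pow_succ 4 k]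
      field_simp
    rw [this, Pi.smul_apply, smul_eq_mul, abs_of_nonneg (mul_nonneg c0.le (un_nonneg _ _ _))]
    refine (mul_le_of_le_one_left (un_nonneg _ _ _) c1).trans
      (div_le_div₀ zero_le_one (ind_le_one _) (by positivity) ?_)
    push_cast
    nlinarith
  have e1 := (abs_le.1 (H1 Λ hΛ l _ hw1 (c • un o r) (fun x hx => by
    rw [Pi.smul_apply, un_off fun k => hx (hD0 (bl_mono o hp k)), smul_zero]) hK).2.2).2
  have e3 := R74.gr_ge h hrg hD0 (f := un o r) (fun x hx => un_off hx) (sum_un o r)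
  have e4 := gr_smul_ge h (sq 0 (4 * (4 ^ k * r))) (un o r) c0.ne'
  have e5 : 6 ≤ Λ.tN l * (Λ.D (sq 0 (4 * (4 ^ k * r)))).gr Λ.τ (c • un o r) := by
    have g1 : (1 : ℝ) ≤ Λ.rg := by exact_mod_cast h.one_le_rg
    have g2 : (0 : ℝ) < Λ.Jp.card := by exact_mod_cast card_pos.2 ⟨_, h.e1⟩
    have g3 : (k : ℝ) / (98 * B ^ 4) ≤ Λ.τ * (k / (98 * Λ.Jp.card * (Λ.rg : ℝ) ^ 2)) := by
      rw [mul_div_assoc', div_le_div_iff₀ (by positivity) (by positivity)]
      have q1 : 1 ≤ Λ.τ * B := by rwa [div_le_iff₀' τ0] at b2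
      have q2 : (Λ.Jp.card : ℝ) * (Λ.rg : ℝ) ^ 2 ≤ B * B ^ 2 := by gcongr
      have q3 : B * B ^ 2 ≤ Λ.τ * B * (B * B ^ 2) := le_mul_of_one_le_left (by positivity) q1
      nlinarith [mul_le_mul_of_nonneg_left (q2.trans q3) (by positivity : (0 : ℝ) ≤ 98 * k)]
    rw [div_le_iff₀ (by positivity)] at hk
    calc (6 : ℝ) ≤ θ₀ / 2 * (c ^ 2 * (k / (98 * B ^ 4))) := by
          rw [mul_div_assoc', mul_div_assoc', le_div_iff₀ (by positivity)]; linarith
      _ ≤ _ := mul_le_mul hθ ((mul_le_mul_of_nonneg_left (g3.trans e3) (sq_nonneg c)).trans e4)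
          (by positivity) (by linarith)
  have e6 : Real.exp (-(Λ.tN l * (Λ.D (sq 0 (4 * (4 ^ k * r)))).gr Λ.τ (c • un o r)) / 2) ≤
      1 / 10 := by
    refine (Real.exp_le_exp.2 (show _ ≤ -3 by linarith)).trans ?_
    rw [Real.exp_neg, one_div, inv_le_inv₀ (Real.exp_pos _) (by norm_num)]
    have := Real.add_one_le_exp (3 / 2 : ℝ)
    have := Real.add_one_le_exp (1 : ℝ)
    have e : Real.exp 3 = Real.exp 1 * Real.exp 1 * Real.exp 1 := by
      rw [← Real.exp_add, ← Real.exp_add]; norm_num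
    have := Real.exp_one_gt_d9
    rw [e]; nlinarith
  have hb : sq (0 + (z - o)) (4 * (4 ^ k * r)) ⊆ D := fun x hx => hD (by
    rw [mem_sq] at hx
    rw [mem_bl]
    simp only [ho, zero_add, Prod.fst_sub, Prod.snd_sub] at hx ⊢
    omega)
  have e7 : Ph ((Λ.D D).W 0) (c • pr (un z r)) ≤ 1 / 5 := by
    refine ((h.loc_D_D hb).Ph_le _).trans ?_
    rw [← pr_smul, (Λ.sym_add (z - o)).Ph_D h (map_sq_add 0 (z - o) _)]
    have : (fun x => (c • un z r) (Equiv.addRight (z - o) x)) = c • un o r := funext fun x => by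
      simp only [Pi.smul_apply, un, Equiv.coe_addRight]
      congr 2
      refine ind_congr ?_
      simp only [mem_bl, Prod.fst_add, Prod.snd_add, Prod.fst_sub, Prod.snd_sub]
      omega
    rw [this]
    linarith
  have e8 := spread (h.wt_D D 0) (h.cen_D D).even (pr (un z r)) (a := 1 + t) (by positivity) e7
  have hz : bl z r ⊆ D := (bl_mono z (by omega)).trans hD
  have e9 := loc_bound (h.ctr_D D) (h.anch_D D) (fun _ _ => rfl) (K := bl z (2 ^ i)) (pins_D Λ D)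
    (un_nonneg z r) (fun x hx => un_off hx) (sum_un z r) hz t0 v0 fun ω hω x =>
      (hC Λ D z (2 ^ i) h hz ω hω x).trans (by rw [hv]; gcongr)
  have e10 : v / t ^ 2 ≤ 1 / 12 := by
    rw [div_le_div_iff₀ (by positivity) (by norm_num)]; nlinarith
  simp only [neg_add'] at e8
  linarith

end Crest.Agent.T145.Es28
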