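import Crest.Agent.T145.TauB_5
import Crest.Agent.T145.GeoB_51
import Crest.Agent.T145.Brg_14
import Crest.Agent.T145.TopDef_76

/-!
# Row 145: the discrete Gaussian weight is the XY-dual weight times a PD function (helper5)
-/

set_option autoImplicit false

namespace Crest.Agent.T145.Tau5

open Finset Bes66 Filter Topology MeasureTheory Real

theorem integral_cos_int (n : ℤ) :
    ∫ θ in (0 : ℝ)..2 * π, cos (n * θ) = if n = 0 then 2 * π else 0 := by
  split_ifs with h
  · simp [h]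
  · have hn : (n : ℝ) ≠ 0 := by exact_mod_cast h
    rw [intervalIntegral.integral_comp_mul_left (fun x => cos x) hn, integral_cos, mul_zero, sin_zero,
      show (n : ℝ) * (2 * π) = (2 * n : ℤ) * π by push_cast; ring, sin_int_mul_pi]
    simp

/-- an even summable sequence with a nonnegative cosine series is positive definite -/
theorem pd_of_cos_nonneg {F : ℤ → ℝ} (he : ∀ k, F (-k) = F k) (hs : Summable F)
    (h : ∀ θ ∈ Set.Ioc (0 : ℝ) (2 * π), 0 ≤ ∑' j : ℤ, F j * cos (j * θ)) : PD F := by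
  have hp : (0 : ℝ) ≤ 2 * π := by positivity
  have hb : ∀ (j k : ℤ) (θ : ℝ), ‖F j * cos (j * θ) * cos (k * θ)‖ ≤ |F j| := fun j k θ => by
    rw [norm_eq_abs, abs_mul, abs_mul, mul_assoc]
    exact mul_le_of_le_one_right (abs_nonneg _)
      (mul_le_one₀ (abs_cos_le_one _) (abs_nonneg _) (abs_cos_le_one _))
  have hi : ∀ j k : ℤ, Integrable (fun θ : ℝ => F j * cos (j * θ) * cos (k * θ))
      (volume.restrict (Set.Ioc 0 (2 * π))) := fun j k =>
    (Continuous.integrableOn_Icc (by fun_prop)).mono_set Set.Ioc_subset_Icc_self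
  have hc : Continuous fun θ : ℝ => ∑' j : ℤ, F j * cos (j * θ) :=
    continuous_tsum (fun j => by fun_prop) hs.abs fun j θ => by simpa using hb j 0 θ
  have key : ∀ k : ℤ, ∫ θ in Set.Ioc 0 (2 * π), (∑' j : ℤ, F j * cos (j * θ)) * cos (k * θ) =
      2 * π * F k := fun k => by
    have h1 := hasSum_integral_of_summable_integral_norm (hi · k)
      (Summable.of_nonneg_of_le (fun j => integral_nonneg fun θ => norm_nonneg _) (fun j => by
        refine (setIntegral_mono (hi j k).norm (integrableOn_const measure_Ioc_lt_top.ne) (hb j k)).trans_eq ?_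
        rw [setIntegral_const]) (hs.abs.const_smul (volume.real (Set.Ioc 0 (2 * π)))))
    simp only [tsum_mul_right] at h1
    refine h1.unique ?_
    have h2 := ((hasSum_ite_eq k (π * F k)).add (hasSum_ite_eq (-k) (π * F k)))
    refine hs_congr h2 (fun j => ?_) (by ring)
    rw [← intervalIntegral.integral_of_le hp, intervalIntegral.integral_congr
      (g := fun θ => F j / 2 * (cos ((j - k : ℤ) * θ) + cos ((j + k : ℤ) * θ))) fun θ _ => by
        push_cast; rw [sub_mul, add_mul, cos_sub, cos_add]; ring,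
      intervalIntegral.integral_const_mul, intervalIntegral.integral_add
        (Continuous.intervalIntegrable (by fun_prop) _ _)
        (Continuous.intervalIntegrable (by fun_prop) _ _), integral_cos_int, integral_cos_int]
    simp only [sub_eq_zero, add_eq_zero_iff_eq_neg]
    rw [mul_add]
    congr 1 <;> split_ifs with e
    · rw [e]; ring
    · simp
    · rw [e, he]; ring
    · simp
  have h3 : PD fun k : ℤ => ∫ θ in Set.Ioc 0 (2 * π), (∑' j : ℤ, F j * cos (j * θ)) * cos (k * θ) := by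
    refine PD.integral (F := fun θ (k : ℤ) => (∑' j : ℤ, F j * cos (j * θ)) * cos (k * θ))
      ((ae_restrict_iff' measurableSet_Ioc).2 (Eventually.of_forall fun θ hθ => ?_)) fun k =>
      (Continuous.integrableOn_Icc (by fun_prop)).mono_set Set.Ioc_subset_Icc_self
    exact (pd_cos ((AddMonoidHom.mulRight θ).comp (Int.castAddHom ℝ))).const_mul (h θ hθ)
  have h4 := h3.const_mul (show 0 ≤ (2 * π)⁻¹ by positivity)
  simp only [key] at h4
  rwa [show (fun k => (2 * π)⁻¹ * (2 * π * F k)) = F from funext fun k => by field_simp] at h4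

/-- `I_0 ≤ exp (k (k + 1) / b) I_k` -/
theorem bes_zero_le {b : ℝ} (hb : 0 < b) (n : ℕ) :
    bes b 0 ≤ exp (n * (n + 1) / b) * bes b n := by
  induction n with
  | zero => simp
  | succ n ih =>
    refine ih.trans ?_
    have h1 := bes_rec b (n + 1)
    have h2 : bes b (n + 1 + 1) ≤ bes b (n + 1) :=
      lc_succ_le (isKer_bes hb).lc (bes_neg b) (by positivity)
    have h3 := bes_pos hb (n + 1)
    have h4 : bes b n ≤ (2 * (n + 1) / b + 1) * bes b (n + 1) := by
      rw [add_sub_cancel_right] at h1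
      push_cast at h1
      rw [div_add_one hb.ne', div_mul_eq_mul_div, le_div_iff₀ hb]
      nlinarith
    push_cast
    rw [show ((n : ℝ) + 1) * (n + 1 + 1) / b = n * (n + 1) / b + 2 * (n + 1) / b by ring, exp_add,
      mul_assoc]
    exact mul_le_mul_of_nonneg_left
      (h4.trans (mul_le_mul_of_nonneg_right (add_one_le_exp _) h3.le)) (exp_nonneg _)

theorem bes_ratio_le {b : ℝ} (hb : 0 < b) (k : ℤ) : bes b 0 / bes b k ≤ exp (2 * (k : ℝ) ^ 2 / b) := by
  rw [div_le_iff₀ (bes_pos hb k)]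
  have h := bes_zero_le hb k.natAbs
  have e : bes b (k.natAbs : ℤ) = bes b k := by
    rcases Int.natAbs_eq k with h | h
    · rw [← h]
    · rw [← bes_neg, ← h]
  rw [e] at h
  refine h.trans (mul_le_mul_of_nonneg_right (exp_le_exp.2 (div_le_div_of_nonneg_right ?_ hb.le))
    (bes_pos hb k).le)
  have h1 : ((k.natAbs : ℝ)) ^ 2 = (k : ℝ) ^ 2 := by rw [Nat.cast_natAbs, Int.cast_abs, sq_abs]
  have h2 : (k.natAbs : ℝ) ≤ (k.natAbs : ℝ) ^ 2 := by exact_mod_cast Nat.le_self_pow two_ne_zero _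
  nlinarith

theorem one_le_bes_ratio {b : ℝ} (hb : 0 < b) (k : ℤ) : 1 ≤ bes b 0 / bes b k :=
  (one_le_div (bes_pos hb k)).2 ((isKer_bes hb).anti (by simp))

/-- the theta function is bounded below -/
theorem theta_lb {τ : ℝ} (hτ : 0 < τ) :
    ∃ c : ℝ, 0 < c ∧ ∀ θ ∈ Set.Icc (0 : ℝ) (2 * π), c ≤ ∑' j : ℤ, gau τ j * cos (j * θ) := by
  have hs : Summable (gau τ) := (isKer_gau hτ).cen.wt.summ
  have hc : Continuous fun θ : ℝ => ∑' j : ℤ, gau τ j * cos (j * θ) :=
    continuous_tsum (fun j => by fun_prop) hs.abs fun j θ => by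
      rw [norm_eq_abs, abs_mul]
      exact mul_le_of_le_one_right (abs_nonneg _) (abs_cos_le_one _)
  obtain ⟨θ₀, -, h⟩ := isCompact_Icc.exists_isMinOn (s := Set.Icc (0 : ℝ) (2 * π))
    ⟨0, le_rfl, by positivity⟩ hc.continuousOn
  refine ⟨_, ?_, fun θ hθ => h hθ⟩
  exact (div_pos_iff_of_pos_right (isKer_gau hτ).cen.wt.pos).1
    ((isKer_gau hτ).cen.ph_pos ((AddMonoidHom.mulRight θ₀).comp (Int.castAddHom ℝ)))

/-- DG = XY × PD -/
theorem pd_gau_div_bes {τ : ℝ} (hτ : 0 < τ) :
    ∀ᶠ b in atTop, PD fun k : ℤ => gau τ k / bes b k := by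
  obtain ⟨c, hc, h⟩ := theta_lb hτ
  have hs : Summable (gau τ) := (isKer_gau hτ).cen.wt.summ
  have hs2 : Summable (gau (2 * τ)) := (isKer_gau (by positivity)).cen.wt.summ
  have hd : ∀ᶠ b : ℝ in atTop, 0 < b ∧ ∀ k : ℤ,
      gau τ k * exp (2 * (k : ℝ) ^ 2 / b) ≤ gau (2 * τ) k := by
    filter_upwards [eventually_ge_atTop (8 * τ)] with b hb
    refine ⟨by linarith, fun k => ?_⟩
    rw [gau, gau, ← exp_add, exp_le_exp]
    have : 2 * (k : ℝ) ^ 2 / b ≤ 2 * (k : ℝ) ^ 2 / (8 * τ) := by gcongr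
    refine (add_le_add_right this _).trans_eq ?_
    field_simp; ring
  have hl : Tendsto (fun b : ℝ => ∑' k : ℤ, gau τ k * (exp (2 * (k : ℝ) ^ 2 / b) - 1)) atTop
      (𝓝 (∑' _ : ℤ, (0 : ℝ))) := by
    refine tendsto_tsum_of_dominated_convergence hs2 (fun k => ?_) (hd.mono fun b hb k => ?_)
    · have := (((continuous_exp.tendsto 0).comp
        (tendsto_const_nhds (x := 2 * (k : ℝ) ^ 2).div_atTop tendsto_id)).sub_const 1).const_mul
          (gau τ k)
      simpa using this
    · have h1 := one_le_exp (show 0 ≤ 2 * (k : ℝ) ^ 2 / b by have := hb.1; positivity)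
      have h2 := gau_pos τ k
      rw [norm_eq_abs, abs_of_nonneg (mul_nonneg h2.le (by linarith))]
      nlinarith [hb.2 k]
  rw [tsum_zero] at hl
  filter_upwards [hd, hl.eventually (gt_mem_nhds hc)] with b ⟨hb, hb1⟩ hb2
  have e1 : ∀ k : ℤ, gau τ k * (bes b 0 / bes b k) ≤ gau τ k * exp (2 * (k : ℝ) ^ 2 / b) := fun k =>
    mul_le_mul_of_nonneg_left (bes_ratio_le hb k) (gau_pos τ k).le
  have e0 : ∀ k : ℤ, gau τ k ≤ gau τ k * (bes b 0 / bes b k) := fun k =>
    le_mul_of_one_le_right (gau_pos τ k).le (one_le_bes_ratio hb k)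
  have s1 : Summable fun k : ℤ => gau τ k * (bes b 0 / bes b k) :=
    Summable.of_nonneg_of_le (fun k => (gau_pos τ k).le.trans (e0 k))
      (fun k => (e1 k).trans (hb1 k)) hs2
  have s2 : Summable fun k : ℤ => gau τ k * (exp (2 * (k : ℝ) ^ 2 / b) - 1) :=
    ((Summable.of_nonneg_of_le (fun k => mul_nonneg (gau_pos τ k).le (exp_nonneg _)) hb1 hs2).sub
      hs).congr fun k => by ring
  have sc : ∀ {G : ℤ → ℝ}, Summable G → ∀ θ : ℝ, Summable fun k : ℤ => G k * cos (k * θ) :=
    fun hG θ => Summable.of_norm_bounded hG.abs fun k => by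
      rw [norm_eq_abs, abs_mul]
      exact mul_le_of_le_one_right (abs_nonneg _) (abs_cos_le_one _)
  have hP : PD fun k : ℤ => gau τ k * (bes b 0 / bes b k) := by
    refine pd_of_cos_nonneg (fun k => by rw [bes_neg, (isKer_gau hτ).cen.even]) s1 fun θ hθ => ?_
    have h1 := h θ (Set.Ioc_subset_Icc_self hθ)
    have h2 := ((sc hs θ).sub s2).tsum_le_tsum (fun k => ?_) (sc s1 θ)
    · rw [(sc hs θ).tsum_sub s2] at h2
      linarith
    · nlinarith [e0 k, e1 k, neg_one_le_cos (k * θ)]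
  have := hP.const_mul (inv_pos.2 (bes_pos hb 0)).le
  rwa [show (fun k => (bes b 0)⁻¹ * (gau τ k * (bes b 0 / bes b k))) = fun k => gau τ k / bes b k
    from funext fun k => by have := (bes_pos hb 0).ne'; field_simp] at this

section mdl
variable {V : Type} [DecidableEq V] {m : Mdl V} {τ b : ℝ}

/-- the Gaussian model is more localised than the XY-dual model on the same graph -/
theorem loc_len (hc : m.Ctr) (hA : m.Anch) (hb : 0 < b) (hP : PD fun k : ℤ => gau τ k / bes b k) :
    Loc ((m.len false τ).W 0) ((m.len true b).W 0) := by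
  have hG : PD fun s : Cfg V => ∏ e ∈ m.ed, gau τ (dH e s) / bes b (dH e s) :=
    PD.prod (F := fun e s => gau τ (dH e s) / bes b (dH e s)) fun e _ => hP.comp (dH e)
  refine ((Md.ctr_cen (len_ctr hc true hb) hA).loc_mul hG
    (fun s => prod_nonneg fun e _ => (div_pos (gau_pos _ _) (bes_pos hb _)).le)
    (prod_pos fun e _ => div_pos (gau_pos _ _) (bes_pos hb _))).congr (fun s => ?_) fun _ => rfl
  have e : ∏ e ∈ m.ed, gau τ (dE e s) =
      (∏ e ∈ m.ed, bes b (dE e s)) * ∏ e ∈ m.ed, gau τ (dE e s) / bes b (dE e s) := by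
    rw [← prod_mul_distrib]
    exact prod_congr rfl fun e _ => (mul_div_cancel₀ _ (bes_pos hb _).ne').symm
  simp only [Mdl.W, Mdl.len, kern, dH_apply, if_true, Bool.false_eq_true, if_false]
  rw [e]; ring

theorem vr_len_le (hc : m.Ctr) (hA : m.Anch) (hτ : 0 < τ) (hb : 0 < b)
    (hP : PD fun k : ℤ => gau τ k / bes b k) (f : Cfg V →+ ℝ) :
    Vr ((m.len false τ).W 0) f f ≤ Vr ((m.len true b).W 0) f f :=
  (loc_len hc hA hb hP).Vr_le (Md.ctr_cen (len_ctr hc false hτ) hA)
    (Md.ctr_cen (len_ctr hc true hb) hA) f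

end mdl

/-- a rough Gaussian model makes the XY-dual model rough for large `b` -/
theorem rough_xy {J : Finset Pt} {τ : ℝ} (h : (⟨J, false, τ⟩ : Lat).Ok)
    (hr : (⟨J, false, τ⟩ : Lat).Rough) : ∀ᶠ b in atTop, (⟨J, true, b⟩ : Lat).Rough := by
  filter_upwards [pd_gau_div_bes h.2, eventually_gt_atTop 0] with b hP hb
  have h' : (⟨J, true, b⟩ : Lat).Ok := ⟨h.1, hb⟩
  by_contra hn
  obtain ⟨C, hC⟩ := Lat.not_rough_iff.1 hn
  refine Lat.not_rough_iff.2 ⟨C, fun R => le_trans ?_ (hC R)⟩ hr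
  rw [h.vD_eq, h'.vD_eq]
  exact vr_len_le (h.ctr_D _) (h.anch_D _) h.2 hb hP _

/-- the heights dual to the XY model are rough at low temperature -/
theorem xyL_rough (h : FS.E1Stmt) : ∀ᶠ b in atTop, (xyL b).Rough := by
  obtain ⟨β, hβ, hr⟩ := h nn admissible_nn
  have h4 : (0 : ℝ) < nn.card := by simp [nn]
  exact rough_xy (τ := β * nn.card / (4 * π ^ 2)) ⟨admissible_nn, by positivity⟩
    ((boxStmt mdlStmt geoStmt nn β admissible_nn hβ).2.1 hr)

/-- (P6) of the top frame -/
theorem xyRoughStmt (h : FS.E1Stmt) : Top.XyRoughStmt :=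
  ((eventually_gt_atTop 0).and (xyL_rough h)).exists








end Crest.Agent.T145.Tau5
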