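import Crest.Agent.T145.FsDef_70

-- ▼ part T145/FsCmp_77
section

/-!
# Row 145, item (e): CMP, E1, E2 (helper77)

Comparison of the `J` energy with the nearest-neighbour energy, and the two consequences of the
quantitative roughness criterion.
-/

set_option autoImplicit false

namespace Crest.Agent.T145.FS

open MeasureTheory Crest.ProbabilityR.HeightModel Filter Topology

namespace C77

section Grp

variable {G : Type} [AddCommGroup G]

omit [AddCommGroup G] in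
lemma summable_sq {ψ : G → ℝ} (h : (Function.support ψ).Finite) :
    Summable fun x => ψ x ^ 2 := by
  refine summable_of_hasFiniteSupport (h.subset ?_)
  intro x hx
  simp only [Function.mem_support, ne_eq] at hx ⊢
  intro h0
  exact hx (by simp [h0])

lemma fin_shift {σ : G → ℝ} (h : (Function.support σ).Finite) (a : G) :
    (Function.support fun x => σ (x + a)).Finite := by
  have : (Function.support fun x => σ (x + a)) = (fun x => x + a) ⁻¹' Function.support σ := by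
    ext x; simp
  rw [this]
  exact h.preimage (add_left_injective a).injOn

omit [AddCommGroup G] in
lemma fin_sub {σ φ : G → ℝ} (h : (Function.support σ).Finite)
    (h' : (Function.support φ).Finite) : (Function.support fun x => σ x - φ x).Finite := by
  refine (h.union h').subset ?_
  intro x hx
  simp only [Function.mem_support, ne_eq, Set.mem_union] at hx ⊢
  by_contra hc
  push Not at hc
  exact hx (by rw [hc.1, hc.2, sub_zero])

lemma summable_diff {σ : G → ℝ} (h : (Function.support σ).Finite) (a b : G) :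
    Summable fun x => (σ (x + a) - σ (x + b)) ^ 2 :=
  summable_sq (fin_sub (fin_shift h a) (fin_shift h b))

lemma summable_NG {σ : G → ℝ} (h : (Function.support σ).Finite) (a : G) :
    Summable fun x => (σ (x + a) - σ x) ^ 2 :=
  summable_sq (fin_sub (fin_shift h a) h)

lemma tsum_diff (σ : G → ℝ) (a b : G) :
    ∑' x, (σ (x + a) - σ (x + b)) ^ 2 = NG σ (a - b) := by
  unfold NG
  rw [← (Equiv.addRight b).tsum_eq (fun x => (σ (x + (a - b)) - σ x) ^ 2)]
  refine tsum_congr fun x => ?_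
  simp only [Equiv.coe_addRight]
  have : x + b + (a - b) = x + a := by abel
  rw [this]

lemma tsum_shift (ψ : G → ℝ) (a : G) : ∑' x, ψ (x + a) ^ 2 = ∑' x, ψ x ^ 2 :=
  (Equiv.addRight a).tsum_eq (fun x => ψ x ^ 2)

lemma NG_nonneg (σ : G → ℝ) (a : G) : 0 ≤ NG σ a := tsum_nonneg fun _ => sq_nonneg _

lemma NG_zero (σ : G → ℝ) : NG σ 0 = 0 := by simp [NG]

lemma NG_neg (σ : G → ℝ) (a : G) : NG σ (-a) = NG σ a := by
  have h := tsum_diff σ 0 a
  rw [zero_sub] at h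
  rw [← h]
  unfold NG
  refine tsum_congr fun x => ?_
  rw [add_zero]; ring

lemma NG_quad {σ : G → ℝ} (h : (Function.support σ).Finite) (a b : G) :
    NG σ (a + b) + NG σ (a - b) ≤ 2 * NG σ a + 2 * NG σ b := by
  have e1 : NG σ a = ∑' x, (σ (x + (a + b)) - σ (x + b)) ^ 2 := by
    rw [tsum_diff]; congr 1; abel
  have e2 : NG σ b = ∑' x, (σ (x + (a + b)) - σ (x + a)) ^ 2 := by
    rw [tsum_diff]; congr 1; abel
  have s1 := summable_NG h (a + b)
  have s2 := summable_diff h a b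
  have s3 := summable_NG h a
  have s4 := summable_NG h b
  have s5 := summable_diff h (a + b) b
  have s6 := summable_diff h (a + b) a
  have key : ∑' x, ((σ (x + (a + b)) - σ x) ^ 2 + (σ (x + a) - σ (x + b)) ^ 2) ≤
      ∑' x, (((σ (x + a) - σ x) ^ 2 + (σ (x + (a + b)) - σ (x + b)) ^ 2) +
        ((σ (x + b) - σ x) ^ 2 + (σ (x + (a + b)) - σ (x + a)) ^ 2)) := by
    refine Summable.tsum_le_tsum (fun x => ?_) (s1.add s2) ((s3.add s5).add (s4.add s6))
    nlinarith [sq_nonneg (σ (x + (a + b)) + σ x - σ (x + a) - σ (x + b))]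
  rw [s1.tsum_add s2, (s3.add s5).tsum_add (s4.add s6), s3.tsum_add s5, s4.tsum_add s6,
    ← e1, ← e2, tsum_diff] at key
  have e3 : (∑' x, (σ (x + (a + b)) - σ x) ^ 2) = NG σ (a + b) := rfl
  have e4 : (∑' x, (σ (x + a) - σ x) ^ 2) = NG σ a := rfl
  have e5 : (∑' x, (σ (x + b) - σ x) ^ 2) = NG σ b := rfl
  rw [e3, e4, e5] at key
  linarith

lemma NG_step {σ : G → ℝ} (h : (Function.support σ).Finite) (a : G) (n : ℕ) :
    NG σ ((n + 1) • a) ≤ NG σ (n • a) + (2 * n + 1) * NG σ a := by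
  induction n with
  | zero => simp [NG_zero]
  | succ n ih =>
    have := NG_quad h ((n + 1) • a) a
    have e1 : (n + 1) • a + a = (n + 1 + 1) • a := by rw [succ_nsmul a (n + 1)]
    have e2 : (n + 1) • a - a = n • a := by rw [succ_nsmul a n]; abel
    rw [e1, e2] at this
    push_cast
    linarith

lemma NG_nsmul {σ : G → ℝ} (h : (Function.support σ).Finite) (a : G) (n : ℕ) :
    NG σ (n • a) ≤ (n : ℝ) ^ 2 * NG σ a := by
  induction n with
  | zero => simp [NG_zero]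
  | succ n ih =>
    have := NG_step h a n
    push_cast
    nlinarith

lemma NG_zsmul {σ : G → ℝ} (h : (Function.support σ).Finite) (a : G) (n : ℤ) :
    NG σ (n • a) ≤ (n : ℝ) ^ 2 * NG σ a := by
  obtain ⟨m, rfl | rfl⟩ := Int.eq_nat_or_neg n
  · simpa using NG_nsmul h a m
  · rw [neg_smul, NG_neg]
    simpa using NG_nsmul h a m

lemma NG_le_four {ψ : G → ℝ} (h : (Function.support ψ).Finite) (a : G) :
    NG ψ a ≤ 4 * ∑' x, ψ x ^ 2 := by
  have s1 := summable_sq (fin_shift h a)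
  have s2 := summable_sq h
  have key : NG ψ a ≤ ∑' x, (2 * ψ (x + a) ^ 2 + 2 * ψ x ^ 2) := by
    refine Summable.tsum_le_tsum (fun x => ?_) (summable_NG h a)
      ((s1.mul_left 2).add (s2.mul_left 2))
    nlinarith [sq_nonneg (ψ (x + a) + ψ x)]
  rw [(s1.mul_left 2).tsum_add (s2.mul_left 2), tsum_mul_left, tsum_mul_left, tsum_shift] at key
  linarith

lemma NG_split {σ φ : G → ℝ} (h : (Function.support σ).Finite)
    (h' : (Function.support φ).Finite) {θ : ℝ} (hθ : 0 < θ) (a : G) :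
    NG σ a ≤ (1 + 1 / θ) * NG (fun x => σ x - φ x) a + (1 + θ) * NG φ a := by
  have s1 := summable_NG (fin_sub h h') a
  have s2 := summable_NG h' a
  unfold NG
  rw [← tsum_mul_left, ← tsum_mul_left, ← (s1.mul_left _).tsum_add (s2.mul_left _)]
  refine Summable.tsum_le_tsum (fun x => ?_) (summable_NG h a)
    ((s1.mul_left _).add (s2.mul_left _))
  set A := σ (x + a) - φ (x + a) - (σ x - φ x) with hA
  set B := φ (x + a) - φ x with hB
  have e : σ (x + a) - σ x = A + B := by rw [hA, hB]; ring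
  rw [e]
  have : (1 + 1 / θ) * A ^ 2 + (1 + θ) * B ^ 2 - (A + B) ^ 2 = (A - θ * B) ^ 2 / θ := by
    field_simp; ring
  have h2 : 0 ≤ (A - θ * B) ^ 2 / θ := by positivity
  linarith

end Grp

section Adm

variable {J : Finset P}

lemma refl_mem (hJ : IsAdmissible J) {y : P} (hy : y ∈ J) : (y.1, -y.2) ∈ J :=
  hJ.2.2.2 _ (hJ.2.2.1 y hy)

lemma sum_refl (hJ : IsAdmissible J) (F : P → ℝ) : ∑ y ∈ J, F (y.1, -y.2) = ∑ y ∈ J, F y := by
  refine Finset.sum_nbij' (fun y => (y.1, -y.2)) (fun y => (y.1, -y.2)) ?_ ?_ ?_ ?_ ?_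
  · intro y hy; exact refl_mem hJ hy
  · intro y hy; exact refl_mem hJ hy
  · intro y _; simp
  · intro y _; simp
  · intro y _; rfl

lemma sum_swap (hJ : IsAdmissible J) (F : P → ℝ) : ∑ y ∈ J, F (y.2, y.1) = ∑ y ∈ J, F y := by
  refine Finset.sum_nbij' (fun y => (y.2, y.1)) (fun y => (y.2, y.1)) ?_ ?_ ?_ ?_ ?_
  · intro y hy; exact hJ.2.2.2 y hy
  · intro y hy; exact hJ.2.2.2 y hy
  · intro y _; simp
  · intro y _; simp
  · intro y _; rfl

lemma card_pos (hJ : IsAdmissible J) : (0 : ℝ) < J.card := by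
  exact_mod_cast Finset.card_pos.mpr ⟨_, hJ.2.1⟩

lemma sum_fst (hJ : IsAdmissible J) :
    ∑ y ∈ J, ((y.1 : ℝ)) ^ 2 = 2 * J.card * varianceConst J := by
  have := card_pos hJ
  unfold varianceConst
  field_simp

lemma sum_snd (hJ : IsAdmissible J) :
    ∑ y ∈ J, ((y.2 : ℝ)) ^ 2 = 2 * J.card * varianceConst J := by
  rw [← sum_fst hJ, ← sum_swap hJ (fun y => ((y.1 : ℝ)) ^ 2)]

lemma units_subset (hJ : IsAdmissible J) :
    ({((1 : ℤ), (0 : ℤ)), (0, 1), (-1, 0), (0, -1)} : Finset P) ⊆ J := by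
  have h1 := hJ.2.1
  have h2 : ((0 : ℤ), (1 : ℤ)) ∈ J := hJ.2.2.2 _ h1
  have h3 : ((-1 : ℤ), (0 : ℤ)) ∈ J := hJ.2.2.1 _ h2
  have h4 : ((0 : ℤ), (-1 : ℤ)) ∈ J := hJ.2.2.2 _ h3
  intro y hy
  simp only [Finset.mem_insert, Finset.mem_singleton] at hy
  rcases hy with rfl | rfl | rfl | rfl <;> assumption

lemma upper {G : Type} [AddCommGroup G] (π : P →+ G) (hJ : IsAdmissible J) {σ : G → ℝ}
    (h : (Function.support σ).Finite) :
    ∑ y ∈ J, NG σ (π y) ≤
      2 * J.card * varianceConst J * (NG σ (π (1, 0)) + NG σ (π (0, 1))) := by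
  have hy : ∀ y : P, NG σ (π y) + NG σ (π (y.1, -y.2)) ≤
      2 * (((y.1 : ℝ)) ^ 2 * NG σ (π (1, 0))) + 2 * (((y.2 : ℝ)) ^ 2 * NG σ (π (0, 1))) := by
    intro y
    have e1 : π y = y.1 • π (1, 0) + y.2 • π (0, 1) := by
      rw [← map_zsmul, ← map_zsmul, ← map_add]; congr 1; ext <;> simp
    have e2 : π (y.1, -y.2) = y.1 • π (1, 0) - y.2 • π (0, 1) := by
      rw [← map_zsmul, ← map_zsmul, ← map_sub]; congr 1; ext <;> simp
    rw [e1, e2]
    have := NG_quad h (y.1 • π (1, 0)) (y.2 • π (0, 1))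
    have a1 := NG_zsmul h (π (1, 0)) y.1
    have a2 := NG_zsmul h (π (0, 1)) y.2
    linarith
  have hs := Finset.sum_le_sum (s := J) fun y _ => hy y
  rw [Finset.sum_add_distrib, sum_refl hJ (fun y => NG σ (π y)), Finset.sum_add_distrib,
    ← Finset.mul_sum, ← Finset.mul_sum, ← Finset.sum_mul, ← Finset.sum_mul, sum_fst hJ,
    sum_snd hJ] at hs
  linarith

lemma lower {G : Type} [AddCommGroup G] (π : P →+ G) (hJ : IsAdmissible J) (σ : G → ℝ) :
    2 * (NG σ (π (1, 0)) + NG σ (π (0, 1))) ≤ ∑ y ∈ J, NG σ (π y) := by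
  have hs := Finset.sum_le_sum_of_subset_of_nonneg (f := fun y => NG σ (π y)) (units_subset hJ)
    (fun y _ _ => NG_nonneg σ _)
  have e1 : π (-1, 0) = -π (1, 0) := by rw [← map_neg]; congr 1
  have e2 : π (0, -1) = -π (0, 1) := by rw [← map_neg]; congr 1
  rw [Finset.sum_insert (by decide), Finset.sum_insert (by decide),
    Finset.sum_insert (by decide), Finset.sum_singleton, e1, e2, NG_neg, NG_neg] at hs
  linarith

end Adm

/-- The two asymptotic conditions of the roughness criterion. -/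
lemma ev_cond {θ : ℝ} (hθ : 0 < θ) (C γ₀ : ℝ) : ∀ᶠ β : ℝ in atTop,
    γ₀ ≤ β * θ / (2 * (1 + θ)) ∧
      C * Real.exp (-(β * θ / (2 * (1 + θ))) / 2) * (β * β) ≤ 1 / 2 := by
  set c : ℝ := θ / (4 * (1 + θ)) with hc
  have hc0 : 0 < c := by positivity
  have h1 : Tendsto (fun β : ℝ => β * θ / (2 * (1 + θ))) atTop atTop :=
    (tendsto_id.atTop_mul_const hθ).atTop_div_const (by positivity)
  have h2 : Tendsto (fun β : ℝ => C / c ^ 2 * ((c * β) ^ 2 * Real.exp (-(c * β)))) atTop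
      (𝓝 (C / c ^ 2 * 0)) :=
    ((Real.tendsto_pow_mul_exp_neg_atTop_nhds_zero 2).comp
      (tendsto_id.const_mul_atTop hc0)).const_mul _
  rw [mul_zero] at h2
  filter_upwards [h1.eventually_ge_atTop γ₀,
    h2.eventually (ge_mem_nhds (show (0 : ℝ) < 1 / 2 by norm_num))] with β b1 b2
  refine ⟨b1, ?_⟩
  have e1 : -(β * θ / (2 * (1 + θ))) / 2 = -(c * β) := by rw [hc]; field_simp; ring
  have e2 : C * Real.exp (-(c * β)) * (β * β) =
      C / c ^ 2 * ((c * β) ^ 2 * Real.exp (-(c * β))) := by field_simp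
  rw [e1, e2]
  exact b2

lemma sum_Icc_sq (ρ : ℕ) :
    ∑ a ∈ Finset.Icc (-(ρ : ℤ)) ρ, ((a : ℝ)) ^ 2 = (ρ : ℝ) * (ρ + 1) * (2 * ρ + 1) / 3 := by
  induction ρ with
  | zero => simp
  | succ n ih =>
    have e : Finset.Icc (-((n + 1 : ℕ) : ℤ)) ((n + 1 : ℕ) : ℤ) =
        insert (-((n : ℤ) + 1)) (insert ((n : ℤ) + 1) (Finset.Icc (-(n : ℤ)) n)) := by
      ext a
      simp only [Finset.mem_Icc, Finset.mem_insert]
      push_cast
      omega
    rw [e, Finset.sum_insert, Finset.sum_insert, ih]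
    · push_cast; ring
    · simp only [Finset.mem_Icc]; omega
    · simp only [Finset.mem_Icc, Finset.mem_insert]; omega

lemma card_Icc (ρ : ℕ) : ((Finset.Icc (-(ρ : ℤ)) ρ).card : ℝ) = 2 * ρ + 1 := by
  have : (Finset.Icc (-(ρ : ℤ)) ρ).card = 2 * ρ + 1 := by
    rw [Int.card_Icc]; omega
  rw [this]; push_cast; ring

lemma zero_mem_box (ρ : ℕ) : (0 : P) ∈ box ρ := by
  simp [box]

lemma card_boxI (ρ : ℕ) : ((boxInteraction ρ).card : ℝ) = (2 * ρ + 1) ^ 2 - 1 := by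
  have h1 : ((box ρ).card : ℝ) = (2 * ρ + 1) ^ 2 := by
    unfold box
    rw [Finset.card_product]
    push_cast
    rw [card_Icc]; ring
  have h2 := Finset.card_erase_add_one (zero_mem_box ρ)
  have h3 : (((box ρ).erase 0).card : ℝ) + 1 = (box ρ).card := by exact_mod_cast h2
  unfold boxInteraction
  linarith

lemma var_boxI {ρ : ℕ} (hρ : 1 ≤ ρ) :
    varianceConst (boxInteraction ρ) = (2 * ρ + 1) ^ 2 / 24 := by
  have h1 : ∑ y ∈ boxInteraction ρ, ((y.1 : ℝ)) ^ 2 =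
      (ρ : ℝ) * (ρ + 1) * (2 * ρ + 1) / 3 * (2 * ρ + 1) := by
    unfold boxInteraction
    rw [Finset.sum_erase _ (by simp)]
    unfold box
    rw [Finset.sum_product]
    simp only [Finset.sum_const, nsmul_eq_mul]
    rw [← Finset.mul_sum, sum_Icc_sq, card_Icc]; ring
  have hρ' : (1 : ℝ) ≤ ρ := by exact_mod_cast hρ
  unfold varianceConst
  rw [h1, card_boxI]
  have e : (2 * (ρ : ℝ) + 1) ^ 2 - 1 = 4 * (ρ * (ρ + 1)) := by ring
  rw [e]
  field_simp
  ring

lemma adm_boxI {ρ : ℕ} (hρ : 1 ≤ ρ) : IsAdmissible (boxInteraction ρ) := by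
  have hm : ∀ y : P, y ∈ boxInteraction ρ ↔
      y ≠ 0 ∧ (-(ρ : ℤ) ≤ y.1 ∧ y.1 ≤ ρ) ∧ (-(ρ : ℤ) ≤ y.2 ∧ y.2 ≤ ρ) := by
    intro y
    simp [boxInteraction, box]
  refine ⟨by simp [hm], ?_, ?_, ?_⟩
  · rw [hm]
    refine ⟨by decide, ?_⟩
    simp only
    omega
  · rintro ⟨a, b⟩ hy
    rw [hm] at hy ⊢
    simp only [ne_eq, Prod.mk_eq_zero] at hy ⊢
    omega
  · rintro ⟨a, b⟩ hy
    rw [hm] at hy ⊢
    simp only [ne_eq, Prod.mk_eq_zero] at hy ⊢
    omega

end C77

open C77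

theorem cmpStmt : CmpStmt := by
  intro G _ π J hJ σ hσ
  refine ⟨lower π hJ σ, upper π hJ hσ, ?_⟩
  intro φ hφ θ hθ
  have h1 : ∀ y ∈ J, NG σ (π y) ≤
      (1 + 1 / θ) * (4 * ∑' x : G, (σ x - φ x) ^ 2) + (1 + θ) * NG φ (π y) := by
    intro y _
    have a1 := NG_split hσ hφ hθ (π y)
    have a2 := NG_le_four (fin_sub hσ hφ) (π y)
    have a3 : (0 : ℝ) ≤ 1 + 1 / θ := by positivity
    have := mul_le_mul_of_nonneg_left a2 a3
    linarith
  have h2 := Finset.sum_le_sum h1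
  rw [Finset.sum_add_distrib, Finset.sum_const, nsmul_eq_mul, ← Finset.mul_sum] at h2
  have h3 := mul_le_mul_of_nonneg_left (upper π hJ hφ) (show (0 : ℝ) ≤ 1 + θ by positivity)
  linarith

theorem e1Stmt (h : RoughStmt) : E1Stmt := by
  intro J hJ
  obtain ⟨C, γ₀, hC, -, H⟩ := h (9 * Real.pi) (by linarith [Real.pi_pos])
  have ev := (ev_cond (θ := 1) one_pos C γ₀).and
    ((eventually_ge_atTop (9 * Real.pi * (1 + 1) * varianceConst J)).and
      ((eventually_ge_atTop (J.card : ℝ)).and (eventually_gt_atTop (0 : ℝ))))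
  obtain ⟨β, ⟨b1, b2⟩, b3, b4, b5⟩ := ev.exists
  refine ⟨β, b5, H J hJ β 1 b5 one_pos b3 b1 (le_trans ?_ b2)⟩
  gcongr

theorem e2Stmt (h : RoughStmt) : E2Stmt := by
  intro ε hε
  set θ : ℝ := Real.sqrt (1 + ε) - 1 with hθd
  have hsq : (1 + θ) ^ 2 = 1 + ε := by
    rw [hθd, add_sub_cancel, Real.sq_sqrt (by linarith)]
  have hθ : 0 < θ := by
    have : 1 < Real.sqrt (1 + ε) := by
      rw [Real.lt_sqrt (by norm_num)]; linarith
    linarith
  have hpi := Real.pi_pos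
  obtain ⟨C, γ₀, hC, -, H⟩ := h (8 * Real.pi * (1 + θ)) (by nlinarith)
  have ht : Tendsto (fun ρ : ℕ => (1 + ε) * (8 * Real.pi * ((2 * (ρ : ℝ) + 1) ^ 2 / 24)))
      atTop atTop := by
    refine Tendsto.const_mul_atTop (by linarith) (Tendsto.const_mul_atTop (by positivity)
      (Tendsto.atTop_div_const (by norm_num) ?_))
    refine (tendsto_pow_atTop (by norm_num)).comp ?_
    exact tendsto_atTop_add_const_right _ _
      (Tendsto.const_mul_atTop (by norm_num) tendsto_natCast_atTop_atTop)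
  filter_upwards [ht.eventually (ev_cond hθ C γ₀), eventually_ge_atTop 1] with ρ hρ hρ1
  rw [← var_boxI hρ1] at hρ
  set β := (1 + ε) * (8 * Real.pi * varianceConst (boxInteraction ρ)) with hβ
  have hv := var_boxI hρ1
  have hβ' : β = (1 + ε) * (8 * Real.pi * ((2 * (ρ : ℝ) + 1) ^ 2 / 24)) := by rw [hβ, hv]
  have hpos : (0 : ℝ) < (2 * (ρ : ℝ) + 1) ^ 2 := by positivity
  have hβ0 : 0 < β := by rw [hβ']; positivity
  have hcard : ((boxInteraction ρ).card : ℝ) ≤ β := by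
    rw [card_boxI, hβ']
    have h3 : 3 ≤ (1 + ε) * Real.pi := by nlinarith [Real.pi_gt_three]
    nlinarith
  refine H _ (adm_boxI hρ1) β θ hβ0 hθ (le_of_eq ?_) hρ.1 (le_trans ?_ hρ.2)
  · rw [hβ, ← hsq]; ring
  · gcongr

end Crest.Agent.T145.FS
end

-- ▼ part T145/FsE0_80
section

/-!
# Row 145, item (e), leaf E0 (helper80): `FS.e0Stmt`
-/

set_option autoImplicit false

namespace Crest.Agent.T145.FS

open MeasureTheory

namespace E80

theorem prod_tsum_fin {A : Type} (n : ℕ) (f : Fin n → A → ℝ)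
    (hf : ∀ j, Summable fun x => ‖f j x‖) :
    (Summable fun X : Fin n → A => ‖∏ j, f j (X j)‖) ∧
      ∑' X : Fin n → A, ∏ j, f j (X j) = ∏ j, ∑' x, f j x := by
  induction n with
  | zero => exact ⟨Summable.of_finite, by simp⟩
  | succ n ih =>
    obtain ⟨h1, h2⟩ := ih (fun j => f j.succ) (fun j => hf _)
    have h0 := hf 0
    set e := (Fin.consEquiv fun _ : Fin (n + 1) => A) with he
    have key : ∀ p : A × (Fin n → A), ∏ j, f j ((e p) j) =
        f 0 p.1 * ∏ j : Fin n, f j.succ (p.2 j) := by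
      intro p
      rw [Fin.prod_univ_succ]
      simp [he]
    have hs : Summable fun p : A × (Fin n → A) => ‖f 0 p.1 * ∏ j : Fin n, f j.succ (p.2 j)‖ :=
      Summable.mul_norm (f := f 0) (g := fun Y : Fin n → A => ∏ j : Fin n, f j.succ (Y j)) h0 h1
    constructor
    · refine (e.summable_iff (f := fun X : Fin (n + 1) → A => ‖∏ j, f j (X j)‖)).1 ?_
      refine hs.congr fun p => ?_
      simp only [Function.comp_apply]
      rw [key]
    · rw [← e.tsum_eq (fun X : Fin (n + 1) → A => ∏ j, f j (X j))]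
      simp only [key]
      rw [Fin.prod_univ_succ, ← h2]
      exact (tsum_mul_tsum_of_summable_norm (f := f 0)
        (g := fun Y : Fin n → A => ∏ j : Fin n, f j.succ (Y j)) h0 h1).symm

theorem prod_tsum {κ A : Type} [Fintype κ] (f : κ → A → ℝ)
    (hf : ∀ j, Summable fun x => ‖f j x‖) :
    ∏ j, ∑' x, f j x = ∑' X : κ → A, ∏ j, f j (X j) := by
  set e := Fintype.equivFin κ
  obtain ⟨-, h2⟩ := prod_tsum_fin (Fintype.card κ) (fun j => f (e.symm j)) (fun j => hf _)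
  set g : (κ → A) ≃ (Fin (Fintype.card κ) → A) := Equiv.piCongrLeft' (fun _ => A) e with hg
  have key : ∀ X : κ → A, ∏ j, f (e.symm j) ((g X) j) = ∏ j, f j (X j) := by
    intro X
    rw [← e.symm.prod_comp]
    rfl
  have h3 := g.tsum_eq (fun Y => ∏ j, f (e.symm j) (Y j))
  simp only [key] at h3
  rw [h3, h2]
  exact (e.symm.prod_comp (fun j => ∑' x, f j x)).symm

theorem summable_th {γ : ℝ} (hγ : 0 < γ) (ψ : ℝ) :
    Summable fun k : ℤ => ‖Real.exp (-(ψ - 2 * Real.pi * k) ^ 2 / (2 * γ))‖ := by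
  have h1 : Summable fun k : ℤ => Real.exp (-|(k : ℝ)|) :=
    Summable.of_nat_of_neg (by simpa using Real.summable_exp_neg_nat)
      (by simpa using Real.summable_exp_neg_nat)
  refine Summable.of_nonneg_of_le (fun _ => norm_nonneg _) (fun k => ?_)
    (h1.mul_left (Real.exp (|ψ| + γ / 2)))
  rw [Real.norm_eq_abs, Real.abs_exp, ← Real.exp_add, Real.exp_le_exp,
    div_le_iff₀ (by positivity), ← sq_abs]
  have h2 : |(k : ℝ)| - |ψ| ≤ |ψ - 2 * Real.pi * k| := by
    have h3 := abs_sub_abs_le_abs_sub (2 * Real.pi * k) ψ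
    rw [abs_mul, abs_of_pos (by positivity : 0 < 2 * Real.pi), abs_sub_comm] at h3
    nlinarith [Real.pi_gt_three, abs_nonneg (k : ℝ)]
  nlinarith [sq_nonneg (|ψ - 2 * Real.pi * k| - γ)]

/-- extension by zero as a linear map -/
def extL (Λ : Finset P) : (Λ → ℝ) →ₗ[ℝ] (P → ℝ) where
  toFun := ext Λ
  map_add' φ ψ := by
    funext x
    by_cases h : x ∈ Λ <;> simp [ext, h]
  map_smul' c φ := by
    funext x
    by_cases h : x ∈ Λ <;> simp [ext, h]

/-- the value of the extension at a point -/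
def evL (Λ : Finset P) (x : P) : (Λ → ℝ) →ₗ[ℝ] ℝ :=
  (LinearMap.proj x : (P → ℝ) →ₗ[ℝ] ℝ) ∘ₗ extL Λ

/-- the Dirichlet form -/
noncomputable def Dq (Λ : Finset P) : QuadraticForm ℝ (Λ → ℝ) :=
  ∑ x ∈ halo Λ, (QuadraticMap.sq.comp (evL Λ (x + (1, 0)) - evL Λ x) +
    QuadraticMap.sq.comp (evL Λ (x + (0, 1)) - evL Λ x))

theorem Dq_apply (Λ : Finset P) (φ : Λ → ℝ) : Dq Λ φ = D Λ (ext Λ φ) := by
  simp [Dq, D, En, w, evL, extL, sq]

theorem w_nonneg (g : P → ℝ) (x : P) : 0 ≤ w g x := add_nonneg (sq_nonneg _) (sq_nonneg _)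

theorem D_nonneg (Λ : Finset P) (g : P → ℝ) : 0 ≤ D Λ g :=
  Finset.sum_nonneg fun x _ => w_nonneg g x

theorem D_pos (Λ : Finset P) {φ : Λ → ℝ} (h : φ ≠ 0) : 0 < D Λ (ext Λ φ) := by
  classical
  obtain ⟨i0, hi0⟩ := Function.ne_iff.1 h
  obtain ⟨i, hi, hm⟩ := Finset.exists_max_image (Finset.univ.filter fun i : Λ => φ i ≠ 0)
    (fun i => i.1.1) ⟨i0, by simpa using hi0⟩
  have h1 : φ i ≠ 0 := by simpa using hi
  have h2 : ext Λ φ (i.1 + (1, 0)) = 0 := by
    unfold ext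
    split_ifs with h3
    · by_contra h4
      have := hm ⟨_, h3⟩ (by simpa using h4)
      simp at this
    · rfl
  have h3 : ext Λ φ i.1 = φ i := by simp [ext]
  have h4 : 0 < w (ext Λ φ) i.1 := by
    rw [w, h2, h3]
    have := sq_pos_of_ne_zero (sub_ne_zero.2 h1.symm)
    positivity
  exact h4.trans_le (Finset.single_le_sum (f := w (ext Λ φ)) (fun x _ => w_nonneg _ x)
    (Finset.mem_union_left _ (Finset.mem_union_left _ i.2)))

theorem cont_D (Λ : Finset P) : Continuous fun φ : Λ → ℝ => D Λ (ext Λ φ) := by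
  have h : ∀ x, Continuous fun φ : Λ → ℝ => ext Λ φ x := fun x =>
    (continuous_apply x).comp (extL Λ).continuous_of_finiteDimensional
  unfold D En w
  fun_prop

/-- the squared norm -/
noncomputable def Nq (ι : Type) [Fintype ι] : QuadraticForm ℝ (ι → ℝ) :=
  ∑ i, QuadraticMap.sq.comp (LinearMap.proj i : (ι → ℝ) →ₗ[ℝ] ℝ)

theorem Nq_apply {ι : Type} [Fintype ι] (φ : ι → ℝ) : Nq ι φ = ∑ i, φ i ^ 2 := by
  simp [Nq, sq]

theorem thA_neg {ι : Type} [Fintype ι] (A : QuadraticForm ℝ (ι → ℝ)) (u : ι → ℝ) :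
    thA A (-u) = thA A u := by
  unfold thA
  rw [← (Equiv.neg (ι → ℤ)).tsum_eq]
  refine tsum_congr fun h => ?_
  have : lat (Equiv.neg (ι → ℤ) h) - -u = -(lat h - u) := by
    funext i
    simp [lat]
    ring
  rw [this, QuadraticMap.map_neg]

/-- elimination of the continuous field -/
theorem elim (hS : SumStmt) (Λ : Finset P) {b γ : ℝ} (hb : 0 < b) (hγ : 0 < γ) :
    ∃ (Pq : QuadraticForm ℝ (Λ → ℝ)) (c : ℝ), 0 < c ∧
      (∀ ψ, ∃ φ, Pq ψ = (∑ i, (ψ i - φ i) ^ 2) / γ + D Λ (ext Λ φ) / b) ∧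
      (Pq.PosDef → ∀ u, Zf Λ b γ (ext Λ u) = c * thA Pq u) := by
  classical
  obtain ⟨Q0, hQ0⟩ : ∃ Q0 : QuadraticForm ℝ (Λ → ℝ),
      ∀ φ, Q0 φ = (∑ i, φ i ^ 2) / γ + D Λ (ext Λ φ) / b :=
    ⟨γ⁻¹ • Nq Λ + b⁻¹ • Dq Λ, fun φ => by
      simp [Nq_apply, Dq_apply, div_eq_inv_mul]⟩
  have hpd : Q0.PosDef := fun φ hφ => by
    rw [hQ0]
    have := D_pos Λ hφ
    positivity
  choose v hv using fun i : Λ => (hS Λ Q0 hpd).2.2.2.1 (Pi.single i γ⁻¹)
  obtain ⟨M, hM⟩ : ∃ M : (Λ → ℝ) →ₗ[ℝ] (Λ → ℝ), ∀ ψ φ,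
      QuadraticMap.polar Q0 (M ψ) φ = 2 * (∑ i, ψ i * φ i) / γ := by
    refine ⟨Fintype.linearCombination ℝ v, fun ψ φ => ?_⟩
    have h1 : ∀ i, QuadraticMap.polar Q0 (v i) φ = 2 * (φ i / γ) := fun i => by
      have := hv i φ
      simp only [Pi.single_apply, ite_mul, zero_mul, Finset.sum_ite_eq', Finset.mem_univ,
        if_true] at this
      rw [div_eq_inv_mul]
      linarith
    rw [Fintype.linearCombination_apply, ← QuadraticMap.polarBilin_apply_apply, map_sum,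
      LinearMap.sum_apply, Finset.mul_sum, Finset.sum_div]
    refine Finset.sum_congr rfl fun i _ => ?_
    rw [map_smul, LinearMap.smul_apply, QuadraticMap.polarBilin_apply_apply, h1, smul_eq_mul]
    ring
  obtain ⟨Pq, hPq⟩ : ∃ Pq : QuadraticForm ℝ (Λ → ℝ), ∀ ψ φ,
      (∑ i, (ψ i - φ i) ^ 2) / γ + D Λ (ext Λ φ) / b = Pq ψ + Q0 (φ - M ψ) := by
    refine ⟨γ⁻¹ • Nq Λ - Q0.comp M, fun ψ φ => ?_⟩
    have h1 : Q0 (φ - M ψ) = Q0 φ + Q0 (M ψ) - QuadraticMap.polar Q0 (M ψ) φ := by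
      rw [sub_eq_add_neg, add_comm φ, QuadraticMap.map_add Q0, QuadraticMap.map_neg,
        QuadraticMap.polar_neg_left]
      ring
    have h2 : ∑ i, (ψ i - φ i) ^ 2 = ∑ i, ψ i ^ 2 + ∑ i, φ i ^ 2 - 2 * ∑ i, ψ i * φ i := by
      rw [Finset.mul_sum, ← Finset.sum_add_distrib, ← Finset.sum_sub_distrib]
      exact Finset.sum_congr rfl fun i _ => by ring
    rw [h1, h2, hM, hQ0 φ]
    simp only [sub_apply, smul_apply, Nq_apply, QuadraticMap.comp_apply,
      smul_eq_mul]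
    ring
  have hcont : Continuous fun φ : Λ → ℝ => Real.exp (-(Q0 φ) / 2) := by
    simp only [hQ0]
    have := cont_D Λ
    fun_prop
  have hint : Integrable fun φ : Λ → ℝ => Real.exp (-(Q0 φ) / 2) := by
    have h1 : Integrable fun φ : Λ → ℝ => ∏ i, Real.exp (-(2 * γ)⁻¹ * φ i ^ 2) :=
      Integrable.fintype_prod (f := fun _ (x : ℝ) => Real.exp (-(2 * γ)⁻¹ * x ^ 2))
        fun _ => integrable_exp_neg_mul_sq (by positivity)
    refine h1.mono' hcont.aestronglyMeasurable (Filter.Eventually.of_forall fun φ => ?_)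
    rw [Real.norm_eq_abs, Real.abs_exp, ← Real.exp_sum, Real.exp_le_exp, ← Finset.mul_sum, hQ0]
    have h2 := div_nonneg (D_nonneg Λ (ext Λ φ)) hb.le
    have h3 : -(2 * γ)⁻¹ * ∑ i, φ i ^ 2 = -((∑ i, φ i ^ 2) / γ) / 2 := by
      field_simp
    rw [h3]
    linarith
  refine ⟨Pq, ∫ φ : Λ → ℝ, Real.exp (-(Q0 φ) / 2), integral_exp_pos hint,
    fun ψ => ⟨M ψ, by rw [hPq, sub_self, QuadraticMap.map_zero, add_zero]⟩, fun hP u => ?_⟩
  have h1 : ∀ φ : Λ → ℝ, (∏ x ∈ Λ, th γ (ext Λ φ x + ext Λ u x)) * gw Λ b φ =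
      ∑' h : Λ → ℤ, Real.exp (-(Pq (lat h - u)) / 2) *
        Real.exp (-(Q0 (φ - M (lat h - u))) / 2) := by
    intro φ
    rw [← Finset.prod_coe_sort Λ]
    simp only [th]
    rw [prod_tsum (fun (i : Λ) (k : ℤ) => Real.exp
      (-(ext Λ φ i + ext Λ u i - 2 * Real.pi * k) ^ 2 / (2 * γ))) fun i => summable_th hγ _,
      ← tsum_mul_right]
    refine tsum_congr fun h => ?_
    rw [← Real.exp_sum, gw, ← Real.exp_add, ← Real.exp_add]
    congr 1
    have h2 := hPq (lat h - u) φ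
    have h3 : ∑ i : Λ, -(ext Λ φ i + ext Λ u i - 2 * Real.pi * h i) ^ 2 / (2 * γ) =
        -((∑ i, ((lat h - u) i - φ i) ^ 2) / γ) / 2 := by
      rw [Finset.sum_div, ← Finset.sum_neg_distrib, Finset.sum_div]
      refine Finset.sum_congr rfl fun i _ => ?_
      simp only [ext, i.2, dif_pos, lat, Pi.sub_apply]
      field_simp
      ring
    have h4 : -D Λ (ext Λ φ) / (2 * b) = -(D Λ (ext Λ φ) / b) / 2 := by
      field_simp
    rw [h3, h4]
    linarith
  have h2 : ∀ y : Λ → ℝ, ∫ φ : Λ → ℝ, Real.exp (-(Q0 (φ - y)) / 2) =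
      ∫ φ : Λ → ℝ, Real.exp (-(Q0 φ) / 2) := fun y =>
    integral_sub_right_eq_self (fun φ : Λ → ℝ => Real.exp (-(Q0 φ) / 2)) y
  rw [Zf, thA]
  simp only [h1]
  rw [← integral_tsum_of_summable_integral_norm
    (fun h => (hint.comp_sub_right _).const_mul _), ← tsum_mul_left]
  · refine tsum_congr fun h => ?_
    rw [integral_const_mul, h2, mul_comm]
  · refine (((hS Λ Pq hP).1 u).mul_right (∫ φ : Λ → ℝ, Real.exp (-(Q0 φ) / 2))).congr fun h => ?_
    simp only [norm_mul, Real.norm_eq_abs, Real.abs_exp]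
    rw [integral_const_mul, h2]

end E80

open E80 in
theorem e0Stmt (hF : FSStmt) (hS : SumStmt) (hR : RsdStmt) : E0Stmt := by
  intro b hb
  have hb0 : 0 < b := lt_trans (by positivity) hb
  obtain ⟨C, γ₀, hC, hγ₀, hF⟩ := hF b hb
  refine ⟨2 * C, γ₀, by positivity, hγ₀, fun γ hγ Λ A κ hκ h1 h2 h3 F g => ?_⟩
  obtain ⟨t₀, ht₀, hF⟩ := hF γ hγ Λ
  obtain ⟨Pq, c, hc, hP1, hP2⟩ := elim hS Λ hb0 (hγ₀.trans_le hγ)
  have hA : A.PosDef := fun σ hσ =>
    (mul_pos_iff_of_pos_left hκ).1 ((D_pos Λ hσ).trans_le (h2 σ))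
  have hAP : ∀ σ, A σ ≤ Pq σ := fun σ => by
    obtain ⟨φ, hφ⟩ := hP1 σ
    rw [hφ]
    exact h1 σ φ
  have hP : Pq.PosDef := fun σ hσ => (hA σ hσ).trans_le (hAP σ)
  obtain ⟨-, ⟨_, hA0⟩, -, hv, hm⟩ := hS Λ A hA
  obtain ⟨-, ⟨_, hP0⟩, -⟩ := hS Λ Pq hP
  have key : ∀ u, thA Pq u * thA A 0 ≤ thA A u * thA Pq 0 := by
    intro u
    have h4 := hR Λ A (Pq - A) hA (fun x => by simpa using hAP x) u u
    rw [add_sub_cancel] at h4
    refine le_trans (le_of_eq ?_) h4
    congr 1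
    refine tsum_congr fun h => ?_
    rw [← Real.exp_add, sub_apply]
    congr 1
    ring
  obtain ⟨v, hv⟩ := hv F
  have hD := D_nonneg Λ (ext Λ v)
  refine ⟨min 1 (t₀ / (D Λ (ext Λ v) + 1)), by positivity, fun t ht => ?_⟩
  have hDt : D Λ (ext Λ (t • v)) = t ^ 2 * D Λ (ext Λ v) := by
    rw [← Dq_apply, ← Dq_apply, QuadraticMap.map_smul, smul_eq_mul, sq]
  have h4 := hF (ext Λ (t • v)) (fun x hx => by simp [ext, hx]) (by
    have h5 := ht.trans (min_le_left _ _)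
    have h6 := ht.trans (min_le_right _ _)
    rw [le_div_iff₀ (by positivity)] at h6
    have h7 := mul_le_mul_of_nonneg_right h5 (mul_nonneg (abs_nonneg t) hD)
    rw [hDt, ← sq_abs]
    nlinarith [abs_nonneg t])
  have h5 : -ext Λ (t • v) = ext Λ (-(t • v)) := (map_neg (extL Λ) _).symm
  have h6 : (0 : P → ℝ) = ext Λ 0 := (map_zero (extL Λ)).symm
  rw [h5, h6, hP2 hP, hP2 hP, hP2 hP, thA_neg, hDt] at h4
  have h7 : Real.exp (-(C * Real.exp (-γ / 2) * (t ^ 2 * D Λ (ext Λ v)))) * thA A 0 ≤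
      thA A (t • v) := by
    have h8 : Real.exp (-(C * Real.exp (-γ / 2) * (t ^ 2 * D Λ (ext Λ v)))) * thA Pq 0 ≤
        thA Pq (t • v) := le_of_mul_le_mul_left (by linarith) hc
    have h9 := mul_le_mul_of_nonneg_right h8 (hA0 0).1.le
    exact le_of_mul_le_mul_right (by linarith [key (t • v)]) (hP0 0).1
  rw [hm (t • F) (t • v) (fun x => by
    rw [QuadraticMap.polar_smul_left, smul_eq_mul, mul_div_assoc, ← hv, Finset.mul_sum]
    exact Finset.sum_congr rfl fun i _ => by simp [mul_assoc]), le_div_iff₀ (hA0 0).1]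
  refine le_trans ?_ (mul_le_mul_of_nonneg_left h7 (Real.exp_pos _).le)
  rw [← mul_assoc, ← Real.exp_add]
  refine mul_le_mul_of_nonneg_right (Real.exp_le_exp.2 ?_) (hA0 0).1.le
  have h8 : 2 * ∑ i, F i * g i - A g ≤ A v := by
    have h9 := hA.nonneg (v - g)
    rw [sub_eq_add_neg, QuadraticMap.map_add A, QuadraticMap.map_neg,
      QuadraticMap.polar_neg_right] at h9
    linarith [hv g]
  have h9 := mul_le_mul_of_nonneg_left h8 (mul_nonneg (sq_nonneg t) (sub_nonneg.2 h3))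
  have h10 := mul_le_mul_of_nonneg_left (h2 v)
    (mul_nonneg (mul_nonneg hC (Real.exp_pos (-γ / 2)).le) (sq_nonneg t))
  rw [QuadraticMap.map_smul, smul_eq_mul]
  nlinarith

end Crest.Agent.T145.FS
end

-- ▼ part T145/FsE3_83
section

/-!
# Row 145, item (e), leaf E3 (helper83): `β_eff ≥ β - C e^{-cβ}`

Test function `u = sin (2π x₁) sin (2π x₂)`; it vanishes on the two lines `x₁ = 0`, `x₂ = 0`, so
the pinned model on `[1, n-1]²` sees all of it.
-/

set_option autoImplicit false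

noncomputable section

namespace Crest.Agent.T145.FS

open Crest.ProbabilityR.HeightModel

namespace E83

open Finset MeasureTheory Real

/-! ### the continuum test function -/

/-- the test function -/
def uu (x : ℝ × ℝ) : ℝ := sin (2 * π * x.1) * sin (2 * π * x.2)

theorem uu_sp : IsSmoothPeriodic uu := by
  refine ⟨fun x => ⟨?_, ?_⟩, ?_⟩
  · simp only [uu, Prod.fst_add, Prod.snd_add, add_zero, mul_add, mul_one, sin_add_two_pi]
  · simp only [uu, Prod.fst_add, Prod.snd_add, add_zero, mul_add, mul_one, sin_add_two_pi]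
  · unfold uu
    fun_prop

theorem dd_sin (a c x : ℝ) :
    iteratedDeriv 2 (fun s => c * sin (a * s)) x = -(a ^ 2) * (c * sin (a * x)) := by
  have h1 : deriv (fun s => c * sin (a * s)) = fun s => c * (cos (a * s) * a) := funext fun s => by
    have := (((hasDerivAt_id' s).const_mul a).sin).const_mul c
    simpa using this.deriv
  have h2 : deriv (fun s => c * (cos (a * s) * a)) x = c * (-sin (a * x) * a * a) := by
    have := ((((hasDerivAt_id' x).const_mul a).cos).mul_const a).const_mul c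
    simpa using this.deriv
  rw [iteratedDeriv_succ, iteratedDeriv_one, h1, h2]
  ring

theorem lap_uu (x : ℝ × ℝ) : -flatLaplacian uu x = 8 * π ^ 2 * uu x := by
  have h1 : (fun s => uu (s, x.2)) = fun s => sin (2 * π * x.2) * sin (2 * π * s) :=
    funext fun s => by simp only [uu]; ring
  have h2 : (fun s => uu (x.1, s)) = fun s => sin (2 * π * x.1) * sin (2 * π * s) :=
    funext fun s => by simp only [uu]
  rw [flatLaplacian, h1, h2, dd_sin, dd_sin, uu]
  ring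

theorem int_sin_sq : ∫ x in Set.Icc (0 : ℝ) 1, sin (2 * π * x) ^ 2 = 1 / 2 := by
  rw [integral_Icc_eq_integral_Ioc, ← intervalIntegral.integral_of_le zero_le_one,
    intervalIntegral.integral_comp_mul_left (fun y => sin y ^ 2) (by positivity : 2 * π ≠ 0),
    integral_sin_sq]
  simp only [mul_zero, mul_one, sin_zero, cos_zero, sin_two_pi, cos_two_pi, smul_eq_mul]
  field_simp
  ring

theorem pair_uu : unitSquarePairing (fun x => -flatLaplacian uu x) uu = 2 * π ^ 2 := by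
  have h : ∀ x : ℝ × ℝ, -flatLaplacian uu x * uu x =
      (8 * π ^ 2 * sin (2 * π * x.1) ^ 2) * sin (2 * π * x.2) ^ 2 := fun x => by
    rw [lap_uu, uu]; ring
  simp only [unitSquarePairing, h]
  rw [Measure.volume_eq_prod, setIntegral_prod_mul (fun x => 8 * π ^ 2 * sin (2 * π * x) ^ 2)
    (fun x => sin (2 * π * x) ^ 2), integral_const_mul, int_sin_sq]
  ring

/-! ### one-dimensional lattice sums -/

section one

variable {n : ℕ} [NeZero n]

/-- a `2π`-periodic function sampled on `ZMod n` -/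
def smp (f : ℝ → ℝ) (k : ZMod n) : ℝ := f (2 * π * ((k.val : ℝ) / n))

theorem smp_cast {f : ℝ → ℝ} (hf : Function.Periodic f (2 * π)) (a : ℤ) :
    smp f (a : ZMod n) = f (2 * π * ((a : ℝ) / n)) := by
  have hn : (n : ℝ) ≠ 0 := by exact_mod_cast NeZero.ne n
  have h1 : (((a : ZMod n).val : ℤ) : ℝ) = (a : ℝ) - n * ((a / n : ℤ) : ℝ) := by
    rw [ZMod.val_intCast, Int.emod_def]; push_cast; ring
  have h2 : (((a : ZMod n).val : ℕ) : ℝ) = (a : ℝ) - n * ((a / n : ℤ) : ℝ) := by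
    rw [← h1]; norm_cast
  rw [smp, h2, ← hf.sub_int_mul_eq (x := 2 * π * ((a : ℝ) / n)) (a / n)]
  congr 1
  field_simp

theorem smp_add {f : ℝ → ℝ} (hf : Function.Periodic f (2 * π)) (k : ZMod n) (a : ℤ) :
    smp f (k + (a : ZMod n)) = f (2 * π * ((k.val : ℝ) / n) + a * (2 * π / n)) := by
  have : k + (a : ZMod n) = (((k.val : ℤ) + a : ℤ) : ZMod n) := by simp
  rw [this, smp_cast hf]
  congr 1
  push_cast
  ring

theorem sin_eig (k : ZMod n) :
    smp sin (k + 1) + smp sin (k - 1) = 2 * cos (2 * π / n) * smp sin k := by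
  have h1 := smp_add (n := n) sin_periodic k 1
  have h2 := smp_add (n := n) sin_periodic k (-1)
  simp only [Int.cast_one, Int.cast_neg, one_mul, neg_mul, ← sub_eq_add_neg] at h1 h2
  rw [h1, h2, sin_add, sin_sub, smp]
  ring

theorem sum_shift (g : ZMod n → ℝ) (a : ZMod n) : ∑ k, g (k + a) = ∑ k, g k :=
  Equiv.sum_comp (Equiv.addRight a) g

theorem sum_of_eig {g : ZMod n → ℝ} {c : ℝ} (h : ∀ k, g (k + 1) + g (k - 1) = 2 * c * g k)
    (hc : c ≠ 1) : ∑ k, g k = 0 := by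
  have h1 := sum_congr (rfl : (univ : Finset (ZMod n)) = univ) fun k _ => h k
  simp only [sub_eq_add_neg] at h1
  rw [sum_add_distrib, sum_shift, sum_shift, ← mul_sum] at h1
  have : (1 - c) * ∑ k, g k = 0 := by linarith
  exact (mul_eq_zero.1 this).resolve_left (sub_ne_zero.2 hc.symm)

omit [NeZero n] in
theorem cos_ne (hn : 3 ≤ n) {m : ℝ} (h0 : 0 < m) (h2 : m ≤ 2) : cos (m * (2 * π / n)) ≠ 1 := by
  have hn' : (3 : ℝ) ≤ n := by exact_mod_cast hn
  have hp : 0 < m * (2 * π / n) := by positivity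
  have hl : m * (2 * π / n) < 2 * π := by
    rw [← mul_div_assoc, div_lt_iff₀ (by linarith)]
    nlinarith [pi_pos]
  intro h
  exact hp.ne' ((cos_eq_one_iff_of_lt_of_lt (by linarith [pi_pos]) hl).1 h)

theorem sum_sin (hn : 3 ≤ n) : ∑ k : ZMod n, smp sin k = 0 :=
  sum_of_eig sin_eig (by simpa using cos_ne hn one_pos one_le_two)

theorem sum_sin_sq (hn : 3 ≤ n) : ∑ k : ZMod n, smp sin k ^ 2 = n / 2 := by
  have hf : Function.Periodic (fun x => cos (2 * x)) (2 * π) := fun x => by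
    beta_reduce
    rw [mul_add, show 2 * (2 * π) = (2 : ℕ) * (2 * π) by norm_num, cos_add_nat_mul_two_pi]
  have h0 : ∑ k : ZMod n, smp (fun x => cos (2 * x)) k = 0 := by
    refine sum_of_eig (c := cos (2 * (2 * π / n))) (fun k => ?_) (cos_ne hn two_pos le_rfl)
    have h1 := smp_add (n := n) hf k 1
    have h2 := smp_add (n := n) hf k (-1)
    simp only [Int.cast_one, Int.cast_neg, one_mul, neg_mul, ← sub_eq_add_neg] at h1 h2
    rw [h1, h2, mul_add, mul_sub, cos_add, cos_sub, smp]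
    ring
  have h1 : ∀ k : ZMod n, smp sin k ^ 2 = 1 / 2 - smp (fun x => cos (2 * x)) k / 2 := fun k => by
    simp only [smp]
    rw [cos_two_mul, cos_sq']
    ring
  simp only [h1]
  rw [sum_sub_distrib, ← sum_div, ← sum_div, h0]
  simp [ZMod.card]

theorem sum_grad_sq (hn : 3 ≤ n) :
    ∑ k : ZMod n, (smp sin (k + 1) - smp sin k) ^ 2 ≤ (2 * π / n) ^ 2 * (n / 2) := by
  have h1 : ∑ k : ZMod n, smp sin (k + 1) ^ 2 = n / 2 := by
    rw [sum_shift (fun k => smp sin k ^ 2), sum_sin_sq hn]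
  have h2 : ∑ k : ZMod n, smp sin (k + 1) * smp sin k = ∑ k : ZMod n, smp sin k * smp sin (k - 1) := by
    rw [← sum_shift (fun k => smp sin k * smp sin (k - 1)) 1]
    simp only [add_sub_cancel_right]
  have h3 : ∑ k : ZMod n, smp sin (k + 1) * smp sin k + ∑ k : ZMod n, smp sin k * smp sin (k - 1) =
      2 * cos (2 * π / n) * (n / 2) := by
    rw [← sum_add_distrib, ← sum_sin_sq hn, mul_sum]
    refine sum_congr rfl fun k _ => ?_
    linear_combination smp sin k * sin_eig k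
  have h4 : ∑ k : ZMod n, (smp sin (k + 1) - smp sin k) ^ 2 = ∑ k : ZMod n, smp sin (k + 1) ^ 2 +
      ∑ k : ZMod n, smp sin k ^ 2 - 2 * ∑ k : ZMod n, smp sin (k + 1) * smp sin k := by
    rw [mul_sum, ← sum_add_distrib, ← sum_sub_distrib]
    exact sum_congr rfl fun k _ => by ring
  have h5 := one_sub_sq_div_two_le_cos (x := 2 * π / n)
  have hn' : (0 : ℝ) ≤ n / 2 := by positivity
  rw [h4, h1, sum_sin_sq hn]
  nlinarith [mul_le_mul_of_nonneg_right h5 hn']

omit [NeZero n] in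
theorem smp_sin_zero : smp sin (0 : ZMod n) = 0 := by simp [smp]

end one

/-! ### the box `[1, n-1]²` inside the torus -/

/-- the box -/
def Lam (n : ℕ) : Finset P := Icc (1 : ℤ) (n - 1) ×ˢ Icc (1 : ℤ) (n - 1)

/-- reduction modulo `n` -/
def prj (n : ℕ) : P →+ ZMod n × ZMod n :=
  AddMonoidHom.prodMap (Int.castAddHom (ZMod n)) (Int.castAddHom (ZMod n))

theorem prj_apply (n : ℕ) (y : P) : prj n y = (((y.1 : ℤ) : ZMod n), ((y.2 : ℤ) : ZMod n)) := rfl

/-- representatives -/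
def rep {n : ℕ} (x : ZMod n × ZMod n) : P := ((x.1.val : ℤ), (x.2.val : ℤ))

theorem mem_Lam {n : ℕ} {y : P} :
    y ∈ Lam n ↔ (1 ≤ y.1 ∧ y.1 ≤ n - 1) ∧ 1 ≤ y.2 ∧ y.2 ≤ n - 1 := by
  simp [Lam, mem_product]

section two

variable {n : ℕ} [NeZero n]

theorem prj_rep (x : ZMod n × ZMod n) : prj n (rep x) = x := by
  simp [prj_apply, rep]

theorem val_cast {a : ℤ} (h0 : 0 ≤ a) (h1 : a < n) : (((a : ZMod n).val : ℕ) : ℤ) = a := by
  rw [ZMod.val_intCast, Int.emod_eq_of_lt h0 h1]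

theorem rep_prj {y : P} (h : (0 ≤ y.1 ∧ y.1 < n) ∧ 0 ≤ y.2 ∧ y.2 < n) : rep (prj n y) = y := by
  simp only [rep, prj_apply, val_cast h.1.1 h.1.2, val_cast h.2.1 h.2.2]

theorem rep_lam {y : P} (h : y ∈ Lam n) : rep (prj n y) = y := by
  rw [mem_Lam] at h
  exact rep_prj ⟨⟨by omega, by omega⟩, by omega, by omega⟩

theorem rep_bd (x : ZMod n × ZMod n) :
    (0 ≤ (rep x).1 ∧ (rep x).1 < n) ∧ 0 ≤ (rep x).2 ∧ (rep x).2 < n := by
  have h1 := ZMod.val_lt x.1
  have h2 := ZMod.val_lt x.2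
  simp only [rep]
  omega

theorem rep_mem {x : ZMod n × ZMod n} : rep x ∈ Lam n ↔ x.1 ≠ 0 ∧ x.2 ≠ 0 := by
  have h := rep_bd x
  rw [mem_Lam, ne_eq, ne_eq, ← ZMod.val_eq_zero, ← ZMod.val_eq_zero]
  simp only [rep] at h ⊢
  omega

theorem sum_rep (G : P → ℝ) :
    ∑ x : ZMod n × ZMod n, G (rep x) = ∑ y ∈ Ico (0 : ℤ) n ×ˢ Ico (0 : ℤ) n, G y := by
  refine sum_nbij' rep (prj n) (fun x _ => ?_) (fun _ _ => mem_univ _) (fun x _ => prj_rep x)
    (fun y hy => rep_prj ?_) fun _ _ => rfl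
  · simpa [mem_product] using rep_bd x
  · simpa [mem_product] using hy

/-- the embedding of the box into the punctured torus -/
def emb (n : ℕ) [NeZero n] (i : Lam n) : {x : ZMod n × ZMod n // x ≠ 0} :=
  ⟨prj n i.1, fun h => (rep_mem.1 (by rw [rep_lam i.2]; exact i.2)).1 (by rw [h]; rfl)⟩

theorem emb_inj : Function.Injective (emb n) := fun i j h => by
  have h1 : prj n i.1 = prj n j.1 := congrArg Subtype.val h
  exact Subtype.ext (by rw [← rep_lam i.2, h1, rep_lam j.2])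

/-- a field on the box, as a field on the torus -/
def TT (φ : Lam n → ℝ) (x : ZMod n × ZMod n) : ℝ := ext (Lam n) φ (rep x)

theorem text_extend (φ : Lam n → ℝ) : text (Function.extend (emb n) φ 0) = TT φ := by
  funext x
  by_cases hx : rep x ∈ Lam n
  · have h0 : x ≠ 0 := fun h => (rep_mem.1 hx).1 (by rw [h]; rfl)
    have h1 : (⟨x, h0⟩ : {x : ZMod n × ZMod n // x ≠ 0}) = emb n ⟨rep x, hx⟩ :=
      Subtype.ext (prj_rep x).symm
    rw [text, dif_neg h0, h1, emb_inj.extend_apply, TT, ext, dif_pos hx]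
  · rw [TT, ext, dif_neg hx, text]
    split_ifs with h0
    · rfl
    · rw [Function.extend_apply']
      · rfl
      · rintro ⟨i, hi⟩
        have : x = prj n i.1 := (congrArg Subtype.val hi).symm
        exact hx (by rw [this, rep_lam i.2]; exact i.2)

theorem TT_prj (φ : Lam n → ℝ) {y : P} (h : (0 ≤ y.1 ∧ y.1 ≤ n) ∧ 0 ≤ y.2 ∧ y.2 ≤ n) :
    TT φ (prj n y) = ext (Lam n) φ y := by
  by_cases h1 : y.1 < n ∧ y.2 < n
  · rw [TT, rep_prj ⟨⟨h.1.1, h1.1⟩, h.2.1, h1.2⟩]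
  · have h2 : y ∉ Lam n := by rw [mem_Lam]; omega
    have h3 : rep (prj n y) ∉ Lam n := by
      rw [rep_mem, prj_apply]
      rcases (by omega : y.1 = n ∨ y.2 = n) with h4 | h4 <;> simp [h4]
    rw [TT, ext, ext, dif_neg h2, dif_neg h3]

theorem sum_lam (G : P → ℝ) (h : ∀ y ∉ Lam n, G y = 0) :
    ∑ x : ZMod n × ZMod n, G (rep x) = ∑ i : Lam n, G i.1 := by
  rw [sum_rep, sum_coe_sort (Lam n) G]
  refine (sum_subset (fun y hy => ?_) fun y _ hy => h y hy).symm
  rw [mem_Lam] at hy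
  simp only [mem_product, mem_Ico]
  omega

theorem tsum_TT (σ φ : Lam n → ℝ) :
    ∑' x : ZMod n × ZMod n, (TT σ x - TT φ x) ^ 2 = ∑ i, (σ i - φ i) ^ 2 := by
  rw [tsum_fintype]
  have := sum_lam (n := n) (fun y => (ext (Lam n) σ y - ext (Lam n) φ y) ^ 2)
    (fun y hy => by simp [ext, hy])
  simpa [TT, ext] using this

theorem NG_TT (φ : Lam n → ℝ) :
    NG (TT φ) (prj n (1, 0)) + NG (TT φ) (prj n (0, 1)) = D (Lam n) (ext (Lam n) φ) := by
  have h1 : ∀ x : ZMod n × ZMod n, (TT φ (x + prj n (1, 0)) - TT φ x) ^ 2 +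
      (TT φ (x + prj n (0, 1)) - TT φ x) ^ 2 = w (ext (Lam n) φ) (rep x) := fun x => by
    have hb := rep_bd x
    have e1 : TT φ (x + prj n (1, 0)) = ext (Lam n) φ (rep x + (1, 0)) := by
      rw [← TT_prj φ (by simp only [Prod.fst_add, Prod.snd_add]; omega), map_add, prj_rep]
    have e2 : TT φ (x + prj n (0, 1)) = ext (Lam n) φ (rep x + (0, 1)) := by
      rw [← TT_prj φ (by simp only [Prod.fst_add, Prod.snd_add]; omega), map_add, prj_rep]
    rw [e1, e2, w, TT]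
  rw [NG, NG, tsum_fintype, tsum_fintype, ← sum_add_distrib, sum_congr rfl fun x _ => h1 x,
    sum_rep, D, En]
  refine (sum_subset (fun y hy => ?_) fun y _ hy => ?_).symm
  · simp only [halo, mem_union, mem_image, mem_Lam] at hy
    simp only [mem_product, mem_Ico]
    rcases hy with (hy | ⟨z, hz, rfl⟩) | ⟨z, hz, rfl⟩
    · omega
    · simp only [Prod.fst_sub, Prod.snd_sub]; omega
    · simp only [Prod.fst_sub, Prod.snd_sub]; omega
  · simp only [halo, mem_union, mem_image, not_or, not_exists, not_and] at hy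
    have a1 : y + (1, 0) ∉ Lam n := fun h => hy.1.2 _ h (add_sub_cancel_right _ _)
    have a2 : y + (0, 1) ∉ Lam n := fun h => hy.2 _ h (add_sub_cancel_right _ _)
    simp [w, ext, hy.1.1, a1, a2]

/-- extension by zero as a linear map -/
def extL (n : ℕ) [NeZero n] : (Lam n → ℝ) →ₗ[ℝ] ({x : ZMod n × ZMod n // x ≠ 0} → ℝ) :=
  Function.ExtendByZero.linearMap ℝ (emb n)

theorem extL_apply (φ : Lam n → ℝ) : extL n φ = Function.extend (emb n) φ 0 := rfl

/-- the lattice test function -/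
def UU (x : ZMod n × ZMod n) : ℝ := smp sin x.1 * smp sin x.2

theorem TT_UU (c : ℝ) : TT (fun i : Lam n => c * UU (prj n i.1)) = fun x => c * UU x := by
  funext x
  rw [TT, ext]
  split_ifs with h
  · simp only [prj_rep]
  · rw [rep_mem, not_and_or, not_not, not_not] at h
    rcases h with h | h <;> simp [UU, h, smp_sin_zero]

theorem sum_UU (hn : 3 ≤ n) : ∑ x : ZMod n × ZMod n, UU x = 0 := by
  simp only [UU]
  rw [Fintype.sum_prod_type' (fun a b : ZMod n => smp sin a * smp sin b), ← sum_mul_sum, sum_sin hn,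
    mul_zero]

theorem sum_UU_sq (hn : 3 ≤ n) : ∑ i : Lam n, UU (prj n i.1) ^ 2 = (n / 2) ^ 2 := by
  have h1 := tsum_TT (n := n) (fun i => 1 * UU (prj n i.1)) (fun i => 0 * UU (prj n i.1))
  rw [TT_UU, TT_UU, tsum_fintype] at h1
  simp only [one_mul, zero_mul, sub_zero] at h1
  rw [← h1]
  simp only [UU, mul_pow]
  rw [Fintype.sum_prod_type' (fun a b : ZMod n => smp sin a ^ 2 * smp sin b ^ 2), ← sum_mul_sum,
    sum_sin_sq hn, sq]

theorem NG_UU (hn : 3 ≤ n) (c : ℝ) :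
    NG (fun x => c * UU x) (prj n (1, 0)) + NG (fun x => c * UU x) (prj n (0, 1)) ≤
      c ^ 2 * (2 * π ^ 2) := by
  have hn' : (0 : ℝ) < n := by exact_mod_cast (by omega : 0 < n)
  have h := sum_grad_sq hn
  have h1 : NG (fun x => c * UU x) (prj n (1, 0)) =
      c ^ 2 * ((∑ k : ZMod n, (smp sin (k + 1) - smp sin k) ^ 2) * (n / 2)) := by
    rw [NG, tsum_fintype, ← sum_sin_sq hn, sum_mul_sum, ← Fintype.sum_prod_type', mul_sum]
    refine sum_congr rfl fun x _ => ?_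
    simp only [UU, prj_apply, Prod.fst_add, Prod.snd_add, Int.cast_one, Int.cast_zero, add_zero]
    ring
  have h2 : NG (fun x => c * UU x) (prj n (0, 1)) =
      c ^ 2 * ((n / 2) * ∑ k : ZMod n, (smp sin (k + 1) - smp sin k) ^ 2) := by
    rw [NG, tsum_fintype, ← sum_sin_sq hn, sum_mul_sum, ← Fintype.sum_prod_type', mul_sum]
    refine sum_congr rfl fun x _ => ?_
    simp only [UU, prj_apply, Prod.fst_add, Prod.snd_add, Int.cast_one, Int.cast_zero, add_zero]
    ring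
  have h3 : (2 * π / n) ^ 2 * (n / 2) * n = 2 * π ^ 2 := by field_simp
  rw [h1, h2, ← mul_add]
  refine mul_le_mul_of_nonneg_left ?_ (sq_nonneg c)
  nlinarith [mul_le_mul_of_nonneg_right h hn'.le]

end two

/-! ### the lower bound on every torus -/

theorem dbl_iter (hD : DblStmt) {ι : Type} [Fintype ι] {A : QuadraticForm ℝ (ι → ℝ)}
    (hA : A.PosDef) (F : ι → ℝ) {X t₀ : ℝ} (ht : 0 < t₀)
    (h : ∀ t : ℝ, |t| ≤ t₀ → exp (t ^ 2 * X) ≤ mgf A (t • F)) : exp X ≤ mgf A F := by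
  have key : ∀ (k : ℕ) (t : ℝ), |t| ≤ 2 ^ k * t₀ → exp (t ^ 2 * X) ≤ mgf A (t • F) := by
    intro k
    induction k with
    | zero => simpa using h
    | succ k ih =>
      intro t h1
      have h2 := ih (t / 2) (by rw [abs_div, abs_two, pow_succ] at *; linarith)
      have h3 := (pow_le_pow_left₀ (exp_pos _).le h2 4).trans ((hD ι A hA).2.2 _)
      rw [← exp_nat_mul, smul_smul, show 2 * (t / 2) = t by ring] at h3
      refine le_trans (le_of_eq ?_) h3
      congr 1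
      push_cast
      ring
  obtain ⟨k, hk⟩ := pow_unbounded_of_one_lt (1 / t₀) (one_lt_two (α := ℝ))
  simpa using key k 1 (by rw [abs_one]; exact ((div_lt_iff₀ ht).1 hk).le)

theorem var_pos {J : Finset P} (hJ : IsAdmissible J) : 0 < varianceConst J := by
  have hc : (0 : ℝ) < J.card := by exact_mod_cast card_pos.2 ⟨_, hJ.2.1⟩
  refine div_pos (sum_pos' (fun y _ => sq_nonneg _) ⟨_, hJ.2.1, by simp⟩) (by positivity)

theorem lower (hC : CmpStmt) (hT : TorStmt) (hP : PinStmt) (hD : DblStmt)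
    {J : Finset P} (hJ : IsAdmissible J) {β ε : ℝ} (hβ : 0 < β) (hε : ε ≤ 1)
    (hb : 18 * π * varianceConst J ≤ β)
    (hE : ∀ (Λ : Finset P) (A : QuadraticForm ℝ (Λ → ℝ)),
      (∀ σ φ : Λ → ℝ, A σ ≤ (∑ i, (σ i - φ i) ^ 2) / (β / 4) + D Λ (ext Λ φ) / (9 * π)) →
      (∀ σ : Λ → ℝ, D Λ (ext Λ σ) ≤ β * J.card * A σ) →
      ∀ F g : Λ → ℝ, ∃ t₀ : ℝ, 0 < t₀ ∧ ∀ t : ℝ, |t| ≤ t₀ →
        exp (t ^ 2 * (1 - ε) * (2 * ∑ i, F i * g i - A g) / 2) ≤ mgf A (t • F))
    {n : ℕ} (hn : 3 ≤ n) :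
    (1 - ε) * β / (2 * varianceConst J) * (2 * π ^ 2) ≤
      log (torusLaplace J β n fun x => -flatLaplacian uu x) := by
  have : NeZero n := ⟨by omega⟩
  have hv := var_pos hJ
  have hc : (0 : ℝ) < J.card := by exact_mod_cast card_pos.2 ⟨_, hJ.2.1⟩
  have hn' : (0 : ℝ) < n := by exact_mod_cast (by omega : 0 < n)
  obtain ⟨A, hA, hA1, hA2⟩ := hT J hJ β hβ n
  set A' : QuadraticForm ℝ (Lam n → ℝ) := A.comp (extL n) with hA'
  have e1 : ∀ x, A' x = A (Function.extend (emb n) x 0) := fun x => rfl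
  have hA'p : A'.PosDef := fun x hx => hA _ fun h => hx (funext fun i => by
    have := congrFun h (emb n i)
    rwa [extL_apply, emb_inj.extend_apply] at this)
  have e2 : ∀ σ, A' σ = (∑ y ∈ J, NG (TT σ) (prj n y)) / (2 * β * J.card) := fun σ => by
    rw [e1, hA1, text_extend, sum_comm]
    simp only [NG, tsum_fintype, prj_apply]
  have hcmp := fun σ : ZMod n × ZMod n → ℝ => hC _ (prj n) J hJ σ (Set.toFinite _)
  have hD0 : ∀ φ : Lam n → ℝ, 0 ≤ D (Lam n) (ext (Lam n) φ) := fun φ =>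
    sum_nonneg fun x _ => add_nonneg (sq_nonneg _) (sq_nonneg _)
  -- the test vectors
  set c := β / varianceConst J with hc'
  have hF : ∀ x : ZMod n × ZMod n,
      -flatLaplacian uu ((x.1.val : ℝ) / n, (x.2.val : ℝ) / n) = 8 * π ^ 2 * UU x := fun x => by
    rw [lap_uu]; rfl
  obtain ⟨t₀, ht₀, h0⟩ := hE (Lam n) A' (fun σ φ => by
      have h1 := (hcmp (TT σ)).2.2 (TT φ) (Set.toFinite _) 1 one_pos
      rw [tsum_TT, NG_TT] at h1
      have h2 : D (Lam n) (ext (Lam n) φ) * (2 * varianceConst J / β) ≤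
          D (Lam n) (ext (Lam n) φ) / (9 * π) := by
        rw [div_eq_mul_inv _ (9 * π)]
        refine mul_le_mul_of_nonneg_left ?_ (hD0 φ)
        rw [← one_div, div_le_div_iff₀ hβ (by positivity)]
        linarith
      refine le_trans ?_ (add_le_add le_rfl h2)
      rw [e2, div_le_iff₀ (by positivity)]
      refine h1.trans (le_of_eq ?_)
      field_simp
      ring)
    (fun σ => by
      have h1 := (hcmp (TT σ)).1
      rw [NG_TT] at h1
      rw [e2, mul_div_assoc', le_div_iff₀ (by positivity)]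
      nlinarith [mul_le_mul_of_nonneg_left h1 (mul_pos hβ hc).le])
    (fun i => 8 * π ^ 2 * UU (prj n i.1) / (n : ℝ) ^ 2) (fun i => c * UU (prj n i.1))
  have h1 : ∑ i : Lam n, 8 * π ^ 2 * UU (prj n i.1) / (n : ℝ) ^ 2 * (c * UU (prj n i.1)) =
      c * (2 * π ^ 2) := by
    have : ∀ i : Lam n, 8 * π ^ 2 * UU (prj n i.1) / (n : ℝ) ^ 2 * (c * UU (prj n i.1)) =
        8 * π ^ 2 * c / (n : ℝ) ^ 2 * UU (prj n i.1) ^ 2 := fun i => by ring
    simp only [this]
    rw [← mul_sum, sum_UU_sq hn]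
    field_simp
    ring
  have h2 : A' (fun i => c * UU (prj n i.1)) ≤ c * (2 * π ^ 2) := by
    have a1 := (hcmp (TT fun i : Lam n => c * UU (prj n i.1))).2.1
    rw [e2, div_le_iff₀ (by positivity)]
    refine a1.trans ?_
    rw [TT_UU]
    refine (mul_le_mul_of_nonneg_left (NG_UU hn c) (by positivity)).trans (le_of_eq ?_)
    rw [hc']
    field_simp
  have h3 := dbl_iter hD hA'p (fun i => 8 * π ^ 2 * UU (prj n i.1) / (n : ℝ) ^ 2)
    (X := (1 - ε) * β / (2 * varianceConst J) * (2 * π ^ 2)) ht₀ fun t ht => by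
      refine le_trans (exp_le_exp.2 ?_) (h0 t ht)
      have a1 : (1 - ε) * β / (2 * varianceConst J) * (2 * π ^ 2) =
          (1 - ε) * (c * (2 * π ^ 2)) / 2 := by rw [hc']; field_simp
      have a2 : 0 ≤ t ^ 2 * (1 - ε) := mul_nonneg (sq_nonneg t) (by linarith)
      rw [h1, a1]
      nlinarith [mul_le_mul_of_nonneg_left h2 a2]
  have h4 := hP _ _ (emb n) A A' emb_inj hA e1
    (fun x => 8 * π ^ 2 * UU x.1 / (n : ℝ) ^ 2)
  rw [hA2]
  simp only [hF]
  rw [← mul_sum, sum_UU hn]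
  simp only [mul_zero, zero_div, sub_zero]
  exact (le_log_iff_exp_le ((exp_pos _).trans_le (h3.trans h4))).2 (h3.trans h4)

end E83

open Real E83 in
/-- E3: `β_eff ≥ β - C e^{-β/16}`. -/
theorem e3Stmt (hE : E0Stmt) (hC : CmpStmt) (hT : TorStmt) (hP : PinStmt) (hD : DblStmt)
    (_hS : SumStmt) : E3Stmt := by
  intro J hJ
  obtain ⟨C, γ₀, hC0, hγ, h⟩ := hE (9 * π) (by linarith [pi_pos])
  have hv := var_pos hJ
  have hc : (0 : ℝ) < J.card := by exact_mod_cast Finset.card_pos.2 ⟨_, hJ.2.1⟩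
  refine ⟨1 / 16, by norm_num, 512 * C * J.card,
    4 * γ₀ + 18 * π * varianceConst J + 128 * C * J.card, by positivity, fun β hβ L c hL hlim => ?_⟩
  have p1 : 0 < 18 * π * varianceConst J := by positivity
  have p2 : 0 ≤ 128 * C * J.card := by positivity
  have hβ0 : 0 < β := by linarith
  set ε := C * exp (-(β / 4) / 2) * (β * J.card) with hε
  have q1 : ∀ x : ℝ, 0 ≤ x → x ^ 2 / 2 * exp (-x) ≤ 1 := fun x hx => by
    have := quadratic_le_exp_of_nonneg hx
    rw [exp_neg, ← div_eq_mul_inv, div_le_one (exp_pos x)]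
    linarith
  have hε1 : ε ≤ 1 := by
    have a1 := q1 (β / 8) (by positivity)
    have a2 : ε = 128 * C * J.card / β * ((β / 8) ^ 2 / 2 * exp (-(β / 8))) := by
      rw [hε, show -(β / 4) / 2 = -(β / 8) by ring]; field_simp; ring
    rw [a2]
    exact mul_le_one₀ ((div_le_one hβ0).2 (by linarith)) (by positivity) a1
  have hε2 : ε * β ≤ 512 * C * J.card * exp (-(1 / 16) * β) := by
    have a1 := q1 (β / 16) (by positivity)
    have a2 : ε * β = 512 * C * J.card * exp (-(1 / 16) * β) *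
        ((β / 16) ^ 2 / 2 * exp (-(β / 16))) := by
      rw [hε, show -(β / 4) / 2 = -(1 / 16) * β + -(β / 16) by ring, exp_add]; ring
    rw [a2]
    exact mul_le_of_le_one_right (by positivity) a1
  have key := ge_of_tendsto (hlim uu uu_sp) (Filter.eventually_atTop.2 ⟨2, fun N hN =>
    lower hC hT hP hD hJ hβ0 hε1 (by linarith)
      (fun Λ A h1 h2 => h (β / 4) (by linarith) Λ A (β * J.card) (by positivity) h1 h2 hε1)
      (n := L ^ N) (le_trans (by norm_num) ((Nat.pow_le_pow_left hL 2).trans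
        (Nat.pow_le_pow_right (by omega) hN)))⟩)
  rw [pair_uu] at key
  have k2 := le_of_mul_le_mul_right key (by positivity)
  rw [div_le_div_iff_of_pos_right (by positivity)] at k2
  linarith

end Crest.Agent.T145.FS
end
end

-- ▼ part T145/FsIni_6
section

/-!
# Row 145, item (e), leaf INI: Poisson summation and the first convex splitting (helper6)
-/

set_option autoImplicit false

namespace Crest.Agent.T145.FS.Ini6

open MeasureTheory

theorem cont_ext (Λ : Finset P) (x : P) : Continuous fun φ : Λ → ℝ => ext Λ φ x := by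
  unfold ext
  by_cases h : x ∈ Λ
  · simp only [h, dif_pos]; exact continuous_apply _
  · simp only [h, dif_neg, not_false_eq_true]; exact continuous_const

theorem cont_D (Λ : Finset P) : Continuous fun φ : Λ → ℝ => D Λ (ext Λ φ) := by
  unfold D En w
  refine continuous_finsetSum _ fun x _ => ?_
  exact (((cont_ext Λ _).sub (cont_ext Λ _)).pow 2).add (((cont_ext Λ _).sub (cont_ext Λ _)).pow 2)

theorem cont_gw (Λ : Finset P) (b : ℝ) : Continuous (gw Λ b) := by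
  unfold gw
  exact Real.continuous_exp.comp ((cont_D Λ).neg.div_const _)

theorem ext_smul (Λ : Finset P) (t : ℝ) (φ : Λ → ℝ) (x : P) :
    ext Λ (t • φ) x = t * ext Λ φ x := by
  unfold ext
  by_cases h : x ∈ Λ <;> simp [h]

theorem D_smul (Λ : Finset P) (t : ℝ) (φ : Λ → ℝ) :
    D Λ (ext Λ (t • φ)) = t ^ 2 * D Λ (ext Λ φ) := by
  unfold D En w
  rw [Finset.mul_sum]
  refine Finset.sum_congr rfl fun x _ => ?_
  simp only [ext_smul]; ring

theorem w_nonneg (g : P → ℝ) (x : P) : 0 ≤ w g x := by unfold w; positivity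

theorem D_pos (Λ : Finset P) (φ : Λ → ℝ) (h : φ ≠ 0) : 0 < D Λ (ext Λ φ) := by
  classical
  obtain ⟨i, hi⟩ := Function.ne_iff.1 h
  have hne : (Λ.filter fun x => ext Λ φ x ≠ 0).Nonempty :=
    ⟨i.1, Finset.mem_filter.2 ⟨i.2, by simpa [ext, i.2] using hi⟩⟩
  obtain ⟨x, hx, hmax⟩ := Finset.exists_max_image _ (fun x : P => x.1) hne
  obtain ⟨hxΛ, hx0⟩ := Finset.mem_filter.1 hx
  have h1 : ext Λ φ (x + (1, 0)) = 0 := by
    by_contra h1
    have hm : x + (1, 0) ∈ Λ := by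
      by_contra hm
      exact h1 (by simp [ext, hm])
    have := hmax _ (Finset.mem_filter.2 ⟨hm, h1⟩)
    simp at this
  have h2 : 0 < w (ext Λ φ) x := by
    unfold w
    rw [h1]
    have : 0 < (0 - ext Λ φ x) ^ 2 := by
      rw [zero_sub, neg_sq]; positivity
    positivity
  refine lt_of_lt_of_le h2 ?_
  unfold D En
  exact Finset.single_le_sum (f := w (ext Λ φ)) (fun y _ => w_nonneg _ y)
    (by unfold halo; simp [hxΛ])

theorem exists_coercive (Λ : Finset P) :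
    ∃ c : ℝ, 0 < c ∧ ∀ φ : Λ → ℝ, c * ‖φ‖ ^ 2 ≤ D Λ (ext Λ φ) := by
  obtain ⟨c, hc, h⟩ := (isCompact_sphere (0 : Λ → ℝ) 1).exists_forall_le' (a := 0)
    (cont_D Λ).continuousOn (fun φ hφ => D_pos Λ φ (by
      rintro rfl
      simp at hφ))
  refine ⟨c, hc, fun φ => ?_⟩
  by_cases h0 : φ = 0
  · subst h0
    have := D_smul Λ 0 0
    simp only [smul_zero] at this
    rw [this]; simp
  · have hn : 0 < ‖φ‖ := norm_pos_iff.2 h0
    have h1 := h (‖φ‖⁻¹ • φ) (by
      simp [norm_smul, hn.ne'])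
    rw [D_smul] at h1
    have h2 : c * ‖φ‖ ^ 2 ≤ ‖φ‖⁻¹ ^ 2 * D Λ (ext Λ φ) * ‖φ‖ ^ 2 :=
      mul_le_mul_of_nonneg_right h1 (by positivity)
    have h3 : ‖φ‖⁻¹ ^ 2 * D Λ (ext Λ φ) * ‖φ‖ ^ 2 = D Λ (ext Λ φ) := by field_simp
    linarith

theorem integrable_gw (Λ : Finset P) {b : ℝ} (hb : 0 < b) : Integrable (gw Λ b) := by
  obtain ⟨c, hc, h⟩ := exists_coercive Λ
  set k : ℝ := c / (2 * b) / (Λ.card + 1) with hk
  have hk0 : 0 < k := by positivity
  have hI : Integrable (fun φ : Λ → ℝ => ∏ i, Real.exp (-k * φ i ^ 2)) :=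
    Integrable.fintype_prod (f := fun _ : Λ => fun t : ℝ => Real.exp (-k * t ^ 2))
      fun _ => integrable_exp_neg_mul_sq hk0
  refine hI.mono' (cont_gw Λ b).aestronglyMeasurable (ae_of_all _ fun φ => ?_)
  unfold gw
  rw [Real.norm_eq_abs, abs_of_pos (Real.exp_pos _), ← Real.exp_sum]
  refine Real.exp_le_exp.2 ?_
  have h1 : ∑ i : Λ, φ i ^ 2 ≤ (Λ.card + 1) * ‖φ‖ ^ 2 := by
    have : ∑ i : Λ, φ i ^ 2 ≤ ∑ _i : Λ, ‖φ‖ ^ 2 := Finset.sum_le_sum fun i _ => by
      rw [← sq_abs]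
      exact pow_le_pow_left₀ (abs_nonneg _) (norm_le_pi_norm φ i) 2
    simp only [Finset.sum_const, Finset.card_univ, Fintype.card_coe, nsmul_eq_mul] at this
    nlinarith [sq_nonneg ‖φ‖]
  have h2 : ∑ i : Λ, -k * φ i ^ 2 = -(k * ∑ i : Λ, φ i ^ 2) := by
    rw [Finset.mul_sum, ← Finset.sum_neg_distrib]
    exact Finset.sum_congr rfl fun i _ => by ring
  have h3 : k * ∑ i : Λ, φ i ^ 2 ≤ c * ‖φ‖ ^ 2 / (2 * b) := by
    refine (mul_le_mul_of_nonneg_left h1 hk0.le).trans (le_of_eq ?_)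
    rw [hk]; field_simp
  have h4 : c * ‖φ‖ ^ 2 / (2 * b) ≤ D Λ (ext Λ φ) / (2 * b) :=
    div_le_div_of_nonneg_right (h φ) (by positivity)
  rw [h2, neg_div]
  linarith

/-- Integral of a product of one-site factors. -/
noncomputable def Jg (Λ : Finset P) (b : ℝ) (f : P → ℝ → ℝ) (g : P → ℝ) : ℝ :=
  ∫ φ : Λ → ℝ, (∏ x ∈ Λ, f x (ext Λ φ x + g x)) * gw Λ b φ

theorem abs_prod_le (Λ : Finset P) (f : P → ℝ → ℝ) (hf : ∀ x ψ, |f x ψ| ≤ 3) (a : P → ℝ) :
    |∏ x ∈ Λ, f x (a x)| ≤ 3 ^ Λ.card := by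
  rw [Finset.abs_prod]
  calc ∏ x ∈ Λ, |f x (a x)| ≤ ∏ _x ∈ Λ, (3 : ℝ) :=
        Finset.prod_le_prod (fun _ _ => abs_nonneg _) fun x _ => hf x _
    _ = 3 ^ Λ.card := by simp

theorem norm_le_J (Λ : Finset P) (b : ℝ) (f : P → ℝ → ℝ) (hf : ∀ x ψ, |f x ψ| ≤ 3) (g : P → ℝ)
    (φ : Λ → ℝ) :
    ‖(∏ x ∈ Λ, f x (ext Λ φ x + g x)) * gw Λ b φ‖ ≤ 3 ^ Λ.card * gw Λ b φ := by
  have h0 : 0 ≤ gw Λ b φ := (Real.exp_pos _).le
  rw [Real.norm_eq_abs, abs_mul, abs_of_nonneg h0]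
  exact mul_le_mul_of_nonneg_right (abs_prod_le Λ f hf fun x => ext Λ φ x + g x) h0

theorem integrable_J (Λ : Finset P) {b : ℝ} (hb : 0 < b) (f : P → ℝ → ℝ)
    (hc : ∀ x, Continuous (f x)) (hf : ∀ x ψ, |f x ψ| ≤ 3) (g : P → ℝ) :
    Integrable fun φ : Λ → ℝ => (∏ x ∈ Λ, f x (ext Λ φ x + g x)) * gw Λ b φ := by
  refine ((integrable_gw Λ hb).const_mul (3 ^ Λ.card)).mono' ?_
    (ae_of_all _ fun φ => norm_le_J Λ b f hf g φ)
  refine Continuous.aestronglyMeasurable (Continuous.mul ?_ (cont_gw Λ b))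
  exact continuous_finsetProd _ fun x _ => (hc x).comp ((cont_ext Λ x).add continuous_const)

theorem hasSum_half : HasSum (fun q : ℕ => (1 / 2 : ℝ) ^ (q + 1)) 1 := by
  have := hasSum_geometric_two.mul_left (1 / 2 : ℝ)
  simpa [pow_succ, mul_comm] using this

theorem hasSum_J (Λ : Finset P) {b : ℝ} (hb : 0 < b) (f : P → ℝ → ℝ)
    (hc : ∀ x, Continuous (f x)) (hf : ∀ x ψ, |f x ψ| ≤ 3) (r : ℕ → ℝ → ℝ)
    (hrc : ∀ q, Continuous (r q)) (hr : ∀ q ψ, |r q ψ| ≤ 3) {x₀ : P} (hx : x₀ ∈ Λ)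
    (hs : ∀ ψ, HasSum (fun q : ℕ => (1 / 2 : ℝ) ^ (q + 1) * r q ψ) (f x₀ ψ)) (g : P → ℝ) :
    HasSum (fun q : ℕ => (1 / 2 : ℝ) ^ (q + 1) * Jg Λ b (Function.update f x₀ (r q)) g)
      (Jg Λ b f g) := by
  classical
  have huc : ∀ q x, Continuous (Function.update f x₀ (r q) x) := fun q x => by
    by_cases h : x = x₀
    · subst h; simpa using hrc q
    · simpa [h] using hc x
  have hub : ∀ q x ψ, |Function.update f x₀ (r q) x ψ| ≤ 3 := fun q x ψ => by
    by_cases h : x = x₀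
    · subst h; simpa using hr q ψ
    · simpa [h] using hf x ψ
  have hint := fun q => (integrable_J Λ hb _ (huc q) (hub q) g).const_mul ((1 / 2 : ℝ) ^ (q + 1))
  have hsum : Summable fun q : ℕ => ∫ φ : Λ → ℝ, ‖(1 / 2 : ℝ) ^ (q + 1) *
      ((∏ x ∈ Λ, Function.update f x₀ (r q) x (ext Λ φ x + g x)) * gw Λ b φ)‖ := by
    refine Summable.of_nonneg_of_le (fun q => integral_nonneg fun φ => norm_nonneg _) (fun q => ?_)
      (hasSum_half.summable.mul_right (∫ φ : Λ → ℝ, 3 ^ Λ.card * gw Λ b φ))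
    rw [← integral_const_mul]
    refine integral_mono (hint q).norm (((integrable_gw Λ hb).const_mul _).const_mul _) fun φ => ?_
    simp only
    rw [norm_mul, Real.norm_eq_abs, abs_of_pos (by positivity)]
    exact mul_le_mul_of_nonneg_left (norm_le_J Λ b _ (hub q) g φ) (by positivity)
  have H := hasSum_integral_of_summable_integral_norm hint hsum
  simp only [integral_const_mul] at H
  suffices hE : (∫ φ : Λ → ℝ, ∑' q : ℕ, (1 / 2 : ℝ) ^ (q + 1) *
      ((∏ x ∈ Λ, Function.update f x₀ (r q) x (ext Λ φ x + g x)) * gw Λ b φ)) = Jg Λ b f g by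
    rw [hE] at H
    exact H
  unfold Jg
  refine integral_congr_ae (ae_of_all _ fun φ => ?_)
  refine HasSum.tsum_eq ?_
  have e : ∀ q : ℕ, (1 / 2 : ℝ) ^ (q + 1) *
      ((∏ x ∈ Λ, Function.update f x₀ (r q) x (ext Λ φ x + g x)) * gw Λ b φ) =
      (1 / 2 : ℝ) ^ (q + 1) * r q (ext Λ φ x₀ + g x₀) *
        ((∏ x ∈ Λ.erase x₀, f x (ext Λ φ x + g x)) * gw Λ b φ) := fun q => by
    rw [← Finset.mul_prod_erase Λ _ hx]
    have : ∏ x ∈ Λ.erase x₀, Function.update f x₀ (r q) x (ext Λ φ x + g x) =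
        ∏ x ∈ Λ.erase x₀, f x (ext Λ φ x + g x) :=
      Finset.prod_congr rfl fun x hx => by rw [Function.update_of_ne (Finset.ne_of_mem_erase hx)]
    rw [this, Function.update_self]; ring
  simp only [e]
  rw [← Finset.mul_prod_erase Λ _ hx, mul_assoc]
  exact (hs _).mul_right _

/-- The inequality for a product of one-site factors. -/
def Good (Λ : Finset P) (b : ℝ) (u : P → ℝ) (κ : ℝ) (f : P → ℝ → ℝ) : Prop :=
  2 * Real.exp (-κ) * Jg Λ b f 0 ≤ Jg Λ b f u + Jg Λ b f (-u)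

theorem good_of_all (Λ : Finset P) {b : ℝ} (hb : 0 < b) (u : P → ℝ) (κ : ℝ) (θ : ℝ → ℝ)
    (r : ℕ → ℝ → ℝ) (hrc : ∀ q, Continuous (r q)) (hr : ∀ q ψ, |r q ψ| ≤ 3)
    (hs : ∀ ψ, HasSum (fun q : ℕ => (1 / 2 : ℝ) ^ (q + 1) * r q ψ) (θ ψ))
    (h : ∀ a : P → ℕ, Good Λ b u κ fun x => r (a x)) : Good Λ b u κ fun _ => θ := by
  classical
  have hle : ∀ q ψ, ‖(1 / 2 : ℝ) ^ (q + 1) * r q ψ‖ ≤ (1 / 2 : ℝ) ^ (q + 1) * 3 := fun q ψ => by
    rw [norm_mul, Real.norm_eq_abs, abs_of_pos (by positivity)]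
    exact mul_le_mul_of_nonneg_left (hr q ψ) (by positivity)
  have hθc : Continuous θ := by
    have : θ = fun ψ => ∑' q : ℕ, (1 / 2 : ℝ) ^ (q + 1) * r q ψ :=
      funext fun ψ => (hs ψ).tsum_eq.symm
    rw [this]
    exact continuous_tsum (fun q => continuous_const.mul (hrc q))
      (hasSum_half.summable.mul_right 3) hle
  have hθ : ∀ ψ, |θ ψ| ≤ 3 := fun ψ => by
    have := (hs ψ).norm_le_of_bounded (hasSum_half.mul_right 3) fun q => hle q ψ
    simpa using this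
  have key : ∀ T : Finset P, T ⊆ Λ → ∀ a : P → ℕ,
      Good Λ b u κ fun x => if x ∈ T then θ else r (a x) := by
    intro T
    induction T using Finset.induction_on with
    | empty => intro _ a; simpa using h a
    | insert x₀ T hxT ih =>
      intro hT a
      have hx : x₀ ∈ Λ := hT (Finset.mem_insert_self _ _)
      have ih' := ih fun y hy => hT (Finset.mem_insert_of_mem hy)
      set f : P → ℝ → ℝ := fun x => if x ∈ insert x₀ T then θ else r (a x) with hfdef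
      have hc : ∀ x, Continuous (f x) := fun x => by
        simp only [hfdef]; split_ifs; exacts [hθc, hrc _]
      have hf : ∀ x ψ, |f x ψ| ≤ 3 := fun x ψ => by
        simp only [hfdef]; split_ifs; exacts [hθ ψ, hr _ ψ]
      have hs' : ∀ ψ, HasSum (fun q : ℕ => (1 / 2 : ℝ) ^ (q + 1) * r q ψ) (f x₀ ψ) := fun ψ => by
        simpa [hfdef] using hs ψ
      have hu : ∀ q, Function.update f x₀ (r q) =
          fun x => if x ∈ T then θ else r (Function.update a x₀ q x) := fun q => by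
        funext x
        by_cases hxx : x = x₀
        · subst hxx; simp [hxT]
        · simp [hfdef, hxx]
      have H0 := (hasSum_J Λ hb f hc hf r hrc hr hx hs' 0).mul_left (2 * Real.exp (-κ))
      have H1 := (hasSum_J Λ hb f hc hf r hrc hr hx hs' u).add
        (hasSum_J Λ hb f hc hf r hrc hr hx hs' (-u))
      refine hasSum_le (fun q => ?_) H0 H1
      have := ih' (Function.update a x₀ q)
      rw [← hu q] at this
      unfold Good at this
      have hp : (0 : ℝ) ≤ (1 / 2 : ℝ) ^ (q + 1) := by positivity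
      nlinarith [mul_le_mul_of_nonneg_left this hp]
  have h1 := key Λ (Finset.Subset.refl _) fun _ => 0
  have e : ∀ g, Jg Λ b (fun x => if x ∈ Λ then θ else r 0) g = Jg Λ b (fun _ => θ) g := fun g => by
    unfold Jg
    refine integral_congr_ae (ae_of_all _ fun φ => ?_)
    simp only
    rw [Finset.prod_congr rfl fun x hx => by rw [if_pos hx]]
  unfold Good at h1 ⊢
  simpa only [e] using h1

/-- Poisson summation. -/
theorem poisson {γ : ℝ} (hγ : 0 < γ) (ψ : ℝ) :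
    HasSum (fun n : ℤ => Real.exp (-γ * (n : ℝ) ^ 2 / 2) * Real.cos (n * ψ))
      (th γ ψ / (γ / (2 * Real.pi)) ^ (1 / 2 : ℝ)) := by
  have hπ := Real.pi_pos
  have ha : 0 < γ / (2 * Real.pi) := by positivity
  have H := Complex.tsum_exp_neg_quadratic (a := ((γ / (2 * Real.pi) : ℝ) : ℂ))
    (by rwa [Complex.ofReal_re]) (Complex.I * ψ / (2 * Real.pi))
  have hπc : (Real.pi : ℂ) ≠ 0 := by exact_mod_cast hπ.ne'
  have hγc : (γ : ℂ) ≠ 0 := by exact_mod_cast hγ.ne'
  have e1 : ∀ n : ℤ, Complex.exp (-(Real.pi : ℂ) * ((γ / (2 * Real.pi) : ℝ) : ℂ) * (n : ℂ) ^ 2 +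
      2 * (Real.pi : ℂ) * (Complex.I * ψ / (2 * Real.pi)) * n) =
      ((Real.exp (-γ * (n : ℝ) ^ 2 / 2) : ℝ) : ℂ) * Complex.exp (((n * ψ : ℝ) : ℂ) * Complex.I) := by
    intro n
    rw [Complex.ofReal_exp, ← Complex.exp_add]
    congr 1
    push_cast
    field_simp
  have e2 : ∀ n : ℤ, Complex.exp (-(Real.pi : ℂ) / ((γ / (2 * Real.pi) : ℝ) : ℂ) *
      ((n : ℂ) + Complex.I * (Complex.I * ψ / (2 * Real.pi))) ^ 2) =
      ((Real.exp (-(ψ - 2 * Real.pi * n) ^ 2 / (2 * γ)) : ℝ) : ℂ) := by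
    intro n
    rw [Complex.ofReal_exp]
    congr 1
    have : Complex.I * (Complex.I * ψ / (2 * Real.pi)) = -(ψ / (2 * Real.pi) : ℂ) := by
      rw [← mul_div_assoc, ← mul_assoc, Complex.I_mul_I]; ring
    rw [this]
    push_cast
    field_simp
    ring
  simp only [e1, e2] at H
  rw [← Complex.ofReal_tsum] at H
  have e3 : (((γ / (2 * Real.pi) : ℝ) : ℂ)) ^ (1 / 2 : ℂ) =
      (((γ / (2 * Real.pi)) ^ (1 / 2 : ℝ) : ℝ) : ℂ) := by
    rw [Complex.ofReal_cpow ha.le]; norm_num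
  rw [e3] at H
  have hsr : Summable fun n : ℤ => Real.exp (-γ * (n : ℝ) ^ 2 / 2) := by
    have hn : Summable fun n : ℕ => Real.exp (-γ * (n : ℝ) ^ 2 / 2) := by
      refine Summable.of_nonneg_of_le (fun n => (Real.exp_pos _).le) (fun n => ?_)
        (Real.summable_exp_nat_mul_iff.2 (show -γ / 2 < 0 by linarith))
      refine Real.exp_le_exp.2 ?_
      have : (n : ℝ) ≤ (n : ℝ) ^ 2 := by exact_mod_cast Nat.le_self_pow two_ne_zero n
      nlinarith
    refine Summable.of_nat_of_neg ?_ ?_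
    · simpa using hn
    · simpa using hn
  have hs : Summable fun n : ℤ => ((Real.exp (-γ * (n : ℝ) ^ 2 / 2) : ℝ) : ℂ) *
      Complex.exp (((n * ψ : ℝ) : ℂ) * Complex.I) := by
    refine Summable.of_norm_bounded hsr fun n => ?_
    rw [norm_mul, Complex.norm_exp_ofReal_mul_I, mul_one, Complex.norm_real, Real.norm_eq_abs,
      abs_of_pos (Real.exp_pos _)]
  have H2 := Complex.hasSum_re (H ▸ hs.hasSum)
  simp only [Complex.re_ofReal_mul, Complex.exp_ofReal_mul_I_re] at H2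
  convert H2 using 1
  rw [← Complex.ofReal_one, ← Complex.ofReal_div, ← Complex.ofReal_mul, Complex.ofReal_re]
  unfold th
  ring

/-- Amplitude of the charge `q + 1`. -/
noncomputable def cq (γ : ℝ) (q : ℕ) : ℝ := 2 ^ (q + 1) * Real.exp (-γ * ((q : ℝ) + 1) ^ 2 / 2)
/-- The real factor of charge `q + 1`. -/
noncomputable def Rq (γ : ℝ) (q : ℕ) (ψ : ℝ) : ℝ := 1 + 2 * cq γ q * Real.cos (((q : ℝ) + 1) * ψ)

theorem hasSum_Rq {γ : ℝ} (hγ : 0 < γ) (ψ : ℝ) :
    HasSum (fun q : ℕ => (1 / 2 : ℝ) ^ (q + 1) * Rq γ q ψ)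
      (th γ ψ / (γ / (2 * Real.pi)) ^ (1 / 2 : ℝ)) := by
  have H := (hasSum_nat_add_iff' 1).2 (poisson hγ ψ).nat_add_neg
  have H2 := hasSum_half.add H
  convert H2 using 1
  · funext q
    unfold Rq cq
    push_cast
    simp only [neg_mul, Real.cos_neg, even_two, Even.neg_pow]
    have : (1 / 2 : ℝ) ^ (q + 1) * 2 ^ (q + 1) = 1 := by rw [← mul_pow]; norm_num
    linear_combination (2 * Real.exp (-(γ * ((q : ℝ) + 1) ^ 2) / 2) *
      Real.cos (((q : ℝ) + 1) * ψ)) * this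
  · simp

theorem cq_pos (γ : ℝ) (q : ℕ) : 0 < cq γ q := by unfold cq; positivity

theorem cq_le {γ h : ℝ} (hh0 : 0 ≤ h) (hγ : 2 * h + 1 ≤ γ / 2) (q : ℕ) :
    cq γ q * Real.exp (((q : ℝ) + 1) * (2 * h)) ≤ Real.exp (-γ / 2 + 2 * h + 1) := by
  unfold cq
  have h2 : (2 : ℝ) ^ (q + 1) ≤ Real.exp ((q : ℝ) + 1) := by
    have : (2 : ℝ) ≤ Real.exp 1 := by linarith [Real.add_one_le_exp (1 : ℝ)]
    calc (2 : ℝ) ^ (q + 1) ≤ Real.exp 1 ^ (q + 1) := pow_le_pow_left₀ (by norm_num) this _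
      _ = Real.exp ((q : ℝ) + 1) := by rw [← Real.exp_nat_mul]; push_cast; ring_nf
  have hq : (0 : ℝ) ≤ q := Nat.cast_nonneg q
  calc 2 ^ (q + 1) * Real.exp (-γ * ((q : ℝ) + 1) ^ 2 / 2) * Real.exp (((q : ℝ) + 1) * (2 * h))
      ≤ Real.exp ((q : ℝ) + 1) * Real.exp (-γ * ((q : ℝ) + 1) ^ 2 / 2) *
          Real.exp (((q : ℝ) + 1) * (2 * h)) := by gcongr
    _ = Real.exp (((q : ℝ) + 1) + (-γ * ((q : ℝ) + 1) ^ 2 / 2) + ((q : ℝ) + 1) * (2 * h)) := by
        rw [← Real.exp_add, ← Real.exp_add]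
    _ ≤ _ := by
        refine Real.exp_le_exp.2 ?_
        have h3 : 0 ≤ γ / 2 * (q * (q + 1)) := by
          have : 0 ≤ γ / 2 := by linarith
          positivity
        have h4 : 0 ≤ (γ / 2 - (2 * h + 1)) * q := mul_nonneg (by linarith) hq
        nlinarith

/-- The object of charge `q + 1` at the site `m`. -/
noncomputable def Gq (γ : ℝ) (q : ℕ) (m : P) : Fld → ℂ :=
  fun Φ => (cq γ q : ℂ) * Complex.exp (Complex.I * ((q : ℂ) + 1) * (Φ.1 m + Φ.2 m))

theorem self_mem_Q (p : ℕ) (m : P) : m ∈ Q p 0 m := by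
  simp [Q, enl, el]

theorem ob_zero (b : ℝ) (p j : ℕ) (X Y : Finset P) (q : ℤ) {δ : ℝ} (hδ : 0 ≤ δ) :
    Ob b p j X Y q δ fun _ => 0 where
  meas := measurable_const
  lh := fun _ _ _ => differentiableAt_const _
  bd := fun _ _ => by simpa using hδ
  dep := fun _ _ _ => rfl
  cov1 := fun _ _ => by simp
  cov2 := fun _ _ => by simp

theorem ob_Gq {b γ : ℝ} {p : ℕ} (hh0 : 0 ≤ h0 b p) (hγ : 2 * h0 b p + 1 ≤ γ / 2) (q : ℕ) (m : P) :
    Ob b p 0 (Q p 0 m) (Q p 0 m) ((q : ℤ) + 1) (Real.exp (-γ / 2 + 2 * h0 b p + 1)) (Gq γ q m) where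
  meas := by
    unfold Gq
    fun_prop
  lh := fun Φ _ Ψ => by
    unfold Gq
    simp only [Prod.fst_add, Prod.snd_add, Prod.smul_fst, Prod.smul_snd, Pi.add_apply,
      Pi.smul_apply, smul_eq_mul]
    fun_prop
  bd := fun Φ hΦ => by
    obtain ⟨h1, h2, -⟩ := hΦ.1 m (self_mem_Q p m)
    refine le_trans ?_ (cq_le hh0 hγ q)
    unfold Gq
    rw [norm_mul, Complex.norm_real, Real.norm_eq_abs, abs_of_pos (cq_pos γ q), Complex.norm_exp]
    refine mul_le_mul_of_nonneg_left (Real.exp_le_exp.2 ?_) (cq_pos γ q).le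
    have e : (Complex.I * ((q : ℂ) + 1) * (Φ.1 m + Φ.2 m)).re =
        ((q : ℝ) + 1) * (-(Φ.1 m).im - (Φ.2 m).im) := by
      simp; ring
    rw [e]
    refine mul_le_mul_of_nonneg_left ?_ (by positivity)
    linarith [neg_abs_le (Φ.1 m).im, neg_abs_le (Φ.2 m).im]
  dep := fun Φ Φ' h => by
    obtain ⟨h1, h2⟩ := h m (self_mem_Q p m)
    unfold Gq
    rw [h1, h2]
  cov1 := fun Φ c => by
    unfold Gq
    rw [mul_left_comm, ← Complex.exp_add]
    push_cast
    ring_nf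
  cov2 := fun Φ c => by
    unfold Gq
    rw [mul_left_comm, ← Complex.exp_add]
    push_cast
    ring_nf

theorem fac_zero (Φ : Fld) : fac (fun _ => 0) Φ = 1 := by simp [fac, cj]

theorem fac_Gq (γ : ℝ) (q : ℕ) (m : P) (φ g : P → ℝ) :
    fac (Gq γ q m) (rl φ g) = (Rq γ q (φ m + g m) : ℂ) := by
  have hs : star (rl φ g) = rl φ g := by
    unfold rl
    ext x <;> simp
  unfold fac cj
  rw [hs]
  have e : Gq γ q m (rl φ g) =
      (cq γ q : ℂ) * Complex.exp (((((q : ℝ) + 1) * (φ m + g m) : ℝ) : ℂ) * Complex.I) := by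
    unfold Gq rl
    push_cast
    ring_nf
  rw [add_assoc, Complex.star_def, Complex.add_conj, e, Complex.re_ofReal_mul,
    Complex.exp_ofReal_mul_I_re]
  unfold Rq
  push_cast
  ring

end Ini6

open Ini6 in
theorem iniStmt : IniStmt := by
  classical
  intro b γ p Λ S u κ hb hp hγ hΛ hC
  have hh0 : 0 ≤ h0 b p := by
    unfold h0 hh
    have := Real.pi_pos
    positivity
  have hγ0 : 0 < γ := by linarith
  set δ₀ := Real.exp (-γ / 2 + 2 * h0 b p + 1) with hδ
  have hδ0 : 0 < δ₀ := Real.exp_pos _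
  have hdl : dl δ₀ 0 = δ₀ := by simp [dl]
  have hR : ∀ q ψ, |Rq γ q ψ| ≤ 3 := fun q ψ => by
    have h1 : cq γ q ≤ 1 := by
      have h2 := cq_le hh0 hγ q
      have h3 : δ₀ ≤ 1 := Real.exp_le_one_iff.2 (by linarith)
      have h4 : 1 ≤ Real.exp (((q : ℝ) + 1) * (2 * h0 b p)) := Real.one_le_exp (by positivity)
      nlinarith [cq_pos γ q]
    have h5 := cq_pos γ q
    unfold Rq
    rw [abs_le]
    constructor <;> nlinarith [Real.cos_le_one (((q : ℝ) + 1) * ψ),
      Real.neg_one_le_cos (((q : ℝ) + 1) * ψ)]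
  have hRc : ∀ q, Continuous (Rq γ q) := fun q => by
    unfold Rq
    fun_prop
  have hall : ∀ a : P → ℕ, Good Λ b u κ fun x => Rq γ (a x) := fun a => by
    have H := hC (fun _ _ _ => 0) (fun m => if m ∈ Λ then Gq γ (a m) m else fun _ => 0)
      (fun k _ m _ => ⟨0, ob_zero _ _ _ _ _ _ (by
        unfold KK NN dl
        positivity), Or.inl rfl⟩)
      (fun m _ => by
        by_cases hm : m ∈ Λ
        · refine ⟨(a m : ℤ) + 1, by omega, ?_⟩
          rw [if_pos hm, hdl]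
          exact ob_Gq hh0 hγ _ m
        · refine ⟨1, le_rfl, ?_⟩
          rw [if_neg hm, hdl]
          exact ob_zero _ _ _ _ _ _ hδ0.le)
    have e : ∀ g, Ig Λ b (fun Φ => FW S 0 (fun _ _ _ => 0) Φ *
        ∏ m ∈ S, fac (if m ∈ Λ then Gq γ (a m) m else fun _ => 0) Φ) g =
        Jg Λ b (fun x => Rq γ (a x)) g := fun g => by
      unfold Ig Jg
      refine MeasureTheory.integral_congr_ae (MeasureTheory.ae_of_all _ fun φ => ?_)
      simp only
      congr 1
      have e1 : FW S 0 (fun _ _ _ => 0) (rl (ext Λ φ) g) = 1 := by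
        unfold FW
        simp [fac_zero]
      have e2 : ∏ m ∈ S, fac (if m ∈ Λ then Gq γ (a m) m else fun _ => 0) (rl (ext Λ φ) g) =
          ∏ m ∈ Λ, ((Rq γ (a m) (ext Λ φ m + g m) : ℝ) : ℂ) := by
        rw [← Finset.prod_subset hΛ (fun m _ hm => by rw [if_neg hm, fac_zero])]
        exact Finset.prod_congr rfl fun m hm => by rw [if_pos hm, fac_Gq]
      rw [e1, e2, one_mul, ← Complex.ofReal_prod, Complex.ofReal_re]
    unfold Low at H
    unfold Good
    simpa only [e] using H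
  have hG := good_of_all Λ hb u κ _ (Rq γ) hRc hR (hasSum_Rq hγ0) hall
  set c : ℝ := (γ / (2 * Real.pi)) ^ (1 / 2 : ℝ) with hc
  have hc0 : 0 < c := by
    have := Real.pi_pos
    positivity
  have e : ∀ g, Zf Λ b γ g = c ^ Λ.card * Jg Λ b (fun _ ψ => th γ ψ / c) g := fun g => by
    unfold Zf Jg
    rw [← MeasureTheory.integral_const_mul]
    refine MeasureTheory.integral_congr_ae (MeasureTheory.ae_of_all _ fun φ => ?_)
    simp only
    rw [Finset.prod_div_distrib, Finset.prod_const]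
    field_simp
  unfold Good at hG
  rw [e, e, e]
  have hp : 0 ≤ c ^ Λ.card := by positivity
  nlinarith [mul_le_mul_of_nonneg_left hG hp]

end Crest.Agent.T145.FS
end

-- ▼ part T145/FsOne_14

/-!
# Row 145 (helper14): `FS.OneStmt` (second-order Schwarz estimate) and `FS.FinStmt` (last scale)
-/

set_option autoImplicit false

namespace Crest.Agent.T145.FS

open MeasureTheory Finset Filter Topology

namespace O14

theorem schwarz2 {f : ℂ → ℂ} {T δ : ℝ} (hδ : δ ≤ 1 / 8) (hd : DifferentiableOn ℂ f (Metric.ball 0 T))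
    (hb : ∀ t ∈ Metric.ball (0 : ℂ) T, ‖f t - 1‖ ≤ 2 * δ) {t : ℂ} (ht : t ∈ Metric.ball (0 : ℂ) T) :
    ‖f t * f (-t) - f 0 ^ 2‖ ≤ 10 * δ * (‖t‖ / T) ^ 2 := by
  have hT : 0 < T := Metric.nonempty_ball.1 ⟨_, ht⟩
  have h0 : (0 : ℂ) ∈ Metric.ball (0 : ℂ) T := Metric.mem_ball_self hT
  have hn : ∀ s ∈ Metric.ball (0 : ℂ) T, -s ∈ Metric.ball (0 : ℂ) T := fun s hs => by simpa using hs
  have hδ0 : 0 ≤ δ := by linarith [hb 0 h0, norm_nonneg (f 0 - 1)]
  have hf := (hd.differentiableAt (Metric.ball_mem_nhds 0 hT)).hasDerivAt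
  have hf' : HasDerivAt (fun s => f (-s)) (-deriv f 0) 0 := by
    simpa [Function.comp_def] using HasDerivAt.comp (0 : ℂ) (h₂ := f) (h := fun s => -s)
      (by rwa [neg_zero]) (hasDerivAt_neg 0)
  have hE : HasDerivAt (fun s => f s * f (-s)) 0 0 := by
    refine (hf.mul hf').congr_deriv ?_
    rw [neg_zero]
    ring
  have := Complex.dist_le_mul_div_pow_of_mapsTo_ball_of_isLittleO (f := fun s => f s * f (-s))
    (R₂ := 10 * δ) (n := 1) (hd.mul (hd.comp (differentiableOn_neg _) hn)) (fun s hs => ?_)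
    (by simpa using hE.isLittleO.norm_right) ht
  · simpa [dist_eq_norm, sq] using this
  · have e : f s * f (-s) - f 0 * f (-0) = (f s - 1) + (f (-s) - 1) + (f s - 1) * (f (-s) - 1) -
        (2 * (f 0 - 1) + (f 0 - 1) * (f 0 - 1)) := by rw [neg_zero]; ring
    rw [Metric.mem_closedBall, dist_eq_norm, e]
    have a1 := hb s hs
    have a2 := hb _ (hn s hs)
    have a3 := hb 0 h0
    have b1 := (norm_mul_le _ _).trans (mul_le_mul a1 a2 (norm_nonneg _) (by positivity))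
    have b2 := (norm_mul_le _ _).trans (mul_le_mul a3 a3 (norm_nonneg _) (by positivity))
    have b3 : ‖2 * (f 0 - 1)‖ ≤ 4 * δ := by rw [norm_mul, Complex.norm_two]; linarith
    have c1 := norm_sub_le ((f s - 1) + (f (-s) - 1) + (f s - 1) * (f (-s) - 1))
      (2 * (f 0 - 1) + (f 0 - 1) * (f 0 - 1))
    have c2 := norm_add₃_le (a := f s - 1) (b := f (-s) - 1) (c := (f s - 1) * (f (-s) - 1))
    have c3 := norm_add_le (2 * (f 0 - 1)) ((f 0 - 1) * (f 0 - 1))
    nlinarith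

theorem star_line (φ g ψ χ : P → ℝ) (t : ℂ) :
    star (rl φ g + t • rl ψ χ) = rl φ g + (star t) • rl ψ χ := by
  ext x <;> simp [rl]

theorem w_mul (c : ℝ) (g : P → ℝ) (y : P) : w (fun y => c * g y) y = c ^ 2 * w g y := by
  simp only [w]; ring

theorem w_nonneg (g : P → ℝ) (y : P) : 0 ≤ w g y := by unfold w; positivity

theorem En_nonneg (X : Finset P) (g : P → ℝ) : 0 ≤ En X g := sum_nonneg fun y _ => w_nonneg g y

end O14

open O14

/-- **ONE** -/
theorem oneStmt (h : ExtStmt) : OneStmt := by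
  intro b p k m q δ n hb hp hn hδ φ g ψ χ x hx0 hx1 h1 h2 h3 t ht
  have key : ∀ y ∈ Set.Ioo x 1, ‖fac n (rl φ g + t • rl ψ χ) * fac n (rl φ g - t • rl ψ χ) -
      fac n (rl φ g) ^ 2‖ ≤ 10 * δ * y := by
    intro y hy
    have hy0 : 0 < y := hx0.trans_lt hy.1
    have hs : 0 < √y := Real.sqrt_pos.2 hy0
    have hs1 : √y < 1 := Real.sqrt_lt' one_pos |>.2 (by simpa using hy.2)
    have hN : ∀ s ∈ Metric.ball (0 : ℂ) (√y)⁻¹, ‖n (rl φ g + s • rl ψ χ)‖ ≤ δ ∧
        DifferentiableAt ℂ (fun s : ℂ => n (rl φ g + s • rl ψ χ)) s := by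
      intro s hs'
      have a1 : s.im ^ 2 * x ≤ 1 := by
        have b1 : |s.im| * √y ≤ 1 := by
          rw [← le_div_iff₀ hs, one_div]
          exact (Complex.abs_im_le_norm s).trans (mem_ball_zero_iff.1 hs').le
        have b2 := pow_le_one₀ (n := 2) (by positivity) b1
        rw [mul_pow, sq_abs, Real.sq_sqrt hy0.le] at b2
        nlinarith [hy.1, sq_nonneg s.im]
      have e1 : (fun z => ((rl φ g + s • rl ψ χ).1 z).im) = fun z => s.im * ψ z := by
        funext z; simp [rl]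
      have e2 : (fun z => ((rl φ g + s • rl ψ χ).2 z).im) = fun z => s.im * χ z := by
        funext z; simp [rl]
      obtain ⟨c1, c2⟩ := h b p k m q δ n hb hp hn (rl φ g + s • rl ψ χ) (fun z hz => by
        rw [e1, w_mul]
        refine (mul_le_mul_of_nonneg_left (h1 z hz) (sq_nonneg _)).trans ?_
        rw [← mul_assoc]
        exact mul_le_of_le_one_left (sq_nonneg _) a1) (by
        rw [e2, En]
        simp only [w_mul, ← mul_sum]
        refine (mul_le_mul_of_nonneg_left h2 (sq_nonneg _)).trans ?_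
        rw [← mul_assoc]
        exact mul_le_of_le_one_left (by positivity) a1) (h3.imp id fun ⟨⟨z, hz, hz'⟩, z', hw, hw'⟩ =>
          ⟨⟨z, hz, by rw [congrFun e1 z, hz', mul_zero]⟩, z', hw,
            by rw [congrFun e2 z', hw', mul_zero]⟩)
      refine ⟨c1, ?_⟩
      have := DifferentiableAt.comp (g := fun r : ℂ => n (rl φ g + s • rl ψ χ + r • rl ψ χ)) s
        (f := fun r => r - s) (by rw [sub_self]; exact c2 _) (by fun_prop)
      simpa [Function.comp_def, sub_smul] using this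
    have hc : ∀ s ∈ Metric.ball (0 : ℂ) (√y)⁻¹, star s ∈ Metric.ball (0 : ℂ) (√y)⁻¹ :=
      fun s hs => by simpa using hs
    have ht' : t ∈ Metric.ball (0 : ℂ) (√y)⁻¹ := by
      simpa using ht.trans_lt ((one_lt_inv₀ hs).2 hs1)
    have := schwarz2 (f := fun s => fac n (rl φ g + s • rl ψ χ)) hδ (fun s hs => ?_)
      (fun s hs => ?_) ht'
    · simp only [neg_smul, ← sub_eq_add_neg, zero_smul, add_zero] at this
      refine this.trans ?_
      have hδ0 : 0 ≤ δ := (norm_nonneg _).trans (hN t ht').1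
      rw [div_inv_eq_mul, mul_pow, Real.sq_sqrt hy0.le]
      exact mul_le_mul_of_nonneg_left
        (mul_le_of_le_one_left hy0.le (pow_le_one₀ (norm_nonneg _) ht)) (by positivity)
    · simp only [fac, cj, star_line]
      have := (hN _ (hc s hs)).2.star_star
      rw [star_star] at this
      exact (((hN s hs).2.const_add 1).add this).differentiableWithinAt
    · simp only [fac, cj, star_line]
      rw [add_assoc, add_sub_cancel_left, two_mul]
      exact norm_add_le_of_le (hN s hs).1 (by rw [norm_star]; exact (hN _ (hc s hs)).1)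
  refine ge_of_tendsto (x := 𝓝[>] x) (f := fun y => 10 * δ * y)
    (((continuous_const.mul continuous_id).tendsto x).mono_left nhdsWithin_le_nhds) ?_
  filter_upwards [Ioo_mem_nhdsGT hx1] using key

namespace O14

variable {Λ : Finset P} {u : P → ℝ}

/-- pointwise form of the lower bound -/
structure Pw (Λ : Finset P) (u : P → ℝ) (κ : ℝ) (W : Fld → ℂ) : Prop where
  meas : ∀ g, Measurable fun φ : Λ → ℝ => (W (rl (ext Λ φ) g)).re
  im : ∀ φ g, (W (rl φ g)).im = 0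
  pos : ∀ φ g, 0 < (W (rl φ g)).re
  rat : ∃ C, ∀ φ g, (W (rl φ g)).re ≤ C * (W (rl φ 0)).re
  low : ∀ φ, (W (rl φ 0)).re ^ 2 * Real.exp (-κ) ≤ (W (rl φ u)).re * (W (rl φ (-u))).re

theorem Pw.mul {κ κ' : ℝ} {W W' : Fld → ℂ} (h : Pw Λ u κ W) (h' : Pw Λ u κ' W') :
    Pw Λ u (κ + κ') fun Φ => W Φ * W' Φ := by
  have e : ∀ φ g, (W (rl φ g) * W' (rl φ g)).re = (W (rl φ g)).re * (W' (rl φ g)).re :=
    fun φ g => by simp [h.im]
  obtain ⟨C, hC⟩ := h.rat
  obtain ⟨C', hC'⟩ := h'.rat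
  refine ⟨fun g => ?_, fun φ g => by simp [h.im, h'.im], fun φ g => ?_, ⟨C * C', fun φ g => ?_⟩,
    fun φ => ?_⟩ <;> simp only [e]
  · exact (h.meas g).mul (h'.meas g)
  · exact mul_pos (h.pos φ g) (h'.pos φ g)
  · exact (mul_le_mul (hC φ g) (hC' φ g) (h'.pos φ g).le ((h.pos φ g).le.trans (hC φ g))).trans_eq
      (by ring)
  · have := mul_le_mul (h.low φ) (h'.low φ) (by positivity) (mul_pos (h.pos _ _) (h.pos _ _)).le
    rw [neg_add, Real.exp_add]
    linarith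

theorem Pw.prod {ι : Type} (s : Finset ι) {κ : ι → ℝ} {W : ι → Fld → ℂ}
    (h : ∀ i ∈ s, Pw Λ u (κ i) (W i)) : Pw Λ u (∑ i ∈ s, κ i) fun Φ => ∏ i ∈ s, W i Φ := by
  classical
  induction s using Finset.induction_on with
  | empty => exact ⟨by simp, by simp, by simp, ⟨1, by simp⟩, by simp⟩
  | insert i s hi ih =>
    simp only [sum_insert hi, prod_insert hi]
    exact (h i (mem_insert_self _ _)).mul (ih fun j hj => h j (mem_insert_of_mem hj))

theorem meas_ext (x : P) : Measurable fun φ : Λ → ℝ => ext Λ φ x := by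
  unfold ext
  split_ifs <;> fun_prop

theorem Pw.toLow {κ κ' b : ℝ} {W : Fld → ℂ} (h : Pw Λ u κ W) (hκ : κ ≤ 2 * κ') :
    Low Λ b u κ' W := by
  have hg : ∀ φ, 0 < gw Λ b φ := fun φ => Real.exp_pos _
  have h0 : ∀ g φ, 0 ≤ (W (rl (ext Λ φ) g)).re * gw Λ b φ := fun g φ =>
    (mul_pos (h.pos _ _) (hg φ)).le
  by_cases hi : Integrable fun φ : Λ → ℝ => (W (rl (ext Λ φ) 0)).re * gw Λ b φ
  · obtain ⟨C, hC⟩ := h.rat
    have hm : Measurable (gw Λ b) := by
      have := meas_ext (Λ := Λ)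
      unfold gw D En w
      fun_prop
    have hI : ∀ g, Integrable fun φ : Λ → ℝ => (W (rl (ext Λ φ) g)).re * gw Λ b φ := fun g =>
      (hi.const_mul C).mono' ((h.meas g).mul hm).aestronglyMeasurable (ae_of_all _ fun φ => by
        rw [Real.norm_of_nonneg (h0 g φ), ← mul_assoc]
        exact mul_le_mul_of_nonneg_right (hC _ g) (hg φ).le)
    rw [Low, Ig, Ig, Ig, ← integral_add (hI _) (hI _), ← integral_const_mul]
    refine integral_mono ((hI _).const_mul _) ((hI _).add (hI _)) fun φ => ?_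
    simp only [← add_mul, ← mul_assoc]
    refine mul_le_mul_of_nonneg_right ?_ (hg φ).le
    have a1 := h.low (ext Λ φ)
    have a2 : Real.exp (-κ') ^ 2 ≤ Real.exp (-κ) := by
      rw [← Real.exp_nat_mul]
      exact Real.exp_le_exp.2 (by push_cast; linarith)
    refine (le_abs_self _).trans (abs_le_of_sq_le_sq' ?_ (add_pos (h.pos _ _) (h.pos _ _)).le |>
      fun a => abs_le.2 a)
    nlinarith [sq_nonneg ((W (rl (ext Λ φ) u)).re - (W (rl (ext Λ φ) (-u))).re),
      mul_le_mul_of_nonneg_left a2 (sq_nonneg (W (rl (ext Λ φ) 0)).re)]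
  · rw [Low, Ig, integral_undef hi, mul_zero]
    exact add_nonneg (integral_nonneg (h0 _)) (integral_nonneg (h0 _))

theorem w_halo (hu : ∀ x ∉ Λ, u x = 0) {x : P} (hx : x ∉ halo Λ) : w u x = 0 := by
  simp only [halo, mem_union, mem_image, not_or, not_exists, not_and] at hx
  rw [w, hu x hx.1.1, hu _ fun h => hx.1.2 _ h (by simp), hu _ fun h => hx.2 _ h (by simp)]
  simp

theorem En_eq (hu : ∀ x ∉ Λ, u x = 0) (X : Finset P) :
    En X u = ∑ x ∈ halo Λ, if x ∈ X then w u x else 0 := by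
  rw [sum_ite_mem, En]
  exact (sum_subset inter_subset_right fun x h1 h2 =>
    w_halo hu fun h => h2 (mem_inter.2 ⟨h, h1⟩)).symm

theorem En_le (hu : ∀ x ∉ Λ, u x = 0) (X : Finset P) : En X u ≤ D Λ u := by
  rw [En_eq hu]
  exact sum_le_sum fun x _ => by split_ifs; exacts [le_rfl, w_nonneg u x]

theorem overlap (hu : ∀ x ∉ Λ, u x = 0) {p : ℕ} (hp : 1 ≤ p) (k : ℕ) (S : Finset P) :
    ∑ m ∈ S, En (Q p k m) u ≤ 9 * D Λ u := by
  simp only [En_eq hu]
  rw [sum_comm, D, En, mul_sum]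
  refine sum_le_sum fun x _ => ?_
  rw [← sum_filter, sum_const, nsmul_eq_mul]
  refine mul_le_mul_of_nonneg_right ?_ (w_nonneg u x)
  have hl : 0 < el p k := by unfold el; positivity
  have key : ∀ a c : ℤ, el p k * c - el p k ≤ a → a < el p k * c + el p k + el p k →
      c ∈ Icc (a / el p k - 1) (a / el p k + 1) := fun a c h1 h2 => by
    have b1 : c - 1 ≤ a / el p k := Int.le_ediv_of_mul_le hl (by linarith)
    have b2 : a / el p k < c + 2 := Int.ediv_lt_of_lt_mul hl (by linarith)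
    rw [mem_Icc]; omega
  have : #{m ∈ S | x ∈ Q p k m} ≤ #(Icc (x.1 / el p k - 1) (x.1 / el p k + 1) ×ˢ
      Icc (x.2 / el p k - 1) (x.2 / el p k + 1)) := card_le_card fun m hm => by
    have := (mem_filter.1 hm).2
    simp only [Q, enl, mem_product, mem_Ico] at this
    exact mem_product.2 ⟨key _ _ this.1.1 this.1.2, key _ _ this.2.1 this.2.2⟩
  rw [card_product, Int.card_Icc, Int.card_Icc, show ∀ a : ℤ, a + 1 + 1 - (a - 1) = 3 by omega,
    show ∀ a : ℤ, a + 1 + 1 - (a - 1) = 3 by omega] at this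
  exact_mod_cast this

theorem fac_rl (n : Fld → ℂ) (φ g : P → ℝ) :
    fac n (rl φ g) = ((1 + 2 * (n (rl φ g)).re : ℝ) : ℂ) := by
  have : star (rl φ g) = rl φ g := by simpa using star_line φ g 0 0 0
  rw [fac, cj, this, add_assoc, Complex.star_def, Complex.add_conj]
  push_cast
  rfl

/-- one factor -/
theorem pw_fac (h : OneStmt) {b d : ℝ} {p k : ℕ} {m : P} {q : ℤ} {n : Fld → ℂ} (hb : 0 < b)
    (hp : 1 ≤ p) (hn : Ob b p k (Q p k m) (Q p k m) q d n) (hd : d ≤ 1 / 20)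
    (hu : ∀ x ∉ Λ, u x = 0) (hx : 4 ^ k * D Λ u ≤ 1 / 2) (hq : q = 0 ∨ ¬ Q p k m ⊆ Λ) :
    Pw Λ u (26 * (d * 4 ^ k * En (Q p k m) u)) (fac n) := by
  have h0 : 0 ≤ h0 b p := by have := Real.pi_pos; unfold h0 hh; positivity
  have a1 : ∀ φ g, |(n (rl φ g)).re| ≤ d := fun φ g => (Complex.abs_re_le_norm _).trans
    (hn.bd _ ⟨fun x _ => by simp [rl, w, h0]; positivity, by simp [rl, w, En]⟩)
  have hd0 : 0 ≤ d := (abs_nonneg _).trans (a1 0 0)
  refine ⟨fun g => ?_, fun φ g => ?_, fun φ g => ?_, ⟨2, fun φ g => ?_⟩, fun φ => ?_⟩ <;>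
    simp only [fac_rl, Complex.ofReal_re, Complex.ofReal_im]
  · refine ((Complex.measurable_re.comp (hn.meas.comp ?_)).const_mul 2).const_add 1
    exact (measurable_pi_lambda _ fun x => Complex.measurable_ofReal.comp (meas_ext x)).prodMk
      measurable_const
  · linarith [abs_le.1 (a1 φ g)]
  · linarith [abs_le.1 (a1 φ g), abs_le.1 (a1 φ 0)]
  · have b0 : 0 ≤ 4 ^ k * En (Q p k m) u := mul_nonneg (by positivity) (En_nonneg _ _)
    have b1 : 4 ^ k * En (Q p k m) u ≤ 1 / 2 :=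
      (mul_le_mul_of_nonneg_left (En_le hu _) (by positivity)).trans hx
    have := h b p k m q d n hb hp hn (by linarith) φ 0 0 u _ b0 (by linarith)
      (fun y _ => by simp only [w]; simp; positivity)
      (by rw [mul_right_comm, ← mul_pow]; simp) (hq.imp id fun hq => by
        obtain ⟨y, h1, h2⟩ := not_subset.1 hq
        exact ⟨⟨y, h1, rfl⟩, y, h1, hu y h2⟩) 1 (by simp)
    have e1 : rl φ 0 + (1 : ℂ) • rl 0 u = rl φ u := by ext x <;> simp [rl]
    have e2 : rl φ 0 - (1 : ℂ) • rl 0 u = rl φ (-u) := by ext x <;> simp [rl]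
    rw [e1, e2, fac_rl, fac_rl, fac_rl, ← Complex.ofReal_mul, ← Complex.ofReal_pow,
      ← Complex.ofReal_sub, Complex.norm_real, Real.norm_eq_abs] at this
    rw [mul_assoc d]
    generalize 4 ^ k * En (Q p k m) u = x at b0 b1 this
    have c0 : 0 ≤ d * x := by positivity
    have c1 : d * x ≤ 1 / 40 := by nlinarith
    have c2 : Real.exp (-(26 * (d * x))) ≤ 1 - 13 * (d * x) := by
      rw [Real.exp_neg, inv_le_iff_one_le_mul₀ (Real.exp_pos _)]
      have := Real.add_one_le_exp (26 * (d * x))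
      nlinarith
    have c3 : 81 / 100 ≤ (1 + 2 * (n (rl φ 0)).re) ^ 2 := by nlinarith [abs_le.1 (a1 φ 0)]
    nlinarith [(abs_le.1 this).1, mul_le_mul_of_nonneg_left c2 (sq_nonneg (1 + 2 * (n (rl φ 0)).re))]

end O14

/-- **FIN** -/
theorem finStmt (h : OneStmt) : FinStmt := by
  intro b p δ₀ Λ S u j hb hp hδ hK hS hu hD F A hF hA
  have hp1 : 1 ≤ p := by omega
  have hK20 : 20 ≤ KK p := by
    have : (3 : ℝ) ≤ p := by exact_mod_cast hp
    unfold KK NN
    nlinarith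
  have hD0 : 0 ≤ D Λ u := En_nonneg _ _
  have hKδ : KK p * δ₀ ≤ 1 / 20 := by nlinarith
  have hdl : ∀ k, 0 ≤ dl δ₀ k ∧ dl δ₀ k ≤ δ₀ ∧ dl δ₀ k * 4 ^ k = δ₀ * (1 / 2) ^ k := fun k =>
    ⟨by unfold dl; positivity, div_le_self hδ (one_le_pow₀ (by norm_num)), by
      rw [dl, div_mul_eq_mul_div, mul_div_assoc, ← div_pow]; norm_num⟩
  have h1 := O14.Pw.prod (Λ := Λ) (u := u) (range (j + 1)) fun k hk => O14.Pw.prod S fun m hm => by
    have hk' : k ≤ j := Nat.lt_succ_iff.1 (mem_range.1 hk)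
    obtain ⟨q, h1, h2⟩ := hF k hk' m hm
    exact pw_fac h hb hp1 h1 ((mul_le_mul_of_nonneg_left (hdl k).2.1 (by linarith)).trans hKδ) hu
      ((mul_le_mul_of_nonneg_right (pow_le_pow_right₀ (by norm_num) hk') hD0).trans hD) h2
  have h2 := O14.Pw.prod (Λ := Λ) (u := u) S fun m hm => by
    obtain ⟨q, -, h1⟩ := hA m hm
    exact pw_fac h hb hp1 h1 ((hdl j).2.1.trans (by nlinarith)) hu hD (Or.inr (hS m hm))
  refine (h1.mul h2).toLow ?_
  have key : ∀ k, ∑ m ∈ S, 26 * (KK p * dl δ₀ k * 4 ^ k * En (Q p k m) u) ≤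
      234 * (KK p * δ₀ * D Λ u) * (1 / 2) ^ k := fun k => by
    rw [← mul_sum, ← mul_sum, mul_assoc (KK p), (hdl k).2.2]
    have := mul_le_mul_of_nonneg_left (overlap hu hp1 k S)
      (show 0 ≤ KK p * (δ₀ * (1 / 2) ^ k) by positivity)
    linarith
  have a0 : 0 ≤ KK p * δ₀ * D Λ u := by positivity
  have a1 := sum_le_sum fun k (_ : k ∈ range (j + 1)) => key k
  rw [← mul_sum] at a1
  have a2 := mul_le_mul_of_nonneg_left (sum_geometric_two_le (j + 1))
    (show 0 ≤ 234 * (KK p * δ₀ * D Λ u) by positivity)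
  have a3 : ∑ m ∈ S, 26 * (dl δ₀ j * 4 ^ j * En (Q p j m) u) ≤
      ∑ m ∈ S, 26 * (KK p * dl δ₀ j * 4 ^ j * En (Q p j m) u) := sum_le_sum fun m _ => by
    have := (hdl j).1
    have := En_nonneg (Q p j m) u
    gcongr
    exact le_mul_of_one_le_left (hdl j).1 (by linarith)
  have a4 := (key j).trans (mul_le_of_le_one_right (by positivity)
    (pow_le_one₀ (by norm_num) (by norm_num)))
  linarith

end Crest.Agent.T145.FS
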