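import Crest.Agent.T145.FsDef_70
import Crest.Agent.T145.Pd_77

-- ▼ part T145/FsOsc_81
section

/-!
# Row 145 (e) (helper81): `FS.oscStmt`, `FS.extStmt`
-/

set_option autoImplicit false

namespace Crest.Agent.T145.FS

open Finset

namespace O81

theorem path0 (h : ℤ → ℝ) {i i' : ℤ} (hi : i ≤ i') :
    |h i' - h i| ≤ ∑ j ∈ Ico i i', |h (j + 1) - h j| := by
  induction i', hi using Int.leInduction with
  | base => simp
  | succ n hn ih =>
    have e : Ico i (n + 1) = insert n (Ico i n) := by ext; simp; omega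
    rw [e, sum_insert (by simp)]
    have := abs_sub_le (h (n + 1)) (h n) (h i)
    linarith

theorem path1 (h : ℤ → ℝ) {a b i i' : ℤ} (hi : i ∈ Ico a b) (hi' : i' ∈ Ico a b) :
    |h i - h i'| ≤ ∑ j ∈ Ico a b, |h (j + 1) - h j| := by
  rw [mem_Ico] at hi hi'
  rcases le_total i i' with h1 | h1
  · rw [abs_sub_comm]
    exact (path0 h h1).trans (sum_le_sum_of_subset_of_nonneg
      (Ico_subset_Ico hi.1 hi'.2.le) fun _ _ _ => abs_nonneg _)
  · exact (path0 h h1).trans (sum_le_sum_of_subset_of_nonneg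
      (Ico_subset_Ico hi'.1 hi.2.le) fun _ _ _ => abs_nonneg _)

theorem avg_le (h : ℤ → ℝ) {I I' : Finset ℤ} (hI : I.Nonempty) (hI' : I'.Nonempty) {T : ℝ}
    (H : ∀ i ∈ I, ∀ i' ∈ I', h i - h i' ≤ T) :
    (∑ i ∈ I, h i) / I.card - (∑ i ∈ I', h i) / I'.card ≤ T := by
  have h1 : (0 : ℝ) < I.card := by exact_mod_cast hI.card_pos
  have h2 : (0 : ℝ) < I'.card := by exact_mod_cast hI'.card_pos
  rw [sub_le_iff_le_add, div_le_iff₀ h1, mul_comm, ← nsmul_eq_mul]
  refine sum_le_card_nsmul _ _ _ fun i hi => ?_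
  rw [← sub_le_iff_le_add', le_div_iff₀ h2, mul_comm, ← nsmul_eq_mul]
  exact card_nsmul_le_sum _ _ _ fun i' hi' => by linarith [H i hi i' hi']

theorem avg_abs (h : ℤ → ℝ) {a b : ℤ} {I I' : Finset ℤ} (hI : I.Nonempty) (hI' : I'.Nonempty)
    (s : I ⊆ Ico a b) (s' : I' ⊆ Ico a b) :
    |(∑ i ∈ I, h i) / I.card - (∑ i ∈ I', h i) / I'.card| ≤ ∑ j ∈ Ico a b, |h (j + 1) - h j| :=
  abs_sub_le_iff.2
    ⟨avg_le h hI hI' fun _ hi _ hi' => (le_abs_self _).trans (path1 h (s hi) (s' hi')),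
      avg_le h hI' hI fun _ hi _ hi' => (le_abs_self _).trans (path1 h (s' hi) (s hi'))⟩

theorem w_nonneg (g : P → ℝ) (x : P) : 0 ≤ w g x := by unfold w; positivity

theorem w_eq (g : P → ℝ) (i j : ℤ) :
    w g (i, j) = (g (i + 1, j) - g (i, j)) ^ 2 + (g (i, j + 1) - g (i, j)) ^ 2 := by
  simp [w]

theorem cs {S : Finset P} {N : ℝ} (hN : 0 ≤ N) (hS : (S.card : ℝ) = N ^ 2) (g f : P → ℝ)
    (hf : ∀ z, f z ^ 2 ≤ w g z) : ∑ z ∈ S, |f z| ≤ N * Real.sqrt (En S g) := by
  rw [← Real.sqrt_sq hN, ← Real.sqrt_mul (sq_nonneg _), ← hS]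
  refine Real.le_sqrt_of_sq_le (sq_sum_le_card_mul_sum_sq.trans ?_)
  exact mul_le_mul_of_nonneg_left (sum_le_sum fun z _ => by rw [sq_abs]; exact hf z)
    (Nat.cast_nonneg _)

/-- the average over a square -/
noncomputable def av (a : P) (N : ℕ) (g : P → ℝ) : ℝ :=
  (∑ i ∈ Ico a.1 (a.1 + N), ∑ j ∈ Ico a.2 (a.2 + N), g (i, j)) / (N : ℝ) ^ 2

theorem card_I (a : ℤ) (N : ℕ) : ((Ico a (a + N)).card : ℝ) = N := by simp

theorem step (a a' : P) {N M : ℕ} (g : P → ℝ) (hM : 0 < M) (hNM : N ≤ 2 * M)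
    (s1 : Ico a'.1 (a'.1 + M) ⊆ Ico a.1 (a.1 + N)) (s2 : Ico a'.2 (a'.2 + M) ⊆ Ico a.2 (a.2 + N)) :
    |av a' M g - av a N g| ≤
      3 * Real.sqrt (En (Ico a.1 (a.1 + N) ×ˢ Ico a.2 (a.2 + N)) g) := by
  have n1 : (Ico a'.1 (a'.1 + M)).Nonempty := nonempty_Ico.2 (by omega)
  have n2 : (Ico a'.2 (a'.2 + M)).Nonempty := nonempty_Ico.2 (by omega)
  have hM' : (0 : ℝ) < M := by exact_mod_cast hM
  have hN' : (0 : ℝ) < N := by rw [← card_I a.1 N]; exact_mod_cast (n1.mono s1).card_pos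
  have hNM' : (N : ℝ) ≤ 2 * M := by exact_mod_cast hNM
  have hS : ((Ico a.1 (a.1 + N) ×ˢ Ico a.2 (a.2 + N)).card : ℝ) = (N : ℝ) ^ 2 := by
    rw [card_product, Nat.cast_mul, card_I, card_I, sq]
  set E := Real.sqrt (En (Ico a.1 (a.1 + N) ×ˢ Ico a.2 (a.2 + N)) g) with hE
  have hE0 : 0 ≤ E := Real.sqrt_nonneg _
  have c1 := cs hN'.le hS g (fun z => g (z.1 + 1, z.2) - g (z.1, z.2)) fun z => by
    rw [show w g z = w g (z.1, z.2) from rfl, w_eq]; exact le_add_of_nonneg_right (sq_nonneg _)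
  have c2 := cs hN'.le hS g (fun z => g (z.1, z.2 + 1) - g (z.1, z.2)) fun z => by
    rw [show w g z = w g (z.1, z.2) from rfl, w_eq]; exact le_add_of_nonneg_left (sq_nonneg _)
  rw [sum_product] at c1
  rw [sum_product_right] at c2
  have a1 := avg_abs (fun i => ∑ j ∈ Ico a'.2 (a'.2 + M), g (i, j)) n1 (n1.mono s1) s1 subset_rfl
  have a2 := avg_abs (fun j => ∑ i ∈ Ico a.1 (a.1 + N), g (i, j)) n2 (n2.mono s2) s2 subset_rfl
  rw [card_I, card_I] at a1 a2
  have b1 := a1.trans ((sum_le_sum fun i _ => by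
    rw [← sum_sub_distrib]
    exact (abs_sum_le_sum_abs _ _).trans
      (sum_le_sum_of_subset_of_nonneg s2 fun _ _ _ => abs_nonneg _)).trans c1)
  have b2 := a2.trans ((sum_le_sum fun j _ => by
    rw [← sum_sub_distrib]
    exact abs_sum_le_sum_abs _ _).trans c2)
  rw [sum_comm, sum_comm (s := Ico a.2 (a.2 + N))] at b2
  unfold av
  set X := ∑ i ∈ Ico a'.1 (a'.1 + M), ∑ j ∈ Ico a'.2 (a'.2 + M), g (i, j)
  set Y := ∑ i ∈ Ico a.1 (a.1 + N), ∑ j ∈ Ico a'.2 (a'.2 + M), g (i, j)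
  set Z := ∑ i ∈ Ico a.1 (a.1 + N), ∑ j ∈ Ico a.2 (a.2 + N), g (i, j)
  have e : X / (M : ℝ) ^ 2 - Z / (N : ℝ) ^ 2 = (X / M - Y / N) / M + (Y / M - Z / N) / N := by
    field_simp
    ring
  rw [e]
  refine (abs_add_le _ _).trans ?_
  rw [abs_div, abs_div, abs_of_pos hM', abs_of_pos hN']
  have d1 : |X / M - Y / N| / M ≤ 2 * E := by
    rw [div_le_iff₀ hM']; nlinarith
  have d2 : |Y / M - Z / N| / N ≤ E := by
    rw [div_le_iff₀ hN']; linarith
  linarith

theorem chain (g : P → ℝ) (x : P) (k : ℕ) : ∀ (a : P) (N : ℕ), N ≤ 2 ^ k →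
    x ∈ Ico a.1 (a.1 + N) ×ˢ Ico a.2 (a.2 + N) →
    |g x - av a N g| ≤ 3 * k * Real.sqrt (En (Ico a.1 (a.1 + N) ×ˢ Ico a.2 (a.2 + N)) g) := by
  induction k with
  | zero =>
    intro a N hN hx
    simp only [mem_product, mem_Ico] at hx
    obtain rfl : N = 1 := by omega
    have e : ∀ c : ℤ, Ico c (c + 1) = {c} := fun c => by ext; simp; omega
    have e1 : x = a := Prod.ext (by omega) (by omega)
    simp [av, e, e1]
  | succ k ih =>
    intro a N hN hx
    simp only [mem_product, mem_Ico] at hx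
    have hp : 2 ^ (k + 1) = 2 * 2 ^ k := by ring
    set M := (N + 1) / 2 with hM
    set a' : P := (if x.1 < a.1 + M then a.1 else a.1 + N - M,
      if x.2 < a.2 + M then a.2 else a.2 + N - M) with ha
    have s1 : Ico a'.1 (a'.1 + M) ⊆ Ico a.1 (a.1 + N) :=
      Ico_subset_Ico (by simp only [ha]; split_ifs <;> omega) (by simp only [ha]; split_ifs <;> omega)
    have s2 : Ico a'.2 (a'.2 + M) ⊆ Ico a.2 (a.2 + N) :=
      Ico_subset_Ico (by simp only [ha]; split_ifs <;> omega) (by simp only [ha]; split_ifs <;> omega)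
    have h1 := ih a' M (by omega) (by
      simp only [mem_product, mem_Ico, ha]
      refine ⟨?_, ?_⟩ <;> split_ifs <;> omega)
    have h2 := step a a' g (by omega) (by omega) s1 s2
    have h3 : Real.sqrt (En (Ico a'.1 (a'.1 + M) ×ˢ Ico a'.2 (a'.2 + M)) g) ≤
        Real.sqrt (En (Ico a.1 (a.1 + N) ×ˢ Ico a.2 (a.2 + N)) g) :=
      Real.sqrt_le_sqrt (sum_le_sum_of_subset_of_nonneg (product_subset_product s1 s2)
        fun _ _ _ => w_nonneg _ _)
    have h4 := mul_le_mul_of_nonneg_left h3 (show (0 : ℝ) ≤ 3 * k by positivity)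
    have h5 := abs_sub_le (g x) (av a' M g) (av a N g)
    push_cast
    linarith

end O81

open O81

theorem oscStmt : OscStmt := by
  intro a N g x hx y hy
  refine ⟨fun k hk => ?_, fun c hc h => ?_⟩
  · have h1 := chain g x k a N hk hx
    have h2 := chain g y k a N hk hy
    have h3 := abs_sub_le (g x) (av a N g) (g y)
    rw [abs_sub_comm] at h2
    linarith
  · rw [mem_product] at hx hy
    have h1 := (path1 (fun i => g (i, x.2)) hx.1 hy.1).trans (sum_le_card_nsmul _ _ c fun i hi => by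
      have := h (i, x.2) (mem_product.2 ⟨hi, hx.2⟩)
      rw [w_eq] at this
      exact abs_le_of_sq_le_sq (by linarith [sq_nonneg (g (i, x.2 + 1) - g (i, x.2))]) hc)
    have h2 := (path1 (fun j => g (y.1, j)) hx.2 hy.2).trans (sum_le_card_nsmul _ _ c fun j hj => by
      have := h (y.1, j) (mem_product.2 ⟨hy.1, hj⟩)
      rw [w_eq] at this
      exact abs_le_of_sq_le_sq (by linarith [sq_nonneg (g (y.1 + 1, j) - g (y.1, j))]) hc)
    rw [nsmul_eq_mul, card_I] at h1 h2
    have h3 := abs_sub_le (g x) (g (y.1, x.2)) (g y)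
    have e1 : g (x.1, x.2) = g x := rfl
    have e2 : g (y.1, y.2) = g y := rfl
    simp only [e1, e2] at h1 h2
    linarith

namespace O81

theorem Q_eq (p k : ℕ) (m : P) : Q p k m =
    Ico (el p k * m.1 - el p k) (el p k * m.1 - el p k + (3 * (24 * p) ^ k : ℕ)) ×ˢ
      Ico (el p k * m.2 - el p k) (el p k * m.2 - el p k + (3 * (24 * p) ^ k : ℕ)) := by
  unfold Q enl el
  push_cast
  congr 2 <;> ring

theorem mem_Om {b : ℝ} {p k : ℕ} {m : P} (hb : 0 < b) (hp : 1 ≤ p) {Φ : Fld}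
    (h1 : ∀ y ∈ Q p k m, w (fun y => (Φ.1 y).im) y ≤ (hh b / (el p k : ℝ)) ^ 2)
    (h2 : En (Q p k m) (fun y => (Φ.2 y).im) ≤ (1 / 4 : ℝ) ^ k)
    (z1 : ∃ y ∈ Q p k m, (Φ.1 y).im = 0) (z2 : ∃ y ∈ Q p k m, (Φ.2 y).im = 0) :
    Φ ∈ Om b p k (Q p k m) := by
  obtain ⟨y1, hy1, e1⟩ := z1
  obtain ⟨y2, hy2, e2⟩ := z2
  have hh0 : 0 < hh b := div_pos hb Real.pi_pos
  have hp' : (1 : ℝ) ≤ p := by exact_mod_cast hp
  have hl : (el p k : ℝ) = (24 * (p : ℝ)) ^ k := by simp [el]
  have hl0 : (0 : ℝ) < (24 * (p : ℝ)) ^ k := by positivity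
  refine ⟨fun x hx => ⟨?_, ?_, h1 x hx⟩, h2⟩
  · rw [Q_eq] at hx hy1 h1
    have h := (oscStmt (el p k * m.1 - el p k, el p k * m.2 - el p k) (3 * (24 * p) ^ k)
      (fun y => (Φ.1 y).im) x hx y1 hy1).2 _ (by rw [hl]; positivity) h1
    simp only [e1, sub_zero] at h
    refine h.trans ?_
    rw [hl, h0]
    push_cast
    have : 2 * (3 * (24 * (p : ℝ)) ^ k) * (hh b / (24 * (p : ℝ)) ^ k) = 6 * hh b := by
      field_simp; ring
    linarith
  · rw [Q_eq] at hx hy2 h2
    have hN : 3 * (24 * p) ^ k ≤ 2 ^ (2 + 24 * p * k) := by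
      rw [pow_add, pow_mul]
      exact Nat.mul_le_mul (by norm_num) (Nat.pow_le_pow_left Nat.lt_two_pow_self.le k)
    have h := (oscStmt (el p k * m.1 - el p k, el p k * m.2 - el p k) (3 * (24 * p) ^ k)
      (fun y => (Φ.2 y).im) x hx y2 hy2).1 _ hN
    simp only [e2, sub_zero] at h
    have h3 := Real.sqrt_le_sqrt h2
    rw [show (1 / 4 : ℝ) ^ k = ((1 / 2) ^ k) ^ 2 by rw [← pow_mul, mul_comm, pow_mul]; norm_num,
      Real.sqrt_sq (by positivity)] at h3
    refine (h.trans (mul_le_mul_of_nonneg_left h3 (by positivity))).trans ?_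
    have h4 : (k : ℝ) * (1 / 2) ^ k ≤ 1 := by
      rw [one_div, inv_pow, ← div_eq_mul_inv, div_le_one (by positivity)]
      exact_mod_cast Nat.lt_two_pow_self.le
    have h5 : (1 / 2 : ℝ) ^ k ≤ 1 := pow_le_one₀ (by norm_num) (by norm_num)
    have h6 := mul_le_mul_of_nonneg_left h4 (show (0 : ℝ) ≤ p by linarith)
    rw [h0]
    push_cast
    nlinarith

end O81

theorem extStmt : ExtStmt := by
  intro b p k m q δ n hb hp hn Φ h1 h2 hq
  rcases hq with rfl | ⟨z1, z2⟩
  · have hl : 0 < el p k := by unfold el; positivity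
    have hy : cen p k m ∈ Q p k m := by
      simp only [Q, enl, cen, mem_product, mem_Ico]
      omega
    set c1 : ℂ := -(Complex.I * ((Φ.1 (cen p k m)).im : ℂ)) with hc1
    set c2 : ℂ := -(Complex.I * ((Φ.2 (cen p k m)).im : ℂ)) with hc2
    have hs : ∀ Θ : Fld, n (fun x => Θ.1 x + c1, fun x => Θ.2 x + c2) = n Θ := fun Θ => by
      have a1 := hn.cov1 (Θ.1, fun x => Θ.2 x + c2) c1
      have a2 := hn.cov2 Θ c2
      simp only [Int.cast_zero, mul_zero, zero_mul, Complex.exp_zero, one_mul] at a1 a2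
      rw [a1, a2]
    have hm : ((fun x => Φ.1 x + c1, fun x => Φ.2 x + c2) : Fld) ∈ Om b p k (Q p k m) :=
      mem_Om hb hp (fun y hy => by simpa [w] using h1 y hy) (by simpa [En, w] using h2)
        ⟨_, hy, by simp [hc1]⟩ ⟨_, hy, by simp [hc2]⟩
    refine ⟨hs Φ ▸ hn.bd _ hm, fun Ψ => ?_⟩
    convert hn.lh _ hm Ψ using 2 with s
    rw [← hs (Φ + s • Ψ)]
    congr 1
    refine Prod.ext (funext fun x => ?_) (funext fun x => ?_) <;> simp <;> ring
  · exact ⟨hn.bd _ (mem_Om hb hp h1 h2 z1 z2), hn.lh _ (mem_Om hb hp h1 h2 z1 z2)⟩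

end Crest.Agent.T145.FS
end

-- ▼ part T145/FsPh1_40
section

/-! # Row 145, item (e): `FS.Ph1Stmt` (helper40) -/

set_option autoImplicit false

namespace Crest.Agent.T145.FS

open MeasureTheory Finset

namespace P40

theorem w_nonneg (g : P → ℝ) (x : P) : 0 ≤ w g x := add_nonneg (sq_nonneg _) (sq_nonneg _)

theorem w_le_D {Λ : Finset P} (g : P → ℝ) {x : P} (hx : x ∈ Λ) : w g x ≤ D Λ g :=
  single_le_sum (fun y _ => w_nonneg g y) (mem_union_left _ (mem_union_left _ hx))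

theorem D_nonneg (Λ : Finset P) (g : P → ℝ) : 0 ≤ D Λ g := sum_nonneg fun y _ => w_nonneg g y

theorem sq_le_D (Λ : Finset P) : ∃ C : ℝ, 0 < C ∧ ∀ φ : Λ → ℝ, ∀ x, ext Λ φ x ^ 2 ≤ C * D Λ (ext Λ φ) := by
  obtain ⟨M, hM⟩ : ∃ M : ℤ, ∀ x ∈ Λ, x.1 < M := by
    obtain ⟨M, hM⟩ := (Λ.image Prod.fst).bddAbove
    exact ⟨M + 1, fun x hx => Int.lt_add_one_of_le (hM (mem_coe.2 (mem_image_of_mem _ hx)))⟩
  have key : ∀ k : ℕ, ∀ (φ : Λ → ℝ) (x : P), M ≤ x.1 + k →
      ext Λ φ x ^ 2 ≤ 4 ^ k * D Λ (ext Λ φ) := by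
    intro k φ
    have hD := D_nonneg Λ (ext Λ φ)
    induction k with
    | zero =>
      intro x hx
      have : x ∉ Λ := fun h => by have := hM x h; omega
      rw [ext, dif_neg this]; simpa using hD
    | succ k ih =>
      intro x hx
      by_cases h : x ∈ Λ
      · have h1 := ih (x + (1, 0)) (by simp only [Prod.fst_add]; push_cast at hx; omega)
        have h2 := w_le_D (ext Λ φ) h
        have h3 : (1 : ℝ) ≤ 4 ^ k := one_le_pow₀ (by norm_num)
        have h4 := mul_le_mul_of_nonneg_right h3 hD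
        rw [w] at h2
        rw [pow_succ (4 : ℝ)]
        nlinarith [sq_nonneg (ext Λ φ (x + (0, 1)) - ext Λ φ x),
          sq_nonneg (2 * ext Λ φ (x + (1, 0)) - ext Λ φ x)]
      · rw [ext, dif_neg h]; simp only [ne_eq, OfNat.ofNat_ne_zero, not_false_eq_true, zero_pow]
        positivity
  obtain ⟨K, hK⟩ : ∃ K : ℕ, ∀ x ∈ Λ, M ≤ x.1 + K := by
    obtain ⟨m, hm⟩ := (Λ.image Prod.fst).bddBelow
    refine ⟨(M - m).toNat, fun x hx => ?_⟩
    have := hm (mem_coe.2 (mem_image_of_mem Prod.fst hx))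
    omega
  refine ⟨4 ^ K, by positivity, fun φ x => ?_⟩
  by_cases h : x ∈ Λ
  · exact key K φ x (hK x h)
  · rw [ext, dif_neg h]
    simpa using D_nonneg Λ (ext Λ φ)

theorem meas_ext (Λ : Finset P) : Measurable fun φ : Λ → ℝ => ext Λ φ :=
  measurable_pi_lambda _ fun x => by
    unfold ext
    split_ifs
    exacts [measurable_pi_apply _, measurable_const]

theorem meas_gw (Λ : Finset P) (b : ℝ) : Measurable (gw Λ b) := by
  have h : ∀ x, Measurable fun φ : Λ → ℝ => ext Λ φ x := fun x =>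
    (measurable_pi_apply x).comp (meas_ext Λ)
  unfold gw D En w
  exact Real.measurable_exp.comp ((Finset.measurable_sum _ fun x _ =>
    (((h _).sub (h _)).pow_const 2).add (((h _).sub (h _)).pow_const 2)).neg.div_const _)

theorem integrable_gw (Λ : Finset P) {b : ℝ} (hb : 0 < b) : Integrable (gw Λ b) := by
  obtain ⟨C, hC, h⟩ := sq_le_D Λ
  have hc : 0 < (2 * b * C * (Λ.card + 1))⁻¹ := by positivity
  have h1 : Integrable fun φ : Λ → ℝ => ∏ x, Real.exp (-(2 * b * C * (Λ.card + 1))⁻¹ * φ x ^ 2) :=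
    Integrable.fintype_prod (f := fun _ t => Real.exp (-(2 * b * C * (Λ.card + 1))⁻¹ * t ^ 2))
      fun _ => integrable_exp_neg_mul_sq hc
  refine h1.mono' (meas_gw Λ b).aestronglyMeasurable (Filter.Eventually.of_forall fun φ => ?_)
  rw [gw, Real.norm_of_nonneg (Real.exp_pos _).le, ← Real.exp_sum, Real.exp_le_exp, ← mul_sum]
  have h2 : ∑ x, φ x ^ 2 ≤ (Λ.card + 1) * (C * D Λ (ext Λ φ)) := by
    refine (sum_le_card_nsmul _ _ (C * D Λ (ext Λ φ)) fun x _ => ?_).trans ?_
    · simpa [ext] using h φ x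
    · have := mul_nonneg hC.le (D_nonneg Λ (ext Λ φ))
      simp only [card_univ, Fintype.card_coe, nsmul_eq_mul]
      linarith
  rw [neg_div, neg_mul, neg_le_neg_iff, inv_mul_le_iff₀ (by positivity)]
  refine h2.trans (le_of_eq ?_)
  field_simp

/-- measurable and bounded on real fields -/
def Tm (X : Fld → ℂ) : Prop := Measurable X ∧ ∃ C : ℝ, ∀ φ g, ‖X (rl φ g)‖ ≤ C

theorem Tm.mul {X Y : Fld → ℂ} (h : Tm X) (h' : Tm Y) : Tm fun Φ => X Φ * Y Φ := by
  obtain ⟨h1, C, h2⟩ := h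
  obtain ⟨h3, C', h4⟩ := h'
  exact ⟨h1.mul h3, C * C', fun φ g => by
    rw [norm_mul]
    exact mul_le_mul (h2 φ g) (h4 φ g) (norm_nonneg _) ((norm_nonneg _).trans (h2 φ g))⟩

theorem Tm.prod {ι : Type*} {s : Finset ι} {X : ι → Fld → ℂ} (h : ∀ i ∈ s, Tm (X i)) :
    Tm fun Φ => ∏ i ∈ s, X i Φ := by
  classical
  induction s using Finset.induction_on with
  | empty => exact ⟨by simp, 1, by simp⟩
  | insert a s ha ih =>
    simp only [prod_insert ha]
    exact (h a (mem_insert_self _ _)).mul (ih fun i hi => h i (mem_insert_of_mem hi))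

theorem Tm.int {X : Fld → ℂ} (h : Tm X) (Λ : Finset P) {b : ℝ} (hb : 0 < b) (g : P → ℝ) :
    Integrable fun φ : Λ → ℝ => (X (rl (ext Λ φ) g)).re * gw Λ b φ := by
  obtain ⟨h1, C, h2⟩ := h
  have h3 : Measurable fun φ : Λ → ℝ => rl (ext Λ φ) g :=
    (measurable_pi_lambda _ fun x => Complex.measurable_ofReal.comp
      ((measurable_pi_apply x).comp (meas_ext Λ))).prodMk measurable_const
  exact (integrable_gw Λ hb).bdd_mul (c := C)
    (Complex.measurable_re.comp (h1.comp h3)).aestronglyMeasurable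
    (Filter.Eventually.of_forall fun φ => (Complex.abs_re_le_norm _).trans (h2 _ _))

theorem low4 {Λ : Finset P} {b κ : ℝ} {u : P → ℝ} (hb : 0 < b) {W : Fin 4 → Fld → ℂ}
    {c : Fin 4 → ℝ} (hc : ∀ k, 0 ≤ c k) (hW : ∀ k, Tm (W k)) (h : ∀ k, Low Λ b u κ (W k))
    {V : Fld → ℂ} (hV : ∀ Φ, V Φ = ∑ k, c k * W k Φ) : Low Λ b u κ V := by
  have e : ∀ g, Ig Λ b V g = ∑ k, c k * Ig Λ b (W k) g := fun g => by
    simp only [Ig, ← integral_const_mul]
    rw [← integral_finsetSum _ fun k _ => ((hW k).int Λ hb g).const_mul _]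
    refine integral_congr_ae (Filter.Eventually.of_forall fun φ => ?_)
    simp only [hV, Complex.re_sum, Complex.re_ofReal_mul, sum_mul, mul_assoc]
  rw [Low, e, e, e, mul_sum, ← sum_add_distrib]
  refine sum_le_sum fun k _ => ?_
  rw [← mul_add, mul_left_comm]
  exact mul_le_mul_of_nonneg_left (h k) (hc k)

variable {b : ℝ} {p j : ℕ} {X Y X' Y' : Finset P} {q q' : ℤ} {δ δ' : ℝ} {G G' : Fld → ℂ}

theorem rl_mem (hb : 0 < b) (φ g : P → ℝ) : rl φ g ∈ Om b p j X := by
  have h : 0 ≤ h0 b p := by unfold h0 hh; positivity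
  refine ⟨fun x _ => ⟨by simpa [rl] using h, by simpa [rl] using h, ?_⟩, ?_⟩
  · simpa [rl, w] using sq_nonneg _
  · simp [rl, En, w]

theorem star_mem {Φ : Fld} (h : Φ ∈ Om b p j X) : star Φ ∈ Om b p j X := by
  have e : ∀ (f : P → ℂ) x, w (fun y => ((star f) y).im) x = w (fun y => (f y).im) x := by
    intro f x
    simp only [w, Pi.star_apply, Complex.star_def, Complex.conj_im]
    ring
  refine ⟨fun x hx => ⟨by simpa using (h.1 x hx).1, by simpa using (h.1 x hx).2.1, ?_⟩, ?_⟩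
  · rw [Prod.fst_star, e]; exact (h.1 x hx).2.2
  · rw [Prod.snd_star, En, sum_congr rfl fun x _ => e _ x]; exact h.2

theorem ob_cj (h : Ob b p j X Y q δ G) : Ob b p j X Y (-q) δ (cj G) where
  meas := continuous_star.measurable.comp (h.meas.comp continuous_star.measurable)
  lh Φ hΦ Ψ := by
    have h1 := (h.lh _ (star_mem hΦ) (star Ψ)).star_conj
    rw [map_zero] at h1
    refine h1.congr_of_eventuallyEq (Filter.Eventually.of_forall fun s => ?_)
    simp [cj]
  bd Φ hΦ := by rw [cj, norm_star]; exact h.bd _ (star_mem hΦ)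
  dep Φ Φ' hd := by
    rw [cj, cj, h.dep (star Φ) (star Φ') fun x hx => by simp [hd x hx]]
  cov1 Φ c := by
    have e : star ((fun x => Φ.1 x + c, Φ.2) : Fld) =
        (fun x => (star Φ).1 x + star c, (star Φ).2) := by
      ext x <;> simp
    rw [cj, e, h.cov1, star_mul', cj]
    congr 1
    rw [Complex.star_def, ← Complex.exp_conj]
    simp
  cov2 Φ c := by
    have e : star ((Φ.1, fun x => Φ.2 x + c) : Fld) =
        ((star Φ).1, fun x => (star Φ).2 x + star c) := by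
      ext x <;> simp
    rw [cj, e, h.cov2, star_mul', cj]
    congr 1
    rw [Complex.star_def, ← Complex.exp_conj]
    simp

theorem ob_mul (h : Ob b p j X Y q δ G) (h' : Ob b p j X Y q' δ' G') :
    Ob b p j X Y (q + q') (δ * δ') fun Φ => G Φ * G' Φ where
  meas := h.meas.mul h'.meas
  lh Φ hΦ Ψ := (h.lh Φ hΦ Ψ).mul (h'.lh Φ hΦ Ψ)
  bd Φ hΦ := by
    rw [norm_mul]
    exact mul_le_mul (h.bd Φ hΦ) (h'.bd Φ hΦ) (norm_nonneg _) ((norm_nonneg _).trans (h.bd Φ hΦ))
  dep Φ Φ' hd := by rw [h.dep Φ Φ' hd, h'.dep Φ Φ' hd]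
  cov1 Φ c := by
    rw [h.cov1, h'.cov1]; push_cast
    rw [mul_add, add_mul, Complex.exp_add]; ring
  cov2 Φ c := by
    rw [h.cov2, h'.cov2]; push_cast
    rw [mul_add, add_mul, Complex.exp_add]; ring

theorem ob_smul (h : Ob b p j X Y q δ G) {r : ℝ} (hr : 0 ≤ r) (hδ : r * δ ≤ δ') :
    Ob b p j X Y q δ' fun Φ => r * G Φ where
  meas := h.meas.const_mul _
  lh Φ hΦ Ψ := (h.lh Φ hΦ Ψ).const_mul _
  bd Φ hΦ := by
    rw [norm_mul, Complex.norm_real, Real.norm_of_nonneg hr]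
    exact (mul_le_mul_of_nonneg_left (h.bd Φ hΦ) hr).trans hδ
  dep Φ Φ' hd := by rw [h.dep Φ Φ' hd]
  cov1 Φ c := by rw [h.cov1]; ring
  cov2 Φ c := by rw [h.cov2]; ring

theorem ob_zero (hδ : 0 ≤ δ) : Ob b p j X Y q δ fun _ => 0 :=
  ⟨measurable_const, fun _ _ _ => differentiableAt_const _, fun _ _ => by simpa using hδ,
    fun _ _ _ => rfl, fun _ _ => by simp, fun _ _ => by simp⟩

theorem ob_le (h : Ob b p j X Y q δ G) (hδ : δ ≤ δ') : Ob b p j X Y q δ' G :=
  ⟨h.meas, h.lh, fun Φ hΦ => (h.bd Φ hΦ).trans hδ, h.dep, h.cov1, h.cov2⟩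

theorem el_pos (hp : 1 ≤ p) (j : ℕ) : 0 < el p j := by unfold el; positivity

theorem ob_up (hp : 1 ≤ p) (h : Ob b p j X Y q δ G) (hX : X ⊆ X') (hY : Y ⊆ Y') :
    Ob b p (j + 1) X' Y' q δ G := by
  have hm : Om b p (j + 1) X' ⊆ Om b p j X := fun Φ hΦ => by
    have h1 : (0 : ℝ) < el p j := by exact_mod_cast el_pos hp j
    have h2 : (el p j : ℝ) ≤ el p (j + 1) := by
      have h3 := el_pos hp j
      have : el p j ≤ el p (j + 1) := by
        rw [el, el, pow_succ, ← el]; nlinarith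
      exact_mod_cast this
    refine ⟨fun x hx => ⟨(hΦ.1 x (hX hx)).1, (hΦ.1 x (hX hx)).2.1,
      (hΦ.1 x (hX hx)).2.2.trans ?_⟩, ?_⟩
    · rw [div_pow, div_pow]; gcongr
    · refine (sum_le_sum_of_subset_of_nonneg hX fun x _ _ => w_nonneg _ x).trans (hΦ.2.trans ?_)
      exact pow_le_pow_of_le_one (by norm_num) (by norm_num) (by omega)
  exact ⟨h.meas, fun Φ hΦ => h.lh Φ (hm hΦ), fun Φ hΦ => h.bd Φ (hm hΦ),
    fun Φ Φ' hd => h.dep Φ Φ' fun x hx => hd x (hY hx), h.cov1, h.cov2⟩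

theorem ob_fac (hb : 0 < b) (h : Ob b p j X Y q δ G) : Tm (fac G) :=
  ⟨(measurable_const.add h.meas).add (ob_cj h).meas, 1 + δ + δ, fun φ g =>
    (norm_add₃_le).trans (by
      rw [norm_one]
      gcongr
      exacts [h.bd _ (rl_mem hb φ g), (ob_cj h).bd _ (rl_mem hb φ g)])⟩

theorem Q_sub (hp : 1 ≤ p) (m : P) : Q p j m ⊆ enl (el p (j + 1)) (up p m) (el p j) := by
  have h0 := el_pos hp j
  have hL : (0 : ℤ) < 24 * p := by omega
  have key : ∀ a : ℤ, el p (j + 1) * (a / (24 * p)) ≤ el p j * a ∧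
      el p j * a + el p j ≤ el p (j + 1) * (a / (24 * p)) + el p (j + 1) := fun a => by
    have h1 := Int.mul_ediv_add_emod a (24 * p)
    have h2 := Int.emod_nonneg a hL.ne'
    have h3 := Int.emod_lt_of_pos a hL
    rw [show el p (j + 1) = el p j * (24 * p) from pow_succ _ _]
    constructor <;> nlinarith
  intro x hx
  simp only [Q, enl, mem_product, mem_Ico, up] at hx ⊢
  have := key m.1
  have := key m.2
  omega

theorem enl_sub (hp : 1 ≤ p) (i : P) : enl (el p (j + 1)) i (el p j) ⊆ Q p (j + 1) i := by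
  have h0 := el_pos hp j
  have : el p j ≤ el p (j + 1) := by
    rw [el, el, pow_succ, ← el]; nlinarith
  intro x hx
  simp only [Q, enl, mem_product, mem_Ico] at hx ⊢
  omega

theorem Sing.big (hp : 1 ≤ p) {i : P} (h : Sing b p j i δ G) : Big b p j i (el p j) δ G := by
  obtain ⟨m, q, rfl, -, h⟩ := h
  exact ⟨q, ob_up hp h ((Q_sub hp m).trans (enl_sub hp _)) (Q_sub hp m)⟩

theorem split4 (G₁ G₂ : Fld → ℂ) {c : Fin 4 → ℝ} (hc : ∀ k, c k ≠ 0) (h1 : ∑ k, c k = 1)
    (Φ : Fld) : fac G₁ Φ * fac G₂ Φ = ∑ k, c k * fac (![fun Φ => ((c 0)⁻¹ : ℝ) * G₁ Φ,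
      fun Φ => ((c 1)⁻¹ : ℝ) * G₂ Φ, fun Φ => ((c 2)⁻¹ : ℝ) * (G₁ Φ * G₂ Φ),
      fun Φ => ((c 3)⁻¹ : ℝ) * (G₁ Φ * cj G₂ Φ)] k) Φ := by
  have h2 : (c 0 : ℂ) + c 1 + c 2 + c 3 = 1 := by
    rw [Fin.sum_univ_four] at h1; exact_mod_cast h1
  have h3 : ∀ k, (c k : ℂ) ≠ 0 := fun k => by exact_mod_cast hc k
  have := h3 0; have := h3 1; have := h3 2; have := h3 3
  simp only [Fin.sum_univ_four, fac, cj, Matrix.cons_val_zero, Matrix.cons_val_one, Matrix.cons_val,
    map_mul, star_star, Complex.star_def, Complex.conj_ofReal, Complex.conj_conj]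
  push_cast
  field_simp
  linear_combination (-1 : ℂ) * h2

end P40

open P40

theorem ph1Stmt : Ph1Stmt := by
  classical
  intro b p δ₀ Λ S u κ j hb hp hδ hK hS hM F A hF hA
  have hp1 : 1 ≤ p := by omega
  have hp' : (3 : ℝ) ≤ p := by exact_mod_cast hp
  have hN : 4 ≤ NN p := by unfold NN; nlinarith
  have hd0 : 0 ≤ dl δ₀ j := by unfold dl; positivity
  have hd1 : 4 * NN p * dl δ₀ j ≤ 1 := by
    have h1 : dl δ₀ j ≤ δ₀ := div_le_self hδ (one_le_pow₀ (by norm_num))
    have h2 : 4 * NN p ≤ KK p ^ 2 := by unfold KK; nlinarith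
    exact (mul_le_mul h2 h1 hd0 (by positivity)).trans hK
  obtain ⟨η, hη⟩ : ∃ η : ℝ, η = (4 * NN p)⁻¹ := ⟨_, rfl⟩
  have hη0 : 0 < η := by rw [hη]; positivity
  have hη1 : η * (4 * NN p) = 1 := by rw [hη]; field_simp
  have hη2 : η ≤ 1 / 16 := by nlinarith
  obtain ⟨t, ht⟩ : ∃ t : ℝ, t = (1 - 2 * η)⁻¹ := ⟨_, rfl⟩
  have ht1 : 1 ≤ t := by rw [ht]; exact one_le_inv₀ (by linarith) |>.2 (by linarith)
  let a : ℕ → ℝ := fun n => (n + 1) * t ^ n
  have ha0 : ∀ n, 0 ≤ a n := fun n => by positivity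
  have ha1 : ∀ n, a n ≤ a (n + 1) := fun n => by
    simp only [a, pow_succ]
    push_cast
    have : 0 < t ^ n := by positivity
    exact mul_le_mul (by linarith) (le_mul_of_one_le_right this.le ht1) this.le (by positivity)
  have hFW : Tm (FW S j F) := Tm.prod fun k hk => Tm.prod fun m hm => by
    obtain ⟨q, h, -⟩ := hF k (by have := mem_range.1 hk; omega) m hm
    exact ob_fac hb h
  have hAt : ∀ m ∈ S, Tm (fac (A m)) := fun m hm => by
    obtain ⟨q, -, h⟩ := hA m hm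
    exact ob_fac hb h
  let n : Finset P → P → ℕ := fun R i => #((S \ R).filter fun m => up p m = i)
  have key : ∀ R ⊆ S, ∀ O : P → Fld → ℂ, (∀ i ∈ S, Sing b p j i (a (n R i) * dl δ₀ j) (O i) ∨
      Big b p j i (el p j) (4 * NN p * a (n R i) * dl δ₀ j ^ 2) (O i)) →
      Low Λ b u κ fun Φ => FW S j F Φ * (∏ i ∈ S, fac (O i) Φ) * ∏ m ∈ R, fac (A m) Φ := by
    intro R
    induction R using Finset.induction_on with
    | empty =>
      intro _ O hO
      simp only [prod_empty, mul_one]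
      have h1 : ∀ i, a (n ∅ i) ≤ 4 * NN p := fun i => by
        have h2 : (n ∅ i : ℝ) ≤ NN p := by
          have h3 : n ∅ i ≤ #(enl (24 * p) i 0) := card_le_card fun m hm => by
            have h4 := Q_sub (j := 0) hp1 m
            rw [(mem_filter.1 hm).2] at h4
            have h5 := @h4 (m.1 - 1, m.2 - 1) (by simp [Q, enl, el]; omega)
            have h6 := @h4 (m.1 + 1, m.2 + 1) (by simp [Q, enl, el]; omega)
            simp only [enl, el, mem_product, mem_Ico, zero_add, pow_one, pow_zero] at h5 h6 ⊢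
            omega
          have h4 : #(enl (24 * p) i 0) = (24 * p) ^ 2 := by
            simp only [enl, card_product, Int.card_Ico, sq]
            congr 1 <;> omega
          rw [h4] at h3
          unfold NN
          exact_mod_cast h3
        have h3 : 1 / 2 ≤ (1 - 2 * η) ^ n ∅ i := by
          have := one_add_mul_le_pow (a := -(2 * η)) (by linarith) (n ∅ i)
          rw [← sub_eq_add_neg] at this
          nlinarith
        have h4 : t ^ n ∅ i ≤ 2 := by
          rw [ht, inv_pow]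
          exact (inv_le_comm₀ (by positivity) (by norm_num)).2 (by linarith)
        have h5 : (0 : ℝ) ≤ n ∅ i := Nat.cast_nonneg _
        exact (mul_le_mul_of_nonneg_left h4 (by positivity)).trans (by linarith)
      refine hM F O hF fun i hi => (hO i hi).imp ?_ ?_
      · rintro ⟨m, q, h2, h3, h4⟩
        exact ⟨m, q, h2, h3, ob_le h4 (mul_le_mul_of_nonneg_right (h1 i) hd0)⟩
      · rintro ⟨q, h2⟩
        refine ⟨q, ob_le h2 ?_⟩
        rw [al, mul_pow, sq (4 * NN p)]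
        gcongr
        exact h1 i
    | insert m R hm ih =>
      intro hR O hO
      have hmS : m ∈ S := hR (mem_insert_self _ _)
      have hi := hS m hmS
      set i := up p m with hi'
      have hn1 : n R i = n (insert m R) i + 1 := by
        have : (S \ R).filter (fun m => up p m = i) =
            insert m ((S \ insert m R).filter fun m => up p m = i) := by
          ext x
          simp only [mem_filter, mem_sdiff, mem_insert]
          by_cases hx : x = m
          · subst hx; simp [hmS, hm, hi']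
          · simp [hx]
        simp only [n]
        rw [this, card_insert_of_notMem (by simp)]
      have hn2 : ∀ i', i' ≠ i → n R i' = n (insert m R) i' := fun i' h => by
        simp only [n]
        congr 1
        ext x
        simp only [mem_filter, mem_sdiff, mem_insert]
        by_cases hx : x = m
        · subst hx; simp [← hi', h.symm]
        · simp [hx]
      set k := n (insert m R) i with hk
      let c : Fin 4 → ℝ := ![(1 - 2 * η) * ((k + 1) / (k + 2)), (1 - 2 * η) * (1 / (k + 2)), η, η]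
      have hk0 : (0 : ℝ) ≤ k := Nat.cast_nonneg _
      have h12 : 0 < 1 - 2 * η := by linarith
      have hc : ∀ l, 0 < c l := fun l => by
        fin_cases l <;> simp only [c] <;> simp <;> positivity
      have hc1 : ∑ l, c l = 1 := by
        simp only [Fin.sum_univ_four, c, Matrix.cons_val_zero, Matrix.cons_val_one, Matrix.cons_val]
        field_simp
        ring
      have e0 : (c 0)⁻¹ * a k = a (k + 1) := by
        simp only [c, a, Matrix.cons_val_zero, pow_succ, mul_inv, ← ht]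
        push_cast
        field_simp
        ring
      have e1 : (c 1)⁻¹ ≤ a (k + 1) := by
        simp only [c, a, Matrix.cons_val_zero, Matrix.cons_val_one, pow_succ, mul_inv, ← ht, one_div,
          inv_inv]
        push_cast
        have : 1 ≤ t ^ k := one_le_pow₀ ht1
        have h2 : 0 ≤ t * (k + 2) := by positivity
        nlinarith
      have e2 : (c 2)⁻¹ = 4 * NN p := by simp [c, hη]
      have e3 : (c 3)⁻¹ = 4 * NN p := by simp [c, hη]
      obtain ⟨q, hq, hG⟩ := hA m hmS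
      have hs2 : Sing b p j i (dl δ₀ j) (A m) := ⟨m, q, rfl, hq, hG⟩
      obtain ⟨q2, hG2⟩ := Sing.big hp1 hs2
      obtain ⟨q1, hG1⟩ : Big b p j i (el p j) (a (k + 1) * dl δ₀ j) (O i) := by
        rcases hO i hi with h | ⟨q1, h⟩
        · obtain ⟨q1, h⟩ := Sing.big hp1 h
          exact ⟨q1, ob_le h (mul_le_mul_of_nonneg_right (ha1 k) hd0)⟩
        · refine ⟨q1, ob_le h ?_⟩
          calc _ = (4 * NN p * dl δ₀ j) * (a k * dl δ₀ j) := by ring
            _ ≤ 1 * (a (k + 1) * dl δ₀ j) := by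
                have := ha0 k
                gcongr
                exact ha1 k
            _ = _ := one_mul _
      let H : Fin 4 → Fld → ℂ := ![fun Φ => ((c 0)⁻¹ : ℝ) * O i Φ,
        fun Φ => ((c 1)⁻¹ : ℝ) * A m Φ, fun Φ => ((c 2)⁻¹ : ℝ) * (O i Φ * A m Φ),
        fun Φ => ((c 3)⁻¹ : ℝ) * (O i Φ * cj (A m) Φ)]
      have hH : ∀ l, Sing b p j i (a (k + 1) * dl δ₀ j) (H l) ∨
          Big b p j i (el p j) (4 * NN p * a (k + 1) * dl δ₀ j ^ 2) (H l) := fun l => by
        have h0 : ∀ l, 0 ≤ (c l)⁻¹ := fun l => (inv_pos.2 (hc l)).le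
        fin_cases l
        · refine (hO i hi).imp ?_ ?_
          · rintro ⟨m', q', h2, h3, h4⟩
            exact ⟨m', q', h2, h3, ob_smul h4 (h0 0) (le_of_eq (by rw [← e0]; ring))⟩
          · rintro ⟨q', h2⟩
            exact ⟨q', ob_smul h2 (h0 0) (le_of_eq (by rw [← e0]; ring))⟩
        · exact Or.inl ⟨m, q, rfl, hq, ob_smul hG (h0 1) (mul_le_mul_of_nonneg_right e1 hd0)⟩
        · exact Or.inr ⟨_, ob_smul (ob_mul hG1 hG2) (h0 2) (le_of_eq (by rw [e2]; ring))⟩
        · exact Or.inr ⟨_, ob_smul (ob_mul hG1 (ob_cj hG2)) (h0 3) (le_of_eq (by rw [e3]; ring))⟩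
      have hO' : ∀ l, ∀ i' ∈ S, Sing b p j i' (a (n R i') * dl δ₀ j) (Function.update O i (H l) i') ∨
          Big b p j i' (el p j) (4 * NN p * a (n R i') * dl δ₀ j ^ 2)
            (Function.update O i (H l) i') := fun l i' h => by
        by_cases h1 : i' = i
        · rw [h1, Function.update_self, hn1]; exact hH l
        · rw [Function.update_of_ne h1, hn2 i' h1]; exact hO i' h
      have hR' : R ⊆ S := (subset_insert _ _).trans hR
      refine low4 hb (fun l => (hc l).le) (fun l => (hFW.mul (Tm.prod fun i' h => ?_)).mul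
        (Tm.prod fun m' h => hAt m' (hR' h))) (fun l => ih hR' _ (hO' l)) fun Φ => ?_
      · rcases hO' l i' h with ⟨_, _, -, -, h1⟩ | ⟨_, h1⟩
        exacts [ob_fac hb h1, ob_fac hb h1]
      · have e : ∀ l, ∏ i' ∈ S, fac (Function.update O i (H l) i') Φ =
            fac (H l) Φ * ∏ i' ∈ S.erase i, fac (O i') Φ := fun l => by
          rw [← mul_prod_erase S _ hi, Function.update_self]
          congr 1
          exact prod_congr rfl fun i' h => by rw [Function.update_of_ne (ne_of_mem_erase h)]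
        have e' := split4 (O i) (A m) (fun l => (hc l).ne') hc1 Φ
        simp only [e]
        rw [prod_insert hm, ← mul_prod_erase S _ hi]
        calc _ = (fac (O i) Φ * fac (A m) Φ) * (FW S j F Φ * (∏ i' ∈ S.erase i, fac (O i') Φ) *
              ∏ m ∈ R, fac (A m) Φ) := by ring
          _ = _ := by
            rw [e', sum_mul]
            exact sum_congr rfl fun l _ => by ring
  have h := key S Subset.rfl (fun _ _ => 0) fun i _ => Or.inr ⟨0, ob_zero (by
    have := ha0 (n S i)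
    positivity)⟩
  simpa [fac, cj] using h

end Crest.Agent.T145.FS
end

-- ▼ part T145/FsRat_66
section

/-!
# Row 145, item (e) (helper66): `FS.ratStmt`, `FS.gainStmt`
-/

set_option autoImplicit false

namespace Crest.Agent.T145.FS

open Finset

namespace Rat66

theorem w_nonneg (g : P → ℝ) (x : P) : 0 ≤ w g x := add_nonneg (sq_nonneg _) (sq_nonneg _)

theorem w_add_le (f g : P → ℝ) (x : P) : w (fun y => f y + g y) x ≤ 2 * w f x + 2 * w g x := by
  unfold w
  nlinarith [sq_nonneg (f (x + (1, 0)) - f x - (g (x + (1, 0)) - g x)),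
    sq_nonneg (f (x + (0, 1)) - f x - (g (x + (0, 1)) - g x))]

theorem div_near {l m x : ℤ} (hl : 0 < l) (h1 : l * m - l ≤ x) (h2 : x < l * m + l + l) :
    x / l - 1 ≤ m ∧ m ≤ x / l + 1 := by
  have a1 : m - 1 ≤ x / l := Int.le_ediv_of_mul_le hl (by linarith)
  have a2 : x / l < m + 2 := Int.ediv_lt_of_lt_mul hl (by linarith)
  omega

/-- every point lies in at most nine squares -/
theorem overlap {l : ℤ} (hl : 0 < l) (M : Finset P) {X : Finset P} (h : ∀ m ∈ M, enl l m l ⊆ X)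
    {f : P → ℝ} (hf : ∀ x, 0 ≤ f x) : ∑ m ∈ M, ∑ x ∈ enl l m l, f x ≤ 9 * ∑ x ∈ X, f x := by
  classical
  have e : ∀ m ∈ M, ∑ x ∈ enl l m l, f x = ∑ x ∈ X, if x ∈ enl l m l then f x else 0 := fun m hm => by
    rw [← sum_filter, filter_mem_eq_inter, inter_eq_right.2 (h m hm)]
  rw [sum_congr rfl e, sum_comm, mul_sum]
  refine sum_le_sum fun x _ => ?_
  rw [← sum_filter, sum_const, nsmul_eq_mul]
  refine mul_le_mul_of_nonneg_right ?_ (hf x)
  have h1 : M.filter (fun m => x ∈ enl l m l) ⊆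
      Icc (x.1 / l - 1) (x.1 / l + 1) ×ˢ Icc (x.2 / l - 1) (x.2 / l + 1) := fun m hm => by
    have h2 := (mem_filter.1 hm).2
    simp only [enl, mem_product, mem_Ico, mem_Icc] at h2 ⊢
    exact ⟨div_near hl h2.1.1 h2.1.2, div_near hl h2.2.1 h2.2.2⟩
  have h2 := card_le_card h1
  rw [card_product, Int.card_Icc, Int.card_Icc, show x.1 / l + 1 + 1 - (x.1 / l - 1) = 3 by ring,
    show x.2 / l + 1 + 1 - (x.2 / l - 1) = 3 by ring] at h2
  exact_mod_cast h2

theorem card_enl {l : ℤ} (hl : 0 < l) (m : P) : ((enl l m l).card : ℝ) = 9 * (l : ℝ) ^ 2 := by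
  rw [enl, card_product, Int.card_Ico, Int.card_Ico, show l * m.1 + l + l - (l * m.1 - l) = 3 * l by ring,
    show l * m.2 + l + l - (l * m.2 - l) = 3 * l by ring]
  have : ((3 * l).toNat : ℝ) = 3 * l := by
    exact_mod_cast congrArg (Int.cast : ℤ → ℝ) (Int.toNat_of_nonneg (by omega : 0 ≤ 3 * l))
  push_cast
  rw [this]; ring

theorem el_pos {p : ℕ} (hp : 1 ≤ p) (j : ℕ) : 0 < el p j := pow_pos (by omega) j

theorem el_cast (p j : ℕ) : (el p j : ℝ) = (24 * (p : ℝ)) ^ j := by simp [el]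

theorem fac_star (G : Fld → ℂ) (Φ : Fld) : fac G (star Φ) = star (fac G Φ) := by
  simp only [fac, cj, star_star, star_add, star_one]; ring

theorem star_rl (φ g : P → ℝ) : star (rl φ g) = rl φ g := by
  ext x <;> simp [rl]

theorem star_add_I (φ g ψ χ : P → ℝ) :
    star (rl φ g + Complex.I • rl ψ χ) = rl φ g - Complex.I • rl ψ χ := by
  rw [star_add, star_smul, star_rl, star_rl, sub_eq_add_neg, ← neg_smul]
  simp

theorem rl_mem {b : ℝ} (hb : 0 < b) (p k : ℕ) (X : Finset P) (φ g : P → ℝ) :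
    rl φ g ∈ Om b p k X := by
  have h : 0 ≤ h0 b p := by unfold h0 hh; positivity
  simp only [Om, rl, Set.mem_ofPred_eq, Complex.ofReal_im, abs_zero, En, w, sub_self]
  exact ⟨fun x _ => ⟨h, h, by simpa using sq_nonneg _⟩, by simp⟩

/-- one ratio -/
theorem ratio {u v f : ℂ} {e : ℝ} (hf : f.im = 0) (hf' : 9 / 10 ≤ f.re) (he0 : 0 ≤ e)
    (he : e ≤ 1 / 4) (hu : ‖u * star u - f ^ 2‖ ≤ e) (hv : ‖v * star v - f ^ 2‖ ≤ e) :
    ‖u / v‖ ≤ Real.exp (3 * e) := by
  have k : ∀ {z : ℂ}, ‖z * star z - f ^ 2‖ ≤ e → |‖z‖ ^ 2 - f.re ^ 2| ≤ e := fun {z} h => by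
    refine le_trans (le_of_eq ?_) ((Complex.abs_re_le_norm _).trans h)
    rw [Complex.star_def, Complex.mul_conj, Complex.sub_re, Complex.ofReal_re,
      Complex.normSq_eq_norm_sq, sq f, Complex.mul_re, hf, mul_zero, sub_zero, sq f.re]
  have h1 := (abs_le.1 (k hu)).2
  have h2 := (abs_le.1 (k hv)).1
  have h3 : 4 / 5 ≤ f.re ^ 2 := by nlinarith
  have hv0 : 0 < ‖v‖ ^ 2 := by linarith
  have h4 : 1 + 6 * e ≤ Real.exp (3 * e) ^ 2 := by
    rw [← Real.exp_nat_mul]
    have := Real.add_one_le_exp (((2 : ℕ) : ℝ) * (3 * e))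
    push_cast at this ⊢
    linarith
  refine (pow_le_pow_iff_left₀ (norm_nonneg _) (Real.exp_nonneg _) two_ne_zero).1 (le_trans ?_ h4)
  rw [norm_div, div_pow, div_le_iff₀ hv0]
  nlinarith

theorem geom (n : ℕ) : ∑ k ∈ range n, (1 / 8 : ℝ) ^ k ≤ 2 - 2 * (1 / 8) ^ n := by
  induction n with
  | zero => simp
  | succ n ih =>
    rw [sum_range_succ, pow_succ]
    have : (0 : ℝ) ≤ (1 / 8) ^ n := by positivity
    linarith

end Rat66

open Rat66

/-- **RAT** -/
theorem ratStmt (h1 : OneStmt) : RatStmt := by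
  intro b p j δ₀ i M F a hb hp hδ hK hF ha Φ hΦ
  obtain ⟨hΦ1, hΦ2⟩ := hΦ
  have hp' : (1 : ℝ) ≤ p := by exact_mod_cast hp
  have hN : 576 ≤ NN p := by unfold NN; nlinarith
  have hK0 : 20 ≤ KK p := by unfold KK; nlinarith
  have hKδ : KK p * δ₀ * KK p ≤ 1 := by linarith
  have hd0 : 0 ≤ KK p * δ₀ := by positivity
  have hd1 : KK p * δ₀ ≤ 1 / 20 := by nlinarith
  have ed : ∀ k, KK p * dl δ₀ k = KK p * δ₀ * (1 / 8) ^ k := fun k => by
    rw [dl, one_div, inv_pow]; ring
  have hl : ∀ k, (0 : ℝ) < el p k := fun k => by exact_mod_cast el_pos hp k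
  obtain ⟨χ, hχ⟩ : ∃ χ : P → ℝ, χ = fun y => (Φ.2 y).im := ⟨_, rfl⟩
  obtain ⟨ψ, hψ⟩ : ∃ ψ : P → ℝ, ψ = fun y => (Φ.1 y).im := ⟨_, rfl⟩
  rw [← hχ] at hΦ2
  obtain ⟨x, hx⟩ : ∃ x : ℕ → P → ℝ, x = fun k m =>
    ((el p k : ℝ) / el p j) ^ 2 / 8 + 4 ^ k * En (Q p k m) χ := ⟨_, rfl⟩
  have e1 : Φ = rl (fun y => (Φ.1 y).re) (fun y => (Φ.2 y).re) + Complex.I • rl ψ χ := by
    ext y <;> simp [rl, hψ, hχ, mul_comm Complex.I]
  have e2 : sh a Complex.I Φ = rl (fun y => (Φ.1 y).re) (fun y => (Φ.2 y).re) +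
      Complex.I • rl (fun y => a y + ψ y) χ := by
    ext y
    · simp only [sh, rl, hψ, Prod.fst_add, Prod.smul_fst, Pi.add_apply, Pi.smul_apply, smul_eq_mul]
      conv_lhs => rw [← Complex.re_add_im (Φ.1 y)]
      push_cast; ring
    · simp [sh, rl, hχ, mul_comm Complex.I]
  have hw : ∀ y ∈ Q p (j + 1) i, w ψ y ≤ (hh b / el p j) ^ 2 / 576 := fun y hy => by
    rw [hψ]
    refine (hΦ1 y hy).2.2.trans ?_
    have : (el p (j + 1) : ℝ) ^ 2 = el p j ^ 2 * NN p := by rw [el_cast, el_cast, NN]; ring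
    rw [div_pow, div_pow, this, div_div]
    have := hl j
    gcongr
  have h4 : ∀ k ≤ j, (4 : ℝ) ^ k * (1 / 4) ^ (j + 1) ≤ 1 / 4 := fun k hk => by
    have : (4 : ℝ) ^ k ≤ 4 ^ j := pow_le_pow_right₀ (by norm_num) hk
    calc _ ≤ (4 : ℝ) ^ j * (1 / 4) ^ (j + 1) := by gcongr
      _ = _ := by rw [pow_succ, ← mul_assoc, ← mul_pow]; norm_num
  have key : ∀ k ∈ range (j + 1), ∀ m ∈ M k, ‖fac (F k m) (sh a Complex.I Φ) / fac (F k m) Φ‖ ≤
      Real.exp (30 * (KK p * dl δ₀ k) * x k m) := by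
    intro k hk m hm
    have hk : k ≤ j := Nat.lt_succ_iff.1 (mem_range.1 hk)
    obtain ⟨hO, hQ⟩ := hF k hk m hm
    have hd : KK p * dl δ₀ k ≤ 1 / 20 := by
      rw [ed]; exact (mul_le_of_le_one_right hd0 (pow_le_one₀ (by norm_num) (by norm_num))).trans hd1
    have hd' : 0 ≤ KK p * dl δ₀ k := by rw [ed]; positivity
    have hE0 : 0 ≤ 4 ^ k * En (Q p k m) χ :=
      mul_nonneg (by positivity) (sum_nonneg fun y _ => w_nonneg _ _)
    have hE : 4 ^ k * En (Q p k m) χ ≤ 1 / 4 := le_trans (mul_le_mul_of_nonneg_left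
      ((sum_le_sum_of_subset_of_nonneg hQ fun y _ _ => w_nonneg χ y).trans hΦ2) (by positivity)) (h4 k hk)
    have hr : ((el p k : ℝ) / el p j) ^ 2 ≤ 1 := pow_le_one₀ (div_pos (hl k) (hl j)).le
      ((div_le_one (hl j)).2 (by rw [el_cast, el_cast]; exact pow_le_pow_right₀ (by linarith) hk))
    have hr0 := sq_nonneg ((el p k : ℝ) / el p j)
    have x0 : 0 ≤ x k m := by rw [hx]; positivity
    have x1 : x k m ≤ 3 / 8 := by rw [hx]; linarith
    have hb1 : (hh b / el p j) ^ 2 / 8 ≤ x k m * (hh b / el p k) ^ 2 := by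
      have : (hh b / el p j) ^ 2 / 8 = ((el p k : ℝ) / el p j) ^ 2 / 8 * (hh b / el p k) ^ 2 := by
        have := hl k; have := hl j; field_simp
      rw [this, hx]
      exact mul_le_mul_of_nonneg_right (by linarith) (sq_nonneg _)
    have hb2 : En (Q p k m) χ ≤ x k m * (1 / 4) ^ k := by
      have : En (Q p k m) χ = 4 ^ k * En (Q p k m) χ * (1 / 4) ^ k := by
        rw [mul_right_comm, ← mul_pow]; norm_num
      rw [this, hx]
      exact mul_le_mul_of_nonneg_right (by linarith) (by positivity)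
    have hs := sq_nonneg (hh b / el p j)
    have o := fun ψ' hψ' => h1 b p k m 0 _ _ hb hp hO (by linarith) (fun y => (Φ.1 y).re)
      (fun y => (Φ.2 y).re) ψ' χ (x k m) x0 (by linarith) hψ' hb2 (Or.inl rfl) Complex.I (by simp)
    have o1 := o ψ fun y hy => by linarith [hw y (hQ hy)]
    have o2 := o (fun y => a y + ψ y) fun y hy => by linarith [hw y (hQ hy), ha y, w_add_le a ψ y]
    rw [← star_add_I, fac_star, ← e1] at o1
    rw [← star_add_I, fac_star, ← e2] at o2
    have hn := (abs_le.1 ((Complex.abs_re_le_norm _).trans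
      (hO.bd _ (rl_mem hb p k _ (fun y => (Φ.1 y).re) fun y => (Φ.2 y).re)))).1
    have := ratio (by simp [fac, cj, star_rl]) (by simp only [fac, cj, star_rl]; simp; linarith)
      (by positivity) (by nlinarith) o2 o1
    rwa [show 3 * (10 * (KK p * dl δ₀ k) * x k m) = 30 * (KK p * dl δ₀ k) * x k m by ring] at this
  have hsum : ∀ k ≤ j, ∑ m ∈ M k, x k m ≤ 2 * NN p := fun k hk => by
    have o1 := overlap (el_pos hp k) (M k) (fun m hm => (hF k hk m hm).2) (f := fun _ => 1)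
      fun _ => zero_le_one
    have o2 := overlap (el_pos hp k) (M k) (fun m hm => (hF k hk m hm).2) (w_nonneg χ)
    simp only [sum_const, nsmul_eq_mul, mul_one, card_enl (el_pos hp k), Q,
      card_enl (el_pos hp (j + 1))] at o1
    have e : (el p (j + 1) : ℝ) ^ 2 = NN p * el p j ^ 2 := by rw [el_cast, el_cast, NN]; ring
    have o3 : (M k).card * (((el p k : ℝ) / el p j) ^ 2 / 8) ≤ 9 / 8 * NN p := by
      rw [div_pow, div_div, ← mul_div_assoc, div_le_iff₀ (by have := hl j; positivity)]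
      rw [e] at o1
      linarith
    have o4 : 4 ^ k * ∑ m ∈ M k, En (Q p k m) χ ≤ 9 / 4 :=
      calc _ ≤ (4 : ℝ) ^ k * (9 * (1 / 4) ^ (j + 1)) := mul_le_mul_of_nonneg_left
            (o2.trans (mul_le_mul_of_nonneg_left hΦ2 (by norm_num))) (by positivity)
        _ ≤ _ := by linarith [h4 k hk]
    simp only [hx, sum_add_distrib, sum_const, nsmul_eq_mul, ← mul_sum]
    linarith
  rw [norm_prod]
  calc _ ≤ ∏ k ∈ range (j + 1), Real.exp (60 * NN p * (KK p * δ₀) * (1 / 8) ^ k) := by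
        refine prod_le_prod (fun _ _ => norm_nonneg _) fun k hk => ?_
        rw [norm_prod]
        refine (prod_le_prod (fun _ _ => norm_nonneg _) (key k hk)).trans ?_
        rw [← Real.exp_sum, ← mul_sum, Real.exp_le_exp, ed]
        calc _ ≤ 30 * (KK p * δ₀ * (1 / 8) ^ k) * (2 * NN p) := mul_le_mul_of_nonneg_left
              (hsum k (Nat.lt_succ_iff.1 (mem_range.1 hk))) (by positivity)
          _ = _ := by ring
    _ ≤ Real.exp (1 / 2) := by
        rw [← Real.exp_sum, ← mul_sum, Real.exp_le_exp]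
        have g := geom (j + 1)
        have g0 : (0 : ℝ) ≤ (1 / 8) ^ (j + 1) := by positivity
        have g1 : 240 * NN p ≤ KK p := by unfold KK; nlinarith
        have g2 := mul_le_mul_of_nonneg_left g1 hd0
        calc _ ≤ 60 * NN p * (KK p * δ₀) * 2 := mul_le_mul_of_nonneg_left (by linarith) (by positivity)
          _ ≤ _ := by linarith
    _ ≤ 2 := by
        have h := Real.add_one_le_exp (-(1 / 2))
        rw [Real.exp_neg, le_inv_comm₀ (by norm_num) (Real.exp_pos _)] at h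
        exact h.trans (by norm_num)

/-- **GAIN** -/
theorem gainStmt : GainStmt := by
  intro b C₁ hb
  have hπ := Real.pi_pos
  have hb0 : 0 < b := by linarith
  obtain ⟨θ, hθ⟩ : ∃ θ, θ = (1 - 8 * Real.pi / b) / 2 := ⟨_, rfl⟩
  have hθ0 : 0 < θ := by
    have := (div_lt_one hb0).2 hb
    linarith
  obtain ⟨ε, hε⟩ : ∃ ε, ε = b / (8 * Real.pi) - 1 := ⟨_, rfl⟩
  have hε0 : 0 < ε := by
    have := (one_lt_div (by positivity)).2 hb
    linarith
  obtain ⟨C, hC⟩ : ∃ C, C = (1 + θ) * (hh b / 2) ^ 2 * C₁ / (2 * b) + hh b ^ 2 / (2 * θ * b) :=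
    ⟨_, rfl⟩
  obtain ⟨c, hc⟩ : ∃ c : ℝ, c = 2 * (32 * 4 ^ 9 * 72 ^ 2) := ⟨_, rfl⟩
  have ht : Filter.Tendsto (fun p : ℕ => Real.log ((p : ℝ) / 3)) Filter.atTop Filter.atTop :=
    Real.tendsto_log_atTop.comp (tendsto_natCast_atTop_atTop.atTop_div_const (by norm_num))
  obtain ⟨p, hp1, hp3⟩ := ((ht.eventually_ge_atTop ((C + c) / ε)).and
    (Filter.eventually_ge_atTop 3)).exists
  refine ⟨p, θ, hp3, hθ0, ?_⟩
  have hp0 : (0 : ℝ) < (p : ℝ) / 3 := by
    have : (3 : ℝ) ≤ p := by exact_mod_cast hp3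
    linarith
  obtain ⟨L, hL⟩ : ∃ L, L = Real.log ((p : ℝ) / 3) := ⟨_, rfl⟩
  rw [← hL] at hp1 ⊢
  have e1 : -(hh b / 2) * L + (1 + θ) * (hh b / 2) ^ 2 * (2 * Real.pi * L + C₁) / (2 * b) +
      hh b ^ 2 / (2 * θ * b) = C - ε * L - 2 * L := by
    have : (1 + θ) * (hh b / 2) ^ 2 * (2 * Real.pi * L) / (2 * b) = (hh b / 2 - ε - 2) * L := by
      rw [hθ, hε, hh]; field_simp; ring
    rw [mul_add _ (2 * Real.pi * L), add_div, this, hC]; ring
  have e2 : 2 * KK p = c * Real.exp (2 * L) := by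
    rw [two_mul L, Real.exp_add, hL, Real.exp_log hp0, hc, KK, NN]; ring
  rw [e1, mul_right_comm, e2, mul_assoc, ← Real.exp_add]
  have h1 : c ≤ Real.exp c := by linarith [Real.add_one_le_exp c]
  refine (mul_le_mul_of_nonneg_right h1 (Real.exp_nonneg _)).trans ?_
  rw [← Real.exp_add, Real.exp_le_one_iff]
  have := (div_le_iff₀ hε0).1 hp1
  linarith

end Crest.Agent.T145.FS
end

-- ▼ part T145/FsRough_57
section

/-!
# Row 145, item (e) (helper57): `RoughStmt`
-/

set_option autoImplicit false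

namespace Crest.Agent.T145.FS

open Finset hiding box
open Crest.ProbabilityR.HeightModel

namespace R57

theorem cosh_le (t x : ℝ) (ht : |t| ≤ 1) :
    Real.cosh (t * x) ≤ 1 + t ^ 2 * x ^ 2 / 2 + t ^ 4 * Real.cosh x := by
  have h1 := (hasSum_nat_add_iff' 2).2 (Real.hasSum_cosh (t * x))
  have h2 := ((hasSum_nat_add_iff' 2).2 (Real.hasSum_cosh x)).mul_left (t ^ 4)
  have h3 := hasSum_le (fun n => ?_) h1 h2
  · simp only [sum_range_succ, sum_range_zero] at h3
    norm_num [Nat.factorial] at h3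
    have h4 : 0 ≤ t ^ 4 := by positivity
    nlinarith [mul_nonneg h4 (sq_nonneg x)]
  · rw [← mul_div_assoc]
    refine div_le_div_of_nonneg_right ?_ (by positivity)
    have ht2 : t ^ 2 ≤ 1 := by rw [← sq_abs]; exact pow_le_one₀ (abs_nonneg t) ht
    have hx : 0 ≤ x ^ (2 * (n + 2)) := by rw [pow_mul]; positivity
    rw [mul_pow]
    refine mul_le_mul_of_nonneg_right ?_ hx
    rw [show t ^ (2 * (n + 2)) = t ^ 4 * (t ^ 2) ^ n by ring]
    exact mul_le_of_le_one_right (by positivity) (pow_le_one₀ (sq_nonneg t) ht2)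

theorem sq_le_cosh (x : ℝ) : x ^ 2 ≤ 2 * Real.cosh x := by
  have h1 := sum_le_hasSum (range 2) (fun n _ => by rw [pow_mul]; positivity) (Real.hasSum_cosh x)
  simp only [sum_range_succ, sum_range_zero] at h1
  norm_num [Nat.factorial] at h1
  linarith

/-- a Gaussian lower bound on the moment generating function near `0` bounds the second moment -/
theorem var_ge {H : Type*} (W X : H → ℝ) (hW : ∀ h, 0 < W h) (h₀ : H)
    (hs : ∀ t : ℝ, Summable fun h => Real.exp (t * X h) * W h) {c t₀ : ℝ} (ht₀ : 0 < t₀)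
    (h : ∀ t : ℝ, |t| ≤ t₀ →
      Real.exp (t ^ 2 * c / 2) ≤ (∑' h, Real.exp (t * X h) * W h) / ∑' h, W h) :
    Summable W ∧ (Summable fun h => X h ^ 2 * W h) ∧ 0 < ∑' h, W h ∧
      c ≤ (∑' h, X h ^ 2 * W h) / ∑' h, W h := by
  have s0 : Summable W := by simpa using hs 0
  have sc : ∀ t : ℝ, Summable fun h => 2 * Real.cosh (t * X h) * W h := fun t => by
    refine ((hs t).add (hs (-t))).congr fun h => ?_
    rw [Real.cosh_eq, neg_mul]; ring
  have s1 : Summable fun h => 2 * Real.cosh (X h) * W h := by simpa using sc 1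
  have s2 : Summable fun h => X h ^ 2 * W h :=
    Summable.of_nonneg_of_le (fun h => mul_nonneg (sq_nonneg _) (hW h).le)
      (fun h => mul_le_mul_of_nonneg_right (sq_le_cosh _) (hW h).le) s1
  have hZ : 0 < ∑' h, W h := s0.tsum_pos (fun h => (hW h).le) h₀ (hW h₀)
  refine ⟨s0, s2, hZ, ?_⟩
  rw [le_div_iff₀ hZ]
  set Z := ∑' h, W h with hZd
  set V := ∑' h, X h ^ 2 * W h with hV
  set K := ∑' h, 2 * Real.cosh (X h) * W h with hK
  have key : ∀ t : ℝ, 0 < t → t ≤ t₀ → t ≤ 1 → c * Z ≤ V + t ^ 2 * K := by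
    intro t ht h1 h2
    have a1 := (le_div_iff₀ hZ).1 (h t (by rwa [abs_of_pos ht]))
    have a2 := (le_div_iff₀ hZ).1 (h (-t) (by rwa [abs_neg, abs_of_pos ht]))
    rw [neg_sq] at a2
    have a3 : (∑' h, Real.exp (t * X h) * W h) + ∑' h, Real.exp (-t * X h) * W h =
        ∑' h, 2 * Real.cosh (t * X h) * W h := by
      rw [← (hs t).tsum_add (hs (-t))]
      refine tsum_congr fun h => ?_
      rw [Real.cosh_eq, neg_mul]; ring
    have a4 : ∑' h, 2 * Real.cosh (t * X h) * W h ≤ 2 * Z + t ^ 2 * V + t ^ 4 * K := by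
      refine hasSum_le (fun h => ?_) (sc t).hasSum
        (((s0.hasSum.mul_left 2).add (s2.hasSum.mul_left (t ^ 2))).add (s1.hasSum.mul_left (t ^ 4)))
      have := mul_le_mul_of_nonneg_right (cosh_le t (X h) (by rwa [abs_of_pos ht])) (hW h).le
      nlinarith
    have a5 := mul_le_mul_of_nonneg_right (Real.add_one_le_exp (t ^ 2 * c / 2)) hZ.le
    have a6 : t ^ 2 * (c * Z) ≤ t ^ 2 * (V + t ^ 2 * K) := by nlinarith
    exact le_of_mul_le_mul_left a6 (by positivity)
  have hc : Filter.Tendsto (fun t : ℝ => V + t ^ 2 * K) (nhdsWithin 0 (Set.Ioi 0)) (nhds V) := by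
    have : Continuous fun t : ℝ => V + t ^ 2 * K := by fun_prop
    simpa using (this.tendsto 0).mono_left nhdsWithin_le_nhds
  refine ge_of_tendsto hc ?_
  filter_upwards [Ioo_mem_nhdsGT (lt_min ht₀ one_pos)] with t ht
  exact key t ht.1 (ht.2.le.trans (min_le_left _ _)) (ht.2.le.trans (min_le_right _ _))

theorem mem_box {R : ℕ} {x : P} : x ∈ box R ↔ x.1.natAbs ≤ R ∧ x.2.natAbs ≤ R := by
  simp only [box, mem_product, mem_Icc]; omega

theorem le_range {J : Finset P} {y : P} (hy : y ∈ J) :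
    y.1.natAbs ≤ interactionRange J ∧ y.2.natAbs ≤ interactionRange J :=
  max_le_iff.1 (le_sup (f := fun y : P => max y.1.natAbs y.2.natAbs) hy)

theorem ext_off {Λ : Finset P} (σ : Λ → ℝ) {x : P} (hx : x ∉ Λ) : ext Λ σ x = 0 := dif_neg hx

theorem ext_on {Λ : Finset P} (σ : Λ → ℝ) {x : P} (hx : x ∈ Λ) : ext Λ σ x = σ ⟨x, hx⟩ := dif_pos hx

theorem ext_fin {Λ : Finset P} (σ : Λ → ℝ) : (Function.support (ext Λ σ)).Finite :=
  Λ.finite_toSet.subset fun x hx => by
    by_contra hc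
    exact hx (ext_off σ hc)

/-- evaluation of the extension by zero as a linear map -/
def extL (Λ : Finset P) (x : P) : (Λ → ℝ) →ₗ[ℝ] ℝ where
  toFun σ := ext Λ σ x
  map_add' σ τ := by by_cases hx : x ∈ Λ <;> simp [ext, hx]
  map_smul' c σ := by by_cases hx : x ∈ Λ <;> simp [ext, hx]

/-- the energy of the zero-boundary box as a quadratic form -/
noncomputable def bq (J : Finset P) (β : ℝ) (R : ℕ) : QuadraticForm ℝ (box R → ℝ) :=
  (1 / (2 * β * J.card)) • ∑ x ∈ box (R + interactionRange J), ∑ y ∈ J,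
    QuadraticMap.sq.comp (extL (box R) (x + y) - extL (box R) x)

theorem bq_apply (J : Finset P) (β : ℝ) (R : ℕ) (σ : box R → ℝ) :
    bq J β R σ = (∑ x ∈ box (R + interactionRange J), ∑ y ∈ J,
      (ext (box R) σ (x + y) - ext (box R) σ x) ^ 2) / (2 * β * J.card) := by
  simp only [bq, smul_apply, _root_.sum_apply, QuadraticMap.comp_apply,
    QuadraticMap.sq_apply, LinearMap.sub_apply, smul_eq_mul, ← sq]
  rw [one_div, ← div_eq_inv_mul]
  rfl

theorem bq_NG (J : Finset P) (β : ℝ) (R : ℕ) (σ : box R → ℝ) :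
    bq J β R σ = (∑ y ∈ J, NG (ext (box R) σ) y) / (2 * β * J.card) := by
  rw [bq_apply, sum_comm]
  congr 1
  refine sum_congr rfl fun y hy => (tsum_eq_sum fun x hx => ?_).symm
  have := le_range hy
  have h1 : x ∉ box R := fun h => hx (by rw [mem_box] at h ⊢; omega)
  have h2 : x + y ∉ box R := fun h => hx (by
    rw [mem_box] at h ⊢
    simp only [Prod.fst_add, Prod.snd_add] at h
    omega)
  simp [ext_off σ h1, ext_off σ h2]

theorem NG_D (Λ : Finset P) (σ : Λ → ℝ) :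
    NG (ext Λ σ) (1, 0) + NG (ext Λ σ) (0, 1) = D Λ (ext Λ σ) := by
  have h0 : ∀ x, x ∉ halo Λ → x ∉ Λ ∧ x + (1, 0) ∉ Λ ∧ x + (0, 1) ∉ Λ := fun x hx => by
    simp only [halo, mem_union, mem_image, not_or, not_exists, not_and] at hx
    exact ⟨hx.1.1, fun h => hx.1.2 _ h (by simp), fun h => hx.2 _ h (by simp)⟩
  simp only [D, En, w, sum_add_distrib, NG]
  congr 1
  · exact tsum_eq_sum fun x hx => by simp [ext_off σ (h0 x hx).1, ext_off σ (h0 x hx).2.1]
  · exact tsum_eq_sum fun x hx => by simp [ext_off σ (h0 x hx).1, ext_off σ (h0 x hx).2.2]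

theorem tsum_ext_sub (Λ : Finset P) (σ φ : Λ → ℝ) :
    ∑' x : P, (ext Λ σ x - ext Λ φ x) ^ 2 = ∑ i, (σ i - φ i) ^ 2 := by
  rw [tsum_eq_sum (s := Λ) fun x hx => by simp [ext_off σ hx, ext_off φ hx], ← sum_coe_sort]
  exact sum_congr rfl fun i _ => by rw [ext_on σ i.2, ext_on φ i.2]

theorem D_nonneg (Λ : Finset P) (g : P → ℝ) : 0 ≤ D Λ g :=
  sum_nonneg fun _ _ => add_nonneg (sq_nonneg _) (sq_nonneg _)

theorem D_pos (Λ : Finset P) {σ : Λ → ℝ} (hσ : σ ≠ 0) : 0 < D Λ (ext Λ σ) := by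
  obtain ⟨i, hi⟩ := Function.ne_iff.1 hσ
  obtain ⟨j, hj, hm⟩ := exists_max_image (univ.filter fun k : Λ => σ k ≠ 0) (fun k => k.1.1)
    ⟨i, by simpa using hi⟩
  have hj0 : σ j ≠ 0 := by simpa using hj
  have h1 : ext Λ σ (j.1 + (1, 0)) = 0 := by
    by_cases h : j.1 + (1, 0) ∈ Λ
    · rw [ext_on σ h]
      by_contra hc
      have := hm ⟨_, h⟩ (by simpa using hc)
      simp at this
    · exact ext_off σ h
  refine sum_pos' (fun _ _ => add_nonneg (sq_nonneg _) (sq_nonneg _)) ⟨j.1, ?_, ?_⟩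
  · simp [halo, j.2]
  · rw [w, h1, ext_on σ j.2]
    have : 0 < (0 - σ j) ^ 2 := by positivity
    exact add_pos_of_pos_of_nonneg this (sq_nonneg _)

theorem ext_lat {R : ℕ} (h : BoxConfig R) (x : P) :
    ext (box R) (lat h) x = 2 * Real.pi * (zeroExtend h x : ℝ) := by
  by_cases hx : x ∈ box R <;> simp [ext, zeroExtend, hx, lat]

theorem weight_eq (J : Finset P) (β : ℝ) {R : ℕ} (h : BoxConfig R) :
    boxWeight J β h = Real.exp (-(bq J β R (lat h)) / 2) := by
  rw [boxWeight, bq_apply, boxEnergy]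
  simp only [ext_lat, mul_sub]
  congr 1
  rw [neg_div, neg_div, div_div]
  congr 2
  ring

end R57

open R57

theorem roughStmt (hE : E0Stmt) (hC : CmpStmt) (hL : LogStmt) (hS : SumStmt) : RoughStmt := by
  intro b hb
  obtain ⟨C, γ₀, hC0, hγ₀, hE⟩ := hE b hb
  obtain ⟨C₁, hC₁, hL⟩ := hL
  refine ⟨C, γ₀, hC0, hγ₀, fun J hJ β θ hβ hθ h1 h2 h3 => ?_⟩
  have hπ := Real.pi_pos
  have hb0 : 0 < b := lt_trans (by positivity) hb
  have hc : (0 : ℝ) < J.card := by exact_mod_cast card_pos.2 ⟨_, hJ.2.1⟩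
  have key : ∀ R : ℕ, 3 ≤ R → C₁ / b ≤ Real.log (R / 3) →
      ENNReal.ofReal (Real.log (R / 3) / 4) ≤ boxVariance J β R := by
    intro R hR hR'
    have cmp := fun σ : box R → ℝ => hC P (AddMonoidHom.id P) J hJ _ (ext_fin σ)
    simp only [AddMonoidHom.id_apply, NG_D] at cmp
    have e1 : ∀ σ φ : box R → ℝ, bq J β R σ ≤
        (∑ i, (σ i - φ i) ^ 2) / (β * θ / (2 * (1 + θ))) + D (box R) (ext (box R) φ) / b := by
      intro σ φ
      have a1 := (cmp σ).2.2 _ (ext_fin φ) θ hθ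
      rw [NG_D, tsum_ext_sub] at a1
      rw [bq_NG, div_le_iff₀ (by positivity)]
      refine a1.trans ?_
      have a2 := D_nonneg (box R) (ext (box R) φ)
      generalize ∑ i, (σ i - φ i) ^ 2 = T
      generalize D (box R) (ext (box R) φ) = E at a2
      have a3 : T / (β * θ / (2 * (1 + θ))) * (2 * β * J.card) = (1 + 1 / θ) * (4 * J.card) * T := by
        field_simp
        ring
      have a4 : (1 + θ) * (2 * J.card * varianceConst J) * E ≤ E / b * (2 * β * J.card) := by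
        rw [div_mul_eq_mul_div, le_div_iff₀ hb0]
        have := mul_le_mul_of_nonneg_right h1 (mul_nonneg hc.le a2)
        nlinarith
      rw [add_mul (T / _), a3]
      linarith
    have e2 : ∀ σ : box R → ℝ, D (box R) (ext (box R) σ) ≤ β * J.card * bq J β R σ := by
      intro σ
      have a1 := (cmp σ).1
      rw [bq_NG, mul_div_assoc', le_div_iff₀ (by positivity)]
      have := mul_le_mul_of_nonneg_left a1 (mul_pos hβ hc).le
      nlinarith
    have hP : (bq J β R).PosDef := fun σ hσ =>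
      pos_of_mul_pos_left ((D_pos _ hσ).trans_le (by rw [mul_comm]; exact e2 σ)) (mul_pos hβ hc).le
    obtain ⟨a, a1, a2, -, a4⟩ := hL 0 3 R le_rfl (by exact_mod_cast hR)
    have z0 : (0 : P) ∈ box R := by simp [mem_box]
    have ea : ext (box R) (fun i => a i.1) = a := funext fun x => by
      by_cases hx : x ∈ box R
      · exact ext_on _ hx
      · rw [ext_off _ hx, a2 x]
        simp only [Prod.fst_zero, Prod.snd_zero, sub_zero]
        have : (R : ℤ) ^ 2 ≤ x.1 ^ 2 + x.2 ^ 2 := by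
          rw [mem_box, not_and_or, not_le, not_le] at hx
          rcases hx with hx | hx
          · have : (R : ℤ) ≤ |x.1| := by rw [← Int.natCast_natAbs]; exact_mod_cast hx.le
            have := pow_le_pow_left₀ (Nat.cast_nonneg R) this 2
            rw [sq_abs] at this
            linarith [sq_nonneg x.2]
          · have : (R : ℤ) ≤ |x.2| := by rw [← Int.natCast_natAbs]; exact_mod_cast hx.le
            have := pow_le_pow_left₀ (Nat.cast_nonneg R) this 2
            rw [sq_abs] at this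
            linarith [sq_nonneg x.1]
        exact_mod_cast this
    obtain ⟨t₀, ht₀, hm⟩ := hE _ h2 (box R) (bq J β R) (β * J.card) (mul_pos hβ hc) e1 e2
      (h3.trans (by norm_num)) (Pi.single ⟨0, z0⟩ 1) (fun i => a i.1)
    have hF : ∀ g : box R → ℝ, ∑ i, (Pi.single ⟨0, z0⟩ 1 : box R → ℝ) i * g i = g ⟨0, z0⟩ :=
      fun g => by simp [Pi.single_apply]
    have hF' : ∀ (t : ℝ) (g : box R → ℝ),
        ∑ i, (t • (Pi.single ⟨0, z0⟩ 1 : box R → ℝ)) i * g i = t * g ⟨0, z0⟩ := fun t g => by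
      simp only [Pi.smul_apply, smul_eq_mul, mul_assoc, ← mul_sum, hF]
    have ga : bq J β R (fun i => a i.1) ≤ (2 * Real.pi * Real.log (R / 3) + C₁) / b := by
      have := e1 (fun i => a i.1) (fun i => a i.1)
      simp only [sub_self, ne_eq, OfNat.ofNat_ne_zero, not_false_eq_true, zero_pow, sum_const_zero,
        zero_div, zero_add, ea] at this
      exact this.trans (div_le_div_of_nonneg_right (a4 _) hb0.le)
    have a0 : a 0 = Real.log (R / 3) := a1 0 (by norm_num)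
    have hl : 0 ≤ Real.log (R / 3) := le_trans (by positivity) hR'
    have gb : Real.log (R / 3) / 2 ≤ 2 * Real.log (R / 3) - bq J β R (fun i => a i.1) := by
      have : 2 * Real.pi * Real.log (R / 3) / b ≤ Real.log (R / 3) / 4 := by
        rw [div_le_iff₀ hb0]; nlinarith
      rw [add_div] at ga
      linarith
    obtain ⟨s0, s2, hZ, hv⟩ := var_ge (fun h : BoxConfig R => boxWeight J β h)
      (fun h => 2 * Real.pi * (zeroExtend h 0 : ℝ)) (fun h => Real.exp_pos _) 0
      (fun t => by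
        have := (hS _ _ hP).2.2.1 (t • Pi.single ⟨0, z0⟩ 1)
        simp only [hF', ← weight_eq] at this
        simpa only [← ext_lat, ext_on _ z0] using this)
      (c := Real.log (R / 3) / 4) ht₀ (fun t ht => by
        have := hm t ht
        simp only [mgf, hF, hF', ← weight_eq, a0] at this
        simp only [← ext_lat, ext_on _ z0]
        refine le_trans (Real.exp_le_exp.2 ?_) this
        rw [mul_assoc]
        refine div_le_div_of_nonneg_right (mul_le_mul_of_nonneg_left ?_ (sq_nonneg t)) two_pos.le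
        nlinarith)
    have hw : ∀ h : BoxConfig R, 0 ≤ boxWeight J β h := fun h => (Real.exp_pos _).le
    rw [boxVariance, ← ENNReal.ofReal_tsum_of_nonneg (fun h => mul_nonneg (sq_nonneg _) (hw h)) s2,
      ← ENNReal.ofReal_tsum_of_nonneg hw s0, ← ENNReal.ofReal_div_of_pos hZ]
    exact ENNReal.ofReal_le_ofReal hv
  refine ENNReal.eq_top_of_forall_nnreal_le fun r => ?_
  have t1 : Filter.Tendsto (fun R : ℕ => Real.log (((R + 1 : ℕ) : ℝ) / 3)) Filter.atTop
      Filter.atTop :=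
    Real.tendsto_log_atTop.comp ((tendsto_natCast_atTop_atTop.comp
      (Filter.tendsto_add_atTop_nat 1)).atTop_div_const (by norm_num))
  obtain ⟨R, r1, r2, r3⟩ := ((Filter.eventually_ge_atTop 2).and ((t1.eventually_ge_atTop (C₁ / b)).and
    (t1.eventually_ge_atTop (4 * r)))).exists
  refine le_trans ?_ ((key (R + 1) (by omega) r2).trans
    (le_iSup (fun R : ℕ => boxVariance J β (R + 1)) R))
  rw [← ENNReal.ofReal_coe_nnreal]
  exact ENNReal.ofReal_le_ofReal (by linarith)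

end Crest.Agent.T145.FS
end

-- ▼ part T145/FsRsd_32
section

/-!
# Row 145, item (e) (helper32): rotation inequality and pinning for lattice Gaussians
-/

set_option autoImplicit false

namespace Crest.Agent.T145.FS

namespace R32

variable {ι : Type} [Fintype ι]

omit [Fintype ι] in
theorem lat_add (a b : ι → ℤ) : lat (a + b) = lat a + lat b := by
  funext i; simp [lat, mul_add]

omit [Fintype ι] in
theorem lat_sub (a b : ι → ℤ) : lat (a - b) = lat a - lat b := by
  funext i; simp [lat, mul_sub]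

theorem q_sub {E : Type} [AddCommGroup E] [Module ℝ E] (A : QuadraticForm ℝ E) (a b : E) :
    A (a - b) = A a + A b - QuadraticMap.polar A a b := by
  rw [sub_eq_add_neg a b, QuadraticMap.map_add A, QuadraticMap.polar_neg_right,
    QuadraticMap.map_neg, sub_eq_add_neg]

theorem para {E : Type} [AddCommGroup E] [Module ℝ E] (A : QuadraticForm ℝ E) (a b : E) :
    A (a + b) + A (a - b) = 2 * A a + 2 * A b := by
  rw [q_sub, QuadraticMap.map_add A]; ring

/-- Gaussians are positive definite -/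
theorem pd_gauss {E : Type} [AddCommGroup E] [Module ℝ E] (B : QuadraticForm ℝ E)
    (hB : ∀ x, 0 ≤ B x) : PD fun x => Real.exp (-(B x) / 2) := by
  have h1 : PSD fun a b : E => QuadraticMap.polar B a b / 2 := by
    refine psd_iff.2 ⟨fun a b => by rw [QuadraticMap.polar_comm], fun T x => ?_⟩
    have : ∑ a ∈ T, ∑ b ∈ T, x a * x b * (QuadraticMap.polar B a b / 2) = B (∑ a ∈ T, x a • a) := by
      have h := QuadraticMap.polar_self B (∑ a ∈ T, x a • a)
      rw [← QuadraticMap.polarBilin_apply_apply] at h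
      simp only [map_sum, LinearMap.sum_apply, map_smul, LinearMap.smul_apply, smul_eq_mul,
        QuadraticMap.polarBilin_apply_apply, nsmul_eq_mul, Nat.cast_ofNat] at h
      rw [← mul_right_inj' (two_ne_zero' ℝ), ← h, Finset.mul_sum]
      refine Finset.sum_congr rfl fun a _ => ?_
      rw [Finset.mul_sum, Finset.mul_sum]
      exact Finset.sum_congr rfl fun b _ => by rw [QuadraticMap.polar_comm]; ring
    rw [this]; exact hB _
  refine (h1.exp.conj fun x => Real.exp (-(B x) / 2)).congr fun a b => ?_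
  simp only [← Real.exp_add, q_sub]
  congr 1; ring

/-- the rotation inequality against any positive definite function -/
theorem rot (A : QuadraticForm ℝ (ι → ℝ))
    (hs : ∀ u : ι → ℝ, Summable fun h : ι → ℤ => Real.exp (-(A (lat h - u)) / 2))
    {G : (ι → ℝ) → ℝ} (hG : PD G) (u v : ι → ℝ) :
    (∑' h : ι → ℤ, Real.exp (-(A (lat h - u)) / 2) * G (lat h - v)) * thA A 0 ≤
      thA A u * ∑' h : ι → ℤ, Real.exp (-(A (lat h - 0)) / 2) * G (lat h) := by
  let φ : (ι → ℤ) → ℝ := fun x => Real.exp (-(A (lat x - u)) / 4)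
  let md : (ι → ℤ) → ι → ZMod 2 := fun x i => (x i : ZMod 2)
  let K : (ι → ℤ) × (ι → ℝ) → (ι → ℤ) × (ι → ℝ) → ℝ := fun a b =>
    φ a.1 * φ b.1 * (ind (md a.1 = md b.1) * G (a.2 - b.2))
  have hK : PSD K := (((psd_ind md).comp Prod.fst).mul (PSD.comp hG Prod.snd)).conj fun a => φ a.1
  let p : (ι → ℤ) → ι → ℝ := fun x => (1 / 2 : ℝ) • (lat x - v)
  let j : (ι → ℤ) × (ι → ℤ) → (ι → ℤ) × (ι → ℤ) := fun s => (s.1 + s.2, s.1 - s.2)
  have hj : Function.Injective j := fun s t h => by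
    obtain ⟨h1, h2⟩ := Prod.ext_iff.1 h
    refine Prod.ext (funext fun i => ?_) (funext fun i => ?_) <;>
    · have a1 := congrFun h1 i
      have a2 := congrFun h2 i
      simp only [j, Pi.add_apply, Pi.sub_apply] at a1 a2
      omega
  have hr : ∀ x : (ι → ℤ) × (ι → ℤ), x ∉ Set.range j → ind (md x.1 = md x.2) = 0 := fun x hx => by
    refine if_neg fun h => hx ?_
    have h2 : ∀ i, (2 : ℤ) ∣ x.2 i - x.1 i := fun i =>
      (ZMod.intCast_eq_intCast_iff_dvd_sub _ _ 2).1 (congrFun h i)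
    refine ⟨(fun i => (x.1 i + x.2 i) / 2, fun i => (x.1 i - x.2 i) / 2),
      Prod.ext (funext fun i => ?_) (funext fun i => ?_)⟩ <;>
    · have := h2 i
      simp only [j, Pi.add_apply, Pi.sub_apply]
      omega
  have hm : ∀ s, ind (md (j s).1 = md (j s).2) = 1 := fun s => by
    refine if_pos (funext fun i => (ZMod.intCast_eq_intCast_iff_dvd_sub _ _ 2).2 ?_)
    simp only [j, Pi.add_apply, Pi.sub_apply]
    omega
  have hφ : ∀ s, φ (j s).1 * φ (j s).2 =
      Real.exp (-(A (lat s.1 - u)) / 2) * Real.exp (-(A (lat s.2 - 0)) / 2) := fun s => by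
    have h := para A (lat s.1 - u) (lat s.2)
    simp only [φ, j, ← Real.exp_add, lat_add, lat_sub, sub_zero]
    rw [show lat s.1 + lat s.2 - u = lat s.1 - u + lat s.2 by abel,
      show lat s.1 - lat s.2 - u = lat s.1 - u - lat s.2 by abel]
    congr 1; linarith
  have hb : ∀ (w : ι → ℝ) (r : (ι → ℤ) → ι → ℝ),
      Summable fun h => ‖Real.exp (-(A (lat h - w)) / 2) * G (r h)‖ := fun w r =>
    Summable.of_nonneg_of_le (fun _ => norm_nonneg _) (fun h => by
      rw [norm_mul, Real.norm_of_nonneg (Real.exp_pos _).le]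
      exact mul_le_mul_of_nonneg_left (hG.abs_le _) (Real.exp_pos _).le) ((hs w).mul_right (G 0))
  have key : ∀ (a b : (ι → ℤ) → ι → ℝ) (f g : (ι → ℤ) → ℝ), Summable (fun h => ‖f h‖) →
      Summable (fun h => ‖g h‖) → (∀ s : (ι → ℤ) × (ι → ℤ), Real.exp (-(A (lat s.1 - u)) / 2) *
        Real.exp (-(A (lat s.2 - 0)) / 2) * G (a (j s).1 - b (j s).2) = f s.1 * g s.2) →
      Summable (fun x : (ι → ℤ) × (ι → ℤ) => K (x.1, a x.1) (x.2, b x.2)) ∧
        ∑' x : (ι → ℤ) × (ι → ℤ), K (x.1, a x.1) (x.2, b x.2) = (∑' h, f h) * ∑' h, g h := by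
    intro a b f g hf hg h
    have e : ∀ s, K ((j s).1, a (j s).1) ((j s).2, b (j s).2) = f s.1 * g s.2 := fun s => by
      simp only [K]; rw [hφ, hm, one_mul, h]
    have z : ∀ x ∉ Set.range j, K (x.1, a x.1) (x.2, b x.2) = 0 := fun x hx => by
      simp only [K]; rw [hr x hx, zero_mul, mul_zero]
    refine ⟨(hj.summable_iff z).1 ((summable_mul_of_summable_norm hf hg).congr fun s => (e s).symm),
      ?_⟩
    rw [tsum_mul_tsum_of_summable_norm hf hg, ← hj.tsum_eq fun x hx => by_contra fun h => hx (z x h)]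
    exact tsum_congr e
  obtain ⟨s1, e1⟩ := key p (fun x => -p x) _ _ (hb u fun h => lat h - v) (hs 0).norm fun s => by
    rw [mul_right_comm]
    congr 3
    simp only [p, j, lat_add, lat_sub]
    module
  obtain ⟨s2, e2⟩ := key p p _ _ (hs u).norm (hb 0 lat) fun s => by
    rw [mul_assoc]
    congr 3
    simp only [p, j, lat_add, lat_sub]
    module
  obtain ⟨s3, e3⟩ := key (fun x => -p x) (fun x => -p x) _ _ (hs u).norm (hb 0 lat) fun s => by
    rw [mul_assoc, ← hG.even]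
    congr 3
    simp only [p, j, lat_add, lat_sub]
    module
  have h1 := hK.block_sq_le (fun x => (x, p x)) (fun x => (x, -p x)) s1 s2 s3
  have h2 := (hK.comp fun x => (x, p x)).tsum_nonneg' s2
  rw [e1, e2, e3, ← sq] at h1
  rw [e2] at h2
  exact (abs_le_of_sq_le_sq' h1 h2).2

end R32

open R32

/-- **RSD** -/
theorem rsdStmt (h : SumStmt) : RsdStmt := by
  intro ι _ A B hA hB u v
  refine (rot A (h ι A hA).1 (pd_gauss B hB) u v).trans_eq ?_
  congr 1
  refine tsum_congr fun s => ?_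
  rw [← Real.exp_add, sub_zero, add_apply]
  congr 1; ring

/-- **PIN** -/
theorem pinStmt (h : SumStmt) : PinStmt := by
  classical
  intro ι κ _ _ e A A' he hA hA' F
  obtain ⟨h1, ⟨C, hC⟩, -, h4, h5⟩ := h ι A hA
  obtain ⟨u, hu⟩ := h4 F
  let ρ : (ι → ℝ) →+ ({i // i ∉ Set.range e} → ℝ) :=
    { toFun := fun x i => x i.1, map_zero' := rfl, map_add' := fun _ _ => rfl }
  have h6 := rot A h1 (pd_ind ρ) u 0
  have hl : ∀ k : κ → ℤ, lat (Function.extend e k 0) = Function.extend e (lat k) 0 := fun k => by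
    funext i
    by_cases hi : ∃ a, e a = i
    · obtain ⟨a, rfl⟩ := hi
      simp only [lat, he.extend_apply]
    · simp [lat, Function.extend_apply' _ _ _ hi]
  have key : ∀ f : (ι → ℤ) → ℝ, ∑' s, f s * ind (ρ (lat s) = 0) =
      ∑' k : κ → ℤ, f (Function.extend e k 0) := fun f => by
    rw [← (Function.extend_injective he (0 : ι → ℤ)).tsum_eq fun s hs => ?_]
    · refine tsum_congr fun k => ?_
      rw [ind, if_pos, mul_one]
      funext i
      change lat _ i.1 = 0
      rw [hl, Function.extend_apply' _ _ _ i.2]; rfl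
    · have h7 : ρ (lat s) = 0 := by
        by_contra h0
        exact hs (by simp only [ind, if_neg h0, mul_zero])
      refine ⟨s ∘ e, funext fun i => ?_⟩
      by_cases hi : ∃ a, e a = i
      · obtain ⟨a, rfl⟩ := hi
        exact he.extend_apply _ _ _
      · have h8 : 2 * Real.pi * (s i : ℝ) = 0 := congrFun h7 ⟨i, hi⟩
        change Function.extend e (s ∘ e) 0 i = s i
        rw [Function.extend_apply' _ _ _ hi]
        exact_mod_cast ((mul_eq_zero.1 h8).resolve_left (by positivity)).symm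
  simp only [sub_zero] at h6
  rw [key, key] at h6
  have e1 : ∀ k : κ → ℤ, Real.exp (-(A (lat (Function.extend e k 0) - u)) / 2) =
      Real.exp (-(A u) / 2) * (Real.exp (∑ a, F (e a) * lat k a) * Real.exp (-(A' (lat k)) / 2)) := by
    intro k
    have h7 : ∑ a, F (e a) * lat k a = ∑ i, F i * Function.extend e (lat k) 0 i :=
      Fintype.sum_of_injective e he _ _ (fun i hi => by
        rw [Function.extend_apply' _ _ _ hi]; exact mul_zero _) fun a => by rw [he.extend_apply]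
    rw [← Real.exp_add, ← Real.exp_add, q_sub, h7, hu, hA', hl, QuadraticMap.polar_comm]
    congr 1; ring
  simp only [e1] at h6
  simp only [hl, ← hA'] at h6
  rw [tsum_mul_left] at h6
  have hA'' : A'.PosDef := fun x hx => by
    rw [hA']
    exact hA _ fun h0 => hx (funext fun a => (he.extend_apply x 0 a).symm.trans (congrFun h0 _))
  obtain ⟨-, ⟨C', hC'⟩, -⟩ := h κ A' hA''
  have h8 := (hC' 0).1
  simp only [thA, sub_zero] at h8
  rw [h5 F u hu, mgf, div_le_div_iff₀ h8 (hC 0).1, mul_assoc]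
  refine le_of_eq_of_le ?_ (mul_le_mul_of_nonneg_left h6 (Real.exp_pos _).le)
  rw [← mul_assoc, ← mul_assoc, ← Real.exp_add, neg_div, add_neg_cancel, Real.exp_zero, one_mul]

end Crest.Agent.T145.FS
end

-- ▼ part T145/FsShift_15
section

/-!
# Row 145, item (e): SHIFT, the complex Cameron–Martin translation (helper15)

`K s = ∫ H(φ + s a) exp(-s⟨∇a,∇φ⟩/b - s² D(a)/2b) gw` is invariant under real translations of `s`
(translation invariance of Lebesgue measure); Cauchy's theorem on the unit square and Fubini give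
`K 0 = K I`.
-/

set_option autoImplicit false

namespace Crest.Agent.T145.FS

open MeasureTheory

namespace Sh15

theorem w_nonneg (g : P → ℝ) (x : P) : 0 ≤ w g x := by unfold w; positivity

theorem D_nonneg (Λ : Finset P) (g : P → ℝ) : 0 ≤ D Λ g :=
  Finset.sum_nonneg fun x _ => w_nonneg g x

theorem ext_of_notMem (Λ : Finset P) (φ : Λ → ℝ) {x : P} (h : x ∉ Λ) : ext Λ φ x = 0 := by
  simp [ext, h]

theorem ext_of_mem (Λ : Finset P) (φ : Λ → ℝ) (x : Λ) : ext Λ φ x = φ x := by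
  simp [ext, x.2]

theorem continuous_ext (Λ : Finset P) (x : P) : Continuous fun φ : Λ → ℝ => ext Λ φ x := by
  unfold ext
  by_cases h : x ∈ Λ
  · simp only [h, dif_pos]; exact continuous_apply _
  · simp only [h, dif_neg, not_false_eq_true]; exact continuous_const

theorem continuous_D (Λ : Finset P) : Continuous fun φ : Λ → ℝ => D Λ (ext Λ φ) := by
  unfold D En w
  refine continuous_finsetSum _ fun x _ => ?_
  have h1 := continuous_ext Λ (x + (1, 0))
  have h2 := continuous_ext Λ (x + (0, 1))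
  have h3 := continuous_ext Λ x
  fun_prop

theorem continuous_gw (Λ : Finset P) (b : ℝ) : Continuous (gw Λ b) := by
  unfold gw
  have := continuous_D Λ
  fun_prop

theorem abs_le_path (Λ : Finset P) (g : P → ℝ) (hg : ∀ x ∉ Λ, g x = 0) (k : ℕ) :
    ∀ x : P, x + ((k : ℤ), 0) ∉ Λ → |g x| ≤ k * Real.sqrt (D Λ g) := by
  induction k with
  | zero =>
    intro x hx
    have : x + (((0 : ℕ) : ℤ), 0) = x := by ext <;> simp
    rw [this] at hx
    simp [hg x hx]
  | succ k ih =>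
    intro x hx
    by_cases hxΛ : x ∈ Λ
    · have h1 : x + (1, 0) + ((k : ℤ), 0) = x + (((k + 1 : ℕ) : ℤ), 0) := by
        ext <;> simp; ring
      have h2 := ih (x + (1, 0)) (by rw [h1]; exact hx)
      have h3 : w g x ≤ D Λ g :=
        Finset.single_le_sum (f := w g) (fun y _ => w_nonneg g y)
          (by unfold halo; simp [hxΛ])
      have h4 : (g (x + (1, 0)) - g x) ^ 2 ≤ D Λ g := by
        have : 0 ≤ (g (x + (0, 1)) - g x) ^ 2 := sq_nonneg _
        unfold w at h3; linarith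
      have h5 : |g (x + (1, 0)) - g x| ≤ Real.sqrt (D Λ g) := Real.abs_le_sqrt h4
      have h6 : |g x| ≤ |g (x + (1, 0))| + |g (x + (1, 0)) - g x| := by
        have := abs_sub (g (x + (1, 0))) (g (x + (1, 0)) - g x)
        simpa using this
      push_cast
      linarith
    · rw [hg x hxΛ, abs_zero]; positivity

/-- The Dirichlet energy is positive definite. -/
theorem exists_coer (Λ : Finset P) :
    ∃ c : ℝ, 0 < c ∧ ∀ φ : Λ → ℝ, c * ∑ x, φ x ^ 2 ≤ D Λ (ext Λ φ) := by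
  classical
  obtain ⟨K, hK⟩ : ∃ K : ℕ, ∀ x ∈ Λ, x + ((K : ℤ), 0) ∉ Λ := by
    refine ⟨(Λ ×ˢ Λ).sup (fun p => (p.1.1 - p.2.1).natAbs) + 1, fun x hx hy => ?_⟩
    have := Finset.le_sup (f := fun p : P × P => (p.1.1 - p.2.1).natAbs)
      (Finset.mk_mem_product hy hx)
    simp only [Prod.fst_add, add_sub_cancel_left, Int.natAbs_natCast] at this
    omega
  refine ⟨1 / ((Λ.card : ℝ) * K ^ 2 + 1), by positivity, fun φ => ?_⟩
  have hD := D_nonneg Λ (ext Λ φ)
  have h1 : ∀ x : Λ, φ x ^ 2 ≤ (K : ℝ) ^ 2 * D Λ (ext Λ φ) := fun x => by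
    have h := abs_le_path Λ (ext Λ φ) (fun y hy => ext_of_notMem Λ φ hy) K x (hK x x.2)
    rw [ext_of_mem] at h
    have h2 : φ x ^ 2 ≤ (K * Real.sqrt (D Λ (ext Λ φ))) ^ 2 := by
      rw [← sq_abs]; exact pow_le_pow_left₀ (abs_nonneg _) h 2
    rwa [mul_pow, Real.sq_sqrt hD] at h2
  have h2 : ∑ x, φ x ^ 2 ≤ (Λ.card : ℝ) * ((K : ℝ) ^ 2 * D Λ (ext Λ φ)) := by
    have := Finset.sum_le_card_nsmul Finset.univ (fun x : Λ => φ x ^ 2) _ (fun x _ => h1 x)
    simpa using this
  rw [div_mul_eq_mul_div, one_mul, div_le_iff₀ (by positivity)]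
  nlinarith

theorem integrable_gw (Λ : Finset P) {b : ℝ} (hb : 0 < b) : Integrable (gw Λ b) := by
  obtain ⟨c, hc, h⟩ := exists_coer Λ
  have h1 : Integrable (fun φ : Λ → ℝ => ∏ x, Real.exp (-(c / (2 * b)) * φ x ^ 2)) :=
    Integrable.fintype_prod (f := fun (_ : Λ) (t : ℝ) => Real.exp (-(c / (2 * b)) * t ^ 2))
      fun _ => integrable_exp_neg_mul_sq (by positivity)
  refine h1.mono' (continuous_gw Λ b).aestronglyMeasurable (ae_of_all _ fun φ => ?_)
  rw [← Real.exp_sum, ← Finset.mul_sum, Real.norm_eq_abs, abs_of_pos (by unfold gw; positivity)]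
  unfold gw
  refine Real.exp_le_exp.2 ?_
  have h2 := h φ
  have : -(c / (2 * b)) * ∑ x, φ x ^ 2 = -(c * ∑ x, φ x ^ 2) / (2 * b) := by ring
  rw [this]
  exact div_le_div_of_nonneg_right (by linarith) (by positivity)

/-- The real bilinear form. -/
def bR (Q : Finset P) (a g : P → ℝ) : ℝ :=
  ∑ x ∈ Q, ((a (x + (1, 0)) - a x) * (g (x + (1, 0)) - g x) +
    (a (x + (0, 1)) - a x) * (g (x + (0, 1)) - g x))

theorem bil_eq (Q : Finset P) (a g : P → ℝ) :
    bil Q a (fun x => (g x : ℂ)) = (bR Q a g : ℂ) := by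
  unfold bil bR; push_cast; rfl

theorem bR_add (Q : Finset P) (a g : P → ℝ) (h : ℝ) :
    bR Q a (fun x => g x + h * a x) = bR Q a g + h * En Q a := by
  unfold bR En w
  rw [Finset.mul_sum, ← Finset.sum_add_distrib]
  exact Finset.sum_congr rfl fun x _ => by ring

theorem En_add (Q : Finset P) (a g : P → ℝ) (h : ℝ) :
    En Q (fun x => g x + h * a x) = En Q g + 2 * h * bR Q a g + h ^ 2 * En Q a := by
  unfold bR En w
  rw [Finset.mul_sum, Finset.mul_sum, ← Finset.sum_add_distrib, ← Finset.sum_add_distrib]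
  exact Finset.sum_congr rfl fun x _ => by ring

theorem abs_bR_le (Q : Finset P) (a g : P → ℝ) :
    2 * |bR Q a g| ≤ 4 * En Q a + En Q g / 4 := by
  unfold bR En w
  refine le_trans (mul_le_mul_of_nonneg_left (Finset.abs_sum_le_sum_abs _ _) (by norm_num)) ?_
  rw [Finset.mul_sum, Finset.mul_sum, Finset.sum_div, ← Finset.sum_add_distrib]
  refine Finset.sum_le_sum fun x _ => ?_
  set u := a (x + (1, 0)) - a x
  set v := g (x + (1, 0)) - g x
  set u' := a (x + (0, 1)) - a x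
  set v' := g (x + (0, 1)) - g x
  rcases abs_cases (u * v + u' * v') with h | h <;> rw [h.1]
  · nlinarith [sq_nonneg (2 * u - v / 2), sq_nonneg (2 * u' - v' / 2)]
  · nlinarith [sq_nonneg (2 * u + v / 2), sq_nonneg (2 * u' + v' / 2)]

theorem continuous_bR (Λ Q : Finset P) (a : P → ℝ) :
    Continuous fun φ : Λ → ℝ => bR Q a (ext Λ φ) := by
  unfold bR
  refine continuous_finsetSum _ fun x _ => ?_
  have h1 := continuous_ext Λ (x + (1, 0))
  have h2 := continuous_ext Λ (x + (0, 1))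
  have h3 := continuous_ext Λ x
  fun_prop

/-- The integrand. -/
noncomputable def F (Λ : Finset P) (b : ℝ) (a : P → ℝ) (H : (P → ℂ) → ℂ) (s : ℂ) (φ : Λ → ℝ) : ℂ :=
  H (fun x => (ext Λ φ x : ℂ) + s * (a x : ℂ)) *
    Complex.exp (-s * (bR (halo Λ) a (ext Λ φ) : ℂ) / b - s ^ 2 * (D Λ a : ℂ) / (2 * b)) *
      (gw Λ b φ : ℂ)

theorem F_shift (Λ : Finset P) {b : ℝ} (hb : 0 < b) (a : P → ℝ) (ha : ∀ x ∉ Λ, a x = 0)
    (H : (P → ℂ) → ℂ) (s : ℂ) (h : ℝ) (φ : Λ → ℝ) :
    F Λ b a H s (φ + fun x : Λ => h * a x) = F Λ b a H (s + h) φ := by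
  have he : ext Λ (φ + fun x : Λ => h * a x) = fun x => ext Λ φ x + h * a x := by
    funext x
    by_cases hx : x ∈ Λ
    · simp [ext, hx]
    · simp [ext, hx, ha x hx]
  unfold F gw
  rw [he]
  have h1 : (fun x => (((ext Λ φ x + h * a x : ℝ)) : ℂ) + s * (a x : ℂ)) =
      fun x => (ext Λ φ x : ℂ) + (s + h) * (a x : ℂ) := by
    funext x; push_cast; ring
  rw [h1, mul_assoc, mul_assoc]
  congr 1
  unfold D
  rw [bR_add, En_add]
  push_cast
  rw [← Complex.exp_add, ← Complex.exp_add]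
  congr 1
  have : (b : ℂ) ≠ 0 := by exact_mod_cast hb.ne'
  field_simp
  ring

theorem K_shift (Λ : Finset P) {b : ℝ} (hb : 0 < b) (a : P → ℝ) (ha : ∀ x ∉ Λ, a x = 0)
    (H : (P → ℂ) → ℂ) (s : ℂ) (h : ℝ) :
    ∫ φ, F Λ b a H (s + h) φ = ∫ φ, F Λ b a H s φ := by
  rw [← integral_add_right_eq_self (μ := (volume : Measure (Λ → ℝ))) (F Λ b a H s)
    (fun x : Λ => h * a x)]
  exact integral_congr_ae (ae_of_all _ fun φ => (F_shift Λ hb a ha H s h φ).symm)

theorem norm_F_le (Λ : Finset P) {b : ℝ} (hb : 0 < b) (a : P → ℝ) (H : (P → ℂ) → ℂ) {C : ℝ}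
    {s : ℂ} (hs : ‖s‖ ≤ 2) (φ : Λ → ℝ)
    (hH : ‖H (fun x => (ext Λ φ x : ℂ) + s * (a x : ℂ))‖ ≤ C) :
    ‖F Λ b a H s φ‖ ≤ C * Real.exp (6 * D Λ a / b) * gw Λ (2 * b) φ := by
  have hC : 0 ≤ C := le_trans (norm_nonneg _) hH
  unfold F
  rw [norm_mul, norm_mul, mul_assoc, mul_assoc]
  refine mul_le_mul hH ?_ (by positivity) hC
  have hDa := D_nonneg Λ a
  have h1 : ‖-s * (bR (halo Λ) a (ext Λ φ) : ℂ) / b - s ^ 2 * (D Λ a : ℂ) / (2 * b)‖ ≤
      2 * |bR (halo Λ) a (ext Λ φ)| / b + 4 * D Λ a / (2 * b) := by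
    refine le_trans (norm_sub_le _ _) (add_le_add ?_ ?_)
    · rw [norm_div, norm_mul, norm_neg, Complex.norm_real, Complex.norm_real, Real.norm_eq_abs,
        Real.norm_eq_abs, abs_of_pos hb]
      gcongr
    · rw [norm_div, norm_mul, norm_pow, norm_mul, Complex.norm_real, Complex.norm_real,
        Real.norm_eq_abs, Real.norm_eq_abs, abs_of_pos hb, abs_of_nonneg hDa]
      have : ‖s‖ ^ 2 ≤ 4 := by nlinarith [norm_nonneg s]
      simp only [Complex.norm_ofNat]
      gcongr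
  have h2 := abs_bR_le (halo Λ) a (ext Λ φ)
  rw [Complex.norm_exp, Complex.norm_real, Real.norm_eq_abs,
    abs_of_pos (by unfold gw; positivity)]
  unfold gw
  rw [← Real.exp_add, ← Real.exp_add]
  refine Real.exp_le_exp.2 ?_
  have h3 := le_trans (Complex.re_le_norm _) h1
  have h4 : 2 * |bR (halo Λ) a (ext Λ φ)| / b ≤ (4 * D Λ a + D Λ (ext Λ φ) / 4) / b :=
    div_le_div_of_nonneg_right h2 hb.le
  have h5 : (4 * D Λ a + D Λ (ext Λ φ) / 4) / b + 4 * D Λ a / (2 * b) +
      -D Λ (ext Λ φ) / (2 * b) = 6 * D Λ a / b + -D Λ (ext Λ φ) / (2 * (2 * b)) := by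
    field_simp; ring
  linarith

theorem measurable_F (Λ : Finset P) (b : ℝ) (a : P → ℝ) {H : (P → ℂ) → ℂ} (hH : Measurable H)
    {p : ℝ → ℂ} (hp : Continuous p) :
    Measurable (Function.uncurry fun (t : ℝ) (φ : Λ → ℝ) => F Λ b a H (p t) φ) := by
  have h1 : Measurable fun z : ℝ × (Λ → ℝ) =>
      H (fun x => (ext Λ z.2 x : ℂ) + p z.1 * (a x : ℂ)) := by
    refine hH.comp (measurable_pi_lambda _ fun x => Continuous.measurable ?_)
    have := continuous_ext Λ x
    fun_prop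
  have h2 : Continuous fun z : ℝ × (Λ → ℝ) =>
      Complex.exp (-p z.1 * (bR (halo Λ) a (ext Λ z.2) : ℂ) / b -
        p z.1 ^ 2 * (D Λ a : ℂ) / (2 * b)) := by
    have h3 : Continuous fun z : ℝ × (Λ → ℝ) => (bR (halo Λ) a (ext Λ z.2) : ℂ) :=
      Complex.continuous_ofReal.comp ((continuous_bR Λ (halo Λ) a).comp continuous_snd)
    have h4 : Continuous fun z : ℝ × (Λ → ℝ) => p z.1 := hp.comp continuous_fst
    exact Complex.continuous_exp.comp (((h4.neg.mul h3).div_const _).sub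
      (((h4.pow 2).mul continuous_const).div_const _))
  have h3 : Continuous fun z : ℝ × (Λ → ℝ) => (gw Λ b z.2 : ℂ) := by
    have := continuous_gw Λ b
    fun_prop
  exact (h1.mul h2.measurable).mul h3.measurable

end Sh15

open Sh15 in
theorem shiftStmt : ShiftStmt := by
  intro Λ b a H C hb ha hH hd hC
  have hint : ∀ p : ℝ → ℂ, Continuous p → (∀ t ∈ Set.uIoc (0 : ℝ) 1, ‖p t‖ ≤ 2 ∧ |(p t).im| ≤ 1) →
      Integrable (Function.uncurry fun (t : ℝ) (φ : Λ → ℝ) => F Λ b a H (p t) φ)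
        ((volume.restrict (Set.uIoc (0 : ℝ) 1)).prod volume) := by
    intro p hp hb2
    have hfin : IsFiniteMeasure (volume.restrict (Set.uIoc (0 : ℝ) 1)) := by
      rw [Set.uIoc_of_le zero_le_one]; infer_instance
    have h1 : Integrable (fun z : ℝ × (Λ → ℝ) =>
        (1 : ℝ) * (C * Real.exp (6 * D Λ a / b) * gw Λ (2 * b) z.2))
        ((volume.restrict (Set.uIoc (0 : ℝ) 1)).prod volume) :=
      Integrable.mul_prod (f := fun _ : ℝ => (1 : ℝ)) (integrable_const _)
        ((integrable_gw Λ (by positivity)).const_mul _)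
    refine h1.mono' (measurable_F Λ b a hH hp).aestronglyMeasurable ?_
    have h2 : ∀ᵐ z ∂((volume.restrict (Set.uIoc (0 : ℝ) 1)).prod (volume : Measure (Λ → ℝ))),
        z.1 ∈ Set.uIoc (0 : ℝ) 1 :=
      (Measure.quasiMeasurePreserving_fst).ae (ae_restrict_mem measurableSet_uIoc)
    filter_upwards [h2] with z hz
    rw [one_mul]
    exact norm_F_le Λ hb a H (hb2 _ hz).1 z.2 (hC _ _ (by linarith [(hb2 _ hz).2]))
  have hnorm : ∀ x y : ℝ, |x| ≤ 1 → |y| ≤ 1 →
      ‖(x : ℂ) + y * Complex.I‖ ≤ 2 ∧ |((x : ℂ) + y * Complex.I).im| ≤ 1 := by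
    intro x y hx hy
    refine ⟨le_trans (norm_add_le _ _) ?_, by simpa using hy⟩
    rw [norm_mul, Complex.norm_I, mul_one, Complex.norm_real, Complex.norm_real, Real.norm_eq_abs,
      Real.norm_eq_abs]
    linarith
  have habs : ∀ t ∈ Set.uIoc (0 : ℝ) 1, |t| ≤ 1 := by
    intro t ht
    rw [Set.uIoc_of_le zero_le_one] at ht
    rw [abs_of_pos ht.1]; exact ht.2
  have i1 := hint (fun t => (t : ℂ) + (0 : ℝ) * Complex.I) (by fun_prop)
    fun t ht => hnorm t 0 (habs t ht) (by simp)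
  have i2 := hint (fun t => (t : ℂ) + (1 : ℝ) * Complex.I) (by fun_prop)
    fun t ht => hnorm t 1 (habs t ht) (by simp)
  have i3 := hint (fun t => ((1 : ℝ) : ℂ) + t * Complex.I) (by fun_prop)
    fun t ht => hnorm 1 t (by simp) (habs t ht)
  have i4 := hint (fun t => ((0 : ℝ) : ℂ) + t * Complex.I) (by fun_prop)
    fun t ht => hnorm 0 t (by simp) (habs t ht)
  have hrect : ∀ φ : Λ → ℝ,
      (∫ t in (0 : ℝ)..1, F Λ b a H ((t : ℂ) + (0 : ℝ) * Complex.I) φ) -
        (∫ t in (0 : ℝ)..1, F Λ b a H ((t : ℂ) + (1 : ℝ) * Complex.I) φ) +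
        Complex.I * (∫ t in (0 : ℝ)..1, F Λ b a H (((1 : ℝ) : ℂ) + t * Complex.I) φ) -
        Complex.I * (∫ t in (0 : ℝ)..1, F Λ b a H (((0 : ℝ) : ℂ) + t * Complex.I) φ) = 0 := by
    intro φ
    have hdF : DifferentiableOn ℂ (fun s => F Λ b a H s φ) {s : ℂ | |s.im| < 3 / 2} := by
      unfold F
      refine ((hd (ext Λ φ)).mul ?_).mul (differentiableOn_const _)
      refine Differentiable.differentiableOn ?_
      fun_prop
    have := Complex.integral_boundary_rect_eq_zero_of_differentiableOn (fun s => F Λ b a H s φ)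
      0 (1 + Complex.I) (hdF.mono fun s hs => by
        have h2 := (Complex.mem_reProdIm.1 hs).2
        simp only [Complex.zero_im, Complex.add_im, Complex.one_im, Complex.I_im, zero_add,
          Set.uIcc_of_le (zero_le_one' ℝ), Set.mem_Icc] at h2
        simp only [Set.mem_ofPred_eq]
        rw [abs_of_nonneg h2.1]; linarith [h2.2])
    simpa using this
  have j1 := i1.integral_prod_right
  have j2 := i2.integral_prod_right
  have j3 := i3.integral_prod_right
  have j4 := i4.integral_prod_right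
  have conv : ∀ f : ℝ → (Λ → ℝ) → ℂ, (fun φ => ∫ t in Set.uIoc (0 : ℝ) 1,
      Function.uncurry f (t, φ)) = fun φ => ∫ t in (0 : ℝ)..1, f t φ := by
    intro f; funext φ
    rw [intervalIntegral.integral_of_le zero_le_one, Set.uIoc_of_le zero_le_one]; rfl
  rw [conv] at j1 j2 j3 j4
  have hsum := integral_congr_ae (μ := (volume : Measure (Λ → ℝ))) (ae_of_all _ hrect)
  have lin : ∀ f1 f2 f3 f4 : (Λ → ℝ) → ℂ, Integrable f1 → Integrable f2 → Integrable f3 →
      Integrable f4 → ∫ φ, (f1 φ - f2 φ + f3 φ - f4 φ) =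
        (∫ φ, f1 φ) - (∫ φ, f2 φ) + (∫ φ, f3 φ) - ∫ φ, f4 φ := by
    intro f1 f2 f3 f4 h1 h2 h3 h4
    have h12 : Integrable fun φ => f1 φ - f2 φ := h1.sub h2
    have h123 : Integrable fun φ => f1 φ - f2 φ + f3 φ := h12.add h3
    rw [integral_sub h123 h4, integral_add h12 h3, integral_sub h1 h2]
  rw [integral_zero, lin _ _ _ _ j1 j2 (j3.const_mul _) (j4.const_mul _), integral_const_mul,
    integral_const_mul, ← intervalIntegral_integral_swap i1, ← intervalIntegral_integral_swap i2,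
    ← intervalIntegral_integral_swap i3, ← intervalIntegral_integral_swap i4] at hsum
  have k1 : ∀ t : ℝ, ∫ φ, F Λ b a H ((t : ℂ) + (0 : ℝ) * Complex.I) φ = ∫ φ, F Λ b a H 0 φ := by
    intro t
    rw [← K_shift Λ hb a ha H 0 t]; simp
  have k2 : ∀ t : ℝ, ∫ φ, F Λ b a H ((t : ℂ) + (1 : ℝ) * Complex.I) φ =
      ∫ φ, F Λ b a H Complex.I φ := by
    intro t
    rw [← K_shift Λ hb a ha H Complex.I t]; simp [add_comm]
  have k3 : ∀ t : ℝ, ∫ φ, F Λ b a H (((1 : ℝ) : ℂ) + t * Complex.I) φ =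
      ∫ φ, F Λ b a H (((0 : ℝ) : ℂ) + t * Complex.I) φ := by
    intro t
    rw [← K_shift Λ hb a ha H (((0 : ℝ) : ℂ) + t * Complex.I) 1]; simp [add_comm]
  simp only [k1, k2, k3, intervalIntegral.integral_const, sub_zero, one_smul,
    add_sub_cancel_right] at hsum
  have hK := sub_eq_zero.1 hsum
  have e0 : ∀ φ, F Λ b a H 0 φ = H (fun x => (ext Λ φ x : ℂ)) * (gw Λ b φ : ℂ) := by
    intro φ; simp [F]
  have e1 : ∀ φ, F Λ b a H Complex.I φ =
      H (fun x => (ext Λ φ x : ℂ) + Complex.I * (a x : ℂ)) *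
        Complex.exp (-Complex.I * bil (halo Λ) a (fun x => (ext Λ φ x : ℂ)) / b +
          (D Λ a / (2 * b) : ℝ)) * (gw Λ b φ : ℂ) := by
    intro φ
    unfold F
    rw [bil_eq, Complex.I_sq]
    push_cast
    congr 3
    ring
  simp only [e0, e1] at hK
  exact hK

end Crest.Agent.T145.FS
end

-- ▼ part T145/FsTor_44

/-!
# Row 145, item (e) (helper44): `FS.torStmt`, `FS.e4Stmt`
-/

set_option autoImplicit false

open Finset Filter Topology Real

namespace Crest.Agent.T145.FS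

open MeasureTheory Crest.ProbabilityR.HeightModel

namespace T44

noncomputable section

variable {n : ℕ}

abbrev TT (n : ℕ) : Type := ZMod n × ZMod n
abbrev II (n : ℕ) : Type := {x : ZMod n × ZMod n // x ≠ 0}

/-- a step on the torus -/
abbrev st (n : ℕ) (y : P) : TT n := (((y.1 : ℤ) : ZMod n), ((y.2 : ℤ) : ZMod n))

theorem text_zero (σ : II n → ℝ) : text σ 0 = 0 := by simp [text]

theorem text_coe (σ : II n → ℝ) (i : II n) : text σ i.1 = σ i := by simp [text, i.2]

/-- evaluation of the extension -/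
def tL (x : TT n) : (II n → ℝ) →ₗ[ℝ] ℝ where
  toFun σ := text σ x
  map_add' σ τ := by unfold text; split_ifs <;> simp
  map_smul' c σ := by unfold text; split_ifs <;> simp

theorem card_pos {J : Finset P} (hJ : IsAdmissible J) : (0 : ℝ) < J.card := by
  exact_mod_cast Finset.card_pos.2 ⟨_, hJ.2.1⟩

theorem var_pos {J : Finset P} (hJ : IsAdmissible J) : 0 < varianceConst J :=
  div_pos (sum_pos' (fun _ _ => sq_nonneg _) ⟨_, hJ.2.1, by simp⟩) (by linarith [card_pos hJ])

variable [NeZero n]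

theorem sum_text (σ : II n → ℝ) (g : TT n → ℝ) : ∑ x, text σ x * g x = ∑ i, g i.1 * σ i := by
  rw [Fintype.sum_eq_add_sum_subtype_ne (fun x => text σ x * g x) 0, text_zero, zero_mul, zero_add]
  exact sum_congr rfl fun i _ => by rw [text_coe σ i, mul_comm]

/-- the energy -/
def EE (J : Finset P) (s : TT n → ℝ) : ℝ := ∑ x, ∑ y ∈ J, (s (x + st n y) - s x) ^ 2

/-- the quadratic form -/
def QA (J : Finset P) (β : ℝ) (n : ℕ) [NeZero n] : QuadraticForm ℝ (II n → ℝ) :=
  (2 * β * J.card)⁻¹ • ∑ x : TT n, ∑ y ∈ J, QuadraticMap.sq.comp (tL (x + st n y) - tL x)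

theorem QA_apply (J : Finset P) (β : ℝ) (σ : II n → ℝ) :
    QA J β n σ = EE J (text σ) / (2 * β * J.card) := by
  simp only [QA, EE, _root_.smul_apply, _root_.sum_apply, QuadraticMap.comp_apply,
    QuadraticMap.sq_apply, LinearMap.sub_apply, smul_eq_mul, sq, div_eq_inv_mul]
  rfl

theorem EE_nonneg (J : Finset P) (s : TT n → ℝ) : 0 ≤ EE J s :=
  sum_nonneg fun _ _ => sum_nonneg fun _ _ => sq_nonneg _

theorem const_of_EE {J : Finset P} (hJ : IsAdmissible J) {s : TT n → ℝ} (h : EE J s = 0)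
    (x : TT n) : s x = s 0 := by
  have h1 : ∀ x, ∀ y ∈ J, s (x + st n y) = s x := fun x y hy => by
    have h2 := (sum_eq_zero_iff_of_nonneg fun _ _ => sum_nonneg fun _ _ => sq_nonneg _).1 h x
      (mem_univ _)
    exact sub_eq_zero.1 (pow_eq_zero_iff two_ne_zero |>.1
      ((sum_eq_zero_iff_of_nonneg fun _ _ => sq_nonneg _).1 h2 y hy))
  have h2 : ∀ (a : ℕ) (b : ZMod n), s ((a : ZMod n), b) = s (0, b) := fun a b => by
    induction a with
    | zero => simp
    | succ a ih => rw [← ih, ← h1 ((a : ZMod n), b) _ hJ.2.1]; simp [st]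
  have h3 : ∀ b : ℕ, s (0, (b : ZMod n)) = s 0 := fun b => by
    induction b with
    | zero => simp [Prod.mk_zero_zero]
    | succ b ih => rw [← ih, ← h1 (0, (b : ZMod n)) _ (hJ.2.2.2 _ hJ.2.1)]; simp [st]
  have := (h2 x.1.val x.2).trans (by simpa using h3 x.2.val)
  simpa using this

theorem QA_pos {J : Finset P} (hJ : IsAdmissible J) {β : ℝ} (hβ : 0 < β) : (QA J β n).PosDef := by
  intro σ hσ
  rw [QA_apply]
  refine div_pos ((EE_nonneg _ _).lt_of_ne fun h => hσ ?_) (by have := card_pos hJ; positivity)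
  funext i
  rw [← text_coe σ i, const_of_EE hJ h.symm, text_zero]; rfl

/-- pinned configurations -/
def eqv (n : ℕ) : (II n → ℤ) ≃ TorusConfig n where
  toFun g := ⟨fun x => if h : x = 0 then 0 else g ⟨x, h⟩, by simp⟩
  invFun h i := h.1 i.1
  left_inv g := funext fun i => by simp [i.2]
  right_inv h := Subtype.ext (funext fun x => by
    by_cases hx : x = 0
    · simp [hx, h.2]
    · simp [hx])

omit [NeZero n] in
theorem text_lat (g : II n → ℤ) (x : TT n) : text (lat g) x = 2 * π * ((eqv n g).1 x : ℝ) := by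
  by_cases hx : x = 0 <;> simp [text, eqv, lat, hx]

theorem weight_eq (J : Finset P) (β : ℝ) (g : II n → ℤ) :
    torusWeight J β (eqv n g) = Real.exp (-(QA J β n (lat g)) / 2) := by
  rw [torusWeight, QA_apply, torusEnergy, EE]
  simp only [text_lat, mul_sub]
  congr 1
  ring

theorem pairing_eq (f : ℝ × ℝ → ℝ) (g : II n → ℤ) : fieldPairing (eqv n g) f =
    ∑ i : II n, (f ((i.1.1.val : ℝ) / n, (i.1.2.val : ℝ) / n) -
      (∑ y : TT n, f ((y.1.val : ℝ) / n, (y.2.val : ℝ) / n)) / (n : ℝ) ^ 2) / (n : ℝ) ^ 2 *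
        lat g i := by
  rw [← sum_text (lat g) fun x => (f ((x.1.val : ℝ) / n, (x.2.val : ℝ) / n) -
      (∑ y : TT n, f ((y.1.val : ℝ) / n, (y.2.val : ℝ) / n)) / (n : ℝ) ^ 2) / (n : ℝ) ^ 2]
  simp only [fieldPairing, meanHeight, ← text_lat, sub_mul, mul_sub, sub_div, sum_sub_distrib,
    ← mul_div_assoc, ← sum_div, ← mul_sum, ← sum_mul]
  ring

end

end T44

open T44

theorem torStmt (hS : SumStmt) : TorStmt := by
  intro J hJ β hβ n _
  refine ⟨QA J β n, QA_pos hJ hβ, fun σ => QA_apply J β σ, fun f => ?_⟩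
  obtain ⟨h1, -, h3, -⟩ := hS _ _ (QA_pos (n := n) hJ hβ)
  have h0 := h1 0
  simp only [sub_zero] at h0
  rw [torusLaplace, dif_pos (NeZero.ne n), torusLaplaceENN, ← (eqv n).tsum_eq, ← (eqv n).tsum_eq]
  simp only [weight_eq, pairing_eq]
  rw [← ENNReal.ofReal_tsum_of_nonneg (fun _ => by positivity) (h3 _),
    ← ENNReal.ofReal_tsum_of_nonneg (fun _ => by positivity) h0, ENNReal.toReal_div,
    ENNReal.toReal_ofReal (tsum_nonneg fun _ => by positivity),
    ENNReal.toReal_ofReal (tsum_nonneg fun _ => by positivity), mgf]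

namespace T44

noncomputable section

variable {n : ℕ} [NeZero n]

/-- the test mode -/
def cm (x : TT n) : ℝ := (ZMod.stdAddChar x.1).re

theorem char_eq (k : ℤ) :
    ZMod.stdAddChar (k : ZMod n) = Complex.exp ((2 * π * k / n : ℝ) * Complex.I) := by
  rw [ZMod.stdAddChar_coe]; congr 1; push_cast; ring

theorem cm_eq (x : TT n) : cm x = cos (2 * π * ((x.1.val : ℝ) / n)) := by
  have := char_eq (n := n) (x.1.val : ℤ)
  rw [Int.cast_natCast, ZMod.natCast_zmod_val] at this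
  rw [cm, this, Complex.exp_ofReal_mul_I_re]
  congr 1; push_cast; ring

theorem cm_add (x : TT n) (y : P) :
    cm (x + st n y) + cm (x - st n y) = 2 * cos (2 * π * y.1 / n) * cm x := by
  have h1 := char_eq (n := n) y.1
  have h2 := char_eq (n := n) (-y.1)
  rw [Int.cast_neg] at h2
  simp only [cm, Prod.fst_add, sub_eq_add_neg, Prod.fst_neg, AddChar.map_add_eq_mul, h1, h2,
    Complex.mul_re, Complex.exp_ofReal_mul_I_re, Complex.exp_ofReal_mul_I_im, Int.cast_neg,
    mul_neg, neg_div, cos_neg, sin_neg]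
  ring

theorem sum_char {b : ZMod n} (hb : b ≠ 0) : ∑ x : TT n, (ZMod.stdAddChar (x.1 * b)).re = 0 := by
  have h := AddChar.sum_mulShift b (ZMod.isPrimitive_stdAddChar n)
  rw [if_neg hb] at h
  rw [Fintype.sum_prod_type_right]
  simp only [← Complex.re_sum, h]
  simp

omit [NeZero n] in
theorem cast_ne (hn : 3 ≤ n) {k : ℕ} (h0 : 0 < k) (h2 : k ≤ 2) : (k : ZMod n) ≠ 0 := fun h =>
  absurd (Nat.le_of_dvd h0 ((ZMod.natCast_eq_zero_iff _ _).1 h)) (by omega)

theorem sum_cm (hn : 3 ≤ n) : ∑ x : TT n, cm x = 0 := by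
  simpa [cm] using sum_char (n := n) (b := 1) (by simpa using cast_ne hn one_pos one_le_two)

theorem sum_cm_sq (hn : 3 ≤ n) : ∑ x : TT n, cm x * cm x = (n : ℝ) ^ 2 / 2 := by
  have h := sum_char (n := n) (b := 2) (by simpa using cast_ne hn two_pos le_rfl)
  have h1 : ∀ x : TT n, cm x * cm x = 1 / 2 + (ZMod.stdAddChar (x.1 * 2)).re / 2 := fun x => by
    have h2 : ‖ZMod.stdAddChar x.1‖ = 1 := Circle.norm_coe _
    have h3 := Complex.sq_norm (ZMod.stdAddChar x.1)
    rw [h2, Complex.normSq_apply] at h3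
    rw [mul_two, AddChar.map_add_eq_mul, Complex.mul_re, cm]
    linarith
  simp only [h1, sum_add_distrib, ← sum_div, h]
  simp [sq]

theorem sbp (s : TT n → ℝ) (y : P) : ∑ x, (s (x + st n y) - s x) * (cm (x + st n y) - cm x) =
    2 * (1 - cos (2 * π * y.1 / n)) * ∑ x, s x * cm x := by
  have h1 : ∑ x, s (x + st n y) * cm (x + st n y) = ∑ x, s x * cm x :=
    Equiv.sum_comp (Equiv.addRight (st n y)) fun x => s x * cm x
  have h2 : ∑ x, s (x + st n y) * cm x = ∑ x, s x * cm (x - st n y) := by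
    rw [← Equiv.sum_comp (Equiv.addRight (st n y)) fun x => s x * cm (x - st n y)]
    simp
  have h3 : ∑ x, s x * cm (x + st n y) + ∑ x, s x * cm (x - st n y) =
      2 * cos (2 * π * y.1 / n) * ∑ x, s x * cm x := by
    rw [← sum_add_distrib, mul_sum]
    exact sum_congr rfl fun x _ => by rw [← mul_add, cm_add]; ring
  simp only [sub_mul, mul_sub, sum_sub_distrib]
  linarith

/-- the eigenvalue -/
def Lam (J : Finset P) (n : ℕ) : ℝ := ∑ y ∈ J, 2 * (1 - cos (2 * π * y.1 / n))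

theorem cs (hn : 3 ≤ n) (J : Finset P) (hL : 0 < Lam J n) (s : TT n → ℝ) :
    Lam J n * (∑ x, s x * cm x) ^ 2 ≤ EE J s * ((n : ℝ) ^ 2 / 2) := by
  have h1 : ∀ s : TT n → ℝ, ∑ p ∈ univ ×ˢ J, (s (p.1 + st n p.2) - s p.1) *
      (cm (p.1 + st n p.2) - cm p.1) = Lam J n * ∑ x, s x * cm x := fun s => by
    rw [sum_product_right, Lam, sum_mul]
    exact sum_congr rfl fun y _ => sbp s y
  have h2 := sum_mul_sq_le_sq_mul_sq (univ ×ˢ J) (fun p : TT n × P => s (p.1 + st n p.2) - s p.1)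
    fun p => cm (p.1 + st n p.2) - cm p.1
  have h3 := h1 cm
  simp only [← sq (cm _ - cm _)] at h3
  rw [h1, h3, sum_cm_sq hn, sum_product] at h2
  change _ ≤ EE J s * _ at h2
  refine le_of_mul_le_mul_left ?_ hL
  nlinarith

theorem lam_lim (J : Finset P) : Tendsto (fun n : ℕ => (n : ℝ) ^ 2 * Lam J n) atTop
    (𝓝 (∑ y ∈ J, 4 * π ^ 2 * (y.1 : ℝ) ^ 2)) := by
  simp only [Lam, mul_sum]
  refine tendsto_finsetSum _ fun y _ => ?_
  have h1 : Tendsto (fun n : ℕ => 4 * π ^ 2 * (y.1 : ℝ) ^ 2 * sinc (π * y.1 / n) ^ 2) atTop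
      (𝓝 (4 * π ^ 2 * (y.1 : ℝ) ^ 2 * sinc 0 ^ 2)) :=
    (((continuous_sinc.tendsto 0).comp (tendsto_const_div_atTop_nhds_zero_nat _)).pow 2).const_mul _
  rw [sinc_zero, one_pow, mul_one] at h1
  refine h1.congr' ?_
  filter_upwards [eventually_gt_atTop 0] with n hn
  have h2 : ∀ t : ℝ, sin t = t * sinc t := fun t => by
    by_cases h : t = 0
    · simp [h]
    · rw [sinc_of_ne_zero h]; field_simp
  have h3 : cos (2 * π * y.1 / n) = 1 - 2 * sin (π * y.1 / n) ^ 2 := by
    rw [show 2 * π * y.1 / n = 2 * (π * y.1 / n) by ring, cos_two_mul, cos_sq']; ring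
  have h4 : (n : ℝ) ≠ 0 := by exact_mod_cast hn.ne'
  rw [h3, h2]
  field_simp
  ring

/-- the test function -/
def uu (x : ℝ × ℝ) : ℝ := cos (2 * π * x.1)

theorem uu_sp : IsSmoothPeriodic uu :=
  ⟨fun x => ⟨by simp [uu, mul_add], by simp [uu]⟩, by unfold uu; fun_prop⟩

theorem lap_uu (x : ℝ × ℝ) : -flatLaplacian uu x = 4 * π ^ 2 * cos (2 * π * x.1) := by
  have h1 : deriv (fun s : ℝ => cos (2 * π * s)) = fun s => -sin (2 * π * s) * (2 * π) :=
    funext fun s => by simpa using (((hasDerivAt_id s).const_mul (2 * π)).cos).deriv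
  have h2 : deriv (fun s : ℝ => -sin (2 * π * s) * (2 * π)) x.1 =
      -(cos (2 * π * x.1) * (2 * π)) * (2 * π) := by
    simpa using ((((hasDerivAt_id x.1).const_mul (2 * π)).sin).neg.mul_const (2 * π)).deriv
  simp only [flatLaplacian, uu, iteratedDeriv_succ, iteratedDeriv_zero, h1, h2]
  simp
  ring

theorem pair_uu : unitSquarePairing (fun x => -flatLaplacian uu x) uu = 2 * π ^ 2 := by
  have h1 := setIntegral_prod_mul (μ := (volume : Measure ℝ)) (ν := (volume : Measure ℝ))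
    (fun s : ℝ => 4 * π ^ 2 * cos (2 * π * s) ^ 2) (fun _ : ℝ => (1 : ℝ)) (Set.Icc 0 1) (Set.Icc 0 1)
  have h2 : ∫ s in (0 : ℝ)..1, cos (2 * π * s) ^ 2 = 1 / 2 := by
    rw [intervalIntegral.integral_comp_mul_left (fun t => cos t ^ 2) (by positivity),
      integral_cos_sq]
    simp
    field_simp
  rw [integral_const_mul, integral_Icc_eq_integral_Ioc, ← intervalIntegral.integral_of_le zero_le_one,
    h2] at h1
  simp only [unitSquarePairing, lap_uu, uu, Measure.volume_eq_prod]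
  rw [show 2 * π ^ 2 = 4 * π ^ 2 * (1 / 2) * ∫ _ in Set.Icc (0 : ℝ) 1, (1 : ℝ) by simp; ring, ← h1]
  congr 1
  funext z
  ring

theorem pos_of_mul_pos_of_nonneg_left' {a b : ℝ} (h : 0 < a * b) (ha : 0 ≤ a) : 0 < b := by
  by_contra hb
  exact absurd h (not_lt.2 (mul_nonpos_of_nonneg_of_nonpos ha (not_lt.1 hb)))

theorem log_le (hT : TorStmt) (hS : SumStmt) (hD : DblStmt) {J : Finset P} (hJ : IsAdmissible J)
    {β : ℝ} (hβ : 0 < β) (hn : 3 ≤ n) (hL : 0 < Lam J n) :
    Real.log (torusLaplace J β n fun x => -flatLaplacian uu x) ≤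
      8 * π ^ 4 * β * J.card / ((n : ℝ) ^ 2 * Lam J n) := by
  obtain ⟨A, hA, h1, h2⟩ := hT J hJ β hβ n
  obtain ⟨-, ⟨C, h3⟩, -, h4, h5⟩ := hS _ A hA
  rw [h2]
  simp only [lap_uu, ← cm_eq, ← mul_sum, sum_cm hn, mul_zero, zero_div, sub_zero]
  obtain ⟨v, hv⟩ := h4 fun x : II n => 4 * π ^ 2 * cm x.1 / (n : ℝ) ^ 2
  have hn0 : (0 : ℝ) < n := by exact_mod_cast NeZero.pos n
  have hc := card_pos hJ
  have h6 : A v = 4 * π ^ 2 / (n : ℝ) ^ 2 * ∑ x, text v x * cm x := by
    have := hv v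
    rw [QuadraticMap.polar_self, two_nsmul, add_self_div_two] at this
    rw [← this, sum_text, mul_sum]
    exact sum_congr rfl fun i _ => by ring
  have h7 := cs hn J hL (text v)
  have h8 : EE J (text v) = 2 * β * J.card * A v := by rw [h1]; unfold EE; field_simp
  have h9 : A v ≤ 16 * π ^ 4 * β * J.card / ((n : ℝ) ^ 2 * Lam J n) := by
    rcases (hA.nonneg v).eq_or_lt with h | h
    · rw [← h]; positivity
    rw [le_div_iff₀ (by positivity)]
    refine le_of_mul_le_mul_left ?_ h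
    have h10 : (∑ x, text v x * cm x) = (n : ℝ) ^ 2 * A v / (4 * π ^ 2) := by
      rw [h6]; field_simp
    rw [h8, h10, div_pow, ← mul_div_assoc, div_le_iff₀ (by positivity)] at h7
    refine le_of_mul_le_mul_left ?_ (pow_pos hn0 2)
    nlinarith
  rw [h5 _ v hv]
  have h11 : Real.exp (A v / 2) * thA A v / thA A 0 ≤ Real.exp (A v / 2) := by
    rw [div_le_iff₀ (h3 0).1]
    exact mul_le_mul_of_nonneg_left ((hD _ A hA).2.1 v) (exp_pos _).le
  refine (Real.log_le_log (div_pos (mul_pos (exp_pos _) (h3 v).1) (h3 0).1) h11).trans ?_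
  rw [log_exp]
  calc A v / 2 ≤ 16 * π ^ 4 * β * J.card / ((n : ℝ) ^ 2 * Lam J n) / 2 := by linarith
    _ = _ := by ring

end

end T44

theorem e4Stmt (hT : TorStmt) (hS : SumStmt) (hD : DblStmt) : E4Stmt := by
  intro J hJ β L c hβ hL h
  have h1 := h uu uu_sp
  rw [pair_uu] at h1
  have hc := card_pos hJ
  have hv := var_pos hJ
  have h2 : ∑ y ∈ J, 4 * π ^ 2 * (y.1 : ℝ) ^ 2 = 8 * π ^ 2 * J.card * varianceConst J := by
    rw [← mul_sum, varianceConst]; field_simp; ring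
  have hp : Tendsto (fun N : ℕ => L ^ N) atTop atTop := tendsto_pow_atTop_atTop_of_one_lt hL
  have h3 := (lam_lim J).comp hp
  rw [h2] at h3
  have h4 := (tendsto_const_nhds (x := 8 * π ^ 4 * β * J.card)).div h3 (by positivity)
  have h5 := le_of_tendsto_of_tendsto h1 h4 (by
    filter_upwards [hp.eventually_ge_atTop 3, h3.eventually (lt_mem_nhds (by positivity :
      (0 : ℝ) < 8 * π ^ 2 * J.card * varianceConst J))] with N h6 h7
    have : NeZero (L ^ N) := ⟨by omega⟩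
    exact log_le hT hS hD hJ hβ h6 
      (pos_of_mul_pos_of_nonneg_left' h7 (sq_nonneg ((L ^ N : ℕ) : ℝ))))
  have h6 : 8 * π ^ 4 * β * J.card / (8 * π ^ 2 * J.card * varianceConst J) =
      β / (2 * varianceConst J) * (2 * π ^ 2) := by field_simp
  rw [h6] at h5
  exact (div_le_div_iff_of_pos_right (by positivity)).1 (le_of_mul_le_mul_right h5 (by positivity))

end Crest.Agent.T145.FS
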