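import Crest.Agent.T145.FsDef_70
import Crest.Agent.T145.Bes_66
import Crest.Agent.T145.FsAsm_70
import Crest.Agent.T145.FsPh2_70
import Crest.Agent.T145.FsOne_14_Mg
import Crest.Agent.T145.FsTor_44_Mg
import Crest.Agent.T145.FsTr_16
import Crest.Agent.T145.FsLog_70
import Crest.Agent.T145.XyG_48

-- ▼ part T145/FsSum_61
section

/-!
# Row 145, item (e): lattice theta functions (helper61): `sumStmt`, `dblStmt`
-/

set_option autoImplicit false

namespace Crest.Agent.T145.FS

open Finset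

namespace S61

variable {ι : Type} [Fintype ι]

theorem cont (A : QuadraticForm ℝ (ι → ℝ)) : Continuous A := by
  classical
  have h : ∀ x, A x = ∑ i, ∑ j, x i * x j *
      QuadraticMap.associated A (Pi.single i 1) (Pi.single j 1) := by
    intro x
    conv_lhs => rw [← QuadraticMap.associated_eq_self_apply ℝ A x, pi_eq_sum_univ' x]
    simp only [map_sum, map_smul, LinearMap.sum_apply, LinearMap.smul_apply, smul_eq_mul,
      Finset.mul_sum]
    rw [Finset.sum_comm]
    refine Finset.sum_congr rfl fun i _ => Finset.sum_congr rfl fun j _ => ?_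
    rw [← mul_assoc, mul_comm (x j)]
  rw [show (A : (ι → ℝ) → ℝ) = _ from funext h]
  fun_prop

/-- coercivity -/
theorem coer {A : QuadraticForm ℝ (ι → ℝ)} (hA : A.PosDef) :
    ∃ c : ℝ, 0 < c ∧ ∀ x, c * ∑ i, x i ^ 2 ≤ A x := by
  have h1 : ∃ c : ℝ, 0 < c ∧ ∀ x, c * ‖x‖ ^ 2 ≤ A x := by
    by_cases hs : (Metric.sphere (0 : ι → ℝ) 1).Nonempty
    · obtain ⟨y, hy, hm⟩ := (isCompact_sphere (0 : ι → ℝ) 1).exists_isMinOn hs (cont A).continuousOn
      have hy1 : ‖y‖ = 1 := by simpa using hy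
      refine ⟨A y, hA y (by rintro rfl; simp at hy1), fun x => ?_⟩
      by_cases hx : x = 0
      · simp [hx]
      have hn : 0 < ‖x‖ := norm_pos_iff.2 hx
      have h2 : A y ≤ A (‖x‖⁻¹ • x) := hm (by simp [norm_smul, hn.ne'])
      rw [QuadraticMap.map_smul, smul_eq_mul] at h2
      calc A y * ‖x‖ ^ 2 ≤ ‖x‖⁻¹ * ‖x‖⁻¹ * A x * ‖x‖ ^ 2 := by gcongr
        _ = A x := by field_simp
    · refine ⟨1, one_pos, fun x => ?_⟩
      by_cases hx : x = 0
      · simp [hx]
      exact (hs ⟨‖x‖⁻¹ • x, by simp [norm_smul, (norm_pos_iff.2 hx).ne']⟩).elim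
  obtain ⟨c, hc, h⟩ := h1
  refine ⟨c / (Fintype.card ι + 1), by positivity, fun x => le_trans ?_ (h x)⟩
  have h2 : ∑ i, x i ^ 2 ≤ (Fintype.card ι + 1) * ‖x‖ ^ 2 := by
    calc ∑ i, x i ^ 2 ≤ ∑ _i : ι, ‖x‖ ^ 2 := Finset.sum_le_sum fun i _ => by
          rw [← sq_abs]; exact pow_le_pow_left₀ (abs_nonneg _) (norm_le_pi_norm x i) 2
      _ = Fintype.card ι * ‖x‖ ^ 2 := by simp
      _ ≤ _ := by nlinarith [sq_nonneg ‖x‖]
  calc c / (Fintype.card ι + 1) * ∑ i, x i ^ 2
      ≤ c / (Fintype.card ι + 1) * ((Fintype.card ι + 1) * ‖x‖ ^ 2) := by gcongr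
    _ = c * ‖x‖ ^ 2 := by field_simp

/-- one-dimensional uniform bound -/
theorem one_dim {c : ℝ} (hc : 0 < c) : ∃ C : ℝ, ∀ t : ℝ,
    Summable (fun k : ℤ => Real.exp (-(c * (2 * Real.pi * k - t) ^ 2) / 2)) ∧
      ∑' k : ℤ, Real.exp (-(c * (2 * Real.pi * k - t) ^ 2) / 2) ≤ C := by
  have hpi := Real.pi_pos
  have hs := (Bes66.summable_gau (τ := 1 / (2 * c * Real.pi ^ 2)) (by positivity) 0).mul_left
    (Real.exp (2 * c * Real.pi ^ 2))
  refine ⟨∑' k : ℤ, Real.exp (2 * c * Real.pi ^ 2) *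
    (gau (1 / (2 * c * Real.pi ^ 2)) k * Real.exp (0 * k)), fun t => ?_⟩
  · set m : ℤ := ⌊t / (2 * Real.pi)⌋ with hm
    have h0 : 0 ≤ t - 2 * Real.pi * m := by
      have := Int.floor_le (t / (2 * Real.pi))
      rw [le_div_iff₀ (by positivity)] at this; linarith
    have h1 : t - 2 * Real.pi * m ≤ 2 * Real.pi := by
      have := (Int.lt_floor_add_one (t / (2 * Real.pi))).le
      rw [div_le_iff₀ (by positivity)] at this; linarith
    have hle : ∀ k : ℤ, Real.exp (-(c * (2 * Real.pi * ((k + m : ℤ) : ℝ) - t) ^ 2) / 2) ≤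
        Real.exp (2 * c * Real.pi ^ 2) * (gau (1 / (2 * c * Real.pi ^ 2)) k * Real.exp (0 * k)) := by
      intro k
      rw [gau, ← Real.exp_add, ← Real.exp_add, Real.exp_le_exp]
      have e : -(k : ℝ) ^ 2 / (2 * (1 / (2 * c * Real.pi ^ 2))) = -(c * (Real.pi * k) ^ 2) := by
        field_simp
      rw [e]; push_cast
      obtain ⟨r, hr⟩ : ∃ r, r = t - 2 * Real.pi * m := ⟨_, rfl⟩
      rw [← hr] at h0 h1
      have e2 : 2 * Real.pi * ((k : ℝ) + m) - t = 2 * (Real.pi * k) - r := by rw [hr]; ring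
      rw [e2]
      have h3 : r ^ 2 ≤ (2 * Real.pi) ^ 2 := pow_le_pow_left₀ h0 h1 2
      have h4 : 2 * (Real.pi * k) ^ 2 - (2 * Real.pi) ^ 2 ≤ (2 * (Real.pi * k) - r) ^ 2 := by
        nlinarith [sq_nonneg (Real.pi * k - r)]
      nlinarith [mul_le_mul_of_nonneg_left h4 hc.le]
    have hs2 := Summable.of_nonneg_of_le (fun _ => (Real.exp_pos _).le) hle hs
    have e := (Equiv.addRight m).summable_iff
      (f := fun k : ℤ => Real.exp (-(c * (2 * Real.pi * k - t) ^ 2) / 2))
    refine ⟨e.1 hs2, ?_⟩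
    rw [← (Equiv.addRight m).tsum_eq]
    exact hs2.tsum_le_tsum hle hs

theorem sum_bd {A : QuadraticForm ℝ (ι → ℝ)} (hA : A.PosDef) : ∃ C : ℝ, ∀ u : ι → ℝ,
    (Summable fun h : ι → ℤ => Real.exp (-(A (lat h - u)) / 2)) ∧ thA A u ≤ C := by
  obtain ⟨c, hc, h⟩ := coer hA
  obtain ⟨C, hC⟩ := one_dim hc
  refine ⟨C ^ Fintype.card ι, fun u => ?_⟩
  have h1 := Xy48.hasSum_piR (fun (i : ι) (k : ℤ) =>
    Real.exp (-(c * (2 * Real.pi * k - u i) ^ 2) / 2)) _ fun i => (hC (u i)).1.hasSum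
  have hle : ∀ k : ι → ℤ, Real.exp (-(A (lat k - u)) / 2) ≤
      ∏ i, Real.exp (-(c * (2 * Real.pi * k i - u i) ^ 2) / 2) := by
    intro k
    rw [← Real.exp_sum, Real.exp_le_exp, ← Finset.sum_div, Finset.sum_neg_distrib, ← Finset.mul_sum]
    have := h (lat k - u)
    simp only [Pi.sub_apply, lat] at this ⊢
    linarith
  have hs := Summable.of_nonneg_of_le (fun _ => (Real.exp_pos _).le) hle h1.summable
  refine ⟨hs, (hs.tsum_le_tsum hle h1.summable).trans ?_⟩
  rw [h1.tsum_eq, ← Finset.card_univ, ← Finset.prod_const]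
  exact Finset.prod_le_prod (fun i _ => tsum_nonneg fun _ => (Real.exp_pos _).le)
    fun i _ => (hC (u i)).2

theorem summ {A : QuadraticForm ℝ (ι → ℝ)} (hA : A.PosDef) (u : ι → ℝ) :
    Summable fun h : ι → ℤ => Real.exp (-(A (lat h - u)) / 2) :=
  ((sum_bd hA).choose_spec u).1

theorem thA_pos {A : QuadraticForm ℝ (ι → ℝ)} (hA : A.PosDef) (u : ι → ℝ) : 0 < thA A u :=
  (summ hA u).tsum_pos (fun _ => (Real.exp_pos _).le) 0 (Real.exp_pos _)

theorem riesz {A : QuadraticForm ℝ (ι → ℝ)} (hA : A.PosDef) (F : ι → ℝ) :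
    ∃ v : ι → ℝ, ∀ x, ∑ i, F i * x i = QuadraticMap.polar A v x / 2 := by
  classical
  let L : (ι → ℝ) →ₗ[ℝ] (ι → ℝ) :=
    LinearMap.pi fun i => (QuadraticMap.polarBilin A).flip (Pi.single i 1)
  have hL : ∀ v x, ∑ i, L v i * x i = QuadraticMap.polar A v x := by
    intro v x
    conv_rhs => rw [← QuadraticMap.polarBilin_apply_apply, pi_eq_sum_univ' x]
    simp only [map_sum, map_smul, smul_eq_mul, L, LinearMap.pi_apply, LinearMap.flip_apply]
    exact Finset.sum_congr rfl fun i _ => mul_comm _ _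
  have hi : Function.Injective L := by
    rw [injective_iff_map_eq_zero]
    intro v hv
    by_contra h0
    have h1 := hL v v
    rw [hv, QuadraticMap.polar_self] at h1
    have := hA v h0
    simp at h1
    linarith
  obtain ⟨v, hv⟩ := LinearMap.injective_iff_surjective.1 hi ((2 : ℝ) • F)
  refine ⟨v, fun x => ?_⟩
  rw [← hL, hv, Finset.sum_div]
  exact Finset.sum_congr rfl fun i _ => by simp only [Pi.smul_apply, smul_eq_mul]; ring

theorem sq_eq (A : QuadraticForm ℝ (ι → ℝ)) {F v : ι → ℝ}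
    (h : ∀ x, ∑ i, F i * x i = QuadraticMap.polar A v x / 2) (x : ι → ℝ) :
    Real.exp (∑ i, F i * x i) * Real.exp (-(A x) / 2) =
      Real.exp (A v / 2) * Real.exp (-(A (x - v)) / 2) := by
  rw [← Real.exp_add, ← Real.exp_add, h]
  congr 1
  have h1 : A (x - v) = A x + A v - QuadraticMap.polar A v x := by
    have h2 := QuadraticMap.map_add A x (-v)
    rw [QuadraticMap.map_neg, QuadraticMap.polar_neg_right, QuadraticMap.polar_comm] at h2
    rw [sub_eq_add_neg, h2]; ring
  rw [h1]; ring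

theorem mgf_eq (A : QuadraticForm ℝ (ι → ℝ)) {F v : ι → ℝ}
    (h : ∀ x, ∑ i, F i * x i = QuadraticMap.polar A v x / 2) :
    mgf A F = Real.exp (A v / 2) * thA A v / thA A 0 := by
  simp only [mgf, thA, sq_eq A h, tsum_mul_left, sub_zero]

/-- the rotation of `ℤ^ι × ℤ^ι` -/
def rot (ι : Type) : (ι → Fin 2) × ((ι → ℤ) × (ι → ℤ)) ≃ (ι → ℤ) × (ι → ℤ) where
  toFun p := (fun i => p.2.1 i + p.2.2 i + (p.1 i : ℕ), fun i => p.2.1 i - p.2.2 i)
  invFun q := (fun i => ⟨((q.1 i + q.2 i) % 2).toNat, by omega⟩,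
    fun i => (q.1 i + q.2 i) / 2, fun i => (q.1 i - q.2 i) / 2)
  left_inv p := by
    ext i
    · have := (p.1 i).2; simp only; omega
    · have := (p.1 i).2; simp only; omega
    · have := (p.1 i).2; simp only; omega
  right_inv q := by
    ext i
    · simp only; omega
    · simp only; omega

/-- the coset theta functions -/
noncomputable def Tc (A : QuadraticForm ℝ (ι → ℝ)) (c : ι → Fin 2) (z : ι → ℝ) : ℝ :=
  thA ((2 : ℝ) • A) ((1 / 2 : ℝ) • (z - lat fun i => ((c i : ℕ) : ℤ)))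

omit [Fintype ι] in
theorem para (A : QuadraticForm ℝ (ι → ℝ)) (a b : ι → ℝ) :
    A (a + b) + A (a - b) = 2 * A a + 2 * A b := by
  have h1 := QuadraticMap.map_add A a b
  have h2 := QuadraticMap.map_add A a (-b)
  rw [QuadraticMap.map_neg, QuadraticMap.polar_neg_right] at h2
  rw [sub_eq_add_neg, h1, h2]; ring

theorem rot_id [DecidableEq ι] {A : QuadraticForm ℝ (ι → ℝ)} (hA : A.PosDef) (x y : ι → ℝ) :
    thA A x * thA A y = ∑ c : ι → Fin 2, Tc A c (x + y) * Tc A c (x - y) := by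
  have h2 : QuadraticMap.PosDef ((2 : ℝ) • A) := hA.smul two_pos
  have hm := (summ hA x).hasSum.mul (summ hA y).hasSum
    ((summ hA x).mul_of_nonneg (summ hA y) (fun _ => (Real.exp_pos _).le)
      fun _ => (Real.exp_pos _).le)
  rw [← (rot ι).hasSum_iff] at hm
  refine (hm.prod_fiberwise fun c => ?_).unique (hasSum_fintype _)
  have s1 := summ h2 ((1 / 2 : ℝ) • (x + y - lat fun i => ((c i : ℕ) : ℤ)))
  have s2 := summ h2 ((1 / 2 : ℝ) • (x - y - lat fun i => ((c i : ℕ) : ℤ)))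
  have h3 := s1.hasSum.mul s2.hasSum
    (s1.mul_of_nonneg s2 (fun _ => (Real.exp_pos _).le) fun _ => (Real.exp_pos _).le)
  convert h3 using 1
  swap
  · rfl
  funext p
  simp only [Function.comp, ← Real.exp_add, smul_apply, smul_eq_mul]
  congr 1
  have := para A (lat p.1 - (1 / 2 : ℝ) • (x + y - lat fun i => ((c i : ℕ) : ℤ)))
    (lat p.2 - (1 / 2 : ℝ) • (x - y - lat fun i => ((c i : ℕ) : ℤ)))
  have e1 : lat p.1 - (1 / 2 : ℝ) • (x + y - lat fun i => ((c i : ℕ) : ℤ)) +
      (lat p.2 - (1 / 2 : ℝ) • (x - y - lat fun i => ((c i : ℕ) : ℤ))) =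
      lat (rot ι (c, p)).1 - x := by
    funext i; simp [lat, rot]; ring
  have e2 : lat p.1 - (1 / 2 : ℝ) • (x + y - lat fun i => ((c i : ℕ) : ℤ)) -
      (lat p.2 - (1 / 2 : ℝ) • (x - y - lat fun i => ((c i : ℕ) : ℤ))) =
      lat (rot ι (c, p)).2 - y := by
    funext i; simp [lat, rot]; ring
  rw [e1, e2] at this
  linarith

theorem dbl {A : QuadraticForm ℝ (ι → ℝ)} (hA : A.PosDef) (u : ι → ℝ) :
    thA A u ^ 4 ≤ thA A ((2 : ℝ) • u) * thA A 0 ^ 3 := by
  classical
  have h1 := rot_id hA u u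
  have h2 := rot_id hA ((2 : ℝ) • u) 0
  have h3 := rot_id hA 0 0
  rw [← two_smul ℝ u, sub_self] at h1
  rw [add_zero, sub_zero] at h2 h3
  have h4 := Finset.sum_mul_sq_le_sq_mul_sq Finset.univ (fun c => Tc A c ((2 : ℝ) • u))
    fun c => Tc A c 0
  simp only [sq] at h4
  rw [← h1, ← h2, ← h3] at h4
  calc _ = thA A u * thA A u * (thA A u * thA A u) := by ring
    _ ≤ _ := h4
    _ = _ := by ring

theorem thA_le {A : QuadraticForm ℝ (ι → ℝ)} (hA : A.PosDef) (u : ι → ℝ) :
    thA A u ≤ thA A 0 := by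
  obtain ⟨C, hC⟩ := sum_bd hA
  have hb : BddAbove (Set.range (thA A)) := ⟨C, by rintro _ ⟨v, rfl⟩; exact (hC v).2⟩
  obtain ⟨S, hS⟩ : ∃ S, S = ⨆ v, thA A v := ⟨_, rfl⟩
  have hle : ∀ v, thA A v ≤ S := fun v => hS ▸ le_ciSup hb v
  have h0 := thA_pos hA 0
  have hS0 : 0 < S := h0.trans_le (hle 0)
  have hm : 0 ≤ S * thA A 0 ^ 3 := by positivity
  have h1 : S ≤ √(√(S * thA A 0 ^ 3)) := by
    rw [hS]
    refine ciSup_le fun v => Real.le_sqrt_of_sq_le (Real.le_sqrt_of_sq_le ?_)
    rw [← hS]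
    calc _ = thA A v ^ 4 := by ring
      _ ≤ _ := dbl hA v
      _ ≤ _ := by gcongr; exact hle _
  have h2 : S ^ 4 ≤ S * thA A 0 ^ 3 := by
    calc S ^ 4 ≤ (√(√(S * thA A 0 ^ 3))) ^ 4 := by gcongr
      _ = ((√(√(S * thA A 0 ^ 3))) ^ 2) ^ 2 := by ring
      _ = _ := by rw [Real.sq_sqrt (Real.sqrt_nonneg _), Real.sq_sqrt hm]
  have h3 : S ^ 3 ≤ thA A 0 ^ 3 := by
    refine le_of_mul_le_mul_left ?_ hS0
    calc _ = S ^ 4 := by ring
      _ ≤ _ := h2
  exact (hle u).trans (le_of_pow_le_pow_left₀ three_ne_zero h0.le h3)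

end S61

theorem sumStmt : SumStmt := by
  intro ι _ A hA
  refine ⟨S61.summ hA, ?_, fun F => ?_, S61.riesz hA, fun F v h => S61.mgf_eq A h⟩
  · obtain ⟨C, hC⟩ := S61.sum_bd hA
    exact ⟨C, fun u => ⟨S61.thA_pos hA u, (hC u).2⟩⟩
  · obtain ⟨v, hv⟩ := S61.riesz hA F
    simp only [S61.sq_eq A hv]
    exact (S61.summ hA v).mul_left _

theorem dblStmt : DblStmt := by
  intro ι _ A hA
  refine ⟨S61.dbl hA, S61.thA_le hA, fun F => ?_⟩
  obtain ⟨v, hv⟩ := S61.riesz hA F
  have hv2 : ∀ x, ∑ i, ((2 : ℝ) • F) i * x i = QuadraticMap.polar A ((2 : ℝ) • v) x / 2 := by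
    intro x
    rw [QuadraticMap.polar_smul_left, smul_eq_mul, mul_div_assoc, ← hv, Finset.mul_sum]
    exact Finset.sum_congr rfl fun i _ => by simp only [Pi.smul_apply, smul_eq_mul]; ring
  rw [S61.mgf_eq A hv, S61.mgf_eq A hv2, QuadraticMap.map_smul, smul_eq_mul]
  have h0 := S61.thA_pos hA 0
  have e : Real.exp (2 * 2 * A v / 2) = Real.exp (A v / 2) ^ 4 := by
    rw [← Real.exp_nat_mul]; congr 1; push_cast; ring
  rw [e, div_pow, div_le_div_iff₀ (by positivity) h0, mul_pow]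
  calc _ ≤ Real.exp (A v / 2) ^ 4 * (thA A ((2 : ℝ) • v) * thA A 0 ^ 3) * thA A 0 := by
        gcongr; exact S61.dbl hA v
    _ = _ := by ring

end Crest.Agent.T145.FS
end

-- ▼ part T145/FsAll_70
section

/-! # Row 145 (e): everything assembled (helper70) -/

set_option autoImplicit false

namespace Crest.Agent.T145.FS

theorem fs_of (hL : LogStmt) : FSStmt :=
  fsStmt_of (trStmt hL shiftStmt extStmt (ratStmt (oneStmt extStmt)) gainStmt) ph1Stmt ph2Stmt
    (finStmt (oneStmt extStmt)) iniStmt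

theorem e0_of (hL : LogStmt) : E0Stmt := e0Stmt (fs_of hL) sumStmt (rsdStmt sumStmt)

theorem rough_of (hL : LogStmt) : RoughStmt := roughStmt (e0_of hL) cmpStmt hL sumStmt

theorem e1_of (hL : LogStmt) : E1Stmt := e1Stmt (rough_of hL)

theorem e2_of (hL : LogStmt) : E2Stmt := e2Stmt (rough_of hL)

theorem e3_of (hL : LogStmt) : E3Stmt :=
  e3Stmt (e0_of hL) cmpStmt (torStmt sumStmt) (pinStmt sumStmt) dblStmt sumStmt

theorem e4 : E4Stmt := e4Stmt (torStmt sumStmt) sumStmt dblStmt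

end Crest.Agent.T145.FS
end

-- ▼ part T145/FsEnd_70
section

/-! # Row 145 (e): the unconditional outputs (helper70) -/

set_option autoImplicit false

namespace Crest.Agent.T145.FS

theorem e0 : E0Stmt := e0_of logStmt70
theorem e1 : E1Stmt := e1_of logStmt70
theorem e2 : E2Stmt := e2_of logStmt70
theorem e3 : E3Stmt := e3_of logStmt70

end Crest.Agent.T145.FS
end

-- ▼ part T145/XyS_48

/-!
# Row 145, XY model (helper48): Simon's inequality

Poisson arcs, vertex factors `p! / (p + m)!`, the Ward recursion `zz_rec`, the Beta mixture `zz_le`,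
and `lieb : G(x,y) ≤ ∑_{u ∈ B, v ∉ B} (b/2) G_B(x,u) G(v,y)`, `simon` (the same with `G`).
-/

set_option autoImplicit false
set_option linter.unusedSectionVars false

open Finset MeasureTheory
open scoped Nat

noncomputable section

namespace Crest.Agent.T145.Xy48

theorem hs_congr {κ : Type*} {f g : κ → ℝ} {a : ℝ} (h : HasSum f a)
    (e : ∀ n, g n = f n) : HasSum g a := (funext e : g = f) ▸ h

/-- `p! / (p + m)!` -/
def ph (p m : ℕ) : ℝ := (p ! : ℝ) / ((p + m)! : ℝ)

theorem ph_pos (p m : ℕ) : 0 < ph p m := by unfold ph; positivity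

theorem ph_zero (p : ℕ) : ph p 0 = 1 := div_self (by positivity)

theorem ph_succ_left (p m : ℕ) : ph (p + 1) m = (p + 1) * ph p (m + 1) := by
  unfold ph
  rw [Nat.factorial_succ, show p + 1 + m = p + (m + 1) by ring]
  push_cast
  ring

theorem ph_succ_right (p m : ℕ) : ph p (m + 1) = ph p m / (p + m + 1) := by
  unfold ph
  rw [← add_assoc, Nat.factorial_succ]
  push_cast
  rw [div_div, mul_comm]

theorem ph_le (p m : ℕ) {ε : ℝ} (hε : 0 < ε) : ph p m ≤ Real.exp ε⁻¹ * ε ^ m := by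
  have h1 : (p ! : ℝ) * m ! ≤ (p + m)! := by
    exact_mod_cast Nat.le_of_dvd (Nat.factorial_pos _) (Nat.factorial_mul_factorial_dvd_factorial_add p m)
  have h2 := Real.pow_div_factorial_le_exp ε⁻¹ (inv_pos.2 hε).le m
  have h3 : ph p m ≤ 1 / m ! := by
    rw [ph, div_le_div_iff₀ (by positivity) (by positivity), one_mul]; exact h1
  refine h3.trans ?_
  rw [inv_pow, div_le_iff₀ (by positivity), inv_le_iff_one_le_mul₀ (by positivity)] at h2
  rw [div_le_iff₀ (by positivity)]
  linarith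

theorem ph_le_one (p m : ℕ) : ph p m ≤ 1 := by
  rw [ph, div_le_one (by positivity)]
  exact_mod_cast Nat.factorial_le (Nat.le_add_right p m)

/-- integrating a nonnegative power series against `t ^ k dt` on `[0,1]` -/
theorem beta_nonneg {κ : Type} [Countable κ] {c : κ → ℝ} (hc : Summable c) (p : κ → ℕ) (k : ℕ)
    (h : ∀ t ∈ Set.Icc (0 : ℝ) 1, 0 ≤ ∑' n, c n * t ^ p n) :
    0 ≤ ∑' n, c n / (p n + k + 1) := by
  have h1 : ∀ j : ℕ, ∫ t in Set.Ioc (0 : ℝ) 1, t ^ j = 1 / (j + 1) := fun j => by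
    rw [← intervalIntegral.integral_of_le zero_le_one, integral_pow]; simp
  have h2 : ∀ n, Integrable (fun t : ℝ => c n * t ^ (p n + k)) (volume.restrict (Set.Ioc 0 1)) :=
    fun n => (Continuous.integrableOn_Icc (by fun_prop)).mono_set Set.Ioc_subset_Icc_self
  have h3 := hasSum_integral_of_summable_integral_norm h2 (hc.abs.of_nonneg_of_le
    (fun n => integral_nonneg fun _ => norm_nonneg _) fun n => by
      have h4 : ∫ t in Set.Ioc (0 : ℝ) 1, ‖c n * t ^ (p n + k)‖ ≤ ∫ _ in Set.Ioc (0 : ℝ) 1, |c n| :=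
        setIntegral_mono_on (h2 n).norm (by simp) measurableSet_Ioc fun t ht => by
          rw [norm_mul, Real.norm_eq_abs, norm_pow, Real.norm_eq_abs, abs_of_pos ht.1]
          exact mul_le_of_le_one_right (abs_nonneg _) (pow_le_one₀ ht.1.le ht.2)
      simpa using h4)
  simp only [integral_const_mul, h1] at h3
  have h5 : ∑' n, c n / (p n + k + 1) = ∑' n, c n * (1 / (((p n + k : ℕ) : ℝ) + 1)) :=
    tsum_congr fun n => by push_cast; ring
  rw [h5, h3.tsum_eq]
  refine setIntegral_nonneg measurableSet_Ioc fun t ht => ?_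
  simp only [pow_add, ← mul_assoc]
  rw [tsum_mul_right]
  exact mul_nonneg (h t ⟨ht.1.le, ht.2⟩) (pow_nonneg ht.1.le _)

section arcs

variable {ι A : Type} [Fintype ι] [DecidableEq ι] [Fintype A] [DecidableEq A] (fr tg : A → ι)
  (β : A → ℝ)

/-- Poisson weight -/
def Wp (n : A → ℕ) : ℝ := ∏ a, β a ^ n a / (n a)!

/-- degree -/
def dg (f : A → ι) (n : A → ℕ) (v : ι) : ℕ := ∑ a, if f a = v then n a else 0

/-- the source constraint -/
def Sc (s : ι → ℤ) (n : A → ℕ) : Prop := ∀ v, (dg fr n v : ℤ) - dg tg n v = s v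

/-- the vertex factors -/
def Φ (q m : ι → ℕ) : ℝ := ∏ v, ph (q v) (m v)

/-- partition function with a source at `x`, a sink at `y` -/
def zz (y x : ι) (m : ι → ℕ) : ℝ :=
  ∑' n, ind (Sc fr tg (Pi.single x 1 - Pi.single y 1) n) * Wp β n * Φ (dg fr n + Pi.single y 1) m

/-- partition function without sources -/
def z0 (m : ι → ℕ) : ℝ := ∑' n, ind (Sc fr tg 0 n) * Wp β n * Φ (dg fr n) m

variable {fr tg β}

theorem hasSum_Wp : HasSum (Wp β) (∏ a, Real.exp (β a)) :=
  hasSum_piR (fun a (j : ℕ) => β a ^ j / j !) _ fun a => by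
    rw [Real.exp_eq_exp_ℝ]; exact NormedSpace.expSeries_div_hasSum_exp (β a)

theorem Wp_nonneg (hβ : ∀ a, 0 ≤ β a) (n : A → ℕ) : 0 ≤ Wp β n :=
  prod_nonneg fun a _ => div_nonneg (pow_nonneg (hβ a) _) (Nat.cast_nonneg _)

theorem Φ_pos (q m : ι → ℕ) : 0 < Φ q m := prod_pos fun _ _ => ph_pos _ _

theorem Φ_le_one (q m : ι → ℕ) : Φ q m ≤ 1 :=
  prod_le_one (fun _ _ => (ph_pos _ _).le) fun _ _ => ph_le_one _ _

theorem Φ_zero (q : ι → ℕ) : Φ q 0 = 1 := prod_eq_one fun _ _ => ph_zero _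

theorem Φ_le (q m : ι → ℕ) {ε : ℝ} (hε : 0 < ε) :
    Φ q m ≤ Real.exp ε⁻¹ ^ Fintype.card ι * ε ^ ∑ v, m v := by
  rw [← prod_pow_eq_pow_sum, ← card_univ, ← prod_const, ← prod_mul_distrib]
  exact prod_le_prod (fun _ _ => (ph_pos _ _).le) fun _ _ => ph_le _ _ hε

theorem prod_single_add {M : Type*} [CommMonoid M] (f : ι → ℕ → M) (q : ι → ℕ) (x : ι) :
    ∏ v, f v ((q + Pi.single x 1 : ι → ℕ) v) = f x (q x + 1) * ∏ v ∈ univ.erase x, f v (q v) := by
  rw [← mul_prod_erase _ _ (mem_univ x)]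
  congr 1
  · simp
  · exact prod_congr rfl fun v hv => by simp [Pi.single_eq_of_ne (ne_of_mem_erase hv)]

theorem Φ_left (q m : ι → ℕ) (x : ι) :
    Φ (q + Pi.single x 1) m = (q x + 1) * Φ q (m + Pi.single x 1) := by
  rw [Φ, Φ, prod_single_add (fun v j => ph j (m v)), prod_single_add (fun v j => ph (q v) j),
    ph_succ_left, mul_assoc]

theorem Φ_right (q m : ι → ℕ) (x : ι) :
    Φ q (m + Pi.single x 1) = Φ q m / (q x + m x + 1) := by
  rw [Φ, Φ, prod_single_add (fun v j => ph (q v) j), ph_succ_right,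
    ← mul_prod_erase _ _ (mem_univ x)]
  ring

theorem Φ_sink (q : ι → ℕ) {m : ι → ℕ} {y : ι} (hy : m y = 0) : Φ (q + Pi.single y 1) m = Φ q m := by
  rw [Φ, Φ, prod_single_add (fun v j => ph j (m v)), ← mul_prod_erase _ _ (mem_univ y), hy, ph_zero,
    ph_zero]

theorem dg_add (f : A → ι) (n : A → ℕ) (a : A) :
    dg f (n + Pi.single a 1) = dg f n + Pi.single (f a) 1 := by
  funext v
  have h : ∀ c, (if f c = v then (n + Pi.single a 1 : A → ℕ) c else 0) =
      (if f c = v then n c else 0) + if c = a then (if f a = v then 1 else 0) else 0 := fun c => by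
    by_cases h : c = a
    · subst h; split_ifs <;> simp_all
    · simp [h]
  rw [dg, sum_congr rfl fun c _ => h c, sum_add_distrib, sum_ite_eq', if_pos (mem_univ _),
    Pi.add_apply, Pi.single_apply, dg]
  simp only [eq_comm]

theorem Wp_add (n : A → ℕ) (a : A) : (n a + 1 : ℝ) * Wp β (n + Pi.single a 1) = β a * Wp β n := by
  rw [Wp, Wp, prod_single_add (fun c j => β c ^ j / (j ! : ℝ)), ← mul_prod_erase _ _ (mem_univ a),
    Nat.factorial_succ]
  push_cast
  field_simp
  ring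

theorem summ (hβ : ∀ a, 0 ≤ β a) (p : (A → ℕ) → Prop) (q : (A → ℕ) → ι → ℕ) (m : ι → ℕ) :
    Summable fun n => ind (p n) * Wp β n * Φ (q n) m :=
  hasSum_Wp.summable.of_nonneg_of_le
    (fun n => mul_nonneg (mul_nonneg (ind_nonneg _) (Wp_nonneg hβ n)) (Φ_pos _ _).le) fun n =>
      (mul_le_of_le_one_right (mul_nonneg (ind_nonneg _) (Wp_nonneg hβ n)) (Φ_le_one _ _)).trans
        (mul_le_of_le_one_left (Wp_nonneg hβ n) (ind_le_one _))

theorem zz_nonneg (hβ : ∀ a, 0 ≤ β a) (y x : ι) (m : ι → ℕ) : 0 ≤ zz fr tg β y x m :=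
  tsum_nonneg fun n => mul_nonneg (mul_nonneg (ind_nonneg _) (Wp_nonneg hβ n)) (Φ_pos _ _).le

theorem zz_bound (hβ : ∀ a, 0 ≤ β a) (y x : ι) (m : ι → ℕ) {ε : ℝ} (hε : 0 < ε) :
    zz fr tg β y x m ≤
      (∏ a, Real.exp (β a)) * Real.exp ε⁻¹ ^ Fintype.card ι * ε ^ ∑ v, m v := by
  rw [mul_assoc]
  refine hasSum_le (fun n => ?_) (summ hβ _ _ m).hasSum (hasSum_Wp.mul_right _)
  exact mul_le_mul (mul_le_of_le_one_left (Wp_nonneg hβ n) (ind_le_one _)) (Φ_le _ _ hε)
    (Φ_pos _ _).le (Wp_nonneg hβ n)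

/-- the Ward recursion -/
theorem zz_rec (hβ : ∀ a, 0 ≤ β a) (y x : ι) (m : ι → ℕ) :
    zz fr tg β y x m = (∑ a, if fr a = x then β a * zz fr tg β y (tg a) (m + Pi.single x 1) else 0)
      + if x = y then z0 fr tg β (m + Pi.single x 1) else 0 := by
  set U : (A → ℕ) → ℝ := fun n => ind (Sc fr tg (Pi.single x 1 - Pi.single y 1) n) * Wp β n *
    Φ (dg fr n + Pi.single y 1 - Pi.single x 1) (m + Pi.single x 1) with hU
  have h1 : ∀ a, HasSum (fun n : A → ℕ => if fr a = x then (n a : ℝ) * U n else 0)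
      (if fr a = x then β a * zz fr tg β y (tg a) (m + Pi.single x 1) else 0) := by
    intro a
    split_ifs with ha
    · have hi : Function.Injective fun n : A → ℕ => n + Pi.single a 1 := add_left_injective _
      rw [← hi.hasSum_iff]
      · refine hs_congr ((summ hβ (Sc fr tg (Pi.single (tg a) 1 - Pi.single y 1))
          (fun n => dg fr n + Pi.single y 1) (m + Pi.single x 1)).hasSum.mul_left (β a))
          fun n => ?_
        have e1 : Sc fr tg (Pi.single x 1 - Pi.single y 1) (n + Pi.single a 1) ↔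
            Sc fr tg (Pi.single (tg a) 1 - Pi.single y 1) n := by
          refine forall_congr' fun v => ?_
          simp only [dg_add, ha, Pi.add_apply, Pi.sub_apply, Pi.single_apply]
          split_ifs <;> omega
        have e2 : dg fr (n + Pi.single a 1) + Pi.single y 1 - Pi.single x 1 =
            dg fr n + Pi.single y 1 := by
          rw [dg_add, ha, add_right_comm, add_tsub_cancel_right]
        have e3 := Wp_add (β := β) n a
        simp only [Function.comp, hU, ind_congr e1, e2, Pi.add_apply, Pi.single_eq_same]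
        push_cast
        linear_combination (ind (Sc fr tg (Pi.single (tg a) 1 - Pi.single y 1) n) *
          Φ (dg fr n + Pi.single y 1) (m + Pi.single x 1)) * e3
      · intro n hn
        have h2 : n a = 0 := by
          by_contra h
          refine hn ⟨n - Pi.single a 1, funext fun c => ?_⟩
          by_cases hc : c = a
          · subst hc; simp; omega
          · simp [hc]
        simp [h2]
    · exact hasSum_zero
  have h2 : HasSum (fun n : A → ℕ => if x = y then U n else 0)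
      (if x = y then z0 fr tg β (m + Pi.single x 1) else 0) := by
    split_ifs with h
    · subst h
      simp only [hU, sub_self, add_tsub_cancel_right]
      exact (summ hβ _ _ _).hasSum
    · exact hasSum_zero
  refine HasSum.tsum_eq ?_
  convert (hasSum_sum fun a (_ : a ∈ univ) => h1 a).add h2 using 1
  funext n
  by_cases hc : Sc fr tg (Pi.single x 1 - Pi.single y 1) n
  · have h3 : dg fr n + Pi.single y 1 =
        (dg fr n + Pi.single y 1 - Pi.single x 1) + Pi.single x 1 := by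
      funext v
      have h4 := hc v
      simp only [Pi.add_apply, Pi.sub_apply, Pi.single_apply] at h4 ⊢
      split_ifs at h4 ⊢ <;> omega
    have h4 : (((dg fr n + Pi.single y 1 - Pi.single x 1 : ι → ℕ) x : ℝ) + 1) =
        dg fr n x + if x = y then 1 else 0 := by
      have h5 := congrFun h3 x
      simp only [Pi.add_apply, Pi.single_eq_same] at h5
      rw [Pi.single_apply] at h5
      have h6 := congrArg (Nat.cast : ℕ → ℝ) h5
      rw [Nat.cast_add, Nat.cast_add, Nat.cast_one, Nat.cast_ite, Nat.cast_one, Nat.cast_zero] at h6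
      exact h6.symm
    rw [h3, Φ_left, h4]
    have h5 : ∑ a, (if fr a = x then (n a : ℝ) * U n else 0) = dg fr n x * U n := by
      simp only [dg, Nat.cast_sum, sum_mul, Nat.cast_ite, Nat.cast_zero, ite_mul, zero_mul]
    rw [h5, hU]
    split_ifs <;> ring
  · simp [hU, ind_neg hc]

/-- the Beta mixture -/
theorem mix {c : (A → ℕ) → ℝ} (hcs : Summable c) (B : Finset ι)
    (h0 : ∀ r : ι → ℝ, (∀ v, r v ∈ Set.Icc (0 : ℝ) 1) → (∀ v ∉ B, r v = 1) →
      0 ≤ ∑' n, c n * ∏ v, r v ^ (2 * dg fr n v))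
    (N : ℕ) : ∀ m : ι → ℕ, ∑ v, m v = N → (∀ v ∉ B, m v = 0) → ∀ r : ι → ℝ,
      (∀ v, r v ∈ Set.Icc (0 : ℝ) 1) → (∀ v ∉ B, r v = 1) →
      0 ≤ ∑' n, c n * (∏ v, r v ^ (2 * dg fr n v)) * Φ (dg fr n) m := by
  induction N with
  | zero =>
    intro m hm _ r hr hy
    have e : m = 0 := funext fun v => (sum_eq_zero_iff.1 hm) v (mem_univ v)
    simp only [e, Φ_zero, mul_one]
    exact h0 r hr hy
  | succ N ih =>
    intro m hm hmy r hr hy
    obtain ⟨w, hw⟩ : ∃ w, m w ≠ 0 := by
      by_contra h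
      push Not at h
      simp [h] at hm
    have hwy : ∀ v ∉ B, v ≠ w := fun v hv h => hw (h ▸ hmy v hv)
    set m' : ι → ℕ := m - Pi.single w 1 with hm'
    have e : m = m' + Pi.single w 1 := by
      funext v
      simp only [hm', Pi.add_apply, Pi.sub_apply, Pi.single_apply]
      split_ifs with h
      · subst h; omega
      · omega
    have hN : ∑ v, m' v = N := by
      rw [e] at hm
      simp only [Pi.add_apply, sum_add_distrib, sum_pi_single', mem_univ, if_true] at hm
      omega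
    have hm'y : ∀ v ∉ B, m' v = 0 := fun v hv => by simp [hm', hmy v hv]
    set c' : (A → ℕ) → ℝ := fun n => c n * (∏ v, r v ^ (2 * dg fr n v)) * Φ (dg fr n) m' with hc
    replace hcs : Summable c' := by
      refine hcs.abs.of_norm_bounded fun n => ?_
      have h2 : 0 ≤ ∏ v, r v ^ (2 * dg fr n v) := prod_nonneg fun v _ => pow_nonneg (hr v).1 _
      have h3 : ∏ v, r v ^ (2 * dg fr n v) ≤ 1 :=
        prod_le_one (fun v _ => pow_nonneg (hr v).1 _) fun v _ => pow_le_one₀ (hr v).1 (hr v).2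
      rw [hc, Real.norm_eq_abs]
      simp only [abs_mul, abs_of_nonneg h2, abs_of_pos (Φ_pos _ _)]
      exact (mul_le_of_le_one_right (by positivity) (Φ_le_one _ _)).trans
        (mul_le_of_le_one_right (abs_nonneg _) h3)
    have h1 := beta_nonneg hcs (fun n => 2 * dg fr n w) (2 * m' w + 1) fun t ht => by
      have h2 := ih m' hN hm'y (Function.update r w (r w * t)) (fun v => by
        by_cases h : v = w
        · rw [h, Function.update_self]
          exact ⟨mul_nonneg (hr w).1 ht.1, mul_le_one₀ (hr w).2 ht.1 ht.2⟩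
        · rw [Function.update_of_ne h]; exact hr v) fun v hv => by
          rw [Function.update_of_ne (hwy v hv), hy v hv]
      refine h2.trans_eq (tsum_congr fun n => ?_)
      have h3 : ∏ v, Function.update r w (r w * t) v ^ (2 * dg fr n v) =
          (∏ v, r v ^ (2 * dg fr n v)) * t ^ (2 * dg fr n w) := by
        rw [← mul_prod_erase _ _ (mem_univ w), ← mul_prod_erase _ _ (mem_univ w),
          Function.update_self, mul_pow, mul_right_comm]
        congr 2
        exact prod_congr rfl fun v hv => by rw [Function.update_of_ne (ne_of_mem_erase hv)]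
      rw [h3, hc]
      ring
    have h2 := mul_nonneg zero_le_two h1
    rw [← tsum_mul_left] at h2
    refine h2.trans_eq (tsum_congr fun n => ?_)
    rw [e, Φ_right, hc]
    push_cast
    field_simp
    ring

/-- abstract Simon-Lieb inequality -/
theorem simon_arcs {β' : A → ℝ} (hβ : ∀ a, 0 ≤ β a) (hβ' : ∀ a, 0 ≤ β' a) (B : Finset ι)
    (he : ∀ a, fr a ∈ B → tg a ∈ B → β' a = β a) {y : ι} (hy : y ∉ B) {G : ι → ℝ}
    (hG0 : ∀ v, 0 ≤ G v)
    (hG : ∀ v ∉ B, ∀ m, (∀ w ∉ B, m w = 0) → zz fr tg β y v m ≤ G v * z0 fr tg β' m) {x : ι}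
    (hx : x ∈ B) : zz fr tg β y x 0 ≤
      ∑ a, if fr a ∈ B ∧ tg a ∉ B then β a * G (tg a) * zz fr tg β' (fr a) x 0 else 0 := by
  set R : (ι → ℕ) → ι → ℝ := fun m x =>
    ∑ a, if fr a ∈ B ∧ tg a ∉ B then β a * G (tg a) * zz fr tg β' (fr a) x m else 0 with hR
  have hR0 : ∀ m x, 0 ≤ R m x := fun m x => sum_nonneg fun a _ => by
    split_ifs
    exacts [mul_nonneg (mul_nonneg (hβ a) (hG0 _)) (zz_nonneg hβ' _ _ _), le_rfl]
  have hsup : ∀ (m : ι → ℕ) x, x ∈ B → (∀ w ∉ B, m w = 0) →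
      ∀ w ∉ B, (m + Pi.single x 1 : ι → ℕ) w = 0 := fun m x hx hm w hw => by
    rw [Pi.add_apply, hm w hw, Pi.single_eq_of_ne fun h : w = x => hw (h ▸ hx), add_zero]
  have step : ∀ m x, x ∈ B → (∀ w ∉ B, m w = 0) → zz fr tg β y x m - R m x ≤
      ∑ a, if fr a = x ∧ tg a ∈ B then β a * (zz fr tg β y (tg a) (m + Pi.single x 1) -
        R (m + Pi.single x 1) (tg a)) else 0 := by
    intro m x hx hm
    have hxy : x ≠ y := fun h => hy (h ▸ hx)
    have hm'y := hsup m x hx hm
    set m' : ι → ℕ := m + Pi.single x 1 with hm'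
    have h1 : R m x = ∑ a, (if fr a = x then β' a * R m' (tg a) else 0) +
        ∑ a, if fr a = x ∧ tg a ∉ B then β a * G (tg a) * z0 fr tg β' m' else 0 := by
      simp only [hR, mul_sum]
      have h2 : ∀ a, (if fr a = x then ∑ a', β' a * (if fr a' ∈ B ∧ tg a' ∉ B then
          β a' * G (tg a') * zz fr tg β' (fr a') (tg a) m' else 0) else 0) =
          ∑ a', if fr a = x then β' a * (if fr a' ∈ B ∧ tg a' ∉ B then
            β a' * G (tg a') * zz fr tg β' (fr a') (tg a) m' else 0) else 0 := fun a => by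
        split_ifs <;> simp
      simp only [h2]
      rw [sum_comm, ← sum_add_distrib]
      refine sum_congr rfl fun a' _ => ?_
      by_cases h : fr a' ∈ B ∧ tg a' ∉ B
      · rw [if_pos h, zz_rec hβ', mul_add, mul_sum]
        congr 1
        · refine sum_congr rfl fun a _ => ?_
          rw [if_pos h]
          split_ifs <;> ring
        · by_cases h' : x = fr a'
          · rw [if_pos h', if_pos ⟨h'.symm, h.2⟩]
          · rw [if_neg h', if_neg fun h'' => h' h''.1.symm, mul_zero]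
      · rw [if_neg h, if_neg fun h'' : fr a' = x ∧ tg a' ∉ B => h ⟨h''.1 ▸ hx, h''.2⟩]
        simp [h]
    rw [zz_rec hβ, if_neg hxy, add_zero, h1, ← sum_add_distrib, ← sum_sub_distrib]
    refine sum_le_sum fun a _ => ?_
    by_cases h : fr a = x
    · by_cases h' : tg a ∈ B
      · simp only [h, h', if_true, and_self, not_true, and_false, if_false, he a (h ▸ hx) h']
        linarith
      · simp only [h, h', if_true, and_false, if_false, not_false_iff, and_self]
        have h3 := mul_le_mul_of_nonneg_left (hG (tg a) h' m' hm'y) (hβ a)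
        have h4 := mul_nonneg (hβ' a) (hR0 m' (tg a))
        linarith
    · simp [h]
  set D : ℝ := ∑ a, β a with hD
  have hD0 : 0 ≤ D := sum_nonneg fun a _ => hβ a
  set ε : ℝ := 1 / (2 * (D + 1)) with hε
  have hε0 : 0 < ε := by positivity
  have hDε : D * ε ≤ 1 / 2 := by
    rw [hε, mul_one_div, div_le_div_iff₀ (by positivity) two_pos]; linarith
  set C : ℝ := (∏ a, Real.exp (β a)) * Real.exp ε⁻¹ ^ Fintype.card ι with hC
  have hC0 : 0 ≤ C := by positivity
  have key : ∀ N : ℕ, ∀ m x, x ∈ B → (∀ w ∉ B, m w = 0) →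
      zz fr tg β y x m - R m x ≤ C * ε ^ (∑ v, m v) * (1 / 2) ^ N := by
    intro N
    induction N with
    | zero =>
      intro m x _ _
      have h1 := zz_bound (fr := fr) (tg := tg) hβ y x m hε0
      have h2 := hR0 m x
      rw [pow_zero, mul_one]
      linarith
    | succ N ih =>
      intro m x hx hm
      refine (step m x hx hm).trans ?_
      have h1 : ∑ v, (m + Pi.single x 1 : ι → ℕ) v = ∑ v, m v + 1 := by
        simp [sum_add_distrib]
      have h2 : 0 ≤ C * ε ^ (∑ v, m v + 1) * (1 / 2) ^ N := by positivity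
      calc _ ≤ ∑ a, β a * (C * ε ^ (∑ v, m v + 1) * (1 / 2) ^ N) := sum_le_sum fun a _ => by
            split_ifs with h
            · refine mul_le_mul_of_nonneg_left ?_ (hβ a)
              rw [← h1]
              exact ih _ _ h.2 (hsup m x hx hm)
            · exact mul_nonneg (hβ a) h2
        _ = D * ε * (C * ε ^ (∑ v, m v) * (1 / 2) ^ N) := by rw [← sum_mul]; ring
        _ ≤ 1 / 2 * (C * ε ^ (∑ v, m v) * (1 / 2) ^ N) :=
            mul_le_mul_of_nonneg_right hDε (by positivity)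
        _ = _ := by ring
  have h1 := (tendsto_pow_atTop_nhds_zero_of_lt_one (r := (1 / 2 : ℝ)) (by norm_num)
    (by norm_num)).const_mul (C * ε ^ (∑ v, (0 : ι → ℕ) v))
  rw [mul_zero] at h1
  exact sub_nonpos.1 (ge_of_tendsto' h1 fun N => key N 0 x hx fun _ _ => rfl)

end arcs

section graph

variable {ι E : Type} [Fintype ι] [DecidableEq ι] [Fintype E] [DecidableEq E] (src tgt : E → ι)
  (b : E → ℝ)

/-- tail of an arc -/
def frA (a : E × Bool) : ι := if a.2 then src a.1 else tgt a.1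

/-- head of an arc -/
def tgA (a : E × Bool) : ι := if a.2 then tgt a.1 else src a.1

/-- currents and loops versus arcs -/
def arcE : (E → ℤ) × (E → ℕ) ≃ (E × Bool → ℕ) where
  toFun p a := if a.2 then p.2 a.1 + (p.1 a.1).toNat else p.2 a.1 + (-p.1 a.1).toNat
  invFun n := (fun e => (n (e, true) : ℤ) - n (e, false), fun e => min (n (e, true)) (n (e, false)))
  left_inv p := by
    ext e <;> simp only [if_true, Bool.false_eq_true, if_false] <;> omega
  right_inv n := by
    funext ⟨e, c⟩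
    cases c <;> simp only [if_true, Bool.false_eq_true, if_false] <;> omega

variable {src tgt b}

theorem Sc_arcE (s : ι → ℤ) (k : E → ℤ) (j : E → ℕ) :
    Sc (frA src tgt) (tgA src tgt) s (arcE (k, j)) ↔ -s + dv src tgt k = 0 := by
  rw [neg_add_eq_zero, eq_comm, funext_iff]
  refine forall_congr' fun v => Eq.congr_left ?_
  simp only [dg, dv, Fintype.sum_prod_type, Fintype.sum_bool, frA, tgA, arcE, Equiv.coe_fn_mk,
    if_true, Bool.false_eq_true, if_false, Nat.cast_sum, ← sum_sub_distrib]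
  refine sum_congr rfl fun e _ => ?_
  split_ifs <;> omega

theorem hasSum_arcs (hb : ∀ e, 0 ≤ b e) (s : ι → ℤ) :
    HasSum (fun n => ind (Sc (frA src tgt) (tgA src tgt) s n) * Wp (fun a => b a.1 / 2) n)
      (cur src tgt b s) := by
  have h1 := summ (β := fun a : E × Bool => b a.1 / 2) (fun a => div_nonneg (hb a.1) zero_le_two)
    (Sc (frA src tgt) (tgA src tgt) s) (fun _ => (0 : ι → ℕ)) 0
  simp only [Φ_zero, mul_one] at h1
  have h2 := (arcE.hasSum_iff.2 h1.hasSum).prod_fiberwise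
    (g := fun k => ind (-s + dv src tgt k = 0) * wt b k) fun k => by
      have h3 := (hasSum_piR _ _ fun e => hasSum_besI (b e) (k e)).mul_left
        (ind (-s + dv src tgt k = 0))
      refine hs_congr h3 fun j => ?_
      rw [Function.comp, ind_congr (Sc_arcE s k j)]
      simp only [Wp, Fintype.prod_prod_type,
        Fintype.prod_bool, arcE, Equiv.coe_fn_mk, if_true, Bool.false_eq_true, if_false, bt_eq]
  rw [← cur_neg, cur_eq, h2.tsum_eq]
  exact h1.hasSum

theorem prod_dg {A : Type} [Fintype A] (f : A → ι) (n : A → ℕ) (r : ι → ℝ) :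
    ∏ v, r v ^ dg f n v = ∏ a, r (f a) ^ n a := by
  simp only [dg, ← prod_pow_eq_pow_sum]
  rw [prod_comm]
  refine prod_congr rfl fun a _ => ?_
  rw [prod_eq_single (f a) (fun v _ hv => by rw [if_neg (Ne.symm hv), pow_zero]) (by simp), if_pos rfl]

theorem Wp_scale (r : ι → ℝ) (n : E × Bool → ℕ) :
    Wp (fun a => b a.1 * (r (src a.1) * r (tgt a.1)) / 2) n = Wp (fun a => b a.1 / 2) n *
      ∏ v, r v ^ (dg (frA src tgt) n v + dg (tgA src tgt) n v) := by
  simp only [pow_add, prod_mul_distrib, prod_dg, Wp]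
  rw [← prod_mul_distrib, ← prod_mul_distrib]
  refine prod_congr rfl fun a _ => ?_
  have h : r (src a.1) * r (tgt a.1) = r (frA src tgt a) * r (tgA src tgt a) := by
    unfold frA tgA; split_ifs <;> ring
  rw [h, mul_div_right_comm, mul_pow, mul_pow]
  ring

theorem besI_mono {s t : ℝ} (hs : 0 ≤ s) (h : s ≤ t) (k : ℤ) : besI s k ≤ besI t k :=
  hasSum_le (fun j => by unfold bt; gcongr) (hasSum_besI s k) (hasSum_besI t k)

theorem wt_mono {b' : E → ℝ} (hb : ∀ e, 0 ≤ b e) (h : ∀ e, b e ≤ b' e) (k : E → ℤ) :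
    wt b k ≤ wt b' k :=
  prod_le_prod (fun e _ => besI_nonneg (hb e) _) fun e _ => besI_mono (hb e) (h e) _

theorem cur_conv {d : E → ℝ} (hb : ∀ e, 0 ≤ b e) (hd : ∀ e, 0 ≤ d e) (a : ι → ℤ) :
    HasSum (fun j => wt d j * cur src tgt b (a + dv src tgt j)) (cur src tgt (d + b) a) := by
  set f : (E → ℤ) × (E → ℤ) → ℝ :=
    fun p => ind (a + dv src tgt p.1 = 0) * (wt d p.2 * wt b (p.1 - p.2)) with hf
  have h3 : ∀ k, HasSum (fun j => f (k, j)) (ind (a + dv src tgt k = 0) * wt (d + b) k) :=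
    fun k => (wt_conv b d k).mul_left _
  have h4 : Summable f := by
    refine (summable_prod_of_nonneg fun p => mul_nonneg (ind_nonneg _)
      (mul_nonneg (wt_nonneg hd _) (wt_nonneg hb _))).2 ⟨fun k => (h3 k).summable, ?_⟩
    exact (summable_cur' a).congr fun k => (h3 k).tsum_eq.symm
  have h5 : HasSum f (cur src tgt (d + b) a) := by
    rw [cur_eq, ← tsum_congr fun k => (h3 k).tsum_eq, ← h4.tsum_prod]
    exact h4.hasSum
  refine ((Equiv.prodComm _ _).hasSum_iff.2 h5).prod_fiberwise fun j => ?_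
  rw [← (Equiv.addLeft j).hasSum_iff, cur_eq]
  refine hs_congr ((summable_cur' _).hasSum.mul_left (wt d j)) fun l => ?_
  simp only [Function.comp, Equiv.prodComm_apply, Prod.swap, hf, Equiv.coe_addLeft, dv_add,
    add_sub_cancel_left, add_assoc]
  ring

/-- supermodularity of the partition function -/
theorem cur_supermod {b' d d' : E → ℝ} (hb' : ∀ e, 0 ≤ b' e) (hd' : ∀ e, 0 ≤ d' e)
    (hb : ∀ e, b' e ≤ b e) (hd : ∀ e, d' e ≤ d e) :
    cur src tgt (d' + b') 0 * cur src tgt b 0 ≤ cur src tgt (d + b) 0 * cur src tgt b' 0 := by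
  have hb0 : ∀ e, 0 ≤ b e := fun e => (hb' e).trans (hb e)
  refine hasSum_le (fun j => ?_) ((cur_conv hb' hd' 0).mul_right _)
    ((cur_conv hb0 (fun e => (hd' e).trans (hd e)) 0).mul_right _)
  rw [mul_assoc, mul_assoc]
  exact mul_le_mul (wt_mono hd' hd j) (cur_mono hb' hb _)
    (mul_nonneg (cur_nonneg hb' _) (cur_nonneg hb0 _)) (wt_nonneg (fun e => (hd' e).trans (hd e)) j)

/-- the edge strengths restricted to the edges inside `B` -/
def bIn (src tgt : E → ι) (b : E → ℝ) (B : Finset ι) (e : E) : ℝ :=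
  if src e ∈ B ∧ tgt e ∈ B then b e else 0

theorem bIn_nonneg (hb : ∀ e, 0 ≤ b e) (B : Finset ι) (e : E) : 0 ≤ bIn src tgt b B e := by
  unfold bIn; split_ifs; exacts [hb e, le_rfl]

theorem bIn_le (hb : ∀ e, 0 ≤ b e) (B : Finset ι) (e : E) : bIn src tgt b B e ≤ b e := by
  unfold bIn; split_ifs; exacts [le_rfl, hb e]

theorem hasSum_scale (hb : ∀ e, 0 ≤ b e) {r : ι → ℝ} (hr : ∀ v, 0 ≤ r v) {v y : ι} (hv : r v = 1)
    (hy : r y = 1) :
    HasSum (fun n => ind (Sc (frA src tgt) (tgA src tgt) (Pi.single v 1 - Pi.single y 1) n) *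
      Wp (fun a => b a.1 / 2) n * ∏ w, r w ^ (2 * dg (frA src tgt) n w))
      (cur src tgt (fun e => b e * (r (src e) * r (tgt e))) (Pi.single v 1 - Pi.single y 1)) := by
  refine hs_congr (hasSum_arcs (fun e => mul_nonneg (hb e) (mul_nonneg (hr _) (hr _))) _)
    fun n => ?_
  rw [Wp_scale, mul_assoc]
  by_cases hc : Sc (frA src tgt) (tgA src tgt) (Pi.single v 1 - Pi.single y 1) n
  · congr 2
    refine prod_congr rfl fun w _ => ?_
    have h6 := hc w
    by_cases h1 : w = v
    · rw [h1, hv, one_pow, one_pow]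
    by_cases h2 : w = y
    · rw [h2, hy, one_pow, one_pow]
    rw [Pi.sub_apply, Pi.single_eq_of_ne h1, Pi.single_eq_of_ne h2] at h6
    congr 1
    omega
  · simp [ind_neg hc]

theorem zz_le (hb : ∀ e, 0 ≤ b e) (B : Finset ι) {y v : ι} (hy : y ∉ B) (hv : v ∉ B) (m : ι → ℕ)
    (hm : ∀ w ∉ B, m w = 0) : zz (frA src tgt) (tgA src tgt) (fun a => b a.1 / 2) y v m ≤
      cur src tgt b (Pi.single v 1 - Pi.single y 1) / cur src tgt (bIn src tgt b B) 0 *
        z0 (frA src tgt) (tgA src tgt) (fun a => bIn src tgt b B a.1 / 2) m := by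
  set b' := bIn src tgt b B with hb'
  have hb0 : ∀ e, 0 ≤ b' e := bIn_nonneg hb B
  have hb1 : ∀ e, b' e ≤ b e := bIn_le hb B
  have hβ : ∀ a : E × Bool, 0 ≤ b a.1 / 2 := fun a => div_nonneg (hb a.1) zero_le_two
  have hβ' : ∀ a : E × Bool, 0 ≤ b' a.1 / 2 := fun a => div_nonneg (hb0 a.1) zero_le_two
  set G := cur src tgt b (Pi.single v 1 - Pi.single y 1) / cur src tgt b' 0 with hG
  have h1 := mix (fr := frA src tgt) (((hasSum_arcs (src := src) (tgt := tgt) hb0 0).mul_left G).sub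
    (hasSum_arcs (src := src) (tgt := tgt) hb (Pi.single v 1 - Pi.single y 1))).summable B
    (fun r hr hB => by
      have hr0 : ∀ e, 0 ≤ r (src e) * r (tgt e) := fun e => mul_nonneg (hr _).1 (hr _).1
      have hr1 : ∀ e, r (src e) * r (tgt e) ≤ 1 := fun e => mul_le_one₀ (hr _).2 (hr _).1 (hr _).2
      have h2 := hasSum_scale (src := src) (tgt := tgt) hb0 (fun w => (hr w).1) (hB y hy) (hB y hy)
      rw [sub_self] at h2
      have h3 := (h2.mul_left G).sub
        (hasSum_scale (src := src) (tgt := tgt) hb (fun w => (hr w).1) (hB v hv) (hB y hy))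
      have h4 := cur_mono (src := src) (tgt := tgt) (fun e => mul_nonneg (hb e) (hr0 e))
        (fun e => mul_le_of_le_one_right (hb e) (hr1 e)) (Pi.single v 1 - Pi.single y 1)
      have h5 := cur_supermod (src := src) (tgt := tgt) (b := b') (d := b - b')
        (b' := fun e => b' e * (r (src e) * r (tgt e)))
        (d' := fun e => (b e - b' e) * (r (src e) * r (tgt e)))
        (fun e => mul_nonneg (hb0 e) (hr0 e)) (fun e => mul_nonneg (sub_nonneg.2 (hb1 e)) (hr0 e))
        (fun e => mul_le_of_le_one_right (hb0 e) (hr1 e))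
        fun e => mul_le_of_le_one_right (sub_nonneg.2 (hb1 e)) (hr1 e)
      have e : ((fun e => (b e - b' e) * (r (src e) * r (tgt e))) +
          fun e => b' e * (r (src e) * r (tgt e))) = fun e => b e * (r (src e) * r (tgt e)) := by
        funext e; rw [Pi.add_apply]; ring
      rw [sub_add_cancel, e] at h5
      have h6 := cur_zero_pos (src := src) (tgt := tgt) hb
      have h7 := cur_zero_pos (src := src) (tgt := tgt) hb0
      have h8 := cur_nonneg (src := src) (tgt := tgt) hb (Pi.single v 1 - Pi.single y 1)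
      refine le_trans ?_ (h3.tsum_eq.symm.trans (tsum_congr fun n => by ring)).le
      rw [sub_nonneg, hG, div_mul_eq_mul_div, le_div_iff₀ h7]
      refine le_of_mul_le_mul_right ?_ h6
      nlinarith [mul_le_mul_of_nonneg_right h4 h7.le, mul_le_mul_of_nonneg_left h5 h8])
    _ m rfl hm (fun _ => 1) (fun _ => ⟨zero_le_one, le_rfl⟩) fun _ _ => rfl
  simp only [one_pow, prod_const_one, mul_one, sub_mul, mul_assoc G] at h1
  rw [Summable.tsum_sub ((summ hβ' _ _ m).mul_left G) (summ hβ _ _ m), tsum_mul_left] at h1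
  simp only [zz, Φ_sink _ (hm y hy)]
  exact sub_nonneg.1 h1

theorem zz_zero (hb : ∀ e, 0 ≤ b e) (y x : ι) :
    zz (frA src tgt) (tgA src tgt) (fun a => b a.1 / 2) y x 0 =
      cur src tgt b (Pi.single x 1 - Pi.single y 1) := by
  simp only [zz, Φ_zero, mul_one]
  exact (hasSum_arcs hb _).tsum_eq

/-- normalised two point function -/
def gg (src tgt : E → ι) (b : E → ℝ) (x y : ι) : ℝ :=
  cur src tgt b (Pi.single y 1 - Pi.single x 1) / cur src tgt b 0

theorem gg_comm (x y : ι) : gg src tgt b x y = gg src tgt b y x := by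
  rw [gg, gg, ← cur_neg, neg_sub]

theorem gg_nonneg (hb : ∀ e, 0 ≤ b e) (x y : ι) : 0 ≤ gg src tgt b x y :=
  div_nonneg (cur_nonneg hb _) (cur_nonneg hb _)


theorem gg_mono {b' : E → ℝ} (hb : ∀ e, 0 ≤ b e) (h : ∀ e, b e ≤ b' e) (x y : ι) :
    gg src tgt b x y ≤ gg src tgt b' x y := by
  rw [gg, gg, div_le_div_iff₀ (cur_zero_pos hb) (cur_zero_pos fun e => (hb e).trans (h e))]
  exact cur_mono hb h _

/-- the Simon-Lieb inequality -/
theorem lieb (hb : ∀ e, 0 ≤ b e) (B : Finset ι) {x y : ι} (hx : x ∈ B) (hy : y ∉ B) :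
    gg src tgt b x y ≤ ∑ a : E × Bool, if frA src tgt a ∈ B ∧ tgA src tgt a ∉ B then
      b a.1 / 2 * gg src tgt (bIn src tgt b B) x (frA src tgt a) * gg src tgt b (tgA src tgt a) y
      else 0 := by
  have hb0 := bIn_nonneg (src := src) (tgt := tgt) hb B
  have h0 := cur_zero_pos (src := src) (tgt := tgt) hb
  have h0' := cur_zero_pos (src := src) (tgt := tgt) hb0
  have h1 := simon_arcs (fr := frA src tgt) (tg := tgA src tgt) (β := fun a => b a.1 / 2)
    (β' := fun a => bIn src tgt b B a.1 / 2) (fun a => div_nonneg (hb a.1) zero_le_two)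
    (fun a => div_nonneg (hb0 a.1) zero_le_two) B (fun a h1 h2 => by
      unfold frA at h1
      unfold tgA at h2
      rw [bIn, if_pos]
      split_ifs at h1 h2
      exacts [⟨h1, h2⟩, ⟨h2, h1⟩]) hy
    (G := fun v => cur src tgt b (Pi.single v 1 - Pi.single y 1) / cur src tgt (bIn src tgt b B) 0)
    (fun v => div_nonneg (cur_nonneg hb _) h0'.le) (fun v hv m hm => zz_le hb B hy hv m hm) hx
  simp only [zz_zero hb, zz_zero hb0] at h1
  rw [gg_comm, gg, div_le_iff₀ h0, sum_mul]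
  refine h1.trans_eq (sum_congr rfl fun a _ => ?_)
  split_ifs
  · rw [gg_comm x, gg_comm (tgA src tgt a)]
    simp only [gg]
    rw [← cur_neg src tgt (bIn src tgt b B) (Pi.single x 1 - _), neg_sub]
    field_simp
  · simp

/-- Simon's inequality -/
theorem simon (hb : ∀ e, 0 ≤ b e) (B : Finset ι) {x y : ι} (hx : x ∈ B) (hy : y ∉ B) :
    gg src tgt b x y ≤ ∑ a : E × Bool, if frA src tgt a ∈ B ∧ tgA src tgt a ∉ B then
      b a.1 / 2 * gg src tgt b x (frA src tgt a) * gg src tgt b (tgA src tgt a) y else 0 := by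
  refine (lieb hb B hx hy).trans (sum_le_sum fun a _ => ?_)
  split_ifs
  · exact mul_le_mul_of_nonneg_right (mul_le_mul_of_nonneg_left
      (gg_mono (bIn_nonneg hb B) (bIn_le hb B) _ _) (div_nonneg (hb _) zero_le_two))
      (gg_nonneg hb _ _)
  · exact le_rfl

end graph

end Crest.Agent.T145.Xy48
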