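import Crest.Agent.T145.MbDef2_25
import Crest.Agent.T145.T5_11
import Crest.Agent.T145.XyD_48
import Crest.Agent.T145.Up_46
import Crest.Agent.T145.GeoB_51
import Crest.Agent.T145.CorB_59
import Crest.Agent.T145.XyS_48_Mg
import Crest.Agent.T145.MbDef_25
import Crest.Agent.T145.TauA_5
import Crest.Agent.T145.GeoA_51
import Crest.Agent.T145.MdlA_73
import Crest.Agent.T145.Api_98
import Crest.Agent.T145.Route_51
import Crest.Agent.T145.CutC_7
import Crest.Agent.T145.MxAll_9_Mg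
import Crest.Agent.T145.NcT4All_78
import Crest.Agent.T145.EsD_28
import Crest.Agent.T145.TauC_5

-- ▼ part T145/MbExit_25
section

/-!
# Row 145, module MB (helper25): the quantitative exit
-/

set_option autoImplicit false

namespace Crest.Agent.T145.Mb

open Finset Filter Topology

theorem drift (u φ : ℕ → ℝ) (bad : ℕ → Prop) [DecidablePred bad] (B : ℝ) (T : ℕ)
    (h : ∀ t < T, u t + (φ (t + 1) - φ t) - (if bad t then B else 0) ≤ u (t + 1)) :
    u 0 + φ T - φ 0 - B * ((range T).filter bad).card ≤ u T := by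
  induction T with
  | zero => simp
  | succ T ih =>
    have h1 := ih fun t ht => h t (by omega)
    have h2 := h T (by omega)
    rw [range_add_one, filter_insert]
    split_ifs at h2 ⊢ with hb
    · rw [card_insert_of_notMem (by simp)]
      push_cast
      linarith
    · linarith

/-- an upper bound of the lengths of the family -/
noncomputable def tm (F : Fa) : ℝ := max F.τ₁ F.τ₂

theorem tm_pos (F : Fa) : 0 < tm F := F.pos.trans_le (le_max_left _ _)

theorem le_tm {F : Fa} {Λ : Lat} (h : F.Mem Λ) : Λ.τ ≤ tm F := h.2.2.2.trans (le_max_right _ _)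

theorem gN_le_of {F : Fa} {Λ : Lat} (h : F.Mem Λ) {l L : ℕ} {ε : ℝ} (hε : 0 ≤ ε)
    (H : Λ.tN L ≤ Λ.tN l + ε / tm F) : Λ.gN L ≤ Λ.gN l + ε := by
  have h0 := T511.e0_pos (T511.mem_ok h)
  have h1 := (T511.inv_e0_le (T511.mem_ok h)).trans (le_tm h)
  have h2 := tm_pos F
  have h3 : ε / tm F ≤ ε * Λ.e0 := by
    rw [div_le_iff₀ h2]
    rw [div_le_iff₀ h0] at h1
    nlinarith
  rw [Lat.gN, Lat.gN, div_add' _ _ _ h0.ne', div_le_div_iff_of_pos_right h0]
  linarith

theorem le_tN_of {F : Fa} {Λ : Lat} (h : F.Mem Λ) {l : ℕ} {κ : ℝ} (hκ : 0 ≤ κ)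
    (H : κ ≤ Λ.gN l) : κ / tm F ≤ Λ.tN l := by
  have h0 := T511.e0_pos (T511.mem_ok h)
  have h1 := (T511.inv_e0_le (T511.mem_ok h)).trans (le_tm h)
  have h2 := tm_pos F
  rw [Lat.gN, le_div_iff₀ h0] at H
  rw [div_le_iff₀ h0] at h1
  refine le_trans ?_ H
  rw [div_le_iff₀ h2]
  nlinarith

set_option maxHeartbeats 2000000 in
theorem exitGStmt (hS : Step2Stmt) (hd : T1dStmt) (hB : BadGStmt) (hY : Y0Stmt) : ExitGStmt := by
  classical
  intro F ε₀ ε κ hε₀ hε hκ
  set η : ℝ := ε * ε₀ / 2 with hη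
  have hη0 : 0 < η := by positivity
  obtain ⟨k₀, H1⟩ := hS F (min (ε₀ / 2) (η / 2)) (by positivity)
  obtain ⟨q₀, l₀, c, hc, H2⟩ := H1 (k₀ + 1) (by omega)
  set k := k₀ + 1 with hk
  obtain ⟨N, i₀, H3⟩ := hB F q₀ c (κ / tm F) hc (div_pos hκ (tm_pos F))
  obtain ⟨l₁, H4⟩ := hd.2.1 F (min (η / 16) (ε₀ / 2) / tm F) (div_pos (by positivity) (tm_pos F))
  refine ⟨η / 16, i₀ + l₀ + l₁, by positivity, fun j₁ hj₁ => ?_⟩
  obtain ⟨y, hy, H5⟩ := hY F (2 ^ j₁) Nat.one_le_two_pow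
  have hl2 : 0 < Real.log 2 := Real.log_pos one_lt_two
  set B : ℝ := |Real.log c| + Real.log 2 * (ε₀ * k) with hBd
  have hB0 : 0 ≤ B := by positivity
  obtain ⟨j₂, hj₂⟩ := exists_nat_gt
    (((B * N - Real.log y) / Real.log 2 + ε₀ * (j₁ + 1 + k) + (ε₀ + η) * k) / η)
  refine ⟨j₂ + j₁ + 1, fun Λ hΛ j hj g1 g2 => ?_⟩
  by_contra hn
  push Not at hn
  have hpow : ∀ i, j₁ ≤ i → l₀ ≤ 2 ^ i ∧ l₁ ≤ 2 ^ i := fun i hi => by
    have := (Nat.lt_two_pow_self (n := i)).le
    omega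
  have mono : ∀ i i', j₁ ≤ i → i ≤ i' → Λ.gN (2 ^ i') ≤ Λ.gN (2 ^ i) + min (η / 16) (ε₀ / 2) :=
    fun i i' hi hii => by
      refine gN_le_of hΛ (by positivity) ?_
      have := H4 Λ hΛ (2 ^ i) (2 ^ (i' - i)) (hpow i hi).2 Nat.one_le_two_pow
      rwa [← pow_add, Nat.sub_add_cancel hii] at this
  have hk0 : (0 : ℝ) < k := by rw [hk]; positivity
  have hjr : (j₁ : ℝ) + 1 ≤ j := by exact_mod_cast (by omega : j₁ + 1 ≤ j)
  have hx : 0 ≤ ((1 + ε) * j - j₁ - 1) / k := by
    refine div_nonneg ?_ hk0.le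
    nlinarith [(Nat.cast_nonneg j : (0 : ℝ) ≤ j)]
  set T : ℕ := ⌊((1 + ε) * j - j₁ - 1) / k⌋₊ with hT
  have hT1 : (T : ℝ) * k ≤ (1 + ε) * j - j₁ - 1 := (le_div_iff₀ hk0).1 (Nat.floor_le hx)
  have hT2 : (1 + ε) * j - j₁ - 1 < (T + 1) * k := (div_lt_iff₀ hk0).1 (Nat.lt_floor_add_one _)
  set bad : ℕ → Prop := fun t => ∃ q : ℤ, 1 ≤ q ∧ q ≤ q₀ ∧ c ≤ Λ.aq (2 ^ (j₁ + t * k)) q with hbad
  have hcard : (((range T).filter bad).card : ℝ) ≤ N := by
    have hi : Function.Injective fun t : ℕ => j₁ + t * k := fun a b h => by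
      simp only [add_right_inj] at h
      exact Nat.eq_of_mul_eq_mul_right (by omega) h
    have h1 := H3 Λ hΛ (((range T).filter bad).image fun t => j₁ + t * k) fun i hi => by
      obtain ⟨t, ht, rfl⟩ := mem_image.1 hi
      obtain ⟨ht1, ht2⟩ := mem_filter.1 ht
      refine ⟨by omega, le_tN_of hΛ hκ.le (hn _ (by omega) ?_).le, ht2⟩
      have h2 : (t : ℝ) ≤ T := by exact_mod_cast (mem_range.1 ht1).le
      push_cast
      nlinarith
    rw [card_image_of_injective _ hi] at h1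
    exact_mod_cast h1
  set u : ℕ → ℝ := fun t => Real.log (Λ.Y (2 ^ (j₁ + t * k))) with hu
  set φ : ℕ → ℝ := fun t => Real.log 2 * (ε₀ * (t * k) - (ε₀ + η) * min ((t : ℝ) * k) (j + k)) with hφ
  have hpi1 := Real.pi_gt_three
  have hpi2 := Real.pi_lt_four
  have key := drift u φ bad B T fun t _ => by
    obtain ⟨a1, -, a3, a4⟩ := H2 Λ hΛ (2 ^ (j₁ + t * k)) (hpow _ (by omega)).1
    have e1 : 2 ^ k * 2 ^ (j₁ + t * k) = 2 ^ (j₁ + (t + 1) * k) := by rw [← pow_add]; congr 1; ring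
    rw [e1] at a3 a4
    have d1 : φ (t + 1) - φ t ≤ Real.log 2 * (ε₀ * k) := by
      simp only [hφ]
      rw [← mul_sub]
      refine mul_le_mul_of_nonneg_left ?_ hl2.le
      have : min ((t : ℝ) * k) (j + k) ≤ min (((t + 1 : ℕ) : ℝ) * k) (j + k) :=
        min_le_min_right _ (by push_cast; nlinarith)
      push_cast at this ⊢
      nlinarith
    split_ifs with hb
    · have h1 := Real.log_le_log (mul_pos hc a1) a3
      rw [Real.log_mul hc.ne' a1.ne'] at h1
      have h2 := neg_abs_le (Real.log c)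
      simp only [hu]
      linarith
    · have h1 := a4.resolve_right hb
      have h2 := Real.log_le_log (mul_pos (Real.rpow_pos_of_pos (by positivity) _) a1) h1
      rw [Real.log_mul (Real.rpow_pos_of_pos (by positivity) _).ne' a1.ne',
        Real.log_rpow (by positivity), Real.log_pow] at h2
      have m1 := min_le_left (ε₀ / 2) (η / 2)
      have m2 := min_le_right (ε₀ / 2) (η / 2)
      have m3 := min_le_left (η / 16) (ε₀ / 2)
      have m4 := min_le_right (η / 16) (ε₀ / 2)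
      have hp : Real.pi * (2 / Real.pi) = 2 := by field_simp
      have hkl : 0 < (k : ℝ) * Real.log 2 := mul_pos hk0 hl2
      simp only [hu, sub_zero]
      by_cases hlt : j₁ + t * k < j
      · have g3 := mono j₁ (j₁ + t * k) le_rfl (by omega)
        have g4 : Real.pi * Λ.gN (2 ^ (j₁ + t * k)) ≤ Real.pi * (2 / Real.pi + η / 8) :=
          mul_le_mul_of_nonneg_left (by linarith) Real.pi_pos.le
        have g5 : -η ≤ 2 - Real.pi * Λ.gN (2 ^ (j₁ + t * k)) - min (ε₀ / 2) (η / 2) := by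
          nlinarith
        have d2 : φ (t + 1) - φ t = -η * (k * Real.log 2) := by
          have h3 : (t : ℝ) * k ≤ j := by exact_mod_cast (by omega : t * k ≤ j)
          simp only [hφ]
          push_cast
          rw [min_eq_left (by nlinarith), min_eq_left (by nlinarith)]
          ring
        nlinarith
      · have g3 := mono j (j₁ + t * k) (by omega) (by omega)
        have g4 : Real.pi * Λ.gN (2 ^ (j₁ + t * k)) ≤ Real.pi * (2 / Real.pi - ε₀ / 2) :=
          mul_le_mul_of_nonneg_left (by linarith) Real.pi_pos.le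
        have g5 : ε₀ ≤ 2 - Real.pi * Λ.gN (2 ^ (j₁ + t * k)) - min (ε₀ / 2) (η / 2) := by
          nlinarith
        nlinarith
  have uT : u T ≤ 0 := by
    obtain ⟨a1, a2, -⟩ := H2 Λ hΛ (2 ^ (j₁ + T * k)) (hpow _ (by omega)).1
    exact Real.log_nonpos a1.le a2
  have u0 : Real.log y ≤ u 0 := by
    simp only [hu, zero_mul, add_zero]
    exact Real.log_le_log hy (H5 Λ hΛ)
  have φ0 : φ 0 = 0 := by
    simp only [hφ, Nat.cast_zero, zero_mul]
    rw [min_eq_left (by positivity)]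
    ring
  have φT : Real.log 2 * (η * j - ε₀ * (j₁ + 1 + k) - (ε₀ + η) * k) ≤ φ T := by
    refine mul_le_mul_of_nonneg_left ?_ hl2.le
    have h1 := min_le_right ((T : ℝ) * k) (j + k)
    have h2 := mul_le_mul_of_nonneg_left h1 (by positivity : 0 ≤ ε₀ + η)
    have h3 := mul_le_mul_of_nonneg_left hT2.le hε₀.le
    nlinarith
  have hj' : (j₂ : ℝ) ≤ j := by exact_mod_cast (by omega : j₂ ≤ j)
  rw [div_lt_iff₀ hη0] at hj₂
  have h1 : (B * N - Real.log y) / Real.log 2 < η * j - ε₀ * (j₁ + 1 + k) - (ε₀ + η) * k := by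
    nlinarith
  rw [div_lt_iff₀ hl2] at h1
  have h2 := mul_le_mul_of_nonneg_left hcard hB0
  linarith

end Crest.Agent.T145.Mb
end

-- ▼ part T145/MbTop_25
section

/-!
# Row 145, module MB (helper25): P4 and P5 of the TOP frame
-/

set_option autoImplicit false

namespace Crest.Agent.T145.Mb

open Finset Filter Topology Crest.ProbabilityR.SpinModel Crest.ProbabilityR.HeightModel

theorem log_le_rpow {x δ : ℝ} (hx : 0 < x) (hδ : 0 < δ) : Real.log x ≤ x ^ δ / δ := by
  have h1 := Real.log_le_sub_one_of_pos (Real.rpow_pos_of_pos hx δ)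
  rw [Real.log_rpow hx] at h1
  rw [le_div_iff₀ hδ]
  linarith

set_option maxHeartbeats 2000000 in
/-- **P4** -/
theorem massUpStmt (hL : LowStmt) : Top.MassUpStmt := by
  intro b₁ b₂ g₀ δ hb₁ hg hδ
  obtain ⟨K₀, H⟩ := hL
  set K : ℝ := max K₀ 1 with hK
  have hK1 : 1 ≤ K := le_max_right _ _
  set β : ℝ := max b₂ 1 with hβ
  have hβ1 : 1 ≤ β := le_max_right _ _
  set t : ℝ := min (g₀ / (4 * K * β)) 1 with ht
  have ht0 : 0 < t := by positivity
  have ht1 : t ≤ 1 := min_le_right _ _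
  have ht2 : t * (4 * K * β) ≤ g₀ := (le_div_iff₀ (by positivity)).1 (min_le_left _ _)
  obtain ⟨L₁, hL₁⟩ := exists_nat_ge (2 / t ^ 2)
  set D : ℝ := |Real.log (18 * K * β ^ 3 / g₀)| with hD
  refine ⟨2 / t ^ 2 * (D + 4 / δ), L₁ + 1, fun b h1 h2 L hL hgL C m hC hm => ?_⟩
  have hb : 0 < b := hb₁.trans_le h1
  have hbβ : b ≤ β := h2.trans (le_max_left _ _)
  have hL1 : (1 : ℝ) ≤ L := by exact_mod_cast (by omega : 1 ≤ L)
  have hL0 : (0 : ℝ) < L := by linarith
  have hL2 : 2 ≤ t ^ 2 * L := by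
    have : (L₁ : ℝ) ≤ L := by exact_mod_cast (by omega : L₁ ≤ L)
    rw [div_le_iff₀ (by positivity)] at hL₁
    nlinarith [sq_nonneg t]
  set s : ℕ := ⌊t ^ 2 * L⌋₊ with hs
  have hs1 : (s : ℝ) ≤ t ^ 2 * L := Nat.floor_le (by positivity)
  have hs2 : t ^ 2 * L < s + 1 := Nat.lt_floor_add_one _
  have hs3 : t ^ 2 * L / 2 ≤ s := by linarith
  have hs4 : (s : ℝ) ≤ L := hs1.trans (by nlinarith [mul_le_mul ht1 ht1 ht0.le zero_le_one])
  have h3 := hgL.trans (H b C m hb ⟨hC, hm⟩ L s (by omega))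
  have h4 : Real.sqrt (((s : ℝ) + 1) / L) ≤ 2 * t := by
    rw [Real.sqrt_le_left (by positivity), div_le_iff₀ hL0]
    nlinarith
  have hE := Real.exp_pos (-(m * s))
  have h5 : b ^ 3 * (L : ℝ) ^ 2 * (2 * s + 1) ^ 2 * Real.exp (-(m * s)) ≤
      β ^ 3 * (L : ℝ) ^ 2 * (3 * L) ^ 2 * Real.exp (-(m * s)) := by
    gcongr
    linarith
  have h6 : b * Real.sqrt (((s : ℝ) + 1) / L) ≤ β * (2 * t) := by gcongr
  have h7 : g₀ ≤ K * (β ^ 3 * (L : ℝ) ^ 2 * (3 * L) ^ 2 * Real.exp (-(m * s)) + β * (2 * t)) :=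
    h3.trans ((mul_le_mul_of_nonneg_right (le_max_left _ _) (by positivity)).trans
      (mul_le_mul_of_nonneg_left (add_le_add h5 h6) (by positivity)))
  have h8 : Real.exp (m * s) ≤ 18 * K * β ^ 3 / g₀ * (L : ℝ) ^ 4 := by
    rw [Real.exp_neg] at h7
    have hE' := Real.exp_pos (m * s)
    have h9 : g₀ / 2 ≤ K * (β ^ 3 * (L : ℝ) ^ 2 * (3 * L) ^ 2) / Real.exp (m * s) := by
      rw [div_eq_mul_inv _ (Real.exp (m * s))]
      nlinarith
    rw [le_div_iff₀ hE'] at h9
    rw [div_mul_eq_mul_div, le_div_iff₀ hg]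
    nlinarith
  have h9 : m * s ≤ D + 4 * Real.log L := by
    have := Real.log_le_log (Real.exp_pos _) h8
    rw [Real.log_exp, Real.log_mul (by positivity) (by positivity), Real.log_pow] at this
    have h10 := le_abs_self (Real.log (18 * K * β ^ 3 / g₀))
    push_cast at this
    linarith
  have h10 := log_le_rpow hL0 hδ
  have h11 : 1 ≤ (L : ℝ) ^ δ := Real.one_le_rpow hL1 hδ.le
  have hD0 : 0 ≤ D := abs_nonneg _
  have h12 : m * s ≤ (D + 4 / δ) * (L : ℝ) ^ δ := by
    have : 4 / δ * (L : ℝ) ^ δ = 4 * ((L : ℝ) ^ δ / δ) := by ring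
    nlinarith
  have hm0 := Xy48.m_nonneg hb hC hm
  have h13 : m * (t ^ 2 * L / 2) ≤ (D + 4 / δ) * (L : ℝ) ^ δ :=
    (mul_le_mul_of_nonneg_left hs3 hm0).trans h12
  rw [Real.rpow_sub hL0, Real.rpow_one, div_div_eq_mul_div, le_div_iff₀ hL0, mul_assoc,
    div_mul_eq_mul_div, le_div_iff₀ (by positivity)]
  nlinarith

/-- the family of the XY height models with `b ∈ [b₁, b₂]` -/
noncomputable def xyF (b₁ b₂ : ℝ) (h : 0 < b₁) : Fa := ⟨nn, true, b₁, b₂, admissible_nn, h⟩

theorem xyF_mem {b₁ b₂ b : ℝ} (h : 0 < b₁) (h1 : b₁ ≤ b) (h2 : b ≤ b₂) : (xyF b₁ b₂ h).Mem (xyL b) :=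
  ⟨rfl, rfl, h1, h2⟩

set_option maxHeartbeats 2000000 in
/-- from a small stiffness to the mass -/
theorem mass_of_small (hM : MassStmt) (hO : Off2Stmt) (b₂ ε : ℝ) (hε : 0 < ε) :
    ∃ (κ : ℝ) (l₀ : ℕ) (x₀ : ℝ), 0 < κ ∧ ∀ b, 0 < b → b ≤ b₂ → ∀ l : ℕ, l₀ ≤ l → (xyL b).gN l ≤ κ →
      ∀ x : ℝ, x₀ ≤ x → (l : ℝ) ≤ x → ∀ C m, Top.IsC b C → Top.IsM C m →
        Real.log 2 / (3 * x ^ (1 + ε)) ≤ m := by
  set η : ℝ := 2 * (1 + ε) / ε + 1 with hη
  have hη0 : 0 < η := by positivity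
  have hεη : ε * η = 2 * (1 + ε) + ε := by rw [hη]; field_simp
  obtain ⟨κ, hκ, l₀, K, hK, H⟩ := Sl46.upper b₂ η hη0.le
  refine ⟨κ, l₀, max 1 ((400 * b₂ ^ 2 * K) ^ ε⁻¹), hκ, fun b hb h2 l hl hg x hx hlx C m hC hm => ?_⟩
  have hx1 : 1 ≤ x := (le_max_left _ _).trans hx
  have hx0 : 0 < x := by linarith
  have hxε : 400 * b₂ ^ 2 * K ≤ x ^ ε := by
    have h1 := Real.rpow_le_rpow (by positivity) ((le_max_right _ _).trans hx) hε.le
    rwa [Real.rpow_inv_rpow (by positivity) hε.ne'] at h1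
  have hy1 : 1 ≤ x ^ (1 + ε) := Real.one_le_rpow hx1 (by positivity)
  set L : ℕ := ⌈x ^ (1 + ε)⌉₊ with hL
  have hL1 : x ^ (1 + ε) ≤ L := Nat.le_ceil _
  have hL2 : (L : ℝ) < x ^ (1 + ε) + 1 := Nat.ceil_lt_add_one (by positivity)
  have hL3 : 1 ≤ L := by exact_mod_cast hy1.trans hL1
  have h3 : C (2 * L) ≤ K * ((l : ℝ) / ((2 * L : ℕ) : ℝ)) ^ η :=
    le_of_tendsto (hC (2 * L)) ((eventually_ge_atTop (2 * L)).mono fun R hR => by
      rw [Xy48.xyStmt b R (2 * L) hb hR]
      exact H b hb h2 l hl hg (2 * L) R (by omega) hR)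
  have h4 : (l : ℝ) / ((2 * L : ℕ) : ℝ) ≤ x ^ (-ε) := by
    have h5 : x = x ^ (-ε) * x ^ (1 + ε) := by rw [← Real.rpow_add hx0]; simp
    have h6 := Real.rpow_pos_of_pos hx0 (-ε)
    push_cast
    rw [div_le_iff₀ (by linarith)]
    nlinarith
  have h5 : C (2 * L) ≤ K * x ^ (-(ε * η)) := by
    refine h3.trans (mul_le_mul_of_nonneg_left ?_ hK.le)
    rw [← neg_mul, Real.rpow_mul hx0.le]
    exact Real.rpow_le_rpow (by positivity) h4 hη0.le
  have h6 := hM b C m hb ⟨hC, hm⟩ L (Real.sqrt (K * x ^ (-(ε * η))))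
    (fun V u v h => Real.le_sqrt_of_sq_le ((hO b C hb hC V u v L h).trans h5)) (by
      have h7 : x ^ (-(ε * η)) = ((x ^ (1 + ε)) ^ 2 * x ^ ε)⁻¹ := by
        rw [Real.rpow_neg hx0.le, hεη, Real.rpow_add hx0, mul_comm 2, Real.rpow_mul hx0.le,
          Real.rpow_two]
      have h8 : 0 < 4 * b * (2 * L + 1) := by positivity
      rw [← le_div_iff₀' h8, Real.sqrt_le_left (by positivity), h7, ← div_eq_mul_inv, div_pow,
        div_le_div_iff₀ (by positivity) (by positivity)]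
      have h9 : 4 * b * (2 * L + 1) ≤ 20 * b₂ * x ^ (1 + ε) := by
        have : (2 * L + 1 : ℝ) ≤ 5 * x ^ (1 + ε) := by linarith
        nlinarith
      have h10 := pow_le_pow_left₀ h8.le h9 2
      have h11 := mul_le_mul_of_nonneg_left h10 hK.le
      have h12 := mul_le_mul_of_nonneg_left hxε (sq_nonneg (x ^ (1 + ε)))
      nlinarith)
  refine le_trans ?_ h6
  exact div_le_div_of_nonneg_left (Real.log_pos one_lt_two).le (by positivity) (by linarith)

set_option maxHeartbeats 2000000 in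
/-- **P5** -/
theorem massLoStmt (h1 : T1mStmt) (hd : T1dStmt) (hE : ExitGStmt) (hM : MassStmt)
    (hO : Off2Stmt) : Top.MassLoStmt := by
  intro b₁ b₂ e δ hb₁ h12 hI he hδ
  have hb₂ : 0 < b₂ := hb₁.trans_le h12
  set ε : ℝ := min δ 1 / 4 with hε
  have hε0 : 0 < ε := by positivity
  have hε1 : (1 + ε) * (1 + ε) ≤ 1 + δ := by
    have a1 := min_le_left δ 1
    have a2 := min_le_right δ 1
    nlinarith
  obtain ⟨κ, l₀, x₀, hκ, H⟩ := mass_of_small hM hO b₂ ε hε0
  set F := xyF b₁ b₂ hb₁ with hF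
  obtain ⟨ε₁, j₀, hε₁, H1⟩ := hE F (e / 2) ε κ (by positivity) hε0 hκ
  obtain ⟨δ', hδ', H2⟩ := h1.2.1 F (e / 2 / tm F) (div_pos (by positivity) (tm_pos F))
  have e1 : ∀ᶠ l in atTop, (xyL b₂).gN l ≤ 2 / Real.pi + ε₁ :=
    (T511.tendsto_gN h1 (xyL_ok hb₂)).eventually (ge_mem_nhds (by linarith))
  obtain ⟨j₁, a1, a2, a3⟩ := ((T511.tendsto_pow2.eventually (e1.and (eventually_ge_atTop l₀))).and
    (eventually_ge_atTop j₀)).exists.imp fun _ h => (⟨h.1.1, h.1.2, h.2⟩ : _ ∧ _ ∧ _)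
  obtain ⟨j₂, H3⟩ := H1 j₁ a3
  obtain ⟨d, hd'⟩ := T511.exists_pow δ' hδ'
  obtain ⟨L₁, hL₁⟩ := exists_nat_ge (max x₀ (1 / δ'))
  refine ⟨Real.log 2 / (3 * ((2 : ℝ) ^ (d + 1)) ^ (1 + δ)), L₁ + 2 ^ j₂, by
    have := Real.log_pos one_lt_two
    positivity, fun b hb1 hb2 L hL hg C m hC hm => ?_⟩
  have hb : 0 < b := hb₁.trans_le hb1
  have hmem := xyF_mem hb₁ hb1 hb2
  have hp : 1 ≤ 2 ^ j₂ := Nat.one_le_two_pow
  have hL1 : (1 : ℝ) ≤ L := by exact_mod_cast (by omega : 1 ≤ L)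
  have hL2 : max x₀ (1 / δ') ≤ L := hL₁.trans (by exact_mod_cast (by omega : L₁ ≤ L))
  set j := Nat.log 2 L + 1 + d with hj
  have c1 : L < 2 ^ (Nat.log 2 L + 1) := Nat.lt_pow_succ_log_self one_lt_two L
  have c2 : 2 ^ Nat.log 2 L ≤ L := Nat.pow_log_le_self 2 (by omega)
  have c3 : j₂ ≤ j := by
    have : 2 ^ j₂ < 2 ^ (Nat.log 2 L + 1) := by omega
    have := (Nat.pow_lt_pow_iff_right one_lt_two).1 this
    omega
  have c1' : (L : ℝ) ≤ 2 ^ (Nat.log 2 L + 1) := by exact_mod_cast c1.le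
  have c2' : (2 : ℝ) ^ Nat.log 2 L ≤ L := by exact_mod_cast c2
  have c4 : Sep δ' L (2 ^ j) := by
    constructor
    · have := (le_max_right _ _).trans hL2
      rwa [div_le_iff₀' hδ'] at this
    · push_cast
      rw [hj, pow_add (2 : ℝ) _ d]
      have : (0 : ℝ) < 2 ^ (Nat.log 2 L + 1) := by positivity
      nlinarith
  have g1 := gN_le_of hmem (by positivity) ((H2 _ hmem).1 L (2 ^ j) c4)
  have g2 : (xyL b).gN (2 ^ j₁) ≤ (xyL b₂).gN (2 ^ j₁) :=
    (hd.2.2 (xyL b) (2 ^ j₁) (xyL_ok hb)).2.2 hb hb₂ hb2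
  obtain ⟨i, i1, i2, i3⟩ := H3 _ hmem j c3 (g2.trans a1) (by linarith)
  have c5 : (L : ℝ) ≤ 2 ^ j := c1'.trans (pow_le_pow_right₀ one_le_two (by omega))
  have c6 : (2 : ℝ) ^ j ≤ 2 ^ (d + 1) * L := by
    rw [show j = (d + 1) + Nat.log 2 L by omega, pow_add]
    gcongr
  have hJ : (1 : ℝ) ≤ 2 ^ j := one_le_pow₀ one_le_two
  have c7 : (2 : ℝ) ^ j ≤ ((2 : ℝ) ^ j) ^ (1 + ε) := by
    nth_rewrite 1 [← Real.rpow_one ((2 : ℝ) ^ j)]
    exact Real.rpow_le_rpow_of_exponent_le hJ (by linarith)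
  have c8 : ((2 ^ i : ℕ) : ℝ) ≤ ((2 : ℝ) ^ j) ^ (1 + ε) := by
    push_cast
    rw [← Real.rpow_natCast, ← Real.rpow_natCast, ← Real.rpow_mul two_pos.le]
    exact Real.rpow_le_rpow_of_exponent_le one_le_two (by linarith)
  have h3 := H b hb hb2 (2 ^ i) (a2.trans (Nat.pow_le_pow_right two_pos i1)) i3
    (((2 : ℝ) ^ j) ^ (1 + ε)) (((le_max_left _ _).trans hL2).trans (c5.trans c7)) c8 C m hC hm
  refine le_trans ?_ h3
  rw [div_div]
  refine div_le_div_of_nonneg_left (Real.log_pos one_lt_two).le (by positivity) ?_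
  rw [mul_assoc, ← Real.mul_rpow (by positivity) (by positivity), ← Real.rpow_mul (by positivity)]
  refine mul_le_mul_of_nonneg_left ?_ (by norm_num)
  exact (Real.rpow_le_rpow_of_exponent_le hJ hε1).trans
    (Real.rpow_le_rpow (by positivity) c6 (by positivity))

end Crest.Agent.T145.Mb
end

-- ▼ part T145/MbBad_25
section

/-!
# Row 145, module MB (helper25): counting the bad scales; uniform lower bound of the charge
-/

set_option autoImplicit false

namespace Crest.Agent.T145.Mb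

open Finset Filter Topology

theorem count_drops (f : ℕ → ℝ) (a₀ p : ℕ) (δ : ℝ) (hδ : 0 < δ) (h0 : ∀ n, 0 ≤ f n)
    (mono : ∀ a b, a₀ ≤ a → a ≤ b → f b ≤ f a + δ / 2) (M : ℕ) :
    ∀ a, a₀ ≤ a → ∀ S : Finset ℕ, (∀ i ∈ S, a + p ≤ i ∧ f (i + 1) < f (i - p) - δ) →
      (∀ b, a ≤ b → f b ≤ M * (δ / 2)) → S.card ≤ (p + 1) * M := by
  induction M with
  | zero =>
    intro a _ S hS hb
    rcases S.eq_empty_or_nonempty with rfl | ⟨i, hi⟩
    · simp
    · have h1 := hS i hi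
      have h2 := hb (i - p) (by omega)
      have h3 := h0 (i + 1)
      simp only [Nat.cast_zero, zero_mul] at h2
      linarith [h1.2]
  | succ M ih =>
    intro a ha S hS hb
    rcases S.eq_empty_or_nonempty with rfl | hne
    · simp
    · have hi := S.min'_mem hne
      set i := S.min' hne with hi'
      have h1 := hS i hi
      have h2 := hb (i - p) (by omega)
      have h3 := ih (i + 1) (by omega) (S.filter fun j => i + 1 + p ≤ j)
        (fun j hj => ⟨(mem_filter.1 hj).2, (hS j (mem_filter.1 hj).1).2⟩) fun b hb' => by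
          have := mono (i + 1) b (by omega) hb'
          push_cast at h2
          linarith [h1.2]
      have h4 : S ⊆ (S.filter fun j => i + 1 + p ≤ j) ∪ Ico i (i + 1 + p) := fun j hj => by
        have := S.min'_le j hj
        rw [mem_union, mem_filter, mem_Ico]
        by_cases h : i + 1 + p ≤ j
        · exact Or.inl ⟨hj, h⟩
        · exact Or.inr ⟨this, by omega⟩
      have h5 := (card_le_card h4).trans (card_union_le _ _)
      rw [Nat.card_Ico] at h5
      rw [Nat.mul_succ]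
      omega

theorem badGStmt_25 (ha : T1aStmt) (hd : T1dStmt) (h2 : T2Stmt) : BadGStmt := by
  intro F q₀ c θ₀ hc hθ
  obtain ⟨δ, hδ, H2⟩ := h2 F θ₀ (q₀ + 1) (c / 2) hθ
    (by have : (0 : ℝ) ≤ q₀ := Nat.cast_nonneg _; linarith) (by linarith)
  obtain ⟨C, HA⟩ := ha F
  obtain ⟨l₁, HD⟩ := hd.2.1 F (δ / 2) (by linarith)
  obtain ⟨p, hp⟩ := T511.exists_pow δ hδ
  obtain ⟨l₂, hl₂⟩ := exists_nat_ge (1 / δ)
  obtain ⟨M, hM⟩ := exists_nat_ge (2 / δ)
  refine ⟨(p + 1) * M, l₁ + l₂ + p, fun Λ hΛ S hS => ?_⟩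
  refine count_drops (fun n => Λ.tN (2 ^ n)) (l₁ + l₂) p δ hδ
    (fun n => (HA Λ hΛ _ Nat.one_le_two_pow).1) (fun a b h1 h2 => ?_) M (l₁ + l₂) le_rfl S
    (fun i hi => ?_) fun b _ => ?_
  · have h3 := (Nat.lt_two_pow_self (n := a)).le
    have := HD Λ hΛ (2 ^ a) (2 ^ (b - a)) (by omega) Nat.one_le_two_pow
    rwa [← pow_add, Nat.sub_add_cancel h2] at this
  · obtain ⟨h1, h3, q, q1, q2, q3⟩ := hS i hi
    refine ⟨h1, ?_⟩
    by_contra hn
    push Not at hn
    have q4 : |(q : ℝ)| ≤ q₀ + 1 := by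
      have a1 : (1 : ℝ) ≤ q := by exact_mod_cast q1
      have a2 : (q : ℝ) ≤ q₀ := by exact_mod_cast q2
      rw [abs_of_pos (by linarith)]; linarith
    have sep : Sep δ (2 ^ (i - p)) (2 ^ i) := by
      have h4 := (Nat.lt_two_pow_self (n := i - p)).le
      have b1 : (l₂ : ℝ) ≤ ((2 ^ (i - p) : ℕ) : ℝ) := by exact_mod_cast (by omega : l₂ ≤ 2 ^ (i - p))
      have b2 : 1 ≤ δ * l₂ := by rwa [div_le_iff₀ hδ, mul_comm] at hl₂
      refine ⟨b2.trans (mul_le_mul_of_nonneg_left b1 hδ.le), ?_⟩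
      push_cast
      rw [show (2 : ℝ) ^ i = 2 ^ (i - p) * 2 ^ p by rw [← pow_add]; congr 1; omega]
      have b4 : (0 : ℝ) < 2 ^ (i - p) := by positivity
      nlinarith
    have e : 2 * 2 ^ i = 2 ^ (i + 1) := by ring
    have := H2 Λ hΛ _ _ ⟨⟨_, rfl⟩, sep, by rwa [e], by rw [e]; linarith⟩ q (by omega) q4
    linarith
  · have b1 := (HA Λ hΛ (2 ^ b) Nat.one_le_two_pow).2.1
    have b2 : 2 ≤ M * δ := (div_le_iff₀ hδ).1 hM
    linarith

theorem y0Stmt_25 : Y0Stmt := by
  intro F l hl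
  set Λ₂ : Lat := ⟨F.J, F.xy, max F.τ₁ F.τ₂⟩ with hΛ₂
  have hok : Λ₂.Ok := ⟨F.adm, F.pos.trans_le (le_max_left _ _)⟩
  have h0 : (0 : Pt) ∈ sq 0 l := by
    simp only [sq, mem_product, mem_Ico, Prod.fst_zero, Prod.snd_zero]
    omega
  have hg := (geoStmt Λ₂ hok).2.1 0 l 0 h0
  refine ⟨Λ₂.Y l, ((mdlStmt _ _).2.2 hg.1 hg.2).ph_pos _, fun Λ hΛ => ?_⟩
  have e : Λ = Λ₂.at' Λ.τ := by
    obtain ⟨J, xy, τ⟩ := Λ
    obtain ⟨h1, h2, -⟩ := hΛ
    simp only at h1 h2
    subst h1 h2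
    rfl
  rw [e]
  exact (hok.loc_at_Nr (T511.mem_ok hΛ).2 (hΛ.2.2.2.trans (le_max_right _ _)) hg.2).Ph_le _

end Crest.Agent.T145.Mb
end

-- ▼ part T145/MbLieb_48
section

/-!
# Row 145, module MB (helper48): `liebStmt`, `massStmt`
-/

set_option autoImplicit false

open Finset Filter Topology Crest.ProbabilityR.SpinModel

namespace Crest.Agent.T145.Mb

open Xy48

theorem liebStmt : LiebStmt := by
  classical
  intro ι E _ _ _ src tgt b hb B x y hx hy
  refine (lieb hb B hx hy).trans_eq ?_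
  rw [Fintype.sum_prod_type]
  refine sum_congr rfl fun e _ => ?_
  rw [Fintype.sum_bool, ite_eq_ind, ite_eq_ind]
  change ind (src e ∈ B ∧ tgt e ∉ B) * (b e / 2 * G src tgt (bIn src tgt b B) x (src e) *
      G src tgt b (tgt e) y) + ind (tgt e ∈ B ∧ src e ∉ B) *
    (b e / 2 * G src tgt (bIn src tgt b B) x (tgt e) * G src tgt b (src e) y) = _
  ring

theorem step_48 {b ε δ : ℝ} (hb : 0 < b) {L : ℕ} {V : Finset Pt} (x y : V)
    (h : ∀ u : V, ((L : ℤ) = |x.1.1 - u.1.1| ∨ (L : ℤ) = |x.1.2 - u.1.2|) →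
      twoPoint 2 V (fun _ _ => b) x u ≤ ε) (hε : 0 ≤ ε) (hδ : 0 ≤ δ)
    (h' : ∀ u : V, |x.1.1 - u.1.1| ≤ L + 1 → twoPoint 2 V (fun _ _ => b) u y ≤ δ)
    (hy : (L : ℤ) < |x.1.1 - y.1.1|) :
    twoPoint 2 V (fun _ _ => b) x y ≤ 4 * (2 * L + 1) * (b / 2 * ε * δ) := by
  classical
  set B : Finset V := univ.filter fun u => |x.1.1 - u.1.1| ≤ L ∧ |x.1.2 - u.1.2| ≤ L with hB
  have hm : ∀ u : V, u ∈ B ↔ |x.1.1 - u.1.1| ≤ L ∧ |x.1.2 - u.1.2| ≤ L := fun u => by simp [hB]
  have h1 := simon (src := sE V) (tgt := tE V) (b := fun _ => b) (fun _ => hb.le) B (x := x) (y := y)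
    (by simp [hm]) (by rw [hm]; omega)
  have e : ∀ u v : V, twoPoint 2 V (fun _ _ => b) u v = gg (sE V) (tE V) (fun _ => b) u v :=
    fun u v => twoPoint_eq _ u v
  set S : Finset (EF V × Bool) :=
    univ.filter fun a => frA (sE V) (tE V) a ∈ B ∧ tgA (sE V) (tE V) a ∉ B with hS
  have hc : ∀ a ∈ S, let u := a.1.1.1
      (a.1.1.2 = 0 ∧ |x.1.2 - u.2| ≤ L ∧ u.1 = if a.2 then x.1.1 + L else x.1.1 - L - 1) ∨
      (a.1.1.2 = 1 ∧ |x.1.1 - u.1| ≤ L ∧ u.2 = if a.2 then x.1.2 + L else x.1.2 - L - 1) := by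
    rintro ⟨⟨⟨u, i⟩, hu⟩, c⟩ ha
    have h2 := (mem_filter.1 ha).2
    rw [hm, hm] at h2
    fin_cases i <;> cases c <;>
      simp [frA, tgA, sE, tE, latticeDir, abs_le] at h2 ⊢ <;> omega
  have hcard : S.card ≤ 4 * (2 * L + 1) := by
    have h2 : S.card ≤ ((univ : Finset (Fin 2 × Bool)) ×ˢ Icc (-(L : ℤ)) L).card := by
      refine card_le_card_of_injOn (fun a => ((a.1.1.2, a.2),
        if a.1.1.2 = 0 then x.1.2 - a.1.1.1.2 else x.1.1 - a.1.1.1.1)) (fun a ha => ?_)
        fun a ha a' ha' haa => ?_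
      · simp only [coe_product, coe_univ, Set.mem_prod, Set.mem_univ, true_and, mem_coe, mem_Icc,
          ← abs_le]
        rcases hc a ha with h3 | h3 <;> simp [h3.1, h3.2.1]
      · simp only [Prod.mk.injEq] at haa
        obtain ⟨⟨h3, h4⟩, h5⟩ := haa
        refine Prod.ext (Subtype.ext (Prod.ext ?_ h3)) h4
        rcases hc a ha with h6 | h6 <;> rcases hc a' ha' with h7 | h7
        · rw [if_pos h6.1, if_pos h7.1] at h5
          exact Prod.ext (by rw [h6.2.2, h7.2.2, h4]) (by omega)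
        · rw [h6.1, h7.1] at h3; cases h3
        · rw [h6.1, h7.1] at h3; cases h3
        · rw [if_neg (by rw [h6.1]; decide), if_neg (by rw [h7.1]; decide)] at h5
          exact Prod.ext (by omega) (by rw [h6.2.2, h7.2.2, h4])
    rw [card_product, card_univ, Int.card_Icc] at h2
    simp only [Fintype.card_prod, Fintype.card_fin, Fintype.card_bool] at h2
    omega
  rw [e]
  refine h1.trans ?_
  rw [← sum_filter, ← hS]
  refine (sum_le_card_nsmul _ _ (b / 2 * ε * δ) fun a ha => ?_).trans ?_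
  · have h2 := hc a ha
    have h3 : twoPoint 2 V (fun _ _ => b) x (frA (sE V) (tE V) a) ≤ ε := by
      refine h _ ?_
      obtain ⟨⟨⟨u, i⟩, hu⟩, c⟩ := a
      rcases h2 with ⟨h3, -, h4⟩ | ⟨h3, -, h4⟩ <;> simp only at h3 h4 <;> subst h3 <;> cases c <;>
        simp [frA, sE, tE, latticeDir, h4]
    have h4 : twoPoint 2 V (fun _ _ => b) (tgA (sE V) (tE V) a) y ≤ δ := by
      refine h' _ ?_
      obtain ⟨⟨⟨u, i⟩, hu⟩, c⟩ := a
      rcases h2 with ⟨h3, h5, h4⟩ | ⟨h3, h5, h4⟩ <;> simp only at h3 h4 h5 <;> subst h3 <;>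
        cases c <;> simp [tgA, sE, tE, latticeDir, abs_le] at h4 h5 ⊢ <;> omega
    rw [e] at h3 h4
    exact mul_le_mul (mul_le_mul_of_nonneg_left h3 (by positivity)) h4
      (gg_nonneg (fun _ => hb.le) _ _) (by positivity)
  · rw [nsmul_eq_mul]
    exact mul_le_mul_of_nonneg_right (by exact_mod_cast hcard) (by positivity)

theorem decay_48 {b ε : ℝ} (hb : 0 < b) {L : ℕ}
    (h : ∀ (V : Finset Pt) (x y : V), ((L : ℤ) = |x.1.1 - y.1.1| ∨ (L : ℤ) = |x.1.2 - y.1.2|) →
      twoPoint 2 V (fun _ _ => b) x y ≤ ε) (hε : 4 * b * (2 * L + 1) * ε ≤ 1) (n : ℕ)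
    (V : Finset Pt) (x y : V) (hn : (n : ℤ) * (L + 1) ≤ |x.1.1 - y.1.1|) :
    twoPoint 2 V (fun _ _ => b) x y ≤ (1 / 2) ^ n := by
  have h0 : 0 ≤ ε := (twoPoint_nonneg (fun _ _ => hb.le) _ _).trans
    (h {(0, 0), ((L : ℤ), 0)} ⟨(0, 0), by simp⟩ ⟨((L : ℤ), 0), by simp⟩ (by simp))
  induction n generalizing x with
  | zero => exact (twoPoint_le_one (fun _ _ => hb.le) _ _).trans_eq (pow_zero _).symm
  | succ n ih =>
    push_cast at hn
    have h1 : (0 : ℤ) ≤ n * (L + 1) := by positivity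
    rw [add_mul, one_mul] at hn
    refine (step_48 hb x y (h V x) h0 (by positivity) (fun u hu => ih u ?_) (by omega)).trans ?_
    · have h2 := abs_sub_le x.1.1 u.1.1 y.1.1
      omega
    · have h2 : (0 : ℝ) ≤ (1 / 2) ^ n := by positivity
      rw [pow_succ]
      nlinarith [mul_le_mul_of_nonneg_right hε h2]

theorem massStmt : MassStmt := by
  intro b C m hb hL L ε h hε
  have h1 : ∀ n : ℕ, C (n * (L + 1)) ≤ (1 / 2) ^ n := fun n => by
    refine le_of_tendsto (hL.hC _) ((eventually_ge_atTop (n * (L + 1))).mono fun R hR => ?_)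
    rw [xyBoxCorrelation, dif_pos hR]
    refine decay_48 hb h hε n _ _ _ ?_
    simp only [zero_sub, abs_neg, Nat.abs_cast]
    push_cast
    exact le_rfl
  have h2 : Tendsto (fun n : ℕ => n * (L + 1)) atTop atTop :=
    tendsto_atTop_mono (fun n => Nat.le_mul_of_pos_right n L.succ_pos) tendsto_id
  refine ge_of_tendsto (hL.hm.comp h2) ((eventually_gt_atTop 0).mono fun n hn => ?_)
  have h3 := Real.log_le_log (C_pos hb hL.hC _) (h1 n)
  rw [Real.log_pow, one_div, Real.log_inv] at h3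
  have hn' : (0 : ℝ) < n := by exact_mod_cast hn
  have hL' : (0 : ℝ) < (L : ℝ) + 1 := by positivity
  simp only [Function.comp]
  push_cast
  rw [div_le_div_iff₀ hL' (mul_pos hn' hL')]
  nlinarith

end Crest.Agent.T145.Mb
end

-- ▼ part T145/MbOff_18
section

/-!
# Row 145, module MB (helper18): `embStmt`, `off2Stmt`, `offStmt`
-/

set_option autoImplicit false
set_option linter.unusedSectionVars false

namespace Crest.Agent.T145.Mb

open Finset Filter Topology Crest.ProbabilityR.SpinModel Xy48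

namespace O18

section flip
variable {ι E : Type} [Fintype ι] [DecidableEq ι] [Fintype E]

/-- reverse the current on the edges of `S` -/
def fl (S : E → Prop) [DecidablePred S] : (E → ℤ) ≃ (E → ℤ) where
  toFun k e := if S e then -k e else k e
  invFun k e := if S e then -k e else k e
  left_inv k := by funext e; by_cases h : S e <;> simp [h]
  right_inv k := by funext e; by_cases h : S e <;> simp [h]

theorem fl_apply (S : E → Prop) [DecidablePred S] (k : E → ℤ) (e : E) :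
    fl S k e = if S e then -k e else k e := rfl

/-- `cur` does not depend on the orientation of the edges -/
theorem cur_flip (src tgt : E → ι) (S : E → Prop) [DecidablePred S] (b : E → ℝ) (a : ι → ℤ) :
    cur (fun e => if S e then tgt e else src e) (fun e => if S e then src e else tgt e) b a =
      cur src tgt b a := by
  unfold cur
  rw [← (fl S).tsum_eq]
  refine tsum_congr fun k => ?_
  have h1 : Xy48.dv (fun e => if S e then tgt e else src e) (fun e => if S e then src e else tgt e)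
      (fl S k) = Xy48.dv src tgt k := by
    funext v
    unfold Xy48.dv
    refine Finset.sum_congr rfl fun e _ => ?_
    rw [fl_apply]
    by_cases h : S e
    · simp only [h, if_true]
      split_ifs <;> simp
    · simp only [h, if_false]
  have h2 : wt b (fl S k) = wt b k := by
    unfold wt
    refine Finset.prod_congr rfl fun e _ => ?_
    rw [fl_apply]
    split_ifs
    · exact besI_neg _ _
    · rfl
  rw [h1, h2]

end flip

end O18

open O18 in
theorem embStmt : EmbStmt := by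
  intro ι E ι' E' _ _ _ _ _ _ src tgt src' tgt' φ ψ b b' hφ hψ hor hb hb'
  classical
  set S : E → Prop := fun e => ¬ (src' (ψ e) = φ (src e) ∧ tgt' (ψ e) = φ (tgt e)) with hS
  set s2 : E → ι := fun e => if S e then tgt e else src e with hs2
  set t2 : E → ι := fun e => if S e then src e else tgt e with ht2
  have hs : ∀ e, src' (ψ e) = φ (s2 e) := fun e => by
    by_cases h : S e
    · simp only [hs2, h, if_true]; exact ((hor e).resolve_left h).1
    · simp only [hs2, h, if_false]; exact (not_not.1 h).1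
  have ht : ∀ e, tgt' (ψ e) = φ (t2 e) := fun e => by
    by_cases h : S e
    · simp only [ht2, h, if_true]; exact ((hor e).resolve_left h).2
    · simp only [ht2, h, if_false]; exact (not_not.1 h).2
  have hG : ∀ x y, G src tgt b x y = G s2 t2 b x y := fun x y => by
    unfold G
    rw [hs2, ht2, cur_flip, cur_flip]
  refine ⟨fun hbb x y => ?_, fun hbb h0 x y => ?_⟩
  · rw [hG]
    exact cur_emb hφ hψ hs ht hb hb' hbb x y
  · rw [hG]
    have h1 : ∀ e', b' e' ≤ Function.extend ψ b 0 e' := fun e' => by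
      by_cases h : ∃ e, ψ e = e'
      · obtain ⟨e, rfl⟩ := h
        rw [hψ.extend_apply]
        exact hbb e
      · rw [Function.extend_apply' _ _ _ h]
        exact (h0 e' fun e he => h ⟨e, he⟩).le
    have h2 := cur_mono (src := src') (tgt := tgt') hb' h1
      (Pi.single (φ y) 1 - Pi.single (φ x) 1)
    rw [cur_extend hφ hψ hs ht (a := Pi.single y 1 - Pi.single x 1)
      (a' := Pi.single (φ y) 1 - Pi.single (φ x) 1) (fun v => by simp [Pi.single_apply, hφ.eq_iff])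
      (fun v' h => by simp [Pi.single_apply, (h _).symm]),
      cur_extend hφ hψ hs ht (a := 0) (a' := 0) (fun _ => rfl) fun _ _ => rfl] at h2
    unfold G
    rw [div_le_div_iff₀ (cur_zero_pos hb') (cur_zero_pos hb)]
    exact h2

namespace O18

/-- monotonicity of the two point function under lattice isometries -/
theorem tp_map {b : ℝ} (hb : 0 ≤ b) {V V' : Finset Pt} (g : Pt → Pt) (hg : Function.Injective g)
    (p : Fin 2 → Fin 2) (hp : Function.Injective p)
    (hd : ∀ i, (∀ u, g (u + latticeDir i) = g u + latticeDir (p i)) ∨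
      ∀ u, g u = g (u + latticeDir i) + latticeDir (p i))
    (hV : ∀ u ∈ V, g u ∈ V') (x y : V) (x' y' : V') (hx : (x' : Pt) = g x) (hy : (y' : Pt) = g y) :
    twoPoint 2 V (fun _ _ => b) x y ≤ twoPoint 2 V' (fun _ _ => b) x' y' := by
  classical
  set S : Fin 2 → Prop := fun i => ∀ u, g (u + latticeDir i) = g u + latticeDir (p i) with hS
  set φ : V → V' := fun u => ⟨g u, hV u u.2⟩ with hφ
  have hm : ∀ e : EF V, ((if S e.1.2 then g e.1.1 else g (e.1.1 + latticeDir e.1.2)), p e.1.2) ∈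
      EF V' := fun e => by
    have h := mem_EF.1 e.2
    refine mem_EF.2 ?_
    by_cases hs : S e.1.2
    · simp only [hs, if_true]
      exact ⟨hV _ h.1, by rw [← hs]; exact hV _ h.2⟩
    · simp only [hs, if_false]
      exact ⟨hV _ h.2, by rw [← (hd _).resolve_left hs]; exact hV _ h.1⟩
  set ψ : EF V → EF V' := fun e => ⟨_, hm e⟩ with hψ
  have e1 : x' = φ x := Subtype.ext hx
  have e2 : y' = φ y := Subtype.ext hy
  rw [twoPoint_eq, twoPoint_eq, e1, e2]
  have h1 : Function.Injective φ := fun u v h => Subtype.ext (hg (congrArg Subtype.val h))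
  have h2 : Function.Injective ψ := fun u v h => by
    have h1 := congrArg Subtype.val h
    simp only [hψ, Prod.mk.injEq] at h1
    have h3 := hp h1.2
    have h4 := h1.1
    rw [← h3] at h4
    refine Subtype.ext (Prod.ext ?_ h3)
    by_cases hs : S u.1.2
    · simp only [hs, if_true] at h4
      exact hg h4
    · simp only [hs, if_false] at h4
      exact add_right_cancel (hg h4)
  refine (embStmt V (EF V) V' (EF V') (sE V) (tE V) (sE V') (tE V') φ ψ (fun _ => b) (fun _ => b)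
    h1 h2 (fun e => ?_) (fun _ => hb) (fun _ => hb)).1 (fun _ => le_rfl) x y
  by_cases hs : S e.1.2
  · left
    refine ⟨Subtype.ext ?_, Subtype.ext ?_⟩
    · simp only [hψ, hφ, sE, hs, if_true]
    · simp only [hψ, hφ, tE, hs, if_true]
      exact (hs _).symm
  · right
    refine ⟨Subtype.ext ?_, Subtype.ext ?_⟩
    · simp only [hψ, hφ, sE, tE, hs, if_false]
    · simp only [hψ, hφ, sE, tE, hs, if_false]
      exact ((hd _).resolve_left hs _).symm

theorem exists_box (S : Finset Pt) (n : ℕ) : ∃ R : ℕ, n ≤ R ∧ ∀ u ∈ S, u ∈ latticeBox R := by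
  refine ⟨n + S.sup fun u => u.1.natAbs + u.2.natAbs, Nat.le_add_right _ _, fun u hu => ?_⟩
  have h : u.1.natAbs + u.2.natAbs ≤ S.sup fun u => u.1.natAbs + u.2.natAbs :=
    Finset.le_sup (f := fun u : Pt => u.1.natAbs + u.2.natAbs) hu
  rw [mem_box]
  omega

/-- two isometries, one the mirror image of the other -/
theorem core {b : ℝ} (hb : 0 < b) {C : ℕ → ℝ} (hC : Top.IsC b C) {V : Finset Pt} (x y : V) (d : ℕ)
    (g : Pt → Pt) (hg : Function.Injective g) (p : Fin 2 → Fin 2) (hp : Function.Injective p)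
    (hd : ∀ i, (∀ u, g (u + latticeDir i) = g u + latticeDir (p i)) ∨
      ∀ u, g u = g (u + latticeDir i) + latticeDir (p i))
    (hx : g x = (0, 0)) (hy : (g y).1 = d) : twoPoint 2 V (fun _ _ => b) x y ^ 2 ≤ C (2 * d) := by
  classical
  set r : Pt → Pt := fun u => (2 * d - u.1, u.2) with hr
  have hri : Function.Injective r := fun u v h => by
    simp only [hr, Prod.mk.injEq] at h
    exact Prod.ext (by omega) h.2
  obtain ⟨R, hR, hS⟩ := exists_box (V.image g ∪ V.image (r ∘ g)) (2 * d)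
  have hg1 : ∀ u ∈ V, g u ∈ latticeBox R := fun u hu =>
    hS _ (mem_union_left _ (mem_image_of_mem _ hu))
  have hg2 : ∀ u ∈ V, (r ∘ g) u ∈ latticeBox R := fun u hu =>
    hS _ (mem_union_right _ (mem_image_of_mem _ hu))
  have hd2 : ∀ i, (∀ u, (r ∘ g) (u + latticeDir i) = (r ∘ g) u + latticeDir (p i)) ∨
      ∀ u, (r ∘ g) u = (r ∘ g) (u + latticeDir i) + latticeDir (p i) := fun i => by
    have q0 : ∀ w : Pt, r w = r (w + (1, 0)) + (1, 0) := fun w =>
      Prod.ext (by simp only [hr, Prod.fst_add]; omega) (by simp only [hr, Prod.snd_add]; omega)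
    have q1 : ∀ w : Pt, r (w + (0, 1)) = r w + (0, 1) := fun w =>
      Prod.ext (by simp only [hr, Prod.fst_add]; omega) (by simp only [hr, Prod.snd_add])
    by_cases h0 : p i = 0
    · have e0 : latticeDir (p i) = (1, 0) := by rw [h0]; rfl
      rw [e0]
      rcases hd i with h | h
      · exact Or.inr fun u => by rw [Function.comp, Function.comp, h u, e0]; exact q0 _
      · refine Or.inl fun u => ?_
        rw [Function.comp, Function.comp, h u, e0]
        exact q0 _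
    · have e0 : latticeDir (p i) = (0, 1) := if_neg h0
      rw [e0]
      rcases hd i with h | h
      · exact Or.inl fun u => by rw [Function.comp, Function.comp, h u, e0]; exact q1 _
      · refine Or.inr fun u => ?_
        rw [Function.comp, Function.comp, h u, e0]
        exact q1 _
  have m0 : ((0 : ℤ), (0 : ℤ)) ∈ latticeBox R := by rw [mem_box]; simp
  have m2 : (((2 * d : ℕ) : ℤ), (0 : ℤ)) ∈ latticeBox R := by rw [mem_box]; simp only; omega
  have a1 := tp_map hb.le g hg p hp hd hg1 x y ⟨_, m0⟩ ⟨_, hg1 y y.2⟩ hx.symm rfl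
  have a2 := tp_map hb.le (r ∘ g) (hri.comp hg) p hp hd2 hg2 y x ⟨_, hg1 y y.2⟩ ⟨_, m2⟩
    (by simp only [Function.comp, hr]; exact Prod.ext (by simp only; omega) rfl)
    (by simp only [Function.comp, hr, hx]; exact Prod.ext (by simp only; omega) rfl)
  rw [twoPoint_comm] at a2
  have a3 := twoPoint_super (V := latticeBox R) (b := fun _ _ => b) (fun _ _ => hb.le) ⟨_, m0⟩
    ⟨_, hg1 y y.2⟩ ⟨_, m2⟩
  have a4 := box_le_C hb.le hC hR
  rw [xyBoxCorrelation, dif_pos hR] at a4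
  have a0 := twoPoint_nonneg (V := V) (b := fun _ _ => b) (fun _ _ => hb.le) x y
  calc _ = twoPoint 2 V (fun _ _ => b) x y * twoPoint 2 V (fun _ _ => b) x y := pow_two _
    _ ≤ _ := mul_le_mul a1 a2 a0 (a0.trans a1)
    _ ≤ _ := a3
    _ ≤ _ := a4

end O18

open O18 in
theorem off2Stmt : Off2Stmt := by
  intro b C hb hC V x y d hd
  have sw : Function.Injective (![1, 0] : Fin 2 → Fin 2) := by decide
  rcases hd with h | h
  · rcases le_total x.1.1 y.1.1 with h1 | h1
    · refine core hb hC x y d (fun u => (u.1 - x.1.1, u.2 - x.1.2)) (fun u v e => ?_) id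
        Function.injective_id (fun i => Or.inl fun u => ?_) (by simp) ?_
      · simp only [Prod.mk.injEq] at e
        exact Prod.ext (by omega) (by omega)
      · simp only [id, Prod.fst_add, Prod.snd_add]
        exact Prod.ext (by simp only [Prod.fst_add]; omega) (by simp only [Prod.snd_add]; omega)
      · simp only
        rw [abs_of_nonpos (by omega)] at h
        omega
    · refine core hb hC x y d (fun u => (x.1.1 - u.1, u.2 - x.1.2)) (fun u v e => ?_) id
        Function.injective_id (fun i => ?_) (by simp) ?_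
      · simp only [Prod.mk.injEq] at e
        exact Prod.ext (by omega) (by omega)
      · fin_cases i
        · right
          intro u
          simp [latticeDir]
          omega
        · left
          intro u
          simp [latticeDir]
          omega
      · simp only
        rw [abs_of_nonneg (by omega)] at h
        omega
  · rcases le_total x.1.2 y.1.2 with h1 | h1
    · refine core hb hC x y d (fun u => (u.2 - x.1.2, u.1 - x.1.1)) (fun u v e => ?_) _ sw
        (fun i => Or.inl fun u => ?_) (by simp) ?_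
      · simp only [Prod.mk.injEq] at e
        exact Prod.ext (by omega) (by omega)
      · fin_cases i <;> simp [latticeDir] <;> omega
      · simp only
        rw [abs_of_nonpos (by omega)] at h
        omega
    · refine core hb hC x y d (fun u => (x.1.2 - u.2, u.1 - x.1.1)) (fun u v e => ?_) _ sw
        (fun i => ?_) (by simp) ?_
      · simp only [Prod.mk.injEq] at e
        exact Prod.ext (by omega) (by omega)
      · fin_cases i
        · left
          intro u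
          simp [latticeDir]
          omega
        · right
          intro u
          simp [latticeDir]
          omega
      · simp only
        rw [abs_of_nonneg (by omega)] at h
        omega

theorem offStmt : OffStmt := by
  intro b C m hb hL V x y s hs
  have hm := m_nonneg hb hL.hC hL.hm
  have key : ∀ d : ℕ, ((d : ℤ) = |x.1.1 - y.1.1| ∨ (d : ℤ) = |x.1.2 - y.1.2|) → s ≤ d →
      twoPoint 2 V (fun _ _ => b) x y ≤ Real.exp (-(m * s)) := fun d hd hsd => by
    have h1 := (off2Stmt b C hb hL.hC V x y d hd).trans (C_le_exp hb hL.hC hL.hm (2 * d))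
    have h2 : Real.exp (-(m * ((2 * d : ℕ) : ℝ))) ≤ Real.exp (-(m * s)) ^ 2 := by
      rw [← Real.exp_nat_mul]
      refine Real.exp_le_exp.2 ?_
      have : (s : ℝ) ≤ d := by exact_mod_cast hsd
      push_cast
      nlinarith
    exact le_of_sq_le_sq (h1.trans h2) (Real.exp_pos _).le
  rcases hs with h | h
  · exact key (x.1.1 - y.1.1).natAbs (Or.inl (Int.natCast_natAbs _))
      (by rw [← Int.natCast_natAbs] at h; exact_mod_cast h)
  · exact key (x.1.2 - y.1.2).natAbs (Or.inr (Int.natCast_natAbs _))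
      (by rw [← Int.natCast_natAbs] at h; exact_mod_cast h)

end Crest.Agent.T145.Mb
end

-- ▼ part T145/MbCov_30
section

/-!
# Row 145, module MB: covariance of the currents through two edges (helper30)
-/

set_option autoImplicit false
set_option linter.unusedSectionVars false

open Finset MeasureTheory

noncomputable section

namespace Crest.Agent.T145.Mb.Cov30

open Xy48

variable {ι E : Type} [Fintype ι] [DecidableEq ι] [Fintype E] [DecidableEq E] {src tgt : E → ι}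
  {b : E → ℝ}

theorem wt_add (b : E → ℝ) (k : E → ℤ) (e : E) (j : ℤ) :
    wt b (k + Pi.single e j) = besI (b e) (k e + j) * ∏ f ∈ univ.erase e, besI (b f) (k f) := by
  rw [wt, ← mul_prod_erase _ _ (mem_univ e)]
  congr 1
  · simp
  · exact prod_congr rfl fun f hf => by simp [Pi.single_eq_of_ne (ne_of_mem_erase hf)]

theorem wt_mul (b : E → ℝ) (k : E → ℤ) (e : E) :
    wt b k * k e = b e / 2 * (wt b (k + Pi.single e (-1)) - wt b (k + Pi.single e 1)) := by
  have h := Tau5.bes_rec (b e) (k e)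
  have h0 := wt_add b k e 0
  rw [Pi.single_zero, add_zero, add_zero] at h0
  rw [bes_eq, sub_eq_add_neg (k e)] at h
  rw [wt_add, wt_add, h0]
  linear_combination (∏ f ∈ univ.erase e, besI (b f) (k f)) / 2 * h

theorem dv_single (e : E) (j : ℤ) :
    Xy48.dv src tgt (Pi.single e j) = j • (Pi.single (src e) 1 - Pi.single (tgt e) 1) := by
  funext v
  rw [Xy48.dv, sum_eq_single e (fun f _ hf => by simp [Pi.single_eq_of_ne hf]) (by simp)]
  simp only [Pi.single_eq_same, Pi.smul_apply, Pi.sub_apply, Pi.single_apply, smul_eq_mul,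
    eq_comm (a := v)]
  split_ifs <;> ring

theorem hasSum_shift (j : E → ℤ) :
    HasSum (fun k => ind (Xy48.dv src tgt k = 0) * wt b (k + j))
      (cur src tgt b (Xy48.dv src tgt j)) := by
  rw [← cur_neg, cur_eq]
  have h := (Equiv.addRight j).hasSum_iff.2
    (summable_cur' (src := src) (tgt := tgt) (b := b) (-Xy48.dv src tgt j)).hasSum
  convert h using 2 with k
  simp only [Function.comp, Equiv.coe_addRight, Xy48.dv_add, neg_add_cancel_comm_assoc]

/-- the Boltzmann factor -/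
def H (src tgt : E → ι) (b : E → ℝ) (σ : ι → S1) : ℝ :=
  Real.exp (∑ e, b e * inner ℝ (σ (src e) : Xy48.E2) (σ (tgt e) : Xy48.E2))

theorem cont_H : Continuous (H src tgt b) := by unfold H; fun_prop

theorem ig {F : (ι → S1) → ℝ} (hF : Continuous F) : Integrable F (Measure.pi fun _ : ι => muS) :=
  hF.integrable_of_hasCompactSupport (HasCompactSupport.of_compactSpace _)

theorem cur_re (a : ι → ℤ) : ∫ σ : ι → S1, (∏ v, cz (σ v) ^ a v).re * H src tgt b σ
    ∂(Measure.pi fun _ => muS) = mS ^ Fintype.card ι * cur src tgt b a := by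
  have h1 := current src tgt b a
  have i1 : Integrable (fun σ : ι → S1 => (∏ v, cz (σ v) ^ a v) * (H src tgt b σ : ℂ))
      (Measure.pi fun _ => muS) :=
    ((continuous_finsetProd _ fun v _ => (continuous_cz_zpow _).comp (continuous_apply v)).mul
      (Complex.continuous_ofReal.comp cont_H)).integrable_of_hasCompactSupport
        (HasCompactSupport.of_compactSpace _)
  have h3 := integral_re i1
  simp only [H] at h3
  rw [h1, ← Complex.ofReal_pow, ← Complex.ofReal_mul] at h3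
  simpa only [RCLike.re_to_complex, Complex.re_mul_ofReal, Complex.ofReal_re, H] using h3

theorem im_nonneg (hb : ∀ e, 0 ≤ b e) (x y : ι) {φ : (ι → ℝ) → ℝ} (hφ : Continuous φ)
    (h0 : ∀ σ : ι → S1, 0 ≤ φ fun v => (cz (σ v)).re) :
    0 ≤ ∫ σ : ι → S1, φ (fun v => (cz (σ v)).re) * ((cz (σ x)).im * (cz (σ y)).im * H src tgt b σ)
      ∂(Measure.pi fun _ => muS) := by
  set F : (ι → S1) → ℝ := fun σ => φ (fun v => (cz (σ v)).re) *
    ((cz (σ x)).im * (cz (σ y)).im * H src tgt b σ) with hF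
  have hz := continuous_cz
  have hH := cont_H (src := src) (tgt := tgt) (b := b)
  have hFc : Continuous F := by rw [hF]; fun_prop
  set T : (ι → Bool) → (ι → S1) → ι → S1 := fun ε σ v => (if ε v then rf else id) (σ v) with hT
  have hT1 : ∀ ε, MeasurePreserving (T ε) (Measure.pi fun _ => muS) (Measure.pi fun _ => muS) :=
    fun ε => measurePreserving_pi _ _ (f := fun v => if ε v then rf else id) fun v => by
      split_ifs
      exacts [mp_isoS _, MeasurePreserving.id _]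
  have h1 : ∀ ε, ∫ σ, F (T ε σ) ∂(Measure.pi fun _ => muS) = ∫ σ, F σ ∂(Measure.pi fun _ => muS) :=
    fun ε => by
      rw [← integral_map (hT1 ε).measurable.aemeasurable hFc.aestronglyMeasurable, (hT1 ε).map_eq]
  have h2 : 0 ≤ ∫ σ, ∑ ε, F (T ε σ) ∂(Measure.pi fun _ => muS) := by
    refine integral_nonneg fun σ => ?_
    have hre : ∀ ε v, (cz (T ε σ v)).re = (cz (σ v)).re := fun ε v => by
      simp only [hT]; split_ifs <;> simp [cz_rf]
    have him : ∀ ε v, (cz (T ε σ v)).im = sv (fun v => (cz (σ v)).im) ε v := fun ε v => by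
      simp only [hT, sv]; split_ifs <;> simp [cz_rf]
    have h3 := mul_nonneg (h0 σ) (mul_nonneg
      (Real.exp_pos (∑ e, b e * ((cz (σ (src e))).re * (cz (σ (tgt e))).re))).le
      (gks (src := src) (tgt := tgt) hb (fun v => (cz (σ v)).im) univ (Pi.single x 1 + Pi.single y 1)))
    rw [mul_sum, mul_sum] at h3
    refine h3.trans_eq (sum_congr rfl fun ε _ => ?_)
    have h : ∀ w : ι, ∏ v, sv (fun v => (cz (σ v)).im) ε v ^ (Pi.single w 1 : ι → ℕ) v =
        sv (fun v => (cz (σ v)).im) ε w := fun w => by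
      rw [prod_eq_single w (fun x _ hx => by rw [Pi.single_eq_of_ne hx, pow_zero]) (by simp)]
      simp
    simp only [hF, H, inner_eq', hre, him, Pi.add_apply, pow_add, prod_mul_distrib, h, mul_add,
      sum_add_distrib, Real.exp_add, ← Real.exp_sum]
    ring
  rw [integral_finsetSum (f := fun ε σ => F (T ε σ)) _
    fun ε _ => (hT1 ε).integrable_comp_of_integrable (ig hFc)] at h2
  simp only [h1, sum_const, nsmul_eq_mul] at h2
  exact nonneg_of_mul_nonneg_right h2 (by exact_mod_cast card_pos.2 univ_nonempty) |> fun h => h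

theorem prod_add' (σ : ι → S1) (a a' : ι → ℤ) :
    ∏ v, cz (σ v) ^ (a + a') v = (∏ v, cz (σ v) ^ a v) * ∏ v, cz (σ v) ^ a' v := by
  simp only [Pi.add_apply, zpow_add₀ (cz_ne _), prod_mul_distrib]

theorem prod_one' (σ : ι → S1) (w : ι) : ∏ v, cz (σ v) ^ (Pi.single w 1 : ι → ℤ) v = cz (σ w) := by
  rw [prod_eq_single w (fun x _ hx => by rw [Pi.single_eq_of_ne hx, zpow_zero]) (by simp)]
  simp

theorem prod_dif (σ : ι → S1) (x y : ι) :
    ∏ v, cz (σ v) ^ (Pi.single x 1 - Pi.single y 1 : ι → ℤ) v =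
      cz (σ x) * (starRingEnd ℂ) (cz (σ y)) := by
  rw [Xy48.prod_single fun v => cz_ne _, Complex.inv_eq_conj (norm_cz _)]

theorem im_le (hb : ∀ e, 0 ≤ b e) (x y : ι) :
    2 * ∫ σ : ι → S1, (cz (σ x)).im * (cz (σ y)).im * H src tgt b σ ∂(Measure.pi fun _ => muS) ≤
      mS ^ Fintype.card ι * cur src tgt b (Pi.single y 1 - Pi.single x 1) := by
  have hz := continuous_cz
  have hH := cont_H (src := src) (tgt := tgt) (b := b)
  have h1 := cur_re (src := src) (tgt := tgt) (b := b) (Pi.single y 1 - Pi.single x 1)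
  have h2 := cur_re (src := src) (tgt := tgt) (b := b) (Pi.single y 1 + Pi.single x 1)
  simp only [prod_dif] at h1
  simp only [prod_add', prod_one'] at h2
  have h3 := mul_nonneg (pow_pos mS_pos (Fintype.card ι)).le
    (cur_nonneg (src := src) (tgt := tgt) hb (Pi.single y 1 + Pi.single x 1))
  rw [← h2] at h3
  rw [← h1, ← integral_const_mul]
  refine le_trans (le_of_eq ?_) (sub_le_self _ h3)
  rw [← integral_sub (ig (by fun_prop)) (ig (by fun_prop))]
  refine integral_congr_ae (ae_of_all _ fun σ => ?_)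
  simp only [Complex.mul_re, Complex.conj_re, Complex.conj_im]
  ring

theorem abs_re_le (s : S1) : |(cz s).re| ≤ 1 := (Complex.abs_re_le_norm _).trans (norm_cz s).le

theorem four_le (hb : ∀ e, 0 ≤ b e) (x y u w : ι) :
    2 * |∫ σ : ι → S1, (cz (σ u)).re * (cz (σ w)).re *
      ((cz (σ x)).im * (cz (σ y)).im * H src tgt b σ) ∂(Measure.pi fun _ => muS)| ≤
      mS ^ Fintype.card ι * cur src tgt b (Pi.single y 1 - Pi.single x 1) := by
  have hz := continuous_cz
  have hH := cont_H (src := src) (tgt := tgt) (b := b)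
  have hp : ∀ σ : ι → S1, |(cz (σ u)).re * (cz (σ w)).re| ≤ 1 := fun σ => by
    rw [abs_mul]; exact mul_le_one₀ (abs_re_le _) (abs_nonneg _) (abs_re_le _)
  have h1 := im_nonneg (src := src) (tgt := tgt) hb x y (φ := fun r => 1 + r u * r w) (by fun_prop)
    fun σ => by linarith [(abs_le.1 (hp σ)).1]
  have h2 := im_nonneg (src := src) (tgt := tgt) hb x y (φ := fun r => 1 - r u * r w) (by fun_prop)
    fun σ => by linarith [(abs_le.1 (hp σ)).2]
  simp only [add_mul, one_mul] at h1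
  simp only [sub_mul, one_mul] at h2
  rw [integral_add (ig (by fun_prop)) (ig (by fun_prop))] at h1
  rw [integral_sub (ig (by fun_prop)) (ig (by fun_prop))] at h2
  refine le_trans ?_ (im_le hb x y)
  exact mul_le_mul_of_nonneg_left (abs_le.2 ⟨by linarith, by linarith⟩) zero_le_two

/-- the four point bound -/
theorem neg_le (hb : ∀ e, 0 ≤ b e) (p q r t : ι) :
    |cur src tgt b (Pi.single p 1 - Pi.single q 1 + (Pi.single r 1 - Pi.single t 1)) -
      cur src tgt b (Pi.single p 1 - Pi.single q 1 + (Pi.single t 1 - Pi.single r 1))| ≤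
      cur src tgt b (Pi.single r 1 - Pi.single p 1) + cur src tgt b (Pi.single t 1 - Pi.single p 1) +
      cur src tgt b (Pi.single r 1 - Pi.single q 1) + cur src tgt b (Pi.single t 1 - Pi.single q 1) := by
  have hz := continuous_cz
  have hH := cont_H (src := src) (tgt := tgt) (b := b)
  have h1 := cur_re (src := src) (tgt := tgt) (b := b)
    (Pi.single p 1 - Pi.single q 1 + (Pi.single r 1 - Pi.single t 1))
  have h2 := cur_re (src := src) (tgt := tgt) (b := b)
    (Pi.single p 1 - Pi.single q 1 + (Pi.single t 1 - Pi.single r 1))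
  simp only [prod_add', prod_dif] at h1 h2
  have a1 := four_le (src := src) (tgt := tgt) hb p r q t
  have a2 := four_le (src := src) (tgt := tgt) hb p t q r
  have a3 := four_le (src := src) (tgt := tgt) hb q r p t
  have a4 := four_le (src := src) (tgt := tgt) hb q t p r
  refine le_of_mul_le_mul_left ?_ (pow_pos mS_pos (Fintype.card ι))
  rw [← abs_of_pos (pow_pos mS_pos (Fintype.card ι)), ← abs_mul, mul_sub, ← h1, ← h2,
    abs_of_pos (pow_pos mS_pos (Fintype.card ι)), ← integral_sub (ig (by fun_prop)) (ig (by fun_prop))]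
  generalize hA : (fun σ : ι → S1 => (cz (σ q)).re * (cz (σ t)).re *
    ((cz (σ p)).im * (cz (σ r)).im * H src tgt b σ)) = A at a1
  generalize hB : (fun σ : ι → S1 => (cz (σ q)).re * (cz (σ r)).re *
    ((cz (σ p)).im * (cz (σ t)).im * H src tgt b σ)) = B at a2
  generalize hC : (fun σ : ι → S1 => (cz (σ p)).re * (cz (σ t)).re *
    ((cz (σ q)).im * (cz (σ r)).im * H src tgt b σ)) = C at a3
  generalize hD : (fun σ : ι → S1 => (cz (σ p)).re * (cz (σ r)).re *
    ((cz (σ q)).im * (cz (σ t)).im * H src tgt b σ)) = D at a4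
  have iA : Integrable A (Measure.pi fun _ => muS) := hA ▸ ig (by fun_prop)
  have iB : Integrable B (Measure.pi fun _ => muS) := hB ▸ ig (by fun_prop)
  have iC : Integrable C (Measure.pi fun _ => muS) := hC ▸ ig (by fun_prop)
  have iD : Integrable D (Measure.pi fun _ => muS) := hD ▸ ig (by fun_prop)
  rw [integral_congr_ae (g := fun σ => -2 * (A σ - B σ - C σ + D σ)) (ae_of_all _ fun σ => by
    simp only [← hA, ← hB, ← hC, ← hD, Complex.mul_re, Complex.mul_im, Complex.conj_re,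
      Complex.conj_im]
    ring), integral_const_mul, integral_add (f := fun σ => A σ - B σ - C σ) ((iA.sub iB).sub iC) iD,
    integral_sub (f := fun σ => A σ - B σ) (iA.sub iB) iC, integral_sub iA iB, abs_le]
  have := abs_le.1 (le_refl |∫ σ, A σ ∂(Measure.pi fun _ => muS)|)
  have := abs_le.1 (le_refl |∫ σ, B σ ∂(Measure.pi fun _ => muS)|)
  have := abs_le.1 (le_refl |∫ σ, C σ ∂(Measure.pi fun _ => muS)|)
  have := abs_le.1 (le_refl |∫ σ, D σ ∂(Measure.pi fun _ => muS)|)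
  constructor <;> linarith

end Crest.Agent.T145.Mb.Cov30

namespace Crest.Agent.T145.Mb

open Xy48 Cov30

theorem covStmt : CovStmt := by
  intro ι E _ _ _ src tgt b hb e e' hne
  classical
  have hs := fun i j : ℤ =>
    hasSum_shift (src := src) (tgt := tgt) (b := b) (Pi.single e i + Pi.single e' j)
  simp only [Xy48.dv_add, dv_single] at hs
  have h := ((((hs (-1) (-1)).sub (hs (-1) 1)).sub (hs 1 (-1))).add (hs 1 1)).mul_left
    (b e * b e' / 4)
  have h1 : ∀ k : E → ℤ, ind (Xy48.dv src tgt k = 0) * wt b k * ((k e : ℝ) * (k e' : ℝ)) =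
      b e * b e' / 4 * (ind (Xy48.dv src tgt k = 0) * wt b (k + (Pi.single e (-1) + Pi.single e' (-1))) -
        ind (Xy48.dv src tgt k = 0) * wt b (k + (Pi.single e (-1) + Pi.single e' 1)) -
        ind (Xy48.dv src tgt k = 0) * wt b (k + (Pi.single e 1 + Pi.single e' (-1))) +
        ind (Xy48.dv src tgt k = 0) * wt b (k + (Pi.single e 1 + Pi.single e' 1))) := fun k => by
    have a0 := wt_mul b k e
    have a1 := wt_mul b (k + Pi.single e (-1)) e'
    have a2 := wt_mul b (k + Pi.single e 1) e'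
    rw [Pi.add_apply, Pi.single_eq_of_ne hne.symm, add_zero, add_assoc, add_assoc] at a1 a2
    linear_combination ind (Xy48.dv src tgt k = 0) * ((k e' : ℝ) * a0 + b e / 2 * (a1 - a2))
  rw [tsum_congr h1, h.tsum_eq]
  have h2 := neg_le (src := src) (tgt := tgt) hb (src e) (tgt e) (src e') (tgt e')
  have h3 := cur_zero_pos (src := src) (tgt := tgt) hb
  simp only [neg_smul, one_smul]
  rw [← neg_add, cur_neg, ← cur_neg src tgt b (-_ + _), neg_add, neg_neg, neg_sub]
  have h4 := mul_nonneg (hb e) (hb e')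
  simp only [G]
  rw [mul_assoc, add_mul, add_mul, add_mul, div_mul_cancel₀ _ h3.ne', div_mul_cancel₀ _ h3.ne',
    div_mul_cancel₀ _ h3.ne', div_mul_cancel₀ _ h3.ne', abs_mul, abs_of_nonneg (by positivity)]
  have h5 := mul_le_mul_of_nonneg_left h2 h4
  rw [show ∀ x y : ℝ, x - y - y + x = 2 * (x - y) from fun _ _ => by ring, abs_mul, abs_two]
  linarith

end Crest.Agent.T145.Mb
end
end

-- ▼ part T145/MbWir_56
section

/-!
# Row 145, module MB: gradients of the free box are the divergence free currents of the wired dual (helper56)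
-/

set_option autoImplicit false

namespace Crest.Agent.T145.Mb

open Finset

namespace W56

theorem mem_ed {l : ℕ} {e : Pt × Pt} : e ∈ nnL.edI (sq 0 l) ↔
    (e.2 = e.1 + (1, 0) ∨ e.2 = e.1 + (0, 1)) ∧ e.1 ∈ sq (0 : Pt) l ∧ e.2 ∈ sq (0 : Pt) l := by
  rw [Lat.mem_edI, show nnL.Jp = {(1, 0), (0, 1)} from xyL_Jp 1, mem_insert, mem_singleton,
    sub_eq_iff_eq_add', sub_eq_iff_eq_add']

/-- extension by zero -/
noncomputable def kx {l : ℕ} (k : Ed l → ℤ) (e : Pt × Pt) : ℤ :=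
  if h : e ∈ nnL.edI (sq 0 l) then k ⟨e, h⟩ else 0

theorem kx_coe {l : ℕ} (k : Ed l → ℤ) (e : Ed l) : kx k e.1 = k e := dif_pos e.2

theorem sum_ite_kx {l : ℕ} (k : Ed l → ℤ) (e₀ : Pt × Pt) :
    ∑ e : Ed l, (if e.1 = e₀ then k e else 0) = kx k e₀ := by
  by_cases h : e₀ ∈ nnL.edI (sq 0 l)
  · rw [sum_eq_single ⟨e₀, h⟩ (fun e _ he => if_neg fun h' => he (Subtype.ext h')) (by simp),
      if_pos rfl, kx, dif_pos h]
  · rw [kx, dif_neg h]
    exact sum_eq_zero fun e _ => if_neg fun h' : e.1 = e₀ => h (h' ▸ e.2)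

theorem pl_eq_some {l : ℕ} {p q : Pt} (hp : p ∈ sq (0 : Pt) (l - 1)) :
    pl l q = some ⟨p, hp⟩ ↔ q = p := by
  unfold pl
  split_ifs with h
  · simp
  · exact iff_of_false (by simp) fun h' => h (h' ▸ hp)

theorem ws_iff {l : ℕ} (e : Ed l) {p : Pt} (hp : p ∈ sq (0 : Pt) (l - 1)) :
    ws l e = some ⟨p, hp⟩ ↔
      e.1 = (p, p + (1, 0)) ∨ e.1 = (p + (1, 0), p + (1, 0) + (0, 1)) := by
  have h1 := (mem_ed.1 e.2).1
  unfold ws
  split_ifs with h <;> rw [pl_eq_some] <;>
    simp only [Prod.ext_iff, Prod.fst_add, Prod.snd_add, Prod.fst_sub, Prod.snd_sub] at h h1 ⊢ <;>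
    omega

theorem wg_iff {l : ℕ} (e : Ed l) {p : Pt} (hp : p ∈ sq (0 : Pt) (l - 1)) :
    wg l e = some ⟨p, hp⟩ ↔
      e.1 = (p + (0, 1), p + (0, 1) + (1, 0)) ∨ e.1 = (p, p + (0, 1)) := by
  have h1 := (mem_ed.1 e.2).1
  unfold wg
  split_ifs with h <;> rw [pl_eq_some] <;>
    simp only [Prod.ext_iff, Prod.fst_add, Prod.snd_add, Prod.fst_sub, Prod.snd_sub] at h h1 ⊢ <;>
    omega

theorem ite_or' {α : Type*} [DecidableEq α] {u a b : α} (hab : a ≠ b) {P : Prop} [Decidable P]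
    (h : P ↔ u = a ∨ u = b) (x : ℤ) :
    (if P then x else 0) = (if u = a then x else 0) + if u = b then x else 0 := by
  by_cases h1 : u = a <;> by_cases h2 : u = b
  · exact absurd (h1.symm.trans h2) hab
  all_goals simp [h, h1, h2, hab, hab.symm]

/-- the divergence at a plaquette is the circulation around it -/
theorem dv_some {l : ℕ} (k : Ed l → ℤ) {p : Pt} (hp : p ∈ sq (0 : Pt) (l - 1)) :
    Xy48.dv (ws l) (wg l) k (some ⟨p, hp⟩) =
      kx k (p, p + (1, 0)) + kx k (p + (1, 0), p + (1, 0) + (0, 1)) -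
        (kx k (p + (0, 1), p + (0, 1) + (1, 0)) + kx k (p, p + (0, 1))) := by
  rw [← sum_ite_kx, ← sum_ite_kx, ← sum_ite_kx, ← sum_ite_kx, ← sum_add_distrib,
    ← sum_add_distrib, ← sum_sub_distrib, Xy48.dv]
  refine sum_congr rfl fun e _ => ?_
  rw [ite_or' (by simp [Prod.ext_iff]) (ws_iff e hp), ite_or' (by simp [Prod.ext_iff]) (wg_iff e hp)]

theorem plaq {l : ℕ} {p : Pt} (hp : p ∈ sq (0 : Pt) (l - 1)) :
    (p, p + (1, 0)) ∈ nnL.edI (sq 0 l) ∧ (p + (1, 0), p + (1, 0) + (0, 1)) ∈ nnL.edI (sq 0 l) ∧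
      (p + (0, 1), p + (0, 1) + (1, 0)) ∈ nnL.edI (sq 0 l) ∧ (p, p + (0, 1)) ∈ nnL.edI (sq 0 l) := by
  simp only [mem_ed, mem_sq, Prod.fst_add, Prod.snd_add, Prod.fst_zero, Prod.snd_zero, true_or,
    or_true, true_and] at hp ⊢
  omega

theorem dv_eq_zero {l : ℕ} {k : Ed l → ℤ}
    (h : ∀ p hp, Xy48.dv (ws l) (wg l) k (some ⟨p, hp⟩) = 0) : Xy48.dv (ws l) (wg l) k = 0 := by
  funext v
  rcases v with _ | ⟨p, hp⟩
  · have := Xy48.sum_dv (src := ws l) (tgt := wg l) k
    rwa [Fintype.sum_option, sum_eq_zero fun p _ => h p.1 p.2, add_zero] at this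
  · exact h p hp

theorem dv_grad (l : ℕ) (s : Cfg Pt) : Xy48.dv (ws l) (wg l) (fun e => dE e.1 s) = 0 :=
  dv_eq_zero fun p hp => by
    obtain ⟨h1, h2, h3, h4⟩ := plaq hp
    rw [dv_some, kx, kx, kx, kx, dif_pos h1, dif_pos h2, dif_pos h3, dif_pos h4]
    simp only [dE, add_right_comm p (0, 1) (1, 0)]
    ring

theorem grad_inj {l : ℕ} (hl : 1 ≤ l) {s t : Cfg Pt}
    (hs : ∀ x, x ∉ (sq (0 : Pt) l).erase 0 → s x = 0)
    (ht : ∀ x, x ∉ (sq (0 : Pt) l).erase 0 → t x = 0)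
    (h : ∀ e : Ed l, dE e.1 s = dE e.1 t) : s = t := by
  ext x
  by_cases hx : x ∈ sq (0 : Pt) l
  · have h0 : (0 : Pt) ∈ sq (0 : Pt) l := by rw [mem_sq]; simp only [Prod.fst_zero, Prod.snd_zero]; omega
    refine Md.conn_ind (P := fun v => s v = t v) (fun e he => ?_)
      ((xyL_ok one_pos).conn_sq h0 hx) (by rw [hs 0 (by simp), ht 0 (by simp)])
    have := h ⟨e, he⟩
    simp only [dE] at this
    omega
  · rw [hs x fun h' => hx (mem_of_mem_erase h'), ht x fun h' => hx (mem_of_mem_erase h')]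

/-- the potential of a current -/
noncomputable def pot {l : ℕ} (k : Ed l → ℤ) (i j : ℕ) : ℤ :=
  ∑ a ∈ range i, kx k (((a : ℤ), 0), ((a : ℤ) + 1, 0)) +
    ∑ c ∈ range j, kx k (((i : ℤ), (c : ℤ)), ((i : ℤ), (c : ℤ) + 1))

theorem pot_up {l : ℕ} (k : Ed l → ℤ) (i j : ℕ) :
    pot k i (j + 1) - pot k i j = kx k (((i : ℤ), (j : ℤ)), ((i : ℤ), (j : ℤ) + 1)) := by
  simp only [pot, sum_range_succ]; ring

theorem pot_right {l : ℕ} {k : Ed l → ℤ} (hk : Xy48.dv (ws l) (wg l) k = 0) {i : ℕ}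
    (hi : i + 1 < l) (j : ℕ) (hj : j < l) :
    pot k (i + 1) j - pot k i j = kx k (((i : ℤ), (j : ℤ)), ((i : ℤ) + 1, (j : ℤ))) := by
  induction j with
  | zero => simp [pot, sum_range_succ]
  | succ j ih =>
    have hp : (((i : ℤ), (j : ℤ)) : Pt) ∈ sq (0 : Pt) (l - 1) := by
      rw [mem_sq]; simp only [Prod.fst_zero, Prod.snd_zero]; omega
    have h1 := dv_some k hp
    have h2 := pot_up k i j
    have h3 := pot_up k (i + 1) j
    have h4 := ih (by omega)
    rw [hk] at h1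
    simp only [Prod.mk_add_mk, add_zero, Pi.zero_apply] at h1
    push_cast at h3 ⊢
    omega

theorem exists_grad {l : ℕ} {k : Ed l → ℤ} (hk : Xy48.dv (ws l) (wg l) k = 0) :
    ∃ s : Cfg Pt, (∀ x, x ∉ (sq (0 : Pt) l).erase 0 → s x = 0) ∧ (fun e : Ed l => dE e.1 s) = k := by
  refine ⟨Finsupp.onFinset (sq 0 l)
    (fun x => if x ∈ sq (0 : Pt) l then pot k x.1.toNat x.2.toNat else 0)
    fun x hx => by by_contra h; exact hx (if_neg h), fun x hx => ?_, funext fun e => ?_⟩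
  · rw [Finsupp.onFinset_apply]
    split_ifs with h
    · have : x = 0 := by by_contra h0; exact hx (mem_erase.2 ⟨h0, h⟩)
      subst this
      simp [pot]
    · rfl
  · rw [← kx_coe k e]
    obtain ⟨⟨⟨a, b⟩, y⟩, he⟩ := e
    obtain ⟨h1, h2, h3⟩ := mem_ed.1 he
    simp only [dE, Finsupp.onFinset_apply] at h2 h3 ⊢
    rw [if_pos h2, if_pos h3]
    rw [mem_sq] at h2 h3
    simp only [Prod.fst_zero, Prod.snd_zero] at h1 h2 h3
    obtain ⟨i, rfl⟩ := Int.eq_ofNat_of_zero_le h2.1.1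
    obtain ⟨j, rfl⟩ := Int.eq_ofNat_of_zero_le h2.2.1
    rcases h1 with rfl | rfl
    · simp only [Prod.mk_add_mk, add_zero] at h3 ⊢
      rw [← pot_right hk (by omega) j (by omega)]
      simp
    · simp only [Prod.mk_add_mk, add_zero] at h3 ⊢
      rw [← pot_up]
      simp

theorem WN_eq (b : ℝ) (l : ℕ) (s : Cfg Pt) : (xyL b).WN l s =
    ind (∀ x, x ∉ (sq (0 : Pt) l).erase 0 → s x = 0) *
      Xy48.wt (fun _ : Ed l => b) fun e => dE e.1 s := by
  rw [Xy48.wt, prod_coe_sort (nnL.edI (sq 0 l)) fun e => Xy48.besI b (dE e s)]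
  simp only [Lat.WN, Lat.Nr, Lat.N, Mdl.W, Mdl.free, prod_const_one, mul_one]
  rfl

end W56

open W56 in
theorem wirStmt : WirStmt := by
  intro b l hl F
  let S : Set (Cfg Pt) := {s | ∀ x, x ∉ (sq (0 : Pt) l).erase 0 → s x = 0}
  let i : S → Ed l → ℤ := fun s e => dE e.1 s.1
  have hi : Function.Injective i := fun s t h =>
    Subtype.ext (grad_inj hl s.2 t.2 fun e => congrFun h e)
  rw [← hi.tsum_eq (f := fun k => ind (Xy48.dv (ws l) (wg l) k = 0) * Xy48.wt (fun _ => b) k * F k)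
    fun k hk => by
      obtain ⟨s, hs, rfl⟩ := exists_grad
        (ind_ne_zero.1 (left_ne_zero_of_mul (left_ne_zero_of_mul hk)))
      exact ⟨⟨s, hs⟩, rfl⟩,
    ← tsum_subtype_eq_of_support_subset (s := S) fun s hs => by
      rw [Function.mem_support, WN_eq] at hs
      exact ind_ne_zero.1 (left_ne_zero_of_mul (left_ne_zero_of_mul hs))]
  refine tsum_congr fun s => ?_
  have h1 : ∀ x, x ∉ (sq (0 : Pt) l).erase 0 → s.1 x = 0 := s.2
  rw [WN_eq, ind_pos h1, ind_pos (dv_grad l s.1)]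

end Crest.Agent.T145.Mb
end

-- ▼ part T145/MbDec_93
section

/-!
# Row 145, module MB: decay in the bulk of the wired graph (helper93)
-/

set_option autoImplicit false

open Finset Filter Topology Crest.ProbabilityR.SpinModel

namespace Crest.Agent.T145.Mb

open Xy48

namespace D93
variable {l : ℕ}

/-- the names of the two plaquettes of an edge -/
def aS (e : Pt × Pt) : Pt := if e.2 = e.1 + (1, 0) then e.1 else e.1 - (1, 0)
def aT (e : Pt × Pt) : Pt := if e.2 = e.1 + (1, 0) then e.1 - (0, 1) else e.1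

theorem ws_eq (e : Ed l) : ws l e = pl l (aS e.1) := by unfold ws aS; split_ifs <;> rfl
theorem wg_eq (e : Ed l) : wg l e = pl l (aT e.1) := by unfold wg aT; split_ifs <;> rfl

theorem nn_Jp : nnL.Jp = {(1, 0), (0, 1)} := by decide

theorem mem_Ed {e : Pt × Pt} : e ∈ nnL.edI (sq 0 l) ↔
    (e.2 = e.1 + (1, 0) ∨ e.2 = e.1 + (0, 1)) ∧ e.1 ∈ sq 0 l ∧ e.2 ∈ sq 0 l := by
  rw [Lat.mem_edI, nn_Jp, mem_insert, mem_singleton, sub_eq_iff_eq_add', sub_eq_iff_eq_add']

theorem pl_inj {q a : Pt} (hq : q ∈ sq (0 : Pt) (l - 1)) (h : pl l a = pl l q) : a = q := by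
  unfold pl at h
  rw [dif_pos hq] at h
  split_ifs at h with ha
  · exact congrArg Subtype.val (Option.some.inj h)

theorem card_le (V : Finset Pt) (a : Pt × Pt → Pt)
    (ha : ∀ e e' : Ed l, a e.1 = a e'.1 → (e.1.2 = e.1.1 + (1, 0) ↔ e'.1.2 = e'.1.1 + (1, 0)) →
      e.1.1 = e'.1.1) : ∑ e : Ed l, ind (a e.1 ∈ V) ≤ 2 * (V.card : ℝ) := by
  classical
  simp only [ind_eq_ite]
  rw [sum_boole]
  have h : (univ.filter fun e : Ed l => a e.1 ∈ V).card ≤ ((univ : Finset Bool) ×ˢ V).card := by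
    refine card_le_card_of_injOn (fun e => (decide (e.1.2 = e.1.1 + (1, 0)), a e.1))
      (fun e he => ?_) fun e _ e' _ h => ?_
    · exact mem_coe.2 (mem_product.2 ⟨mem_univ _, (mem_filter.1 he).2⟩)
    · simp only [Prod.mk.injEq, decide_eq_decide] at h
      have h1 := ha e e' h.2 h.1
      refine Subtype.ext (Prod.ext h1 ?_)
      have h2 := (mem_Ed.1 e.2).1
      have h3 := (mem_Ed.1 e'.2).1
      by_cases h4 : e.1.2 = e.1.1 + (1, 0)
      · rw [h4, h.1.1 h4, h1]
      · rw [h2.resolve_left h4, h3.resolve_left fun h5 => h4 (h.1.2 h5), h1]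
  rw [card_product, card_univ, Fintype.card_bool] at h
  exact_mod_cast h

theorem card_S (V : Finset Pt) : ∑ e : Ed l, ind (aS e.1 ∈ V) ≤ 2 * (V.card : ℝ) :=
  card_le V aS fun e e' h1 h2 => by
    unfold aS at h1
    by_cases h : e.1.2 = e.1.1 + (1, 0)
    · rwa [if_pos h, if_pos (h2.1 h)] at h1
    · rwa [if_neg h, if_neg fun h' => h (h2.2 h'), sub_left_inj] at h1

theorem card_T (V : Finset Pt) : ∑ e : Ed l, ind (aT e.1 ∈ V) ≤ 2 * (V.card : ℝ) :=
  card_le V aT fun e e' h1 h2 => by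
    unfold aT at h1
    by_cases h : e.1.2 = e.1.1 + (1, 0)
    · rwa [if_pos h, if_pos (h2.1 h), sub_left_inj] at h1
    · rwa [if_neg h, if_neg fun h' => h (h2.2 h')] at h1

theorem adj (e : Pt × Pt) : |(aS e).1 - (aT e).1| ≤ 1 ∧ |(aS e).2 - (aT e).2| ≤ 1 := by
  unfold aS aT; split_ifs <;> simp

/-- the height edge crossed by a lattice edge of plaquettes -/
def cr (q : Pt × Fin 2) : Pt × Pt := (q.1 + latticeDir q.2, q.1 + (1, 1))

theorem cr_zero (u : Pt) : aS (cr (u, 0)) = u ∧ aT (cr (u, 0)) = u + latticeDir 0 := by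
  have : ¬ (cr (u, 0)).2 = (cr (u, 0)).1 + (1, 0) := by simp [cr, latticeDir, Prod.ext_iff]
  rw [aS, aT, if_neg this, if_neg this]
  simp [cr, latticeDir]

theorem cr_one (u : Pt) : aS (cr (u, 1)) = u + latticeDir 1 ∧ aT (cr (u, 1)) = u := by
  have : (cr (u, 1)).2 = (cr (u, 1)).1 + (1, 0) := by simp [cr, latticeDir, Prod.ext_iff]
  rw [aS, aT, if_pos this, if_pos this]
  simp [cr, latticeDir]

theorem cr_inj : Function.Injective cr := by
  rintro ⟨u, i⟩ ⟨v, j⟩ h
  simp only [cr, Prod.mk.injEq, add_left_inj] at h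
  obtain ⟨h, rfl⟩ := h
  fin_cases i <;> fin_cases j <;> simp_all [latticeDir]

theorem cr_mem {u : Pt} (hu : u ∈ sq (0 : Pt) (l - 1)) (i : Fin 2) :
    cr (u, i) ∈ nnL.edI (sq 0 l) := by
  rw [mem_Ed]
  simp only [mem_sq, Prod.fst_zero, Prod.snd_zero, zero_add] at hu ⊢
  fin_cases i <;> simp [cr, latticeDir, Prod.ext_iff] <;> omega

theorem exists_cr {V : Finset Pt} (e : Ed l) (h1 : aS e.1 ∈ V) (h2 : aT e.1 ∈ V) :
    ∃ q ∈ EF V, cr q = e.1 := by
  obtain ⟨⟨x, y⟩, he⟩ := e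
  unfold aS at h1
  unfold aT at h2
  by_cases h : y = x + (1, 0)
  · simp only [h, if_true] at h1 h2
    exact ⟨(x - (0, 1), 1), mem_EF.2 ⟨h2, by simpa [latticeDir] using h1⟩, by
      simp [cr, latticeDir, h, Prod.ext_iff]⟩
  · simp only [h, if_false] at h1 h2
    have h3 : y = x + (0, 1) := (mem_Ed.1 he).1.resolve_left h
    exact ⟨(x - (1, 0), 0), mem_EF.2 ⟨h1, by simpa [latticeDir] using h2⟩, by
      simp [cr, latticeDir, h3, Prod.ext_iff]⟩

/-- the free ball inside the wired graph -/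
theorem G_le (hE : EmbStmt) {b : ℝ} (hb : 0 < b) {V : Finset Pt} (hV : V ⊆ sq 0 (l - 1))
    {B : Finset (Pl l)} (hB : ∀ a, pl l a ∈ B ↔ a ∈ V) (x y : V) :
    G (ws l) (wg l) (bIn (ws l) (wg l) (fun _ => b) B) (pl l x) (pl l y) ≤
      twoPoint 2 V (fun _ _ => b) x y := by
  rw [twoPoint_eq]
  refine (hE V (EF V) (Pl l) (Ed l) (sE V) (tE V) (ws l) (wg l) (fun u => pl l u)
    (fun q => ⟨cr q.1, cr_mem (hV (mem_EF.1 q.2).1) _⟩) (fun _ => b)
    (bIn (ws l) (wg l) (fun _ => b) B) (fun u v h => Subtype.ext (pl_inj (hV v.2) h))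
    (fun q q' h => Subtype.ext (cr_inj (congrArg Subtype.val h))) (fun q => ?_) (fun _ => hb.le)
    (fun e => ?_)).2 (fun q => ?_) (fun e he => ?_) x y
  · obtain ⟨⟨u, i⟩, hq⟩ := q
    rw [ws_eq, wg_eq]
    fin_cases i
    · exact Or.inl ⟨congrArg _ (cr_zero u).1, congrArg _ (cr_zero u).2⟩
    · exact Or.inr ⟨congrArg _ (cr_one u).1, congrArg _ (cr_one u).2⟩
  · unfold bIn; split_ifs; exacts [hb.le, le_rfl]
  · unfold bIn; split_ifs; exacts [le_rfl, hb.le]
  · refine if_neg fun h => ?_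
    rw [ws_eq, wg_eq, hB, hB] at h
    obtain ⟨q, hq, h⟩ := exists_cr e h.1 h.2
    exact he ⟨q, hq⟩ (Subtype.ext h)

end D93

open D93 in
theorem decStmt (hL : LiebStmt) (hE : EmbStmt) (hO : OffStmt) : DecStmt := by
  classical
  intro b C m hb hm l s p c hV hc
  set V := bl p s with hVd
  set B : Finset (Pl l) := V.image (pl l) with hBd
  have hB : ∀ a, pl l a ∈ B ↔ a ∈ V := fun a =>
    ⟨fun h => by obtain ⟨q, hq, h⟩ := mem_image.1 h; rwa [pl_inj (hV hq) h.symm],
      mem_image_of_mem _⟩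
  have hp : p ∈ V := by simp [hVd, mem_bl_abs]
  set ε := Real.exp (-(m * s)) with hε
  have hε0 : 0 ≤ ε := (Real.exp_pos _).le
  have hG0 : ∀ x y, 0 ≤ G (ws l) (wg l) (fun _ => b) x y := fun x y =>
    div_nonneg (cur_nonneg (fun _ => hb.le) _) (cur_nonneg (fun _ => hb.le) _)
  have hG1 : ∀ x y, G (ws l) (wg l) (fun _ => b) x y ≤ 1 := fun x y =>
    (div_le_one (cur_zero_pos fun _ => hb.le)).2 (cur_le _)
  have key : ∀ (q q' : Pt) (y : Pl l), |q.1 - q'.1| ≤ 1 → |q.2 - q'.2| ≤ 1 →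
      ind (pl l q ∈ B ∧ pl l q' ∉ B) * (G (ws l) (wg l) (bIn (ws l) (wg l) (fun _ => b) B)
        (pl l p) (pl l q) * G (ws l) (wg l) (fun _ => b) y c) ≤ ind (q ∈ V) * ε := by
    intro q q' y h1 h2
    by_cases h : pl l q ∈ B ∧ pl l q' ∉ B
    · rw [ind_pos h]
      rw [hB, hB] at h
      rw [ind_pos h.1, one_mul, one_mul]
      have h3 := (G_le hE hb hV hB ⟨p, hp⟩ ⟨q, h.1⟩).trans (hO b C m hb hm V ⟨p, hp⟩ ⟨q, h.1⟩ s (by
        obtain ⟨h4, h5⟩ := h
        rw [hVd, mem_bl_abs] at h4 h5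
        simp only [abs_le, le_abs] at *
        omega))
      exact (mul_le_mul h3 (hG1 _ _) (hG0 _ _) hε0).trans_eq (mul_one _)
    · rw [ind_neg h, zero_mul]; exact mul_nonneg (ind_nonneg _) hε0
  have h1 := hL _ _ (ws l) (wg l) (fun _ => b) (fun _ => hb.le) B (pl l p) c ((hB p).2 hp)
    fun h => by obtain ⟨q, hq, h⟩ := mem_image.1 h; exact hc q hq h.symm
  refine h1.trans ((sum_le_sum (g := fun e : Ed l =>
    b / 2 * (ind (aS e.1 ∈ V) * ε + ind (aT e.1 ∈ V) * ε)) fun e _ => ?_).trans ?_)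
  · refine mul_le_mul_of_nonneg_left (add_le_add ?_ ?_) (by positivity)
    · rw [ws_eq e, wg_eq e]; exact key _ _ _ (adj e.1).1 (adj e.1).2
    · rw [ws_eq e, wg_eq e]
      exact key _ _ _ (by rw [abs_sub_comm]; exact (adj e.1).1)
        (by rw [abs_sub_comm]; exact (adj e.1).2)
  · rw [← mul_sum, sum_add_distrib, ← sum_mul, ← sum_mul]
    have h2 := card_S (l := l) V
    have h3 := card_T (l := l) V
    have h4 : (V.card : ℝ) = (2 * s + 1) ^ 2 := by rw [hVd, card_bl]; push_cast; ring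
    rw [h4] at h2 h3
    nlinarith [mul_le_mul_of_nonneg_right (add_le_add h2 h3) (mul_nonneg hb.le hε0)]

end Crest.Agent.T145.Mb
end

-- ▼ part T145/MbAll_25
section

/-!
# Row 145, module MB (helper25): assembly
-/

set_option autoImplicit false

namespace Crest.Agent.T145.Mb

/-- **P5** -/
theorem p5 (ha : T1aStmt) (hd : T1dStmt) (hm : T1mStmt) (h2 : T2Stmt) (hS : Step2Stmt) :
    Top.MassLoStmt :=
  massLoStmt hm hd (exitGStmt hS hd (badGStmt_25 ha hd h2) y0Stmt_25) massStmt off2Stmt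

theorem dec : DecStmt := decStmt liebStmt embStmt offStmt

/-- **P4** from the variance estimate -/
theorem p4_of (h : CovStmt → WirStmt → DecStmt → LowStmt) : Top.MassUpStmt :=
  massUpStmt (h covStmt wirStmt dec)

end Crest.Agent.T145.Mb
end

-- ▼ part T145/MbLow_37
section

/-!
# Row 145, module MB, leaf LOW (helper37): a mass kills the stiffness of the free box
-/

set_option autoImplicit false

namespace Crest.Agent.T145.Mb

open Finset

namespace W37

theorem tele (f : ℤ → ℝ) (n : ℕ) : ∑ i ∈ Ico (0 : ℤ) n, (f (i + 1) - f i) = f n - f 0 := by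
  induction n with
  | zero => simp
  | succ n ih =>
    rw [Nat.cast_succ, ← insert_Ico_right_eq_Ico_add_one (by omega), sum_insert (by simp), ih]
    ring

theorem walk (f : ℤ → ℝ) {ε : ℝ} (n : ℕ) (h : ∀ i : ℤ, 0 ≤ i → i < n → |f (i + 1) - f i| ≤ ε) :
    |f n - f 0| ≤ n * ε := by
  rw [← tele]
  refine (abs_sum_le_sum_abs _ _).trans ((sum_le_card_nsmul _ _ ε fun i hi => ?_).trans ?_)
  · rw [mem_Ico] at hi; exact h i hi.1 hi.2
  · simp

theorem mem_ed {b : ℝ} {l : ℕ} {e : Pt × Pt} : e ∈ (xyL b).edI (sq 0 l) ↔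
    (e.2 = e.1 + (1, 0) ∨ e.2 = e.1 + (0, 1)) ∧ e.1 ∈ sq (0 : Pt) l ∧ e.2 ∈ sq (0 : Pt) l := by
  rw [Lat.mem_edI, xyL_Jp, mem_insert, mem_singleton, sub_eq_iff_eq_add', sub_eq_iff_eq_add']

/-- the two dual ends of an edge are named by points next to its base point -/
theorem ends {l : ℕ} (e : Ed l) (c : Pl l) (hc : c = ws l e ∨ c = wg l e) :
    ∃ p : Pt, c = pl l p ∧ e.1.1.1 - 1 ≤ p.1 ∧ p.1 ≤ e.1.1.1 ∧ e.1.1.2 - 1 ≤ p.2 ∧ p.2 ≤ e.1.1.2 := by
  rcases hc with rfl | rfl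
  · unfold ws; split_ifs
    · exact ⟨_, rfl, by omega⟩
    · exact ⟨_, rfl, by simp⟩
  · unfold wg; split_ifs
    · exact ⟨_, rfl, by simp⟩
    · exact ⟨_, rfl, by omega⟩

theorem pl_ne {l : ℕ} {p q : Pt} (hq : q ∈ sq (0 : Pt) (l - 1)) (h : p ≠ q) : pl l p ≠ pl l q := by
  unfold pl
  rw [dif_pos hq]
  split_ifs
  · simpa using h
  · simp

/-- base points in the bulk -/
def Bulk (l s : ℕ) (x : Pt) : Prop :=
  (s + 2 : ℤ) ≤ x.1 ∧ x.1 + (s + 3) ≤ l ∧ (s + 2 : ℤ) ≤ x.2 ∧ x.2 + (s + 3) ≤ l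

/-- base points on the left side, the bottom side or the right side -/
def Ring (l : ℕ) (x : Pt) : Prop := x.1 ≤ 0 ∨ x.2 ≤ 0 ∨ (l : ℤ) - 1 ≤ x.1

variable {b m : ℝ} {C : ℕ → ℝ} {l s : ℕ}

theorem G_le (hD : DecStmt) (hb : 0 < b) (hL : Lim b C m) {e e' : Ed l} (he : Bulk l s e.1.1)
    (he' : Ring l e'.1.1) {c c' : Pl l} (hc : c = ws l e ∨ c = wg l e)
    (hc' : c' = ws l e' ∨ c' = wg l e') :
    G (ws l) (wg l) (fun _ => b) c c' ≤ 2 * b * (2 * s + 1) ^ 2 * Real.exp (-(m * s)) := by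
  obtain ⟨p, rfl, hp⟩ := ends e c hc
  obtain ⟨p', rfl, hp'⟩ := ends e' c' hc'
  unfold Bulk at he
  unfold Ring at he'
  have hsub : bl p s ⊆ sq 0 (l - 1) := fun q hq => by
    rw [mem_bl] at hq; rw [mem_sq0]; omega
  refine hD b C m hb hL l s p _ hsub fun q hq => pl_ne (hsub hq) ?_
  rintro rfl
  rw [mem_bl] at hq
  omega

/-- covariance of a bulk gradient and a ring gradient -/
theorem cov_le (hC : CovStmt) (hW : WirStmt) (hD : DecStmt) (hb : 0 < b) (hL : Lim b C m)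
    (hl : 1 ≤ l) {e e' : Pt × Pt} (h : e ∈ (xyL b).edI (sq 0 l)) (h' : e' ∈ (xyL b).edI (sq 0 l))
    (he : Bulk l s e.1) (he' : Ring l e'.1) :
    |Vr ((xyL b).WN l) (dR e) (dR e')| ≤ 4 * b ^ 3 * (2 * s + 1) ^ 2 * Real.exp (-(m * s)) := by
  have hc : Cen ((xyL b).WN l) := (xyL_ok hb).cen_Nr (self_mem_sq _ hl)
  let a : Ed l := ⟨e, h⟩
  let a' : Ed l := ⟨e', h'⟩
  have hne : a ≠ a' := fun hh => by
    have : e = e' := congrArg Subtype.val hh
    subst this
    unfold Bulk at he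
    unfold Ring at he'
    omega
  have h1 := hW b l hl fun k => (k a : ℝ) * (k a' : ℝ)
  have h0 := hW b l hl fun _ => 1
  have hZ : Zs ((xyL b).WN l) = Xy48.cur (ws l) (wg l) (fun _ => b) 0 := by
    rw [Xy48.cur_eq]
    simpa only [mul_one, zero_add, Zs] using h0
  have h2 := hC _ _ (ws l) (wg l) (fun _ => b) (fun _ => hb.le) a a' hne
  have g := fun c c' => G_le (s := s) hD hb hL (e := a) (e' := a') he he' (c := c) (c' := c')
  have g1 := g _ _ (Or.inl rfl) (Or.inl rfl)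
  have g2 := g _ _ (Or.inl rfl) (Or.inr rfl)
  have g3 := g _ _ (Or.inr rfl) (Or.inl rfl)
  have g4 := g _ _ (Or.inr rfl) (Or.inr rfl)
  rw [← h1, ← hZ] at h2
  rw [hc.Vr_eq, Ex_def, abs_div, abs_of_pos hc.wt.pos, div_le_iff₀ hc.wt.pos]
  refine le_trans (le_of_eq rfl) (h2.trans (mul_le_mul_of_nonneg_right ?_ hc.wt.pos.le))
  have hb2 : 0 ≤ b * b / 2 := by positivity
  refine (mul_le_mul_of_nonneg_left (add_le_add (add_le_add (add_le_add g1 g2) g3) g4) hb2).trans
    (le_of_eq ?_)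
  ring

/-- indicator of the horizontal edges -/
def hz : Pt × Pt → ℝ := nnF (fun _ => 1) fun _ => 0

theorem hz_mem (e : Pt × Pt) : 0 ≤ hz e ∧ hz e ≤ 1 := by
  unfold hz nnF; split_ifs <;> simp

theorem hz_eq {e : Pt × Pt} (h : e ∈ (xyL b).edI (sq 0 l)) : co 0 e.2 - co 0 e.1 = hz e := by
  obtain ⟨x, y⟩ := e
  rcases (mem_ed.1 h).1 with h | h <;> dsimp only at h <;> subst h
  · rw [hz, nnF_h]; simp [co]
  · rw [hz, nnF_v]; simp [co]

theorem sum_hz (hb : 0 < b) (n : ℕ) (c : Pt → ℝ) :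
    ∑ e ∈ (xyL b).edI (sq 0 (n + 1)), hz e * (c e.2 - c e.1) =
      ∑ j ∈ Ico (0 : ℤ) (n + 1 : ℕ), (c (n, j) - c (0, j)) := by
  have : (sq (0 : Pt) (n + 1)).filter (fun x => x + (1, 0) ∈ sq (0 : Pt) (n + 1)) =
      Ico (0 : ℤ) n ×ˢ Ico (0 : ℤ) (n + 1 : ℕ) := by
    ext x
    simp only [mem_filter, mem_sq0, mem_product, mem_Ico, Prod.fst_add, Prod.snd_add]
    omega
  rw [hz, (xyL_ok hb).sum_nnF, this, sum_product_right]
  simp only [zero_mul, sum_const_zero, add_zero, one_mul]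
  refine sum_congr rfl fun j _ => ?_
  rw [← tele (fun i => c (i, j)) n]
  refine sum_congr rfl fun i _ => ?_
  simp

/-- a function with small increments on the ring has a small total horizontal increment -/
theorem ring_le (hb : 0 < b) (hl : 1 ≤ l) (c : Pt → ℝ) {ε : ℝ} (hε : 0 ≤ ε)
    (h : ∀ e ∈ (xyL b).edI (sq 0 l), Ring l e.1 → |c e.2 - c e.1| ≤ ε) :
    |∑ e ∈ (xyL b).edI (sq 0 l), hz e * (c e.2 - c e.1)| ≤ 3 * (l : ℝ) ^ 2 * ε := by
  obtain ⟨n, rfl⟩ : ∃ n, l = n + 1 := ⟨l - 1, by omega⟩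
  rw [sum_hz hb]
  refine (abs_sum_le_sum_abs _ _).trans ((sum_le_card_nsmul _ _ (3 * (n + 1 : ℝ) * ε)
    fun j hj => ?_).trans (le_of_eq ?_))
  · rw [mem_Ico] at hj
    obtain ⟨j, rfl⟩ := Int.eq_ofNat_of_zero_le hj.1
    have v : ∀ a : ℤ, a = 0 ∨ a = n → |c (a, j) - c (a, 0)| ≤ j * ε := fun a ha =>
      walk (fun i => c (a, i)) j fun i h0 hi => by
        refine h ((a, i), (a, i + 1)) (mem_ed.2 ⟨Or.inr (by simp), ?_, ?_⟩) ?_
        · rw [mem_sq0]; simp only; omega
        · rw [mem_sq0]; simp only; omega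
        · unfold Ring; simp only; omega
    have w : |c (n, 0) - c (0, 0)| ≤ n * ε :=
      walk (fun i => c (i, 0)) n fun i h0 hi => by
        refine h ((i, 0), (i + 1, 0)) (mem_ed.2 ⟨Or.inl (by simp), ?_, ?_⟩) ?_
        · rw [mem_sq0]; simp only; omega
        · rw [mem_sq0]; simp only; omega
        · unfold Ring; simp only; omega
    have v0 := abs_le.1 (v 0 (Or.inl rfl))
    have v1 := abs_le.1 (v n (Or.inr rfl))
    have w' := abs_le.1 w
    have hj' : (j : ℝ) ≤ n := by exact_mod_cast (by omega : j ≤ n)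
    have := mul_le_mul_of_nonneg_right hj' hε
    rw [abs_le]
    constructor <;> nlinarith
  · simp only [Int.card_Ico, sub_zero, Int.toNat_natCast, nsmul_eq_mul]
    push_cast; ring

theorem bare (hb : 0 < b) (hl : 1 ≤ l) (φ : Pt × Pt → ℝ) :
    Vr ((xyL b).WN l) (Sl46.fl ((xyL b).edI (sq 0 l)) φ) (Sl46.fl ((xyL b).edI (sq 0 l)) φ) ≤
      b * ∑ e ∈ (xyL b).edI (sq 0 l), φ e ^ 2 := by
  rw [← pr_dv_eq_fl, mul_sum]
  exact bare_Vr ((xyL_ok hb).ctr_Nr _ _) ((xyL_ok hb).anch_Nr (self_mem_sq _ hl))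
    (fun s _ => pr_dv _ φ s) (τ := fun _ => b) fun _ _ => ⟨hb, true, rfl⟩

theorem card_ed (B : Finset Pt) (E : Finset (Pt × Pt))
    (h : ∀ e ∈ E, (e.2 = e.1 + (1, 0) ∨ e.2 = e.1 + (0, 1)) ∧ e.1 ∈ B) : E.card ≤ 2 * B.card := by
  have : E ⊆ B.image (fun x => (x, x + (1, 0))) ∪ B.image fun x => (x, x + (0, 1)) := by
    rintro ⟨x, y⟩ he
    obtain ⟨h1 | h1, h2⟩ := h _ he
    · exact mem_union_left _ (mem_image.2 ⟨x, h2, Prod.ext rfl h1.symm⟩)
    · exact mem_union_right _ (mem_image.2 ⟨x, h2, Prod.ext rfl h1.symm⟩)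
  refine (card_le_card this).trans ((card_union_le _ _).trans ?_)
  have := card_image_le (s := B) (f := fun x : Pt => (x, x + (1, 0)))
  have := card_image_le (s := B) (f := fun x : Pt => (x, x + (0, 1)))
  omega

open Classical in
theorem card_bd (l s : ℕ) :
    ((sq (0 : Pt) l).filter fun x => ¬ Bulk l s x).card ≤ 4 * ((s + 2) * l) := by
  have : (sq (0 : Pt) l).filter (fun x => ¬ Bulk l s x) ⊆
      (rc 0 (s + 2) l ∪ rc (l - (s + 2), 0) (s + 2) l) ∪
        (rc 0 l (s + 2) ∪ rc (0, l - (s + 2)) l (s + 2)) := fun x hx => by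
    rw [mem_filter, mem_sq0, Bulk] at hx
    simp only [mem_union, mem_rc, Prod.fst_zero, Prod.snd_zero]
    omega
  refine (card_le_card this).trans ((card_union_le _ _).trans ?_)
  refine (add_le_add (card_union_le _ _) (card_union_le _ _)).trans (le_of_eq ?_)
  simp only [card_rc]
  ring

theorem gN_eq (hb : 0 < b) (l : ℕ) : (xyL b).gN l =
    Vr ((xyL b).WN l) (Sl46.fl ((xyL b).edI (sq 0 l)) hz) (Sl46.fl ((xyL b).edI (sq 0 l)) hz) /
      (l : ℝ) ^ 2 := by
  have hX : (xyL b).X l (co 0) = b⁻¹ • Sl46.fl ((xyL b).edI (sq 0 l)) hz := by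
    rw [Lat.X, Lat.Au, pr_dv_eq_fl, ← Sl46.fl_smul]
    refine Sl46.fl_congr fun e he => ?_
    rw [hz_eq he, div_eq_inv_mul]; rfl
  have he : (xyL b).e0 = b⁻¹ := by rw [Lat.e0, xyL_a, one_div]; rfl
  rw [Lat.gN, Lat.tN, hX, he, Vr_smul_left, Vr_smul_right]
  field_simp

end W37

open W37 in
theorem lowStmt (hC : CovStmt) (hW : WirStmt) (hD : DecStmt) : LowStmt := by
  classical
  refine ⟨24, fun b C m hb hL l s hl => ?_⟩
  have hc : Cen ((xyL b).WN l) := (xyL_ok hb).cen_Nr (self_mem_sq _ hl)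
  have hl0 : (0 : ℝ) < l := by exact_mod_cast hl
  rw [gN_eq hb, div_le_iff₀ (by positivity)]
  set E := (xyL b).edI (sq 0 l) with hE
  set W := (xyL b).WN l with hWd
  set ε := 4 * b ^ 3 * (2 * s + 1) ^ 2 * Real.exp (-(m * s)) with hε
  have hε0 : 0 ≤ ε := by positivity
  have hEc : (E.card : ℝ) ≤ 2 * (l : ℝ) ^ 2 := by
    have := card_ed (sq 0 l) E fun e he => ⟨(mem_ed.1 he).1, (mem_ed.1 he).2.1⟩
    rw [card_sq] at this
    exact_mod_cast this
  have hBc : ((E.filter fun e => ¬ Bulk l s e.1).card : ℝ) ≤ 16 * ((s + 1) * l) := by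
    have h1 := card_ed ((sq (0 : Pt) l).filter fun x => ¬ Bulk l s x)
      (E.filter fun e => ¬ Bulk l s e.1) fun e he => by
        rw [mem_filter] at he
        exact ⟨(mem_ed.1 he.1).1, mem_filter.2 ⟨(mem_ed.1 he.1).2.1, he.2⟩⟩
    have h2 := card_bd l s
    have h3 : (E.filter fun e => ¬ Bulk l s e.1).card ≤ 16 * ((s + 1) * l) := by nlinarith
    exact_mod_cast h3
  have hsq : ∀ e, hz e ^ 2 ≤ 1 := fun e => pow_le_one₀ (hz_mem e).1 (hz_mem e).2
  -- bulk edges
  have h1 : ∀ e ∈ E, Bulk l s e.1 → |Vr W (dR e) (Sl46.fl E hz)| ≤ 3 * (l : ℝ) ^ 2 * ε := by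
    intro e he hB
    have hd : ∀ e' : Pt × Pt, Vr W (dR e) (dR e') =
        Vr W (dR e) (evH e'.2) - Vr W (dR e) (evH e'.1) := fun e' => by
      rw [dR_eq e', hc.se.Vr_sub_right]
    rw [Sl46.fl, hc.se.Vr_sum_right]
    simp only [Vr_smul_right, hd]
    refine ring_le hb hl (fun P => Vr W (dR e) (evH P)) hε0 fun e' he' hR => ?_
    rw [← hd]
    exact cov_le hC hW hD hb hL hl he he' hB hR
  set ψ : Pt × Pt → ℝ := fun e => if Bulk l s e.1 then hz e else 0 with hψ
  set φ : Pt × Pt → ℝ := fun e => if Bulk l s e.1 then 0 else hz e with hφ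
  have hsp : Sl46.fl E hz = Sl46.fl E ψ + Sl46.fl E φ := by
    rw [← Sl46.fl_add]
    refine Sl46.fl_congr fun e _ => ?_
    simp only [hψ, hφ]; split_ifs <;> simp
  have h2 : Vr W (Sl46.fl E ψ) (Sl46.fl E hz) ≤ 2 * (l : ℝ) ^ 2 * (3 * (l : ℝ) ^ 2 * ε) := by
    rw [Sl46.fl, hc.se.Vr_sum_left]
    refine (sum_le_card_nsmul _ _ (3 * (l : ℝ) ^ 2 * ε) fun e he => ?_).trans ?_
    · rw [Vr_smul_left]
      simp only [hψ]
      split_ifs with hB
      · have := (abs_le.1 (h1 e he hB)).2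
        have h0 : 0 ≤ 3 * (l : ℝ) ^ 2 * ε := by positivity
        nlinarith [hz_mem e]
      · rw [zero_mul]; positivity
    · rw [nsmul_eq_mul]; exact mul_le_mul_of_nonneg_right hEc (by positivity)
  have h3 : Vr W (Sl46.fl E φ) (Sl46.fl E φ) ≤ b * (16 * ((s + 1) * l)) := by
    refine (bare hb hl φ).trans (mul_le_mul_of_nonneg_left (le_trans ?_ hBc) hb.le)
    rw [card_filter, Nat.cast_sum]
    refine sum_le_sum fun e _ => ?_
    simp only [hφ]
    split_ifs <;> simp [hsq]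
  have h4 : Vr W (Sl46.fl E hz) (Sl46.fl E hz) ≤ b * (2 * (l : ℝ) ^ 2) := by
    refine (bare hb hl hz).trans (mul_le_mul_of_nonneg_left (le_trans ?_ hEc) hb.le)
    simpa using sum_le_card_nsmul E _ 1 fun e _ => hsq e
  have h5 : Vr W (Sl46.fl E φ) (Sl46.fl E hz) ≤
      6 * (b * Real.sqrt (((s : ℝ) + 1) / l)) * (l : ℝ) ^ 2 := by
    refine (le_abs_self _).trans (abs_le_of_sq_le_sq ?_ (by positivity))
    refine (hc.wt.Vr_sq_le hc.se _ _).trans
      ((mul_le_mul h3 h4 (hc.wt.Vr_nonneg hc.se _) (by positivity)).trans ?_)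
    rw [mul_pow, mul_pow, mul_pow, Real.sq_sqrt (by positivity)]
    have : b * (16 * ((s + 1) * l)) * (b * (2 * (l : ℝ) ^ 2)) =
        32 * (b ^ 2 * ((s + 1) / l) * ((l : ℝ) ^ 2) ^ 2) := by field_simp; norm_num
    rw [this]
    have : 0 ≤ b ^ 2 * ((s + 1) / l) * ((l : ℝ) ^ 2) ^ 2 := by positivity
    nlinarith
  have h6 : Vr W (Sl46.fl E hz) (Sl46.fl E hz) =
      Vr W (Sl46.fl E ψ) (Sl46.fl E hz) + Vr W (Sl46.fl E φ) (Sl46.fl E hz) := by
    rw [← hc.se.Vr_add_left, ← hsp]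
  have h7 : 0 ≤ b * Real.sqrt (((s : ℝ) + 1) / l) * (l : ℝ) ^ 2 := by positivity
  rw [h6]
  refine (add_le_add h2 h5).trans ?_
  rw [hε]
  nlinarith

end Crest.Agent.T145.Mb
end

-- ▼ part T145/MbEnd_25
section

/-!
# Row 145, module MB (helper25): P4, unconditional
-/

set_option autoImplicit false

namespace Crest.Agent.T145.Mb

/-- **P4** -/
theorem p4 : Top.MassUpStmt := p4_of lowStmt

end Crest.Agent.T145.Mb
end

-- ▼ part T145/AllU_21

/-!
# Row 145: T4, Mx, the Dirichlet limit, T5, P4–P6 without hypotheses (helper21)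
-/

set_option autoImplicit false

namespace Crest.Agent.T145.All

theorem t4 : Nc.T4Stmt := Nc.U.t4 t3
theorem gd : Nc.GdStmt := Nc.U.gd t3
theorem rate : Nc.RateStmt := Nc.U.rate t3
theorem pdec : Nc.PDecStmt := Nc.U.pdec t3

theorem inp : Mx.Inp := ⟨t1m, t1a, t1x, sd, t2p, r1, r1c, br, rj, afac, gd⟩
theorem mxGd : Mx.GdStmt := Mx.gd_of gd
theorem uv : Mx.UvStmt := inp.uv
theorem gm : Mx.GmStmt := inp.gm
theorem mix0 : Mx.Mix0Stmt := inp.mix0
theorem dl : DlStmt := inp.dl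
theorem dlGen : Mx31.DlGenStmt := inp.dlGen

theorem dlg : DlgStmt := dlg_of dl
theorem gffD : GffDStmt := gffD_of dl
theorem t5 : T5Stmt := t5_of dl
theorem t5a : T5AStmt := t5A_of dl
theorem tlim : TLimStmt := tLim_of dl

theorem p4 : Top.MassUpStmt := Mb.p4
theorem p5 : Top.MassLoStmt := Mb.p5 t1a t1d t1m t2 step2
theorem p6 : Top.XyRoughStmt := Tau5.xyRoughStmt FS.e1

end Crest.Agent.T145.All
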