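import Mathlib
import Crest.Agent.T145.GffDef_8
import Crest.Agent.T145.PotL_17
import Crest.Agent.T145.Slit_46

-- ▼ part T145/VxAn_27
section

/-! Row 145, part (d) §3: model-free analysis (almost monotone sequences, the function `I`). -/

set_option autoImplicit false
open Filter Topology Real

namespace Crest.Agent.T145.VxAn

/-- `I ℓ = ℓ/8 - (log ℓ)/16`. -/
noncomputable def I (l : ℝ) : ℝ := l / 8 - Real.log l / 16







theorem exp_two_I {r : ℝ} (hr : 1 < r) :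
    Real.exp (2 * I (Real.log r)) = r ^ ((1 : ℝ) / 4) / Real.log r ^ ((1 : ℝ) / 8) := by
  have h0 : 0 < r := by linarith
  have hl : 0 < Real.log r := Real.log_pos hr
  rw [Real.rpow_def_of_pos h0, Real.rpow_def_of_pos hl, ← Real.exp_sub]
  congr 1; unfold I; ring

/-- the final squeeze: the conclusion of S0198 -/
theorem final (C : ℕ → ℝ) (v : ℝ)
    (hup : ∀ η : ℝ, 0 < η → ∀ᶠ r : ℕ in atTop, C r ≤ Real.exp (v + η - 2 * I (Real.log r)))
    (hlo : ∀ η : ℝ, 0 < η → ∀ᶠ r : ℕ in atTop, Real.exp (v - η - 2 * I (Real.log r)) ≤ C r) :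
    Tendsto (fun r : ℕ => C r * (r : ℝ) ^ ((1 : ℝ) / 4) / Real.log r ^ ((1 : ℝ) / 8))
      atTop (𝓝 (Real.exp v)) := by
  have key : ∀ r : ℕ, 2 ≤ r → C r * (r : ℝ) ^ ((1 : ℝ) / 4) / Real.log r ^ ((1 : ℝ) / 8)
      = C r * Real.exp (2 * I (Real.log r)) := by
    intro r hr
    have : (1 : ℝ) < r := by exact_mod_cast hr
    rw [exp_two_I this]; ring
  have hc : Tendsto (fun η : ℝ => Real.exp (v + η)) (𝓝[>] 0) (𝓝 (Real.exp v)) := by
    have : Tendsto (fun η : ℝ => Real.exp (v + η)) (𝓝 0) (𝓝 (Real.exp (v + 0))) :=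
      (by fun_prop : Continuous fun η : ℝ => Real.exp (v + η)).tendsto 0
    simpa using this.mono_left nhdsWithin_le_nhds
  have hc' : Tendsto (fun η : ℝ => Real.exp (v - η)) (𝓝[>] 0) (𝓝 (Real.exp v)) := by
    have : Tendsto (fun η : ℝ => Real.exp (v - η)) (𝓝 0) (𝓝 (Real.exp (v - 0))) :=
      (by fun_prop : Continuous fun η : ℝ => Real.exp (v - η)).tendsto 0
    simpa using this.mono_left nhdsWithin_le_nhds
  rw [tendsto_order]
  refine ⟨fun a ha => ?_, fun a ha => ?_⟩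
  · obtain ⟨η, h1, h2⟩ := (((tendsto_order.1 hc').1 a ha).and self_mem_nhdsWithin).exists
    filter_upwards [hlo η h2, eventually_ge_atTop 2] with r h3 h4
    rw [key r h4]
    have := mul_le_mul_of_nonneg_right h3 (Real.exp_pos (2 * I (Real.log r))).le
    rw [← Real.exp_add] at this
    have e : v - η - 2 * I (Real.log r) + 2 * I (Real.log r) = v - η := by ring
    rw [e] at this
    linarith
  · obtain ⟨η, h1, h2⟩ := (((tendsto_order.1 hc).2 a ha).and self_mem_nhdsWithin).exists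
    filter_upwards [hup η h2, eventually_ge_atTop 2] with r h3 h4
    rw [key r h4]
    have := mul_le_mul_of_nonneg_right h3 (Real.exp_pos (2 * I (Real.log r))).le
    rw [← Real.exp_add] at this
    have e : v + η - 2 * I (Real.log r) + 2 * I (Real.log r) = v + η := by ring
    rw [e] at this
    linarith

end Crest.Agent.T145.VxAn
end

-- ▼ part T145/VdDef_27

/-!
# Row 145, part (d) §1–§3 (text: helper28, `docs/T145_d.md`): S0198 from (A1), (A2), (N).  Definitions and Props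
(helper27).

Spins live on `ℤ²`, heights on the faces (named by the lower left corner).  `wir b U` = only the spins of `U` are
free, every other connected set of spins is wired.  `K_N (l) = (xyL b).gN l`.  The trial functions are
`φ ∘ G`, `G` = a combination of potential kernels, `φ` = a clamp.
-/

set_option autoImplicit false

namespace Crest.Agent.T145.Vd

open Finset Filter Topology Crest.ProbabilityR.SpinModel
open Sl46 (fl)
open Pot (eu disc lg nL eD lap dif pk)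
open VxAn (I)

/-- end points of the edges of `E` -/
def vx (E : Finset (Pt × Pt)) : Finset Pt := E.image Prod.fst ∪ E.image Prod.snd

open Classical in
/-- free model on the edge set `E`; the lexicographically least point of every component is pinned -/
noncomputable def NE (Λ : Lat) (E : Finset (Pt × Pt)) : Mdl Pt :=
  ⟨(vx E).filter fun x => ∃ y, Conn E x y ∧ toLex y < toLex x, E, fun _ => Λ.w, fun _ _ => 1⟩

/-- `Z (σ; f) / Z (0)` -/
noncomputable def zt (m : Mdl Pt) (σ : Pt × Pt → ℤ) (f : Cfg Pt →+ ℝ) : ℝ :=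
  Zs (tilt (m.Ws 0 σ) f) / Zs (m.W 0)

/-- `Z (σ) / Z (0)` -/
noncomputable def rat (m : Mdl Pt) (σ : Pt × Pt → ℤ) : ℝ := Zs (m.Ws 0 σ) / Zs (m.W 0)

/-- translate an edge -/
def sh (t : Pt) (e : Pt × Pt) : Pt × Pt := (e.1 + t, e.2 + t)

/-- the height edge that crosses the spin edge `p` -/
def dual (p : Pt × Pt) : Pt × Pt := (p.1 - (p.2 - p.1).swap, p.1)

/-- the height edges that cross a spin edge meeting `U` -/
noncomputable def dU (U : Finset Pt) : Finset (Pt × Pt) := (nL.edT U).image dual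

/-- rotated gradient of a function of the spin sites -/
def rot (F : Pt → ℝ) (e : Pt × Pt) : ℝ :=
  ((e.2.2 - e.1.2 - (e.2.1 - e.1.1) : ℤ) : ℝ) * (F (e.1 + (1, 1)) - F e.2)

/-- the seam from the spin site `z` to `+∞` along the first axis -/
def ray (z : Pt) (e : Pt × Pt) : ℤ :=
  if e.1.2 = z.2 - 1 ∧ e.2.2 = z.2 ∧ e.1.1 = e.2.1 ∧ z.1 ≤ e.1.1 then 1 else 0

/-- charge `1` at `0`, charge `ε` at `(r, 0)` -/
def ray2 (ε : ℤ) (r : ℕ) (e : Pt × Pt) : ℤ := ray 0 e + ε * ray (r, 0) e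

/-- the spins of `U` are free, the rest is wired -/
noncomputable def wir (b : ℝ) (U : Finset Pt) : Mdl Pt := NE (xyL b) (dU U)

/-- `M (ρ)` -/
noncomputable def Mv (b : ℝ) (ρ : ℕ) : ℝ := rat (wir b (disc 0 ρ)) (ray 0)

/-- `T (ρ, ρ')` -/
noncomputable def Tv (b : ℝ) (ρ ρ' : ℕ) : ℝ := rat (wir b (disc 0 ρ' \ disc 0 ρ)) (ray 0)

/-- `C^w_{+ε}` in the wired disc of radius `R` -/
noncomputable def Cw (b : ℝ) (ε : ℤ) (r R : ℕ) : ℝ := rat (wir b (disc 0 R)) (ray2 ε r)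

/-- `T_{+ε}`: two wired holes of radius `ρ` -/
noncomputable def T2 (b : ℝ) (ε : ℤ) (ρ r R : ℕ) : ℝ :=
  rat (wir b ((disc 0 R \ disc 0 ρ) \ disc (r, 0) ρ)) (ray2 ε r)

/-- the free box (`= xyBoxCorrelation b R r` by `xyStmt`) -/
noncomputable def Cb (b : ℝ) (R r : ℕ) : ℝ := rat ((xyL b).D (faces R)) (seam r)

/-- the constant vector field `c` -/
def cv (c : ℝ × ℝ) (e : Pt × Pt) : ℝ :=
  c.1 * ((e.2.1 - e.1.1 : ℤ) : ℝ) + c.2 * ((e.2.2 - e.1.2 : ℤ) : ℝ)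

/-- squared length -/
def n2 (c : ℝ × ℝ) : ℝ := c.1 ^ 2 + c.2 ^ 2


/-- monotone and `1`-Lipschitz -/
def Lp (φ : ℝ → ℝ) : Prop := ∀ x y, x ≤ y → 0 ≤ φ y - φ x ∧ φ y - φ x ≤ y - x


/-- data of a trial function `φ ∘ G`: kinks `𝒦`, oscillation `ω`, gradient `g₁`, oscillation of the gradient
`g₂` at scale `l` near `U`, energy `η` near a kink -/
structure Tri (U : Finset Pt) (G : Pt → ℝ) (φ : ℝ → ℝ) (𝒦 : Finset ℝ) (l R : ℕ) (ω g₁ g₂ η : ℝ) :
    Prop where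
  lp : Lp φ
  aff : ∀ a b : ℝ, (∀ k ∈ 𝒦, k ∉ Set.Icc a b) →
    (∀ x ∈ Set.Icc a b, ∀ y ∈ Set.Icc a b, φ y - φ x = y - x) ∨
      ∀ x ∈ Set.Icc a b, ∀ y ∈ Set.Icc a b, φ y = φ x
  off : ∀ y, y ∉ U → ∀ a b : ℝ, G y ∈ Set.Icc a b → (∀ k ∈ 𝒦, k ∉ Set.Icc a b) →
    ∀ x ∈ Set.Icc a b, φ x = φ (G y)
  reg : ∀ u ∈ U, ∀ y ∈ bl u (l + 1), ∀ y' ∈ bl u (l + 1), |G y - G y'| ≤ ω ∧
    ∀ d ∈ nL.Jp, |dif d G y| ≤ g₁ ∧ |dif d G y - dif d G y'| ≤ g₂
  kink : ∀ k ∈ 𝒦, ∀ S ⊆ nL.edT U, (∀ p ∈ S, |G p.1 - k| ≤ ω ∧ |G p.2 - k| ≤ ω) →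
    ∑ p ∈ S, (G p.2 - G p.1) ^ 2 ≤ η
  box : U ⊆ bl 0 R

/-! ## Interface with the flow -/

/-- (A1): upper bound on the stiffness of free squares, for one `l` in every `[n / D, n]` -/
def A1 (b : ℝ) : Prop := ∃ (C δ : ℝ) (D : ℕ), 0 < δ ∧ ∀ᶠ n : ℕ in atTop, ∃ l : ℕ, l ≤ n ∧ n ≤ D * l ∧
  (xyL b).gN l ≤ 2 / Real.pi * (1 + 1 / (2 * Real.log n)) + C / Real.log n ^ (1 + δ)


/-- (N) for the seam observable: free box against wired disc -/
def NF (b : ℝ) : Prop := ∀ η : ℝ, 0 < η → ∀ᶠ W : ℕ in atTop, ∀ᶠ r : ℕ in atTop, ∀ R' : ℕ,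
  W * r + 1 ≤ R' → Cw b (-1) r (W * r) - Cb b R' r ≤ η * Mv b (r / 4) ^ 2

/-! ## The tasks -/




/-- BARE with a seam -/
def BareSStmt : Prop := ∀ (b : ℝ) (m : Mdl Pt), 0 < b → m.Ctr → m.Anch → (∀ e ∈ m.ed, m.w e = bes b) →
  ∀ (σ : Pt × Pt → ℤ) (ψ : Pt × Pt → ℝ),
    zt m σ (fl m.ed ψ) * Real.exp (∑ e ∈ m.ed, ψ e * σ e) ≤
      Real.exp (∑ e ∈ m.ed, b * (Real.cosh (ψ e) - 1))











/-- L3.2: the core costs a constant -/
def CoreStmt : Prop := ∀ (b c : ℝ) (ρ₀ ρ₁ : ℕ), 0 < b → 0 < c → 2 * ρ₀ + 3 ≤ ρ₁ →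
  ∃ c' : ℝ, 0 < c' ∧ ∀ R, ρ₁ + 2 ≤ R → c * Tv b (ρ₁ + 2) R ≤ Tv b ρ₀ R → c' * Tv b ρ₀ R ≤ Mv b R



/-! ## Unfolding lemmas -/

theorem zt_zero (m : Mdl Pt) (σ : Pt × Pt → ℤ) : zt m σ 0 = rat m σ := by
  simp [zt, rat, Zs, tilt]

theorem fl_zero (E : Finset (Pt × Pt)) : fl E (fun _ => 0) = 0 := by simp [fl]


theorem mem_vx {E : Finset (Pt × Pt)} {x : Pt} : x ∈ vx E ↔ ∃ e ∈ E, e.1 = x ∨ e.2 = x := by
  simp only [vx, mem_union, mem_image]
  constructor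
  · rintro (⟨e, he, h⟩ | ⟨e, he, h⟩)
    exacts [⟨e, he, .inl h⟩, ⟨e, he, .inr h⟩]
  · rintro ⟨e, he, h | h⟩
    exacts [.inl ⟨e, he, h⟩, .inr ⟨e, he, h⟩]

theorem mem_Jp {d : Pt} : d ∈ nL.Jp ↔ d = (1, 0) ∨ d = (0, 1) := by
  rw [Pot.nL_Jp]; simp







end Crest.Agent.T145.Vd
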