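import Crest.Agent.T145.EvDer_5
import Crest.Agent.T145.MidVar_29
import Crest.Agent.T145.MidVg_19
import Crest.Agent.T145.MidMo_32
import Crest.Agent.T145.FlKb_14
import Crest.Agent.T145.FlA_51
import Crest.Agent.T145.FlBare_80

/-!
# Row 145, even sector: quadratic forms with a profile bound, non-degeneracy (helper5)
-/

set_option autoImplicit false

namespace Crest.Agent.T145.Ev

open Finset Real Fl Om Tau5 Filter Topology Pot Mid

/-- profile bound for a kernel on the torus of side `n` -/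
def DKp (G : Pt → ℝ) (n L : ℕ) (R Z : ℝ) : Prop :=
  (∀ x ∈ bl 0 L, x ≠ 0 → |G x| * eu x ^ 4 ≤ Z * max (eu x / R) (R / eu x) ^ (1 / 2 : ℝ)) ∧
    ∀ x ∈ Qd n, x ∉ bl 0 L → |G x| * (L : ℝ) ^ 4 ≤ Z * (L / R) ^ (1 / 2 : ℝ)

/-- the second moment of a kernel: `gk ω = gG (KK ω)`, `dg Λ n = gG (dK Λ n)` -/
noncomputable def gG (G : Pt → ℝ) (ρ : ℝ) : ℝ :=
  -(1 / 4) * ∑ x ∈ bl 0 ⌈2 * ρ⌉₊, G x * eu x ^ 2 * Xi.chi ρ x

namespace N5

theorem sn_le (x : Pt) : sn x ≤ eu x := max_le (abs_fst_le_eu x) (abs_snd_le_eu x)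

theorem rp_le {t c : ℝ} (h0 : 0 < t) (hc : 1 ≤ c) (h : t ≤ c) :
    max t t⁻¹ ^ (1 / 2 : ℝ) ≤ c * (t ^ (1 / 2 : ℝ))⁻¹ := by
  rw [← sqrt_eq_rpow, ← sqrt_eq_rpow, ← sqrt_inv, ← sqrt_sq (zero_le_one.trans hc), ← sqrt_mul (sq_nonneg _)]
  refine sqrt_le_sqrt (max_le ?_ (le_mul_of_one_le_left (by positivity) (one_le_pow₀ hc)))
  rw [← div_eq_mul_inv, le_div_iff₀ h0]; nlinarith



variable {G : Pt → ℝ} {n L : ℕ} {R Z : ℝ}


theorem pt (h : DKp G n L R Z) (hZ : 0 ≤ Z) (hR : 0 < R) {x : Pt} (hx : x ∈ bl 0 L) (h0 : x ≠ 0) {c : ℝ}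
    (hc : 1 ≤ c) (hxc : eu x ≤ c * R) :
    |G x| * eu x ^ 2 ≤ c * Z * R ^ (1 / 2 : ℝ) * ((eu x ^ (1 / 2 : ℝ))⁻¹ / eu x ^ 2) := by
  have e1 := one_le_eu h0
  have h1 := h.1 x hx h0
  rw [← inv_div (eu x) R] at h1
  have h2 := rp_le (t := eu x / R) (by positivity) hc ((div_le_iff₀ hR).2 hxc)
  rw [div_rpow (eu_nonneg x) hR.le, inv_div (eu x ^ (1 / 2 : ℝ))] at h2
  rw [← mul_div_assoc, le_div_iff₀ (by positivity)]
  calc _ = |G x| * eu x ^ 4 := by ring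
    _ ≤ Z * (c * (R ^ (1 / 2 : ℝ) / eu x ^ (1 / 2 : ℝ))) := h1.trans (mul_le_mul_of_nonneg_left h2 hZ)
    _ = _ := by ring

theorem sdn (hR : 1 ≤ R) {m : ℕ} (hm : ⌊R⌋₊ ≤ m) :
    R ^ (1 / 2 : ℝ) * ∑ x ∈ bl 0 m \ bl 0 ⌊R⌋₊, (eu x ^ (1 / 2 : ℝ))⁻¹ / eu x ^ 2 ≤ 32 := by
  have r1 : 1 ≤ ⌊R⌋₊ := Nat.le_floor (by simpa using hR)
  have r1' : (1 : ℝ) ≤ ⌊R⌋₊ := by exact_mod_cast r1
  have h := Kb14.sum_dn 0 (ε := 1 / 2) (by norm_num) (by norm_num) r1 hm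
  simp only [sub_zero] at h
  refine (mul_le_mul_of_nonneg_left h (by positivity)).trans ?_
  have h2 : R ^ (1 / 2 : ℝ) ≤ 2 * (⌊R⌋₊ : ℝ) ^ (1 / 2 : ℝ) := by
    rw [← sqrt_eq_rpow, ← sqrt_eq_rpow, ← sqrt_sq zero_le_two, ← sqrt_mul (sq_nonneg _)]
    exact sqrt_le_sqrt (by linarith [Nat.lt_floor_add_one R])
  have h3 : 0 < (⌊R⌋₊ : ℝ) ^ (1 / 2 : ℝ) := by positivity
  calc _ ≤ 2 * (⌊R⌋₊ : ℝ) ^ (1 / 2 : ℝ) * (8 / (1 / 2) * ((⌊R⌋₊ : ℝ) ^ (1 / 2 : ℝ))⁻¹) := by gcongr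
    _ = 32 := by field_simp; norm_num

theorem inner (h : DKp G n L R Z) (hZ : 0 ≤ Z) (hR : 1 ≤ R) (hL : R ≤ L) :
    ∑ x ∈ bl 0 ⌊R⌋₊, |G x| * sn x ^ 3 / R ≤ 32 * Z := by
  have R0 : 0 < R := one_pos.trans_le hR
  have h1 := Kb14.sum_up 0 (ε := 1 / 2) (by norm_num) (by norm_num) (Nat.zero_le ⌊R⌋₊)
  simp only [sub_zero] at h1
  have rp : 0 < R ^ (1 / 2 : ℝ) := by positivity
  rw [← sum_sdiff (bl_mono 0 (Nat.zero_le _)), sum_eq_zero (s := bl 0 0) fun x hx => by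
    rw [show x = 0 by
      simp only [mem_bl, Prod.fst_zero, Prod.snd_zero] at hx
      exact Prod.ext (by simp only [Prod.fst_zero]; omega) (by simp only [Prod.snd_zero]; omega)]
    simp [sn], add_zero]
  calc _ ≤ ∑ x ∈ bl 0 ⌊R⌋₊ \ bl 0 0, 2 * Z / R ^ (1 / 2 : ℝ) * (eu x ^ (1 / 2 : ℝ) / eu x ^ 2) := by
        refine sum_le_sum fun x hx => ?_
        obtain ⟨a, b⟩ := mem_sdiff.1 hx
        have x0 : x ≠ 0 := fun e => b (e ▸ self_mem_bl _ _)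
        have e1 := one_le_eu x0
        have k := pt h hZ R0 (bl_mono 0 (Nat.floor_le_of_le hL) a) x0 one_le_two (by
          have := eu_le_of_bl a
          rw [sub_zero] at this; linarith [Nat.floor_le R0.le])
        have e2 : eu x ^ (1 / 2 : ℝ) * eu x ^ (1 / 2 : ℝ) = eu x := by
          rw [← rpow_add (by linarith)]; norm_num
        have e3 : R ^ (1 / 2 : ℝ) * R ^ (1 / 2 : ℝ) = R := by rw [← rpow_add R0]; norm_num
        have e4 : 0 < eu x ^ (1 / 2 : ℝ) := by positivity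
        calc _ ≤ |G x| * eu x ^ 3 / R := by gcongr; exacts [V29.sn_nonneg x, sn_le x]
          _ = |G x| * eu x ^ 2 * (eu x / R) := by ring
          _ ≤ 2 * Z * R ^ (1 / 2 : ℝ) * ((eu x ^ (1 / 2 : ℝ))⁻¹ / eu x ^ 2) * (eu x / R) := by gcongr
          _ = _ := by
            generalize eu x ^ (1 / 2 : ℝ) = a at *
            generalize R ^ (1 / 2 : ℝ) = b at *
            rw [← e2, ← e3]; field_simp
    _ ≤ 2 * Z / R ^ (1 / 2 : ℝ) * (8 / (1 / 2) * R ^ (1 / 2 : ℝ)) := by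
        rw [← mul_sum]
        refine mul_le_mul_of_nonneg_left (h1.trans ?_) (by positivity)
        gcongr; exact Nat.floor_le R0.le
    _ = _ := by field_simp; ring

theorem mid (h : DKp G n L R Z) (hZ : 0 ≤ Z) (hR : 1 ≤ R) (hL : 2 * R ≤ L) :
    ∑ x ∈ bl 0 ⌈2 * R⌉₊ \ bl 0 ⌊R⌋₊, |G x| * eu x ^ 2 ≤ 192 * Z := by
  have R0 : 0 < R := one_pos.trans_le hR
  have h1 := sdn hR (m := ⌈2 * R⌉₊) ((Nat.floor_le_ceil R).trans (Nat.ceil_mono (by linarith)))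
  calc _ ≤ ∑ x ∈ bl 0 ⌈2 * R⌉₊ \ bl 0 ⌊R⌋₊,
        6 * Z * R ^ (1 / 2 : ℝ) * ((eu x ^ (1 / 2 : ℝ))⁻¹ / eu x ^ 2) := sum_le_sum fun x hx => by
        obtain ⟨a, b⟩ := mem_sdiff.1 hx
        refine pt h hZ R0 (bl_mono 0 (Nat.ceil_le.2 hL) a) (fun e => b (e ▸ self_mem_bl _ _)) (by norm_num) ?_
        have := eu_le_of_bl a
        rw [sub_zero] at this; linarith [Nat.ceil_lt_add_one (show 0 ≤ 2 * R by linarith)]
    _ ≤ _ := by rw [← mul_sum, mul_assoc]; nlinarith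

theorem outer (h : DKp G n L R Z) (hZ : 0 ≤ Z) (hR : 1 ≤ R) (hL : R ≤ L) {K : ℝ} (hn : n ≤ K * L) :
    ∑ x ∈ Qd n \ bl 0 ⌊R⌋₊, |G x| * R ^ 2 ≤ (32 + K ^ 2) * Z := by
  have R0 : 0 < R := one_pos.trans_le hR
  have L0 : (0 : ℝ) < L := by linarith
  have h1 := sdn hR (m := L) (Nat.floor_le_of_le hL)
  have s : Qd n \ bl 0 ⌊R⌋₊ ⊆ (bl 0 L \ bl 0 ⌊R⌋₊) ∪ (Qd n \ bl 0 L) := fun x hx => by
    simp only [mem_union, Finset.mem_sdiff] at hx ⊢; tauto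
  refine (sum_le_sum_of_subset_of_nonneg s fun _ _ _ => by positivity).trans ?_
  rw [add_mul, sum_union (disjoint_sdiff_self_right.mono_left sdiff_subset)]
  refine add_le_add ?_ ?_
  · calc _ ≤ ∑ x ∈ bl 0 L \ bl 0 ⌊R⌋₊, Z * R ^ (1 / 2 : ℝ) * ((eu x ^ (1 / 2 : ℝ))⁻¹ / eu x ^ 2) :=
          sum_le_sum fun x hx => by
          obtain ⟨a, b⟩ := mem_sdiff.1 hx
          have b1 := le_eu_of_not_bl b
          rw [sub_zero] at b1
          have b2 : R ≤ eu x := by linarith [Nat.lt_floor_add_one R]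
          have x0 : 0 < eu x := by linarith
          have k := h.1 x a fun e => b (e ▸ self_mem_bl _ _)
          rw [max_eq_left ((div_le_one x0).2 b2 |>.trans ((one_le_div R0).2 b2)),
            div_rpow x0.le R0.le] at k
          have e2 : eu x ^ (1 / 2 : ℝ) * eu x ^ (1 / 2 : ℝ) = eu x := by rw [← rpow_add x0]; norm_num
          have e3 : R ^ (1 / 2 : ℝ) * R ^ (1 / 2 : ℝ) = R := by rw [← rpow_add R0]; norm_num
          have e4 : 0 < eu x ^ (1 / 2 : ℝ) := by positivity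
          have e5 : 0 < R ^ (1 / 2 : ℝ) := by positivity
          calc _ = |G x| * eu x ^ 4 * (R / eu x) * (R / eu x ^ 3) := by field_simp
            _ ≤ Z * (eu x ^ (1 / 2 : ℝ) / R ^ (1 / 2 : ℝ)) * 1 * (R / eu x ^ 3) := by
              gcongr; exact (div_le_one x0).2 b2
            _ = _ := by
              generalize eu x ^ (1 / 2 : ℝ) = a at *
              generalize R ^ (1 / 2 : ℝ) = b at *
              rw [← e2, ← e3]; field_simp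
      _ ≤ _ := by rw [← mul_sum, mul_assoc]; nlinarith
  · have c : ((Qd n \ bl 0 L).card : ℝ) ≤ (K * L) ^ 2 := by
      have := card_le_card (sdiff_subset (s := Qd n) (t := bl 0 L))
      rw [Qd, card_sq] at this
      exact le_trans (by exact_mod_cast this) (pow_le_pow_left₀ n.cast_nonneg hn 2)
    refine (sum_le_card_nsmul _ _ (Z / (L : ℝ) ^ 2) fun x hx => ?_).trans ?_
    · obtain ⟨a, b⟩ := mem_sdiff.1 hx
      have k := h.2 x a b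
      have e : (L / R) ^ (1 / 2 : ℝ) ≤ (L / R) ^ 2 := by
        rw [← rpow_two]; exact rpow_le_rpow_of_exponent_le ((one_le_div R0).2 hL) (by norm_num)
      calc _ = |G x| * (L : ℝ) ^ 4 * (R ^ 2 / L ^ 4) := by field_simp
        _ ≤ Z * (L / R) ^ 2 * (R ^ 2 / L ^ 4) :=
          mul_le_mul_of_nonneg_right (k.trans (mul_le_mul_of_nonneg_left e hZ)) (by positivity)
        _ = _ := by field_simp
    · rw [nsmul_eq_mul]
      calc _ ≤ (K * L) ^ 2 * (Z / (L : ℝ) ^ 2) := by gcongr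
        _ = _ := by field_simp

theorem cut (h : DKp G n L R Z) (hZ : 0 ≤ Z) (hR : 1 ≤ R) (hL : 2 * R ≤ L) :
    |-(1 / 4) * ∑ x ∈ bl 0 ⌊R⌋₊, G x * n2 x - gG G R| ≤ 48 * Z := by
  have R0 : 0 < R := one_pos.trans_le hR
  have s : bl (0 : Pt) ⌊R⌋₊ ⊆ bl 0 ⌈2 * R⌉₊ :=
    bl_mono 0 ((Nat.floor_le_ceil R).trans (Nat.ceil_mono (by linarith)))
  rw [gG, ← sum_sdiff s, sum_congr rfl fun x (hx : x ∈ bl 0 ⌊R⌋₊) =>
    show G x * eu x ^ 2 * Xi.chi R x = G x * n2 x by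
      rw [Xi.chi_one R0 (Nat.floor_le R0.le) hx, mul_one, eu_sq, n2]]
  have := (abs_sum_le_sum_abs _ _).trans ((sum_le_sum fun x _ =>
    show |G x * eu x ^ 2 * Xi.chi R x| ≤ |G x| * eu x ^ 2 by
      rw [abs_mul, abs_mul, abs_pow, abs_of_nonneg (eu_nonneg x)]
      exact mul_le_of_le_one_right (by positivity) (Xi.abs_chi_le _ _)).trans (mid h hZ hR hL))
  rw [abs_le] at this ⊢
  constructor <;> linarith [this.1, this.2]

theorem en_le {u : Pt → ℝ} {K : ℝ} {ρ R' : ℕ} (hρ : 1 ≤ ρ) (h1 : ρ ≤ R') (h2 : (R' : ℝ) ≤ K * ρ)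
    (hs : Sm2 u K ρ) (hu : Sup (bl 0 R') u) : |nnL.En (bl 0 (R' + 1)) u u| ≤ 50 * K ^ 4 := by
  have ρ1 : (1 : ℝ) ≤ ρ := by exact_mod_cast hρ
  have r1 : (1 : ℝ) ≤ R' := by exact_mod_cast hρ.trans h1
  rw [V29.en_eq hu (hρ.trans h1), abs_of_nonneg (sum_nonneg fun _ _ => by positivity)]
  refine (sum_le_card_nsmul _ _ (2 * (K / ρ) ^ 2) fun x _ => ?_).trans ?_
  · have a := pow_le_pow_left₀ (abs_nonneg _) (hs.1 0 x) 2
    have b := pow_le_pow_left₀ (abs_nonneg _) (hs.1 1 x) 2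
    rw [sq_abs] at a b; linarith
  · rw [card_bl, nsmul_eq_mul]
    push_cast
    calc _ ≤ (5 * (K * ρ)) ^ 2 * (2 * (K / ρ) ^ 2) := by gcongr; linarith
      _ = _ := by field_simp; ring

end N5
open N5

/-- VAR with a profile bound -/
theorem varP (K : ℝ) : ∃ C : ℝ, 0 ≤ C ∧ ∀ (G u : Pt → ℝ) (n L ρ R' : ℕ) (R Z : ℝ),
    (∀ x, G x.swap = G x) → (∀ x : Pt, G (-x.1, x.2) = G x) → ∑ x ∈ Qd n, G x = 0 → DKp G n L R Z →
    0 ≤ Z → 1 ≤ R → 2 * R ≤ L → n ≤ K * L → 4 * R' < n → R ≤ ρ → ρ ≤ K * R → ρ ≤ R' → (R' : ℝ) ≤ K * ρ →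
    Sm2 u K ρ → (∀ x, |u x| ≤ K) → Sup (bl 0 R') u →
    |∑ z ∈ bl 0 R', ∑ w ∈ bl 0 R', u z * u w * G (w - z) - gG G R * nnL.En (bl 0 (R' + 1)) u u| ≤ C * Z := by
  obtain ⟨C, C0, H⟩ := varStmt K
  refine ⟨C * (32 + K ^ 2 * (32 + K ^ 2)) + 2400 * K ^ 4, by positivity,
    fun G u n L ρ R' R Z g1 g2 g0 h hZ hR hL hn hR' h1 h2 h3 h4 hs hb hu => ?_⟩
  have R0 : 0 < R := one_pos.trans_le hR
  have r1 : 1 ≤ ⌊R⌋₊ := Nat.le_floor (by simpa using hR)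
  have k := H G u (Qd n) ρ ⌊R⌋₊ R' g1 g2 g0
    (by simpa [Qd] using bl_subset_sq (n := n) 0 (R := 2 * R') (by omega)) r1 (Nat.floor_le_of_le h1) h3 h4
    hs hb hu
  have k1 : ∑ x ∈ bl 0 ⌊R⌋₊, |G x| * sn x ^ 3 / ρ ≤ 32 * Z :=
    le_trans (sum_le_sum fun x _ => by have := V29.sn_nonneg x; gcongr) (inner h hZ hR (by linarith))
  have k2 : ∑ x ∈ Qd n \ bl 0 ⌊R⌋₊, |G x| * min (sn x) ρ ^ 2 ≤ K ^ 2 * ((32 + K ^ 2) * Z) := by
    refine le_trans ?_ (mul_le_mul_of_nonneg_left (outer h hZ hR (by linarith) hn) (sq_nonneg K))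
    rw [mul_sum]
    refine sum_le_sum fun x _ => ?_
    rw [mul_left_comm, ← mul_pow]
    gcongr
    exacts [le_min (V29.sn_nonneg x) ρ.cast_nonneg, (min_le_right _ _).trans h2]
  have k3 := mul_le_mul (cut h hZ hR hL) (en_le (r1.trans (Nat.floor_le_of_le h1)) h3 h4 hs hu)
    (abs_nonneg _) (by positivity)
  rw [← abs_mul, sub_mul] at k3
  refine (abs_sub_le _ _ _).trans ((add_le_add (k.trans
    (mul_le_mul_of_nonneg_left (add_le_add k1 k2) C0)) k3).trans_eq (by ring))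

/-- VAR with a profile bound, two test functions -/
theorem varP2 (K : ℝ) : ∃ C : ℝ, 0 ≤ C ∧ ∀ (G u v : Pt → ℝ) (n L ρ R' : ℕ) (R Z : ℝ),
    (∀ x, G x.swap = G x) → (∀ x : Pt, G (-x.1, x.2) = G x) → ∑ x ∈ Qd n, G x = 0 → DKp G n L R Z →
    0 ≤ Z → 1 ≤ R → 2 * R ≤ L → n ≤ K * L → 4 * R' < n → R ≤ ρ → ρ ≤ K * R → ρ ≤ R' → (R' : ℝ) ≤ K * ρ →
    Sm2 u K ρ → (∀ x, |u x| ≤ K) → Sup (bl 0 R') u → Sm2 v K ρ → (∀ x, |v x| ≤ K) → Sup (bl 0 R') v →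
    |∑ z ∈ bl 0 R', ∑ w ∈ bl 0 R', u z * v w * G (w - z) - gG G R * nnL.En (bl 0 (R' + 1)) u v| ≤ C * Z := by
  obtain ⟨C, C0, H⟩ := varP (2 * K)
  refine ⟨C / 2, by positivity, fun G u v n L ρ R' R Z g1 g2 g0 h hZ hR hL hn hR' h1 h2 h3 h4
    hs hb hu hs' hb' hv => ?_⟩
  have K0 : 0 ≤ K := (abs_nonneg _).trans (hb 0)
  have g3 : ∀ x, G (-x) = G x := fun x => by
    rw [← g1, ← g2 x, ← g1 (-x.1, x.2), ← g2 (-x.1, x.2).swap]; rfl
  have k : ∀ c : ℝ, |c| = 1 → _ := fun c hc => H G (fun x => u x + c * v x) n L ρ R' R Z g1 g2 g0 h hZ hR hL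
    (by nlinarith [mul_nonneg K0 L.cast_nonneg]) hR' h1 (by nlinarith) h3
    (by nlinarith [mul_nonneg K0 ρ.cast_nonneg])
    ⟨fun i x => by
      rw [show df i (fun x => u x + c * v x) x = df i u x + c * df i v x by simp only [df]; ring]
      refine (abs_add_le _ _).trans ?_
      rw [abs_mul, hc, mul_div_assoc]; linarith [hs.1 i x, hs'.1 i x],
    fun i j x => by
      rw [show df j (df i fun x => u x + c * v x) x = df j (df i u) x + c * df j (df i v) x by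
        simp only [df]; ring]
      refine (abs_add_le _ _).trans ?_
      rw [abs_mul, hc, mul_div_assoc]; linarith [hs.2 i j x, hs'.2 i j x]⟩
    (fun x => (abs_add_le _ _).trans (by rw [abs_mul, hc]; linarith [hb x, hb' x]))
    fun x hx => by simp only [hu x hx, hv x hx, mul_zero, add_zero]
  have e1 : ∀ c : ℝ, ∑ z ∈ bl 0 R', ∑ w ∈ bl 0 R', (u z + c * v z) * (u w + c * v w) * G (w - z) =
      ∑ z ∈ bl 0 R', ∑ w ∈ bl 0 R', (u z * u w + c ^ 2 * (v z * v w)) * G (w - z) +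
        2 * c * ∑ z ∈ bl 0 R', ∑ w ∈ bl 0 R', u z * v w * G (w - z) := fun c => by
    have : ∑ z ∈ bl 0 R', ∑ w ∈ bl 0 R', u z * v w * G (w - z) =
        ∑ z ∈ bl 0 R', ∑ w ∈ bl 0 R', u w * v z * G (w - z) := by
      rw [sum_comm]; exact sum_congr rfl fun z _ => sum_congr rfl fun w _ => by rw [← g3, neg_sub]
    rw [two_mul, add_mul]
    nth_rewrite 2 [this]
    simp only [mul_sum, ← sum_add_distrib]
    exact sum_congr rfl fun z _ => sum_congr rfl fun w _ => by ring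
  have e2 : nnL.En (bl 0 (R' + 1)) (fun x => u x + 1 * v x) (fun x => u x + 1 * v x) =
      nnL.En (bl 0 (R' + 1)) (fun x => u x + -1 * v x) (fun x => u x + -1 * v x) +
        4 * nnL.En (bl 0 (R' + 1)) u v := by
    simp only [Lat.En, mul_sum, ← sum_add_distrib]
    exact sum_congr rfl fun e _ => by ring
  have k1 := abs_le.1 (k 1 abs_one)
  have k2 := abs_le.1 (k (-1) (by simp))
  simp only [e1, e2, neg_one_sq, one_pow] at k1 k2
  rw [abs_le]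
  constructor <;> linarith [k1.1, k1.2, k2.1, k2.2]

section dK
variable {Λ : Lat} {n : ℕ}





theorem XX_eq {D : Finset Pt} {u v : Pt → ℝ} (hu : Pot.Sup D u) (hv : Pot.Sup D v) :
    (fun s => pr (A0 u) s * pr (A0 v) s) = fun s => ∑ z ∈ D, ∑ w ∈ D, u z * v w * (Jz z s * Jz w s) := by
  funext s
  rw [Xi.pr_A0 hu, Xi.pr_A0 hv, sum_mul_sum]
  exact sum_congr rfl fun z _ => sum_congr rfl fun w _ => by ring






end dK



end Crest.Agent.T145.Ev
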