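import Crest.Agent.T145.EvCr3_60
import Crest.Agent.T145.EvNum_3

-- ▼ part T145/EvSite_60
section

/-!
# Row 145, even sector: the energy star at one site against far insertions and a charge (helper60)
-/

set_option autoImplicit false

namespace Crest.Agent.T145.Ev.Si60

open Finset Pot Xi Real Fl Le60 Lj36

/-- the Gaussian main term at the site `z` -/
noncomputable def mt (ω : Sta) (a : ℕ) (α₁ α₂ : ℝ) (z : Pt) (G : Cfg Pt → ℝ) : ℝ :=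
  α₁ * cv ω (trl z (T1 a)) G + α₂ * cv ω (trl z (T2 a)) G

variable {p : Par} {W : ℕ} {E : Dt} {D₀ R Y P t α₁ α₂ : ℝ} {a₁ a₂ : ℕ}

theorem ins_T (hT : TgStmt) {a : ℕ} (ha : 1 ≤ a) : Ins 0 (5 * a) (T1 a) ∧ Ins 0 (5 * a) (T2 a) := by
  obtain ⟨_, _, -, -, h⟩ := hT
  exact ⟨(h a ha).1.1, E30.ins_le (h a ha).2.1.1 (by omega)⟩

theorem ins_Tc (hT : TgStmt) {a : ℕ} (ha : 1 ≤ a) (ω : Sta) (α₁ α₂ : ℝ) : Ins 0 (5 * a) (Tc ω a α₁ α₂) :=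
  E30.ins_add (E30.ins_smul (E30.ins_sub (ins_T hT ha).1 (E30.ins_const _ _ _)) _)
    (E30.ins_smul (E30.ins_sub (ins_T hT ha).2 (E30.ins_const _ _ _)) _)

theorem om_Tc (hT : TgStmt) {Λ : Lat} {ω : Sta} {L N a : ℕ} (hE : Env p Λ ω L N) (ha : 1 ≤ a)
    (haN : 5 * a ≤ N) {c z : Pt} (hz : bl z (5 * a) ⊆ bl c N) {G : Cfg Pt → ℝ} (hG : Ins c N G)
    (α₁ α₂ : ℝ) : ω (fun s => trl z (Tc ω a α₁ α₂) s * G s) = mt ω a α₁ α₂ z G := by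
  obtain ⟨h1, h2⟩ := ins_T hT ha
  have k : ∀ F, Ins 0 (5 * a) F → Ins c N (fun s => (trl z F s - ω F) * G s) ∧
      ω (fun s => (trl z F s - ω F) * G s) = cv ω (trl z F) G := fun F hF => by
    have h3 := E30.ins_mono (E30.ins_trl hF z) hz
    refine ⟨E30.ins_mul (E30.ins_sub h3 (E30.ins_const _ _ _)) hG, ?_⟩
    simp only [sub_mul]
    rw [hE.ex_sub (E30.ins_mul h3 hG) (E30.ins_smul hG _), hE.ex_smul hG.1, cv,
      hE.trl 0 z F (E30.ins_le hF haN).1]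
  rw [mt, ← (k _ h1).2, ← (k _ h2).2, ← hE.ex_smul (k _ h1).1.1, ← hE.ex_smul (k _ h2).1.1,
    ← hE.ex_add (E30.ins_smul (k _ h1).1 _) (E30.ins_smul (k _ h2).1 _)]
  exact congrArg ω (funext fun s => by simp only [trl, Tc]; ring)

/-- REM: the star is replaced by the references when the multiplier does not see `bl z a₂` -/
theorem rem (hS : SemiStmt) (hP : ProdStmt) (hB : BasStmt) (hT : TgStmt) (h : E.Ok p W)
    (hD : E.Dc p R P t a₁ a₂ α₁ α₂) {c z : Pt} {ι : Type} {I : Finset ι} {x : ι → Pt} {rr : ι → ℕ}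
    {H : ι → Cfg Pt → ℝ} {B : Cfg Pt → ℝ} (hF : Far p E.L (bl c E.N) I x rr H) (hL : p.w * a₂ ≤ E.L)
    (hz : bl z (p.w * a₂) ⊆ bl c E.N) (hd : ∀ i ∈ I, Disjoint (bl (x i) (p.w * rr i)) (bl z (p.w * a₂)))
    (b1 : DepG (bl c E.N) B) (b2 : ∀ i ∈ I, Out (bl (x i) (rr i)) B) (b3 : Out (bl z a₂) B)
    (b4 : ∀ s, |B s| ≤ 1) :
    |E.ω (fun s => (∏ i ∈ I, H i s) * B s * E.e z s) -
      mt E.ω a₁ α₁ α₂ z fun s => (∏ i ∈ I, H i s) * B s| ≤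
      32 * (∏ i ∈ I, nu E.Λ p.w (x i) (rr i) (H i)) * (P * t ^ (16 + 2 * nr p.w) / R ^ 2) := by
  have hE := h.ed.toEnv
  have hG := hE.toGs
  obtain ⟨_, -, hB⟩ := hB p
  have h1 := hD.le
  have h2 := hD.r1
  have h3 := h.r8
  have h4 := h.r0
  have h5 := gs_rg hG
  have h6 := le_wmul hG a₂
  have h7 := hE.le
  have i1 : Ins 0 a₂ (E.e 0) := E30.ins_le (hB _ _ _ _ hE 0).2.2.1 (by omega)
  have i2 : Ins 0 a₂ (Tc E.ω a₁ α₁ α₂) := E30.ins_le (ins_Tc hT (by omega) _ _ _) (by omega)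
  have i3 := E30.ins_sub i1 i2
  have hza : bl z a₂ ⊆ bl c E.N := (bl_mono z h6).trans hz
  have iG : Ins c E.N fun s => (∏ i ∈ I, H i s) * B s :=
    E30.ins_mul (E30.ins_far (by have := hG.w4; omega) hF) (E30.ins_bdd b1 b4)
  obtain ⟨m, hm⟩ := hE.amb c
  have k := ((hP p E.Λ E.L hG m _ ι I x rr H B hm.1 hF b2 b4).2 z a₂ (by omega) hL hz hd).2.1 _
    (E30.ins_trl i3 z) b3
  rw [nu_trl hS hG (by omega) i3 le_rfl, ← hm.2 _ (((depG_prod hG hF).mul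
    ((E30.ins_trl i3 z).1.mono hza)).mul b1)] at k
  refine le_trans (le_of_eq ?_) (k.trans (mul_le_mul_of_nonneg_left hD.nu
    (mul_nonneg (by norm_num) (prod_nonneg hS hG hF))))
  rw [← om_Tc hT hE (by omega) (by omega) ((bl_mono z (by omega)).trans hza) iG, Dt.e,
    ← (hB _ _ _ _ hE z).2.1, ← hE.ex_sub (E30.ins_mul iG (E30.ins_mono (E30.ins_trl i1 z) hza))
      (E30.ins_mul (E30.ins_mono (E30.ins_trl i2 z) hza) iG)]
  exact congrArg _ (congrArg E.ω (funext fun s => by simp only [trl]; ring))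

set_option maxHeartbeats 400000 in
/-- SITE: sweep the charge, then replace the star -/
theorem site (hS : SemiStmt) (hP : ProdStmt) (hL : LocStmt) (hW : SwStmt) (hB : BasStmt) (hT : TgStmt)
    (p : Par) : ∃ C : ℝ, 1 ≤ C ∧ ∀ (W : ℕ) (E : Dt) (D₀ R Y P t α₁ α₂ : ℝ) (a₁ a₂ : ℕ),
    E.Bs p W D₀ R Y P → 0 < t → C * t ≤ 1 → Y ≤ t ^ nr p.w → E.Dc p R P t a₁ a₂ α₁ α₂ →
    ∀ (c : Pt) (ι : Type) (I : Finset ι) (x : ι → Pt) (rr : ι → ℕ) (H : ι → Cfg Pt → ℝ) (z : Pt) (r : ℕ)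
      (σ φ : ℝ) (ξ u : Pt → ℝ) (q : ℤ), Far p E.L (bl c E.N) I x rr H →
      (∀ i ∈ I, ∀ y ∈ bl (x i) (rr i), ξ y = 0) → Chq (bl c E.N) ξ q → p.w * r ≤ E.L →
      bl z (p.w * r) ⊆ bl c E.N → (∀ i ∈ I, Disjoint (bl (x i) (p.w * rr i)) (bl z (p.w * r))) →
      Lr ξ u z r σ → R * t ^ 2 ≤ r → r * t ^ 2 ≤ R →
      |E.ω (fun s => (∏ i ∈ I, H i s) * cp ξ φ s * E.e z s) - mt E.ω a₁ α₁ α₂ z fun s =>
        (∏ i ∈ I, H i s) * cp (ξ - A0 (sw u z (R * t ^ nr p.w))) φ s| ≤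
        (∏ i ∈ I, nu E.Λ p.w (x i) (rr i) (H i)) *
          (P * (σ * (1 + σ) * t ^ 20 + t ^ (15 + 2 * nr p.w)) / R ^ 2) := by
  obtain ⟨C₁, hC₁, h1⟩ := leStmt hS hP hL hW p
  obtain ⟨P₀, hP₀, hB'⟩ := hB p
  have hK : (0 : ℝ) ≤ (p.w : ℝ) ^ 2 * p.r₀ := by positivity
  have hK' : 0 ≤ C₁ * (1 + P₀ * (p.r₀ : ℝ) ^ 2) := by positivity
  refine ⟨600 + 8 * ((p.w : ℝ) ^ 2 * p.r₀) + C₁ * (1 + P₀ * (p.r₀ : ℝ) ^ 2), by linarith, ?_⟩
  intro W E D₀ R Y P t α₁ α₂ a₁ a₂ h t0 hC hY hD c ι I x rr H z r σ φ ξ u q hF hξ hq hrL hz hd hLr r1 r2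
  have hE := h.ed.toEnv
  have hG := hE.toGs
  have hw := hG.w4
  have hn : 4 ≤ nr p.w := le_trans (by norm_num) (N3.nr_ge hw)
  have hσ := hLr.1
  have P1 := h.P1
  have R1 := h.maj.1
  have t1 : 600 * t ≤ 1 := le_trans (by gcongr; linarith) hC
  have t2 : 8 * ((p.w : ℝ) ^ 2 * p.r₀) * t ≤ 1 := le_trans (by gcongr; linarith) hC
  have t3 : C₁ * (1 + P₀ * (p.r₀ : ℝ) ^ 2) * t ≤ 1 := le_trans (by gcongr; linarith) hC
  have t4 : t ≤ 1 := by linarith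
  have hw' : (4 : ℝ) ≤ p.w := by exact_mod_cast hw
  have h2' : (2 : ℝ) ≤ p.r₀ := by exact_mod_cast gs_two hG
  have h16 : 16 * (p.r₀ : ℝ) ≤ (p.w : ℝ) ^ 2 * p.r₀ := by gcongr; nlinarith
  have ρ1 : 1 ≤ R * t ^ nr p.w * t := by
    rw [mul_assoc, ← pow_succ]; exact N3.one_le_R hw h.maj t0 t4 hY (by linarith)
  have ρ2 : R * t ^ nr p.w ≤ r * t ^ (nr p.w - 2) := by
    rw [show nr p.w = 2 + (nr p.w - 2) by omega, pow_add, ← mul_assoc, Nat.add_sub_cancel_left]; gcongr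
  have ρ3 : (a₂ : ℝ) ≤ R * t ^ nr p.w * t := by rw [mul_assoc, ← pow_succ]; exact hD.up
  have ρ0 : 0 < R * t ^ nr p.w := by positivity
  generalize R * t ^ nr p.w = ρ at *
  have r0 : (0 : ℝ) < r := lt_of_lt_of_le (by positivity) r1
  have ρ4 : 8 * (p.w : ℝ) ^ 2 * p.r₀ ≤ ρ := by nlinarith [mul_le_mul_of_nonneg_left ρ1 hK]
  have ρ5 : 600 * ρ ≤ r := by
    have := ρ2.trans (mul_le_mul_of_nonneg_left (pow_le_of_le_one t0.le t4 (by omega)) r0.le)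
    nlinarith
  have ρ6 : (a₂ : ℝ) + 1 ≤ ρ := by nlinarith
  have har : a₂ ≤ r := by exact_mod_cast (show (a₂ : ℝ) ≤ r by linarith)
  have hwa := Nat.mul_le_mul_left p.w har
  have hrw : bl z r ⊆ bl z (p.w * r) := bl_mono z (le_wmul hG r)
  obtain ⟨s1, s2, s3⟩ := swept hW hq (hrw.trans hz) hLr (ρ := ρ) (by linarith) (by linarith)
  have hrg : E.Λ.rg ≤ p.r₀ := by have := gs_rg hG; omega
  obtain ⟨-, -, b1, b2, -, -, b3⟩ := hB' _ _ _ _ hE 0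
  have M1 : 1 ≤ t⁻¹ ^ 2 := one_le_pow₀ (one_le_inv₀ t0 |>.2 t4)
  have k1 := (h1 _ _ _ _ hE (E.e 0) p.r₀ R P P₀ (t⁻¹ ^ 2) le_rfl (E30.ins_le b1 hrg) b2 (by linarith)
    (by linarith) h.prof (by linarith) (fun c hc => (b3 0 c (bl_mono 0 (hrg.trans hc))).1) M1 c ι I x rr H
    z r σ φ ξ u q hF hξ hq hrL hz hd hLr (by rwa [inv_pow, div_inv_eq_mul])
    (by rwa [inv_pow, le_inv_mul_iff₀' (by positivity)])).1 ρ ρ4 ρ5
  have k2 := rem hS hP hB hT h.toOk hD hF (hwa.trans hrL) ((bl_mono z hwa).trans hz)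
    (fun i hi => (hd i hi).mono_right (bl_mono z hwa)) (depG_cp s1 φ) (fun i hi => out_cp (fun y hy => by
      rw [Pi.sub_apply, hξ i hi y hy, s2.1 y fun h' =>
        disjoint_left.1 (hd i hi) (bl_mono _ (le_wmul hG _) hy) (hrw h'), sub_zero]) φ)
    (out_cp (s3 a₂ ρ6) φ) (abs_cp_le _ φ)
  rw [Dt.e, (hB' _ _ _ _ hE z).2.1] at k1
  simp only [mul_right_comm _ (et E.Λ E.ω z _)] at k1
  have hPi := prod_nonneg hS hG hF
  generalize ∏ i ∈ I, nu E.Λ p.w (x i) (rr i) (H i) = PP at *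
  have c0 := cw_pos hw
  have e1 : (ρ / r) ^ (cw p.w / 4) ≤ t ^ 26 := calc
    _ ≤ (t ^ (nr p.w - 2)) ^ (cw p.w / 4) := by gcongr; rwa [div_le_iff₀' r0]
    _ = t ^ (((nr p.w : ℝ) - 2) * (cw p.w / 4)) := by
      rw [← rpow_natCast, ← rpow_mul t0.le, Nat.cast_sub (by omega), Nat.cast_two]
    _ ≤ t ^ ((26 : ℕ) : ℝ) := rpow_le_rpow_of_exponent_ge t0 t4 (by push_cast; linarith [N3.nr_cw hw])
    _ = _ := rpow_natCast _ _
  have e2 : (t⁻¹ ^ 2) ^ ew p.w ≤ t⁻¹ := calc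
    _ ≤ (t⁻¹ ^ 2) ^ (1 / 2 : ℝ) := rpow_le_rpow_of_exponent_le M1 (by linarith [N3.ew_le hw])
    _ = _ := by rw [← sqrt_eq_rpow, sqrt_sq (by positivity)]
  have e3 : 1 / (r : ℝ) ^ 2 ≤ 1 / (R * t ^ 2) ^ 2 := by gcongr
  have e4 : ((p.r₀ : ℝ) / r) ^ (2 + cw p.w / 2) ≤ (p.r₀ : ℝ) ^ 2 * (P * t⁻¹ * t ^ 26 * (1 / (r : ℝ) ^ 2)) := by
    rw [rpow_add (by positivity), rpow_two]
    have : ((p.r₀ : ℝ) / r) ^ (cw p.w / 2) ≤ t ^ 26 :=
      (rpow_le_rpow_of_exponent_ge (by positivity) (by rw [div_le_one r0]; linarith)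
        (by linarith : cw p.w / 4 ≤ _)).trans (le_trans (by gcongr; linarith) e1)
    calc _ ≤ ((p.r₀ : ℝ) / r) ^ 2 * (1 * 1 * t ^ 26) := by gcongr; linarith
      _ ≤ ((p.r₀ : ℝ) / r) ^ 2 * (P * t⁻¹ * t ^ 26) := by gcongr; exact (one_le_inv₀ t0).2 t4
      _ = _ := by ring
  have e5 : P * (t⁻¹ ^ 2) ^ ew p.w * (ρ / r) ^ (cw p.w / 4) / (r : ℝ) ^ 2 +
      P₀ * ((p.r₀ : ℝ) / r) ^ (2 + cw p.w / 2) ≤ (1 + P₀ * (p.r₀ : ℝ) ^ 2) * t * (P * t ^ 20 / R ^ 2) := calc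
    _ ≤ P * t⁻¹ * t ^ 26 * (1 / (r : ℝ) ^ 2) +
        P₀ * ((p.r₀ : ℝ) ^ 2 * (P * t⁻¹ * t ^ 26 * (1 / (r : ℝ) ^ 2))) := by
      rw [div_eq_mul_one_div]; gcongr
    _ = (1 + P₀ * (p.r₀ : ℝ) ^ 2) * (P * t⁻¹ * t ^ 26 * (1 / (r : ℝ) ^ 2)) := by ring
    _ ≤ (1 + P₀ * (p.r₀ : ℝ) ^ 2) * (P * t⁻¹ * t ^ 26 * (1 / (R * t ^ 2) ^ 2)) := by gcongr
    _ = _ := by field_simp
  refine (abs_sub_le _ _ _).trans ((add_le_add k1 k2).trans ?_)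
  calc _ ≤ C₁ * PP * (σ * (1 + σ)) * ((1 + P₀ * (p.r₀ : ℝ) ^ 2) * t * (P * t ^ 20 / R ^ 2)) +
        32 * PP * (P * t ^ (16 + 2 * nr p.w) / R ^ 2) := by gcongr
    _ = C₁ * (1 + P₀ * (p.r₀ : ℝ) ^ 2) * t * (PP * (σ * (1 + σ)) * (P * t ^ 20 / R ^ 2)) +
        32 * t * (PP * (P * t ^ (15 + 2 * nr p.w) / R ^ 2)) := by ring
    _ ≤ 1 * (PP * (σ * (1 + σ)) * (P * t ^ 20 / R ^ 2)) +
        1 * (PP * (P * t ^ (15 + 2 * nr p.w) / R ^ 2)) := by gcongr; linarith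
    _ = _ := by ring

end Crest.Agent.T145.Ev.Si60
end

-- ▼ part T145/EvOut_9

/-!
# Row 145, even sector: the energy stars away from an insertion (helper9)
-/

set_option autoImplicit false

namespace Crest.Agent.T145.Ev.O9

open Finset Pot Xi Real Fl Si60

variable {p : Par} {W : ℕ} {E : Dt} {D₀ R Y P t α₁ α₂ : ℝ} {a₁ a₂ : ℕ}

/-- the size of the coefficients -/
theorem al_le (hw : 4 ≤ p.w) (hR : 0 < R) (hP : 0 ≤ P) (t0 : 0 < t) (t1 : t ≤ 1)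
    (hD : E.Dc p R P t a₁ a₂ α₁ α₂) : max |α₁| |α₂| * t ^ (48 * nr p.w + 76) ≤ P / R ^ 2 := by
  have a0 : (0 : ℝ) < a₁ := lt_of_lt_of_le (by positivity) hD.lo
  have h1 : R / a₁ ≤ t⁻¹ ^ (24 * nr p.w) := by
    rw [div_le_iff₀ a0, inv_pow, inv_mul_eq_div, le_div_iff₀ (by positivity)]; exact hD.lo
  have h2 : (R / a₁) ^ (3 * ew p.w) ≤ t⁻¹ ^ 76 := by
    refine (rpow_le_rpow (by positivity) h1 (by linarith [N3.ew_pos hw])).trans ?_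
    rw [← rpow_natCast, ← rpow_mul (by positivity), ← rpow_natCast]
    refine rpow_le_rpow_of_exponent_le ((one_le_inv₀ t0).2 t1) ?_
    push_cast; linarith [N3.nr_ew_le hw]
  have h3 := hD.b.trans (mul_le_mul_of_nonneg_left h2 hP)
  have m0 : 0 ≤ max |α₁| |α₂| := le_max_of_le_left (abs_nonneg _)
  rw [le_div_iff₀ (by positivity)]
  calc _ = max |α₁| |α₂| * (R * t ^ (24 * nr p.w)) ^ 2 * t ^ 76 := by ring
    _ ≤ max |α₁| |α₂| * (a₁ : ℝ) ^ 2 * t ^ 76 := by have := hD.lo; gcongr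
    _ ≤ P * t⁻¹ ^ 76 * t ^ 76 := by gcongr
    _ = P := by field_simp

theorem mt_le {ω : Sta} {a : ℕ} {z : Pt} {G : Cfg Pt → ℝ} {ε : ℝ} (h1 : |cv ω (trl z (T1 a)) G| ≤ ε)
    (h2 : |cv ω (trl z (T2 a)) G| ≤ ε) : |mt ω a α₁ α₂ z G| ≤ 2 * (max |α₁| |α₂| * ε) := by
  refine (abs_add_le _ _).trans ?_
  rw [abs_mul, abs_mul, two_mul]
  have m0 : 0 ≤ max |α₁| |α₂| := le_max_of_le_left (abs_nonneg _)
  exact add_le_add (mul_le_mul (le_max_left _ _) h1 (abs_nonneg _) m0)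
    (mul_le_mul (le_max_right _ _) h2 (abs_nonneg _) m0)

theorem rpow_cw (hw : 4 ≤ p.w) (t0 : 0 < t) (t1 : t ≤ 1) {x : ℝ} (x0 : 0 ≤ x) (hx : x ≤ t ^ (nr p.w - 2)) :
    x ^ (cw p.w / 2) ≤ t ^ 52 := by
  refine (rpow_le_rpow x0 hx (by linarith [N3.cw_pos hw])).trans ?_
  rw [← rpow_natCast, ← rpow_mul t0.le, ← rpow_natCast]
  refine rpow_le_rpow_of_exponent_ge t0 t1 ?_
  rw [Nat.cast_sub (by have := N3.nr_ge hw; omega)]
  push_cast; linarith [N3.nr_cw hw]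

set_option maxHeartbeats 1000000 in
/-- OUTER: the stars outside `bl 0 (3 w a)` do not see an insertion of radius `a` -/
theorem outer (hS : SemiStmt) (hP : ProdStmt) (hB : BasStmt) (hT : TgStmt) (hF : FarEStmt) (p : Par) :
    ∃ C : ℝ, 1 ≤ C ∧ ∀ (W : ℕ) (E : Dt) (D₀ R Y P t α₁ α₂ : ℝ) (a₁ a₂ : ℕ), E.Bs p W D₀ R Y P → 0 < t →
      C * t ≤ 1 → R ≤ t ^ (nr p.w + 1) * E.L → E.Dc p R P t a₁ a₂ α₁ α₂ →
      ∀ (a : ℕ) (G : Cfg Pt → ℝ) (ε : ℝ), R ≤ a → (a : ℝ) ≤ 2 * t⁻¹ * R → Ins 0 a G →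
        nu E.Λ p.w 0 a G ≤ t⁻¹ ^ 8 → ε ≤ t ^ (51 * nr p.w) →
        (∀ z, eu z ≤ t⁻¹ ^ nr p.w * R → z ∉ bl 0 (3 * p.w * a) →
          |cv E.ω (trl z (T1 a₁)) G| ≤ ε ∧ |cv E.ω (trl z (T2 a₁)) G| ≤ ε) →
        ∑ z ∈ E.D \ bl 0 (3 * p.w * a), |E.ω fun s => G s * E.e z s| ≤ P * t ^ 7 := by
  obtain ⟨C₁, hC₁, hF⟩ := hF p
  have w0 : (0 : ℝ) ≤ p.w := by positivity
  refine ⟨2000 + 32 * p.w + 4 * C₁, by linarith, ?_⟩
  intro W E D₀ R Y P t α₁ α₂ a₁ a₂ h t0 hC hL hD a G ε hRa ha hG hν hε hcv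
  have hE := h.ed.toEnv
  have hw := hE.w4
  obtain ⟨k, hk⟩ : ∃ k, nr p.w = k + 2 := ⟨_, rfl⟩
  have hk1 : 1040 ≤ k := by have := N3.nr_ge hw; omega
  have P1 := h.P1
  have R1 := h.maj.1
  have t2 : 2000 * t ≤ 1 := le_trans (by gcongr; linarith) hC
  have t3 : 32 * p.w * t ≤ 1 := le_trans (by gcongr; linarith) hC
  have t4 : 4 * C₁ * t ≤ 1 := le_trans (by gcongr; linarith) hC
  have t1 : t ≤ 1 := by linarith
  have hs : t * t⁻¹ = 1 := mul_inv_cancel₀ t0.ne'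
  have s1 : 1 ≤ t⁻¹ := (one_le_inv₀ t0).2 t1
  have tk : t ^ k ≤ t := pow_le_of_le_one t0.le t1 (by omega)
  have sk : t⁻¹ ≤ t⁻¹ ^ k := le_self_pow₀ s1 (by omega)
  have hks : t ^ k * t⁻¹ ^ k = 1 := by rw [← mul_pow, hs, one_pow]
  have L0 : (0 : ℝ) < E.L := by
    by_contra h0
    nlinarith [mul_nonneg (pow_pos t0 (nr p.w + 1)).le (neg_nonneg.2 (not_lt.1 h0))]
  have a0 : (1 : ℝ) ≤ a := R1.trans hRa
  have r0 : p.r₀ ≤ a := by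
    have h1 : (1 : ℝ) ≤ E.r₁ := by exact_mod_cast le_trans (by norm_num) h.r8
    exact h.r0.trans (by exact_mod_cast ((le_self_pow₀ h1 (by norm_num)).trans h.r1).trans hRa)
  have aL : (a : ℝ) ≤ 2 * t ^ 2 * t ^ k * E.L :=
    calc _ ≤ 2 * t⁻¹ * (t ^ (nr p.w + 1) * E.L) := ha.trans (by gcongr)
      _ = 2 * t ^ 2 * t ^ k * E.L * (t * t⁻¹) := by rw [hk]; ring
      _ = _ := by rw [hs, mul_one]
  set b := ⌈(a : ℝ) * t⁻¹ ^ k⌉₊ with hb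
  have b1 : (a : ℝ) * t⁻¹ ^ k ≤ b := Nat.le_ceil _
  have b2 : (b : ℝ) ≤ 2 * (a * t⁻¹ ^ k) := by
    have := (Nat.ceil_lt_add_one (show 0 ≤ (a : ℝ) * t⁻¹ ^ k by positivity)).le
    nlinarith
  have b3 : 32 * (p.w * a) ≤ b := by
    have : (32 * (p.w * a) : ℝ) ≤ a * t⁻¹ ^ k :=
      calc _ = 32 * p.w * t * (a * t⁻¹) := by linear_combination (-32 * (p.w * a) : ℝ) * hs
        _ ≤ 1 * (a * t⁻¹ ^ k) := by gcongr
        _ = _ := one_mul _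
    exact_mod_cast this.trans b1
  have b4 : 2 * b ≤ E.L := by
    have : (2 * b : ℝ) ≤ E.L :=
      calc _ ≤ 2 * (2 * (2 * t ^ 2 * t ^ k * E.L * t⁻¹ ^ k)) := by
            refine mul_le_mul_of_nonneg_left (b2.trans ?_) zero_le_two
            gcongr
        _ = 8 * t ^ 2 * E.L := by linear_combination (8 * t ^ 2 * E.L : ℝ) * hks
        _ ≤ 1 * E.L := by gcongr; nlinarith
        _ = _ := one_mul _
    exact_mod_cast this
  have a2 : a₂ ≤ a := by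
    have := hD.up.trans (mul_le_of_le_one_right (by linarith) (pow_le_one₀ t0.le t1))
    exact_mod_cast this.trans hRa
  have wa : p.w * a₂ ≤ p.w * a := Nat.mul_le_mul_left _ a2
  have hLN := hE.le
  have ν0 := ((hS E.Λ p.w a 0 hE.mem.ok (by have := hE.gd.2.1; nlinarith)).1 _ hG).1
  -- the far part
  have f1 := hF _ _ _ _ hE R P (by linarith) (by linarith) h.prof a b G r0
    (by rw [mul_assoc]; omega) (by rw [mul_assoc]; omega) hG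
  have f2 : ((a : ℝ) / b) ^ (cw p.w / 2) ≤ t ^ 52 := by
    refine rpow_cw hw t0 t1 (by positivity) ?_
    rw [hk, Nat.add_sub_cancel, div_le_iff₀ (lt_of_lt_of_le (by positivity) b1)]
    calc _ = t ^ k * (a * t⁻¹ ^ k) := by linear_combination (-a : ℝ) * hks
      _ ≤ _ := by gcongr
  have f3 : ((a : ℝ) / E.L) ^ (cw p.w / 2) ≤ t ^ 52 := by
    refine rpow_cw hw t0 t1 (by positivity) ?_
    rw [hk, Nat.add_sub_cancel, div_le_iff₀ L0]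
    refine aL.trans (mul_le_mul_of_nonneg_right (mul_le_of_le_one_left (by positivity) ?_) L0.le)
    nlinarith
  have f4 : max (a / R) (R / a) ^ ew p.w ≤ 2 * t⁻¹ := by
    have h1 : max (a / R) (R / a) ≤ 2 * t⁻¹ := max_le ((div_le_iff₀ (by linarith)).2 ha)
      (((div_le_one (by linarith)).2 hRa).trans (by linarith))
    refine (rpow_le_rpow (le_max_of_le_left (by positivity)) h1 (N3.ew_pos hw).le).trans ?_
    exact (rpow_le_rpow_of_exponent_le (by linarith) (by linarith [N3.ew_le hw])).trans_eq (rpow_one _)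
  have f5 : ∑ z ∈ bl 0 (E.N + E.N / 4) \ bl 0 b, |E.ω fun s => G s * E.e z s| ≤ P * t ^ 8 :=
    calc _ ≤ C₁ * t⁻¹ ^ 8 * P * (2 * t⁻¹) * (t ^ 52 + t ^ 52) := f1.trans (by gcongr)
      _ = 4 * C₁ * t * (P * t ^ 42) := by field_simp; ring
      _ ≤ 1 * (P * t ^ 8) := by gcongr ?_ * (P * ?_); exact N3.pow_anti t0 t1 (by norm_num)
      _ = _ := one_mul _
  -- the inactive sites
  have hα := al_le hw (by linarith) (by linarith) t0 t1 hD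
  have g1 : ∀ z ∈ bl 0 b \ bl 0 (3 * p.w * a),
      |E.ω fun s => G s * E.e z s| ≤ 34 * (P * t ^ (8 + 2 * nr p.w) / R ^ 2) := fun z hz => by
    obtain ⟨z1, z2⟩ := mem_sdiff.1 hz
    rw [mul_assoc] at z2
    have k1 := rem hS hP hB hT h.toOk hD (c := 0) (z := z) (I := (univ : Finset Unit)) (x := fun _ => 0)
      (rr := fun _ => a) (H := fun _ => G) (B := fun _ => 1)
      ⟨by simp, fun _ _ => hG, fun _ _ => ⟨r0, by omega⟩, fun _ _ => bl_mono 0 (by omega),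
        fun _ _ _ _ hne => (hne rfl).elim⟩ (by omega) (bl_subset_bl z1 (by omega))
      (fun _ _ => disjoint_left.2 fun y h1 h2 => z2 (by
        simp only [mem_bl, Prod.fst_zero, Prod.snd_zero] at h1 h2 ⊢; omega))
      (DepG.const _ _) (fun _ _ => Out.const _ _) (Out.const _ _) (fun _ => by simp)
    simp only [univ_unique, prod_singleton, mul_one] at k1
    have k2 : eu z ≤ t⁻¹ ^ nr p.w * R :=
      calc _ ≤ 2 * (b : ℝ) := by simpa using eu_le_of_bl z1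
        _ ≤ 2 * (2 * (2 * t⁻¹ * R * t⁻¹ ^ k)) := by
            refine mul_le_mul_of_nonneg_left (b2.trans ?_) zero_le_two
            gcongr
        _ = 8 * t * (t⁻¹ ^ nr p.w * R) := by
            rw [hk]; linear_combination (-8 * t⁻¹ * R * t⁻¹ ^ k : ℝ) * hs
        _ ≤ 1 * (t⁻¹ ^ nr p.w * R) := by gcongr; linarith
        _ = _ := one_mul _
    obtain ⟨c1, c2⟩ := hcv z k2 (by rwa [mul_assoc])
    have k3 : |mt E.ω a₁ α₁ α₂ z G| ≤ 2 * (P * t ^ (8 + 2 * nr p.w) / R ^ 2) := by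
      refine (mt_le c1 c2).trans (mul_le_mul_of_nonneg_left ?_ zero_le_two)
      have m0 : 0 ≤ max |α₁| |α₂| := le_max_of_le_left (abs_nonneg _)
      calc _ ≤ max |α₁| |α₂| * t ^ (48 * nr p.w + 76 + (8 + 2 * nr p.w)) :=
            mul_le_mul_of_nonneg_left (hε.trans (N3.pow_anti t0 t1 (by omega))) m0
        _ = max |α₁| |α₂| * t ^ (48 * nr p.w + 76) * t ^ (8 + 2 * nr p.w) := by ring
        _ ≤ P / R ^ 2 * t ^ (8 + 2 * nr p.w) := by gcongr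
        _ = _ := by ring
    have k4 : 32 * nu E.Λ p.w 0 a G * (P * t ^ (16 + 2 * nr p.w) / R ^ 2) ≤
        32 * (P * t ^ (8 + 2 * nr p.w) / R ^ 2) :=
      calc _ ≤ 32 * t⁻¹ ^ 8 * (P * t ^ (16 + 2 * nr p.w) / R ^ 2) := by gcongr
        _ = _ := by field_simp; ring
    have := abs_sub_abs_le_abs_sub (E.ω fun s => G s * E.e z s) (mt E.ω a₁ α₁ α₂ z G)
    linarith
  have g2 : ((bl 0 b \ bl 0 (3 * p.w * a)).card : ℝ) ≤ (12 * t⁻¹ ^ (k + 1) * R) ^ 2 := by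
    have h1 : ((bl (0 : Pt) b).card : ℝ) = (2 * b + 1) ^ 2 := by rw [card_bl]; push_cast; ring
    refine le_trans (by exact_mod_cast card_le_card sdiff_subset) (h1.trans_le ?_)
    have h2 : (b : ℝ) ≤ 4 * t⁻¹ ^ (k + 1) * R :=
      b2.trans ((by gcongr : _ ≤ 2 * (2 * t⁻¹ * R * t⁻¹ ^ k)).trans_eq (by ring))
    have h3 : (1 : ℝ) ≤ b := le_trans (one_le_mul_of_one_le_of_one_le a0 (s1.trans sk)) b1
    exact pow_le_pow_left₀ (by positivity) (by linarith) 2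
  have g3 : ∑ z ∈ bl 0 b \ bl 0 (3 * p.w * a), |E.ω fun s => G s * E.e z s| ≤ 4896 * t ^ 2 * (P * t ^ 8) :=
    calc _ ≤ _ := sum_le_card_nsmul _ _ _ g1
      _ ≤ (12 * t⁻¹ ^ (k + 1) * R) ^ 2 * (34 * (P * t ^ (8 + 2 * nr p.w) / R ^ 2)) := by
          rw [nsmul_eq_mul]; gcongr
      _ = 4896 * t ^ 2 * (P * t ^ 8) * ((t * t⁻¹) ^ (k + 1)) ^ 2 := by
          rw [hk]; generalize t⁻¹ = s; field_simp; ring
      _ = _ := by rw [hs]; simp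
  have g4 : E.D \ bl 0 (3 * p.w * a) ⊆ (bl 0 (E.N + E.N / 4) \ bl 0 b) ∪ (bl 0 b \ bl 0 (3 * p.w * a)) :=
    fun z hz => by
      obtain ⟨z1, z2⟩ := mem_sdiff.1 hz
      by_cases h0 : z ∈ bl 0 b
      exacts [mem_union_right _ (mem_sdiff.2 ⟨h0, z2⟩), mem_union_left _ (mem_sdiff.2 ⟨h.ed.hi z1, h0⟩)]
  refine (sum_le_sum_of_subset_of_nonneg g4 fun _ _ _ => abs_nonneg _).trans ?_
  rw [sum_union (disjoint_of_subset_right sdiff_subset sdiff_disjoint)]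
  have g5 : 4896 * t ^ 2 ≤ 1 := by nlinarith
  have g6 : 0 ≤ P * t ^ 7 := by positivity
  have g7 : P * t ^ 8 ≤ 1 / 2 * (P * t ^ 7) :=
    (show _ = t * (P * t ^ 7) by ring).trans_le (mul_le_mul_of_nonneg_right (by linarith) g6)
  have g8 := mul_le_of_le_one_left (show 0 ≤ P * t ^ 8 by positivity) g5
  linarith

end Crest.Agent.T145.Ev.O9
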