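import Crest.Agent.T145.EvDef_2
import Crest.Agent.T145.EvNd_5
import Crest.Agent.T145.FlSXa_44
import Crest.Agent.T145.FlBare_80
import Crest.Agent.T145.EvX1u_11
import Crest.Agent.T145.FlEnv_30
import Crest.Agent.T145.FlBas_4
import Crest.Agent.T145.FlXf_91
import Crest.Agent.T145.EvLe_60
import Crest.Agent.T145.FlA_51
import Crest.Agent.T145.FlSw_22
import Crest.Agent.T145.FlRate_98

-- ▼ part T145/EvVl_5
section

/-!
# Row 145, even sector: linearity of `ω'` and the quadratic form of `K'` (helper5)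
-/

set_option autoImplicit false

namespace Crest.Agent.T145.Ev

open Finset Real Fl Pot Xi

namespace V5

variable {p : Par} {Λ : Lat} {ω ω' : Sta} {D : Finset Pt} {L N : ℕ} {F G : Cfg Pt → ℝ}

theorem rg_le (h : Env p Λ ω L N) : 800 * Λ.rg ≤ N ∧ 800 ≤ N := by
  have h1 := h.gd.2.1
  have h2 := h.big
  have h3 := h.le
  have h4 := h.w4
  have h5 := h.ok.one_le_rg
  constructor <;> nlinarith

/-- an insertion near the origin and any star fit into one ball -/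
theorem ins_Fe (h : Ed p Λ ω ω' D L N) (hF : Ins 0 (N / 4) F) {z : Pt} (hz : z ∈ D) :
    Ins (z.1 / 2, z.2 / 2) N fun s => F s * et Λ ω z s := by
  have h1 := rg_le h.toEnv
  have h2 := h.hi hz
  refine E30.ins_mul (E30.ins_mono hF fun y hy => ?_)
    (E30.ins_mono (E30.ins_sub (Om.ins_est h.toEnv.ok z) (E30.ins_const z Λ.rg _)) fun y hy => ?_)
  all_goals simp only [mem_bl, Prod.fst_zero, Prod.snd_zero] at h2 hy ⊢; omega

theorem sum_smul' (h : Ed p Λ ω ω' D L N) {ι : Type*} (T : Finset ι) (a : ι → ℝ) {F : ι → Cfg Pt → ℝ}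
    (hF : ∀ i ∈ T, Ins 0 (N / 4) (F i)) :
    ω' (fun s => ∑ i ∈ T, a i * F i s) = ∑ i ∈ T, a i * ω' (F i) := by
  rw [h.der _ (E30.ins_sum T fun i hi => E30.ins_smul (hF i hi) _),
    sum_congr (s₁ := T) rfl fun i hi => by rw [h.der _ (hF i hi), mul_sum], sum_comm]
  refine sum_congr rfl fun z hz => ?_
  rw [← h.toEnv.ex_sum_smul T a fun i hi => ins_Fe h (hF i hi) hz]
  simp only [sum_mul, mul_assoc]

theorem sum' (h : Ed p Λ ω ω' D L N) {ι : Type*} (T : Finset ι) {F : ι → Cfg Pt → ℝ}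
    (hF : ∀ i ∈ T, Ins 0 (N / 4) (F i)) : ω' (fun s => ∑ i ∈ T, F i s) = ∑ i ∈ T, ω' (F i) := by
  simpa using sum_smul' h T (fun _ => 1) hF


theorem lin' (h : Ed p Λ ω ω' D L N) (hF : Ins 0 (N / 4) F) (hG : Ins 0 (N / 4) G) (a b : ℝ) :
    ω' (fun s => a * F s + b * G s) = a * ω' F + b * ω' G := by
  simpa using sum_smul' h (univ : Finset Bool) (fun i => cond i a b) (F := fun i => cond i F G)
    fun i _ => by cases i; exacts [hG, hF]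

theorem add' (h : Ed p Λ ω ω' D L N) (hF : Ins 0 (N / 4) F) (hG : Ins 0 (N / 4) G) :
    ω' (fun s => F s + G s) = ω' F + ω' G := by simpa using lin' h hF hG 1 1

theorem sub' (h : Ed p Λ ω ω' D L N) (hF : Ins 0 (N / 4) F) (hG : Ins 0 (N / 4) G) :
    ω' (fun s => F s - G s) = ω' F - ω' G := by simpa [sub_eq_add_neg] using lin' h hF hG 1 (-1)

theorem JJ' (h : Ed p Λ ω ω' D L N) {z x : Pt} (hz : z ∈ bl 0 (N / 8)) (hx : x - z ∈ bl 0 (N / 8 - 1)) :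
    ω' (fun s => Jz z s * Jz x s) = KK ω' (x - z) := by
  have h1 := rg_le h.toEnv
  have b := h.trl' z _ (E30.ins_mul (E30.ins_J (bl_mono 0 (by omega))) (E30.ins_J' hx (by omega))) hz
  rw [E30.trl_mul, Om.trl_Jz, Om.trl_Jz, zero_add, sub_add_cancel] at b
  exact b

theorem KK_swap' (h : Ed p Λ ω ω' D L N) {x : Pt} (hx : x ∈ bl 0 (N / 4 - 1)) :
    KK ω' x.swap = KK ω' x := by
  have h1 := rg_le h.toEnv
  have hx' : x.swap ∈ bl 0 (N / 4 - 1) := by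
    simp only [mem_bl, Prod.fst_swap, Prod.snd_swap, Prod.fst_zero, Prod.snd_zero] at hx ⊢; omega
  rw [KK, ← (h.d4' _ (E30.ins_mul (E30.ins_J (bl_mono 0 (by omega))) (E30.ins_J' hx' (by omega)))).2, KK]
  have e : x.swap = swpZ 0 x := by ext <;> simp [swpZ]
  simp only [e, Om.Jz_swp, (Om.d4_Jz 0 _).2]

theorem KK_rot' (h : Ed p Λ ω ω' D L N) {x : Pt} (hx : x ∈ bl 0 (N / 4 - 1)) :
    KK ω' (-x.2, x.1) = KK ω' x := by
  have h1 := rg_le h.toEnv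
  have hx' : ((-x.2, x.1) : Pt) ∈ bl 0 (N / 4 - 1) := by
    simp only [mem_bl, Prod.fst_zero, Prod.snd_zero] at hx ⊢; omega
  rw [KK, ← (h.d4' _ (E30.ins_mul (E30.ins_J (bl_mono 0 (by omega))) (E30.ins_J' hx' (by omega)))).1, KK]
  have e : ((-x.2, x.1) : Pt) = rotZ 0 x := by ext <;> simp [rotZ]
  simp only [e, Om.Jz_rot, (Om.d4_Jz 0 _).1]

theorem KK_neg_fst' (h : Ed p Λ ω ω' D L N) {x : Pt} (hx : x ∈ bl 0 (N / 4 - 1)) :
    KK ω' (-x.1, x.2) = KK ω' x := by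
  have hx' : x.swap ∈ bl 0 (N / 4 - 1) := by
    simp only [mem_bl, Prod.fst_swap, Prod.snd_swap, Prod.fst_zero, Prod.snd_zero] at hx ⊢; omega
  have := KK_rot' h hx'
  rw [Prod.snd_swap, Prod.fst_swap] at this
  rw [this, KK_swap' h hx]

theorem XX' (h : Ed p Λ ω ω' D L N) {n : ℕ} (hn : 2 * n + 1 ≤ N / 8) {u v : Pt → ℝ}
    (hu : Pot.Sup (bl 0 n) u) (hv : Pot.Sup (bl 0 n) v) :
    ω' (fun s => X u s * X v s) = ∑ z ∈ bl 0 n, ∑ w ∈ bl 0 n, u z * v w * KK ω' (w - z) := by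
  have i : ∀ z ∈ bl 0 n, ∀ w ∈ bl 0 n, Ins 0 (N / 4) fun s => Jz z s * Jz w s := fun z hz w hw =>
    E30.ins_mul (E30.ins_J' hz (by omega)) (E30.ins_J' hw (by omega))
  simp only [X]
  rw [XX_eq hu hv, sum' h _ fun z hz => E30.ins_sum _ fun w hw => E30.ins_smul (i z hz w hw) _]
  refine sum_congr rfl fun z hz => ?_
  rw [sum_smul' h _ _ (i z hz)]
  refine sum_congr rfl fun w hw => ?_
  rw [JJ' h (bl_mono 0 (by omega) hz) (by
    simp only [mem_bl, Prod.fst_zero, Prod.snd_zero, Prod.fst_sub, Prod.snd_sub] at hz hw ⊢; omega)]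

theorem E1_eq {u v : Pt → ℝ} {n : ℕ} (hu : Pot.Sup D u) (hv : Pot.Sup (bl 0 n) v) :
    E1 D u v = nnL.En (bl 0 (n + 1)) u v := by
  rw [E1, B80.A0_dv (B80.gb_bl hv), sum_mul_dv u fun e _ => ⟨hu _, hu _⟩, Lat.En]
  exact sum_congr rfl fun e _ => by simp only [nnL, div_one, mul_comm]

theorem eu_le' {x : Pt} {n : ℕ} (h : x ∈ bl 0 n) : eu x ≤ 3 / 2 * n := by
  obtain ⟨h1, h2⟩ : |x.1| ≤ n ∧ |x.2| ≤ n := by simpa [mem_bl_abs] using h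
  have h3 : |(x.1 : ℝ)| ≤ n := by exact_mod_cast h1
  have h4 : |(x.2 : ℝ)| ≤ n := by exact_mod_cast h2
  refine abs_le_of_sq_le_sq' ?_ (by positivity) |>.2
  rw [eu_sq, ← sq_abs (x.1 : ℝ), ← sq_abs (x.2 : ℝ)]
  nlinarith [abs_nonneg (x.1 : ℝ), abs_nonneg (x.2 : ℝ)]

/-- VAR for orthogonal test functions: only the kernel near the origin matters -/
theorem varO : ∃ C : ℝ, 0 ≤ C ∧ ∀ (G u v : Pt → ℝ) (R Z σ : ℝ), 1 ≤ R → 0 ≤ Z →
    (∀ x, eu x ≤ 64 * R → G x.swap = G x ∧ G (-x.1, x.2) = G x) →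
    (∀ x, x ≠ 0 → eu x ≤ 64 * R → |G x| * eu x ^ 4 ≤ Z * max (eu x / R) (R / eu x) ^ (1 / 2 : ℝ)) →
    Pot.Sup (bl 0 ⌈2 * R⌉₊) u → Pot.Sup (bl 0 ⌈32 * R⌉₊) v → Sm 3 Set.univ σ R u → Sm 3 Set.univ σ R v →
    ∑ x ∈ bl 0 ⌈2 * R⌉₊, u x * v x = 0 →
    |∑ z ∈ bl 0 ⌈32 * R⌉₊, ∑ w ∈ bl 0 ⌈32 * R⌉₊, u z * v w * G (w - z) -
      gG G R * E1 (bl 0 ⌈2 * R⌉₊) u v| ≤ C * σ ^ 2 * Z := by
  obtain ⟨C, C0, H⟩ := varP2 40
  refine ⟨C, C0, fun G u v R Z σ hR hZ hs hG hu hv su sv ho => ?_⟩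
  have R0 : 0 < R := one_pos.trans_le hR
  rcases ((abs_nonneg _).trans (su.zero (z := 0) trivial)).eq_or_lt with rfl | hσ
  · have : ∀ x, u x = 0 := fun x => abs_nonpos_iff.1 (su.zero trivial)
    simp [this, E1]
  have c1 := Nat.le_ceil R
  have c2 := Nat.ceil_lt_add_one R0.le
  have c3 := Nat.le_ceil (32 * R)
  have c4 := Nat.ceil_lt_add_one (show 0 ≤ 32 * R by linarith)
  have c5 := Nat.ceil_lt_add_one (show 0 ≤ 2 * R by linarith)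
  have c6 := Nat.le_ceil (64 * R)
  have s1 : bl (0 : Pt) ⌈2 * R⌉₊ ⊆ bl 0 ⌈32 * R⌉₊ := bl_mono 0 (Nat.ceil_mono (by linarith))
  set n := 4 * ⌈64 * R⌉₊ + 1 with hn
  let G₀ : Pt → ℝ := fun x => if eu x ≤ 64 * R then G x else 0
  let G₁ : Pt → ℝ := fun x => G₀ x - if x = 0 then ∑ y ∈ Mid.Qd n, G₀ y else 0
  have g1 : ∀ x, x ≠ 0 → G₁ x = G₀ x := fun x hx => by simp only [G₁, if_neg hx, sub_zero]
  have sm : ∀ {u : Pt → ℝ}, Sm 3 Set.univ σ R u → Sm2 (σ⁻¹ • u) 40 (⌈R⌉₊ : ℕ) ∧ ∀ x, |(σ⁻¹ • u) x| ≤ 40 :=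
    fun h => by
    have h1 := (((h.smul σ⁻¹).scale' R0 one_le_two).scale (R0.trans_le c1) (by linarith)).mono le_rfl
      Set.Subset.rfl (show _ ≤ (40 : ℝ) by
        rw [abs_of_pos (inv_pos.2 hσ), inv_mul_cancel₀ hσ.ne']; norm_num) (R0.trans_le c1)
    exact ⟨h1.sm2 (by norm_num), fun x => h1.zero trivial⟩
  have k := H G₁ (σ⁻¹ • u) (σ⁻¹ • v) n ⌈64 * R⌉₊ ⌈R⌉₊ ⌈32 * R⌉₊ R Z
    (fun x => by
      have e : eu x.swap = eu x := by simp only [eu, Prod.fst_swap, Prod.snd_swap, add_comm]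
      simp only [G₁, G₀, e, Prod.swap_eq_iff_eq_swap, Prod.swap_zero]
      split_ifs with h <;> simp only [(hs x ·), h])
    (fun x => by
      have e : eu (-x.1, x.2) = eu x := by simp [eu]
      have e' : ((-x.1, x.2) : Pt) = 0 ↔ x = 0 := by simp [Prod.ext_iff]
      simp only [G₁, G₀, e, e']
      split_ifs with h <;> simp only [(hs x ·), h])
    (by
      simp only [G₁, sum_sub_distrib, sum_ite_eq', sub_eq_zero]
      rw [if_pos (by simp only [Mid.Qd, mem_sq, Prod.fst_zero, Prod.snd_zero]; omega)])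
    ⟨fun x _ h0 => by
      rw [g1 x h0]
      simp only [G₀]
      split_ifs with h
      · exact hG x h0 h
      · rw [abs_zero, zero_mul]
        exact mul_nonneg hZ (rpow_nonneg (le_max_of_le_left (div_nonneg (eu_nonneg x) R0.le)) _),
    fun x _ hx => by
      have := le_eu_of_not_bl hx
      rw [sub_zero] at this
      rw [g1 x fun e => hx (e ▸ self_mem_bl _ _)]
      simp only [G₀, if_neg (show ¬ eu x ≤ 64 * R by linarith), abs_zero, zero_mul]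
      positivity⟩ hZ hR (by linarith) (by rw [hn]; push_cast; linarith)
    (by have := Nat.ceil_mono (show 32 * R ≤ 64 * R by linarith); omega) c1 (by linarith)
    (Nat.ceil_mono (by linarith)) (by linarith) (sm su).1 (sm su).2
    (fun x hx => by simp [hu x fun h => hx (s1 h)]) (sm sv).1 (sm sv).2 fun x hx => by simp [hv x hx]
  have e1 : gG G₁ R = gG G R := by
    refine congrArg _ (sum_congr rfl fun x hx => ?_)
    rcases eq_or_ne x 0 with rfl | h0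
    · simp
    · simp only [g1 x h0, G₀, if_pos (show eu x ≤ 64 * R by linarith [eu_le' hx])]
  have e2 : ∑ z ∈ bl 0 ⌈32 * R⌉₊, ∑ w ∈ bl 0 ⌈32 * R⌉₊, (σ⁻¹ • u) z * (σ⁻¹ • v) w * G₁ (w - z) =
      σ⁻¹ ^ 2 * ∑ z ∈ bl 0 ⌈32 * R⌉₊, ∑ w ∈ bl 0 ⌈32 * R⌉₊, u z * v w * G (w - z) := by
    have e : ∀ z ∈ bl 0 ⌈32 * R⌉₊, ∑ w ∈ bl 0 ⌈32 * R⌉₊, (σ⁻¹ • u) z * (σ⁻¹ • v) w * G₁ (w - z) =
        σ⁻¹ ^ 2 * (∑ w ∈ bl 0 ⌈32 * R⌉₊, u z * v w * G (w - z) - u z * v z * ∑ y ∈ Mid.Qd n, G₀ y) := by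
      intro z hz
      by_cases h : z ∈ bl 0 ⌈2 * R⌉₊
      swap
      · simp [hu z h]
      simp only [G₁, mul_sub, sum_sub_distrib, sub_eq_zero, mul_ite, mul_zero, sum_ite_eq', if_pos hz,
        mul_sum (bl 0 _), Pi.smul_apply, smul_eq_mul]
      congr 1
      · refine sum_congr rfl fun w hw => ?_
        have : eu (w - z) ≤ 64 * R := by
          have := eu_le' (x := w - z) (n := ⌈2 * R⌉₊ + ⌈32 * R⌉₊) (by
            simp only [mem_bl, Prod.fst_zero, Prod.snd_zero, Prod.fst_sub, Prod.snd_sub] at h hw ⊢; omega)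
          push_cast at this; linarith
        simp only [G₀, if_pos this]; ring
      · ring
    rw [sum_congr rfl e, ← mul_sum, sum_sub_distrib, ← sum_mul, ← sum_subset (f := fun x => u x * v x) s1
      fun x _ hx => by rw [hu x hx, zero_mul], ho, zero_mul, sub_zero]
  have e3 : nnL.En (bl 0 (⌈32 * R⌉₊ + 1)) (σ⁻¹ • u) (σ⁻¹ • v) = σ⁻¹ ^ 2 * E1 (bl 0 ⌈2 * R⌉₊) u v := by
    rw [E1_eq hu hv]
    simp only [Lat.En, mul_sum, Pi.smul_apply, smul_eq_mul]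
    exact sum_congr rfl fun e _ => by ring
  rw [e1, e2, e3, mul_left_comm, ← mul_sub, abs_mul, abs_of_pos (by positivity), inv_pow,
    inv_mul_le_iff₀ (by positivity)] at k
  exact k.trans_eq (by ring)

end V5
open V5

/-- VL -/
theorem vlStmt : VlStmt := fun p W D₀ _ => by
  obtain ⟨C, C0, H⟩ := varO
  refine ⟨C + 1000, by linarith, fun E R Y P h _ hL P' σ u v hK hu hv su sv ho => ?_⟩
  have R1 := h.maj.1
  have Y0 : 0 < Y := (rpow_pos_of_pos (by linarith) _).trans_le h.maj.2.1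
  have P0 := hK.1
  have hN : 1000 * R ≤ E.N :=
    (le_trans (by gcongr; linarith) hL).trans (by exact_mod_cast h.ed.le)
  have c : ∀ (a : ℝ) (k : ℕ), 0 ≤ a → k * (a + 1) ≤ 1000 → k * ⌈a * R⌉₊ ≤ E.N := fun a k ha hk => by
    have := (Nat.ceil_lt_add_one (show 0 ≤ a * R by positivity)).le
    have k0 : (0 : ℝ) ≤ k := k.cast_nonneg
    exact_mod_cast (by push_cast; nlinarith [mul_le_mul_of_nonneg_left this k0] :
      ((k * ⌈a * R⌉₊ : ℕ) : ℝ) ≤ E.N)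
  have c1 := c 32 24 (by norm_num) (by norm_num)
  have c2 := c 64 8 (by norm_num) (by norm_num)
  have c3 := (rg_le h.ed.toEnv).2
  rw [XX' h.ed (n := ⌈32 * R⌉₊) (by omega)
    (fun x hx => hu x fun h => hx (bl_mono 0 (Nat.ceil_mono (by linarith)) h)) hv]
  refine (H (KK E.ω') u v R (Y * P') σ R1 (by positivity) (fun x hx => ?_) hK.2 hu hv su sv ho).trans ?_
  · have : x ∈ bl 0 (E.N / 4 - 1) := bl_mono 0 (show ⌈64 * R⌉₊ ≤ _ by omega)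
      (mem_bl_of_eu (by rw [sub_zero]; linarith [Nat.le_ceil (64 * R)]))
    exact ⟨KK_swap' h.ed this, KK_neg_fst' h.ed this⟩
  · rw [← mul_assoc]; gcongr; linarith

end Crest.Agent.T145.Ev
end

-- ▼ part T145/EvX4_40
section

/-!
# Row 145, the even sector, X4: `T2` against a linear factor times a unit charge (helper40)
-/

set_option autoImplicit false

namespace Crest.Agent.T145.Ev

open Finset Pot Xi Real Fl

namespace X40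

/-- a potential against a charge with a flow -/
theorem pair {m n : ℕ} {v f : Pt → ℝ} {e b : ℝ} (hv : Pot.Sup (bl 0 m) v) (hn : m + 1 ≤ n)
    (hf : F2 (nnL.edI (bl 0 n)) f (b ^ 2)) (he : E0 (bl 0 m) v ≤ e ^ 2) (e0 : 0 ≤ e) (b0 : 0 ≤ b) :
    |∑ x ∈ bl 0 m, v x * f x| ≤ e * b := by
  obtain ⟨φ, rfl, hφ⟩ := hf
  rw [sum_mul_dv v fun e _ => ⟨hv _, hv _⟩]
  rw [B80.E0_ed hv ((B80.gb_bl hv).mono (bl_mono 0 hn))] at he
  refine abs_le_of_sq_le_sq' ?_ (mul_nonneg e0 b0) |> abs_le.2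
  refine (sum_mul_sq_le_sq_mul_sq _ _ _).trans ?_
  rw [mul_pow, mul_comm (e ^ 2)]
  exact mul_le_mul hφ he (sum_nonneg fun _ _ => sq_nonneg _) (sq_nonneg _)

theorem f2_up {m n : ℕ} (h : m ≤ n) {f : Pt → ℝ} {a b : ℝ} (hf : F2 (nnL.edI (bl 0 m)) f a)
    (hab : a ≤ b) : F2 (nnL.edI (bl 0 n)) f b :=
  RJ57.f2_mono (hf.subset (Lat.edI_mono (bl_mono 0 h))) hab

theorem sum_sup {D D' : Finset Pt} {v : Pt → ℝ} (hD : Pot.Sup D v) (h : D ⊆ D') (f : Pt → ℝ) :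
    ∑ x ∈ D', v x * f x = ∑ x ∈ D, v x * f x :=
  (sum_subset h fun x _ hx => by rw [hD x hx, zero_mul]).symm

/-- the energy of a smooth function in the hole -/
theorem E0_hole {R M : ℝ} {v : Pt → ℝ} (hR : 4 ≤ R) (hM : 0 < M) (hv : Sm 3 Set.univ M (R / M) v)
    (hs : Pot.Sup (bl 0 ⌊R / 4⌋₊) v) : E0 (bl 0 ⌊R / 4⌋₊) v ≤ (3 * M ^ 2) ^ 2 := by
  refine (B80.E0_le hs (k := M / (R / M)) fun e he x _ => hv.one (by norm_num) he trivial).trans ?_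
  have h1 : (⌊R / 4⌋₊ : ℝ) ≤ R / 4 := Nat.floor_le (by linarith)
  have h2 : ((bl (0 : Pt) ⌊R / 4⌋₊).card : ℝ) ≤ R ^ 2 := by
    rw [card_bl]; push_cast
    exact pow_le_pow_left₀ (by positivity) (by linarith) 2
  have h3 : 0 < R := by linarith
  calc _ ≤ 6 * (M / (R / M)) ^ 2 * R ^ 2 := by gcongr
    _ = 6 * M ^ 4 := by field_simp
    _ ≤ _ := by nlinarith [pow_pos hM 4]

section state
variable {p : Par} {Λ : Lat} {N : ℕ} {ω : Sta} {m : Mdl Pt}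

theorem up (hΛ : Λ.Ok) {n : ℕ} (hn : n ≤ N) {f : Pt → ℝ} {a : ℝ}
    (hf : F2 (nnL.edI (bl 0 n)) f a) : F2 (Λ.edI (bl 0 N)) f a := hf.subset fun e he => by
  rw [Lat.mem_edI] at he ⊢
  exact ⟨nn_subset hΛ he.1, bl_mono _ hn he.2.1, bl_mono _ hn he.2.2⟩

theorem dep {f ξ : Pt → ℝ} {q : ℤ} (hf : Chq (bl 0 N) f 0) (h : Chq (bl 0 N) ξ q) (φ : ℝ) :
    DepG (bl 0 N) fun s => pr f s * cp ξ φ s := (ins_pr hf).1.mul (depG_cp h φ)

/-- product of two charges with a linear factor -/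
theorem split (hm : Rep Λ ω m 0 N) {f ξ ζ : Pt → ℝ} {q q' : ℤ} (hf : Chq (bl 0 N) f 0)
    (h1 : Chq (bl 0 N) ξ q) (h2 : Chq (bl 0 N) ζ q') (φ : ℝ) :
    ω (fun s => cp ζ 0 s * (pr f s * cp ξ φ s)) =
      (ω (fun s => pr f s * cp (ξ + ζ) φ s) + ω fun s => pr f s * cp (ξ - ζ) φ s) / 2 := by
  have hc := hm.1.ctr.cen hm.1.anch
  rw [hm.2 _ ((depG_cp h2 0).mul (dep hf h1 φ)), hm.2 _ (dep hf (h1.add h2) φ),
    hm.2 _ (dep hf (h1.sub h2) φ), ← Ex_add (hc.ig ((tame_pr _).mul (tame_cp _ _)))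
      (hc.ig ((tame_pr _).mul (tame_cp _ _))), ← Ex_div_const]
  congr 1; funext s
  have := cp_mul ξ ζ φ 0 s
  rw [add_zero, sub_zero] at this
  linear_combination pr f s * this

/-- moving the charge by a small flow -/
theorem lip (hΛ : p.F.Mem Λ) (hm : Rep Λ ω m 0 N) {f ξ ζ : Pt → ℝ} {q : ℤ} (h1 : Chq (bl 0 N) ξ q)
    {e a : ℝ} (he : 0 ≤ e) (ha : 0 ≤ a) (hf : F2 (Λ.edI (bl 0 N)) f (e ^ 2))
    (hr : F2 (Λ.edI (bl 0 N)) (ξ - ζ) (a ^ 2)) (φ : ℝ) :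
    |ω (fun s => pr f s * cp ξ φ s) - ω fun s => pr f s * cp ζ φ s| ≤
      2 * π * (FlF4.cB p.F.τ₂ 2 * (e * a)) := by
  have hc := hm.1.ctr.cen hm.1.anch
  have h2 : Chq (bl 0 N) ζ (q - 0) := by simpa using h1.sub (chq_flow hr)
  rw [hm.2 _ (dep (chq_flow hf) h1 φ), hm.2 _ (dep (chq_flow hf) h2 φ),
    ← Ex_sub (hc.ig ((tame_pr _).mul (tame_cp _ _))) (hc.ig ((tame_pr _).mul (tame_cp _ _)))]
  refine (FlF4.m2_ex (FlF4.amb_lat hm.1) ((FlF4.bd_pow₂ hΛ.ok he hf ha hr 1 1).smul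
    (a := 2 * π) (by positivity)) fun s => ?_).trans ?_
  · rw [← mul_sub, abs_mul, pow_one, pow_one, mul_left_comm]
    exact mul_le_mul_of_nonneg_left (abs_cp_sub_le _ _ _ s) (abs_nonneg _)
  · have := FlF4.cB_mono hΛ.tau_le (le_refl 2)
    rw [pow_one, pow_one]
    gcongr

end state

theorem one_le_log {M : ℝ} (hM : 2 ≤ M) : 1 ≤ 2 * log M := by
  have := log_le_log two_pos hM
  linarith [log_two_gt_d9]

theorem lift {C C' M y : ℝ} {k j n : ℕ} (hM : 2 ≤ M) (hy : 0 ≤ y) (h0 : 0 ≤ C') (hC : C' ≤ C)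
    (hk : 1 ≤ k) (hn : k * j ≤ n) :
    C' * ((M ^ k) ^ j * y + 1 / M ^ k) ≤ C * (M ^ n * y + 1 / M) := by
  have h1 : (1 : ℝ) ≤ M := by linarith
  have h2 : (M ^ k) ^ j ≤ M ^ n := by rw [← pow_mul]; exact pow_le_pow_right₀ h1 hn
  have h3 : M ≤ M ^ k := le_self_pow₀ h1 (by omega)
  have := h0.trans hC
  gcongr

theorem lift' {C C' M y t : ℝ} {k j n : ℕ} (hM : 2 ≤ M) (hy : 0 ≤ y) (h0 : 0 ≤ C') (hC : C' ≤ C)
    (hn : k * j ≤ n) (h : C * M ^ n * y ≤ t) : C' * (M ^ k) ^ j * y ≤ t := by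
  have h1 : (1 : ℝ) ≤ M := by linarith
  have h2 : (M ^ k) ^ j ≤ M ^ n := by rw [← pow_mul]; exact pow_le_pow_right₀ h1 hn
  have := h0.trans hC
  exact le_trans (by gcongr) h

/-- the final bookkeeping -/
theorem fin {a₁ a₂ a₃ t b g w δ Φ ψ ε₁ ε₂ u₁ u₂ u₃ : ℝ} (h1 : |a₁| ≤ ε₁) (h2 : |a₂ - a₃| ≤ u₁)
    (h3 : |a₃ - 2 * π * g * (-w - δ) * Φ| ≤ ε₂) (ht : |t| ≤ 1) (hb : |b| ≤ ε₁) (g0 : 0 ≤ g) (g1 : g ≤ 1)
    (hδ : |δ| ≤ u₂) (Φ0 : 0 ≤ Φ) (Φ1 : Φ ≤ 1) (hw : |w * (ψ - Φ)| ≤ u₃) :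
    |(a₁ + a₂) / 2 - t * b + π * g * w * ψ| ≤ 2 * ε₁ + ε₂ + u₁ + 4 * u₂ + 4 * u₃ := by
  have e : (a₁ + a₂) / 2 - t * b + π * g * w * ψ = (a₁ + (a₂ - a₃) +
      (a₃ - 2 * π * g * (-w - δ) * Φ)) / 2 - t * b + π * g * (w * (ψ - Φ)) - π * g * (δ * Φ) := by ring
  have p0 : 0 ≤ π * g := by positivity
  have p4 : π * g ≤ 4 := by nlinarith [pi_le_four, pi_pos]
  have k1 : |t * b| ≤ ε₁ := by
    rw [abs_mul]; exact (mul_le_of_le_one_left (abs_nonneg _) ht).trans hb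
  have k2 : |π * g * (w * (ψ - Φ))| ≤ 4 * u₃ := by
    rw [abs_mul, abs_of_nonneg p0]; exact mul_le_mul p4 hw (abs_nonneg _) (by norm_num)
  have k3 : |π * g * (δ * Φ)| ≤ 4 * u₂ := by
    rw [abs_mul, abs_of_nonneg p0, abs_mul, abs_of_nonneg Φ0]
    exact mul_le_mul p4 ((mul_le_of_le_one_right (abs_nonneg _) Φ1).trans hδ) (by positivity)
      (by norm_num)
  have := abs_nonneg a₁
  have := abs_nonneg (a₂ - a₃)
  have := abs_nonneg (a₃ - 2 * π * g * (-w - δ) * Φ)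
  rw [e]
  rw [abs_le] at h1 h2 h3 k1 k2 k3 ⊢
  constructor <;> linarith [h1.1, h1.2, h2.1, h2.2, h3.1, h3.2, k1.1, k1.2, k2.1, k2.2, k3.1, k3.2]

theorem expo {g E E' B δ : ℝ} (g0 : 0 ≤ g) (g1 : g ≤ 1) (E0 : 0 ≤ E) (h : |E - E'| ≤ δ) (hB : δ ≤ B) :
    |exp (-2 * π ^ 2 * g * E') - exp (-2 * π ^ 2 * g * E)| ≤ exp (20 * B) * (20 * δ) := by
  have p2 : π ^ 2 ≤ 10 := by nlinarith [pi_lt_d2, pi_pos]
  have p0 : 0 ≤ π ^ 2 * g := by positivity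
  have p1 : π ^ 2 * g ≤ 10 := by nlinarith
  have d0 : 0 ≤ δ := (abs_nonneg _).trans h
  have h' := abs_le.1 h
  refine (SX44.abs_exp_sub (B := 20 * B) (by nlinarith [h'.1, h'.2]) (by nlinarith)).trans ?_
  refine mul_le_mul_of_nonneg_left ?_ (exp_pos _).le
  rw [show -2 * π ^ 2 * g * E' - -2 * π ^ 2 * g * E = 2 * (π ^ 2 * g) * (E - E') by ring, abs_mul,
    abs_of_nonneg (by positivity)]
  exact mul_le_mul (by linarith) h (abs_nonneg _) (by norm_num)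

theorem sv_up {R M M' : ℝ} {v : Pt → ℝ} (h : Sv R M v) (hR : 0 < R) (hM : 0 < M) (hM' : M ≤ M') :
    Sv R M' v :=
  ⟨h.1.mono (bl_mono 0 (Nat.floor_le_floor (by gcongr))),
    (h.2.scale (by have := hM.trans_le hM'; positivity) (by gcongr)).mono le_rfl subset_rfl hM'
      (by have := hM.trans_le hM'; positivity)⟩

/-- the scales -/
structure Sc (R M : ℝ) (j n n' N : ℕ) : Prop where
  t8 : 8 * (M * R) ≤ n
  nM : (n : ℝ) ≤ M ^ 5 * R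
  tn : M * R / n ≤ 2 / M ^ 4
  nn : n + 1 ≤ n'
  mn : ⌊M * R⌋₊ + 1 ≤ n
  qn : ⌊R / 4⌋₊ ≤ ⌊M * R⌋₊
  nN : n' + 1 ≤ N
  jM : (j : ℝ) * M ≤ M ^ (j + 1)

theorem sc {R M : ℝ} {j N : ℕ} (hR : 1 ≤ R) (hM : 2 ≤ M) (hj : 5 ≤ j) (hN : M ^ (j + 2) * R ≤ N) :
    Sc R M j ⌊M ^ 5 * R⌋₊ ⌊M ^ (j + 1) * R⌋₊ N := by
  have M1 : (1 : ℝ) ≤ M := by linarith
  have h1 : (16 : ℝ) ≤ M ^ 4 := le_trans (by norm_num) (pow_le_pow_left₀ (by norm_num) hM 4)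
  have h2 : 1 ≤ M * R := by nlinarith
  have h3 : 16 * (M * R) ≤ M ^ 5 * R := by nlinarith
  have h4 := Nat.lt_floor_add_one (M ^ 5 * R)
  have h5 : (⌊M ^ 5 * R⌋₊ : ℝ) ≤ M ^ 5 * R := Nat.floor_le (by positivity)
  have h6 : M ^ 6 * R ≤ M ^ (j + 1) * R := by gcongr; omega
  have h7 : (⌊M ^ (j + 1) * R⌋₊ : ℝ) ≤ M ^ (j + 1) * R := Nat.floor_le (by positivity)
  have h8 : (⌊M * R⌋₊ : ℝ) ≤ M * R := Nat.floor_le (by positivity)
  have h9 : 2 * (M ^ 5 * R) ≤ M ^ 6 * R := by nlinarith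
  refine ⟨by linarith, h5, ?_, Nat.le_floor (by push_cast; linarith),
    Nat.le_floor (by push_cast; linarith), Nat.floor_le_floor (by nlinarith), ?_, ?_⟩
  · rw [div_le_div_iff₀ (by linarith) (by positivity)]; nlinarith
  · have : ((⌊M ^ (j + 1) * R⌋₊ + 1 : ℕ) : ℝ) ≤ N := by
      push_cast; rw [pow_succ _ (j + 1)] at hN; nlinarith
    exact_mod_cast this
  · rw [pow_succ]
    refine mul_le_mul_of_nonneg_right (le_trans ?_ (pow_le_pow_left₀ (by norm_num) hM j)) (by linarith)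
    exact_mod_cast Nat.lt_two_pow_self.le

theorem num1 {C M l : ℝ} (C0 : 0 ≤ C) (M1 : 1 ≤ M) (h' : l ≤ M) :
    C * (1 + 2 * l) ≤ ((1 + 4 * C) * M) ^ 2 :=
  le_trans (by nlinarith) (le_self_pow₀ (a := (1 + 4 * C) * M) (by nlinarith) (by norm_num))

theorem num2 {C t M : ℝ} (C0 : 0 ≤ C) (t0 : 0 ≤ t) (h : t ≤ 2 / M ^ 4) :
    C * t ^ 2 ≤ ((1 + C) * (2 / M ^ 4)) ^ 2 := by
  rw [mul_pow]
  exact mul_le_mul (by nlinarith) (pow_le_pow_left₀ t0 h 2) (by positivity) (by positivity)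

theorem num3 {C C' M l j : ℝ} (C0 : 0 ≤ C) (C0' : 0 ≤ C') (M1 : 1 ≤ M) (h : l ≤ M)
    (hj : 8 * C' + 7 * C + 5 ≤ j) : C * (1 + 6 * l) + M ≤ j * M := by
  nlinarith [mul_nonneg C0 (sub_nonneg.2 M1), mul_nonneg C0 (sub_nonneg.2 h)]

theorem num4 {C l t j : ℝ} (C0 : 0 ≤ C) (h : 1 ≤ 2 * l) (ht : 8 * C + 2 ≤ j) (hj : t = (j + 1) * l) :
    2 * (C * (1 + 2 * l) + l) ≤ t ∧ l ≤ t := by
  constructor <;> nlinarith

theorem num5 {CC CN CX CF cB A M e₁ e₂ x : ℝ} (CX0 : 0 ≤ CX) (cB0 : 0 < cB) (A0' : 0 ≤ A) (M1 : 1 ≤ M)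
    (x0 : 0 ≤ x) (hA : A = 48 * cB * (1 + CX) + 24 * (1 + CX) + 480 * (1 + 4 * CF) * CX * exp (20 * CX))
    (l1 : e₂ ≤ CN * (x + 1 / M)) (l2 : e₁ ≤ CC * (x + 1 / M)) :
    2 * e₁ + e₂ + 2 * π * (cB * (3 * M ^ 2 * ((1 + CX) * (2 / M ^ 4)))) +
      4 * (3 * M ^ 2 * ((1 + CX) * (2 / M ^ 4))) +
      4 * (3 * M ^ 2 * ((1 + 4 * CF) * M) * (exp (20 * CX) * (20 * (CX * (2 / M ^ 4))))) ≤
      (2 * CC + CN + A + CX) * (x + 1 / M) := by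
  have M0 : 0 < M := by linarith
  have l3 : 3 * M ^ 2 * ((1 + CX) * (2 / M ^ 4)) ≤ 6 * (1 + CX) * (1 / M) := by
    rw [show 3 * M ^ 2 * ((1 + CX) * (2 / M ^ 4)) = 6 * (1 + CX) * (1 / M ^ 2) by field_simp; ring]
    gcongr; exact le_self_pow₀ M1 (by norm_num)
  have l4 : 2 * π * (cB * (3 * M ^ 2 * ((1 + CX) * (2 / M ^ 4)))) ≤
      2 * 4 * (cB * (6 * (1 + CX) * (1 / M))) := by gcongr; exact pi_le_four
  have l5 : 3 * M ^ 2 * ((1 + 4 * CF) * M) * (exp (20 * CX) * (20 * (CX * (2 / M ^ 4)))) =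
      120 * (1 + 4 * CF) * CX * exp (20 * CX) * (1 / M) := by field_simp; ring
  have l6 : 0 ≤ (A + CX) * x + CX * (1 / M) := by positivity
  have l7 : A * (1 / M) = _ := congrArg (· * (1 / M)) hA
  rw [l5]
  linarith

theorem big {p : Par} {Λ : Lat} {L n a : ℕ} {R Y M C : ℝ} (hY : Maj p Λ L R Y) (hC : 1 ≤ C) (hM : 2 ≤ M)
    (hn : n ≠ 0) (h : C * M ^ n * Y ≤ 1) (ha : R / M ≤ a) : C ≤ a := by
  have M1 : 1 ≤ M := by linarith
  have Y0 := SX44.Y_pos hY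
  have hMn : M ≤ M ^ n := le_self_pow₀ M1 hn
  have e1 : C * M ≤ 1 / Y := by rw [le_div_iff₀ Y0]; exact le_trans (by gcongr) h
  refine le_trans ?_ ha
  rw [le_div_iff₀ (by linarith)]
  exact e1.trans ((le_self_pow₀ (le_trans (by nlinarith) e1) (by norm_num)).trans (SX44.R_ge hY))

theorem hole {R : ℝ} {a : ℕ} {z y : Pt} (hR : 4 ≤ R) (ha : 16 * (a : ℝ) ≤ R) (h1 : y ∈ bl z (2 * a))
    (h2 : y ∈ bl 0 ⌊R / 4⌋₊) : bl z ⌈2 * (a : ℝ) + 1⌉₊ ⊆ bl 0 ⌊R - 1⌋₊ := by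
  have h3 : (⌊R / 4⌋₊ : ℝ) ≤ R / 4 := Nat.floor_le (by linarith)
  have h4 : ⌈2 * (a : ℝ) + 1⌉₊ ≤ 2 * a + 1 := Nat.ceil_le.2 (by push_cast; exact le_rfl)
  have h5 : 4 * a + 1 + ⌊R / 4⌋₊ ≤ ⌊R - 1⌋₊ := Nat.le_floor (by push_cast; linarith)
  refine bl_subset_bl (d := 2 * a + ⌊R / 4⌋₊) ?_ (by omega)
  rw [mem_bl] at h1 h2 ⊢
  simp only [Prod.fst_zero, Prod.snd_zero] at h2 ⊢
  push_cast at h1 ⊢
  omega

end X40

open X40 in
theorem x4Stmt (hN : NgStmt) (hC : CgStmt) (hG : XgStmt) (hF : XfStmt) : X4Stmt := fun p => by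
  obtain ⟨CN, nN, CN1, hN⟩ := hN p
  obtain ⟨CC, nC, CC1, hC⟩ := hC p
  obtain ⟨CX, CX0, hG⟩ := hG
  obtain ⟨CF, CF0, hF, -⟩ := hF
  obtain ⟨j, hj⟩ := exists_nat_ge (8 * CF + 7 * CX + 5)
  have cB0 := FlF4.cB_pos p.F.τ₂ 2
  obtain ⟨A, hA⟩ : ∃ A, A = 48 * FlF4.cB p.F.τ₂ 2 * (1 + CX) + 24 * (1 + CX) +
    480 * (1 + 4 * CF) * CX * exp (20 * CX) := ⟨_, rfl⟩
  have A0' : 0 ≤ A := by rw [hA]; positivity
  obtain ⟨n₀, k1, k2, k3⟩ : ∃ n₀, (j + 1) * nN ≤ n₀ ∧ (j + 1) * nC ≤ n₀ ∧ j + 2 ≤ n₀ :=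
    ⟨(j + 1) * nN + (j + 1) * nC + (j + 2), by omega, by omega, by omega⟩
  obtain ⟨C, hCe⟩ : ∃ C, C = 2 * CC + CN + A + CX := ⟨_, rfl⟩
  have C1 : 1 ≤ C := by linarith
  have C2 : CN ≤ C := by linarith
  have C3 : CC ≤ C := by linarith
  have C4 : CX ≤ C := by linarith
  have j5 : 5 ≤ j := by exact_mod_cast (by linarith : (5 : ℝ) ≤ j)
  have j8 : 8 * CF + 2 ≤ j := by linarith
  have CN0 := zero_le_one.trans CN1
  have CC0 := zero_le_one.trans CC1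
  refine ⟨C, n₀, C1, ?_⟩
  intro Λ ω L N hE R Y M hY g0 g1 hM h1 h2 a z v v'' w₁ ha ha' hz hv hs hv'' hE'' hw hc
  have M1 : 1 ≤ M := one_le_two.trans hM
  have M0 : 0 < M := one_pos.trans_le M1
  have Y0 := SX44.Y_pos hY
  have R1 := hY.1
  have R0 : 0 < R := one_pos.trans_le R1
  have hl := one_le_log hM
  have hl' : log M ≤ M := (log_le_sub_one_of_pos M0).trans (sub_le_self _ zero_le_one)
  have haC := big hY C1 hM (by omega) h1 ha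
  have a1 : (1 : ℝ) ≤ a := C1.trans haC
  have R4 : 4 ≤ R := by linarith only [a1, ha']
  have aR : (a : ℝ) ≤ R := by linarith only [a1, ha']
  have haM : R ≤ M * a := by rwa [div_le_iff₀' M0] at ha
  have S := sc (N := N) R1 hM j5 (by
    have := lift' (k := j + 2) (j := 1) hM R0.le zero_le_one C1 (by omega) h2
    rw [pow_one, one_mul] at this
    exact this.trans (by exact_mod_cast hE.le))
  have hM' : M ≤ M ^ (j + 1) := le_self_pow₀ M1 (by omega)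
  have hRM : R ≤ M * R := le_mul_of_one_le_left R0.le M1
  replace hN := hN Λ ω L N hE R Y (M ^ (j + 1)) hY g0 g1 (hM.trans hM')
    (lift' hM Y0.le CN0 C2 k1 h1) (lift' hM R0.le CN0 C2 k1 h2)
  replace hC := hC Λ ω L N hE R Y (M ^ (j + 1)) hY g0 g1 (hM.trans hM')
    (lift' hM Y0.le CC0 C3 k2 h1) (lift' hM R0.le CC0 C3 k2 h2)
  generalize ⌊M ^ 5 * R⌋₊ = n at S
  obtain ⟨n', hn'⟩ : ∃ n', n' = ⌊M ^ (j + 1) * R⌋₊ := ⟨_, rfl⟩
  simp only [Sv, X, ← hn'] at hN hC S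
  have s1 := S.nn
  have s2 := S.mn
  have s3 := S.qn
  have s4 := S.nN
  have n8 : 8 * (M * R) ≤ n' := S.t8.trans (by exact_mod_cast (by omega : n ≤ n'))
  obtain ⟨u, us, um, uf, ue⟩ := hG (M ^ 6) a R (M * R) z n a (one_le_pow₀ M1) (C4.trans haC) aR
    hRM hz S.t8 (S.nM.trans (by rw [pow_succ M 5, mul_assoc]; gcongr)) (by exact_mod_cast a1) le_rfl
  replace hF := hF (M ^ 2) (M * R) a R z n' a1 R1 (aR.trans hRM) hRM hz
    (by rw [pow_two, mul_assoc]; gcongr) (by rw [pow_two, mul_assoc]; gcongr) n8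
  clear hG
  obtain ⟨ζ, hζ⟩ : ∃ ζ : Pt → ℝ, ζ = fun y => xi a (y - z) := ⟨_, rfl⟩
  rw [log_pow] at hF um
  push_cast at hF um
  rw [← hζ] at hF uf
  obtain ⟨m, hm⟩ := hE.amb 0
  have ok := hE.mem.ok
  have hvk := sv_up hv R0 M0 hM'
  rw [Sv, ← hn'] at hvk
  have f1 := B80.f2_A0 hv''.1
  have f2 := f2_up le_rfl uf (num2 CX0 (by positivity) S.tn)
  have f3 := f2_up le_rfl hF (num1 CF0 M1 hl')
  have eh := E0_hole R4 M0 hv.2 hs
  have c1 : Chq (bl 0 N) (xi R) 1 := chq_xi R0 (by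
    have : (n' : ℝ) ≤ N := by exact_mod_cast (by omega : n' ≤ N)
    linarith only [this, n8, hRM, R0])
  have c2 : Chq (bl 0 N) ζ (0 + 1) := by
    simpa using (chq_flow (up ok (by omega) hF)).add c1
  have c3 : Chq (bl 0 N) (xi R - A0 v'') (1 - 0) := c1.sub (chq_A0 hv''.1 (by omega))
  have c4 : Chq (bl 0 N) (A0 v) 0 := chq_A0 hs (by omega)
  have lg := num4 (t := log (M ^ (j + 1))) CF0 hl j8 (by rw [log_pow]; push_cast; rfl)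
  -- the charged terms
  have t1 := (hC 2 (ζ - xi R - A0 v'') v v (-(π / 2)) (by norm_num) (by norm_num)
    (f2_up le_rfl (hF.sub (f2_up (by omega) f1 hE'')) lg.1) hvk hvk).2.1
  have t2 := (hC 1 (-A0 v'') v v (-(π / 2)) (by norm_num) (by norm_num)
    (f2_up (by omega) f1.neg (hE''.trans lg.2)) hvk hvk).2.1
  -- the neutral term
  have su : Pot.Sup (bl 0 n') (u - v'') := fun x hx => by
    rw [Pi.sub_apply, us x fun h => hx (bl_mono 0 (by omega) h),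
      hv''.1 x fun h => hx (bl_mono 0 (by omega) h), sub_zero]
  have sm : Sm 3 Set.univ (M ^ (j + 1)) (R / M ^ (j + 1)) (u - v'') := by
    have e0 : 0 < R / M ^ (j + 1) := by positivity
    have e1 : R / M ^ (j + 1) ≤ R / M := by gcongr
    exact ((um.scale e0 (e1.trans ha)).sub (hv''.2.scale e0 e1)).mono le_rfl subset_rfl
      ((num3 CX0 CF0 M1 hl' hj).trans S.jM) e0
  have t3 := (hN (u - v'') v v ⟨su, sm⟩ hvk hvk _ _ _ rfl rfl rfl).2.1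
  clear hN hC
  have t4 := lip (ζ := A0 (u - v'')) (a := (1 + CX) * (2 / M ^ 4)) hE.mem hm (c3.sub c2)
    (by positivity) (by positivity) (up ok (by omega) (f2_up le_rfl (B80.f2_A0 hs) eh))
    (by rw [A0_sub, show xi R - A0 v'' - ζ - (A0 u - A0 v'') = xi R - ζ - A0 u by ring]
        exact up ok (by omega) f2) (-(π / 2))
  have w1 : ∑ x ∈ bl 0 ⌊R / 4⌋₊, v x * ζ x = w₁ := by
    rw [hw, hζ, ← sum_sup hs subset_union_left, ← sum_sup (D' := bl 0 ⌊R / 4⌋₊ ∪ bl z (2 * a))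
      (chq_xi' (one_pos.trans_le a1) (by push_cast; exact le_rfl) z).1 subset_union_right]
    exact sum_congr rfl fun _ _ => mul_comm _ _
  have w2 : ∑ x ∈ bl 0 ⌊R / 4⌋₊, v x * xi R x = 0 := sum_eq_zero fun x hx => by
    rw [xi_in R0 (by linarith only [R4, Nat.floor_le (by positivity : 0 ≤ R / 4)]) hx, mul_zero]
  have w3 : ∑ x ∈ bl 0 ⌊R / 4⌋₊, v x * A0 v'' x = 0 := by
    rcases hc with rfl | h
    · simp [A0]
    · rw [← sum_sup hs (bl_mono 0 s3)]; exact h.2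
  have w4 : E1 (bl 0 n') v (u - v'') =
      -w₁ - ∑ x ∈ bl 0 ⌊R / 4⌋₊, v x * (xi R - ζ - A0 u) x := by
    rw [E1, sum_sup hs (bl_mono 0 (by omega)), A0_sub]
    simp only [Pi.sub_apply, mul_sub, sum_sub_distrib]
    rw [w1, w2, w3]; ring
  have w5 := pair hs (by omega) f2 eh (by positivity) (by positivity)
  have w6 := pair hs (by omega) f3 eh (by positivity) (by positivity)
  simp only [Pi.sub_apply, mul_sub, sum_sub_distrib] at w6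
  rw [w1, w2, sub_zero] at w6
  have g0' : 0 ≤ gk ω R := le_trans (by norm_num) g0
  have e0 := B80.E0_nonneg su
  have t5 : |w₁ * (ph (gk ω R) a R - exp (-2 * π ^ 2 * gk ω R * E0 (bl 0 n') (u - v'')))| ≤
      3 * M ^ 2 * ((1 + 4 * CF) * M) * (exp (20 * CX) * (20 * (CX * (2 / M ^ 4)))) := by
    by_cases h0 : w₁ = 0
    · rw [h0, zero_mul, abs_zero]; positivity
    obtain rfl : v'' = 0 := hc.resolve_right fun h => h0 h.1
    obtain ⟨y, y1, y2⟩ := exists_ne_zero_of_sum_ne_zero (hw ▸ h0)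
    have := ue (hole R4 ha' y1 (by_contra fun h => y2 (by rw [hs y h, mul_zero])))
    rw [sub_zero] at e0 su ⊢
    rw [B80.E0_congr us su, mul_div_assoc] at this
    rw [abs_mul]
    refine mul_le_mul w6 (expo g0' g1 e0 (this.trans (mul_le_mul_of_nonneg_left S.tn CX0)) ?_)
      (abs_nonneg _) (by positivity)
    refine mul_le_of_le_one_right CX0 ((div_le_one (by positivity)).2 ?_)
    exact hM.trans (le_self_pow₀ M1 (by norm_num))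
  rw [w4] at t3
  rw [show ((2 : ℤ) : ℝ) • xi R + (ζ - xi R - A0 v'') = xi R - A0 v'' + ζ by
    funext x; simp only [Pi.add_apply, Pi.sub_apply, Pi.smul_apply, smul_eq_mul]; push_cast; ring] at t1
  rw [Int.cast_one, one_smul, ← sub_eq_add_neg] at t2
  have t6 : |ω (cp ζ 0)| ≤ 1 := by
    rw [hm.2 _ (depG_cp c2 0)]
    exact (hm.1.ctr.wt hm.1.anch 0).abs_ex_le fun s _ => abs_cp_le _ _ s
  rw [cv, T2, trl_cp, ← hζ]
  simp only [X]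
  rw [split hm c4 c3 c2, hCe]
  have y0 : 0 ≤ Y ^ (1 / 4 : ℝ) := rpow_nonneg Y0.le _
  have e1 : 0 ≤ π ^ 2 * gk ω R * E0 (bl 0 n') (u - v'') := by positivity
  exact (fin t1 t4 t3 t6 t2 g0' g1 w5 (exp_pos _).le (exp_le_one_iff.2 (by linarith only [e1])) t5).trans
    (num5 CX0 cB0 A0' M1 (by positivity) hA (lift hM y0 CN0 le_rfl (by omega) k1)
      (lift hM y0 CC0 le_rfl (by omega) k2))

end Crest.Agent.T145.Ev
end

-- ▼ part T145/EvLow_11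
section

/-!
# Row 145, even sector: the two left functionals see the reference insertions (helper11)

`Ev.lowStmt : LowStmt` from the Gaussian values.  `L11.win` turns the pattern `Xp` into "the window is as large
and the error as small as we like".
-/

set_option autoImplicit false

namespace Crest.Agent.T145.Ev

open Finset Pot Xi Real Fl

namespace L11

theorem ew_bd {w : ℕ} (hw : 4 ≤ w) : 0 < ew w ∧ ew w ≤ 1 / 100 := by
  have h4 : (4 : ℝ) ≤ w := by exact_mod_cast hw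
  have h1 : (2 : ℝ) ≤ 4 * (w : ℝ) ^ 4 := by nlinarith [one_le_pow₀ (by linarith : (1 : ℝ) ≤ w) (n := 4)]
  have h2 : 0 < log 2 := log_pos (by norm_num)
  have h3 := log_le_log (by norm_num) h1
  have : cw w ≤ 1 := (div_le_one (by linarith)).2 h3
  have : 0 < cw w := div_pos h2 (by linarith)
  unfold ew
  constructor <;> linarith

/-- a large window and a small error -/
theorem win {f : Sta → ℝ → ℝ → ℝ → ℝ → Prop} (h : Xp f) (p : Par) (K : ℝ) (k : ℕ) {ε₀ : ℝ} (hK : 1 ≤ K)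
    (h0 : 0 < ε₀) : ∃ (C : ℝ) (n : ℕ), 1 ≤ C ∧ ∀ Λ ω L N, Env p Λ ω L N → ∀ R Y M : ℝ, Maj p Λ L R Y →
      1 / 4 ≤ gk ω R → gk ω R ≤ 1 → 2 ≤ M → C * M ^ n * Y ≤ 1 → C * M ^ n * R ≤ L →
      ∃ M' C' ε : ℝ, (K * M) ^ (k + 1) ≤ M' ∧ 0 ≤ ε ∧ ε ≤ ε₀ ∧ M' * R ≤ L ∧ f ω R M' C' ε := by
  obtain ⟨C, n, hC, h⟩ := h p
  have q0 : 0 < 2 * C / ε₀ := by positivity
  obtain ⟨D, hD⟩ : ∃ D, D = K + 2 * C / ε₀ := ⟨_, rfl⟩
  have D1 : 1 ≤ D := by linarith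
  obtain ⟨b, hb⟩ : ∃ b, b = C * (1 + 2 / ε₀) * D ^ ((k + 1) * (n + 1)) := ⟨_, rfl⟩
  have e1 : 1 ≤ 1 + 2 / ε₀ := le_add_of_nonneg_right (by positivity)
  have b1 : 1 ≤ b := hb ▸ one_le_mul_of_one_le_of_one_le (one_le_mul_of_one_le_of_one_le hC e1) (one_le_pow₀ D1)
  refine ⟨b ^ 4, (k + 1) * (n + 1) * 4, one_le_pow₀ b1, fun Λ ω L N hE R Y M hM g1 g2 m2 y1 l1 => ?_⟩
  have R0 : 0 < R := by linarith [hM.1]
  have Y0 : 0 < Y := (rpow_pos_of_pos R0 _).trans_le hM.2.1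
  obtain ⟨M', hM'⟩ : ∃ M', M' = (D * M) ^ (k + 1) := ⟨_, rfl⟩
  have DM : D ≤ D * M ∧ M ≤ D * M := ⟨by nlinarith, by nlinarith⟩
  have M1 : D * M ≤ M' := hM' ▸ le_self_pow₀ (by linarith) (by omega)
  obtain ⟨u, hu⟩ : ∃ u, u = C * (1 + 2 / ε₀) * M' ^ (n + 1) := ⟨_, rfl⟩
  have eu : b ^ 4 * M ^ ((k + 1) * (n + 1) * 4) = u ^ 4 := by
    rw [hu, hb, hM', pow_mul M, ← mul_pow, ← pow_mul, mul_pow D]; ring
  rw [eu] at y1 l1
  have p1 : 1 ≤ M' ^ n := one_le_pow₀ (by linarith)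
  have u1 : C * (1 + 2 / ε₀) * M' ^ n ≤ u := by
    rw [hu]; gcongr <;> linarith
  have u2 : C * M' ^ n ≤ u := le_trans (by gcongr; nlinarith) u1
  have u3 : M' ≤ u := by
    have : M' ≤ M' ^ (n + 1) := le_self_pow₀ (by linarith) (by omega)
    have := one_le_mul_of_one_le_of_one_le hC e1
    rw [hu]; nlinarith
  have u4 : u ≤ u ^ 4 := le_self_pow₀ (by linarith) (by omega)
  have y4 : u * Y ^ (1 / 4 : ℝ) ≤ 1 := by
    refine le_of_not_gt fun hh => ?_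
    have := one_lt_pow₀ hh (n := 4) (by norm_num)
    rw [mul_pow, ← rpow_natCast (Y ^ _), ← rpow_mul Y0.le] at this
    norm_num at this
    linarith
  have y0 : 0 ≤ Y ^ (1 / 4 : ℝ) := by positivity
  have M0 : 0 < M' := by linarith
  refine ⟨M', C, _, ?_, by positivity, ?_, by nlinarith,
    h Λ ω L N hE R Y M' hM g1 g2 (by linarith) (by nlinarith) (by nlinarith)⟩
  · rw [hM']; gcongr; linarith
  · have a1 : C * M' ^ n * Y ^ (1 / 4 : ℝ) * (1 + 2 / ε₀) ≤ 1 := by nlinarith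
    have a2 : C * M' ^ n * Y ^ (1 / 4 : ℝ) ≤ ε₀ / 2 := by
      have : ε₀ / 2 * (1 + 2 / ε₀) = ε₀ / 2 + 1 := by field_simp
      exact le_of_mul_le_mul_right (by nlinarith) (by linarith : 0 < 1 + 2 / ε₀)
    have a3 : C * (1 / M') ≤ ε₀ / 2 := by
      rw [mul_one_div, div_le_iff₀ (by linarith)]
      have : ε₀ / 2 * (2 * C / ε₀) = C := by field_simp
      nlinarith
    nlinarith

/-- the geometry of two scales `a ≪ A` in a window `M'` around `R` -/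
structure Ge (B R M₁ M' : ℝ) (a A : ℕ) : Prop where
  B0 : 0 ≤ B
  R1 : 1 ≤ R
  M1 : 1 ≤ M₁
  a1 : 1 ≤ a
  Ba : B ≤ a
  lo : R ≤ M₁ * a
  hi : (A : ℝ) ≤ M₁ * R
  sep : 6 * a + 2 ≤ A
  big : 9 * M₁ ≤ M'
  lg : 4 * (B * (1 + log (M₁ ^ 2))) ≤ log M'

theorem big {B M₁ M' : ℝ} (hB : 0 ≤ B) (h1 : 1 ≤ M₁) (h : (9 * M₁) ^ (⌈8 * B⌉₊ + 1) ≤ M') :
    9 * M₁ ≤ M' ∧ 4 * (B * (1 + log (M₁ ^ 2))) ≤ log M' := by
  refine ⟨(le_self_pow₀ (by linarith) (by omega)).trans h, ?_⟩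
  have := log_le_log (by positivity) h
  rw [log_pow, log_mul (by norm_num) (by linarith)] at this
  have l9 : 1 ≤ log 9 := by
    rw [le_log_iff_exp_le (by norm_num)]; linarith [exp_one_lt_d9]
  have l1 := log_nonneg h1
  have c := Nat.le_ceil (8 * B)
  rw [log_pow]
  push_cast at this ⊢
  nlinarith

namespace Ge
variable {B R M₁ M' : ℝ} {a A : ℕ} (h : Ge B R M₁ M' a A)
include h

theorem a1' : (1 : ℝ) ≤ a := by exact_mod_cast h.a1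
theorem sep' : 6 * (a : ℝ) + 2 ≤ A := by exact_mod_cast h.sep
theorem l0 : 0 ≤ log (M₁ ^ 2) := log_nonneg (one_le_pow₀ h.M1)
theorem Bl : B ≤ log M' := by nlinarith [h.lg, h.l0, h.B0]
theorem lM : log M' ≤ M' := (log_le_sub_one_of_pos (by linarith [h.big, h.M1])).trans (by linarith)
theorem wlo : R / M' ≤ a := by
  rw [div_le_iff₀ (by linarith [h.big, h.M1])]; nlinarith [h.lo, h.big, h.M1, h.a1']
theorem w0 : 0 < R / M' := div_pos (by linarith [h.R1]) (by linarith [h.big, h.M1])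
theorem fl : 8 * (M₁ * R) ≤ ⌊M' * R⌋₊ := by
  nlinarith [Nat.lt_floor_add_one (M' * R), h.big, h.R1, h.M1]
theorem flA : 2 * A ≤ ⌊M' * R⌋₊ := by
  have : ((2 * A : ℕ) : ℝ) ≤ ⌊M' * R⌋₊ := by push_cast; nlinarith [h.fl, h.hi, h.sep', h.a1']
  exact_mod_cast this
theorem whi : (a : ℝ) ≤ M' * R := by nlinarith [h.hi, h.sep', h.a1', h.big, h.M1, h.R1]
theorem z0 : eu (0 : Pt) ≤ M' * R := by rw [eu_zero]; linarith [h.whi, h.a1']
theorem sv {v : Pt → ℝ} {σ ℓ : ℝ} (hs : Pot.Sup (bl 0 (2 * A)) v) (hm : Sm 3 Set.univ σ ℓ v)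
    (h1 : σ ≤ log M') (h2 : (a : ℝ) ≤ ℓ) : Sv R M' v :=
  ⟨hs.mono (bl_mono 0 h.flA), (hm.scale h.w0 (h.wlo.trans h2)).mono le_rfl le_rfl (h1.trans h.lM) h.w0⟩
theorem sv0 : Sv R M' 0 :=
  h.sv (σ := |0|) (ℓ := a) (fun _ _ => rfl) (Sm.const 3 _ (by linarith [h.a1']) 0)
    (by simpa using h.B0.trans h.Bl) le_rfl
theorem N2 {L N : ℕ} (h1 : M' * R ≤ L) (h2 : L ≤ N) : 2 * A ≤ N :=
  (h.flA.trans (Nat.floor_le_of_le h1)).trans h2

/-- moving the unit charge -/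
theorem f2 (hX : ∀ (M T ρ R : ℝ) (z : Pt) (n : ℕ), 1 ≤ ρ → 1 ≤ R → ρ ≤ T → R ≤ T → eu z ≤ T → T ≤ M * ρ →
    T ≤ M * R → 8 * T ≤ n →
    F2 (nnL.edI (bl 0 n)) ((fun y => xi ρ (y - z)) - xi R) (B * (1 + log M))) {ρ : ℝ} (h1 : (a : ℝ) ≤ ρ)
    (h2 : ρ ≤ A) : F2 (nnL.edI (bl 0 ⌊M' * R⌋₊)) (xi ρ - xi R) (B * (1 + log (M₁ ^ 2))) := by
  have m1 := h.M1
  have r1 := h.R1
  have := hX (M₁ ^ 2) (M₁ * R) ρ R 0 _ (h.a1'.trans h1) r1 (h2.trans h.hi) (by nlinarith)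
    (by rw [eu_zero]; positivity) (by
      have := mul_le_mul_of_nonneg_left (h.lo.trans (mul_le_mul_of_nonneg_left h1 (by linarith))) (by linarith : 0 ≤ M₁)
      nlinarith) (by nlinarith [mul_nonneg (by positivity : 0 ≤ M₁ * R) (by linarith : 0 ≤ M₁ - 1)]) h.fl
  simpa only [sub_zero] using this

end Ge

theorem cv_Tc {Λ : Lat} {ω : Sta} {m : Mdl Pt} {N a : ℕ} (h : Rep Λ ω m 0 N) (h1 : Ins 0 N (T1 a))
    (h2 : Ins 0 N (T2 a)) {G : Cfg Pt → ℝ} (hG : Ins 0 N G) (α₁ α₂ : ℝ) :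
    cv ω (Tc ω a α₁ α₂) G = α₁ * cv ω (T1 a) G + α₂ * cv ω (T2 a) G := by
  have e1 : ω (Tc ω a α₁ α₂) = 0 := by
    unfold Tc
    rw [h.ex_add ((h1.sub_const _).smul _) ((h2.sub_const _).smul _), h.ex_smul (h1.sub_const _).1,
      h.ex_smul (h2.sub_const _).1, h.ex_sub h1 (Ins.const _ _ _), h.ex_sub h2 (Ins.const _ _ _),
      h.ex_const, h.ex_const]
    ring
  have e2 : (fun s => Tc ω a α₁ α₂ s * G s) = fun s =>
      α₁ * (T1 a s * G s - ω (T1 a) * G s) + α₂ * (T2 a s * G s - ω (T2 a) * G s) := by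
    funext s; unfold Tc; ring
  unfold cv
  rw [e1, e2, h.ex_add (((h1.mul hG).sub (hG.smul _)).smul _) (((h2.mul hG).sub (hG.smul _)).smul _),
    h.ex_smul ((h1.mul hG).sub (hG.smul _)).1, h.ex_smul ((h2.mul hG).sub (hG.smul _)).1,
    h.ex_sub (h1.mul hG) (hG.smul _), h.ex_sub (h2.mul hG) (hG.smul _), h.ex_smul hG.1, h.ex_smul hG.1]
  ring

theorem two {b ε m₁₁ m₁₂ m₂₁ m₂₂ : ℝ} (hb : 0 ≤ b) (h1 : b + ε ≤ m₁₁) (h2 : b + ε ≤ m₂₂) (h3 : |m₁₂| ≤ ε)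
    (h4 : |m₂₁| ≤ ε) (x y : ℝ) : b * max |x| |y| ≤ max |x * m₁₁ + y * m₁₂| |x * m₂₁ + y * m₂₂| := by
  have e0 := (abs_nonneg _).trans h3
  rcases le_total |y| |x| with h | h
  · rw [max_eq_left h]
    refine le_trans ?_ (le_max_left _ _)
    have := abs_sub (x * m₁₁ + y * m₁₂) (y * m₁₂)
    rw [add_sub_cancel_right, abs_mul, abs_mul, abs_of_nonneg (by linarith : 0 ≤ m₁₁)] at this
    nlinarith [abs_nonneg x, abs_nonneg y, mul_le_mul h h3 (abs_nonneg _) (abs_nonneg _)]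
  · rw [max_eq_right h]
    refine le_trans ?_ (le_max_right _ _)
    have := abs_sub (x * m₂₁ + y * m₂₂) (x * m₂₁)
    rw [add_sub_cancel_left, abs_mul, abs_mul, abs_of_nonneg (by linarith : 0 ≤ m₂₂)] at this
    nlinarith [abs_nonneg x, abs_nonneg y, mul_le_mul h h4 (abs_nonneg _) (abs_nonneg _)]

/-- the numerical end -/
theorem num {c η : ℝ} (hc : 0 < c) (h0 : 0 < η) (h1 : η ≤ 1 / 100) : ∃ W₀ : ℕ, ∀ W : ℕ, W₀ ≤ W → ∀ (j : ℕ) (t : ℝ),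
    j ≤ 2 → 1 / (32 * (W : ℝ) ^ j) ≤ t →
      (W : ℝ) ^ (-(2 * (j : ℝ)) - η / 10) + ((W : ℝ) ^ 5)⁻¹ ≤ c * t ^ (2 + η / 100) := by
  have := (tendsto_rpow_atTop (by linarith : 0 < η * (2 / 25))).comp tendsto_natCast_atTop_atTop
  obtain ⟨W₀, hW⟩ := Filter.eventually_atTop.1 (this.eventually_ge_atTop (2 * 32 ^ 3 / c))
  refine ⟨max W₀ 1, fun W h j t hj ht => ?_⟩
  have w := hW W (le_of_max_le_left h)
  have W1 : (1 : ℝ) ≤ W := by exact_mod_cast le_of_max_le_right h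
  have W0 : (0 : ℝ) < W := by linarith
  have j2 : (j : ℝ) ≤ 2 := by exact_mod_cast hj
  have j0 : (0 : ℝ) ≤ j := Nat.cast_nonneg j
  simp only [Function.comp] at w
  have a1 : ((W : ℝ) ^ 5)⁻¹ ≤ (W : ℝ) ^ (-(2 * (j : ℝ)) - η / 10) := by
    rw [← rpow_natCast, ← rpow_neg W0.le]
    exact rpow_le_rpow_of_exponent_le W1 (by push_cast; linarith)
  have a2 : (1 / (32 * (W : ℝ) ^ j)) ^ (2 + η / 100) ≤ t ^ (2 + η / 100) :=
    rpow_le_rpow (by positivity) ht (by linarith)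
  have a3 : (32 : ℝ) ^ (2 + η / 100) ≤ 32 ^ 3 := by
    rw [← rpow_natCast]; exact rpow_le_rpow_of_exponent_le (by norm_num) (by push_cast; linarith)
  have a4 : (W : ℝ) ^ (-(2 * (j : ℝ)) - η / 10) * (W : ℝ) ^ (η * (2 / 25)) ≤
      (W : ℝ) ^ (-((j : ℝ) * (2 + η / 100))) := by
    rw [← rpow_add W0]; exact rpow_le_rpow_of_exponent_le W1 (by nlinarith)
  rw [one_div, inv_rpow (by positivity), mul_rpow (by norm_num) (by positivity), ← rpow_natCast,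
    ← rpow_mul W0.le, mul_inv, ← rpow_neg W0.le] at a2
  have a5 : (32 ^ 3 : ℝ)⁻¹ ≤ ((32 : ℝ) ^ (2 + η / 100))⁻¹ := inv_anti₀ (by positivity) a3
  have p0 : 0 < (W : ℝ) ^ (-(2 * (j : ℝ)) - η / 10) := by positivity
  rw [div_le_iff₀ hc] at w
  have a6 := mul_le_mul a5 a4 (by positivity) (by positivity)
  have a7 := mul_le_mul_of_nonneg_left (a6.trans a2) hc.le
  nlinarith [mul_le_mul_of_nonneg_left w p0.le]

/-- the geometry at scale `r` -/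
theorem geo {B R M M' Q : ℝ} {W r j : ℕ} (hB : 0 ≤ B) (hR : 1 ≤ R) (hM : 2 ≤ M) (hW : 1 ≤ W) (hj : j ≤ 2)
    (hQ : Q = 16 * (W : ℝ) ^ 2 * M) (h1 : R / M ≤ r) (h2 : (r : ℝ) ≤ M * R) (h3 : 16 * (B + 1) ≤ r)
    (h4 : (9 * Q) ^ (⌈8 * B⌉₊ + 1) ≤ M') : Ge B R Q M' (r / 8) (2 * (W ^ j * r)) ∧
      1 / (32 * (W : ℝ) ^ j) ≤ ((r / 8 : ℕ) : ℝ) / (2 * (W ^ j * r) : ℕ) ∧
      ((r / 8 : ℕ) : ℝ) / (2 * (W ^ j * r) : ℕ) ≤ 1 / (W : ℝ) ^ j := by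
  have W1 : (1 : ℝ) ≤ W := by exact_mod_cast hW
  have r16 : 16 ≤ r := by
    have : (16 : ℝ) ≤ r := by linarith
    exact_mod_cast this
  have a1 : (r : ℝ) ≤ 16 * (r / 8 : ℕ) := by exact_mod_cast (by omega : r ≤ 16 * (r / 8))
  have a2 : 8 * ((r / 8 : ℕ) : ℝ) ≤ r := by exact_mod_cast (by omega : 8 * (r / 8) ≤ r)
  have p1 : (1 : ℝ) ≤ (W : ℝ) ^ j := one_le_pow₀ W1
  have p2 : (W : ℝ) ^ j ≤ (W : ℝ) ^ 2 := pow_le_pow_right₀ W1 hj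
  have p3 : 1 ≤ W ^ j := Nat.one_le_pow _ _ hW
  have Q1 : 16 * M ≤ Q := by nlinarith
  rw [div_le_iff₀ (by linarith)] at h1
  have := big hB (by linarith) h4
  refine ⟨⟨hB, hR, by linarith, by omega, by linarith, by nlinarith, ?_, ?_, this.1, this.2⟩, ?_, ?_⟩
  · push_cast
    have := mul_le_mul p2 h2 (by positivity) (by positivity)
    have : 0 ≤ (W : ℝ) ^ 2 * (M * R) := by positivity
    rw [hQ]; nlinarith
  · have := Nat.mul_le_mul_right r p3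
    omega
  · push_cast
    rw [div_le_div_iff₀ (by positivity) (by positivity)]; nlinarith
  · push_cast
    rw [div_le_div_iff₀ (by positivity) (by positivity)]; nlinarith

theorem n11 {c C₀ CT g E k a A W ε x : ℝ} (c0 : 0 < c) (C0 : 0 ≤ C₀) (g1 : g ≤ 1) (E0 : 0 ≤ E) (E1 : E ≤ CT)
    (a0 : 0 < a) (A0 : 0 < A) (W1 : 1 ≤ W) (t : a / A ≤ 1 / W) (hk : c * a ^ 2 ≤ k)
    (hW : C₀ ≤ c * exp (-2 * π ^ 2 * CT) / 2 * W)
    (h : |x - k * (1 / A ^ 2) * exp (-2 * π ^ 2 * g * E)| ≤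
      ε + C₀ * ((a * (1 / A)) ^ 4 + a ^ 2 * 0 * (a * (1 / A) + a ^ 2 * 0))) :
    c * exp (-2 * π ^ 2 * CT) / 2 * (a / A) ^ 2 - ε ≤ x := by
  have e : exp (-2 * π ^ 2 * CT) ≤ exp (-2 * π ^ 2 * g * E) :=
    exp_le_exp.2 (by nlinarith [mul_le_mul g1 E1 E0 zero_le_one, sq_nonneg π])
  have e0 := exp_pos (-2 * π ^ 2 * CT)
  generalize exp (-2 * π ^ 2 * CT) = u at *
  have E2 : c * u * (a / A) ^ 2 ≤ k * (1 / A ^ 2) * exp (-2 * π ^ 2 * g * E) :=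
    calc _ = c * a ^ 2 * (1 / A ^ 2) * u := by ring
      _ ≤ _ := by
        have : 0 ≤ k := le_trans (by positivity) hk
        gcongr
  have t0 : 0 < a / A := by positivity
  have t1 : a / A ≤ 1 := t.trans ((div_le_one (by linarith)).2 W1)
  have E3 : C₀ * (a / A) ^ 2 ≤ c * u / 2 := by
    have h1 : a / A * W ≤ 1 := by rwa [← le_div_iff₀ (by linarith)]
    have := mul_le_mul hW (pow_le_of_le_one t0.le t1 (n := 2) (by norm_num)) (by positivity) (by positivity)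
    nlinarith [mul_le_mul_of_nonneg_left h1 (by positivity : 0 ≤ c * u / 2)]
  have := (abs_le.1 h).1
  rw [mul_one_div a] at this
  nlinarith [mul_le_mul_of_nonneg_right E3 (sq_nonneg (a / A))]

theorem n22 {Ce g η a A d₁ d₂ : ℝ} (g0 : 0 ≤ g) (g1 : g ≤ 1) (g2 : π * g - 2 ≤ η) (a0 : 0 < a) (aA : a ≤ A)
    (h1 : |d₁| ≤ Ce) (h2 : |d₂| ≤ Ce) : exp (-4 * π ^ 2 * Ce) * (a / A) ^ (2 + η) ≤
      exp (-2 * π ^ 2 * g * (log (A / a) / (2 * π) - d₁ - d₂)) := by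
  rw [rpow_def_of_pos (div_pos a0 (by linarith)), ← exp_add, ← inv_div A, log_inv]
  refine exp_le_exp.2 ?_
  have lA : 0 ≤ log (A / a) := log_nonneg ((one_le_div a0).2 aA)
  have e : -2 * π ^ 2 * g * (log (A / a) / (2 * π) - d₁ - d₂) =
      -(π * g * log (A / a)) + 2 * π ^ 2 * (g * (d₁ + d₂)) := by field_simp; ring
  have : -(2 * Ce) ≤ g * (d₁ + d₂) := by nlinarith [(abs_le.1 h1).1, (abs_le.1 h2).1, abs_nonneg d₁]
  rw [e]
  nlinarith [sq_nonneg π]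

theorem n22' {x y u v Φ ε₃ ε₄ ε b : ℝ} (h1 : |u| ≤ ε₄) (h2 : |v| ≤ ε₄) (h3 : |x| ≤ ε₄) (h4 : |y - Φ| ≤ ε₃)
    (s3 : ε₃ ≤ ε) (s4 : ε₄ ≤ ε) (e1 : ε ≤ 1) (hb : b ≤ Φ) : b / 2 - 2 * ε ≤ 2⁻¹ * (x + y) - u * v := by
  have t := (abs_nonneg _).trans h1
  have q4 := (abs_le.1 ((abs_mul _ _).trans_le (mul_le_mul h1 h2 (abs_nonneg _) t))).2
  nlinarith [(abs_le.1 h3).1, (abs_le.1 h4).1]

theorem cv22 {Λ : Lat} {ω : Sta} {m : Mdl Pt} {N a A : ℕ} (hm : Rep Λ ω m 0 N) (a1 : 1 ≤ a) (aA : a ≤ A)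
    (AN : 2 * A ≤ N) : cv ω (T2 a) (T2 A) =
      2⁻¹ * (ω (cp (xi a + xi A) 0) + ω (cp (A0 (Phi a - Phi A)) 0)) - ω (cp (xi a) 0) * ω (cp (xi A) 0) := by
  have ca : Chq (bl 0 N) (xi a) 1 := chq_xi (by exact_mod_cast a1) (by exact_mod_cast (by omega))
  have cA : Chq (bl 0 N) (xi A) 1 := chq_xi (by exact_mod_cast (by omega)) (by exact_mod_cast AN)
  have e4 : A0 (Phi a - Phi A) = xi a - xi A := by rw [A0_sub, xi, xi]; abel
  rw [e4, ← hm.ex_add (ins_cp (ca.add cA) 0) (ins_cp (ca.sub cA) 0),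
    ← hm.ex_smul ((ins_cp (ca.add cA) 0).add (ins_cp (ca.sub cA) 0)).1, cv, T2, T2]
  congr 2; funext s; rw [cp_mul, add_zero, sub_zero]; ring

theorem Ge.le {B R Q M' : ℝ} {a A : ℕ} (h : Ge B R Q M' a A) {C : ℝ} (hC : C ≤ B) :
    C * (1 + log (Q ^ 2)) ≤ log M' ∧ C ≤ log M' ∧ (A : ℝ) ≤ Q ^ 2 * a := by
  refine ⟨by nlinarith [h.lg, h.l0, h.B0], hC.trans h.Bl, ?_⟩
  nlinarith [mul_le_mul_of_nonneg_left h.lo (by linarith [h.M1] : 0 ≤ Q), h.hi]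

theorem pre {C M R Y η g : ℝ} {r : ℕ} (C0 : 0 ≤ C) (m2 : 2 ≤ M) (R1 : 1 ≤ R) (η1 : η ≤ 1 / 100) (hY : R ^ (-η) ≤ Y)
    (hg : |π * g - 2| ≤ η / 100) (r1 : R / M ≤ r) :
    0 < Y ∧ 1 / 4 ≤ g ∧ g ≤ 1 ∧ (C * M ^ 1 * Y ≤ 1 → C ≤ r) := by
  have Y1 : R⁻¹ ≤ Y := le_trans (by
    rw [← rpow_neg_one]; exact rpow_le_rpow_of_exponent_le R1 (by linarith)) hY
  obtain ⟨g1, g2⟩ := abs_le.1 hg
  refine ⟨(inv_pos.2 (by linarith)).trans_le Y1, by nlinarith [pi_gt_three, pi_lt_four],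
    by nlinarith [pi_gt_three, pi_lt_four], fun h => ?_⟩
  have : C * M * R⁻¹ ≤ 1 := le_trans (by rw [pow_one]; gcongr) h
  rw [mul_inv_le_iff₀ (by linarith), ← le_div_iff₀ (by linarith), one_mul] at this
  linarith

end L11

open L11 in
theorem lowStmt (hT : TgStmt) (hF : XfStmt) (h1 : X1uStmt) (h2 : X2Stmt) (hN : NgStmt) (hC : CgStmt) :
    LowStmt := fun w => by
  by_cases hw : 4 ≤ w
  swap
  · exact ⟨0, fun p W e _ => ⟨1, 0, le_rfl, fun Λ ω L N hE => absurd (e ▸ hE.w4) hw⟩⟩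
  obtain ⟨η0, η1⟩ := ew_bd hw
  obtain ⟨c, CT, c0, CT0, hT⟩ := hT
  obtain ⟨CX, CX0, hX, hX', -⟩ := hF
  obtain ⟨C₀, C0, h1⟩ := h1
  obtain ⟨Ce, Ce0, he⟩ := abs_er_le
  obtain ⟨c₁, hc₁⟩ : ∃ c₁, c₁ = c * exp (-2 * π ^ 2 * CT) / 2 := ⟨_, rfl⟩
  obtain ⟨c₂, hc₂⟩ : ∃ c₂, c₂ = exp (-4 * π ^ 2 * Ce) / 2 := ⟨_, rfl⟩
  have c10 : 0 < c₁ := by rw [hc₁]; positivity
  have c20 : 0 < c₂ := by rw [hc₂]; positivity
  obtain ⟨W₀, hW₀⟩ := num (lt_min c10 c20) η0 η1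
  refine ⟨max W₀ (⌈C₀ / c₁⌉₊ + 1), fun p W e hW => ?_⟩
  have hW1 : 1 ≤ W := by omega
  have W1 : (1 : ℝ) ≤ W := by exact_mod_cast hW1
  have WC : C₀ ≤ c₁ * W := by
    rw [← div_le_iff₀' c10]; exact (Nat.le_ceil _).trans (by exact_mod_cast (by omega))
  have K1 : 1 ≤ 9 * (16 * (W : ℝ) ^ 2) := by linarith [one_le_pow₀ W1 (n := 2)]
  have e0 : 0 < ((W : ℝ) ^ 5)⁻¹ / 3 := by positivity
  have e1 : ((W : ℝ) ^ 5)⁻¹ ≤ 1 := inv_le_one_of_one_le₀ (one_le_pow₀ W1)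
  obtain ⟨B, hB⟩ : ∃ B, B = CX + CT := ⟨_, rfl⟩
  have B1 : CX ≤ B := by linarith
  have B2 : CT ≤ B := by linarith
  have B0 : 0 ≤ B := by linarith
  have hX1 : ∀ (M T ρ R : ℝ) (z : Pt) (n : ℕ), 1 ≤ ρ → 1 ≤ R → ρ ≤ T → R ≤ T → eu z ≤ T → T ≤ M * ρ →
      T ≤ M * R → 8 * T ≤ n →
      F2 (nnL.edI (bl 0 n)) ((fun y => xi ρ (y - z)) - xi R) (B * (1 + log M)) :=
    fun M T ρ R z n a b c d e f g i => RJ57.f2_mono (hX M T ρ R z n a b c d e f g i) (by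
      have := log_nonneg (x := M) (le_of_mul_le_mul_right (by linarith) (by linarith : 0 < R))
      exact mul_le_mul_of_nonneg_right B1 (by linarith))
  obtain ⟨C₁, n₁, k1, w1⟩ := win h1 p _ ⌈8 * B⌉₊ K1 e0
  obtain ⟨C₂, n₂, k2, w2⟩ := win h2 p _ ⌈8 * B⌉₊ K1 e0
  obtain ⟨C₃, n₃, k3, w3⟩ := win hN p _ ⌈8 * B⌉₊ K1 e0
  obtain ⟨C₄, n₄, k4, w4⟩ := win hC p _ ⌈8 * B⌉₊ K1 e0
  refine ⟨C₁ + C₂ + C₃ + C₄ + 16 * (B + 1), n₁ + n₂ + n₃ + n₄ + 1, by linarith,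
    fun Λ ω L N hE R Y M hM hg m2 y1 l1 r r1 r2 => ?_⟩
  have R1 := hM.1
  obtain ⟨Y0, g3, g4, r3⟩ := pre (C := 16 * (B + 1)) (by linarith) m2 R1 η1 (e ▸ hM.2.1) hg r1
  have up : ∀ (C : ℝ) (n : ℕ), C ≤ C₁ + C₂ + C₃ + C₄ + 16 * (B + 1) → n ≤ n₁ + n₂ + n₃ + n₄ + 1 →
      C * M ^ n * Y ≤ 1 ∧ C * M ^ n * R ≤ L := fun C n b d => by
    have := mul_le_mul b (pow_le_pow_right₀ (by linarith : 1 ≤ M) d) (by positivity) (by linarith)
    exact ⟨(mul_le_mul_of_nonneg_right this Y0.le).trans y1,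
      (mul_le_mul_of_nonneg_right this (by linarith)).trans l1⟩
  replace r3 := r3 (up _ 1 (by linarith) (by omega)).1
  obtain ⟨M₁, -, ε₁, b1, -, s1, v1, x1⟩ := w1 Λ ω L N hE R Y M hM g3 g4 m2
    (up _ _ (by linarith) (by omega)).1 (up _ _ (by linarith) (by omega)).2
  obtain ⟨M₂, -, ε₂, b2, -, s2, -, x2⟩ := w2 Λ ω L N hE R Y M hM g3 g4 m2
    (up _ _ (by linarith) (by omega)).1 (up _ _ (by linarith) (by omega)).2
  obtain ⟨M₃, -, ε₃, b3, -, s3, -, x3⟩ := w3 Λ ω L N hE R Y M hM g3 g4 m2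
    (up _ _ (by linarith) (by omega)).1 (up _ _ (by linarith) (by omega)).2
  obtain ⟨M₄, -, ε₄, b4, -, s4, -, x4⟩ := w4 Λ ω L N hE R Y M hM g3 g4 m2
    (up _ _ (by linarith) (by omega)).1 (up _ _ (by linarith) (by omega)).2
  rw [mul_assoc] at b1 b2 b3 b4
  obtain ⟨m, hm⟩ := hE.amb 0
  clear w1 w2 w3 w4 up y1 l1 hX
  have key : ∀ j : ℕ, 1 ≤ j → j ≤ 2 →
      Lw ω (r / 8) (2 * (W ^ j * r)) ((W : ℝ) ^ (-(2 * (j : ℝ)) - ew w / 10)) := fun j j1 j2 => by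
    obtain ⟨G₁, t1, t2⟩ := geo (j := j) B0 R1 m2 hW1 j2 rfl r1 r2 r3 b1
    have G₂ := (geo (j := j) B0 R1 m2 hW1 j2 rfl r1 r2 r3 b2).1
    have G₃ := (geo (j := j) B0 R1 m2 hW1 j2 rfl r1 r2 r3 b3).1
    have G₄ := (geo (j := j) B0 R1 m2 hW1 j2 rfl r1 r2 r3 b4).1
    have nm := hW₀ W (le_of_max_le_left hW) j _ j2 t1
    clear b1 b2 b3 b4 t1 r1 r2 r3
    generalize r / 8 = a at *
    generalize 2 * (W ^ j * r) = A at *
    generalize 16 * (W : ℝ) ^ 2 * M = Q at *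
    have a1 := G₁.a1'
    have a2 := G₁.sep'
    have a3 := G₁.sep
    have aA : (a : ℝ) ≤ A := by linarith
    have A0' : (0 : ℝ) < A := by linarith
    have AN := G₁.N2 v1 hE.le
    obtain ⟨⟨i1, -⟩, ⟨i2, -⟩, -, kp1⟩ := hT a G₁.a1
    obtain ⟨-, ⟨i3, -⟩, ⟨i4, -, u1, u2, u3, u4, u5⟩, -⟩ := hT A (by omega)
    have t0 : 0 < (a : ℝ) / A := by positivity
    have t3 : (a : ℝ) / A ≤ 1 / W :=
      t2.trans (one_div_le_one_div_of_le (by linarith) (le_self_pow₀ W1 (by omega)))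
    have t4 : (a : ℝ) / A ≤ 1 := (div_le_one A0').2 aA
    have t5 : ((a : ℝ) / A) ^ (2 + ew w / 100) ≤ ((a : ℝ) / A) ^ 2 := by
      rw [← rpow_natCast]; exact rpow_le_rpow_of_exponent_ge t0 t4 (by push_cast; linarith)
    have tp : 0 ≤ ((a : ℝ) / A) ^ (2 + ew w / 100) := by positivity
    have sv1 := G₁.sv u1 u2 (G₁.le B2).2.1 aA
    have m11 := (x1 a 0 _ _ _ _ G₁.wlo G₁.whi G₁.z0 sv1 sv1 (u5 _ a3) (u5 _ a3)).1 (by rwa [mul_one_div])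
    rw [trl_zero, u4, B80.E0_congr sv1.1 u1] at m11
    replace m11 := n11 c0 C0 g4 (B80.E0_nonneg u1) u3 (by linarith) A0' W1 t3 (kp1 _ g3 g4).1 (hc₁ ▸ WC) m11
    have sv2 := G₂.sv u1 u2 (G₂.le B2).2.1 aA
    obtain ⟨m12, -, m21⟩ := x2 a 0 _ _ G₂.wlo G₂.whi G₂.z0 sv2 sv2
    replace m12 := m12 (by rw [B80.E0_congr sv2.1 u1]; exact u3.trans (G₂.le B2).2.1)
    replace m21 := (m21 _ 0 (RJ57.f2_mono (G₂.f2 hX1 aA le_rfl) (G₂.le le_rfl).1)).1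
    rw [trl_zero] at m12 m21
    rw [add_sub_cancel] at m21
    obtain ⟨z1, z2⟩ := hX' (Q ^ 2) a A (2 * A) a (one_le_pow₀ G₁.M1) (by linarith) (G₁.le B1).2.2
      (B1.trans G₁.Ba) (by push_cast; rfl) G₁.a1 le_rfl
    have su : Pot.Sup (bl 0 (2 * A)) (Phi a - Phi A) :=
      (sup_Phi (by linarith) (by push_cast; linarith)).sub (sup_Phi A0' (by push_cast; linarith))
    have sv := G₃.sv su z2 (G₃.le B1).1 le_rfl
    have n1 := (x3 _ _ _ sv G₃.sv0 G₃.sv0 _ _ _ rfl rfl rfl).1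
    rw [B80.E0_congr sv.1 su, z1] at n1
    have fa := G₄.f2 hX1 le_rfl aA
    have fA := G₄.f2 hX1 aA le_rfl
    have q1 := (x4 1 _ _ _ 0 one_ne_zero (by norm_num) (RJ57.f2_mono fa (G₄.le le_rfl).1) G₄.sv0 G₄.sv0).1
    have q2 := (x4 1 _ _ _ 0 one_ne_zero (by norm_num) (RJ57.f2_mono fA (G₄.le le_rfl).1) G₄.sv0 G₄.sv0).1
    have q3 := (x4 2 _ _ _ 0 two_ne_zero (by norm_num)
      (RJ57.f2_mono (RJ57.f2_add fa fA) (by linarith only [G₄.lg])) G₄.sv0 G₄.sv0).1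
    rw [Int.cast_one, one_smul, add_sub_cancel] at q1 q2
    have e3 : ((2 : ℤ) : ℝ) • xi R + (xi a - xi R + (xi A - xi R)) = xi a + xi A := by
      funext y; simp; ring
    rw [e3] at q3
    have m22 := n22' q1 q2 q3 n1 s3 s4 (by linarith only [e1, e0])
      (n22 (by linarith only [g3]) g4 (abs_le.1 hg).2 (by linarith only [a1]) aA (he a a1) (he A (a1.trans aA)))
    rw [← cv22 hm G₁.a1 (by omega) AN] at m22
    intro α₁ α₂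
    rw [cv_Tc hm (i1.mono (by omega)) (i2.mono (by omega)) (i4.mono AN),
      cv_Tc hm (i1.mono (by omega)) (i2.mono (by omega)) (i3.mono AN)]
    have d1 := mul_le_mul (min_le_left c₁ c₂) t5 tp c10.le
    have d2 := mul_le_mul_of_nonneg_right (min_le_right c₁ c₂) tp
    rw [← hc₁] at m11
    rw [mul_div_right_comm, ← hc₂] at m22
    exact two (ε := ((W : ℝ) ^ 5)⁻¹ / 3) (by positivity) (by unfold G1; linarith only [m11, d1, nm, s1, e0])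
      (by linarith only [m22, d2, nm]) (m12.trans s2) (m21.trans s2) α₁ α₂
  refine ⟨?_, ?_⟩
  · simpa using key 1 le_rfl (by norm_num)
  · have := key 2 (by norm_num) le_rfl
    rw [pow_two W, mul_assoc] at this
    norm_num at this ⊢
    exact this

end Crest.Agent.T145.Ev
end

-- ▼ part T145/EvS3_74
section

/-!
# Row 145, even sector: the sum of energy stars against a charge two (`S3Stmt`, helper74)
-/

set_option autoImplicit false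
set_option linter.unusedSectionVars false

namespace Crest.Agent.T145.Ev

open Finset Pot Xi Real Fl

namespace S74

/-- three zones: far, middle, active -/
theorem split {Z D B A : Finset Pt} {F : Pt → ℝ} {x δ₀ δ₁ : ℝ} (hZ : Z ⊆ D)
    (hf : ∑ z ∈ D \ B, |F z| ≤ x) (h1 : ∀ z ∈ B, z ∉ A → |F z| ≤ δ₀)
    (h2 : ∀ z ∈ B, z ∈ A → |F z| ≤ δ₀ + δ₁) (h0 : 0 ≤ δ₁) :
    |∑ z ∈ Z, F z| ≤ x + B.card * δ₀ + A.card * δ₁ := by
  have e1 : ∑ z ∈ Z, |F z| ≤ ∑ z ∈ D \ B, |F z| + ∑ z ∈ B, |F z| := by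
    rw [← sum_union sdiff_disjoint]
    exact sum_le_sum_of_subset_of_nonneg (fun y hy => by by_cases h : y ∈ B <;> simp [h, hZ hy])
      fun _ _ _ => abs_nonneg _
  have e2 : ∑ z ∈ B, |F z| ≤ ∑ z ∈ B, (δ₀ + if z ∈ A then δ₁ else 0) := sum_le_sum fun z hz => by
    split_ifs with h
    exacts [h2 z hz h, (h1 z hz h).trans_eq (add_zero _).symm]
  rw [sum_add_distrib, sum_const, nsmul_eq_mul, sum_ite_mem, sum_const, nsmul_eq_mul] at e2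
  have e3 : ((B ∩ A).card : ℝ) * δ₁ ≤ A.card * δ₁ := by gcongr; exact inter_subset_right
  linarith [abs_sum_le_sum_abs F Z]

theorem f2_up {ed ed' : Finset (Pt × Pt)} {f : Pt → ℝ} {n : ℝ} (h : F2 ed f n) (hE : ed ⊆ ed') :
    F2 ed' f n :=
  let ⟨φ, h1, h2⟩ := h
  ⟨fun e => ind (e ∈ ed) * φ e, by rw [dv_ind hE, h1], by rwa [sum_ind_sq hE]⟩

theorem far0 (p : Par) (L : ℕ) (U : Finset Pt) :
    Far p L U (∅ : Finset Unit) (fun _ => 0) (fun _ => 0) fun _ _ => 1 :=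
  ⟨by simp, by simp, by simp, by simp, by simp⟩

variable {p : Par} {Λ : Lat} {ω : Sta} {L N : ℕ}

/-- an insertion is replaced by two centred reference insertions -/
theorem dec (h : Env p Λ ω L N) {E T₁ T₂ B : Cfg Pt → ℝ} {a : ℕ} {z c : Pt} (α₁ α₂ : ℝ)
    (h0 : p.r₀ ≤ a) (hL : p.w * a ≤ L) (hz : bl z (p.w * a) ⊆ bl c N) (hE : Ins 0 a E) (h1 : Ins 0 a T₁)
    (h2 : Ins 0 a T₂) (hB : Ins c N B) (hO : Out (bl z a) B) (hb : ∀ s, |B s| ≤ 1) :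
    |ω (fun s => trl z E s * B s) - α₁ * cv ω (trl z T₁) B - α₂ * cv ω (trl z T₂) B| ≤
      32 * nu Λ p.w 0 a fun s => E s - (α₁ * (T₁ s - ω T₁) + α₂ * (T₂ s - ω T₂)) := by
  have hG := h.toGs
  have ha := Lj36.le_wmul hG a
  have hs : bl z a ⊆ bl c N := (bl_mono z ha).trans hz
  have hI : Ins 0 a fun s => E s - (α₁ * (T₁ s - ω T₁) + α₂ * (T₂ s - ω T₂)) :=
    hE.sub (((h1.sub_const _).smul _).add ((h2.sub_const _).smul _))
  obtain ⟨m, hm⟩ := h.amb c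
  have k := ((prodStmt p Λ L hG m _ Unit ∅ _ _ _ B hm.1 (far0 p L _) (by simp) hb).2 z a h0 hL hz
    (by simp)).2.1 _ (hI.trl z) hO
  simp only [prod_empty, one_mul, mul_one] at k
  rw [Le60.nu_trl semiStmt hG h0 hI le_rfl, ← hm.2 _ (((hI.trl z).of_subset hs).mul hB).1] at k
  have i0 := ((hE.trl z).of_subset hs).mul hB
  have i1 := ((h1.trl z).of_subset hs).mul hB
  have i2 := ((h2.trl z).of_subset hs).mul hB
  have aN := ha.trans (hL.trans h.le)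
  refine le_of_eq_of_le (congrArg _ ?_) k
  rw [show (fun s => trl z (fun s => E s - (α₁ * (T₁ s - ω T₁) + α₂ * (T₂ s - ω T₂))) s * B s) =
    fun s => (trl z E s * B s - α₁ * (trl z T₁ s * B s) - α₂ * (trl z T₂ s * B s)) +
      (α₁ * ω T₁ + α₂ * ω T₂) * B s from funext fun s => by simp only [trl]; ring,
    hm.ex_add ((i0.sub (i1.smul _)).sub (i2.smul _)) (hB.smul _), hm.ex_sub (i0.sub (i1.smul _)) (i2.smul _),
    hm.ex_sub i0 (i1.smul _), hm.ex_smul i1.1, hm.ex_smul i2.1, hm.ex_smul hB.1, cv, cv,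
    h.trl 0 z T₁ (h1.mono aN).1, h.trl 0 z T₂ (h2.mono aN).1]
  ring

/-! ### numerics -/

theorem rp {x t e : ℝ} {j : ℕ} (t0 : 0 < t) (t1 : t ≤ 1) (h0 : 0 ≤ x) (hx : x ≤ t ^ j) (he : 26 ≤ j * e)
    (e0 : 0 ≤ e) : x ^ e ≤ t ^ 26 :=
  calc x ^ e ≤ (t ^ j) ^ e := by gcongr
    _ = t ^ (j * e) := by rw [← rpow_natCast, ← rpow_mul t0.le]
    _ ≤ t ^ ((26 : ℕ) : ℝ) := rpow_le_rpow_of_exponent_ge t0 t1 (by exact_mod_cast he)
    _ = _ := rpow_natCast _ _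

theorem rp1 {x s e : ℝ} (h0 : 0 ≤ x) (hx : x ≤ s) (s1 : 1 ≤ s) (e0 : 0 ≤ e) (e1 : e ≤ 1) : x ^ e ≤ s :=
  calc x ^ e ≤ s ^ e := by gcongr
    _ ≤ s ^ (1 : ℝ) := rpow_le_rpow_of_exponent_le s1 e1
    _ = _ := rpow_one _

/-- the scales -/
structure Nu (w r₀ j m L : ℕ) (R t : ℝ) : Prop where
  t0 : 0 < t
  t1 : 600 * t ≤ 1
  t2 : 16 * w * t ≤ 1
  t3 : 8 * (w : ℝ) ^ 2 * r₀ * t ≤ 1
  w1 : 1 ≤ w
  j1 : 1 ≤ j
  jm : j + 2 ≤ m
  R1 : 1 ≤ R * t ^ m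
  RL : R ≤ t ^ m * L

namespace Nu
variable {w r₀ j m L : ℕ} {R t : ℝ} (h : Nu w r₀ j m L R t)
include h

theorem le1 : t ≤ 1 := by linarith [h.t0, h.t1]
theorem ts : t * t⁻¹ = 1 := mul_inv_cancel₀ h.t0.ne'
theorem big {K : ℝ} (hK : K * t ≤ 1) : K ≤ t⁻¹ := by rwa [← one_div, le_div_iff₀ h.t0]
theorem s1 : 1 ≤ t⁻¹ := h.big (by linarith [h.le1])
theorem dn {a b : ℕ} (hab : a ≤ b) : t ^ b ≤ t ^ a := pow_le_pow_of_le_one h.t0.le h.le1 hab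
theorem up {a b : ℕ} (hab : a ≤ b) : t⁻¹ ^ a ≤ t⁻¹ ^ b := pow_le_pow_right₀ h.s1 hab
theorem R0 : 0 < R := by
  have := h.R1
  by_contra c
  nlinarith [pow_pos h.t0 m]
theorem one {a : ℕ} (ha : a ≤ m) : 1 ≤ R * t ^ a := h.R1.trans (mul_le_mul_of_nonneg_left (h.dn ha) h.R0.le)
theorem oneR : 1 ≤ R := by simpa using h.one (Nat.zero_le m)
theorem sρ : t⁻¹ ≤ R * t ^ (j + 1) := by
  rw [← one_div, div_le_iff₀ h.t0, mul_assoc, ← pow_succ]; exact h.one h.jm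
theorem n1 : 8 * (w : ℝ) ^ 2 * r₀ ≤ R * t ^ (j + 1) := (h.big h.t3).trans h.sρ
theorem n7 : R * t ≤ ⌈R * t⌉₊ := Nat.le_ceil _
theorem r0 : (0 : ℝ) < ⌈R * t⌉₊ := (mul_pos h.R0 h.t0).trans_le h.n7
theorem n6' : R * t ^ (j + 1) ≤ t ^ j * ⌈R * t⌉₊ :=
  calc _ = t ^ j * (R * t) := by ring
    _ ≤ _ := by gcongr; exacts [(pow_pos h.t0 _).le, h.n7]
theorem n6 : R * t ^ (j + 1) / ⌈R * t⌉₊ ≤ t ^ j := by rw [div_le_iff₀ h.r0]; exact h.n6'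
theorem n2 : 600 * (R * t ^ (j + 1)) ≤ ⌈R * t⌉₊ := by
  have := h.dn h.j1
  have h1 : t ^ j * ⌈R * t⌉₊ ≤ t * ⌈R * t⌉₊ := by gcongr; simpa using this
  nlinarith [h.n6', h.t1, h.r0]
theorem n3 {x : ℝ} (hx : x ≤ R * t ^ (j + 1 + 1)) : x + 1 ≤ R * t ^ (j + 1) := by
  have h1 := (h.big h.t1).trans h.sρ
  rw [pow_succ, ← mul_assoc] at hx
  nlinarith [h.t1]
theorem n5 : (⌈R * t⌉₊ : ℝ) ≤ 2 * R := by
  have := Nat.ceil_lt_add_one (mul_pos h.R0 h.t0).le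
  nlinarith [h.le1, h.oneR]
theorem n5' : (⌈R * t⌉₊ : ℝ) ≤ t⁻¹ * R := h.n5.trans (by gcongr; exacts [h.R0.le, by linarith [h.big h.t1]])
theorem n8 : (⌊t⁻¹ * R⌋₊ : ℝ) ≤ t⁻¹ * R := Nat.floor_le (mul_pos (inv_pos.2 h.t0) h.R0).le
theorem n8' : 2 * R ≤ ⌊t⁻¹ * R⌋₊ := by
  have := Nat.lt_floor_add_one (t⁻¹ * R)
  nlinarith [h.big h.t1, h.oneR]
theorem ρR : R * t ^ (j + 1) ≤ R := mul_le_of_le_one_right h.R0.le (pow_le_one₀ h.t0.le h.le1)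
theorem r₀ρ : (r₀ : ℝ) ≤ R * t ^ (j + 1) := by
  have : (1 : ℝ) ≤ w := by exact_mod_cast h.w1
  have h1 : (1 : ℝ) ≤ 8 * (w : ℝ) ^ 2 := by nlinarith
  exact (le_mul_of_one_le_left (Nat.cast_nonneg _) h1).trans h.n1
theorem r₀a : r₀ ≤ ⌊t⁻¹ * R⌋₊ := by
  exact_mod_cast (show (r₀ : ℝ) ≤ ⌊t⁻¹ * R⌋₊ by linarith [h.r₀ρ, h.ρR, h.n8', h.R0])
theorem b0 : R * t⁻¹ ^ (j + 1) ≤ ⌈R * t⁻¹ ^ (j + 1)⌉₊ := Nat.le_ceil _
theorem n9 : 16 * w * ⌊t⁻¹ * R⌋₊ ≤ ⌈R * t⁻¹ ^ (j + 1)⌉₊ := by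
  have h1 := h.up (show 2 ≤ j + 1 by linarith [h.j1])
  have h2 : (16 * w * ⌊t⁻¹ * R⌋₊ : ℝ) ≤ ⌈R * t⁻¹ ^ (j + 1)⌉₊ :=
    calc _ ≤ t⁻¹ * (t⁻¹ * R) := by gcongr; exacts [(inv_pos.2 h.t0).le, h.big h.t2, h.n8]
      _ = R * t⁻¹ ^ 2 := by ring
      _ ≤ _ := le_trans (by gcongr; exact h.R0.le) h.b0
  exact_mod_cast h2
theorem oneB : 1 ≤ R * t⁻¹ ^ (j + 1) := one_le_mul_of_one_le_of_one_le h.oneR (one_le_pow₀ h.s1)
theorem n10 : (⌈R * t⁻¹ ^ (j + 1)⌉₊ : ℝ) ≤ 2 * (R * t⁻¹ ^ (j + 1)) := by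
  have := Nat.ceil_lt_add_one (zero_le_one.trans h.oneB)
  linarith [h.oneB]
theorem mR : 600 * (R * t⁻¹ ^ (j + 1)) ≤ t⁻¹ ^ m * R :=
  calc _ ≤ t⁻¹ * (R * t⁻¹ ^ (j + 1)) := by gcongr; exacts [zero_le_one.trans h.oneB, h.big h.t1]
    _ = t⁻¹ ^ (j + 2) * R := by ring
    _ ≤ _ := by gcongr; exacts [h.R0.le, h.s1, h.jm]
theorem n11 : ⌈R * t⁻¹ ^ (j + 1)⌉₊ + w * ⌈R * t⌉₊ ≤ ⌊t⁻¹ ^ m * R⌋₊ := Nat.le_floor (by
  have h1 : (w * ⌈R * t⌉₊ : ℝ) ≤ R * t⁻¹ ^ (j + 1) :=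
    calc _ ≤ w * (2 * R) := by gcongr; exact h.n5
      _ ≤ (16 * w) * R := by nlinarith [h.R0, (Nat.cast_nonneg w : (0 : ℝ) ≤ w)]
      _ ≤ t⁻¹ ^ (j + 1) * R := by
        gcongr; exacts [h.R0.le, (h.big h.t2).trans (le_self_pow₀ h.s1 (by omega))]
      _ = _ := mul_comm _ _
  push_cast
  linarith [h.n10, h.mR, h.oneB])
theorem n12 : ⌊t⁻¹ ^ m * R⌋₊ ≤ L := Nat.floor_le_of_le (
  calc _ ≤ t⁻¹ ^ m * (t ^ m * L) := by gcongr; exacts [(pow_pos (inv_pos.2 h.t0) _).le, h.RL]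
    _ = _ := by rw [← mul_assoc, ← mul_pow, mul_comm t⁻¹, h.ts, one_pow, one_mul])
theorem n13 {b : ℝ} (hb : (⌈R * t⁻¹ ^ (j + 1)⌉₊ : ℝ) ≤ b) : (⌊t⁻¹ * R⌋₊ : ℝ) / b ≤ t ^ j := by
  rw [div_le_iff₀ (by linarith [h.oneB, h.b0])]
  calc _ ≤ t⁻¹ * R := h.n8
    _ = (t * t⁻¹) ^ j * (t⁻¹ * R) := by rw [h.ts, one_pow, one_mul]
    _ = t ^ j * (R * t⁻¹ ^ (j + 1)) := by ring
    _ ≤ _ := by gcongr; exacts [(pow_pos h.t0 _).le, h.b0.trans hb]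

theorem cdB : ((bl 0 ⌈R * t⁻¹ ^ (j + 1)⌉₊).card : ℝ) ≤ 25 * (R * t⁻¹ ^ (j + 1)) ^ 2 := by
  rw [card_bl]; push_cast
  calc _ ≤ (5 * (R * t⁻¹ ^ (j + 1))) ^ 2 := by gcongr; linarith [h.n10, h.oneB]
    _ = _ := by ring
theorem cdA {a : ℕ} (ha : (a : ℝ) ≤ R) : ((bl 0 (⌊t⁻¹ * R⌋₊ + a)).card : ℝ) ≤ 25 * (t⁻¹ * R) ^ 2 := by
  rw [card_bl]; push_cast
  have := le_mul_of_one_le_left h.R0.le h.s1
  calc _ ≤ (5 * (t⁻¹ * R)) ^ 2 := by gcongr; linarith [h.n8, h.oneR]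
    _ = _ := by ring

variable {C P c e : ℝ}

theorem errF {ν : ℝ} (hC : 0 ≤ C) (hP : 0 ≤ P) (h1 : ν ≤ 1) (e0 : 0 ≤ e) (e1 : e ≤ 1) (c0 : 0 ≤ c)
    (hc : 26 ≤ j * (c / 4)) (hCt : 8 * C * t ≤ 1) :
    C * ν * P * max (⌊t⁻¹ * R⌋₊ / R) (R / ⌊t⁻¹ * R⌋₊) ^ e *
      (((⌊t⁻¹ * R⌋₊ : ℝ) / ⌈R * t⁻¹ ^ (j + 1)⌉₊) ^ (c / 2) + ((⌊t⁻¹ * R⌋₊ : ℝ) / L) ^ (c / 2)) ≤
      P * t ^ 6 / 4 := by
  have R0 := h.R0
  have t0 := h.t0
  have hc' : 26 ≤ j * (c / 2) := hc.trans (by gcongr; norm_num)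
  have a1 := rp t0 h.le1 (by positivity) (h.n13 le_rfl) hc' (by positivity)
  have a2 := rp t0 h.le1 (by positivity) (h.n13 (b := L) (by
    exact_mod_cast (Nat.le_add_right _ _).trans (h.n11.trans h.n12))) hc' (by positivity)
  have a3 : max ((⌊t⁻¹ * R⌋₊ : ℝ) / R) (R / ⌊t⁻¹ * R⌋₊) ^ e ≤ t⁻¹ :=
    rp1 (by positivity) (max_le (by rw [div_le_iff₀ R0]; exact h.n8)
      (le_trans (by rw [div_le_one (by linarith [h.n8'])]; linarith [h.n8']) h.s1)) h.s1 e0 e1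
  calc _ ≤ C * 1 * P * t⁻¹ * (t ^ 26 + t ^ 26) := by gcongr
    _ = (8 * C * t) * (t * t⁻¹) * (P * t ^ 24 / 4) := by ring
    _ ≤ 1 * (t * t⁻¹) * (P * t ^ 6 / 4) := by gcongr ?_ * _ * (_ * ?_ / _); exact h.dn (by norm_num)
    _ = _ := by rw [h.ts]; ring

theorem errL {P₀ : ℝ} (hC : 0 ≤ C) (hP : 1 ≤ P) (h0 : 0 ≤ P₀) (e0 : 0 ≤ e) (e1 : e ≤ 1) (c0 : 0 ≤ c)
    (hc : 26 ≤ j * (c / 4)) :
    C * (t⁻¹ * (1 + t⁻¹)) * (P * t⁻¹ ^ e * (R * t ^ (j + 1) / ⌈R * t⌉₊) ^ (c / 4) / (⌈R * t⌉₊ : ℝ) ^ 2 +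
      P₀ * ((r₀ : ℝ) / ⌈R * t⌉₊) ^ (2 + c / 2)) ≤ 2 * C * (1 + P₀ * r₀ ^ 2) * P * t ^ 21 / R ^ 2 := by
  have R0 := h.R0
  have t0 := h.t0
  have r0 := h.r0
  have s1 := h.s1
  have hc' : 26 ≤ j * (c / 2) := hc.trans (by gcongr; norm_num)
  have a1 := rp t0 h.le1 (by positivity) h.n6 hc (by positivity)
  have a2 := rp (x := (r₀ : ℝ) / ⌈R * t⌉₊) t0 h.le1 (by positivity)
    (le_trans (by gcongr; exact h.r₀ρ) h.n6) hc' (by positivity)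
  have a3 := rp1 (zero_le_one.trans s1) le_rfl s1 e0 e1
  have a4 : ((r₀ : ℝ) / ⌈R * t⌉₊) ^ (2 + c / 2) ≤ r₀ ^ 2 / (R * t) ^ 2 * t ^ 26 := by
    rw [rpow_add' (by positivity) (by positivity), rpow_two, div_pow]
    gcongr; exact h.n7
  calc _ ≤ C * (t⁻¹ * (t⁻¹ + t⁻¹)) * (P * t⁻¹ * t ^ 26 / (R * t) ^ 2 +
        P₀ * (r₀ ^ 2 / (R * t) ^ 2 * t ^ 26) * (P * t⁻¹)) := by
        gcongr _ * (_ * (?_ + _)) * (_ * ?_ * ?_ / ?_ ^ 2 + ?_)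
        · exact h.n7
        · exact le_trans (by gcongr) (le_mul_of_one_le_right (by positivity)
            (one_le_mul_of_one_le_of_one_le hP s1))
    _ = _ := by field_simp; ring

theorem errA {α : ℝ} {a k : ℕ} (hP : 0 ≤ P) (e0 : 0 ≤ e) (e1 : e ≤ 1) (h1 : R * t ^ k ≤ a)
    (h2 : α * (a : ℝ) ^ 2 ≤ P * (R / a) ^ e) : α ≤ P * t⁻¹ ^ (3 * k) / R ^ 2 := by
  have R0 := h.R0
  have t0 := h.t0
  have a0 : (0 : ℝ) < a := lt_of_lt_of_le (by positivity) h1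
  have a1 : (R / a) ^ e ≤ t⁻¹ ^ k := rp1 (by positivity) (by
    rw [inv_pow, div_le_iff₀ a0, ← div_eq_inv_mul, le_div_iff₀ (by positivity)]; exact h1)
    (one_le_pow₀ h.s1) e0 e1
  rw [← le_div_iff₀ (by positivity)] at h2
  calc _ ≤ _ := h2
    _ ≤ P * t⁻¹ ^ k / (R * t ^ k) ^ 2 := by gcongr
    _ = _ := by simp only [inv_pow]; field_simp; ring

theorem errE {Y : ℝ} {n₂ : ℕ} (hC : 0 ≤ C) (h0 : 0 ≤ Y) (hY : Y ≤ t ^ (4 * (m * (n₂ + 1)))) :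
    C * ((t⁻¹ ^ m) ^ n₂ * Y ^ (1 / 4 : ℝ) + 1 / t⁻¹ ^ m) ≤ 2 * C * t ^ m := by
  have t0 := h.t0
  have a1 : Y ^ (1 / 4 : ℝ) ≤ t ^ (m * (n₂ + 1)) :=
    calc _ ≤ ((t ^ (m * (n₂ + 1))) ^ 4) ^ (1 / 4 : ℝ) := by gcongr; rwa [← pow_mul, mul_comm]
      _ = _ := by rw [one_div]; exact pow_rpow_inv_natCast (n := 4) (by positivity) (by norm_num)
  calc _ ≤ C * ((t⁻¹ ^ m) ^ n₂ * t ^ (m * (n₂ + 1)) + 1 / t⁻¹ ^ m) := by gcongr
    _ = _ := by simp only [inv_pow]; field_simp; ring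

/-- the total error -/
theorem fin {C₂ x b a : ℝ} (hC : 0 ≤ C) (hC₂ : 0 ≤ C₂) (hP : 0 ≤ P) (hx : x ≤ P * t ^ 6 / 4)
    (hb : b ≤ 25 * (R * t⁻¹ ^ (j + 1)) ^ 2) (ha : a ≤ 25 * (t⁻¹ * R) ^ 2) (hm : 74 * (j + 1) + 7 ≤ m)
    (h1 : 100 * C * t ≤ 1) (h2 : 400 * C₂ * t ≤ 1) :
    x + b * (32 * (P * t ^ (16 + 2 * (j + 1)) / R ^ 2) +
      2 * (P * t⁻¹ ^ (3 * (24 * (j + 1))) / R ^ 2 * (2 * C₂ * t ^ m))) + a * (C * P * t ^ 21 / R ^ 2) ≤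
      P * t ^ 6 := by
  have R0 := h.R0
  have t0 := h.t0
  have a1 : a * (C * P * t ^ 21 / R ^ 2) ≤ P * t ^ 6 / 4 :=
    calc _ ≤ 25 * (t⁻¹ * R) ^ 2 * (C * P * t ^ 21 / R ^ 2) := by gcongr
      _ = (100 * C * t) * (P * t ^ 18 / 4) := by field_simp; ring
      _ ≤ 1 * (P * t ^ 6 / 4) := by gcongr ?_ * (_ * ?_ / _); exact h.dn (by norm_num)
      _ = _ := one_mul _
  have a2 : b * (32 * (P * t ^ (16 + 2 * (j + 1)) / R ^ 2) +
      2 * (P * t⁻¹ ^ (3 * (24 * (j + 1))) / R ^ 2 * (2 * C₂ * t ^ m))) ≤ P * t ^ 6 / 4 + P * t ^ 6 / 4 :=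
    calc _ ≤ 25 * (R * t⁻¹ ^ (j + 1)) ^ 2 * (32 * (P * t ^ (16 + 2 * (j + 1)) / R ^ 2) +
          2 * (P * t⁻¹ ^ (3 * (24 * (j + 1))) / R ^ 2 * (2 * C₂ * t ^ (74 * (j + 1) + 7)))) := by
          gcongr ?_ * (_ + 2 * (_ * (_ * ?_))); exact h.dn hm
      _ = (600 * t) ^ 2 * (P * t ^ 14 / 450) + (400 * C₂ * t) * (P * t ^ 6 / 4) := by
          simp only [mul_pow, inv_pow]; field_simp; ring
      _ ≤ 1 ^ 2 * (P * t ^ 6 / 4) + 1 * (P * t ^ 6 / 4) := by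
          gcongr ?_ ^ 2 * (_ * ?_ / ?_) + ?_ * _
          exacts [h.t1, h.dn (by norm_num), by norm_num]
      _ = _ := by ring
  linarith


theorem xc {n₂ n : ℕ} (hC : 0 ≤ C) (hCt : C * t ≤ 1) (hn : m * n₂ + 1 ≤ n) :
    C * (t⁻¹ ^ m) ^ n₂ * t ^ n ≤ 1 := by
  have t0 := h.t0
  calc _ ≤ C * (t⁻¹ ^ m) ^ n₂ * t ^ (m * n₂ + 1) := by gcongr _ * ?_; exact h.dn hn
    _ = C * t := by simp only [inv_pow]; field_simp; ring
    _ ≤ _ := hCt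

theorem lg {A x : ℝ} (hx : x ≤ 1) (hm : 2 * |A| + 2 ≤ m) : 2 * (A * log t⁻¹) + 2 * x ≤ log (t⁻¹ ^ m) := by
  have h1 : 1 ≤ log t⁻¹ := (le_log_iff_exp_le (inv_pos.2 h.t0)).2 (by
    linarith [exp_one_lt_d9, h.big h.t1])
  rw [log_pow]
  nlinarith [le_abs_self A]

theorem errS (hC : 0 ≤ C) (hCt : C * t ≤ 1) : C * t⁻¹ ^ 2 * (R * t ^ (j + 1) / ⌈R * t⌉₊) ^ 4 ≤ 1 := by
  have t0 := h.t0
  have R0 := h.R0
  calc _ ≤ C * t⁻¹ ^ 2 * (t ^ 1) ^ 4 := by gcongr; exact h.n6.trans (h.dn h.j1)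
    _ = C * t * t := by field_simp
    _ ≤ 1 * 1 := by gcongr; exact h.le1
    _ = _ := one_mul _

end Nu

theorem nr_spec {w : ℕ} (hw : 4 ≤ w) : ∃ j : ℕ, nr w = j + 1 ∧ 1 ≤ j ∧ 26 ≤ j * (cw w / 4) := by
  refine ⟨⌈104 / cw w⌉₊ + 1, rfl, by omega, ?_⟩
  have h0 := cw_pos (show 1 ≤ w by omega)
  have h1 := Nat.le_ceil (104 / cw w)
  rw [div_le_iff₀ h0] at h1
  push_cast
  nlinarith

theorem ks {a b c d e f g t : ℝ} (ha : 0 ≤ a) (hb : 0 ≤ b) (hc : 0 ≤ c) (hd : 0 ≤ d) (he : 0 ≤ e) (hf : 0 ≤ f)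
    (hg : 0 ≤ g) (ht : 0 < t) (h : (a + b + c + d + e + f + g) * t ≤ 1) :
    a * t ≤ 1 ∧ b * t ≤ 1 ∧ c * t ≤ 1 ∧ d * t ≤ 1 ∧ e * t ≤ 1 ∧ f * t ≤ 1 ∧ g * t ≤ 1 := by
  have k : ∀ x : ℝ, x ≤ _ → x * t ≤ 1 := fun x hx => (mul_le_mul_of_nonneg_right hx ht.le).trans h
  refine ⟨k _ ?_, k _ ?_, k _ ?_, k _ ?_, k _ ?_, k _ ?_, k _ ?_⟩ <;> linarith

theorem gb {g e : ℝ} (h : |π * g - 2| ≤ e / 100) (he : e ≤ 1) : 1 / 4 ≤ g ∧ g ≤ 1 := by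
  constructor <;> nlinarith [abs_le.1 h, pi_gt_three, pi_le_four]

end S74

open S74

theorem s3Stmt (hL : LocStmt) (hX : X2Stmt) (hF : FarEStmt) (hB : BasStmt) (hT : TgStmt) : S3Stmt := by
  intro A w
  refine ⟨0, fun p W D₀ _ _ => ?_⟩
  obtain ⟨CL, hCL, hL⟩ := leStmt semiStmt prodStmt hL swStmt p
  obtain ⟨C₂, n₂, hC₂, hX⟩ := hX p
  obtain ⟨CF, hCF, hF⟩ := hF p
  obtain ⟨P₀, hP₀, hB⟩ := hB p
  obtain ⟨_, _, -, -, hT⟩ := hT
  obtain ⟨CS, hCS, hW⟩ := swStmt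
  obtain ⟨m, hm1, hm2⟩ : ∃ m : ℕ, 74 * nr p.w + 7 ≤ m ∧ 2 * |A| + 2 ≤ m :=
    ⟨74 * nr p.w + 7 + ⌈2 * |A|⌉₊, by omega, by
      push_cast; linarith [Nat.le_ceil (2 * |A|), (Nat.cast_nonneg (nr p.w) : (0 : ℝ) ≤ _)]⟩
  obtain ⟨C₁, hC₁, e₁⟩ : ∃ C₁ : ℝ, 0 ≤ C₁ ∧ C₁ = 2 * CL * (1 + P₀ * p.r₀ ^ 2) := ⟨_, by positivity, rfl⟩
  have c1 : (0 : ℝ) ≤ 16 * p.w := by positivity
  have c2 : (0 : ℝ) ≤ 8 * (p.w : ℝ) ^ 2 * p.r₀ := by positivity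
  refine ⟨600 + 16 * p.w + 8 * (p.w : ℝ) ^ 2 * p.r₀ + 8 * CF + 100 * C₁ + 400 * C₂ + CS,
    4 * (m * (n₂ + 1)) + 1, by linarith, ?_⟩
  intro E R Y P t hE t0 hK hY hR a₁ a₂ α₁ α₂ hD f φ hf hLr Z hZ
  have C2 : 0 ≤ C₂ := zero_le_one.trans hC₂
  obtain ⟨k1, k2, k3, k4, k5, k6, k7⟩ := ks (by norm_num) c1 c2 (by positivity) (by positivity)
    (by positivity) hCS t0 hK
  have h : Env p E.Λ E.ω E.L E.N := hE.ed.toEnv
  have hG := h.toGs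
  have hw := hG.w4
  obtain ⟨j, hj, j1, hc⟩ := nr_spec hw
  have e0 := ew_nonneg p.w
  have e3 : 3 * ew p.w ≤ 1 := by linarith only [ew_le' hw]
  have e1 : ew p.w ≤ 1 := by linarith only [ew_le' hw]
  have c0 := cw_nonneg p.w
  have R1 := hE.maj.1
  have P1 := hE.P1
  have P0 : 0 ≤ P := zero_le_one.trans P1
  have p0 : 0 ≤ P₀ := zero_le_one.trans hP₀
  have mn : t ^ (4 * (m * (n₂ + 1)) + 1) ≤ t ^ m :=
    pow_le_pow_of_le_one t0.le (by linarith only [k1, t0]) (by rw [mul_add]; omega)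
  have u : Nu p.w p.r₀ j m E.L R t := ⟨t0, k1, k2, k3, by omega, j1, by omega, by
      rw [← inv_le_iff_one_le_mul₀' (one_pos.trans_le R1), ← rpow_neg_one]
      exact (rpow_le_rpow_of_exponent_le R1 (neg_le_neg e1)).trans (hE.maj.2.1.trans (hY.trans mn)),
    hR.trans (mul_le_mul_of_nonneg_right mn (Nat.cast_nonneg _))⟩
  obtain ⟨d1, -, d3, d4, d5, d6, d7⟩ := hD
  rw [hj] at d1 d4 d7 hm1
  have a2ρ := u.n3 d4
  have a2r : a₂ ≤ ⌈R * t⌉₊ := by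
    exact_mod_cast (show (a₂ : ℝ) ≤ ⌈R * t⌉₊ by linarith only [a2ρ, u.n2, u.sρ, u.s1])
  have a2R : (a₂ : ℝ) ≤ R := by linarith only [a2ρ, u.ρR]
  have r8 := hE.r8
  have r0 := hE.r0
  have nN := u.n12.trans h.le
  have rw' := Lj36.le_wmul hG ⌈R * t⌉₊
  have bw := u.n11
  have ab := u.n9
  have ab' : ⌊t⁻¹ * R⌋₊ ≤ ⌊t⁻¹ ^ m * R⌋₊ :=
    (Nat.le_mul_of_pos_left _ (by omega)).trans (ab.trans ((Nat.le_add_right _ _).trans bw))
  have rg : E.Λ.rg ≤ p.r₀ := by have := Lj36.gs_rg hG; omega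
  have hB := hB E.Λ E.ω E.L E.N h
  have iE : Ins 0 p.r₀ (E.e 0) := (hB 0).2.2.1.mono rg
  have q2 : ∀ {n : ℕ} {g : Pt → ℝ} {x : ℝ}, ⌊t⁻¹ * R⌋₊ ≤ n → F2 (nnL.edI (bl 0 n)) g x →
      Chq (bl 0 n) ((2 : ℝ) • xi R + g) (1 + 1 + 0) := fun {n} _ _ hn hg => by
    have := chq_xi u.R0 (u.n8'.trans (Nat.cast_le.2 hn))
    rw [two_smul]; exact (this.add this).add (chq_flow hg)
  have sub : ∀ {z}, z ∈ bl 0 ⌈R * t⁻¹ ^ (j + 1)⌉₊ → bl z (p.w * ⌈R * t⌉₊) ⊆ bl 0 ⌊t⁻¹ ^ m * R⌋₊ :=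
    fun hz => bl_subset_bl hz (by omega)
  have M1 : 1 ≤ t⁻¹ ^ m := one_le_pow₀ u.s1
  have xc := u.xc (n₂ := n₂) (n := 4 * (m * (n₂ + 1)) + 1) C2 (by nlinarith only [k6, C2, t0])
    (by rw [mul_add]; omega)
  have hX := hX E.Λ E.ω E.L E.N h R Y (t⁻¹ ^ m) hE.maj (gb hE.crit e1).1 (gb hE.crit e1).2
    (le_trans (by linarith only [u.big u.t1]) (le_self_pow₀ u.s1 (by omega : m ≠ 0)))
    ((mul_le_mul_of_nonneg_left hY (by positivity)).trans xc)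
    ((mul_le_mul_of_nonneg_left hR (by positivity)).trans (by
      rw [← mul_assoc]; exact mul_le_of_le_one_left (Nat.cast_nonneg _) xc))
  have hα := u.errA P0 (by positivity) e3 d1 d6
  have hε := u.errE C2 hE.maj.pos.le (hY.trans (u.dn (Nat.le_succ _)))
  have sv : Sv R (t⁻¹ ^ m) fun _ => 0 := ⟨fun _ _ => rfl, Sm.zero' _ _ (by positivity) (by positivity)⟩
  have site : ∀ z ∈ bl 0 ⌈R * t⁻¹ ^ (j + 1)⌉₊, ∀ g : Pt → ℝ,
      F2 (nnL.edI (bl 0 ⌊t⁻¹ ^ m * R⌋₊)) g (log (t⁻¹ ^ m)) →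
      (∀ y ∈ bl z a₂, ((2 : ℝ) • xi R + g) y = 0) →
      |E.ω fun s => trl z (E.e 0) s * cp ((2 : ℝ) • xi R + g) φ s| ≤
        32 * (P * t ^ (16 + 2 * (j + 1)) / R ^ 2) +
          2 * (P * t⁻¹ ^ (3 * (24 * (j + 1))) / R ^ 2 * (2 * C₂ * t ^ m)) := fun z hz g hg h0 => by
    have wa := Nat.mul_le_mul_left p.w a2r
    have k := dec h α₁ α₂ (by omega) (by have := u.n12; omega)
      ((bl_mono z wa).trans ((sub hz).trans (bl_mono 0 nN))) (iE.mono (by omega))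
      ((hT a₁ (by omega)).1.1.mono (by omega)) ((hT a₁ (by omega)).2.1.1.mono (by omega))
      ((ins_cp (q2 ab' hg) φ).mono nN) (out_cp h0 φ) (abs_cp_le _ φ)
    obtain ⟨-, -, x1, x2⟩ := (hX a₁ z _ _ (by
        rw [inv_pow, div_inv_eq_mul]
        exact le_trans (mul_le_mul_of_nonneg_left (u.dn (by omega)) u.R0.le) d1)
      (le_trans (le_trans (Nat.cast_le.2 (by omega)) a2R) (le_mul_of_one_le_left u.R0.le M1))
      (by have := eu_le_of_bl hz; rw [sub_zero] at this; linarith only [this, u.n10, u.mR, u.oneB]) sv sv).2.2 g φ hg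
    have y : ∀ {α x : ℝ}, |α| ≤ max |α₁| |α₂| → |x| ≤ _ → |α * x| ≤
        P * t⁻¹ ^ (3 * (24 * (j + 1))) / R ^ 2 * (2 * C₂ * t ^ m) := fun h1 h2 => by
      rw [abs_mul]; exact mul_le_mul (h1.trans hα) (h2.trans hε) (abs_nonneg _) (by positivity)
    have y1 := abs_le.1 (y (le_max_left _ _) x1)
    have y2 := abs_le.1 (y (le_max_right _ _) x2)
    have y3 := abs_le.1 (k.trans (mul_le_mul_of_nonneg_left d7 (by norm_num)))
    rw [abs_le]; constructor <;> linarith only [y1, y2, y3]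
  have hq := q2 le_rfl hf
  have hf' := f2_up hf (Lat.edI_mono (bl_mono 0 ab'))
  have cm : ∀ z, (fun s => cp ((2 : ℝ) • xi R + f) φ s * E.e z s) =
      fun s => trl z (E.e 0) s * cp ((2 : ℝ) • xi R + f) φ s := fun z => by
    rw [(hB z).2.1]; exact funext fun s => mul_comm _ _
  refine (split (A := bl 0 (⌊t⁻¹ * R⌋₊ + a₂)) (δ₁ := C₁ * P * t ^ 21 / R ^ 2) (hZ.trans hE.ed.hi)
    (hF _ _ _ _ h R P u.R0 P0 hE.prof _ _ _ u.r₀a ab (by have := u.n12; omega) (ins_cp hq φ))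
    (fun z hz hz' => ?_) (fun z hz _ => ?_) (by positivity)).trans
    (u.fin hC₁ C2 P0 (u.errF hCF P0
      (((semiStmt _ _ _ 0 h.ok (Lj36.gs_le hG u.r₀a)).1 _ (ins_cp hq φ)).2.2.2.1 1 (abs_cp_le _ φ))
      e0 e1 c0 hc k4) u.cdB (u.cdA a2R) hm1 k5 k6)
  · rw [cm]
    refine site z hz f (RJ57.f2_mono hf' ?_) fun y hy => hq.1 y fun hy' =>
      hz' (bl_subset_bl hy' (by omega) (mem_bl_comm.1 hy))
    linarith only [u.lg zero_le_one hm2, RJ57.f2_nonneg hf]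
  · obtain ⟨v, hv⟩ := hLr z
    have hs := (sub hz).trans (bl_mono 0 nN)
    have ρ1 : 1 ≤ R * t ^ (j + 1) := u.s1.trans u.sρ
    have k := (hL _ _ _ _ h (E.e 0) p.r₀ R P P₀ t⁻¹ le_rfl iE (hB 0).2.2.2.1 u.R0 P0 hE.prof
      p0 (fun c hc => ((hB 0).2.2.2.2.2.2 0 c (bl_mono 0 (rg.trans hc))).1) u.s1 0 Unit ∅ _ _ _ z _
      t⁻¹ φ _ v _ (far0 p _ _) (by simp) (hq.mono (bl_mono 0 (ab'.trans nN))) (by have := u.n12; omega) hs
      (by simp) hv (by rw [div_inv_eq_mul]; exact u.n7) u.n5').1 _ u.n1 u.n2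
    simp only [prod_empty, one_mul, mul_one] at k
    have hn2 : ⌈2 * (R * t ^ (j + 1))⌉₊ + 1 ≤ ⌈R * t⌉₊ := by
      have := Nat.ceil_lt_add_one (show 0 ≤ 2 * (R * t ^ (j + 1)) by linarith only [ρ1])
      exact_mod_cast (show ((⌈2 * (R * t ^ (j + 1))⌉₊ : ℝ) + 1) ≤ ⌈R * t⌉₊ by linarith only [this, ρ1, u.n2])
    obtain ⟨w1, w2, w3⟩ := (hW _ v z _ _ hv (by omega)).2.2 _ _ ρ1 (Nat.le_ceil _) hn2
    have k2 := site z hz (f + (-1 : ℝ) • A0 (sw v z (R * t ^ (j + 1)))) (RJ57.f2_mono (RJ57.f2_add hf'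
      (RJ57.f2_smul (-1) (f2_up (B80.f2_A0 w1) (Lat.edI_mono ((bl_mono z (hn2.trans rw')).trans (sub hz))))))
      (u.lg (by linarith only [w2, u.errS hCS k7]) hm2)) fun y hy => by
        have := w3 a₂ a2ρ y hy
        simp only [Pi.add_apply, Pi.smul_apply, smul_eq_mul] at this ⊢
        linarith only [this]
    rw [← add_assoc, neg_one_smul, ← sub_eq_add_neg] at k2
    have k3 := abs_le.1 (k.trans (u.errL hCL P1 p0 e0 e1 c0 hc))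
    have k4 := abs_le.1 k2
    rw [cm, abs_le, e₁]; constructor <;> linarith only [k3, k4]

end Crest.Agent.T145.Ev
end

-- ▼ part T145/EvV_29
section

/-!
# Row 145, the even sector: the step of the logarithmic derivative of the left functional (helper29)
-/

set_option autoImplicit false

namespace Crest.Agent.T145.Ev

open Finset Pot Xi Real Fl

namespace V29

variable {p : Par} {Λ : Lat} {ω ω' : Sta} {D : Finset Pt} {L N : ℕ}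

theorem ins_et (hΛ : Λ.Ok) (ω : Sta) (z : Pt) : Ins z Λ.rg (et Λ ω z) := (Om.ins_est hΛ z).sub_const _

/-- linearity of the state against a local insertion anywhere in the domain -/
theorem lin3 (h : Env p Λ ω L N) {z : Pt} (hz : z ∈ bl 0 (N + N / 4)) {G : Cfg Pt → ℝ} (hG : Ins z Λ.rg G)
    {F₁ F₂ F₃ : Cfg Pt → ℝ} (h1 : Ins 0 (N / 4) F₁) (h2 : Ins 0 (N / 4) F₂) (h3 : Ins 0 (N / 4) F₃)
    (c : ℝ) : ω (fun s => (F₁ s + c * F₂ s - c * F₃ s) * G s) =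
      ω (fun s => F₁ s * G s) + c * ω (fun s => F₂ s * G s) - c * ω fun s => F₃ s * G s := by
  have hw := h.w4
  have hrg := h.gd.2.1
  have h1' := h.mem.ok.one_le_rg
  have hb : 100 * 4 * p.r₀ ≤ L := le_trans (by gcongr) h.big
  have hLN := h.le
  obtain ⟨m, hm, hω⟩ := h.amb (z.1 / 2, z.2 / 2)
  have hC := hm.ctr.cen hm.anch
  have s0 : bl 0 (N / 4) ⊆ bl (z.1 / 2, z.2 / 2) N := fun x hx => by
    rw [mem_bl] at hz hx ⊢
    simp only [Prod.fst_zero, Prod.snd_zero] at hz hx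
    omega
  have sz : bl z Λ.rg ⊆ bl (z.1 / 2, z.2 / 2) N := fun x hx => by
    rw [mem_bl] at hz hx ⊢
    simp only [Prod.fst_zero, Prod.snd_zero] at hz
    omega
  have e : ∀ F, Ins 0 (N / 4) F → ω (fun s => F s * G s) = Ex (m.W 0) fun s => F s * G s :=
    fun F hF => hω _ ((hF.1.mono s0).mul (hG.1.mono sz))
  rw [e _ ((h1.add (h2.smul c)).sub (h3.smul c)), e _ h1, e _ h2, e _ h3, ← Ex_const_mul, ← Ex_const_mul,
    ← Ex_add (hC.ig (h1.2.mul hG.2)) (hC.ig ((h2.2.mul hG.2).const_mul c)),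
    ← Ex_sub (hC.ig ((h1.2.mul hG.2).add ((h2.2.mul hG.2).const_mul c)))
      (hC.ig ((h3.2.mul hG.2).const_mul c))]
  exact Ex_congr fun s _ => by ring

/-- the left functional is bounded by the norm -/
theorem ell_le (h : Env p Λ ω L N) {a : ℕ} {R : ℝ} (h0 : p.r₀ ≤ a) (hL : p.w * a ≤ L) (ha : (a : ℝ) + 1 ≤ R)
    (hR : 2 * R ≤ N) {F : Cfg Pt → ℝ} (hF : Ins 0 a F) :
    |ω fun s => F s * Sn R s| ≤ 16 * nu Λ p.w 0 a F := by
  obtain ⟨m, hm, hω⟩ := h.amb 0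
  have R0 : 0 < R := by linarith [(Nat.cast_nonneg a : (0 : ℝ) ≤ a)]
  have h4 := A51.four_le h.toGs a
  have hLN := h.le
  rw [hω _ ((hF.mono (by omega)).mul (ins_Sn R0 hR)).1]
  simpa using (prodStmt p Λ L h.toGs m (bl 0 N) Unit univ (fun _ => 0) (fun _ => a) (fun _ => F)
    (Sn R) hm ⟨by simp, fun _ _ => hF, fun _ _ => ⟨h0, hL⟩,
      fun _ _ => bl_mono _ (hL.trans h.le), fun _ _ _ _ hij => absurd rfl hij⟩
    (fun _ _ => out_Sn R0 ha) (abs_Sn_le _)).1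

theorem split (α k R : ℝ) (s : Cfg Pt) : Jz 0 s * Sn R s =
    (Jz 0 s - α * Sn k s) * Sn R s + α / 2 * cp (xi k - xi R) 0 s - α / 2 * cp (xi k + xi R) 0 s := by
  have := cp_mul (xi k) (xi R) (-(π / 2)) (-(π / 2)) s
  rw [← Sn_eq, ← Sn_eq, sub_self, show -(π / 2) + -(π / 2) = -π by ring] at this
  have h2 := cp_add_pi (xi k + xi R) (-π) s
  rw [neg_add_cancel] at h2
  linear_combination α * this + α / 2 * h2

/-- the bookkeeping at one scale -/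
theorem core (h : Ed p Λ ω ω' D L N) {a ρ b : ℕ} {k R : ℝ} (α μ : ℝ) (h0 : p.r₀ ≤ b) (hb : b ≤ ρ)
    (hρ : 2 * ρ ≤ a) (hL : p.w * a ≤ L) (ha : (a : ℝ) + 1 ≤ R) (hR : 2 * R ≤ (N / 4 : ℕ)) (k0 : 0 < k)
    (hk : 2 * k ≤ b) :
    |ell ω' R (Jz 0) - μ * ell ω R (Jz 0) -
      (∑ z ∈ D \ bl 0 ρ, ω (fun s => (Jz 0 s - α * Sn k s) * Sn R s * et Λ ω z s) +
        α / 2 * ∑ z ∈ D \ bl 0 ρ, ω (fun s => cp (xi k - xi R) 0 s * et Λ ω z s) -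
        α / 2 * ∑ z ∈ D \ bl 0 ρ, ω fun s => cp (xi k + xi R) 0 s * et Λ ω z s)| ≤
      16 * nu Λ p.w 0 a (fun s => Jh Λ ω ρ s - μ * Jz 0 s) ∧
    |ell ω R (Jz 0) - (α / 2 * ω (cp (xi k - xi R) 0) - α / 2 * ω (cp (xi k + xi R) 0))| ≤
      16 * nu Λ p.w 0 b fun s => Jz 0 s - α * Sn k s := by
  have ok := h.mem.ok
  have hrg := h.gd.2.1
  have h1' := ok.one_le_rg
  have hLN := h.le
  have h4 := A51.four_le h.toGs a
  have R0 : 0 < R := by linarith [(Nat.cast_nonneg a : (0 : ℝ) ≤ a)]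
  have hba : (b : ℝ) ≤ a := by exact_mod_cast (by omega : b ≤ a)
  have hN : ((N / 4 : ℕ) : ℝ) ≤ N := by exact_mod_cast Nat.div_le_self N 4
  have iS : Ins 0 (N / 4) (Sn R) := ins_Sn R0 hR
  have iJ : Ins 0 b (Jz 0) := ins_Jz 0 (by omega)
  have iH : Ins 0 b fun s => Jz 0 s - α * Sn k s := iJ.sub ((ins_Sn k0 hk).smul α)
  have i1 : Ins 0 (N / 4) fun s => (Jz 0 s - α * Sn k s) * Sn R s := (iH.mono (by omega)).mul iS
  have c1 : Chq (bl 0 (N / 4)) (xi k) 1 := chq_xi k0 (by linarith)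
  have i2 := ins_cp (c1.sub (chq_xi R0 hR)) 0
  have i3 := ins_cp (c1.add (chq_xi R0 hR)) 0
  have iE : ∀ z ∈ bl (0 : Pt) ρ, Ins 0 a (et Λ ω z) := fun z hz => (ins_et ok ω z).move hz (by omega)
  have iJh : Ins 0 a (Jh Λ ω ρ) := (iJ.mono (by omega)).mul (Ins.sum _ iE)
  have iJa : Ins 0 a (Jz 0) := iJ.mono (by omega)
  constructor
  · have e1 : ell ω' R (Jz 0) = ∑ z ∈ D \ bl 0 ρ, ω (fun s => Jz 0 s * Sn R s * et Λ ω z s) +
        ∑ z ∈ bl 0 ρ, ω fun s => Jz 0 s * Sn R s * et Λ ω z s := by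
      rw [sum_sdiff ((bl_mono 0 (by omega)).trans h.lo)]
      exact h.der _ ((iJ.mono (by omega)).mul iS)
    have e2 : ∑ z ∈ bl 0 ρ, ω (fun s => Jz 0 s * Sn R s * et Λ ω z s) - μ * ell ω R (Jz 0) =
        ω fun s => (Jh Λ ω ρ s - μ * Jz 0 s) * Sn R s := by
      obtain ⟨m, hm, hω⟩ := h.amb 0
      have hC := hm.ctr.cen hm.anch
      have iS' : Ins 0 N (Sn R) := iS.mono (by omega)
      have iJ' : Ins 0 N fun s => Jz 0 s * Sn R s := (iJ.mono (by omega)).mul iS'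
      have iz : ∀ z ∈ bl (0 : Pt) ρ, Ins 0 N fun s => Jz 0 s * Sn R s * et Λ ω z s := fun z hz =>
        iJ'.mul ((iE z hz).mono (by omega))
      rw [sum_congr rfl fun z hz => hω _ (iz z hz).1, ell, hω _ iJ'.1,
        hω _ (((iJh.sub (iJa.smul μ)).mono (by omega)).mul iS').1,
        ← Ex_sum _ fun z hz => hC.ig (iz z hz).2, ← Ex_const_mul,
        ← Ex_sub (hC.ig (Ins.sum _ iz).2) (hC.ig (iJ'.smul μ).2)]
      refine Ex_congr fun s _ => ?_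
      rw [← mul_sum, Jh]; ring
    have e3 : ∀ z ∈ D \ bl 0 ρ, ω (fun s => Jz 0 s * Sn R s * et Λ ω z s) = _ := fun z hz =>
      (congrArg ω (funext fun s => by rw [split α k R])).trans
        (lin3 h.toEnv (h.hi (mem_sdiff.1 hz).1) (ins_et ok ω z) i1 i2 i3 (α / 2))
    rw [e1, sum_congr rfl e3, sum_sub_distrib, sum_add_distrib, ← mul_sum, ← mul_sum]
    refine le_of_eq_of_le (congrArg _ ?_) (ell_le h.toEnv (by omega) hL ha (by linarith)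
      (iJh.sub (iJa.smul μ)))
    rw [← e2]; ring
  · have e := lin3 h.toEnv (self_mem_bl 0 _) (Ins.const 0 _ 1) i1 i2 i3 (α / 2)
    simp only [mul_one, ← split α k R] at e
    refine le_of_eq_of_le (congrArg _ ?_) (ell_le h.toEnv h0 (le_trans (by gcongr; omega) hL)
      (show (b : ℝ) + 1 ≤ R by linarith) (by linarith) iH)
    rw [ell, e]; ring

theorem alg {l l' μ α Φ b T X S₂ S₃ n₂ n₃ A₁ A₂ A₃ B B' a lam K ε P : ℝ}
    (c1 : |l' - μ * l - (X + α / 2 * S₂ - α / 2 * S₃)| ≤ A₁) (c2 : |l - (α / 2 * n₂ - α / 2 * n₃)| ≤ A₂)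
    (hX : |X| ≤ A₃) (h2 : |S₂ - 2 * π ^ 2 * b * T * Φ| ≤ B) (h3 : |S₃| ≤ B) (h4 : |n₂ - Φ| ≤ B')
    (h5 : |n₃| ≤ B') (hα : |α| ≤ a) (T0 : 0 ≤ T) (l0 : 0 < lam) (hl : lam ≤ K * |l|)
    (e0 : 0 ≤ ε) (P0 : 0 ≤ P) (e1 : A₁ + A₃ + a * B ≤ ε * P * lam) (e2 : T * (A₂ + a * B') ≤ ε * lam) :
    |l' / l - μ - 2 * π ^ 2 * b * T| ≤ K * ε * (P + 20 * |b|) := by
  have hl0 : l ≠ 0 := fun h => by rw [h, abs_zero, mul_zero] at hl; linarith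
  have hp : π ^ 2 ≤ 10 := by nlinarith [pi_lt_d2, pi_pos]
  have half : ∀ x y c : ℝ, |x| ≤ c → |y| ≤ c → |α / 2 * (x - y)| ≤ a * c := fun x y c hx hy => by
    rw [abs_mul, abs_div, abs_two]
    have := abs_sub x y
    have := abs_nonneg α
    have := abs_nonneg (x - y)
    nlinarith
  have k1 := half _ _ _ h2 h3
  have k2 := half _ _ _ h4 h5
  have k3 : |l - α / 2 * Φ| ≤ A₂ + a * B' := by
    refine le_of_eq_of_le (congrArg _ ?_) ((abs_add_le _ _).trans (add_le_add c2 k2)); ring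
  have k4 : |2 * π ^ 2 * b * T * (l - α / 2 * Φ)| ≤ 20 * |b| * (ε * lam) := by
    rw [abs_mul, abs_mul, abs_mul, abs_of_nonneg T0, abs_of_nonneg (by positivity : 0 ≤ 2 * π ^ 2),
      mul_assoc]
    exact mul_le_mul (by gcongr; linarith) ((mul_le_mul_of_nonneg_left k3 T0).trans e2) (by positivity)
      (by positivity)
  have k5 : |l' - μ * l - 2 * π ^ 2 * b * T * l| ≤ A₁ + A₃ + a * B + 20 * |b| * (ε * lam) := by
    refine le_of_eq_of_le (congrArg _ ?_) ((abs_sub _ _).trans (add_le_add ((abs_add_le _ _).trans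
      (add_le_add ((abs_add_le _ _).trans (add_le_add c1 hX)) k1)) k4))
    ring
  rw [show l' / l - μ - 2 * π ^ 2 * b * T = (l' - μ * l - 2 * π ^ 2 * b * T * l) / l by field_simp,
    abs_div, div_le_iff₀ (abs_pos.2 hl0)]
  calc _ ≤ ε * (P + 20 * |b|) * lam := by linarith
    _ ≤ ε * (P + 20 * |b|) * (K * |l|) := by gcongr
    _ = _ := by ring

theorem yk_le {W : ℕ} (hW : 2 ≤ W) : ∃ C : ℝ, 0 ≤ C ∧ ∀ (ω : Sta) (R : ℝ), 1 ≤ R → |gk ω R| ≤ 2 →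
    yk ω W R ≤ C * R ^ 2 * |ell ω R (Jz 0)| := by
  obtain ⟨c, C, -, hA⟩ := akStmt W hW
  obtain ⟨Ce, hCe, he⟩ := abs_er_le
  have hl : 0 ≤ log (W : ℝ) := log_natCast_nonneg W
  refine ⟨√(π * log W * C / 2) * exp (2 * π ^ 2 * (2 * Ce)), by positivity, fun ω R hR hg => ?_⟩
  have h3 : |gk ω R * er R| ≤ 2 * Ce := by rw [abs_mul]; gcongr; exact he R hR
  have x2 : exp (-2 * π ^ 2 * gk ω R * er R) ≤ exp (2 * π ^ 2 * (2 * Ce)) :=
    exp_le_exp.2 (by nlinarith [(abs_le.1 h3).1, sq_nonneg π])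
  have a2 := (hA R hR).2.1
  have := pi_pos
  calc _ ≤ √(π * log W * C / 2) * R ^ 2 * |ell ω R (Jz 0)| * exp (2 * π ^ 2 * (2 * Ce)) := by
        rw [yk]; gcongr
    _ = _ := by ring

theorem lr0 : ∃ C : ℝ, 0 ≤ C ∧ ∀ (R : ℝ) (z : Pt) (r : ℕ), 1 ≤ r → (r : ℝ) ≤ R → ∃ u, Lr (xi R) u z r C := by
  obtain ⟨C, h0, hC⟩ := lr_xi
  refine ⟨C, h0, fun R z r hr hR => ?_⟩
  have h := hC R 0 z r hr hR
  simp only [sub_zero] at h
  have r1 : (1 : ℝ) ≤ r := by exact_mod_cast hr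
  exact ⟨_, h.mono (mul_le_of_le_one_right h0 (pow_le_one₀ (div_nonneg (by linarith) (by linarith))
    ((div_le_one (by linarith)).2 hR)))⟩

theorem gr_in {k R R' : ℝ} (hR : 0 < R) (h : R ≤ R') {ρ : ℕ} (hρ : (ρ : ℝ) + 1 ≤ R) {z : Pt}
    (hz : z ∈ bl 0 ρ) : gr (Phi k - Phi R') (Phi k - Phi R') z = gr (Phi k - Phi R) (Phi k - Phi R) z := by
  have e : ∀ i, dif (ev i) (Phi k - Phi R') z = dif (ev i) (Phi k - Phi R) z := fun i => by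
    have h1 : z + ev i ∈ bl 0 (ρ + 1) :=
      bl_one_sub le_rfl z hz (add_nn_mem_bl (by fin_cases i <;> decide) z)
    have h2 : z ∈ bl 0 (ρ + 1) := bl_mono 0 (Nat.le_succ _) hz
    have h3 : ((ρ + 1 : ℕ) : ℝ) ≤ R := by push_cast; exact hρ
    simp only [dif, Pi.sub_apply, Phi_in hR h3 h1, Phi_in hR h3 h2, Phi_in (hR.trans_le h) (h3.trans h) h1,
      Phi_in (hR.trans_le h) (h3.trans h) h2]
    ring
  simp only [gr, e]

theorem gr_nonneg (v : Pt → ℝ) (z : Pt) : 0 ≤ gr v v z := sum_nonneg fun _ _ => mul_self_nonneg _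

theorem rp_le {x z : ℝ} (n : ℕ) (hn : n ≠ 0) (hx : 0 ≤ x) (hz : 0 ≤ z) (h : x ≤ z ^ n) :
    x ^ (1 / n : ℝ) ≤ z := by
  refine (rpow_le_rpow hx h (by positivity)).trans_eq ?_
  rw [one_div, pow_rpow_inv_natCast hz hn]

theorem rpe {u y e : ℝ} (u0 : 0 < u) (u1 : u ≤ 1) (h1 : 1 ≤ y) (h2 : y ≤ (u ^ 2800)⁻¹) (e1 : e ≤ 1 / 1000) :
    y ^ e ≤ (u ^ 3)⁻¹ := by
  refine (rpow_le_rpow_of_exponent_le h1 (e1.trans_eq (by norm_num))).trans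
    (rp_le 1000 (by norm_num) (by linarith) (by positivity) (h2.trans ?_))
  rw [inv_pow, ← pow_mul]
  exact inv_anti₀ (by positivity) (pow_le_pow_of_le_one u0.le u1 (by norm_num))

theorem rp5 {W z : ℝ} (m : ℕ) (hW : 0 < W) (hz : 0 ≤ z) (h : (W ^ m)⁻¹ ≤ z ^ 5) :
    W ^ (-(11 / 5 : ℝ) * m) ≤ z / (W ^ m) ^ 2 := by
  have h1 := rp_le 5 (by norm_num) (by positivity) hz h
  have e : W ^ (-(11 / 5 : ℝ) * m) = (W ^ m)⁻¹ ^ (1 / (5 : ℕ) : ℝ) / (W ^ m) ^ 2 := by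
    rw [← pow_mul, ← rpow_natCast, ← rpow_natCast, ← rpow_neg hW.le, ← rpow_mul hW.le, ← rpow_sub hW]
    congr 1; push_cast; ring
  rw [e]; gcongr

/-- the choice of the scales -/
theorem scales {W r₁ : ℕ} {K R u : ℝ} (hW : 2 ≤ W) (u0 : 0 < u) (hK : 8 ≤ K) (hu : K * u ≤ 1)
    (hR : 1 ≤ R * (u ^ 2800) ^ 2) (h1 : (r₁ : ℝ) ^ 100 ≤ R) {k : ℕ} (hk : k = ⌈R * u ^ 2800⌉₊) :
    R * u ^ 2800 ≤ k ∧ (k : ℝ) ≤ 2 * (R * u ^ 2800) ∧ K ≤ k ∧ r₁ ≤ k ∧ ∃ m : ℕ,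
      (W : ℝ) ^ m * (4 * k) ≤ R * u ^ 56 ∧ R * u ^ 56 ≤ W * ((W : ℝ) ^ m * (4 * k)) := by
  have u1 : u ≤ 1 := by nlinarith
  have t0 : 0 < u ^ 2800 := by positivity
  have t1 : u ^ 2800 ≤ u ^ 57 := pow_le_pow_of_le_one u0.le u1 (by norm_num)
  have t2 : u ^ 2800 ≤ u := pow_le_of_le_one u0.le u1 (by norm_num)
  have t3 : 0 < u ^ 56 := by positivity
  rw [pow_succ u 56] at t1
  generalize u ^ 2800 = t at *
  generalize u ^ 56 = s at *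
  have R0 : 0 < R := by by_contra h; nlinarith [sq_nonneg t]
  have a0 : K ≤ R * t := by
    have : K * t ≤ 1 := le_trans (by gcongr) hu
    nlinarith [mul_pos R0 t0]
  have a1 : R * t ≤ k := hk ▸ Nat.le_ceil _
  have a2 : (k : ℝ) ≤ 2 * (R * t) := by
    have := Nat.ceil_lt_add_one (mul_pos R0 t0).le
    rw [← hk] at this; linarith
  have k0 : (0 : ℝ) < 4 * k := by linarith
  refine ⟨a1, a2, a0.trans a1, ?_, ?_⟩
  · by_contra h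
    have b1 : (k : ℝ) < r₁ := by exact_mod_cast not_le.1 h
    have b2 : (r₁ : ℝ) ^ 2 ≤ r₁ ^ 100 := pow_le_pow_right₀ (by linarith) (by norm_num)
    have b3 : (R * t) ^ 2 < r₁ ^ 2 := by gcongr; linarith
    nlinarith
  · have b1 : 1 ≤ R * s / (4 * k) := by
      rw [one_le_div k0]
      have : 8 * u ≤ 1 := le_trans (by gcongr) hu
      nlinarith [mul_pos R0 t3, mul_le_mul_of_nonneg_left t1 R0.le]
    obtain ⟨m, b2, b3⟩ := exists_nat_pow_near b1 (show (1 : ℝ) < W by exact_mod_cast hW)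
    rw [le_div_iff₀ k0] at b2
    rw [div_lt_iff₀ k0, pow_succ] at b3
    exact ⟨m, b2, by linarith⟩

theorem geo {w W K R u k b L : ℝ} (w4 : 4 ≤ w) (W2 : 2 ≤ W) (u0 : 0 < u) (hK : 100 * (w * W) ≤ K)
    (hu : K * u ≤ 1) (hR : 1 ≤ R * (u ^ 2800) ^ 2) (hL : R ≤ (u ^ 2800) ^ 3 * L)
    (k2 : k ≤ 2 * (R * u ^ 2800)) (b1 : b ≤ R * u ^ 56) :
    K ≤ (u ^ 2800)⁻¹ ∧ K ≤ R ∧ K * ((u ^ 2800)⁻¹ * R) ≤ L ∧ 100 * (w * b) ≤ R ∧ 50 * (w * k) ≤ R ∧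
      100 * (W * R) ≤ (u ^ 2800)⁻¹ * R ∧ 100 * (w * R) ≤ (u ^ 2800)⁻¹ * R ∧
      100 * ((u ^ 2800)⁻¹ * R) ≤ L ∧ W / u ^ 56 ≤ (u ^ 2800)⁻¹ ∧ 4 * W ≤ W / u ^ 56 := by
  have hw : 8 ≤ w * W := by nlinarith
  have u1 : u ≤ 1 := by nlinarith
  have t0 : 0 < u ^ 2800 := by positivity
  have t1 : u ^ 2800 ≤ u ^ 57 := pow_le_pow_of_le_one u0.le u1 (by norm_num)
  have t2 : u ^ 2800 ≤ u := pow_le_of_le_one u0.le u1 (by norm_num)
  have t3 : 0 < u ^ 56 := by positivity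
  have t4 : u ^ 56 ≤ u := pow_le_of_le_one u0.le u1 (by norm_num)
  rw [pow_succ u 56] at t1
  generalize u ^ 2800 = t at *
  generalize u ^ 56 = s at *
  have R0 : 0 < R := by by_contra h; nlinarith [sq_nonneg t]
  have L0 : 0 ≤ L := by by_contra h; nlinarith [pow_pos t0 3]
  have K0 : 0 ≤ K := by linarith
  have c : ∀ x, x ≤ K → x * u ≤ 1 := fun x h => le_trans (by gcongr) hu
  have Kt : K * t ≤ 1 := le_trans (by gcongr) hu
  have a1 : K ≤ t⁻¹ := by rw [← one_div, le_div_iff₀ t0]; exact Kt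
  have hw1 : 100 * w ≤ K := by nlinarith
  have hw2 : 100 * W ≤ K := by nlinarith
  have a3 : K * (t⁻¹ * R) ≤ L := calc
    K * (t⁻¹ * R) ≤ K * (t⁻¹ * (t ^ 3 * L)) := by gcongr
    _ = K * t * t * L := by field_simp
    _ ≤ 1 * 1 * L := by gcongr; linarith
    _ = L := by ring
  refine ⟨a1, ?_, a3, ?_, ?_, ?_, ?_, le_trans (by gcongr; linarith) a3, ?_, ?_⟩
  · calc K ≤ K * (R * t ^ 2) := le_mul_of_one_le_right K0 hR
      _ = K * t * t * R := by ring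
      _ ≤ 1 * 1 * R := by gcongr; linarith
      _ = R := by ring
  · calc 100 * (w * b) ≤ 100 * (w * (R * u)) := by gcongr; exact b1.trans (by gcongr)
      _ = 100 * w * u * R := by ring
      _ ≤ 1 * R := by gcongr; exact c _ hw1
      _ = R := one_mul R
  · calc 50 * (w * k) ≤ 50 * (w * (2 * (R * u))) := by gcongr; exact k2.trans (by gcongr)
      _ = 100 * w * u * R := by ring
      _ ≤ 1 * R := by gcongr; exact c _ hw1
      _ = R := one_mul R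
  · rw [← mul_assoc]; gcongr; linarith
  · rw [← mul_assoc]; gcongr; linarith
  · rw [← one_div, div_le_div_iff₀ t3 t0]
    nlinarith [c W (by linarith), mul_le_mul_of_nonneg_left t1 (show 0 ≤ W by linarith)]
  · rw [le_div_iff₀ t3]
    nlinarith [c 4 (by linarith)]

theorem logs {u K W CX Ce : ℝ} (u0 : 0 < u) (u1 : u ≤ 1) (hu : K * u ≤ 1) (X0 : 0 ≤ CX) (e0 : 0 ≤ Ce)
    (h1 : 8400 * CX ≤ K) (h2 : exp (3 * Ce + 1) ≤ (u ^ 2800)⁻¹) (W1 : 1 ≤ W) (h3 : W ≤ (u ^ 2800)⁻¹) :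
    log (u ^ 2800)⁻¹ ≤ 2800 / u ∧ 3 * Ce + 1 ≤ log (u ^ 2800)⁻¹ ∧
      log (W * (u ^ 2800)⁻¹) ≤ 2 * log (u ^ 2800)⁻¹ ∧
      CX * (1 + log (W * (u ^ 2800)⁻¹)) ≤ 3 * CX * log (u ^ 2800)⁻¹ ∧
      CX * (1 + log (W * (u ^ 2800)⁻¹)) ≤ (u ^ 2800)⁻¹ := by
  have a1 : log (u ^ 2800)⁻¹ ≤ 2800 / u := by
    rw [← inv_pow, log_pow, div_eq_mul_inv]
    have := log_le_sub_one_of_pos (inv_pos.2 u0)
    push_cast; linarith
  have t2 : (u ^ 2)⁻¹ ≤ (u ^ 2800)⁻¹ :=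
    inv_anti₀ (by positivity) (pow_le_pow_of_le_one u0.le u1 (by norm_num))
  generalize (u ^ 2800)⁻¹ = T at *
  have a2 : 3 * Ce + 1 ≤ log T := (le_log_iff_exp_le (by linarith)).2 h2
  have a3 : log (W * T) ≤ 2 * log T := by
    rw [log_mul (by linarith) (by linarith)]
    linarith [log_le_log (by linarith) h3]
  have a4 : CX * (1 + log (W * T)) ≤ 3 * CX * log T := by nlinarith
  refine ⟨a1, a2, a3, a4, a4.trans (le_trans ?_ t2)⟩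
  calc 3 * CX * log T ≤ 3 * CX * (2800 / u) := by gcongr
    _ = 8400 * CX * u * (u ^ 2)⁻¹ := by field_simp; ring
    _ ≤ K * u * (u ^ 2)⁻¹ := by gcongr
    _ ≤ _ := mul_le_of_le_one_left (by positivity) hu

/-- the sizes of the coefficient and of the remainder of the purification -/
theorem purn {W u R k Y α ν ν' e : ℝ} {m : ℕ} (W2 : 2 ≤ W) (u0 : 0 < u) (u1 : u ≤ 1) (R0 : 0 < R)
    (Y0 : 0 ≤ Y) (k1 : R * u ^ 2800 ≤ k) (k2 : k ≤ 2 * (R * u ^ 2800)) (b1 : W ^ m * (4 * k) ≤ R * u ^ 56)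
    (b2 : R * u ^ 56 ≤ W * (W ^ m * (4 * k))) (e1 : e ≤ 1 / 1000) (n0 : 0 ≤ ν)
    (h0 : ν ≤ Y * (u ^ 2800)⁻¹ ^ e / (4 * k) ^ 2) (h1 : |α| ≤ 2 * W ^ (e * m) * ν)
    (h2 : ν' ≤ 3 * W ^ (-(11 / 5 : ℝ) * m) * ν) :
    |α| ≤ Y / R ^ 2 / (u ^ 6 * (u ^ 2800) ^ 2) ∧ ν' ≤ 24 * W ^ 3 * u ^ 433 * (Y / R ^ 2) := by
  have t0 : 0 < u ^ 2800 := by positivity
  have t1 : u ^ 2800 ≤ 1 := pow_le_one₀ u0.le u1
  have k0 : 0 < k := lt_of_lt_of_le (by positivity) k1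
  have W0 : 0 < W := by linarith
  have x1 : 1 ≤ W ^ m := one_le_pow₀ (by linarith)
  have x2 : W ^ m ≤ (u ^ 2800)⁻¹ := by
    rw [← one_div, le_div_iff₀ t0]
    refine le_of_mul_le_mul_right ?_ R0
    calc W ^ m * u ^ 2800 * R = W ^ m * (R * u ^ 2800) := by ring
      _ ≤ W ^ m * (4 * k) := mul_le_mul_of_nonneg_left (by linarith) (by positivity)
      _ ≤ R * 1 := b1.trans (by gcongr; exact pow_le_one₀ u0.le u1)
      _ = _ := by ring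
  have n1 : ν ≤ Y * (u ^ 3)⁻¹ / (4 * k) ^ 2 :=
    h0.trans (by gcongr; exact rpe u0 u1 ((one_le_inv₀ t0).2 t1) le_rfl e1)
  have x3 : W ^ (e * m) ≤ (u ^ 3)⁻¹ := by
    rw [mul_comm, rpow_mul W0.le, rpow_natCast]; exact rpe u0 u1 x1 x2 e1
  have x4 := rp5 (z := 8 * W * u ^ 548) m W0 (by positivity) (by
    rw [inv_le_iff_one_le_mul₀ (by positivity)]
    refine le_of_mul_le_mul_right ?_ (show 0 < R * u ^ 56 by positivity)
    have h8 : 8 * W ≤ (8 * W) ^ 5 := le_self_pow₀ (by linarith) (by norm_num)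
    have h9 : u ^ 2800 ≤ u ^ 2796 := pow_le_pow_of_le_one u0.le u1 (by norm_num)
    calc 1 * (R * u ^ 56) ≤ W * (W ^ m * (4 * (2 * (R * u ^ 2800)))) := by
          rw [one_mul]; exact b2.trans (by gcongr)
      _ = 8 * W * u ^ 2800 * W ^ m * R := by ring
      _ ≤ (8 * W) ^ 5 * u ^ 2796 * W ^ m * R := by gcongr
      _ = _ := by ring)
  constructor
  · calc |α| ≤ 2 * (u ^ 3)⁻¹ * (Y * (u ^ 3)⁻¹ / (4 * k) ^ 2) := h1.trans (by gcongr)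
      _ ≤ 16 * (u ^ 3)⁻¹ * (Y * (u ^ 3)⁻¹ / (4 * (R * u ^ 2800)) ^ 2) := by gcongr; norm_num
      _ = _ := by field_simp; ring
  · have b3 : R * u ^ 56 / W ≤ W ^ m * (4 * k) := by rw [div_le_iff₀' W0]; exact b2
    calc ν' ≤ 3 * (8 * W * u ^ 548 / (W ^ m) ^ 2) * (Y * (u ^ 3)⁻¹ / (4 * k) ^ 2) := h2.trans (by gcongr)
      _ = 24 * W * u ^ 545 * Y / (W ^ m * (4 * k)) ^ 2 := by field_simp; ring
      _ ≤ 24 * W * u ^ 545 * Y / (R * u ^ 56 / W) ^ 2 := by gcongr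
      _ = _ := by field_simp

theorem errs {w W u R Y P C₁ C₄ Cl x ν T : ℝ} (w0 : 0 ≤ w) (W0 : 0 ≤ W) (u0 : 0 < u) (u1 : u ≤ 1)
    (Y0 : 0 ≤ Y) (P0 : 0 ≤ P) (c1 : 0 ≤ C₁) (c4 : 0 ≤ C₄) (hx : x ≤ 3 * w * u ^ 8)
    (hν : ν ≤ 24 * W ^ 3 * u ^ 433 * (Y / R ^ 2)) (hT : T ≤ 2800 / u) :
    16 * (C₁ * P * Y * x / R ^ 2) + C₄ * (W / u ^ 56) ^ 5 * (1 + Cl) ^ 2 * ν * P +
      Y / R ^ 2 / (u ^ 6 * (u ^ 2800) ^ 2) * (P * (u ^ 2800) ^ 6) ≤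
      (48 * w * C₁ + 24 * C₄ * W ^ 8 * (1 + Cl) ^ 2 + 1 + 2800 * (384 * W ^ 3 + 1)) * u ^ 8 * P *
        (Y / R ^ 2) ∧
    T * (16 * (24 * W ^ 3 * u ^ 433 * (Y / R ^ 2)) + Y / R ^ 2 / (u ^ 6 * (u ^ 2800) ^ 2) * (u ^ 2800) ^ 3) ≤
      (48 * w * C₁ + 24 * C₄ * W ^ 8 * (1 + Cl) ^ 2 + 1 + 2800 * (384 * W ^ 3 + 1)) * u ^ 8 *
        (Y / R ^ 2) := by
  have hp : ∀ a b : ℕ, b ≤ a → u ^ a ≤ u ^ b := fun a b h => pow_le_pow_of_le_one u0.le u1 h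
  rw [show C₁ * P * Y * x / R ^ 2 = C₁ * P * x * (Y / R ^ 2) by ring]
  have l0 : 0 ≤ Y / R ^ 2 := by positivity
  generalize Y / R ^ 2 = l at *
  constructor
  · have a1 : 16 * (C₁ * P * x * l) ≤ 48 * w * C₁ * u ^ 8 * P * l := calc
      _ ≤ 16 * (C₁ * P * (3 * w * u ^ 8) * l) := by gcongr
      _ = _ := by ring
    have a2 : C₄ * (W / u ^ 56) ^ 5 * (1 + Cl) ^ 2 * ν * P ≤
        24 * C₄ * W ^ 8 * (1 + Cl) ^ 2 * u ^ 8 * P * l := calc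
      _ ≤ C₄ * (W / u ^ 56) ^ 5 * (1 + Cl) ^ 2 * (24 * W ^ 3 * u ^ 433 * l) * P := by gcongr
      _ = 24 * C₄ * W ^ 8 * (1 + Cl) ^ 2 * u ^ 153 * P * l := by field_simp
      _ ≤ _ := by gcongr 24 * C₄ * W ^ 8 * (1 + Cl) ^ 2 * ?_ * P * l; exact hp _ _ (by norm_num)
    have a3 : l / (u ^ 6 * (u ^ 2800) ^ 2) * (P * (u ^ 2800) ^ 6) ≤ u ^ 8 * P * l := calc
      _ = u ^ 11194 * P * l := by field_simp
      _ ≤ _ := by gcongr ?_ * P * l; exact hp _ _ (by norm_num)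
    have a4 : 0 ≤ 2800 * (384 * W ^ 3 + 1) * u ^ 8 * P * l := by positivity
    linarith
  · have a1 : 0 ≤ (48 * w * C₁ + 24 * C₄ * W ^ 8 * (1 + Cl) ^ 2 + 1) * u ^ 8 * l := by positivity
    calc _ ≤ 2800 / u * (16 * (24 * W ^ 3 * u ^ 433 * l) + l / (u ^ 6 * (u ^ 2800) ^ 2) * (u ^ 2800) ^ 3) := by
          gcongr
      _ = 2800 * (384 * W ^ 3 * u ^ 432 + u ^ 2793) * l := by field_simp; ring
      _ ≤ 2800 * (384 * W ^ 3 * u ^ 8 + u ^ 8) * l := by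
          gcongr 2800 * (384 * W ^ 3 * ?_ + ?_) * l <;> exact hp _ _ (by norm_num)
      _ ≤ _ := by linarith

theorem neun {C t Y Φ : ℝ} (c0 : 0 ≤ C) (t0 : 0 < t) (t1 : t ≤ 1) (h : 8 * C ≤ t⁻¹) (Y0 : 0 ≤ Y)
    (hY : Y ≤ t ^ 12) (hΦ : Φ ≤ 1) : C * (1 + t⁻¹) ^ 3 * t⁻¹ ^ 5 * Y * max 1 Φ ≤ t ^ 3 := by
  have a1 : 1 ≤ t⁻¹ := (one_le_inv₀ t0).2 t1
  rw [max_eq_left hΦ]
  calc _ ≤ C * (t⁻¹ + t⁻¹) ^ 3 * t⁻¹ ^ 5 * t ^ 12 * 1 := by gcongr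
    _ = 8 * C * t ^ 4 := by field_simp; ring
    _ ≤ t⁻¹ * t ^ 4 := by gcongr
    _ = _ := by field_simp

theorem cmn {C A t Y : ℝ} {j : ℕ} (t0 : 0 < t) (t1 : t ≤ 1) (h : C ≤ t⁻¹) (hj : C * A ≤ j)
    (hY : Y ≤ t ^ (2 * (j + 4))) : C * √Y * exp (C * (A * log t⁻¹)) ≤ t ^ 3 := by
  have a1 : 1 ≤ t⁻¹ := (one_le_inv₀ t0).2 t1
  have a2 : √Y ≤ t ^ (j + 4) := by rw [sqrt_le_left (by positivity), ← pow_mul, mul_comm]; exact hY
  have a3 : exp (C * (A * log t⁻¹)) ≤ t⁻¹ ^ j := by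
    rw [← exp_log (show 0 < t⁻¹ ^ j by positivity), log_pow, ← mul_assoc]
    exact exp_le_exp.2 (mul_le_mul_of_nonneg_right hj (log_nonneg a1))
  calc _ ≤ t⁻¹ * t ^ (j + 4) * t⁻¹ ^ j := by gcongr
    _ = _ := by rw [inv_pow, pow_add]; field_simp

end V29

open V29 in
set_option maxHeartbeats 1000000 in
theorem vStmt (hSh : ShStmt) (hCr : Cr3Stmt) (h2 : S2Stmt) (h3 : S3Stmt) (hD : DetStmt) (hN : NeuStmt)
    (hM : CmStmt) (hK : KbStmt) : VStmt := by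
  obtain ⟨CX, X0, hX1, hX2, -⟩ := xfStmt
  obtain ⟨-, -, -, -, hD⟩ := hD
  obtain ⟨Ce, e0, he⟩ := abs_er_le
  obtain ⟨Cl, l0, hl⟩ := lr0
  intro w
  obtain ⟨W₂, h2⟩ := h2 w
  obtain ⟨W₃, h3⟩ := h3 (12 * CX) w
  refine ⟨max 2 (max W₂ W₃), fun p W D₀ hw hW => ?_⟩
  simp only [max_le_iff] at hW
  obtain ⟨C₂, n₂, c2, h2⟩ := h2 p W D₀ hw hW.2.1
  obtain ⟨C₃, n₃, c3, h3⟩ := h3 p W D₀ hw hW.2.2
  replace hW := hW.1
  obtain ⟨C₁, c1, hSh⟩ := hSh p W D₀ hW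
  obtain ⟨C₄, c4, hCr⟩ := hCr p
  obtain ⟨C₅, c5, hN⟩ := hN p
  obtain ⟨C₆, c6, hM⟩ := hM p
  obtain ⟨C₇, c7, hK⟩ := hK p
  obtain ⟨C₈, c8, hy⟩ := yk_le hW
  obtain ⟨j, hj⟩ := exists_nat_ge (C₆ * (12 * CX))
  obtain ⟨K₀, hK₀⟩ : ∃ x : ℝ, x = 2 * |D₀| * C₈ * W ^ 2 := ⟨_, rfl⟩
  obtain ⟨K₁, hK₁⟩ : ∃ x : ℝ, x = 48 * p.w * C₁ + 24 * C₄ * W ^ 8 * (1 + Cl) ^ 2 + 1 +
    2800 * (384 * W ^ 3 + 1) := ⟨_, rfl⟩
  have K00 : 0 ≤ K₀ := by rw [hK₀]; positivity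
  have K10 : 0 ≤ K₁ := by rw [hK₁]; positivity
  obtain ⟨K, K8, k0, k1, k2, k3, k4, k5, k6, k7, k8, k9, k10, k11⟩ : ∃ K : ℝ, 8 ≤ K ∧ 40 * (K₀ * K₁) ≤ K ∧
      C₁ ≤ K ∧ C₂ ≤ K ∧ C₃ ≤ K ∧ C₄ ≤ K ∧ 8 * C₅ ≤ K ∧ C₆ ≤ K ∧ C₇ * W ≤ K ∧ exp (3 * Ce + 1) ≤ K ∧
      8400 * CX ≤ K ∧ 100 * (p.w * W : ℝ) ≤ K ∧ 2 * Cl ≤ K := by
    refine ⟨8 + 40 * (K₀ * K₁) + C₁ + C₂ + C₃ + C₄ + 8 * C₅ + C₆ + C₇ * W + exp (3 * Ce + 1) + 8400 * CX +
      100 * (p.w * W : ℝ) + 2 * Cl, ?_⟩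
    have : 0 ≤ K₀ * K₁ := by positivity
    have : 0 ≤ C₇ * W := by positivity
    have : 0 ≤ (p.w * W : ℝ) := by positivity
    have := (exp_pos (3 * Ce + 1)).le
    refine ⟨?_, ?_, ?_, ?_, ?_, ?_, ?_, ?_, ?_, ?_, ?_, ?_, ?_⟩ <;> linarith
  refine ⟨K ^ 2800, n₂ + n₃ + 2 * (j + 4) + 12, one_le_pow₀ (by linarith), ?_⟩
  intro E R Y P t hB t0 hCt hY hRL a₁ a₂ α₁ α₂ hDc hyk
  obtain ⟨u, u0, rfl⟩ : ∃ u : ℝ, 0 < u ∧ t = u ^ 2800 :=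
    ⟨t ^ ((2800 : ℕ) : ℝ)⁻¹, by positivity, (rpow_inv_natCast_pow t0.le (by norm_num)).symm⟩
  have hu : K * u ≤ 1 := by
    rw [← mul_pow] at hCt
    exact (pow_le_one_iff_of_nonneg (by positivity) (by norm_num)).1 hCt
  have u1 : u ≤ 1 := by nlinarith
  have t1 : u ^ 2800 ≤ 1 := pow_le_one₀ u0.le u1
  rw [show (u ^ 2800) ^ (1 / 400 : ℝ) = u ^ 7 by
    rw [← rpow_natCast, ← rpow_mul u0.le, ← rpow_natCast]; norm_num]
  have ed := hB.ed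
  have ok := ed.mem.ok
  have w4 := ed.w4
  have Y0 := hB.maj.pos
  have R1 := hB.maj.one_le
  have R0 : 0 < R := by linarith only [R1]
  have P0 : 0 ≤ P := by linarith only [hB.P1]
  have W2 : (2 : ℝ) ≤ W := by exact_mod_cast hW
  have w4' : (4 : ℝ) ≤ p.w := by exact_mod_cast w4
  have ew1 := ew_le' w4
  have ew0 := ew_nonneg p.w
  have L0 : (0 : ℝ) ≤ E.L := Nat.cast_nonneg _
  have LN : (E.L : ℝ) ≤ E.N := by exact_mod_cast ed.le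
  have hYn : ∀ i, i ≤ n₂ + n₃ + 2 * (j + 4) + 12 → Y ≤ (u ^ 2800) ^ i ∧ R ≤ (u ^ 2800) ^ i * E.L :=
    fun i hi => ⟨hY.trans (pow_le_pow_of_le_one t0.le t1 hi),
      hRL.trans (mul_le_mul_of_nonneg_right (pow_le_pow_of_le_one t0.le t1 hi) L0)⟩
  have hRY : 1 ≤ R * (u ^ 2800) ^ 2 := by
    have h1 : R⁻¹ ≤ Y := le_trans (by
      rw [← rpow_neg_one]; exact rpow_le_rpow_of_exponent_le R1 (by linarith only [ew1])) hB.maj.2.1
    exact (inv_le_iff_one_le_mul₀' R0).1 (h1.trans (hYn 2 (by omega)).1)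
  obtain ⟨k, hk⟩ : ∃ k : ℕ, k = ⌈R * u ^ 2800⌉₊ := ⟨_, rfl⟩
  obtain ⟨s1, s2, s3, s4, m, s5, s6⟩ := scales hW u0 K8 hu hRY hB.r1 hk
  obtain ⟨g1, g2, g3, g4, g5, g6, g7, g8, g9, g10⟩ :=
    geo w4' W2 u0 k10 hu hRY (hYn 3 (by omega)).2 s2 s5
  obtain ⟨o1, o2, o3, o4, o5⟩ := logs u0 u1 hu X0 e0 k9 (k8.trans g1) (by linarith only [W2])
    (by nlinarith only [g1, k10, w4', W2])
  have tK : ∀ c, c ≤ K → c * u ^ 2800 ≤ 1 := fun c h => by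
    rw [← le_div_iff₀ t0, one_div]; exact h.trans g1
  have YK : ∀ c, c ≤ K → c * Y ≤ 1 := fun c h =>
    (mul_le_mul_of_nonneg_right h Y0.le).trans ((mul_le_mul_of_nonneg_left
      ((hYn 1 (by omega)).1.trans_eq (pow_one _)) (by linarith only [K8])).trans (tK K le_rfl))
  have T1 : 1 ≤ (u ^ 2800)⁻¹ := by linarith only [g1, K8]
  have RG : R ≤ (u ^ 2800)⁻¹ * R := le_mul_of_one_le_left R0.le T1
  have GK : ∀ c x, c ≤ K → 0 ≤ x → x ≤ (u ^ 2800)⁻¹ * R → c * x ≤ E.L := fun c x h h0 h1 =>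
    (mul_le_mul h h1 h0 (by linarith only [K8])).trans g3
  have WR : R ≤ W * R := le_mul_of_one_le_left R0.le (by linarith only [W2])
  -- natural scales
  obtain ⟨b, hb⟩ : ∃ b : ℕ, b = W ^ m * (4 * k) := ⟨_, rfl⟩
  have hb' : (b : ℝ) = (W : ℝ) ^ m * (4 * k) := by rw [hb]; push_cast; ring
  rw [← hb'] at g4
  have kb : 4 * k ≤ b := hb ▸ Nat.le_mul_of_pos_left _ (by positivity)
  have kb' : 4 * (k : ℝ) ≤ b := by exact_mod_cast kb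
  have k8' : 8 ≤ (k : ℝ) := K8.trans s3
  have k1' : 1 ≤ k := by exact_mod_cast (show (1 : ℝ) ≤ k by linarith only [k8'])
  have wb : 4 * (b : ℝ) ≤ p.w * b := by gcongr
  have wk : 4 * (k : ℝ) ≤ p.w * k := by gcongr
  have wR : 4 * R ≤ p.w * R := by gcongr
  have r0k : p.r₀ ≤ k := hB.r0.trans s4
  obtain ⟨a, a1, a2⟩ : ∃ a : ℕ, (a : ℝ) ≤ R / 2 ∧ R / 2 < a + 1 :=
    ⟨_, Nat.floor_le (by positivity), Nat.lt_floor_add_one _⟩
  have a3 : 2 * (3 * p.w * b) ≤ a := by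
    exact_mod_cast (show (2 * (3 * p.w * b) : ℝ) ≤ a by linarith only [g4, a2, g2, K8])
  have a4 : p.w * a ≤ E.L := by
    have : (p.w * a : ℝ) ≤ p.w * R := by gcongr; linarith only [a1, R0]
    exact_mod_cast (show (p.w * a : ℝ) ≤ E.L by linarith only [this, g7, g8, L0])
  have wb' : 4 * b ≤ p.w * b := Nat.mul_le_mul_right _ w4
  have a5 : p.w * b ≤ E.L := by have := A51.four_le ed.toGs a; nlinarith only [a3, a4, this]
  obtain ⟨n, hn⟩ : ∃ n : ℕ, n = ⌊(u ^ 2800)⁻¹ * R⌋₊ := ⟨_, rfl⟩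
  have n1 : (n : ℝ) ≤ (u ^ 2800)⁻¹ * R := hn ▸ Nat.floor_le (by positivity)
  have n2 : (u ^ 2800)⁻¹ * R < n + 1 := hn ▸ Nat.lt_floor_add_one _
  have n3 : 8 * (W * R) ≤ n := by linarith only [n2, g6, WR, R1]
  have n4 : n + 1 + p.w * k ≤ E.L := by
    exact_mod_cast (show (n + 1 + p.w * k : ℝ) ≤ E.L by linarith only [n1, g5, g8, RG, R1])
  have n5 := ed.le
  have n6 : 2 * (W * R) ≤ (E.N / 4 : ℕ) := by
    have : (E.N : ℝ) ≤ 4 * (E.N / 4 : ℕ) + 4 := by exact_mod_cast (by omega : E.N ≤ 4 * (E.N / 4) + 4)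
    linarith only [this, LN, g8, g6, WR, R1]
  -- the stiffness
  have gg : 1 / 4 ≤ gk E.ω R ∧ gk E.ω R ≤ 1 := by
    have := abs_le.1 (hB.crit.trans (show ew p.w / 100 ≤ 1 by linarith only [ew1]))
    constructor <;> nlinarith only [this.1, this.2, pi_gt_three, pi_lt_four]
  have gW : |gk E.ω (W * R)| ≤ 2 := by
    have h1 := (hK _ _ _ _ ed.toEnv R Y hB.maj).2.2 R (W * R) W (by linarith only [W2]) R1 WR
      (div_le_self R0.le (by linarith only [W2])) le_rfl (by linarith only [g8, g6, WR, R1])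
    have h2 : (W : ℝ) ^ (2 * ew p.w) ≤ W :=
      (rpow_le_rpow_of_exponent_le (by linarith only [W2]) (by linarith only [ew1])).trans_eq (rpow_one _)
    have h3 : C₇ * Y ^ 2 * (W : ℝ) ^ (2 * ew p.w) ≤ C₇ * W * Y * (1 * Y) :=
      (mul_le_mul_of_nonneg_left h2 (by positivity)).trans_eq (by ring)
    have h4 := mul_le_one₀ (YK _ k7) (by positivity) (YK 1 (by linarith only [K8]))
    have := abs_le.1 (h1.trans (h3.trans h4))
    exact abs_le.2 ⟨by linarith only [this.1, gg.1], by linarith only [this.2, gg.2]⟩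
  have D0 : D₀ = |D₀| := (abs_of_nonneg (by linarith only [hB.D1])).symm
  have lo1 : Y / R ^ 2 ≤ K₀ * |ell E.ω R (Jz 0)| := by
    have h1 := hy E.ω R R1 (abs_le.2 ⟨by linarith only [gg.1], by linarith only [gg.2]⟩)
    rw [div_le_iff₀ (by positivity), hB.cone, hK₀]
    calc _ ≤ |D₀| * (C₈ * R ^ 2 * |ell E.ω R (Jz 0)|) := by rw [D0, abs_abs]; gcongr
      _ = 1 * |D₀| * C₈ * 1 * |ell E.ω R (Jz 0)| * R ^ 2 := by ring
      _ ≤ _ := by gcongr; exacts [one_le_two, one_le_pow₀ (by linarith only [W2])]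
  have lo2 : Y / R ^ 2 ≤ K₀ * |ell E.ω (W * R) (Jz 0)| := by
    have h1 := hy E.ω (W * R) (R1.trans WR) gW
    rw [div_le_iff₀ (by positivity), hB.cone, hK₀]
    calc _ ≤ |D₀| * (2 * (C₈ * (W * R) ^ 2 * |ell E.ω (W * R) (Jz 0)|)) := by
          rw [D0, abs_abs]; gcongr; linarith only [h1, hyk]
      _ = _ := by ring
  -- the near part and the purification
  obtain ⟨μ, hμ⟩ := hSh E R Y P hB (YK _ k1) (GK _ _ k1 R0.le RG) a (3 * p.w * b)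
    (by nlinarith only [a2, w4', g2, K8]) (by linarith only [a1]) (by nlinarith only [wb', kb, k1']) a3
  obtain ⟨α, p1, p2, -⟩ := hB.pur (4 * k) m (Jz 0) (by omega) (by omega) (hb ▸ a5) (ins_Jz 0 (by omega))
    (odd_Jz 0) (d4_Jz 0)
  have p0 := hB.maj.prof.le Y0.le R0 (inv_pos.2 t0) (a := 4 * k) (by omega)
    (le_trans (Nat.mul_le_mul_left _ kb) a5) (by rw [div_inv_eq_mul]; push_cast; linarith only [s1, k8'])
    (by push_cast; linarith only [kb', wb, g4, RG, k8'])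
  rw [← hb] at p2
  rw [show ((4 * k : ℕ) : ℝ) / 4 = k by push_cast; ring] at p2
  rw [show ((4 * k : ℕ) : ℝ) = 4 * k by push_cast; ring] at p0
  obtain ⟨q1, q2⟩ := purn W2 u0 u1 R0 Y0.le s1 s2 s5 s6 ew1 (A51.nu_nonneg ok _ _ _ _) p0 p1 p2
  have q3 : (((3 * p.w * b : ℕ) : ℝ) / R) ^ (1 / 7 : ℝ) ≤ 3 * p.w * u ^ 8 := by
    refine rp_le 7 (by norm_num) (by positivity) (by positivity) ?_
    rw [div_le_iff₀ R0, mul_pow, ← pow_mul]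
    have : 3 * (p.w : ℝ) ≤ (3 * p.w) ^ 7 := le_self_pow₀ (by linarith only [w4']) (by norm_num)
    calc _ = 3 * (p.w : ℝ) * ((W : ℝ) ^ m * (4 * k)) := by rw [← hb']; push_cast; ring
      _ ≤ (3 * p.w) ^ 7 * (R * u ^ 56) := by gcongr
      _ = _ := by ring
  have key : ∀ R' : ℝ, R ≤ R' → R' ≤ W * R → Y / R ^ 2 ≤ K₀ * |ell E.ω R' (Jz 0)| →
      |lr E.ω E.ω' R' - μ - 2 * π ^ 2 * E.bb R a₁ α₁ * (log (R' / k) / (2 * π) - er k - er R' -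
        ∑ z ∈ bl 0 (3 * p.w * b), gr (Phi k - Phi R) (Phi k - Phi R) z)| ≤
        K₀ * (K₁ * u ^ 8) * (P + 20 * |E.bb R a₁ α₁|) := by
    intro R' h1 h1' hlo
    have R0' : 0 < R' := R0.trans_le h1
    have k0' : (0 : ℝ) < k := by linarith only [k8']
    have TW : 1 ≤ W * (u ^ 2800)⁻¹ := one_le_mul_of_one_le_of_one_le (by linarith only [W2]) T1
    have hWk : W * R ≤ W * (u ^ 2800)⁻¹ * k := by
      rw [mul_assoc]; gcongr; rw [← div_eq_inv_mul, le_div_iff₀ t0]; exact s1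
    have hWR : W * R ≤ W * (u ^ 2800)⁻¹ * R := by rw [mul_assoc]; gcongr
    have hWR' : W * R ≤ W * (u ^ 2800)⁻¹ * R' := hWR.trans (by gcongr)
    obtain ⟨x1, x2⟩ := hX2 (W * (u ^ 2800)⁻¹) k R' n k TW (by linarith only [g5, wk, h1, k8'])
      (h1'.trans hWk) (by linarith only [k9, s3, X0]) (by linarith only [n3, h1', R0']) k1' le_rfl
    replace x2 := x2.mono le_rfl subset_rfl o5 k0'
    have sv : Pot.Sup (bl 0 n) (Phi k - Phi R') := fun x hx => by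
      rw [Pi.sub_apply, sup_Phi k0' (by linarith only [n3, g5, wk, WR, R0]) x hx,
        sup_Phi R0' (by linarith only [n3, h1', R0']) x hx, sub_self]
    have x3 : E0 (bl 0 n) (Phi k - Phi R') ≤ log (u ^ 2800)⁻¹ := by
      have h2 : log (R' / k) ≤ 2 * log (u ^ 2800)⁻¹ :=
        (log_le_log (by positivity) ((div_le_iff₀ k0').2 (h1'.trans hWk))).trans o3
      have h3 : log (R' / k) / (2 * π) ≤ log (u ^ 2800)⁻¹ / 3 := by
        rw [div_le_iff₀ (by positivity)]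
        nlinarith only [h2, o2, e0, pi_gt_three]
      rw [x1]
      linarith only [h3, o2, (abs_le.1 (he k (by linarith only [k8']))).1,
        (abs_le.1 (he R' (R1.trans h1))).1]
    have x4 : ∑ z ∈ E.D, gr (Phi k - Phi R') (Phi k - Phi R') z = E0 (bl 0 n) (Phi k - Phi R') :=
      hD _ _ 0 n E.D sv ((bl_mono 0 (by omega)).trans ed.lo)
    have sub : bl 0 (3 * p.w * b) ⊆ E.D :=
      (bl_mono 0 (by have := A51.four_le ed.toGs a; omega)).trans ed.lo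
    have x5 : log (R' / k) / (2 * π) - er k - er R' -
        ∑ z ∈ bl 0 (3 * p.w * b), gr (Phi k - Phi R) (Phi k - Phi R) z =
        ∑ z ∈ E.D \ bl 0 (3 * p.w * b), gr (Phi k - Phi R') (Phi k - Phi R') z := by
      rw [sum_sdiff_eq_sub sub, x4, x1, sum_congr rfl fun z hz => gr_in (k := k) R0 h1
        (by push_cast; linarith only [g4, g2, K8]) hz]
    have x6 : ∑ z ∈ E.D \ bl 0 (3 * p.w * b), gr (Phi k - Phi R') (Phi k - Phi R') z ≤ 2800 / u :=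
      (sum_le_sum_of_subset_of_nonneg sdiff_subset fun z _ _ => gr_nonneg _ z).trans
        (x4.trans_le (x3.trans o1))
    have x7 : 0 ≤ E0 (bl 0 n) (Phi k - Phi R') := x4 ▸ sum_nonneg fun z _ => gr_nonneg _ z
    have mv : ∀ ρ : ℝ, 1 ≤ ρ → ρ ≤ W * R → W * R ≤ W * (u ^ 2800)⁻¹ * ρ →
        F2 (nnL.edI (bl 0 n)) (xi ρ - xi R) (3 * CX * log (u ^ 2800)⁻¹) := fun ρ f1 f2 f3 => by
      have := hX1 _ (W * R) ρ R 0 n f1 R1 f2 WR (by rw [eu_zero]; positivity) f3 hWR n3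
      simp only [sub_zero] at this
      exact RJ57.f2_mono this o4
    have f1 : F2 (nnL.edI (bl 0 n)) (xi k - xi R + (xi R' - xi R)) (12 * CX * log (u ^ 2800)⁻¹) :=
      RJ57.f2_mono (RJ57.f2_add (mv k (by linarith only [k8']) (by linarith only [g5, wk, WR, k8']) hWk)
        (mv R' (R1.trans h1) h1' hWR')) (le_of_eq (by ring))
    have f2 : (2 : ℝ) • xi R + (xi k - xi R + (xi R' - xi R)) = xi k + xi R' := by
      rw [two_smul]; abel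
    have y2 := h2 E R Y P _ hB t0 (tK _ k2) (hYn _ (by omega)).1 (hYn _ (by omega)).2 a₁ a₂ α₁ α₂ hDc
      (Phi k - Phi R') ⟨hn ▸ sv, x2.scale (by positivity) (by rw [div_inv_eq_mul]; exact s1)⟩ (hn ▸ x3)
      (E.D \ bl 0 (3 * p.w * b)) sdiff_subset
    have y3 := h3 E R Y P _ hB t0 (tK _ k3) (hYn _ (by omega)).1 (hYn _ (by omega)).2 a₁ a₂ α₁ α₂ hDc
      _ 0 (hn ▸ f1) (fun z => by
        obtain ⟨v, hv⟩ := hl k z k k1' le_rfl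
        obtain ⟨v', hv'⟩ := hl R' z k k1' (by linarith only [g5, wk, h1, k8'])
        rw [f2, ← hk]
        exact ⟨_, (hv.add hv').mono (by linarith only [k11, g1])⟩) (E.D \ bl 0 (3 * p.w * b)) sdiff_subset
    have y4 := hN _ _ _ _ ed.toEnv R Y _ hB.maj (by linarith only [YK 1 (by linarith only [K8])]) T1
      (by linarith only [g8, RG, R1]) k n _ _ (by linarith only [k5, s3, c5])
      (by rw [div_inv_eq_mul]; exact s1) (by linarith only [g5, wk, RG, k8']) n1 (by omega) (by omega) sv x2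
    replace y4 := y4.trans (neun c5 t0 t1 (k5.trans g1) Y0.le (hYn _ (by omega)).1 (exp_le_one_iff.2 (by
      have := mul_nonneg (mul_nonneg (sq_nonneg π) (show 0 ≤ gk E.ω R by linarith only [gg.1])) x7
      linarith only [this])))
    have y5 := ((hM _ _ _ _ ed.toEnv R Y hB.maj (by linarith only [YK 1 (by linarith only [K8])])
      (k6.trans g2) (GK _ _ k6 R0.le RG) gg.1 (YK _ k6) 2 (by norm_num) (by norm_num)).2 0 _ _ 0
      (bl_mono _ (Nat.ceil_le.2 (by linarith only [LN, g8, RG, R0])))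
      (Xf91.f2_up (by omega) f1)).trans (cmn t0 t1 (k6.trans g1) hj (hYn _ (by omega)).1)
    rw [Int.cast_ofNat, f2] at y5
    rw [f2] at y3
    rw [← xi_sub] at y2 y4
    rw [← hn] at y2
    have M0 : 0 ≤ W / u ^ 56 * R := by positivity
    have M1 : W / u ^ 56 * R ≤ (u ^ 2800)⁻¹ * R := by gcongr
    have M2 : 4 * (W * R) ≤ W / u ^ 56 * R := by rw [← mul_assoc]; gcongr
    have M3 := Nat.lt_floor_add_one (W / u ^ 56 * R)
    have y6 := hCr _ _ _ _ ed.toEnv R P (W / u ^ 56) R1 hB.P1 hB.prof (by linarith only [g10, W2])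
      (by rw [mul_assoc]; exact GK _ _ k4 M0 M1) Unit univ (fun _ => 0) b
      (fun _ s => Jz 0 s - α * Sn k s) (xi R') 1 Cl (-(π / 2)) (E.D \ bl 0 (3 * p.w * b))
      (by linarith only [k4, s3, kb', k8'])
      (by rw [div_div_eq_mul_div, div_le_iff₀' (by linarith only [W2]), hb']; exact s6) (by simp)
      ⟨by simp, fun _ _ => (ins_Jz 0 (by omega)).sub ((ins_Sn k0' (by linarith only [kb', k8'])).smul α),
        fun _ _ => ⟨by omega, a5⟩, fun _ _ => bl_mono _ (Nat.le_floor (by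
          push_cast; linarith only [g4, M2, WR, R0])), fun _ _ _ _ h => absurd rfl h⟩
      (by linarith only [g4, wb, M2, WR, R0]) (fun _ _ y hy => xi_in R0'
        (by linarith only [g4, wb, h1, g2, K8]) hy)
      (chq_xi R0' (by linarith only [M2, M3, h1', WR, R1]))
      (fun z => hl R' z b (by omega) (by linarith only [g4, wb, h1, R0]))
      (sdiff_subset.trans ed.hi) fun z hz _ _ => (mem_sdiff.1 hz).2
    simp only [univ_unique, prod_singleton, ← Sn_eq] at y6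
    obtain ⟨z1, z2⟩ := core ed (a := a) (ρ := 3 * p.w * b) (b := b) (k := k) (R := R') α μ (by omega)
      (by nlinarith only [wb']) a3 a4 (by linarith only [a1, h1, g2, K8]) (by linarith only [n6, h1'])
      k0' (by linarith only [kb', k8'])
    obtain ⟨z3, z4⟩ := errs (P := P) (Cl := Cl) (by positivity) (by positivity) u0 u1 Y0.le P0
      (zero_le_one.trans c1) c4 q3 q2 x6
    rw [← hK₁] at z3 z4
    rw [x5]
    exact alg (z1.trans (mul_le_mul_of_nonneg_left hμ (by norm_num)))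
      (z2.trans (mul_le_mul_of_nonneg_left q2 (by norm_num)))
      ((abs_sum_le_sum_abs _ _).trans y6) y2 y3 y4 y5 q1 (sum_nonneg fun z _ => gr_nonneg _ z)
      (by positivity) hlo (by positivity) P0 z3 z4
  have f1 := key R le_rfl WR lo1
  have f2 := key (W * R) WR le_rfl lo2
  have f3 : log (W * R / k) = log W + log (R / k) := by
    rw [mul_div_assoc, log_mul (by positivity) (by positivity)]
  have f4 : 2 * (K₀ * (K₁ * u ^ 8) * (P + 20 * |E.bb R a₁ α₁|)) ≤ (P + |E.bb R a₁ α₁|) * u ^ 7 := calc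
    _ ≤ 2 * (K₀ * (K₁ * u ^ 8) * (20 * P + 20 * |E.bb R a₁ α₁|)) := by gcongr; linarith only [P0]
    _ = 40 * (K₀ * K₁) * u * ((P + |E.bb R a₁ α₁|) * u ^ 7) := by ring
    _ ≤ K * u * ((P + |E.bb R a₁ α₁|) * u ^ 7) := by gcongr
    _ ≤ _ := mul_le_of_le_one_left (by positivity) hu
  rw [f3] at f2
  refine le_of_eq_of_le (congrArg _ ?_) ((abs_sub _ _).trans ((add_le_add f2 f1).trans
    (by linarith only [f4])))
  ring

end Crest.Agent.T145.Ev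
end

-- ▼ part T145/EvXg_91

/-!
# Row 145, the even sector: two centres, two scales (`XgStmt`, helper91)
-/

set_option autoImplicit false

namespace Crest.Agent.T145.Ev

open Finset Pot Pot.Ha91 Xi Real Fl Fl.Xf91

namespace Xg91

/-- the potential of `ξ_R - ξ_a (· - z)` -/
noncomputable def vg (a R : ℝ) (z y : Pt) : ℝ := psi a (y - z) - psi R y

theorem A0_vg (a R : ℝ) (z y : Pt) : A0 (vg a R z) y = xi R y - xi a (y - z) := by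
  rw [show vg a R z = (fun y => psi a (y - z)) - psi R from rfl, A0_sub, Pi.sub_apply, A0_psi_sub, A0_psi,
    Pi.neg_apply]
  ring

theorem eu_le_bl {y : Pt} {r : ℕ} (h : y ∈ bl 0 r) : eu y ≤ 3 / 2 * r := by
  obtain ⟨h1, h2⟩ : |y.1| ≤ r ∧ |y.2| ≤ r := by simpa [mem_bl_abs] using h
  have a1 : |(y.1 : ℝ)| ≤ r := by exact_mod_cast h1
  have a2 : |(y.2 : ℝ)| ≤ r := by exact_mod_cast h2
  have b1 := sq_le_sq' (abs_le.1 a1).1 (abs_le.1 a1).2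
  have b2 := sq_le_sq' (abs_le.1 a2).1 (abs_le.1 a2).2
  exact sqrt_le_iff.2 ⟨by positivity, by nlinarith [sq_nonneg (r : ℝ)]⟩

theorem rad_add {z : Pt} {k L : ℕ} (h : bl z k ⊆ bl 0 L) : k + rad z ≤ L := by
  have h1 := h (add_mem_bl.2 (show ((k : ℤ), (k : ℤ)) ∈ bl 0 k by simp [mem_bl]))
  have h2 := h (add_mem_bl.2 (show (-(k : ℤ), -(k : ℤ)) ∈ bl 0 k by simp [mem_bl]))
  rw [mem_bl] at h1 h2
  simp only [Prod.fst_add, Prod.snd_add, Prod.fst_zero, Prod.snd_zero] at h1 h2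
  unfold rad
  omega

theorem vg_pair {a R : ℝ} (ha : 0 < a) (hR : 1 ≤ R) {z : Pt} {D : Finset Pt} (h0 : bl 0 ⌈2 * R⌉₊ ⊆ D)
    (hz : bl z ⌈2 * a⌉₊ ⊆ D) (h : bl z ⌈2 * a + 1⌉₊ ⊆ bl 0 ⌊R - 1⌋₊) :
    ∑ y ∈ D, vg a R z y * (xi R y - xi a (y - z)) = log (R / a) / (2 * π) - er a - er R := by
  have hR0 : 0 < R := by linarith
  have h1 := pp_eq a hR0 z h0
  have h2 := pp_eq' a ha z z hz
  have h3 := pp_eq R hR0 0 h0
  have h4 := pp_eq' R ha 0 z hz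
  have h5 : pp R a z = Xi.cr R := by
    refine pp_in hR0 ha (n := ⌈2 * a + 1⌉₊) (by linarith [Nat.le_ceil (2 * a + 1)]) ?_ (mem_bl_rad z)
    have b1 : ((⌈2 * a + 1⌉₊ + rad z : ℕ) : ℝ) ≤ ⌊R - 1⌋₊ := by exact_mod_cast rad_add h
    have b2 := Nat.floor_le (show 0 ≤ R - 1 by linarith)
    push_cast at b1
    linarith
  rw [pp_comm ha hR0, h5] at h1
  simp only [sub_zero, sub_self, zero_sub, pp_neg, pp_self ha, pp_self hR0, h5] at h2 h3 h4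
  simp only [vg, sub_mul, mul_sub, sum_sub_distrib, h1, h2, h3, h4, ← cr_sub ha hR0]
  ring

theorem main : ∃ C : ℝ, 0 ≤ C ∧ ∀ (a R T : ℝ) (z : Pt) (n : ℕ), 16 ≤ a → a ≤ R → R ≤ T → eu z ≤ T →
    8 * T ≤ n → F2 (nnL.edI (bl 0 (n + 1)))
      (xi R - (fun y => xi a (y - z)) - A0 fun y => vg a R z y * Xi.chi (n / 2) y) (C * (T / n) ^ 2) ∧
    (bl z ⌈2 * a + 1⌉₊ ⊆ bl 0 ⌊R - 1⌋₊ → |E0 (bl 0 n) (fun y => vg a R z y * Xi.chi (n / 2) y) -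
      (log (R / a) / (2 * π) - er a - er R)| ≤ C * T / n) := by
  obtain ⟨C1, h1, hC1⟩ := sm_tc 2
  obtain ⟨C2, h2, hC2⟩ := tail
  refine ⟨4 * C2 * C1 ^ 2, by positivity, fun a R T z n ha haR hRT hz hn => ?_⟩
  have ha0 : 0 < a := by linarith
  have hR0 : 0 < R := by linarith
  have hT0 : 0 < T := by linarith
  have a0 := eu_nonneg z
  have a3 := Nat.ceil_lt_add_one (by linarith : 0 ≤ 2 * R)
  have a3' := Nat.le_ceil (2 * R)
  have a4 := Nat.ceil_lt_add_one (by linarith : 0 ≤ 3 * T + 1)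
  have a5 := Nat.le_ceil (3 * T + 1)
  have hn0 : (0 : ℝ) < n := by linarith
  have b0 : Sm 2 {w | (n : ℝ) / 2 - 8 ≤ eu w} (C1 * T / (n / 2)) (n / 2) (vg a R z) :=
    ((hC1 a (n / 2) z (by linarith) (by linarith) (by linarith)).mono le_rfl
      (fun w hw => by simp only [Set.mem_ofPred_eq] at hw ⊢; linarith) (by gcongr) (by linarith)).congr
      fun w hw w' hw' => by
        have c1 := (eu_near hw').2
        have c2 : w' ∉ bl 0 ⌈2 * R⌉₊ := fun h => by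
          have := eu_le_bl h
          simp only [Set.mem_ofPred_eq] at hw
          push_cast at c1
          linarith
        rw [vg, tc, psi_out hR0 (by linarith) c2, psi_out ha0 (by linarith) c2]
  obtain ⟨-, b1, b2⟩ := hC2 (vg a R z) (n / 2) _ (by linarith) (by positivity) b0
  obtain ⟨s0, s1, s2⟩ := shifted ha0 (z := z) (m := ⌈3 * T + 1⌉₊) (by linarith)
  set m := ⌈3 * T + 1⌉₊
  have s3 : 2 * R ≤ m := by linarith
  have hA : A0 (vg a R z) = xi R - fun y => xi a (y - z) := funext (A0_vg a R z)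
  have hs : Pot.Sup (bl 0 m) (A0 (vg a R z)) := fun y hy => by
    rw [A0_vg, s1 y hy, sup_xi hR0 s3 y hy, sub_zero]
  have e : C2 * (C1 * T / (n / 2)) ^ 2 = 4 * C2 * C1 ^ 2 * (T / n) ^ 2 := by field_simp; ring
  constructor
  · have c1 := b2 m (n + 1) (by linarith) (by push_cast; linarith) hs
      (by simp only [A0_vg, sum_sub_distrib, s2, sum_xi hR0 s3, sub_self])
    rwa [A0_tl, hA, e] at c1
  · intro h
    have c1 := b1 n (by linarith) (by linarith)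
    have c2 := vg_pair ha0 (by linarith) (bl_mono 0 (Nat.ceil_le.2 s3)) s0 h
    have c3 : ∑ y ∈ bl 0 n, vg a R z y * Xi.chi (n / 2) y * A0 (vg a R z) y =
        ∑ y ∈ bl 0 m, vg a R z y * (xi R y - xi a (y - z)) := by
      rw [← sum_subset (bl_mono 0 (show m ≤ n by exact_mod_cast (by linarith : (m : ℝ) ≤ n)))
        fun y _ hy => by rw [hs y hy, mul_zero]]
      exact sum_congr rfl fun y hy => by rw [chi_one (by linarith) (by linarith) hy, mul_one, A0_vg]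
    simp only [A0_tl, Pi.sub_apply, mul_sub, sum_sub_distrib] at c1
    rw [c3, c2, abs_sub_comm, e] at c1
    refine c1.trans ?_
    rw [mul_div_assoc, pow_two (T / n)]
    gcongr
    exact mul_le_of_le_one_left (by positivity) (by rw [div_le_one hn0]; linarith)

end Xg91

open Xg91

theorem xgStmt : XgStmt := by
  obtain ⟨C2, h2, hC2⟩ := sm_two 3
  obtain ⟨C3, h3, hC3⟩ := Xg91.main
  obtain ⟨C4, h4, hC4⟩ := sm_chi 3
  have h5 : 0 ≤ 16 * C2 * C4 := by positivity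
  refine ⟨C3 + 16 * C2 * C4 + 16, by positivity, fun M a R T z n r a1 a2 a3 a4 a5 a6 a7 a8 a9 => ?_⟩
  have hl := log_nonneg a1
  have hr : (0 : ℝ) < r := by exact_mod_cast a8
  obtain ⟨c1, c2⟩ := hC3 a R T z n (by linarith) a3 a4 a5 a6
  have hT : 0 < T := by linarith
  refine ⟨_, fun y hy => by simp only [sup_chi (by linarith : (0 : ℝ) < n / 2) (by linarith) y hy, mul_zero],
    ?_, RJ57.f2_mono c1 (by gcongr; linarith), fun h => (c2 h).trans (by gcongr; linarith)⟩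
  have c3 := (hC2 a R r (2 * M) z 0 Set.univ (by linarith) (by linarith) hr (by linarith) fun w _ => by
    have c1 := eu_add_le (w - z) z
    have c2 := eu_add_le w (-z)
    have c3 := eu_nonneg w
    have c4 := eu_nonneg (w - z)
    have c5 : M * a ≤ M * R := by gcongr
    have c6 : R ≤ M * R := by nlinarith
    rw [sub_add_cancel] at c1
    rw [eu_neg, ← sub_eq_add_neg] at c2
    rw [sub_zero]
    exact ⟨by linarith, by linarith, by nlinarith, by nlinarith⟩).mul_univ hr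
    ((hC4 (n / 2) (by linarith)).scale hr (by linarith))
  simp only [sub_zero] at c3
  refine c3.mono le_rfl Set.Subset.rfl ?_ hr
  rw [log_mul two_ne_zero (by linarith)]
  calc _ ≤ 2 ^ 3 * (C2 * (2 * (1 + log M))) * C4 := by
        gcongr; linarith [log_le_sub_one_of_pos two_pos]
    _ = 16 * C2 * C4 * (1 + log M) := by ring
    _ ≤ _ := by gcongr; linarith

end Crest.Agent.T145.Ev
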