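import Crest.Agent.T145.Slit_46
import Crest.Agent.T145.CutP_7
import Crest.Agent.T145.GeoB_51

/-!
# Row 145 (helper46): BARE in flow form, cutting into blocks, quantitative T1 on squares
-/

set_option autoImplicit false
set_option linter.unusedSectionVars false

namespace Crest.Agent.T145.Sl46

open Finset

theorem sq_le_cosh (a : ℝ) : a ^ 2 / 2 ≤ Real.cosh a - 1 := by
  have h := sum_le_hasSum ({0, 1} : Finset ℕ) (fun n _ => by rw [pow_mul]; positivity)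
    (Real.hasSum_cosh a)
  simp [Nat.factorial] at h
  linarith

theorem cosh_le_sq {a : ℝ} (h : |a| ≤ 1) : Real.cosh a - 1 ≤ a ^ 2 := by
  have h1 := Real.cosh_le_exp_half_sq a
  have h2 : a ^ 2 ≤ 1 := (sq_le_one_iff_abs_le_one a).2 h
  have h3 := Real.abs_exp_sub_one_le (x := a ^ 2 / 2) (by
    rw [abs_of_nonneg (by positivity)]; linarith)
  rw [abs_of_nonneg (by positivity : 0 ≤ a ^ 2 / 2)] at h3
  linarith [le_abs_self (Real.exp (a ^ 2 / 2) - 1)]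

theorem log_ex_bes {τ : ℝ} (hτ : 0 < τ) (a : ℝ) :
    Real.log (Ex (bes τ) fun k => Real.exp (a * k)) = τ * (Real.cosh a - 1) := by
  have h1 := ((besStmt τ hτ).2.1 a).tsum_eq
  have h2 := ((besStmt τ hτ).2.1 0).tsum_eq
  simp only [zero_mul, Real.exp_zero, mul_one, Real.cosh_zero] at h2
  rw [Ex, h1, h2, ← Real.exp_sub, Real.log_exp]
  ring

theorem log_ex_gau {τ : ℝ} (hτ : 0 < τ) (a : ℝ) :
    Real.log (Ex (gau τ) fun k => Real.exp (a * k)) ≤ τ * a ^ 2 / 2 := by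
  have hc := (gauStmt τ hτ).1.cen
  have h1 : Ex (gau τ) (fun k => Real.exp (a * k)) ≤ Real.exp (τ * a ^ 2 / 2) :=
    (div_le_iff₀ hc.wt.pos).2 ((gauStmt τ hτ).2 a)
  have h2 := hc.wt.ex_exp_pos hc.se ((AddMonoidHom.mulLeft a).comp (Int.castAddHom ℝ))
  exact (Real.log_le_iff_le_exp h2).2 h1

theorem log_ex_kern (xy : Bool) {τ : ℝ} (hτ : 0 < τ) (a : ℝ) :
    Real.log (Ex (kern xy τ) fun k => Real.exp (a * k)) ≤ τ * (Real.cosh a - 1) := by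
  cases xy
  · refine (log_ex_gau hτ a).trans ?_
    rw [mul_div_assoc]
    exact mul_le_mul_of_nonneg_left (sq_le_cosh a) hτ.le
  · exact (log_ex_bes hτ a).le

section mdl
variable {V : Type} [DecidableEq V]

/-- the edges of `E` have length at most `b` -/
def Len (m : Mdl V) (E : Finset (V × V)) (b : ℝ) : Prop :=
  ∀ e ∈ E, ∃ (xy : Bool) (τ : ℝ), 0 < τ ∧ τ ≤ b ∧ m.w e = kern xy τ

theorem Len.mono {m : Mdl V} {E E' : Finset (V × V)} {b : ℝ} (h : Len m E' b) (hE : E ⊆ E') :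
    Len m E b := fun e he => h e (hE he)

/-- BARE for a flow on all edges -/
theorem bare_fl {m : Mdl V} (hm : m.Ctr) (hA : m.Anch) (ψ : V × V → ℝ) :
    M (m.W 0) (fl m.ed ψ) ≤ ∑ e ∈ m.ed, Real.log (Ex (m.w e) fun k => Real.exp (ψ e * k)) := by
  rw [eq_pr (fl m.ed ψ)]
  exact bareStmt pdStmt rsdStmt kerStmt mdlStmt monoStmt V m ψ _ hm hA fun s _ => by
    rw [← eq_pr, fl_apply]

/-- BARE for a flow on some of the edges -/
theorem bare_sub {m : Mdl V} (hm : m.Ctr) (hA : m.Anch) {E : Finset (V × V)} (hE : E ⊆ m.ed)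
    (ψ : V × V → ℝ) :
    M (m.W 0) (fl E ψ) ≤ ∑ e ∈ E, Real.log (Ex (m.w e) fun k => Real.exp (ψ e * k)) := by
  have h := bare_fl hm hA fun e => if e ∈ E then ψ e else 0
  rw [← fl_subset hE fun e _ he => if_neg he, fl_congr fun e he => if_pos he,
    ← sum_subset hE fun e he he' => ?_] at h
  · exact h.trans_eq (sum_congr rfl fun e he => by simp only [if_pos he])
  · simp only [if_neg he', zero_mul, Real.exp_zero]
    rw [(hm.1 e he).cen.wt.ex_const, Real.log_one]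

/-- BARE, McBryan-Spencer form -/
theorem bare_cosh {m : Mdl V} (hm : m.Ctr) (hA : m.Anch) {E : Finset (V × V)} (hE : E ⊆ m.ed)
    {b : ℝ} (hb : Len m E b) (ψ : V × V → ℝ) :
    M (m.W 0) (fl E ψ) ≤ ∑ e ∈ E, b * (Real.cosh (ψ e) - 1) := by
  refine (bare_sub hm hA hE ψ).trans (sum_le_sum fun e he => ?_)
  obtain ⟨xy, τ, h0, h1, h2⟩ := hb e he
  rw [h2]
  exact (log_ex_kern xy h0 _).trans
    (mul_le_mul_of_nonneg_right h1 (sub_nonneg.2 (Real.one_le_cosh _)))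

/-- BARE for small flows -/
theorem bare_sq {m : Mdl V} (hm : m.Ctr) (hA : m.Anch) {E : Finset (V × V)} (hE : E ⊆ m.ed)
    {b : ℝ} (hb : Len m E b) {ψ : V × V → ℝ} (hψ : ∀ e ∈ E, |ψ e| ≤ 1) :
    M (m.W 0) (fl E ψ) ≤ b * ∑ e ∈ E, ψ e ^ 2 := by
  rw [mul_sum]
  refine (bare_cosh hm hA hE hb ψ).trans (sum_le_sum fun e he => ?_)
  obtain ⟨_, τ, h0, h1, _⟩ := hb e he
  exact mul_le_mul_of_nonneg_left (cosh_le_sq (hψ e he)) (h0.le.trans h1)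

/-- cutting with zero modes, form for `M` -/
theorem M_proj {m m' : Mdl V} (hm : m.Ctr) (hA : m.Anch) (hA' : m'.Anch) (π : Cfg V →+ Cfg V)
    (hE : m'.ed ⊆ m.ed) (hw : ∀ e ∈ m'.ed, m'.w e = m.w e) (hs : ∀ x ∈ m'.A, ∀ k, m'.site x k = 1)
    (hπ : ∀ s : Cfg V, (∀ x, x ∉ m.A → s x = 0) →
      (∀ x, x ∉ m'.A → π s x = 0) ∧ ∀ e ∈ m'.ed, dE e (π s) = dE e s) (f : Cfg V →+ ℝ) :
    M (m.W 0) (f.comp π) ≤ M (m'.W 0) f := by
  have hc : m'.Ctr := ⟨fun e he => hw e he ▸ hm.1 e (hE he), fun x hx => by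
    rw [show m'.site x = fun _ => 1 from funext (hs x hx)]
    exact ⟨Md.rsd_one, pd_one, one_pos⟩⟩
  have h := cut_proj hm hA hA' π hE hw hs hπ 0 f
  have h1 := hm.wt hA 0
  have h2 := hc.wt hA' 0
  rw [← Mdl.W_eq_Ws, ← Mdl.W_eq_Ws, h1.Zs_tilt (hm.se hA 0), h2.Zs_tilt (hc.se hA' 0),
    mul_right_comm, mul_comm (Zs (m'.W 0) * _), ← mul_assoc] at h
  exact Real.exp_le_exp.1 (le_of_mul_le_mul_left h (mul_pos h1.pos h2.pos))

/-- a free block, pinned at the root `r` -/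
def blk (m : Mdl V) (B : Finset V) (r : V) (E : Finset (V × V)) : Mdl V :=
  ⟨B.erase r, E, m.w, fun _ _ => 1⟩

/-- cutting into free blocks -/
theorem M_blocks {ι : Type*} {m : Mdl V} (hm : m.Ctr) (hA : m.Anch) {I : Finset ι}
    {B : ι → Finset V} {r : ι → V} {E : ι → Finset (V × V)}
    (hB : ∀ i ∈ I, ∀ j ∈ I, i ≠ j → Disjoint (B i) (B j)) (hE : ∀ i ∈ I, E i ⊆ m.ed)
    (hEB : ∀ i ∈ I, ∀ e ∈ E i, e.1 ∈ B i ∧ e.2 ∈ B i)
    (ha : ∀ i ∈ I, (blk m (B i) (r i) (E i)).Anch) (ψ : ι → V × V → ℝ) :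
    M (m.W 0) (∑ i ∈ I, fl (E i) (ψ i)) ≤
      ∑ i ∈ I, M ((blk m (B i) (r i) (E i)).W 0) (fl (E i) (ψ i)) := by
  let m1 : Mdl V := ⟨∅, ∅, m.w, fun _ _ => 1⟩
  have hI : Cut7.Ind I (fun i => (B i).erase (r i)) E :=
    Cut7.Ind.of_blocks hB (fun i _ => erase_subset _ _) hEB
  have hc : ∀ i ∈ I, (blk m (B i) (r i) (E i)).Ctr := fun i hi =>
    ctr_of_site_one (fun e he => hm.1 e (hE i hi he)) rfl
  have hd : ∀ s : Cfg V, ∀ i ∈ I, ∀ e ∈ E i, dE e (prjH I B r s) = dE e s := fun s i hi e he => by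
    rw [dE, dE, prjH_apply, prj_of_mem r hB s hi (hEB i hi e he).1,
      prj_of_mem r hB s hi (hEB i hi e he).2, sub_sub_sub_cancel_right]
  have h1 := M_proj (m' := Cut7.sb m1 (I.biUnion fun i => (B i).erase (r i)) (I.biUnion E)) hm hA
    (Cut7.prod_anch m1 hI ha) (prjH I B r) (biUnion_subset.2 hE) (fun _ _ => rfl)
    (fun _ _ _ => rfl) (fun s _ => ⟨Cut7.prj_off hB m s, fun e he =>
      let ⟨i, hi, he⟩ := mem_biUnion.1 he
      hd s i hi e he⟩) (∑ i ∈ I, fl (E i) (ψ i))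
  have h2 : (∑ i ∈ I, fl (E i) (ψ i)).comp (prjH I B r) = ∑ i ∈ I, fl (E i) (ψ i) :=
    AddMonoidHom.ext fun s => by
      simp only [AddMonoidHom.comp_apply, AddMonoidHom.finsetSum_apply, fl_apply]
      exact sum_congr rfl fun i hi => sum_congr rfl fun e he => by rw [hd s i hi e he]
  rw [h2, Cut7.prod_M m1 hI (fun i hi => (hc i hi).wt (ha i hi) 0)
    fun i hi => (hc i hi).se (ha i hi) 0] at h1
  refine h1.trans_eq (sum_congr rfl fun i hi => M_congr fun s hs => ?_)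
  rw [AddMonoidHom.finsetSum_apply, sum_eq_single_of_mem i hi fun j hj hji => ?_]
  rw [fl_apply]
  refine sum_eq_zero fun e he => ?_
  have h3 := hI.far j hj i hi hji e he
  rw [dE, Md.W_off hs _ h3.1, Md.W_off hs _ h3.2]
  simp

/-- Gaussian bound for a small flow -/
theorem M_small {m : Mdl V} (hm : m.Ctr) (hA : m.Anch) {E : Finset (V × V)} (hE : E ⊆ m.ed)
    {b : ℝ} (hb : Len m E b) (h1 : 1 ≤ b) {ψ : V × V → ℝ} {T : ℝ} (hT : b * ∑ e ∈ E, ψ e ^ 2 ≤ T)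
    (hT1 : T ≤ 1) : M (m.W 0) (fl E ψ) ≤ Vr (m.W 0) (fl E ψ) (fl E ψ) / 2 + 3 * T ^ 2 := by
  have hc := hm.cen hA
  have hS : 0 ≤ ∑ e ∈ E, ψ e ^ 2 := sum_nonneg fun _ _ => sq_nonneg _
  have hST : ∑ e ∈ E, ψ e ^ 2 ≤ T := (le_mul_of_one_le_left hS h1).trans hT
  rcases (hS.trans hST).eq_or_lt with h0 | h0
  · have h2 : fl E ψ = 0 := (fl_congr fun e he => pow_eq_zero_iff two_ne_zero |>.1
      ((sum_eq_zero_iff_of_nonneg fun _ _ => sq_nonneg _).1 (le_antisymm (h0 ▸ hST) hS) e he)).trans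
      (sum_eq_zero fun e _ => zero_smul _ _)
    have h3 := hc.wt.Vr_nonneg hc.se (fl E ψ)
    rw [show M (m.W 0) (fl E ψ) = 0 by rw [h2, hc.wt.M_zero]]
    positivity
  have ht := Real.sqrt_pos.2 h0
  have h2 : ∑ e ∈ E, ((√T)⁻¹ * ψ e) ^ 2 = (∑ e ∈ E, ψ e ^ 2) / T := by
    simp only [mul_pow, inv_pow, Real.sq_sqrt h0.le, ← mul_sum]
    rw [inv_mul_eq_div]
  have h3 := bare_sq hm hA hE hb (ψ := fun e => (√T)⁻¹ * ψ e) fun e he =>
    (sq_le_one_iff_abs_le_one _).1 ((single_le_sum (f := fun e => ((√T)⁻¹ * ψ e) ^ 2)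
      (fun _ _ => sq_nonneg _) he).trans (h2.trans_le ((div_le_one h0).2 hST)))
  rw [h2, ← mul_div_assoc, fl_smul] at h3
  have h4 := M_quart hc.wt hc.se hc.even ((√T)⁻¹ • fl E ψ) (t := √T) (by
    rw [abs_of_pos ht]; exact Real.sqrt_le_one.2 hT1)
  rw [smul_smul, mul_inv_cancel₀ ht.ne', one_smul, Vr_smul_left, Vr_smul_right,
    show √T ^ 4 = T ^ 2 by rw [show (4 : ℕ) = 2 * 2 from rfl, pow_mul, Real.sq_sqrt h0.le]] at h4
  have h5 : Real.exp (M (m.W 0) ((√T)⁻¹ • fl E ψ)) ≤ 3 :=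
    (Real.exp_le_exp.2 (h3.trans ((div_le_one h0).2 hT))).trans
      (Real.exp_one_lt_d9.le.trans (by norm_num))
  refine h4.trans (add_le_add (le_of_eq ?_) ?_)
  · field_simp
  · rw [mul_comm]; exact mul_le_mul_of_nonneg_right h5 (sq_nonneg T)

theorem fl_cst {B : Finset V} {E : Finset (V × V)} (hE : ∀ e ∈ E, e.1 ∈ B ∧ e.2 ∈ B)
    (ψ : V × V → ℝ) (h : ℤ) : fl E ψ (cst B h) = 0 := by
  rw [fl_apply]
  exact sum_eq_zero fun e he => by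
    rw [dE_cst h (iff_of_true (hE e he).1 (hE e he).2), Int.cast_zero, mul_zero]

end mdl

section lat
variable {Λ : Lat}

/-- gradient of a real function -/
def gd (u : Pt → ℝ) (e : Pt × Pt) : ℝ := u e.2 - u e.1

/-- the linear function with gradient `v` -/
def lin (v : ℝ × ℝ) (x : Pt) : ℝ := v.1 * x.1 + v.2 * x.2

/-- the energy pairing `∑ ∇u ∇s` over the edges inside `B` -/
noncomputable def X (Λ : Lat) (B : Finset Pt) (u : Pt → ℝ) : Cfg Pt →+ ℝ := fl (Λ.edI B) (gd u)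

/-- stiffness of the free box of side `l` -/
noncomputable def KN (Λ : Lat) (l : ℕ) : ℝ :=
  Vr ((Λ.Nr (sq 0 l) 0).W 0) (X Λ (sq 0 l) (lin (1, 0))) (X Λ (sq 0 l) (lin (1, 0))) / (l : ℝ) ^ 2

theorem X_cst (B : Finset Pt) (u : Pt → ℝ) (h : ℤ) : X Λ B u (cst B h) = 0 :=
  fl_cst (fun _ he => (Lat.mem_edI.1 he).2) _ h

theorem X_map (hΛ : Λ.Ok) {φ : Pt ≃ Pt} (h : Λ.Sym φ) (B : Finset Pt) (u : Pt → ℝ) :
    (X Λ (B.map φ.toEmbedding) u).comp (mapH φ) = X Λ B fun x => u (φ x) :=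
  AddMonoidHom.ext fun s => by
    rw [AddMonoidHom.comp_apply, X, X, fl_apply, fl_apply, h.edI_map hΛ, sum_map]
    refine sum_congr rfl fun e _ => ?_
    rcases ori_cases φ e with h1 | h1 <;>
      simp only [Equiv.coe_toEmbedding, h1, gd, dE_cast, mapH_apply, Equiv.symm_apply_apply]
    ring

theorem Vr_X (hΛ : Λ.Ok) {φ : Pt ≃ Pt} (h : Λ.Sym φ) {B B' : Finset Pt}
    (hB : B.map φ.toEmbedding = B') {r r' : Pt} (hr : r ∈ B) (hr' : r' ∈ B') (u u' : Pt → ℝ) :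
    Vr ((Λ.Nr B' r').W 0) (X Λ B' u) (X Λ B' u') =
      Vr ((Λ.Nr B r).W 0) (X Λ B fun x => u (φ x)) (X Λ B fun x => u' (φ x)) := by
  subst hB
  rw [Lat.Vr_Nr_root hr' (mem_map_of_mem φ.toEmbedding hr) (X_cst _ _ 1) (X_cst _ _ 1)]
  have h1 := (h.iso_Nr hΛ B r).Vr_eq (hΛ.ctr_Nr B r).1 (X Λ (B.map φ.toEmbedding) u)
    (X Λ (B.map φ.toEmbedding) u')
  rwa [X_map hΛ h, X_map hΛ h] at h1


theorem X_congr (B : Finset Pt) {u u' : Pt → ℝ} {c : ℝ} (h : ∀ e, gd u e = c * gd u' e) :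
    X Λ B u = c • X Λ B u' := by
  rw [X, X, ← fl_smul]
  exact fl_congr fun e _ => h e

theorem X_lin (B : Finset Pt) (v : ℝ × ℝ) :
    X Λ B (lin v) = v.1 • X Λ B (lin (1, 0)) + v.2 • X Λ B (lin (0, 1)) := by
  rw [X, X, X, ← fl_smul, ← fl_smul, ← fl_add]
  exact fl_congr fun e _ => by simp only [gd, lin]; ring

/-- isotropy of the stiffness of a free square -/
theorem Vr_lin (hΛ : Λ.Ok) {a r : Pt} {l : ℕ} (hr : r ∈ sq a l) (v v' : ℝ × ℝ) :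
    Vr ((Λ.Nr (sq a l) r).W 0) (X Λ (sq a l) (lin v)) (X Λ (sq a l) (lin v')) =
      KN Λ l * ((v.1 * v'.1 + v.2 * v'.2) * (l : ℝ) ^ 2) := by
  have hl := pos_of_mem_sq hr
  have h0 : (0 : Pt) ∈ sq 0 l := self_mem_sq 0 hl
  have hS := (hΛ.cen_Nr h0).se
  have e1 : ∀ w : ℝ × ℝ, (X Λ (sq 0 l) fun x => lin w (Equiv.addRight a x)) = X Λ (sq 0 l) (lin w) :=
    fun w => (X_congr (c := 1) _ fun e => by simp [gd, lin]; ring).trans (one_smul _ _)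
  have e2 := Vr_X hΛ hΛ.sym_swap (B' := sq 0 l) (map_sq_swap 0 l) h0 h0 (lin (0, 1)) (lin (0, 1))
  have e3 := Vr_X hΛ (hΛ.sym_rf1 _) (map_sq_rf1 0 l) h0 h0 (lin (1, 0)) (lin (0, 1))
  rw [X_congr (u := fun x => lin (0, 1) (Equiv.prodComm ℤ ℤ x)) (u' := lin (1, 0)) (c := 1) _
    fun e => by simp [gd, lin], one_smul] at e2
  rw [X_congr (u := fun x => lin (1, 0) (Lat.rf1 _ x)) (u' := lin (1, 0)) (c := -1) _ fun e => by
      simp [gd, lin],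
    X_congr (u := fun x => lin (0, 1) (Lat.rf1 _ x)) (u' := lin (0, 1)) (c := 1) _ fun e => by
      simp [gd, lin], one_smul, Vr_smul_left] at e3
  have e4 : Vr ((Λ.Nr (sq 0 l) 0).W 0) (X Λ (sq 0 l) (lin (1, 0))) (X Λ (sq 0 l) (lin (0, 1))) = 0 := by
    linarith
  have hl' : (l : ℝ) ≠ 0 := by exact_mod_cast hl.ne'
  rw [Vr_X hΛ (Λ.sym_add a) ((map_sq_add 0 a l).trans (by rw [zero_add])) h0 hr, e1, e1, X_lin _ v,
    X_lin _ v', hS.Vr_add_left, hS.Vr_add_right, hS.Vr_add_right]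
  simp only [Vr_smul_left, Vr_smul_right]
  rw [Vr_comm _ (X Λ (sq 0 l) (lin (0, 1))) (X Λ (sq 0 l) (lin (1, 0))), e4, e2, KN]
  field_simp
  ring

theorem sum_gd_lin (hΛ : Λ.Ok) (B : Finset Pt) (v : ℝ × ℝ) :
    ∑ e ∈ Λ.edI B, gd (lin v) e ^ 2 ≤ Λ.a * ((v.1 ^ 2 + v.2 ^ 2) * B.card) := by
  rw [Lat.sum_edI]
  calc _ ≤ ∑ y ∈ Λ.Jp, lin v y ^ 2 * B.card := sum_le_sum fun y _ => by
        rw [sum_congr (g := fun _ => lin v y ^ 2) rfl fun x _ => by simp [gd, lin]; ring_nf,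
          sum_const, nsmul_eq_mul, mul_comm]
        exact mul_le_mul_of_nonneg_left (by exact_mod_cast card_filter_le _ _) (sq_nonneg _)
    _ = (v.1 ^ 2 * ∑ y ∈ Λ.Jp, (y.1 : ℝ) ^ 2 + v.2 ^ 2 * ∑ y ∈ Λ.Jp, (y.2 : ℝ) ^ 2 +
          2 * v.1 * v.2 * ∑ y ∈ Λ.Jp, (y.1 : ℝ) * y.2) * B.card := by
        simp only [mul_sum, ← sum_add_distrib, sum_mul]
        exact sum_congr rfl fun y _ => by simp only [lin]; ring
    _ = _ := by rw [hΛ.sum_mixed, ← hΛ.a_eq_snd, ← Lat.a]; ring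

theorem len_of {m : Mdl Pt} (hΛ : Λ.Ok) {E : Finset (Pt × Pt)} (hw : ∀ e ∈ E, m.w e = Λ.w) {b : ℝ}
    (hb : Λ.τ ≤ b) : Len m E b := fun e he => ⟨Λ.xy, Λ.τ, hΛ.pos, hb, hw e he⟩

/-- a constant flow in one free square -/
theorem M_lin (hΛ : Λ.Ok) {a r : Pt} {l : ℕ} (hr : r ∈ sq a l) {b : ℝ} (hb : Λ.τ ≤ b) (h1 : 1 ≤ b)
    {v : ℝ × ℝ} (hv : b * Λ.a * ((v.1 ^ 2 + v.2 ^ 2) * (l : ℝ) ^ 2) ≤ 1) :
    M ((Λ.Nr (sq a l) r).W 0) (X Λ (sq a l) (lin v)) ≤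
      KN Λ l / 2 * ((v.1 ^ 2 + v.2 ^ 2) * (l : ℝ) ^ 2) +
        3 * (b * Λ.a * ((v.1 ^ 2 + v.2 ^ 2) * (l : ℝ) ^ 2)) ^ 2 := by
  have h2 := sum_gd_lin hΛ (sq a l) v
  rw [card_sq, Nat.cast_pow] at h2
  have h3 := M_small (hΛ.ctr_Nr (sq a l) r) (hΛ.anch_Nr hr) (Subset.refl _)
    (len_of hΛ (fun _ _ => rfl) hb) h1
    ((mul_le_mul_of_nonneg_left h2 (zero_le_one.trans h1)).trans_eq (mul_assoc _ _ _).symm) hv
  have h4 := Vr_lin hΛ hr v v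
  rw [← pow_two, ← pow_two] at h4
  refine h3.trans_eq ?_
  rw [show Vr _ (fl (Λ.Nr (sq a l) r).ed (gd (lin v))) (fl (Λ.Nr (sq a l) r).ed (gd (lin v))) = _
    from h4]
  ring

/-- cutting into free squares -/
theorem M_squares (hΛ : Λ.Ok) {ι : Type*} {m : Mdl Pt} (hm : m.Ctr) (hA : m.Anch) {I : Finset ι}
    {a : ι → Pt} {l : ι → ℕ} (hl : ∀ i ∈ I, 0 < l i)
    (hB : ∀ i ∈ I, ∀ j ∈ I, i ≠ j → Disjoint (sq (a i) (l i)) (sq (a j) (l j)))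
    (hE : ∀ i ∈ I, ∀ e ∈ Λ.edI (sq (a i) (l i)), e ∈ m.ed ∧ m.w e = Λ.w) (ψ : ι → Pt × Pt → ℝ) :
    M (m.W 0) (∑ i ∈ I, fl (Λ.edI (sq (a i) (l i))) (ψ i)) ≤
      ∑ i ∈ I, M ((Λ.Nr (sq (a i) (l i)) (a i)).W 0) (fl (Λ.edI (sq (a i) (l i))) (ψ i)) := by
  refine (M_blocks hm hA (r := a) hB (fun i hi e he => (hE i hi e he).1)
    (fun i _ e he => (Lat.mem_edI.1 he).2) (fun i hi => hΛ.anch_Nr (self_mem_sq _ (hl i hi))) ψ).trans_eq
    (sum_congr rfl fun i hi => ?_)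
  rw [Mdl.W_ext (m := blk m (sq (a i) (l i)) (a i) (Λ.edI (sq (a i) (l i))))
    (m' := Λ.Nr (sq (a i) (l i)) (a i)) rfl rfl (fun e he => (hE i hi e he).2) fun _ _ _ => rfl]

/-- the flow left after removing a constant flow from each square -/
noncomputable def rst (Λ : Lat) {ι : Type*} (I : Finset ι) (a : ι → Pt) (l : ι → ℕ) (v : ι → ℝ × ℝ)
    (ψ : Pt × Pt → ℝ) (e : Pt × Pt) : ℝ :=
  ψ e - ∑ i ∈ I, if e ∈ Λ.edI (sq (a i) (l i)) then gd (lin (v i)) e else 0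

/-- (L2.2) quantitative T1 -/
theorem t1q (hΛ : Λ.Ok) {ι : Type*} {m : Mdl Pt} (hm : m.Ctr) (hA : m.Anch) {I : Finset ι}
    {a : ι → Pt} {l : ι → ℕ} (hl : ∀ i ∈ I, 0 < l i)
    (hB : ∀ i ∈ I, ∀ j ∈ I, i ≠ j → Disjoint (sq (a i) (l i)) (sq (a j) (l j)))
    {E : Finset (Pt × Pt)} (hE : E ⊆ m.ed)
    (hQ : ∀ i ∈ I, ∀ e ∈ Λ.edI (sq (a i) (l i)), e ∈ E ∧ m.w e = Λ.w) {b : ℝ} (hb : Λ.τ ≤ b)
    (h1 : 1 ≤ b) (hL : Len m E b) {p q : ℝ} (hp : 0 < p) (hq : 0 < q) (hpq : 1 / p + 1 / q = 1)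
    {v : ι → ℝ × ℝ} {A : ι → ℝ} (hA2 : ∀ i ∈ I, A i = ((v i).1 ^ 2 + (v i).2 ^ 2) * (l i : ℝ) ^ 2)
    (hv : ∀ i ∈ I, b * Λ.a * (p ^ 2 * A i) ≤ 1) (ψ : Pt × Pt → ℝ) :
    M (m.W 0) (fl E ψ) ≤ p * ∑ i ∈ I, (KN Λ (l i) / 2 + 3 * (b * Λ.a) ^ 2 * p ^ 2 * A i) * A i +
      (∑ e ∈ E, b * (Real.cosh (q * rst Λ I a l v ψ e) - 1)) / q := by
  have e1 : fl E ψ = ∑ i ∈ I, X Λ (sq (a i) (l i)) (lin (v i)) + fl E (rst Λ I a l v ψ) :=
    AddMonoidHom.ext fun s => by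
      simp only [AddMonoidHom.add_apply, AddMonoidHom.finsetSum_apply, X, fl_apply, rst, sub_mul,
        sum_sub_distrib, sum_mul, ite_mul, zero_mul]
      rw [sum_comm (s := E), sum_congr (s₁ := I) rfl fun i hi => (sum_ite_mem _ _ _).trans (by
        rw [inter_eq_right.2 fun e he => (hQ i hi e he).1])]
      ring
  have h2 := M_holder (hm.wt hA 0) (hm.se hA 0) (∑ i ∈ I, X Λ (sq (a i) (l i)) (lin (v i)))
    (fl E (rst Λ I a l v ψ)) hp hq hpq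
  have h3 := bare_cosh hm hA hE hL fun e => q * rst Λ I a l v ψ e
  have h4 := M_squares hΛ hm hA hl hB (fun i hi e he => ⟨hE (hQ i hi e he).1, (hQ i hi e he).2⟩)
    fun i => gd (lin (p • v i))
  have e2 : ∑ i ∈ I, fl (Λ.edI (sq (a i) (l i))) (gd (lin (p • v i))) =
      p • ∑ i ∈ I, X Λ (sq (a i) (l i)) (lin (v i)) := by
    rw [smul_sum]
    exact sum_congr rfl fun i _ => X_congr _ fun e => by simp [gd, lin]; ring
  have h5 : ∑ i ∈ I, M ((Λ.Nr (sq (a i) (l i)) (a i)).W 0)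
      (fl (Λ.edI (sq (a i) (l i))) (gd (lin (p • v i)))) ≤
      p * (p * ∑ i ∈ I, (KN Λ (l i) / 2 + 3 * (b * Λ.a) ^ 2 * p ^ 2 * A i) * A i) := by
    rw [mul_sum, mul_sum]
    refine sum_le_sum fun i hi => ?_
    have e3 : ((p • v i).1 ^ 2 + (p • v i).2 ^ 2) * (l i : ℝ) ^ 2 = p ^ 2 * A i := by
      rw [hA2 i hi]; simp; ring
    have h6 := M_lin hΛ (self_mem_sq (a i) (hl i hi)) hb h1 (v := p • v i) (e3 ▸ hv i hi)
    rw [e3] at h6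
    exact h6.trans_eq (by ring)
  rw [fl_smul] at h3
  rw [e2] at h4
  rw [e1]
  exact h2.trans (add_le_add ((div_le_iff₀' hp).2 (h4.trans h5))
    (div_le_div_of_nonneg_right h3 hq.le))

end lat

end Crest.Agent.T145.Sl46
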