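import Crest.Agent.T145.VdDef_27
import Crest.Agent.T145.CutP_7
import Crest.Agent.T145.Sq_46

/-!
# Row 145 (helper27): the free model on an arbitrary edge set: roots, projection, gauge, translation,
product, cutting, BARE with a seam
-/

set_option autoImplicit false

namespace Crest.Agent.T145.Vd

open Finset
open Sl46 (fl fl_apply)

variable {Λ : Lat} {E : Finset (Pt × Pt)}

theorem conn_vx {x y : Pt} (h : Conn E x y) : y = x ∨ y ∈ vx E := by
  induction h with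
  | refl => exact .inl rfl
  | tail _ h _ =>
    rcases h with h | h
    exacts [.inr (mem_vx.2 ⟨_, h, .inr rfl⟩), .inr (mem_vx.2 ⟨_, h, .inl rfl⟩)]

theorem exists_rt (E : Finset (Pt × Pt)) (x : Pt) :
    ∃ y, Conn E x y ∧ ∀ z, Conn E x z → toLex y ≤ toLex z := by
  classical
  obtain ⟨y, hy, h⟩ := exists_min_image ((insert x (vx E)).filter (Conn E x)) (fun z => toLex z)
    ⟨x, mem_filter.2 ⟨mem_insert_self _ _, Relation.ReflTransGen.refl⟩⟩
  exact ⟨y, (mem_filter.1 hy).2, fun z hz => h z (mem_filter.2 ⟨mem_insert.2 (conn_vx hz), hz⟩)⟩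

/-- the root of the component of `x` -/
noncomputable def rt (E : Finset (Pt × Pt)) (x : Pt) : Pt := (exists_rt E x).choose

theorem conn_rt (E : Finset (Pt × Pt)) (x : Pt) : Conn E x (rt E x) := (exists_rt E x).choose_spec.1

theorem rt_le {x z : Pt} (h : Conn E x z) : toLex (rt E x) ≤ toLex z :=
  (exists_rt E x).choose_spec.2 z h

theorem rt_eq {x y : Pt} (h : Conn E x y) : rt E x = rt E y :=
  toLex.injective (le_antisymm (rt_le (h.trans (conn_rt E y))) (rt_le (h.symm.trans (conn_rt E x))))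

theorem mem_NE_A {x : Pt} : x ∈ (NE Λ E).A ↔ x ∈ vx E ∧ rt E x ≠ x := by
  simp only [NE, mem_filter]
  refine and_congr_right fun _ => ⟨?_, fun h => ⟨rt E x, conn_rt E x, ?_⟩⟩
  · rintro ⟨y, h1, h2⟩ h3
    have := rt_le h1
    rw [h3] at this
    exact absurd h2 (not_lt.2 this)
  · exact lt_of_le_of_ne (rt_le Relation.ReflTransGen.refl) fun h' => h (toLex.injective h')

theorem rt_notMem (x : Pt) : rt E x ∉ (NE Λ E).A := fun h =>
  (mem_NE_A.1 h).2 (rt_eq (conn_rt E x)).symm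

@[simp] theorem NE_ed : (NE Λ E).ed = E := rfl
@[simp] theorem NE_w (e : Pt × Pt) : (NE Λ E).w e = Λ.w := rfl
@[simp] theorem NE_site (x : Pt) (k : ℤ) : (NE Λ E).site x k = 1 := rfl


theorem NE_ctr (h : Λ.Ok) (E : Finset (Pt × Pt)) : (NE Λ E).Ctr :=
  ⟨fun _ _ => ⟨Λ.xy, Λ.τ, h.2, rfl⟩, fun _ _ => ⟨Md.rsd_one, pd_one, one_pos⟩⟩

theorem NE_anch (Λ : Lat) (E : Finset (Pt × Pt)) : (NE Λ E).Anch := fun x _ =>
  ⟨rt E x, conn_rt E x, .inl (rt_notMem x)⟩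

/-- subtract the height of the root -/
noncomputable def pj (Λ : Lat) (E : Finset (Pt × Pt)) : Cfg Pt →+ Cfg Pt :=
  ∑ x ∈ (NE Λ E).A, (Finsupp.singleAddHom x).comp (Md.evH x - Md.evH (rt E x))

theorem pj_apply (s : Cfg Pt) (y : Pt) :
    pj Λ E s y = if y ∈ (NE Λ E).A then s y - s (rt E y) else 0 := by
  rw [pj, AddMonoidHom.finsetSum_apply, Finsupp.finsetSum_apply]
  simp only [AddMonoidHom.comp_apply, Finsupp.singleAddHom_apply, Finsupp.single_apply,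
    AddMonoidHom.sub_apply, Md.evH_apply]
  exact sum_ite_eq' _ _ _

theorem pj_off (s : Cfg Pt) {y : Pt} (h : y ∉ (NE Λ E).A) : pj Λ E s y = 0 := by
  rw [pj_apply, if_neg h]

theorem pj_vx (s : Cfg Pt) {y : Pt} (h : y ∈ vx E) : pj Λ E s y = s y - s (rt E y) := by
  rw [pj_apply]
  split_ifs with h1
  · rfl
  · rw [not_not.1 fun h2 => h1 (mem_NE_A.2 ⟨h, h2⟩), sub_self]

theorem dE_pj (s : Cfg Pt) {e : Pt × Pt} (h : e ∈ E) : dE e (pj Λ E s) = dE e s := by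
  rw [dE, dE, pj_vx s (mem_vx.2 ⟨e, h, .inr rfl⟩), pj_vx s (mem_vx.2 ⟨e, h, .inl rfl⟩),
    rt_eq (E := E) (x := e.1) (y := e.2) (Relation.ReflTransGen.single (.inl h))]
  ring


theorem fl_pj (ψ : Pt × Pt → ℝ) (s : Cfg Pt) : fl E ψ (pj Λ E s) = fl E ψ s := by
  rw [fl_apply, fl_apply]
  exact sum_congr rfl fun e he => by rw [dE_pj s he]












theorem dE_sh (t : Pt) (e : Pt × Pt) (s : Cfg Pt) :
    dE (sh t e) (mapH (Equiv.addRight t) s) = dE e s := by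
  simp [dE, sh]









section ctr
variable {m : Mdl Pt}

theorem Z0_pos (hm : m.Ctr) (hA : m.Anch) : 0 < Zs (m.W 0) := (hm.cen hA).wt.pos

theorem zt_pos (hm : m.Ctr) (hA : m.Anch) (σ : Pt × Pt → ℤ) (f : Cfg Pt →+ ℝ) : 0 < zt m σ f :=
  div_pos ((Md.ctr_wts hm hA 0 σ).tilt (Md.ctr_ses hm hA 0 σ) f).pos (Z0_pos hm hA)

theorem rat_pos (hm : m.Ctr) (hA : m.Anch) (σ : Pt × Pt → ℤ) : 0 < rat m σ :=
  zt_zero m σ ▸ zt_pos hm hA σ 0


/-- L1.1 -/
theorem zt_cut (h : Λ.Ok) (hm : m.Ctr) (hA : m.Anch) (hE : E ⊆ m.ed) (hw : ∀ e ∈ E, m.w e = Λ.w)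
    (σ : Pt × Pt → ℤ) (ψ : Pt × Pt → ℝ) : zt m σ (fl E ψ) ≤ zt (NE Λ E) σ (fl E ψ) := by
  have h1 := Sl46.cut_proj hm hA (NE_anch Λ E) (pj Λ E) hE (fun e he => (hw e he).symm)
    (fun _ _ _ => rfl) (fun s _ => ⟨fun x hx => pj_off s hx, fun e he => dE_pj s he⟩) σ (fl E ψ)
  rw [show (fl E ψ).comp (pj Λ E) = fl E ψ from AddMonoidHom.ext (fl_pj ψ)] at h1
  rw [zt, zt, div_le_div_iff₀ (Z0_pos hm hA) (Z0_pos (NE_ctr h E) (NE_anch Λ E))]
  exact h1

theorem rat_cut (h : Λ.Ok) (hm : m.Ctr) (hA : m.Anch) (hE : E ⊆ m.ed) (hw : ∀ e ∈ E, m.w e = Λ.w)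
    (σ : Pt × Pt → ℤ) : rat m σ ≤ rat (NE Λ E) σ := by
  simpa only [fl_zero, zt_zero] using zt_cut h hm hA hE hw σ fun _ => 0


theorem rat_of_zero (hm : m.Ctr) (hA : m.Anch) {σ : Pt × Pt → ℤ} (h : ∀ e ∈ m.ed, σ e = 0) :
    rat m σ = 1 := by
  rw [rat, Sl46.Ws_eq_W m 0 h, div_self (Z0_pos hm hA).ne']

theorem rat_le_one (hm : m.Ctr) (hA : m.Anch) (σ : Pt × Pt → ℤ) : rat m σ ≤ 1 :=
  (rat_cut (E := ∅) Pot.nL_ok hm hA (empty_subset _) (by simp) σ).trans_eq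
    (rat_of_zero (NE_ctr Pot.nL_ok _) (NE_anch _ _) (by simp))

/-- BARE with a seam, general kernels -/
theorem bare_seam (hm : m.Ctr) (hA : m.Anch) (σ : Pt × Pt → ℤ) (ψ : Pt × Pt → ℝ) :
    zt m σ (fl m.ed ψ) * Real.exp (∑ e ∈ m.ed, ψ e * σ e) ≤
      ∏ e ∈ m.ed, Ex (m.w e) fun k => Real.exp (ψ e * k) := by
  classical
  have hk : ∀ e : m.ed, Cen (m.w e) := fun e => (Md.fm_ker hm.1 e.2).cen
  let π : Cfg Pt →+ (m.ed → ℤ) := AddMonoidHom.pi fun e => Md.dH e.1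
  have hπ : ∀ s (e : m.ed), π s e = dE e s := fun _ _ => rfl
  let f : (m.ed → ℤ) →+ ℝ :=
    ∑ e : m.ed, (Md.zH (ψ e)).comp (Pi.evalAddMonoidHom (fun _ : m.ed => ℤ) e)
  have hf : ∀ k, f k = ∑ e : m.ed, ψ e * k e := fun k => by
    simp only [f, AddMonoidHom.finsetSum_apply]; rfl
  have hfπ : f.comp π = fl m.ed ψ := AddMonoidHom.ext fun s => by
    rw [AddMonoidHom.comp_apply, hf, fl_apply, ← sum_coe_sort m.ed]; rfl
  have hs1 : ∀ e : m.ed, HasSum (fun k : ℤ => m.w e (k + σ e) * Real.exp (ψ e * k))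
      ((∑' k : ℤ, m.w e k * Real.exp (ψ e * k)) * Real.exp (-(ψ e * σ e))) := fun e => by
    have h1 := ((hk e).se (Md.zH (ψ e))).hasSum.mul_right (Real.exp (-(ψ e * σ e)))
    rw [← (Equiv.addRight (σ e)).hasSum_iff] at h1
    refine HasSum.congr_fun h1 fun k => ?_
    simp only [Function.comp, Equiv.coe_addRight, Md.zH_apply, mul_assoc, ← Real.exp_add]
    congr 2; push_cast; ring
  have e1 := Cut7.hasSum_pi fun e : m.ed => (hs1 e).summable
  have e0 := Cut7.hasSum_pi fun e : m.ed => (hk e).wt.summ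
  have t1 : tilt (fun k : m.ed → ℤ => ∏ e : m.ed, m.w e (k e + σ e)) f =
      fun k => ∏ e : m.ed, m.w e (k e + σ e) * Real.exp (ψ e * k e) := funext fun k => by
    rw [tilt, hf, Real.exp_sum, prod_mul_distrib]
  have h := Sl46.cut_gen π (ρ := fun (q : Pt × Pt → ℤ) k => ∏ e : m.ed, m.w e (k e + q e))
    (H := fun _ s => ind (∀ x, x ∉ m.A → s x = 0) * ∏ x ∈ m.A, m.site x (s x)) (W := m.Ws 0)
    (Md.rsd_prod fun e _ => Md.rsd_comp (hk e).toRSD
      ((Pi.evalAddMonoidHom (fun _ : m.ed => ℤ) e).comp (AddMonoidHom.fst _ _) +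
        (Pi.evalAddMonoidHom (fun _ : Pt × Pt => ℤ) e.1).comp (AddMonoidHom.snd _ _)))
    (((Cut7.pd_off pdStmt m.A).mul (PD.prod fun x hx => (hm.2 x hx).2.1.comp (Md.evH x))).comp
      (AddMonoidHom.fst (Cfg Pt) (Pt × Pt → ℤ)))
    (fun q s _ => (prod_pos fun e _ => Md.fm_pos hm.1 e.2 _).ne')
    (fun q s => by
      simp only [hπ]
      rw [prod_coe_sort m.ed fun e => m.w e (dE e s + q e), Mdl.Ws, mul_right_comm]; rfl)
    (fun q => (Md.ctr_ses hm hA 0 q).summable) σ f (by simpa using e0.summable)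
    (by rw [t1]; exact e1.summable) (Md.ctr_ses hm hA 0 σ _)
  rw [hfπ, t1, ← Mdl.W_eq_Ws] at h
  simp only [Pi.zero_apply, add_zero] at h
  rw [Zs.eq_def fun k : m.ed → ℤ => ∏ e : m.ed, m.w e (k e), e0.tsum_eq, Zs.eq_def fun k : m.ed → ℤ =>
    ∏ e : m.ed, m.w e (k e + σ e) * Real.exp (ψ e * k e), e1.tsum_eq] at h
  simp only [fun e => (hs1 e).tsum_eq] at h
  have hp : 0 < ∏ e : m.ed, ∑' k, m.w e k := prod_pos fun e _ => (hk e).wt.pos
  rw [prod_mul_distrib, ← Real.exp_sum, sum_neg_distrib, Real.exp_neg] at h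
  rw [← prod_coe_sort m.ed, ← sum_coe_sort m.ed, zt, div_mul_eq_mul_div, div_le_iff₀ (Z0_pos hm hA)]
  simp only [Ex, prod_div_distrib]
  rw [div_mul_eq_mul_div, le_div_iff₀ hp]
  have h2 := mul_le_mul_of_nonneg_right h (Real.exp_pos (∑ e : m.ed, ψ e * σ e)).le
  calc _ = _ := mul_right_comm _ _ _
    _ ≤ _ := h2
    _ = _ := by field_simp

end ctr

section prod
variable {ι : Type} {J : Finset ι} {F : ι → Finset (Pt × Pt)}







end prod




theorem bareSStmt : BareSStmt := fun b m hb hm hA hw σ ψ => by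
  refine (bare_seam hm hA σ ψ).trans_eq ?_
  rw [Real.exp_sum]
  refine prod_congr rfl fun e he => ?_
  have hc := (besStmt b hb).1.cen
  rw [hw e he, ← Sl46.log_ex_bes hb]
  exact (Real.exp_log (hc.wt.ex_exp_pos hc.se (Md.zH (ψ e)))).symm

end Crest.Agent.T145.Vd
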