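import Crest.Agent.T145.KsC_68
import Crest.Agent.T145.NcAll_78
import Crest.Agent.T145.VdNe_27

/-!
# Row 145 (helper68): transport of a unit vortex (translation, sign, gauge); monotonicity of `uu`, `TT`
-/

set_option autoImplicit false

namespace Crest.Agent.T145.Ks68

open Finset Nc Nc.Geo

variable {Λ : Lat} {m : Mdl Pt} {U U' I O : Finset Pt} {z r : Pt} {σ : Pt × Pt → ℤ}

theorem pn_N (U : Finset Pt) (r : Pt) : (pn (Λ.N U) U {r}).Ws = (Λ.Nr U r).Ws := by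
  rw [(inL_N subset_rfl).pn_Ws, sdiff_singleton_eq_erase]; rfl

theorem pn_N' (U : Finset Pt) (r : Pt) : (pn (Λ.N U) U {r}).W = (Λ.Nr U r).W := by
  rw [(inL_N subset_rfl).pn_W, sdiff_singleton_eq_erase]; rfl

theorem agr_inL (h : InL Λ m U) : Agr m (Λ.N U) U :=
  ⟨h.1.trans (inL_N subset_rfl).1.symm, fun e he => h.2 e (h.1 ▸ he)⟩

theorem zr_fr (h : InL Λ m U) (σ : Pt × Pt → ℤ) : zr (fr m U) σ = zN Λ U σ := agr_zr (agr_inL h) σ

theorem rWs_fr (h : InL Λ m U) (σ : Pt × Pt → ℤ) : rWs m U σ = wN Λ U σ := agr_rWs (agr_inL h) σ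

theorem zN_root (hr : r ∈ U) (σ : Pt × Pt → ℤ) : zN Λ U σ = zr (Λ.Nr U r) σ := by
  rw [zN, zr_root hr, zr, zr, pn_N, pn_N']

theorem ex_wN (hr : r ∈ U) {F : Cfg Pt → ℝ} (hF : DepG U F) :
    Ex (wN Λ U σ) F = Ex ((Λ.Nr U r).Ws 0 σ) F := by rw [wN, ex_root hr hF, pn_N]


theorem wt_wN (hΛ : Λ.Ok) (hU : CnL Λ U) (hn : U.Nonempty) (σ : Pt × Pt → ℤ) : Wt (wN Λ U σ) :=
  wt_rWs (hΛ.ctr_N U).1 ((inL_N subset_rfl).cn hU) hn σ

theorem zN_pos (hΛ : Λ.Ok) (hU : CnL Λ U) (hn : U.Nonempty) (σ : Pt × Pt → ℤ) : 0 < zN Λ U σ :=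
  zr_pos (fr_ctr (hΛ.ctr_N U).1 U) (fr_anch ((inL_N subset_rfl).cn hU) hn) σ

theorem zN_le_one (hΛ : Λ.Ok) (hU : CnL Λ U) (hn : U.Nonempty) (σ : Pt × Pt → ℤ) : zN Λ U σ ≤ 1 :=
  zr_le_one (fr_ctr (hΛ.ctr_N U).1 U) (fr_anch ((inL_N subset_rfl).cn hU) hn) σ

theorem zN_empty (Λ : Lat) (σ : Pt × Pt → ℤ) : zN Λ ∅ σ = 1 := by
  have a : (fr (Λ.N ∅) ∅).Anch := fun _ h => absurd (mem_sdiff.1 h).1 (notMem_empty _)
  have e : ∀ e, e ∉ (fr (Λ.N ∅) ∅).ed := fun e h => absurd (mem_pn_ed.1 h).2.1 (notMem_empty _)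
  have c : (fr (Λ.N ∅) ∅).Ctr := ⟨fun _ h => absurd h (e _),
    fun _ h => absurd (mem_sdiff.1 h).1 (notMem_empty _)⟩
  rw [zN, zr, Sl46.Ws_eq_W _ 0 fun _ h => absurd h (e _), div_self (Md.ctr_wt c a 0).ne]

/-- any centred model that is the lattice inside `U` weighs at most the free model on `U` -/
theorem zr_le_zN (hc : m.Ctr) (ha : m.Anch) (h : InL Λ m U) (hU : CnL Λ U) (hn : U.Nonempty)
    (σ : Pt × Pt → ℤ) : zr m σ ≤ zN Λ U σ := (zr_le_fr hc ha (h.cn hU) hn σ).trans_eq (zr_fr h σ)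

theorem zN_anti (hΛ : Λ.Ok) (h : U ⊆ U') (hU : CnL Λ U) (hU' : CnL Λ U') (hn : U.Nonempty)
    (σ : Pt × Pt → ℤ) : zN Λ U' σ ≤ zN Λ U σ :=
  zr_le_zN (fr_ctr (hΛ.ctr_N U').1 U') (fr_anch ((inL_N subset_rfl).cn hU') (hn.mono h))
    ((inL_N h).pn h _) hU hn σ

theorem Vtx.mono (h : Vtx Λ z U' σ) (hU : U ⊆ U') : Vtx Λ z U σ :=
  let ⟨ε, u, h1, h2⟩ := h
  ⟨ε, u, h1, fun e he => h2 e (Lat.edI_mono hU he)⟩

theorem vtx_ray (Λ : Lat) (z : Pt) (U : Finset Pt) : Vtx Λ z U (Vd.ray z) :=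
  ⟨1, 0, .inl rfl, fun e _ => by simp [dE]⟩

theorem Vtx.congr (h : Vtx Λ z U σ) {σ' : Pt × Pt → ℤ} (h' : ∀ e ∈ Λ.edI U, σ' e = σ e) :
    Vtx Λ z U σ' :=
  let ⟨ε, u, h1, h2⟩ := h
  ⟨ε, u, h1, fun e he => (h' e he).trans (h2 e he)⟩

/-- translation of the rooted free model with a seam -/
theorem Ws_trl (hΛ : Λ.Ok) (U : Finset Pt) (r z : Pt) (σ : Pt × Pt → ℤ) (s : Cfg Pt) :
    (Λ.Nr (U.map (Equiv.addRight z).toEmbedding) (r + z)).Ws 0 σ (mapH (Equiv.addRight z) s) =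
      (Λ.Nr U r).Ws 0 (fun e => σ (Vd.sh z e)) s := by
  have hI := (Λ.sym_add z).iso_Nr hΛ U r
  have h1 := Md.iso_off hI 0 s
  rw [← mapH_eq, ← mapH_eq, map_zero] at h1
  simp only [Mdl.Ws]
  erw [ind_congr h1, hI.2.1, prod_map]
  congr 1
  · congr 1
    refine prod_congr rfl fun e _ => ?_
    have : ori (Equiv.addRight z) e = Vd.sh z e := if_pos (by simp)
    change Λ.w (dE (ori _ e) _ + σ (ori _ e)) = Λ.w _
    rw [this, Vd.dE_sh]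
  · exact (prod_const_one.trans prod_const_one.symm)

/-- **transport**: a vortex at `z` of any sign and gauge is the standard vortex at `0` -/
theorem vtx_equiv (hΛ : Λ.Ok) (hv : Vtx Λ z (U.map (Equiv.addRight z).toEmbedding) σ) (r : Pt) :
    ∃ (φ : Cfg Pt ≃ Cfg Pt) (ε : ℤ) (v : Cfg Pt), (ε = 1 ∨ ε = -1) ∧
      (∀ s x, φ s (x + z) = ε * s x - v (x + z)) ∧
      ∀ s, (Λ.Nr (U.map (Equiv.addRight z).toEmbedding) (r + z)).Ws 0 σ (φ s) =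
        (Λ.Nr U r).Ws 0 (Vd.ray 0) s := by
  obtain ⟨ε, u, h1, h2⟩ := hv
  set U' := U.map (Equiv.addRight z).toEmbedding
  set v := pj U' (r + z) u
  have g : ∀ s, (Λ.Nr U' (r + z)).Ws 0 σ (s - v) = (Λ.Nr U' (r + z)).Ws 0 (fun e => ε * Vd.ray z e) s :=
    fun s => by
    simp only [Mdl.Ws]
    congr 2
    · refine ind_congr (forall₂_congr fun x hx => ?_)
      rw [Finsupp.sub_apply, pj_off u (by rwa [sdiff_singleton_eq_erase]), sub_zero]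
    · refine prod_congr rfl fun e he => ?_
      rw [h2 e he, ← dE_pj (r := r + z) (Lat.mem_edI.1 he).2 u]
      congr 1
      simp only [dE, Finsupp.sub_apply]; ring
  have sh : (fun e => Vd.ray z (Vd.sh z e)) = Vd.ray 0 := funext fun e => by
    simp only [Vd.ray, Vd.sh, Prod.fst_add, Prod.snd_add, Prod.fst_zero, Prod.snd_zero]
    exact if_congr (by omega) rfl rfl
  let T := (Finsupp.domCongr (M := ℤ) (Equiv.addRight z)).toEquiv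
  have hT : ∀ s, T s = mapH (Equiv.addRight z) s := fun _ => rfl
  rcases h1 with rfl | rfl
  · refine ⟨T.trans (Equiv.subRight v), 1, v, .inl rfl, fun s x => by simp [hT], fun s => ?_⟩
    rw [Equiv.trans_apply, Equiv.subRight_apply, g, hT, Ws_trl hΛ]
    simp only [one_mul, sh]
  · refine ⟨T.trans ((Equiv.neg _).trans (Equiv.subRight v)), -1, v, .inr rfl, fun s x => by simp [hT],
      fun s => ?_⟩
    rw [Equiv.trans_apply, Equiv.trans_apply, Equiv.subRight_apply, g, Equiv.neg_apply, ← sh,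
      ← Ws_trl hΛ, hT]
    simp only [neg_one_mul]
    exact (Md.ctr_rsd_seam (hΛ.ctr_Nr U' (r + z))).even (_, Vd.ray z)

theorem depG_equiv {φ : Cfg Pt → Cfg Pt} {ε : ℤ} {v : Cfg Pt}
    (h : ∀ s x, φ s (x + z) = ε * s x - v (x + z)) {β : Type} {F : Cfg Pt → β}
    (hF : DepG (I.map (Equiv.addRight z).toEmbedding) F) : DepG I fun s => F (φ s) :=
  fun s s' k e => hF _ _ (ε * k) fun y hy => by
    obtain ⟨x, hx, rfl⟩ := mem_map.1 hy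
    change φ s' (x + z) = φ s (x + z) + _
    rw [h, h, e x hx]; ring

theorem zN_vtx (hΛ : Λ.Ok) (hv : Vtx Λ z (U.map (Equiv.addRight z).toEmbedding) σ) :
    zN Λ (U.map (Equiv.addRight z).toEmbedding) σ = zN Λ U (Vd.ray 0) := by
  rcases U.eq_empty_or_nonempty with rfl | ⟨r, hr⟩
  · rw [map_empty, zN_empty, zN_empty]
  obtain ⟨φ, -, -, -, -, h⟩ := vtx_equiv hΛ hv r
  rw [zN_root (r := r + z) (mem_map_of_mem _ hr), zN_root hr, zr, zr, ← Md.zs_equiv φ, funext h,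
    ← Md.zs_equiv (Finsupp.domCongr (M := ℤ) (Equiv.addRight z)).toEquiv ((Λ.Nr _ _).W 0),
    Mdl.W_eq_Ws, Mdl.W_eq_Ws]
  exact congrArg (_ / Zs ·) (funext fun s => Ws_trl hΛ U r z 0 s)

theorem mix_vtx (hΛ : Λ.Ok) (hv : Vtx Λ z (U.map (Equiv.addRight z).toEmbedding) σ) (hn : U.Nonempty)
    (hI : I ⊆ U) (hO : O ⊆ U) {ω η : ℝ} (M : Mix (wN Λ U (Vd.ray 0)) I O ω η) :
    Mix (wN Λ (U.map (Equiv.addRight z).toEmbedding) σ) (I.map (Equiv.addRight z).toEmbedding)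
      (O.map (Equiv.addRight z).toEmbedding) ω η := fun F G A B dF dG bF bG => by
  obtain ⟨r, hr⟩ := hn
  obtain ⟨φ, ε, v, -, h1, h⟩ := vtx_equiv hΛ hv r
  have k : ∀ {X : Cfg Pt → ℝ}, DepG (U.map (Equiv.addRight z).toEmbedding) X →
      Ex (wN Λ (U.map (Equiv.addRight z).toEmbedding) σ) X =
        Ex (wN Λ U (Vd.ray 0)) fun s => X (φ s) := fun hX => by
    rw [ex_wN (r := r + z) (mem_map_of_mem _ hr) hX, ex_wN hr (depG_equiv h1 hX), ← Md.ex_equiv φ,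
      funext h]
  have dF' := dF.mono (map_subset_map.2 hI)
  have dG' := dG.mono (map_subset_map.2 hO)
  rw [k (dF'.mul dG'), k dF', k dG']
  exact M _ _ A B (depG_equiv h1 dF) (depG_equiv h1 dG) (fun _ => bF _) fun _ => bG _

variable {c c' R R' : ℕ}

theorem map_bl0 (z : Pt) (R : ℕ) : (bl 0 R).map (Equiv.addRight z).toEmbedding = bl z R := by
  rw [map_bl_add, zero_add]

theorem map_an0 (z : Pt) (c R : ℕ) : (an 0 c R).map (Equiv.addRight z).toEmbedding = an z c R := by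
  rw [map_an_add, zero_add]

theorem zN_bl (hΛ : Λ.Ok) (hv : Vtx Λ z (bl z R) σ) : zN Λ (bl z R) σ = uu Λ R := by
  rw [← map_bl0] at hv ⊢; exact zN_vtx hΛ hv

theorem zN_an (hΛ : Λ.Ok) (hv : Vtx Λ z (an z c R) σ) : zN Λ (an z c R) σ = TT Λ c R := by
  rw [← map_an0] at hv ⊢; exact zN_vtx hΛ hv

theorem uu_pos (hΛ : Λ.Ok) (R : ℕ) : 0 < uu Λ R := zN_pos hΛ (cnL_bl hΛ 0 R) ⟨0, self_mem_bl _ _⟩ _

theorem uu_le_one (hΛ : Λ.Ok) (R : ℕ) : uu Λ R ≤ 1 :=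
  zN_le_one hΛ (cnL_bl hΛ 0 R) ⟨0, self_mem_bl _ _⟩ _

theorem uu_anti (hΛ : Λ.Ok) (h : R ≤ R') : uu Λ R' ≤ uu Λ R :=
  zN_anti hΛ (bl_mono 0 h) (cnL_bl hΛ 0 R) (cnL_bl hΛ 0 R') ⟨0, self_mem_bl _ _⟩ _

theorem TT_of_le (Λ : Lat) (h : R ≤ c) : TT Λ c R = 1 := by
  rw [TT, an, sdiff_eq_empty_iff_subset.2 (bl_mono 0 h), zN_empty]

theorem TT_pos (hΛ : Λ.Ok) (c R : ℕ) : 0 < TT Λ c R := by
  rcases lt_or_ge c R with h | h
  exacts [zN_pos hΛ (cnL_an hΛ 0 h) (an_nonempty 0 h) _, (TT_of_le Λ h).symm ▸ one_pos]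

theorem TT_le_one (hΛ : Λ.Ok) (c R : ℕ) : TT Λ c R ≤ 1 := by
  rcases lt_or_ge c R with h | h
  exacts [zN_le_one hΛ (cnL_an hΛ 0 h) (an_nonempty 0 h) _, (TT_of_le Λ h).le]

theorem TT_anti (hΛ : Λ.Ok) (h : c' ≤ c) (h' : R ≤ R') : TT Λ c' R' ≤ TT Λ c R := by
  rcases lt_or_ge c R with k | k
  · exact zN_anti hΛ (an_mono 0 h h') (cnL_an hΛ 0 k) (cnL_an hΛ 0 (by omega)) (an_nonempty 0 k) _
  · rw [TT_of_le Λ k]; exact TT_le_one hΛ _ _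

end Crest.Agent.T145.Ks68
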