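import Crest.Agent.T145.KvDef_8
import Crest.Agent.T145.KrAlgA_91
import Crest.Agent.T145.PotS_17
import Crest.Agent.T145.KvOut_90
import Crest.Agent.T145.KsT_68
import Crest.Agent.T145.EsK_28
import Crest.Agent.T145.Soft_23

-- ▼ part T145/KvAlg_91
section

/-!
# Row 145, module Kv (helper91): the deterministic algebra of the slit condenser
-/

set_option autoImplicit false

namespace Crest.Agent.T145.Kv

open Finset
open Kr (Gm cu)
open Vd (ray)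

namespace A91

open Pot (nL nL_ok dl hx on off op edF Hm Co)
open Kr.A91 (mem_an cu_add cu_neg pr_ip r_le out rim_sub)

variable (V : Gv)

theorem Gk_apply (e : Pt × Pt) (u : Pt → ℝ) :
    V.Gk e u = u e.2 - u e.1 + V.s1 e * u V.k1 + V.s2 e * u V.k2 := rfl

theorem eT_apply (ed : Finset (Pt × Pt)) (u v : Pt → ℝ) :
    V.eT ed u v = ∑ e ∈ ed, V.Gk e u * V.Gk e v := by simp [Gv.eT, Pot.sqF_apply]

theorem sy : Pot.Sy V.B := Pot.sy_sqF _ fun _ _ => zero_le_one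

theorem plain (ed : Finset (Pt × Pt)) (u v : Pt → ℝ) (h1 : u V.k1 = 0) (h2 : u V.k2 = 0)
    (h3 : v V.k1 = 0) (h4 : v V.k2 = 0) : V.eT ed u v = edF ed u v := by
  simp [eT_apply, Gk_apply, Pot.edF_apply, h1, h2, h3, h4]

theorem Gk_cu (e : Pt × Pt) (s : Cfg Pt) : V.Gk e (cu s) = V.gk e s := by
  simp [Gk_apply, Gv.gk, cu]

theorem X_eq (u : Pt → ℝ) (s : Cfg Pt) : V.X u s = V.B u (cu s) := by
  rw [Gv.X, gfl, AddMonoidHom.finsetSum_apply, Gv.B, eT_apply]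
  exact sum_congr rfl fun e _ => by rw [Gk_cu]; rfl

theorem In_sub : V.G.In ⊆ V.In := subset_insert _ _
theorem Ou_sub : V.G.Ou ⊆ V.Ou := subset_insert _ _

theorem nm_neg (m : Pt → ℝ) : V.nm (-m) = V.nm m := by simp [Gv.nm]

theorem on_cu (U : Finset Pt) (s : Cfg Pt) : on U (cu (resH U s)) = on U (cu s) := by
  funext x; by_cases h : x ∈ U <;> simp [on, cu, resH_apply, h]

theorem on_cst {U U' : Finset Pt} (h : U' ⊆ U) (a : Cfg Pt) (i : ℤ) :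
    on U (cu (a + cst U' i)) = on U (cu a) + (i : ℝ) • on U' 1 := by
  funext x
  by_cases h1 : x ∈ U'
  · simp [on, cu, cst_apply, h1, h h1]
  · by_cases h2 : x ∈ U <;> simp [on, cu, cst_apply, h1, h2]

theorem on_neg (U : Finset Pt) (a : Cfg Pt) : on U (cu (-a)) = (-1 : ℝ) • on U (cu a) := by
  funext x; by_cases h : x ∈ U <;> simp [on, cu, h]

theorem pr_on (U : Finset Pt) (B : Pot.Bf Pt) (c : ℝ) (u : Pt → ℝ) (s : Cfg Pt) :
    pr (c • on U (op B u)) s = c * B u (on U (cu s)) := by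
  rw [pr_smul, AddMonoidHom.smul_apply, pr_ip (Pot.sup_on _ _), Pot.ip_on, smul_eq_mul,
    ← Pot.ip_op U B u (Pot.sup_on _ _), Pot.ip_comm, Pot.ip_comm U _ (on _ _), Pot.ip_on]

theorem sum_on {U U' : Finset Pt} (h : U' ⊆ U) (B : Pot.Bf Pt) (c : ℝ) (u : Pt → ℝ) :
    ∑ x ∈ U', (c • on U (op B u)) x = c * B u (on U' 1) := by
  rw [← Pot.ip_op U' B u (Pot.sup_on _ _), Pot.ip, mul_sum]
  exact sum_congr rfl fun x hx' => by simp [on, hx', h hx']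

variable {V} {W : ℝ}

theorem EA_eq (g : V.Geo) :
    V.EA = Pot.Sl.eds V.G.A (V.G.rho - 4 * V.ω) (V.G.rho + 4 * V.ω) := by
  ext ⟨⟨a, b⟩, c, d⟩
  have := g.ω_le
  rw [Gv.EA, Gv.kp, mem_filter, Pot.Sl.mem_eds]
  refine and_congr_right fun _ => ?_
  simp only [Gv.s1, Gv.s2, ray, Pot.Sl.se, Prod.fst_zero, Prod.snd_zero, ne_eq, Prod.mk.injEq]
  constructor
  · rintro h i h1 h2 ⟨⟨rfl, rfl⟩, rfl, rfl⟩
    rw [if_pos (by omega), if_neg (by omega), if_neg (by omega)] at h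
    omega
  · intro h
    have := h a
    split_ifs <;> omega

theorem ends (h : V.Ok W) {e : Pt × Pt} (he : e ∈ V.EA) :
    e.1 ∈ Nc.an 0 (V.G.r - 1) (V.G.R + 1) ∧ e.2 ∈ Nc.an 0 (V.G.r - 1) (V.G.R + 1) := by
  obtain ⟨h1, h2⟩ := Lat.mem_edT.1 (mem_filter.1 he).1
  have h3 := Lat.edge_near h1
  have := h.g.hr
  simp only [Pot.nL_rg, Gm.A, mem_an, mem_bl, Prod.fst_zero, Prod.snd_zero] at h2 h3 ⊢
  omega

/-- the form only reads the closed annulus and the two multiplicities -/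
theorem B_congr (h : V.Ok W) (u : Pt → ℝ) {v v' : Pt → ℝ}
    (h1 : ∀ x ∈ Nc.an 0 (V.G.r - 1) (V.G.R + 1), v x = v' x) (h2 : v V.k1 = v' V.k1)
    (h3 : v V.k2 = v' V.k2) : V.B u v = V.B u v' := by
  rw [Gv.B, eT_apply, eT_apply]
  exact sum_congr rfl fun e he => by
    rw [Gk_apply V e v, Gk_apply V e v', h1 _ (ends h he).1, h1 _ (ends h he).2, h2, h3]

theorem geo (h : V.Ok W) {x : Pt} :
    (x ∈ Nc.an 0 (V.G.r - 1) (V.G.R + 1) → x ∈ V.G.Om ∧ x ≠ V.k1 ∧ x ≠ V.k2 ∧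
      (x ∉ V.G.A → x ∈ V.G.In ∨ x ∈ V.G.Ou)) ∧
    (x ∈ V.G.In → x ∉ V.G.Ou ∧ x ∉ V.G.A ∧ x ≠ V.k1 ∧ x ≠ V.k2) ∧
    (x ∈ V.G.Ou → x ∉ V.G.A ∧ x ≠ V.k1 ∧ x ≠ V.k2) ∧
    (x ∈ V.G.A → x ≠ V.k1 ∧ x ≠ V.k2 ∧ x ∈ V.G.Om) ∧ (x ∈ V.G.Om → x ≠ V.k1 ∧ x ≠ V.k2) := by
  have := h.g.hr
  have := h.g.hc
  have := r_le h.g
  have := out h.g
  simp only [Gm.A, Gm.In, Gm.Ou, Gm.Om, Gv.k1, Gv.k2, mem_an, mem_bl, Prod.fst_zero, Prod.snd_zero, ne_eq,
    Prod.ext_iff]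
  omega

theorem k12 (V : Gv) : V.k1 ≠ V.k2 := by simp only [Gv.k1, Gv.k2, ne_eq, Prod.ext_iff, Prod.fst_zero]; omega

theorem kA (h : V.Ok W) : V.k1 ∉ V.G.A ∧ V.k2 ∉ V.G.A :=
  ⟨fun a => ((geo h).2.2.2.1 a).1 rfl, fun a => ((geo h).2.2.2.1 a).2.1 rfl⟩

theorem agree (h : V.Ok W) (u v : Pt → ℝ) (hu : Sup V.G.A u) (hv : Sup V.G.A v) :
    V.B u v = edF V.EA u v := plain V _ u v (hu _ (kA h).1) (hu _ (kA h).2) (hv _ (kA h).1) (hv _ (kA h).2)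

theorem coE (g : V.Geo) : Co V.G.A (edF V.EA) := EA_eq g ▸ Pot.Sl.co_eS _ _ _

theorem coA (h : V.Ok W) (g : V.Geo) : Co V.G.A V.B :=
  ⟨sy V, fun u hu h0 => (coE g).defn u hu ((agree h u u hu hu).symm.trans h0)⟩

open Pot.Ho14 in
theorem poin (h : V.Ok W) (g : V.Geo) (u : Pt → ℝ) (hu : Sup V.G.A u) :
    ∑ x ∈ V.G.A, u x ^ 2 ≤ 4 * (V.G.R : ℝ) ^ 2 * edF V.EA u u := by
  have Fu : F u := ⟨_, hu⟩
  set t := (2 * V.G.R + 1 : ℤ) • ((1, 0) : Pt) with ht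
  have h1 := Pot.P75.N_dif_zsmul Fu (1, 0) (2 * V.G.R + 1)
  have h2 := Pot.Sl.S_add_eq Fu (Fu.shift t) (Fu.dif t) (v' := 0) ⟨∅, fun _ _ => rfl⟩ fun x => by
    by_cases hx' : x ∈ V.G.A
    · rw [Pot.dif, hu (x + t) fun h' => by
        have h3 := mem_bl.1 (mem_an.1 hx').1; have h4 := mem_bl.1 (mem_an.1 h').1
        simp [ht] at h3 h4; omega]
      simp
    · rw [Pot.dif, hu x hx']; simp
  have h3 := Pot.Sl.S_dif_le (a := V.G.rho - 4 * V.ω) (b := V.G.rho + 4 * V.ω) hu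
  have h4 := pow_le_pow_left₀ (Real.sqrt_nonneg _) h1 2
  have h5 : (2 : ℝ) ≤ V.G.R := by exact_mod_cast (by have := r_le h.g; have := h.g.hr; omega : 2 ≤ V.G.R)
  have h6 := S_nonneg (Pot.dif (1, 0) u)
  rw [mul_pow, Real.sq_sqrt (S_nonneg _), Real.sq_sqrt h6, sq_abs] at h4
  rw [S_shift, show S (0 : Pt → ℝ) = 0 by simp [S]] at h2
  rw [Pot.Sl.eS, ← EA_eq g] at h3
  rw [← S_eq hu]
  push_cast at h4
  nlinarith [mul_le_mul_of_nonneg_left h3 (sq_nonneg (V.G.R : ℝ)),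
    mul_nonneg h6 (show 0 ≤ 8 * (V.G.R : ℝ) ^ 2 - (2 * V.G.R + 1) ^ 2 by nlinarith)]

/-- a harmonic function only pairs with the data -/
theorem B_hx (h : V.Ok W) (g : V.Geo) {u : Pt → ℝ} (hu : Hm V.G.A V.B u) (η : Pt → ℝ) :
    V.B u (hx V.G.A V.B η) = V.B u η := by
  have := hu (hx V.G.A V.B η - η) fun x hx' => by rw [Pi.sub_apply, (coA h g).hx_off η hx', sub_self]
  rwa [map_sub, sub_eq_zero] at this

theorem hx_loc (h : V.Ok W) (g : V.Geo) {η η' : Pt → ℝ}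
    (h1 : ∀ x ∈ Nc.an 0 (V.G.r - 1) (V.G.R + 1), x ∉ V.G.A → η x = η' x) (h2 : η V.k1 = η' V.k1)
    (h3 : η V.k2 = η' V.k2) {x : Pt} (hx' : x ∈ V.G.A) : hx V.G.A V.B η x = hx V.G.A V.B η' x := by
  have h4 : hx V.G.A V.B (η - η') = off V.G.A (η - η') :=
    (coA h g).hx_unique (fun y hy => Pot.off_of_not hy) fun v _ => by
      rw [(sy V).symm, B_congr h v (v' := 0) (fun y hy => by
        by_cases a : y ∈ V.G.A
        · exact Pot.off_of_mem a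
        · simp [Pot.off_of_not a, h1 y hy a]) (by simp [Pot.off_of_not (kA h).1, h2])
        (by simp [Pot.off_of_not (kA h).2, h3]), map_zero]
  have h5 := congrFun h4 x
  rwa [(coA h g).hx_sub, Pi.sub_apply, Pot.off_of_mem hx', sub_eq_zero] at h5

theorem B_one (h : V.Ok W) (u : Pt → ℝ) : V.B u (on V.G.Om 1) = 0 := by
  rw [Gv.B, eT_apply]
  exact sum_eq_zero fun e he => by
    rw [Gk_apply V e (on _ _), Pot.on_of_mem ((geo h).1 (ends h he).1).1,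
      Pot.on_of_mem ((geo h).1 (ends h he).2).1, Pot.on_of_not fun a => ((geo h).2.2.2.2 a).1 rfl,
      Pot.on_of_not fun a => ((geo h).2.2.2.2 a).2 rfl]
    simp

/-- the data of `η` -/
theorem dat_eq (h : V.Ok W) (η : Pt → ℝ) :
    (∀ x ∈ Nc.an 0 (V.G.r - 1) (V.G.R + 1), x ∉ V.G.A → η x = (on V.In η + on V.Ou η) x) ∧
      η V.k1 = (on V.In η + on V.Ou η) V.k1 ∧ η V.k2 = (on V.In η + on V.Ou η) V.k2 := by
  refine ⟨fun x h1 h2 => ?_, ?_, ?_⟩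
  · obtain ⟨-, a, b, c⟩ := (geo h).1 h1
    rcases c h2 with c | c
    · simp [on, Gv.In, Gv.Ou, a, b, c, ((geo h).2.1 c).1]
    · simp [on, Gv.In, Gv.Ou, a, b, c, show x ∉ V.G.In from fun d => ((geo h).2.1 d).1 c]
  · simp [on, Gv.In, Gv.Ou, k12 V, show V.k1 ∉ V.G.Ou from fun d => ((geo h).2.2.1 d).2.1 rfl]
  · simp [on, Gv.In, Gv.Ou, (k12 V).symm, show V.k2 ∉ V.G.In from fun d => ((geo h).2.1 d).2.2.2 rfl]

theorem one_eq (h : V.Ok W) :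
    (∀ x ∈ Nc.an 0 (V.G.r - 1) (V.G.R + 1), x ∉ V.G.A → on V.G.Om 1 x = (on V.G.In 1 + on V.G.Ou 1 : Pt → ℝ) x) ∧
      on V.G.Om 1 V.k1 = (on V.G.In 1 + on V.G.Ou 1 : Pt → ℝ) V.k1 ∧
      on V.G.Om 1 V.k2 = (on V.G.In 1 + on V.G.Ou 1 : Pt → ℝ) V.k2 := by
  refine ⟨fun x h1 h2 => ?_, ?_, ?_⟩
  · obtain ⟨a, -, -, c⟩ := (geo h).1 h1
    rcases c h2 with c | c
    · simp [on, a, c, ((geo h).2.1 c).1]
    · simp [on, a, c, show x ∉ V.G.In from fun d => ((geo h).2.1 d).1 c]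
  · simp [on, show V.k1 ∉ V.G.Ou from fun d => ((geo h).2.2.1 d).2.1 rfl,
      show V.k1 ∉ V.G.In from fun d => ((geo h).2.1 d).2.2.1 rfl,
      show V.k1 ∉ V.G.Om from fun d => ((geo h).2.2.2.2 d).1 rfl]
  · simp [on, show V.k2 ∉ V.G.Ou from fun d => ((geo h).2.2.1 d).2.2 rfl,
      show V.k2 ∉ V.G.In from fun d => ((geo h).2.1 d).2.2.2 rfl,
      show V.k2 ∉ V.G.Om from fun d => ((geo h).2.2.2.2 d).2 rfl]

/-- a harmonic function pairs with `η` through the values of `η` off `A` -/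
theorem B_dat (h : V.Ok W) {u : Pt → ℝ} (hu : Hm V.G.A V.B u) {η η' : Pt → ℝ}
    (h1 : ∀ x ∈ Nc.an 0 (V.G.r - 1) (V.G.R + 1), x ∉ V.G.A → η x = η' x) (h2 : η V.k1 = η' V.k1)
    (h3 : η V.k2 = η' V.k2) : V.B u η = V.B u η' := by
  rw [← sub_eq_zero, ← map_sub, ← hu _ (Pot.sup_on V.G.A (η - η'))]
  refine B_congr h u (fun x a => ?_) (by simp [Pot.on_of_not (kA h).1, h2])
    (by simp [Pot.on_of_not (kA h).2, h3])
  by_cases b : x ∈ V.G.A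
  · exact (Pot.on_of_mem b).symm
  · simp [Pot.on_of_not b, h1 x a b]

theorem B_ou (h : V.Ok W) {u : Pt → ℝ} (hu : Hm V.G.A V.B u) :
    V.B u (on V.G.Ou 1) = -V.B u (on V.G.In 1) := by
  have := B_dat h hu (one_eq h).1 (one_eq h).2.1 (one_eq h).2.2
  rw [B_one h, map_add] at this
  linarith

theorem om_hm (h : V.Ok W) (g : V.Geo) : Hm V.G.A V.B V.om := (coA h g).hx_hm _

theorem cp_eq (h : V.Ok W) (g : V.Geo) : V.B V.om (on V.G.In 1) = V.cp := (B_hx h g (om_hm h g) _).symm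

theorem om_k (h : V.Ok W) (g : V.Geo) : V.om V.k1 = 0 ∧ V.om V.k2 = 0 :=
  ⟨((coA h g).hx_off _ (kA h).1).trans (Pot.on_of_not fun d => ((geo h).2.1 d).2.2.1 rfl),
    ((coA h g).hx_off _ (kA h).2).trans (Pot.on_of_not fun d => ((geo h).2.1 d).2.2.2 rfl)⟩

theorem om_eq (h : V.Ok W) (g : V.Geo) : V.om = hx V.G.A (edF V.EA) (on V.G.In 1) :=
  ((coE g).hx_unique (fun _ a => (coA h g).hx_off _ a) fun v hv =>
    (plain V _ _ v (om_k h g).1 (om_k h g).2 (hv _ (kA h).1) (hv _ (kA h).2)).symm.trans (om_hm h g v hv)).symm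

theorem om_mem (h : V.Ok W) (g : V.Geo) (x : Pt) : 0 ≤ V.om x ∧ V.om x ≤ 1 := by
  have h1 : ∀ y, 0 ≤ on V.G.In (1 : Pt → ℝ) y ∧ on V.G.In (1 : Pt → ℝ) y ≤ 1 := fun y => by
    by_cases a : y ∈ V.G.In <;> simp [on, a]
  rw [om_eq h g]
  refine ⟨?_, (le_abs_self _).trans ((coE g).abs_hx_le (Pot.mk_edF _) zero_le_one
    (fun y _ => by rw [abs_of_nonneg (h1 y).1]; exact (h1 y).2) x)⟩
  simpa using (coE g).ge_of_super (Pot.mk_edF _) (u := hx V.G.A (edF V.EA) (on V.G.In 1)) le_rfl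
    (fun y hy => by rw [(coE g).hx_off _ hy, neg_zero]; exact (h1 y).1)
    (fun v hv _ => ((coE g).hx_hm _ v hv).ge) x

theorem cp_pos (h : V.Ok W) (g : V.Geo) : 0 < V.cp := by
  refine ((sy V).nonneg _).lt_of_ne' fun h0 => ?_
  have := h.g.hr
  have := h.g.hc
  have := r_le h.g
  rw [Gv.B, plain V _ _ _ (om_k h g).1 (om_k h g).2 (om_k h g).1 (om_k h g).2, Pot.edF_self,
    sum_eq_zero_iff_of_nonneg fun _ _ => sq_nonneg _] at h0
  have key : ∀ n : ℕ, V.G.r + n ≤ V.G.R + 1 → V.om (-(V.G.r + n : ℤ), 0) = 1 := fun n => by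
    induction n with
    | zero =>
      intro _
      have a : ((-(V.G.r + (0 : ℕ) : ℤ), 0) : Pt) ∈ V.G.In := by simp [Gm.In, mem_an, mem_bl]; omega
      exact ((coA h g).hx_off _ ((geo h).2.1 a).2.1).trans (Pot.on_of_mem a)
    | succ n ih =>
      intro hn
      have a := h0 ((-(V.G.r + (n + 1 : ℕ) : ℤ), 0), (-(V.G.r + n : ℤ), 0)) (mem_filter.2
        ⟨Lat.mem_edT.2 ⟨by simp [Pot.nL_Jp], by simp [Gm.A, mem_an, mem_bl]; omega⟩,
          by simp [Gv.s1, Gv.s2, ray]⟩)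
      rw [pow_eq_zero_iff two_ne_zero, sub_eq_zero] at a
      exact a.symm.trans (ih (by omega))
  have a := key (V.G.R + 1 - V.G.r) (by omega)
  rw [Gv.om, (coA h g).hx_off _ (by simp [Gm.A, mem_an, mem_bl]; omega),
    Pot.on_of_not (by simp [Gm.In, mem_an, mem_bl]; omega)] at a
  exact zero_ne_one a

theorem op_zero (h : V.Ok W) (u : Pt → ℝ) {x : Pt} (h1 : x ∉ Nc.an 0 (V.G.r - 1) (V.G.R + 1)) (h2 : x ≠ V.k1)
    (h3 : x ≠ V.k2) : op V.B u x = 0 := by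
  rw [op, B_congr h u (v' := 0) (fun y a => Pi.single_eq_of_ne (by rintro rfl; exact h1 a) _)
    (Pi.single_eq_of_ne h2.symm _) (Pi.single_eq_of_ne h3.symm _), map_zero]

theorem eq_sup (h : V.Ok W) : Sup (insert V.k1 (Nc.an 0 (V.G.r - 1) V.G.r)) V.eq := fun x a => by
  rw [mem_insert, not_or] at a
  by_cases b : x ∈ V.G.In
  · rw [Gv.eq, Pi.smul_apply, Pot.on_of_mem (In_sub V b), op_zero h _ (fun c => a.2
      (mem_an.2 ⟨(mem_an.1 b).1, (mem_an.1 c).2⟩)) a.1 ((geo h).2.1 b).2.2.2, smul_zero]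
  · rw [Gv.eq, Pi.smul_apply, Pot.on_of_not (by simp [Gv.In, a.1, b]), smul_zero]

theorem te_sup (h : V.Ok W) : Sup (insert V.k2 (Nc.an 0 V.G.R (V.G.R + 1))) V.te := fun x a => by
  rw [mem_insert, not_or] at a
  by_cases b : x ∈ V.G.Ou
  · rw [Gv.te, Pi.smul_apply, Pot.on_of_mem (Ou_sub V b), op_zero h _ (fun c => a.2
      (mem_an.2 ⟨(mem_an.1 c).1, (mem_an.1 b).2⟩)) ((geo h).2.2.1 b).2.1 a.1, smul_zero]
  · rw [Gv.te, Pi.smul_apply, Pot.on_of_not (by simp [Gv.Ou, a.1, b]), smul_zero]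

theorem eq_sum (h : V.Ok W) (g : V.Geo) : ∑ x ∈ V.G.In, V.eq x = 1 := by
  rw [Gv.eq, sum_on (In_sub V), cp_eq h g, inv_mul_cancel₀ (cp_pos h g).ne']

theorem te_sum (h : V.Ok W) (g : V.Geo) : ∑ x ∈ V.G.Ou, V.te x = 1 := by
  rw [Gv.te, sum_on (Ou_sub V), B_ou h (om_hm h g), cp_eq h g, neg_mul_neg,
    inv_mul_cancel₀ (cp_pos h g).ne']

theorem cp_H (h : V.Ok W) (g : V.Geo) (s : Cfg Pt) : V.B V.om (V.ma s) = V.cp * pr V.eq s := by
  rw [Gv.eq, pr_on, mul_inv_cancel_left₀ (cp_pos h g).ne']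
  exact B_hx h g (om_hm h g) _

theorem cp_t (h : V.Ok W) (g : V.Geo) (s : Cfg Pt) : V.B V.om (V.mb s) = -(V.cp * pr V.te s) := by
  rw [Gv.te, pr_on, neg_mul, mul_neg, neg_neg, mul_inv_cancel_left₀ (cp_pos h g).ne']
  exact B_hx h g (om_hm h g) _

theorem hx_dat (h : V.Ok W) (g : V.Geo) (s : Cfg Pt) (x : Pt) (hx' : x ∈ V.G.A) :
    hx V.G.A V.B (cu s) x = (V.ma s + V.mb s) x := by
  rw [Gv.ma, Gv.mb, Gv.mI, Gv.mO, ← (coA h g).hx_add]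
  exact hx_loc h g (dat_eq h _).1 (dat_eq h _).2.1 (dat_eq h _).2.2 hx'

theorem ma_cst (h : V.Ok W) (g : V.Geo) (a : Cfg Pt) (i : ℤ) :
    V.ma (a + cst V.G.In i) = V.ma a + (i : ℝ) • V.om := by
  rw [Gv.ma, Gv.mI, on_cst (In_sub V), (coA h g).hx_add, (coA h g).hx_smul]; rfl

theorem mb_cst (h : V.Ok W) (g : V.Geo) (a : Cfg Pt) (i : ℤ) :
    V.mb (a + cst V.G.Ou i) = V.mb a + (i : ℝ) • hx V.G.A V.B (on V.G.Ou 1) := by
  rw [Gv.mb, Gv.mO, on_cst (Ou_sub V), (coA h g).hx_add, (coA h g).hx_smul]; rfl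

theorem hx_ou (h : V.Ok W) (g : V.Geo) {x : Pt} (hx' : x ∈ V.G.A) :
    hx V.G.A V.B (on V.G.Ou 1) x = 1 - V.om x := by
  have h1 := hx_loc h g (one_eq h).1 (one_eq h).2.1 (one_eq h).2.2 hx'
  rw [(coA h g).hx_add, (coA h g).hx_unique (u := on V.G.Om 1) (fun _ _ => rfl) fun v _ => by
    rw [(sy V).symm, B_one h], Pot.on_of_mem ((geo h).2.2.2.1 hx').2.2, Pi.add_apply, Pi.one_apply] at h1
  rw [h1, Gv.om, add_sub_cancel_left]

theorem m_neg (h : V.Ok W) (g : V.Geo) (a : Cfg Pt) : V.ma (-a) = -V.ma a ∧ V.mb (-a) = -V.mb a := by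
  rw [Gv.ma, Gv.mb, Gv.mI, Gv.mO, on_neg, on_neg, (coA h g).hx_smul, (coA h g).hx_smul, neg_one_smul,
    neg_one_smul]
  exact ⟨rfl, rfl⟩

theorem flux (h : V.Ok W) (g : V.Geo) (s : Cfg Pt) : V.cp * (pr V.eq s - pr V.te s) = V.X V.om s := by
  rw [X_eq, B_dat h (om_hm h g) (dat_eq h _).1 (dat_eq h _).2.1 (dat_eq h _).2.2, map_add,
    ← B_hx h g (om_hm h g) (on V.In _), ← B_hx h g (om_hm h g) (on V.Ou _), mul_sub, ← cp_H h g,
    sub_eq_add_neg, ← cp_t h g]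
  rfl

theorem H_cst (h : V.Ok W) (g : V.Geo) (a : Cfg Pt) (i : ℤ) :
    pr V.eq (a + cst V.G.In i) = pr V.eq a + i ∧ pr V.te (a + cst V.G.Ou i) = pr V.te a + i := by
  rw [map_add, map_add, pr_cst, pr_cst, eq_sum h g, te_sum h g, one_mul]
  exact ⟨rfl, rfl⟩

theorem y_in (h : V.Ok W) (g : V.Geo) (i : ℤ) (a b : Cfg Pt) : V.y0 (a + cst V.G.In i) b = V.y0 a b := by
  rw [Gv.y0, Gv.y0, ma_cst h g, (H_cst h g a i).1, map_add, map_smul, LinearMap.add_apply,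
    LinearMap.smul_apply, cp_t h g, smul_eq_mul]
  ring

theorem y_out (h : V.Ok W) (g : V.Geo) (i : ℤ) (a b : Cfg Pt) : V.y0 a (b + cst V.G.Ou i) = V.y0 a b := by
  have h1 : Hm V.G.A V.B (V.ma a) := (coA h g).hx_hm _
  rw [Gv.y0, Gv.y0, mb_cst h g, (H_cst h g b i).2, map_add, map_smul, B_hx h g h1, B_ou h h1,
    ← B_hx h g h1 (on V.G.In 1), ← Gv.om, (sy V).symm _ V.om, cp_H h g, smul_eq_mul]
  ring

theorem act (h : V.Ok W) (g : V.Geo) (α : ℝ) : ∃ A B, V.IsI A α ∧ V.IsO B α := by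
  have hm : V.mid ⊆ V.G.A := g.mid_sub.trans (sdiff_subset_sdiff (bl_mono 0 (by have := g.rho_le; omega))
    (bl_mono 0 (by have := g.r_le; omega)))
  have s1 : ∀ (U : Finset Pt) (i j : ℤ) (a : Cfg Pt), a + cst U (i + j) = a + cst U j + cst U i :=
    fun U i j a => by rw [cst_add]; abel
  have s2 : ∀ (U : Finset Pt) (i : ℤ) (a : Cfg Pt), -(a + cst U i) = -a + cst U (-i) :=
    fun U i a => by rw [cst_neg, neg_add]
  refine ⟨⟨fun i => Equiv.addRight (cst V.G.In i), Equiv.neg _, pr V.eq,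
      fun a => V.nm (V.ma a - pr V.eq a • V.om) ≤ α, s1 _, fun a => by simp, s2 _,
      fun i a => (H_cst h g a i).1, map_neg _, fun i a => ?_, fun a => ?_⟩,
    ⟨fun i => Equiv.addRight (cst V.G.Ou i), Equiv.neg _, pr V.te,
      fun a => V.nm (V.mb a - pr V.te a • (1 - V.om)) ≤ α, s1 _, fun a => by simp, s2 _,
      fun i a => (H_cst h g a i).2, map_neg _, fun i a => ?_, fun a => ?_⟩,
    ⟨fun _ _ => rfl, fun _ => rfl, fun _ => rfl, fun _ => Iff.rfl⟩,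
    ⟨fun _ _ => rfl, fun _ => rfl, fun _ => rfl, fun _ => Iff.rfl⟩⟩
  · rw [Equiv.coe_addRight, ma_cst h g, (H_cst h g a i).1, add_smul, add_sub_add_right_eq_sub]
  · rw [Equiv.neg_apply, (m_neg h g a).1, map_neg, neg_smul, ← neg_sub', nm_neg]
  · rw [Equiv.coe_addRight, mb_cst h g, (H_cst h g a i).2, Gv.nm, Gv.nm, sum_congr rfl fun x hx' => ?_]
    simp only [Pi.sub_apply, Pi.add_apply, Pi.smul_apply, smul_eq_mul, hx_ou h g (hm hx'), Pi.one_apply]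
    ring
  · rw [Equiv.neg_apply, (m_neg h g a).2, map_neg, neg_smul, ← neg_sub', nm_neg]

end A91

open A91 in
theorem algStmt (hG : GeoStmt) : AlgStmt := fun V W h =>
  have g := hG V W h
  { coA := coA h g
    coE := coE g
    poin := poin h g
    plain := plain V
    gr_eq := Pot.gr_congr_form (agree h)
    Gk_cu := Gk_cu V
    X_eq := X_eq V
    cp_pos := cp_pos h g
    eq_sup := eq_sup h
    eq_sum := eq_sum h g
    te_sup := te_sup h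
    te_sum := te_sum h g
    om_mem := om_mem h g
    hm := fun _ => ⟨(coA h g).hx_hm _, (coA h g).hx_hm _⟩
    om_hm := om_hm h g
    dat := fun s => ⟨congrArg (Pot.hx _ _) (on_cu _ s), congrArg (Pot.hx _ _) (on_cu _ s),
      by rw [Gv.eq, pr_on, pr_on]; exact congrArg _ (congrArg _ (on_cu _ s)),
      by rw [Gv.te, pr_on, pr_on]; exact congrArg _ (congrArg _ (on_cu _ s))⟩
    hx_dat := hx_dat h g
    m_cst := fun a i => ⟨ma_cst h g a i, fun x hx' => by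
      rw [mb_cst h g, Pi.add_apply, Pi.smul_apply, hx_ou h g hx', smul_eq_mul]⟩
    m_neg := m_neg h g
    flux := flux h g
    y_in := y_in h g
    y_out := y_out h g
    y_neg := fun a b => by
      simp only [Gv.y0, (m_neg h g _).1, (m_neg h g _).2, map_neg, LinearMap.neg_apply]
      constructor <;> ring
    act := act h g }

end Crest.Agent.T145.Kv
end

-- ▼ part T145/KvBr_68

/-!
# Row 145 (helper68): `Kv.KvStmt` and (H) give `MixStmt` and `VecStmt`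
-/

set_option autoImplicit false

namespace Crest.Agent.T145.Ks68

open Finset Nc Nc.Geo

theorem out (hK : Kv.KvStmt) (hH : Es28.HKStmt) (F : Fa) {θ₀ ε : ℝ} (N : ℕ) (hJ : F.J = nn)
    (h0 : 0 < θ₀) (e0 : 0 < ε) (e1 : ε ≤ 1 / 4) : ∃ W₁ : ℝ, 1 ≤ W₁ ∧ ∀ W, W₁ ≤ W → ∀ K : ℝ, 1 ≤ K →
    ∃ δ : ℝ, 0 < δ ∧ ∀ Λ, F.Mem Λ → ∀ l L, Λ.Win θ₀ δ l L → 2 - ε ≤ Real.pi * Λ.gN l → ∀ G : Kr.Gm,
      G.Ok W → G.At K L → G.R₂ ≤ L → (G.r : ℝ) ≤ W * G.c → (G.R₂ : ℝ) ≤ W * G.R →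
      Wt (wN Λ G.Om (Vd.ray 0)) ∧ Kv.Out G (Ex (wN Λ G.Om (Vd.ray 0))) (W ^ (-1 + ε))
        (W ^ (-2 + 3 * ε)) (1 / 8) (W ^ (-(N : ℝ))) := by
  obtain ⟨C, δ₁, p1, H⟩ := hH F θ₀ h0
  obtain ⟨W₁, H1⟩ := hK F θ₀ ε N (4 * C) hJ h0 e0 e1
  refine ⟨max W₁ 1, le_max_right _ _, fun W hW K k1 => ?_⟩
  have w1 : 1 ≤ W := (le_max_right _ _).trans hW
  obtain ⟨δ₂, p2, H2⟩ := H1 W ((le_max_left _ _).trans hW) K k1
  have q1 : 1 ≤ 2 * K * W ^ 2 := by nlinarith [one_le_pow₀ (n := 2) w1]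
  refine ⟨min δ₂ (δ₁ / (2 * K * W ^ 2)), by positivity, fun Λ hΛ l L hw hg G ok hat h1 h2 h3 => ?_⟩
  have a1 := ok.hW
  have a2 := ok.hc
  have a3 := ok.hr
  have a4 := ok.lo
  have a5 := ok.hi
  have a6 := ok.out
  have r0 : (64 : ℝ) ≤ G.r := by exact_mod_cast a3
  have b1 : G.r < G.R := by exact_mod_cast (by nlinarith : (G.r : ℝ) < G.R)
  have c0 : (0 : ℝ) < G.c := (mul_pos_iff_of_pos_left (by linarith : 0 < W)).1 (by linarith)
  have b2 : (G.R : ℝ) ≤ 2 * W ^ 2 * G.c := by nlinarith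
  obtain ⟨c, -, H⟩ := H Λ hΛ (hΛ.1.trans hJ) l
  have k := (H L (hw.mono_d ((min_le_right _ _).trans (div_le_self p1.le q1))) 0 G.R₂
    (by have := hw.one_le_L; omega)).1 G.c (by
      calc (l : ℝ) ≤ δ₁ / (2 * K * W ^ 2) * (K * (2 * W ^ 2 * G.c)) :=
            hw.sep.2.trans (mul_le_mul (min_le_right _ _) (hat.2.trans (by gcongr)) (by positivity)
              (by positivity))
        _ = _ := by field_simp) (by omega)
  refine ⟨wt_wN hΛ.ok (cnL_an hΛ.ok 0 (by omega)) (an_nonempty 0 (by omega)) _,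
    H2 Λ hΛ l L (hw.mono_d (min_le_left _ _)) G ok hat hg (le_trans ?_ k)⟩
  rw [Real.rpow_neg (by linarith), Real.rpow_natCast, pow_mul, ← inv_pow]
  refine pow_le_pow_left₀ (by positivity) ?_ C
  rw [inv_eq_one_div, div_le_div_iff₀ (by positivity) (by positivity)]
  have : (1 : ℝ) ≤ G.R₂ := by exact_mod_cast (by omega : 1 ≤ G.R₂)
  have : (G.R₂ : ℝ) ≤ W * (2 * W ^ 2 * G.c) := h3.trans (by gcongr)
  nlinarith [mul_le_mul_of_nonneg_right a1 (by positivity : 0 ≤ W ^ 3 * G.c)]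

theorem mixStmt_of (hK : Kv.KvStmt) (hH : Es28.HKStmt) : MixStmt := fun F θ₀ n hJ h0 => by
  obtain ⟨W₁, w1, H⟩ := out hK hH F n hJ h0 (by norm_num : (0 : ℝ) < 1 / 4) le_rfl
  refine ⟨W₁, fun W hW K k1 => (H W hW K k1).imp fun δ h => ⟨h.1, fun Λ hΛ l L hw hg G ok hat h1 h2 h3
    X Y A B dX dY bX bY => ?_⟩⟩
  obtain ⟨-, y, d, -, k⟩ := h.2 Λ hΛ l L hw (by linarith) G ok hat h1 h2 h3
  have := (k X Y A B dX dY (fun s => by rw [abs_of_nonneg (bX s).1]; exact (bX s).2)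
    fun s => by rw [abs_of_nonneg (bY s).1]; exact (bY s).2).2 (fun s => (bX s).1) fun s => (bY s).1
  rwa [Real.rpow_neg (by linarith), Real.rpow_natCast, inv_eq_one_div] at this

theorem abs_cov_le {α : Type} {W X Y : α → ℝ} (w : Wt W) {A B : ℝ} (hX : ∀ s, |X s| ≤ A)
    (hY : ∀ s, |Y s| ≤ B) : |Kv.cov (Ex W) X Y| ≤ 2 * (A * B) := by
  have a0 : ∀ {Z : α → ℝ} {C : ℝ}, (∀ s, |Z s| ≤ C) → |Ex W Z| ≤ C := fun h =>
    (abs_Ex_le w.nonneg (w.ig_bdd h)).trans (w.ex_le ((w.ig_bdd h).abs w.nonneg) fun s _ => h s)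
  have h1 := a0 (Z := fun s => X s * Y s) (C := A * B) fun s => by
    rw [abs_mul]; exact mul_le_mul (hX s) (hY s) (abs_nonneg _) ((abs_nonneg _).trans (hX s))
  have h2 : |Ex W X * Ex W Y| ≤ A * B := by
    rw [abs_mul]; exact mul_le_mul (a0 hX) (a0 hY) (abs_nonneg _) ((abs_nonneg _).trans (a0 hX))
  exact (abs_sub _ _).trans (by linarith)

theorem vecStmt_of (hK : Kv.KvStmt) (hH : Es28.HKStmt) : VecStmt := fun F θ₀ ε hJ h0 e0 e1 => by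
  obtain ⟨W₁, w1, H⟩ := out hK hH F 0 hJ h0 e0 e1
  refine ⟨max W₁ (4 ^ ε⁻¹), fun W hW K k1 => (H W ((le_max_left _ _).trans hW) K k1).imp fun δ h =>
    ⟨h.1, fun Λ hΛ l L hw hg G ok hat h1 h2 h3 => ?_⟩⟩
  obtain ⟨w, y, d, hy, k⟩ := h.2 Λ hΛ l L hw hg G ok hat h1 h2 h3
  have W0 : 0 < W := by linarith [ok.hW]
  have b0 : 0 < W ^ (-1 + ε) := Real.rpow_pos_of_pos W0 _
  have b1 : 4 * W ^ (-1 + ε) ≤ W ^ (-1 + 2 * ε) := by
    rw [show -1 + 2 * ε = ε + (-1 + ε) by ring, Real.rpow_add W0 ε]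
    refine mul_le_mul_of_nonneg_right ?_ b0.le
    calc (4 : ℝ) = (4 ^ ε⁻¹) ^ ε := (Real.rpow_inv_rpow (by norm_num) e0.ne').symm
      _ ≤ _ := Real.rpow_le_rpow (by positivity) ((le_max_right _ _).trans hW) e0.le
  refine ⟨fun X i => 2 * W ^ (-1 + ε) * Kv.cov (Ex (wN Λ G.Om (Vd.ray 0))) X (y i),
    fun X Y a b M bX bY => funext fun i => ?_, fun X M dX bX => ⟨fun i => ?_, fun φ dφ bφ => ?_⟩⟩
  · have ig : ∀ {Z : Cfg Pt → ℝ}, (∀ s, |Z s| ≤ M) → Ig (wN Λ G.Om (Vd.ray 0)) fun s => Z s * y i s :=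
      fun h => w.ig_bdd (C := M) fun s => by
        rw [abs_mul]; exact (mul_le_of_le_one_right (abs_nonneg _) ((hy i).2.1 s)).trans (h s)
    simp only [Kv.cov, Pi.add_apply, Pi.smul_apply, smul_eq_mul, add_mul, mul_assoc a, mul_assoc b]
    rw [Ex_add ((ig bX).const_mul a) ((ig bY).const_mul b),
      Ex_add ((w.ig_bdd bX).const_mul a) ((w.ig_bdd bY).const_mul b)]
    simp only [Ex_const_mul]; ring
  · have := abs_cov_le w bX (hy i).2.1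
    have M0 := (abs_nonneg _).trans (bX 0)
    rw [abs_mul, abs_of_pos (by positivity)]
    nlinarith [mul_le_mul_of_nonneg_right b1 M0, mul_le_mul_of_nonneg_left this b0.le]
  · have k := (k X φ M 1 dX dφ bX bφ).1
    have s : |∑ i, Kv.cov (Ex (wN Λ G.Om (Vd.ray 0))) X (y i) *
        Kv.cov (Ex (wN Λ G.Om (Vd.ray 0))) (d i) φ| ≤
        ∑ i, |2 * W ^ (-1 + ε) * Kv.cov (Ex (wN Λ G.Om (Vd.ray 0))) X (y i)| :=
      (abs_sum_le_sum_abs _ _).trans (sum_le_sum fun i _ => by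
        rw [abs_mul, abs_mul _ (Kv.cov _ _ _), mul_comm, abs_of_pos (by positivity : 0 < 2 * W ^ (-1 + ε))]
        exact mul_le_mul_of_nonneg_right ((abs_cov_le w (hy i).2.2.2 bφ).trans_eq (by ring))
          (abs_nonneg _))
    have := abs_sub_abs_le_abs_sub (Kv.cov (Ex (wN Λ G.Om (Vd.ray 0))) X φ)
      (∑ i, Kv.cov (Ex (wN Λ G.Om (Vd.ray 0))) X (y i) * Kv.cov (Ex (wN Λ G.Om (Vd.ray 0))) (d i) φ)
    change |Kv.cov (Ex (wN Λ G.Om (Vd.ray 0))) X φ| ≤ _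
    linarith

theorem mixStmt (hK : Kv.KvStmt) (hD : GffDStmt) (hm : T1mStmt) : MixStmt :=
  mixStmt_of hK (Es28.hKStmt hD hm)

theorem vecStmt (hK : Kv.KvStmt) (hD : GffDStmt) (hm : T1mStmt) : VecStmt :=
  vecStmt_of hK (Es28.hKStmt hD hm)

end Crest.Agent.T145.Ks68
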