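import Crest.Agent.T145.KvDef_8
import Crest.Agent.T145.MxRg_31
import Crest.Agent.T145.Route_51
import Crest.Agent.T145.KrGeo_87
import Crest.Agent.T145.ExplU_56
import Crest.Agent.T145.T1A_40
import Crest.Agent.T145.KrFs_9
import Crest.Agent.T145.KrGa_45
import Crest.Agent.T145.KrWL_56
import Crest.Agent.T145.PotS_17
import Crest.Agent.T145.KrTr_57_Mg

-- ▼ part T145/KvDl_68
section

/-!
# Row 145, module Kv: DL for glued pieces (helper68)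
-/

set_option autoImplicit false

namespace Crest.Agent.T145.Kv

open Finset

namespace Dl68

theorem three {M : Type*} [AddCommGroup M] (B : M → M → ℝ) (hl : ∀ a b c, B (a + b) c = B a c + B b c)
    (hs : ∀ a b, B a b = B b a) (a b c : M) : B (a + b + c) (a + b + c) =
      3 * (B a a + B b b + B c c) - B (a - b) (a - b) - B (a - c) (a - c) - B (b - c) (b - c) := by
  have h1 : ∀ a b c, B (a - b) c = B a c - B b c := fun a b c => by
    rw [eq_sub_iff_add_eq, ← hl, sub_add_cancel]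
  have h2 : ∀ a b c, B c (a + b) = B c a + B c b := fun a b c => by rw [hs, hl, hs a, hs b]
  have h3 : ∀ a b c, B c (a - b) = B c a - B c b := fun a b c => by rw [hs, h1, hs a, hs b]
  simp only [hl, h1, h2, h3]
  rw [hs b a, hs c a, hs c b]
  ring

variable {Λ : Lat} {V : Gv} {W : ℝ}

theorem Jp_eq (hJ : Λ.J = nn) : Λ.Jp = Pot.nL.Jp := by rw [Lat.Jp, hJ]; rfl
theorem edI_eq (hJ : Λ.J = nn) (D : Finset Pt) : Λ.edI D = Pot.nL.edI D := by
  ext e; rw [Lat.mem_edI, Lat.mem_edI, Jp_eq hJ]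
theorem rg_eq (hJ : Λ.J = nn) : Λ.rg = 1 := by rw [Lat.rg, hJ]; exact Pot.nL_rg
theorem a_eq (hJ : Λ.J = nn) : Λ.a = 1 := by rw [Lat.a, Jp_eq hJ]; exact Pot.nL_a

theorem step {e : Pt × Pt} (h : e.2 - e.1 ∈ Pot.nL.Jp) :
    (e.2.1 = e.1.1 + 1 ∧ e.2.2 = e.1.2) ∨ (e.2.1 = e.1.1 ∧ e.2.2 = e.1.2 + 1) := by
  simp only [Pot.nL_Jp, mem_insert, mem_singleton, Prod.ext_iff, Prod.fst_sub, Prod.snd_sub] at h
  omega

theorem X_apply (V : Gv) (u : Pt → ℝ) (s : Cfg Pt) : V.X u s = ∑ e ∈ V.EA, V.Gk e u * (V.gk e s : ℝ) := by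
  rw [Gv.X, gfl, AddMonoidHom.finsetSum_apply]; rfl

theorem X_add (V : Gv) (u v : Pt → ℝ) : V.X (u + v) = V.X u + V.X v := AddMonoidHom.ext fun s => by
  simp only [AddMonoidHom.add_apply, X_apply, map_add, add_mul, sum_add_distrib]

/-- the points of `P` with `bl (x + a) d ⊆ U` -/
noncomputable def dp (P U : Finset Pt) (a : Pt) (d : ℕ) : Finset Pt :=
  @filter _ (fun x => bl (x + a) d ⊆ U) (Classical.decPred _) P

theorem mem_dp {P U : Finset Pt} {a x : Pt} {d : ℕ} : x ∈ dp P U a d ↔ x ∈ P ∧ bl (x + a) d ⊆ U := by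
  simp only [dp, mem_filter]

theorem mem_dp0 {P U : Finset Pt} {x : Pt} {d : ℕ} : x ∈ dp P U 0 d ↔ x ∈ P ∧ bl x d ⊆ U := by
  rw [mem_dp, add_zero]

theorem dp_sub {P U : Finset Pt} {a : Pt} {d : ℕ} : dp P U a d ⊆ P := fun _ h => (mem_dp.1 h).1

/-- one piece: a more localised model, and only the edges inside `D` matter -/
theorem key (hΛ : Λ.Ok) (hJ : Λ.J = nn) (hE : V.Ext Λ) (k1 : V.k1 ∉ V.G.A) (k2 : V.k2 ∉ V.G.A)
    {D : Finset Pt} {u v : Pt → ℝ} (v1 : v V.k1 = 0) (v2 : v V.k2 = 0) (hs : Λ.edI D ⊆ V.EA)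
    (h0 : ∀ e ∈ V.EA, e ∉ Λ.edI D → v e.2 - v e.1 = 0) (h1 : ∀ x ∈ D, v x = u x) {m : Mdl Pt}
    (hc : Cen (m.W 0)) (hl : Loc (m.W 0) ((V.m0 Λ).W 0)) {l : ℕ} {ε : ℝ}
    (h : Λ.tN l * Λ.En D u u - ε ≤ Vr (m.W 0) (pr (Λ.Au D u)) (pr (Λ.Au D u))) :
    Λ.gN l * Pot.edF V.EA v v - Λ.τ ^ 2 * ε ≤ Vr ((V.m0 Λ).W 0) (V.X v) (V.X v) := by
  have τ0 := hΛ.pos
  have h2 : ∀ e ∈ Λ.edI D, v e.2 - v e.1 = u e.2 - u e.1 := fun e he => by
    rw [h1 _ (Lat.mem_edI.1 he).2.1, h1 _ (Lat.mem_edI.1 he).2.2]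
  have e1 : ∀ s, (V.m0 Λ).W 0 s ≠ 0 → V.X v s = (Λ.τ • pr (Λ.Au D u)) s := fun s hs' => by
    have a1 : s V.k1 = 0 := Md.W_off hs' _ k1
    have a2 : s V.k2 = 0 := Md.W_off hs' _ k2
    rw [AddMonoidHom.smul_apply, Lat.Au, pr_dv, X_apply, smul_eq_mul, mul_sum]
    simp only [Gv.Gk, Gv.gk, LinearMap.add_apply, LinearMap.smul_apply, LinearMap.proj_apply, v1, v2,
      smul_zero, add_zero, Pot.dr_apply, AddMonoidHom.add_apply, AddMonoidHom.sub_apply,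
      AddMonoidHom.smul_apply, Finsupp.applyAddHom_apply, a1, a2]
    rw [← sum_subset hs fun e he he' => by rw [h0 e he he', zero_mul]]
    exact sum_congr rfl fun e he => by rw [h2 e he, dE]; field_simp
  have e2 : Pot.edF V.EA v v = Λ.τ * Λ.En D u u := by
    rw [Pot.edF_apply, ← sum_subset hs fun e he he' => by rw [h0 e he he', zero_mul], Lat.En, mul_sum]
    exact sum_congr rfl fun e he => by rw [h2 e he]; field_simp
  have := mul_le_mul_of_nonneg_left (h.trans (hl.Vr_le hc (hE.m0.1.cen hE.m0.2) _)) (sq_nonneg Λ.τ)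
  rw [Vr_congr e1 e1, Vr_smul_smul, e2, Lat.gN, Lat.e0, a_eq hJ]
  refine le_trans (le_of_eq ?_) this
  field_simp

/-- the general Dirichlet limit in a translated square, pinned on the rim of `U` -/
theorem shift (hΛ : Λ.Ok) (hJ : Λ.J = nn) {θ ε K α : ℝ} {n d : ℕ}
    (H : ∀ (u : Pt → ℝ) (S T : Finset Pt), Sm2 u K n → (∀ x ∈ sq 0 n, |u x| ≤ K) →
      (∀ x ∈ sq 0 n, u x ≠ 0 → ∀ y ∈ bl x Λ.rg, y ∈ sq 0 n → y ∈ T) → Mx.Far (α * n) S T →
      (∃ x ∈ S, x ∈ sq 0 n) → θ * Λ.En (sq 0 n) u u - ε ≤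
        Vr (((Λ.N (sq 0 n)).free (sq 0 n \ S)).W 0) (Λ.X n u) (Λ.X n u))
    {a : Pt} {u : Pt → ℝ} {U : Finset Pt} (hu : Sm2 u K n) (hb : ∀ x, |u x| ≤ K)
    (hs : ∀ x, u x ≠ 0 → bl x (d + 1) ⊆ U) (hd : α * n ≤ d) (hx : ∃ x ∈ sq a n, ¬ bl x 1 ⊆ U) :
    θ * Λ.En (sq a n) u u - ε ≤ Vr (((Λ.N (sq a n)).free (dp (sq a n) U 0 1)).W 0)
      (pr (Λ.Au (sq a n) u)) (pr (Λ.Au (sq a n) u)) := by
  have hm : (sq 0 n).map (Equiv.addRight a).toEmbedding = sq a n := by rw [map_sq_add, zero_add]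
  have ms : ∀ x, x ∈ sq 0 n ↔ x + a ∈ sq a n := fun x => by
    simp only [mem_sq, Prod.fst_add, Prod.snd_add, Prod.fst_zero, Prod.snd_zero]; omega
  have k := H _ (sq 0 n \ dp (sq 0 n) U a 1) (dp (sq 0 n) U a d)
    (D74.sm_shift hu a) (fun x _ => hb _)
    (fun x _ h y hy hy' => mem_dp.2 ⟨hy', (bl_subset_bl (d := 1) (by
      rw [rg_eq hJ] at hy
      simp only [mem_bl, Prod.fst_add, Prod.snd_add] at hy ⊢; omega) le_rfl).trans (hs _ h)⟩)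
    (fun x hx y hy => by
      have : (d : ℤ) ≤ |(x - y).1| ∨ (d : ℤ) ≤ |(x - y).2| := by
        by_contra c
        refine (mem_sdiff.1 hx).2 (mem_dp.2 ⟨(mem_sdiff.1 hx).1,
          Subset.trans (fun z hz => ?_) (mem_dp.1 hy).2⟩)
        simp only [mem_bl, Prod.fst_add, Prod.snd_add, Prod.fst_sub, Prod.snd_sub, le_abs] at hz c ⊢
        omega
      simp only [co, Matrix.cons_val_zero, Matrix.cons_val_one]
      exact this.imp (fun k => hd.trans (by exact_mod_cast k)) fun k => hd.trans (by exact_mod_cast k))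
    (by
      obtain ⟨x, h1, h2⟩ := hx
      have : x - a ∈ sq 0 n := (ms _).2 (by rwa [sub_add_cancel])
      exact ⟨x - a, mem_sdiff.2 ⟨this, fun c => h2 (by simpa using (mem_dp.1 c).2)⟩, this⟩)
  rw [Finset.sdiff_sdiff_eq_self dp_sub] at k
  have hI := ((Λ.sym_add a).iso_N hΛ (sq 0 n)).free (A := dp (sq 0 n) U a 1) dp_sub
  have h2 : (dp (sq 0 n) U a 1).map (Equiv.addRight a).toEmbedding = dp (sq a n) U 0 1 := by
    ext x
    obtain ⟨y, rfl⟩ : ∃ y, x = y + a := ⟨x - a, (sub_add_cancel _ _).symm⟩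
    rw [mem_dp0, ← ms, ← mem_dp]
    exact mem_map' (Equiv.addRight a).toEmbedding
  rw [h2, hm] at hI
  rw [hI.Vr_pr ((hΛ.ctr_N _).1.free _), ← hm, D74.En_shift]
  simpa only [Lat.X, Equiv.coe_addRight, D74.Au_shift] using k

theorem A_sub (h : V.Ok W) : V.G.A ⊆ V.G.Om := by
  have := h.g.hc
  have := h.g.out
  exact sdiff_subset_sdiff (bl_mono _ (by omega)) (bl_mono _ (by omega))

theorem ul_sub (g : V.Geo) : V.up ∪ V.lo ⊆ V.G.A := by
  have := g.r_le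
  have := g.rho_le
  exact g.ul_sub.trans (sdiff_subset_sdiff (bl_mono _ (by omega)) (bl_mono _ (by omega)))

theorem EA_of (h : V.Ok W) (g : V.Geo) {D : Finset Pt} (hD : D ⊆ V.G.A)
    (k : ∀ x ∈ D, x + (0, 1) ∈ D → x ∈ V.lip → x.2 ≠ -1) : Pot.nL.edI D ⊆ V.EA := fun e he => by
  obtain ⟨j, j1, j2⟩ := Lat.mem_edI.1 he
  have : e ∈ V.EO := by
    by_contra c
    obtain ⟨c1, c2, c3⟩ := (g.slit e (Lat.edI_mono (hD.trans (A_sub h)) he)).1 c
    exact k _ j1 (c3 ▸ j2) c1 c2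
  exact mem_filter.2 ⟨Lat.mem_edT.2 ⟨j, Or.inl (hD j1)⟩, (mem_filter.1 this).2⟩

theorem EA_I (g : V.Geo) : V.EA ⊆ Pot.nL.edI V.G.Om := g.EA_sub.trans (filter_subset _ _)

/-- no edge joins the two squares -/
theorem cross (g : V.Geo) {e : Pt × Pt} (he : e ∈ V.EA) (h1 : e.1 ∈ V.up ∪ V.lo)
    (h2 : e.2 ∈ V.up ∪ V.lo) : (e.1 ∈ V.up ↔ e.2 ∈ V.up) ∧ (e.1 ∈ V.lo ↔ e.2 ∈ V.lo) := by
  have j := step (Lat.mem_edI.1 (EA_I g he)).1
  have k : ¬ (e.1 ∈ V.lip ∧ e.1.2 = -1 ∧ e.2 = e.1 + (0, 1)) := fun c =>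
    (g.slit e (EA_I g he)).2 c (g.EA_sub he)
  simp only [Gv.lip, mem_filter, h1, true_and, Prod.ext_iff, Prod.fst_add, Prod.snd_add] at k
  simp only [Gv.up, Gv.lo, mem_union, mem_sq] at h1 h2 ⊢
  push_cast at *
  omega

/-- the pieces above and below the slit -/
theorem half (hΛ : Λ.Ok) (hJ : Λ.J = nn) (h : V.Ok W) (g : V.Geo) (hE : V.Ext Λ) {a : Pt} {n d l : ℕ}
    {ε : ℝ} (hP : sq a n ⊆ V.up ∪ V.lo) (hI : Pot.nL.edI (sq a n) ⊆ V.EA)
    (hc : ∀ e ∈ V.EA, e.1 ∈ V.up ∪ V.lo → e.2 ∈ V.up ∪ V.lo → (e.1 ∈ sq a n ↔ e.2 ∈ sq a n))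
    (hx : ∃ x ∈ sq a n, ¬ bl x 1 ⊆ V.up ∪ V.lo) {u : Pt → ℝ}
    (hs : ∀ x, u x ≠ 0 → bl x (d + 1) ⊆ V.up ∪ V.lo)
    (H : Λ.tN l * Λ.En (sq a n) u u - ε ≤
      Vr (((Λ.N (sq a n)).free (dp (sq a n) (V.up ∪ V.lo) 0 1)).W 0)
        (pr (Λ.Au (sq a n) u)) (pr (Λ.Au (sq a n) u))) :
    Λ.gN l * Pot.edF V.EA (Pot.on (sq a n) u) (Pot.on (sq a n) u) - Λ.τ ^ 2 * ε ≤
      Vr ((V.m0 Λ).W 0) (V.X (Pot.on (sq a n) u)) (V.X (Pot.on (sq a n) u)) := by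
  have hA := hP.trans (ul_sub g)
  have hO := hA.trans (A_sub h)
  have nb : ∀ e ∈ V.EA, e.2 ∈ bl e.1 1 ∧ e.1 ∈ bl e.2 1 := fun e he =>
    by have j := step (Lat.mem_edI.1 (EA_I g he)).1; simp only [mem_bl]; omega
  have inn : ∀ e ∈ V.EA, e.1 ∈ dp (sq a n) (V.up ∪ V.lo) 0 1 ∨
      e.2 ∈ dp (sq a n) (V.up ∪ V.lo) 0 1 → e ∈ Λ.edI (sq a n) := fun e he k => by
    rw [edI_eq hJ]
    refine Lat.mem_edI.2 ⟨(Lat.mem_edI.1 (EA_I g he)).1, ?_⟩
    rcases k with k | k <;> obtain ⟨k1, k2⟩ := mem_dp0.1 k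
    · exact ⟨k1, (hc e he (hP k1) (k2 (nb e he).1)).1 k1⟩
    · exact ⟨(hc e he (k2 (nb e he).2) (hP k1)).2 k1, k1⟩
  have z : ∀ x, Pot.on (sq a n) u x ≠ 0 → x ∈ dp (sq a n) (V.up ∪ V.lo) 0 1 := fun x hx => by
    by_cases k : x ∈ sq a n
    · rw [Pot.on_of_mem k] at hx
      exact mem_dp0.2 ⟨k, (bl_mono x (by omega)).trans (hs x hx)⟩
    · exact absurd (Pot.on_of_not k) hx
  refine key hΛ hJ hE (fun k => g.k_off.1 (A_sub h k)) (fun k => g.k_off.2.1 (A_sub h k))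
    (Pot.on_of_not fun k => g.k_off.1 (hO k)) (Pot.on_of_not fun k => g.k_off.2.1 (hO k))
    ((edI_eq hJ _).trans_subset hI) (fun e he he' => ?_) (fun x hx => Pot.on_of_mem hx)
    (((hΛ.ctr_N _).free dp_sub).cen fun x k => ?_)
    (loc_touch hE.m0.1 hE.m0.2 (hΛ.ctr_N _).1 (dp_sub.trans hA)
      (fun e he k => ⟨inn e he k, rfl⟩) fun _ _ _ => rfl) H
  · rw [not_not.1 fun k => he' (inn e he (Or.inl (z _ k))),
      not_not.1 fun k => he' (inn e he (Or.inr (z _ k))), sub_self]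
  · obtain ⟨y, y1, y2⟩ := hx
    exact ⟨y, hΛ.conn_sq (dp_sub k) y1, Or.inl fun c => y2 (mem_dp0.1 c).2⟩

theorem pc_smul {K : ℝ} {u : Fin 3 → Pt → ℝ} (h : V.Pc K u) (hR : (0 : ℝ) < V.G.R) (c : Fin 3 → ℝ)
    (hc : ∀ i, |c i| ≤ 1) : V.Pc K fun i => c i • u i := by
  have ne : ∀ i x, (c i • u i) x ≠ 0 → u i x ≠ 0 := fun i x k => right_ne_zero_of_mul k
  have K0 : 0 ≤ K := (abs_nonneg _).trans ((h.sm 0).2 0)
  refine ⟨fun i => ⟨D74.sm_mono (D74.sm_smul (h.sm i).1 _) hR (mul_le_of_le_one_left K0 (hc i)),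
    fun x => ?_⟩, fun x k => h.s0 x (ne 0 x k), fun x k => h.s12 x (k.imp (ne 1 x) (ne 2 x))⟩
  rw [Pi.smul_apply, smul_eq_mul, abs_mul]
  exact (mul_le_of_le_one_left (abs_nonneg _) (hc i)).trans ((h.sm i).2 x)

end Dl68

open Dl68 in
/-- **DL** for glued pieces -/
theorem dlStmt (hT : T1Stmt) (hD : DlgStmt) (hN : Mx31.DlGenStmt) (hG : GeoStmt) (hX : ExtStmt)
    (hm : T1mStmt) : DlStmt := by
  intro F θ₀ W K j hJ h0 hK K' ε hK' hε
  obtain ⟨C, hC1, hC⟩ := F.exists_bound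
  obtain ⟨k, hk⟩ := pow_unbounded_of_one_lt K (one_lt_two (α := ℝ))
  have he : 0 < ε / 15 := by positivity
  have he' : 0 < ε / 15 / C ^ 2 := by positivity
  have hKK : 1 ≤ K ^ 2 * K' := one_le_mul_of_one_le_of_one_le (one_le_pow₀ hK) hK'
  obtain ⟨δ₁, d1, T⟩ := hT F θ₀ W K j hJ h0 hK K' _ hK' he
  refine exists_of_ev ?_
  filter_upwards [ev_le d1, Soft.ev hD F h0 hKK he',
    (hN (1 / K') (by positivity)).sub hm F h0 hK' he' (k + j + 3),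
    ev_large' (2 ^ (k + j + 3) * K')] with δ e1 e2 e3 e4 Λ hΛ l L hW V hV hj hA u hu
  have h := hΛ.ok
  have J : Λ.J = nn := hΛ.1.trans hJ
  have g := hG V W hV
  have E := hX Λ V W h J hV
  have cen := E.m0.1.cen E.m0.2
  have r1 := g.rho_le
  have r2 := g.ω_le
  have r3 := g.ω16
  have hn : 2 ^ (V.om2 + 3) = 8 * V.ω := by rw [pow_add, Gv.ω]; ring
  have R0 : (0 : ℝ) < V.G.R := by exact_mod_cast (by omega : 0 < V.G.R)
  have RL : (V.G.R : ℝ) ≤ L := by exact_mod_cast hA.1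
  have n0 : (0 : ℝ) < (8 * V.ω : ℕ) := by exact_mod_cast (by omega : 0 < 8 * V.ω)
  have nR : 64 * ((8 * V.ω : ℕ) : ℝ) ≤ V.G.R := by exact_mod_cast (by omega : 64 * (8 * V.ω) ≤ V.G.R)
  have hL : L ≤ 2 ^ (k + j + 3) * (8 * V.ω) := by
    have a1 : V.G.R ≤ 2 ^ (j + 3) * (8 * V.ω) := by
      have := g.le_rho
      rw [g.rho_eq, hj] at this
      exact this.trans_eq (by ring)
    have a2 : (L : ℝ) ≤ 2 ^ k * V.G.R := hA.2.trans (mul_le_mul_of_nonneg_right hk.le R0.le)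
    have a3 : L ≤ 2 ^ k * V.G.R := by exact_mod_cast a2
    exact a3.trans ((Nat.mul_le_mul_left _ a1).trans_eq (by ring))
  have nK : K' ≤ (8 * V.ω : ℕ) := by
    have a1 : (L : ℝ) ≤ 2 ^ (k + j + 3) * ((8 * V.ω : ℕ) : ℝ) := by exact_mod_cast hL
    exact le_of_mul_le_mul_left ((e4 l L hW.sep).2.2.trans a1) (by positivity)
  have H := e3 Λ hΛ l L hW (V.om2 + 3) (by rw [hn]; have := hA.1; omega)
    (by rw [pow_add, hn, mul_comm]; exact hL)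
  rw [hn] at H
  have hd : 1 / K' * (8 * V.ω : ℕ) + 1 ≤ (⌊(V.G.R : ℝ) / K'⌋₊ : ℝ) := by
    have a1 := Nat.lt_floor_add_one ((V.G.R : ℝ) / K')
    have a2 : 1 / K' * (8 * V.ω : ℕ) + 2 ≤ V.G.R / K' := by
      rw [le_div_iff₀ (by linarith), add_mul, one_div, mul_right_comm, inv_mul_cancel₀ (by linarith)]
      linarith
    linarith
  obtain ⟨d, hd'⟩ : ∃ d, ⌊(V.G.R : ℝ) / K'⌋₊ = d + 1 := by
    refine Nat.exists_eq_succ_of_ne_zero fun c => ?_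
    rw [c, Nat.cast_zero] at hd
    have : 0 < 1 / K' * (8 * V.ω : ℕ) := by positivity
    linarith
  rw [hd', Nat.cast_add_one, add_le_add_iff_right] at hd
  have τε : Λ.τ ^ 2 * (ε / 15 / C ^ 2) ≤ ε / 15 := by
    rw [← mul_div_assoc, div_le_iff₀ (by positivity), mul_comm]
    exact mul_le_mul_of_nonneg_left (pow_le_pow_left₀ h.pos.le (hC Λ hΛ).1 2) he.le
  have sm : ∀ i, Sm2 (u i) K' (8 * V.ω : ℕ) := fun i => D74.sm_down (hu.sm i).1 n0 (by linarith)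
  have p0 := key (D := V.G.A \ V.lip) (u := u 0) (v := u 0) (l := l) h J E
    (fun k => g.k_off.1 (A_sub hV k)) (fun k => g.k_off.2.1 (A_sub hV k))
    (not_not.1 fun k => g.k_off.1 (A_sub hV (mem_sdiff.1 (hu.s0 _ k (self_mem_bl _ _))).1))
    (not_not.1 fun k => g.k_off.2.1 (A_sub hV (mem_sdiff.1 (hu.s0 _ k (self_mem_bl _ _))).1))
    ((edI_eq J _).trans_subset (EA_of hV g sdiff_subset fun x hx _ k => absurd k (mem_sdiff.1 hx).2))
    (fun e he he' => D74.In.edge (D' := V.G.Om)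
      (fun x hx => (bl_mono x (by rw [rg_eq J, hd']; omega)).trans (hu.s0 x hx))
      ((edI_eq J _).ge (EA_I g he)) he') (fun _ _ => rfl) (h.cen_D (V.G.A \ V.lip))
    (h.loc_D E.m0.1 E.m0.2 sdiff_subset
      (fun e he _ => ⟨(Jp_eq J).ge (Lat.mem_edI.1 (EA_I g he)).1, rfl⟩) fun _ _ _ => rfl)
    (ε := ε / 15 / C ^ 2) (by
      have c1 : 1 ≤ (L : ℝ) / V.G.R := (one_le_div R0).2 RL
      have c2 : (L : ℝ) / V.G.R ≤ K := (div_le_iff₀ R0).2 hA.2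
      have s := D74.sm_up (hu.sm 0).1 R0 c1
      rw [div_mul_cancel₀ _ R0.ne'] at s
      have := (e2 Λ hΛ l L hW (Λ.D (V.G.A \ V.lip)) _ 0 (u 0)
        ⟨h.ctr_D _, h.anch_D _, Lat.edI_subset_edT _, fun _ _ => rfl⟩ (Loc.refl _)
        (D74.sm_mono s (R0.trans_le RL) (by gcongr)) fun x hx => ⟨bl_mono 0 (Nat.le_floor
          (RL.trans (le_mul_of_one_le_left (R0.le.trans RL) hKK)))
          (sdiff_subset (s := bl 0 V.G.R) (mem_sdiff.1 (hu.s0 x hx (self_mem_bl _ _))).1),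
          (bl_mono x (Nat.floor_le_floor ?_)).trans (hu.s0 x hx)⟩).1
      · linarith [(abs_le.1 this).1]
      · rw [div_le_div_iff₀ (by positivity) (by positivity)]
        have : (L : ℝ) ≤ K ^ 2 * V.G.R := hA.2.trans (by nlinarith [mul_pos R0 (one_pos.trans_le hK)])
        nlinarith)
  have x1 : ∃ x ∈ V.up, ¬ bl x 1 ⊆ V.up ∪ V.lo :=
    ⟨_, self_mem_sq _ (by omega), fun c => by
      have := @c ((V.G.rho : ℤ) - 4 * V.ω - 1, 0) (by rw [mem_bl]; simp only; omega)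
      simp only [Gv.up, Gv.lo, mem_union, mem_sq] at this
      omega⟩
  have x2 : ∃ x ∈ V.lo, ¬ bl x 1 ⊆ V.up ∪ V.lo :=
    ⟨_, self_mem_sq _ (by omega), fun c => by
      have := @c ((V.G.rho : ℤ) - 4 * V.ω - 1, -(8 * V.ω : ℤ)) (by rw [mem_bl]; simp only; omega)
      simp only [Gv.up, Gv.lo, mem_union, mem_sq] at this
      omega⟩
  have s1 : ∀ x, u 1 x ≠ 0 → bl x (d + 1) ⊆ V.up ∪ V.lo := fun x k => hd' ▸ hu.s12 x (Or.inl k)
  have s2 : ∀ x, u 2 x ≠ 0 → bl x (d + 1) ⊆ V.up ∪ V.lo := fun x k => hd' ▸ hu.s12 x (Or.inr k)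
  have p1 := half h J hV g E subset_union_left
    (EA_of hV g (subset_union_left.trans (ul_sub g)) fun x hx _ _ => by
      have := mem_sq.1 hx
      simp only at this
      omega)
    (fun e he k1 k2 => (cross g he k1 k2).1) x1 s1 (shift h J H (sm 1) (hu.sm 1).2 s1 hd x1)
  have p2 := half h J hV g E subset_union_right
    (EA_of hV g (subset_union_right.trans (ul_sub g)) fun x _ hx _ => by
      have := mem_sq.1 hx
      simp only [Prod.snd_add] at this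
      omega)
    (fun e he k1 k2 => (cross g he k1 k2).2) x2 s2 (shift h J H (sm 2) (hu.sm 2).2 s2 hd x2)
  have up : ∀ c : Fin 3 → ℝ, (∀ i, |c i| ≤ 1) → ∀ v, v = c 0 • u 0 + c 1 • Pot.on V.up (u 1) +
      c 2 • Pot.on V.lo (u 2) →
      Vr ((V.m0 Λ).W 0) (V.X v) (V.X v) ≤ Λ.gN l * Pot.edF V.EA v v + 2 * (ε / 15) := fun c hc v hv => by
    have a := (T Λ hΛ l L (hW.mono_d e1) V hV hj hA _ (pc_smul hu R0 c hc)).2
    rw [Gv.glue, Pot.on_smul, Pot.on_smul, ← hv] at a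
    linarith [cen.vr_le_M (V.X v), E.loc.M_le (V.X v)]
  have q1 := up ![1, -1, 0] (fun i => by fin_cases i <;> simp) (u 0 - Pot.on V.up (u 1))
    (by simp [sub_eq_add_neg])
  have q2 := up ![1, 0, -1] (fun i => by fin_cases i <;> simp) (u 0 - Pot.on V.lo (u 2))
    (by simp [sub_eq_add_neg])
  have q3 := up ![0, 1, -1] (fun i => by fin_cases i <;> simp)
    (Pot.on V.up (u 1) - Pot.on V.lo (u 2)) (by simp [sub_eq_add_neg])
  have t := three (fun v w => Λ.gN l * Pot.edF V.EA v w - Vr ((V.m0 Λ).W 0) (V.X v) (V.X w))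
    (fun a b c => by rw [map_add, LinearMap.add_apply, X_add, cen.se.Vr_add_left]; ring)
    (fun a b => by rw [(Pot.sy_edF _).symm a b, Vr_comm]) (u 0) (Pot.on V.up (u 1)) (Pot.on V.lo (u 2))
  rw [Gv.glue]
  change _ - _ ≤ Vr _ (V.X (Pot.on V.up (u 1))) (V.X (Pot.on V.up (u 1))) at p1
  change _ - _ ≤ Vr _ (V.X (Pot.on V.lo (u 2))) (V.X (Pot.on V.lo (u 2))) at p2
  change Λ.gN l * Pot.edF V.EA (Pot.on V.up (u 1)) (Pot.on V.up (u 1)) - _ ≤ _ at p1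
  change Λ.gN l * Pot.edF V.EA (Pot.on V.lo (u 2)) (Pot.on V.lo (u 2)) - _ ≤ _ at p2
  linarith

end Crest.Agent.T145.Kv
end

-- ▼ part T145/KvDual_19
section

/-!
# Row 145, module Kv: DUAL (helper19)

`Kv.dualStmt : DualStmt`: twisted flows by duality (Riesz), lifting of plain flows, flow calculus.
-/

set_option autoImplicit false

namespace Crest.Agent.T145.Kv

open Finset
open Kr (cu)

namespace Du19

/-- Riesz: a functional dominated by a sum of squares is a combination of the squared functionals -/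
theorem riesz {E ι : Type*} [AddCommGroup E] [Module ℝ E] (T : Finset ι) (G : ι → E →ₗ[ℝ] ℝ)
    (l : E →ₗ[ℝ] ℝ) {n : ℝ} (hn : 0 ≤ n) (h : ∀ u, l u ^ 2 ≤ n * ∑ j ∈ T, G j u ^ 2) :
    ∃ φ : ι → ℝ, (∀ u, l u = ∑ j ∈ T, φ j * G j u) ∧ ∑ j ∈ T, φ j ^ 2 ≤ n := by
  classical
  let S : E →ₗ[ℝ] EuclideanSpace ℝ T :=
    (WithLp.linearEquiv 2 ℝ (T → ℝ)).symm.toLinearMap ∘ₗ LinearMap.pi fun j : T => G j.1
  have hS : ∀ u (j : T), S u j = G j.1 u := fun u e => rfl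
  have hN : ∀ u, ‖S u‖ ^ 2 = ∑ j ∈ T, G j u ^ 2 := fun u => by
    rw [EuclideanSpace.real_norm_sq_eq, ← sum_coe_sort T]; rfl
  have hk : LinearMap.ker S ≤ LinearMap.ker l := fun u hu => by
    have h1 := h u
    rw [← hN, LinearMap.mem_ker.1 hu] at h1
    exact (pow_eq_zero_iff two_ne_zero).1 (le_antisymm (a := l u ^ 2) (by simpa using h1) (sq_nonneg _))
  let L' : LinearMap.range S →ₗ[ℝ] ℝ :=
    (LinearMap.ker S).liftQ l hk ∘ₗ S.quotKerEquivRange.symm.toLinearMap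
  have hL' : ∀ u, L' ⟨S u, LinearMap.mem_range_self S u⟩ = l u := fun u => by
    simp only [L', LinearMap.comp_apply, LinearEquiv.coe_coe,
      LinearMap.quotKerEquivRange_symm_apply_image]
    rfl
  obtain ⟨⟨_, u₀, rfl⟩, hw⟩ := (InnerProductSpace.toDual ℝ (LinearMap.range S)).surjective
    (LinearMap.toContinuousLinearMap L')
  have h1 : ∀ u, l u = inner ℝ (S u₀) (S u) := fun u => by
    have := congrArg (fun f => f ⟨S u, LinearMap.mem_range_self S u⟩) hw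
    simp only [InnerProductSpace.toDual_apply_apply, LinearMap.coe_toContinuousLinearMap', hL'] at this
    exact this.symm
  refine ⟨fun j => G j u₀, fun u => ?_, ?_⟩
  · rw [h1, PiLp.inner_apply, ← sum_coe_sort T]
    exact sum_congr rfl fun e _ => by simp [hS, mul_comm]
  · have h2 := h u₀
    rw [h1, real_inner_self_eq_norm_sq, hN] at h2
    have h3 : 0 ≤ ∑ j ∈ T, G j u₀ ^ 2 := sum_nonneg fun _ _ => sq_nonneg _
    by_contra h4
    nlinarith [not_le.1 h4]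

theorem pr_lin (l : (Pt → ℝ) →ₗ[ℝ] ℝ) (s : Cfg Pt) : pr (fun x => l (Pot.dl x)) s = l (cu s) := by
  have e : cu s = ∑ x ∈ s.support, (s x : ℝ) • Pot.dl x := by
    funext y
    simp only [cu, Finset.sum_apply, Pi.smul_apply, Pi.single_apply, smul_eq_mul, mul_ite, mul_one,
      mul_zero, sum_ite_eq, Finsupp.mem_support_iff]
    split_ifs with h
    · rfl
    · rw [not_not.1 h, Int.cast_zero]
  rw [e, map_sum, pr_eq_sum]
  exact sum_congr rfl fun x _ => by rw [map_smul, smul_eq_mul, mul_comm]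

theorem gfl_apply {G : Type} [AddCommGroup G] (ed : Finset (Pt × Pt)) (φ : Pt × Pt → ℝ)
    (g : Pt × Pt → G →+ ℤ) (s : G) : gfl ed φ g s = ∑ e ∈ ed, φ e * (g e s : ℝ) := by
  simp [gfl, AddMonoidHom.finsetSum_apply]

variable (V : Gv)

theorem gk_apply (e : Pt × Pt) (s : Cfg Pt) :
    V.gk e s = dE e s + V.s1 e * s V.k1 + V.s2 e * s V.k2 := by
  simp [Gv.gk, dE]

theorem Gk_cu (e : Pt × Pt) (s : Cfg Pt) : V.Gk e (cu s) = V.gk e s := by
  simp [Gv.Gk, gk_apply, dE, cu]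

theorem eT_self (ed : Finset (Pt × Pt)) (u : Pt → ℝ) : V.eT ed u u = ∑ e ∈ ed, V.Gk e u ^ 2 := by
  simp only [Gv.eT, Pot.sqF_apply, one_mul, pow_two]

variable {V} {ed ed' : Finset (Pt × Pt)} {f f' : Pt → ℝ} {n n' : ℝ}

theorem fx_dual (l : (Pt → ℝ) →ₗ[ℝ] ℝ) (hn : 0 ≤ n) (h : ∀ u, l u ^ 2 ≤ n * V.eT ed u u) :
    V.Fx ed (fun x => l (Pot.dl x)) n := by
  simp only [eT_self] at h
  obtain ⟨φ, h1, h2⟩ := riesz ed V.Gk l hn h
  exact ⟨φ, fun s => by rw [pr_lin, h1]; simp only [gfl_apply, Gk_cu], h2⟩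

theorem fx_lift (φ : Pt × Pt → ℝ) (h : ∑ e ∈ ed, φ e ^ 2 ≤ n) :
    V.Fx ed (dv ed φ + (∑ e ∈ ed, φ e * V.s1 e) • Pot.dl V.k1 +
      (∑ e ∈ ed, φ e * V.s2 e) • Pot.dl V.k2) n := by
  refine ⟨φ, fun s => ?_, h⟩
  simp only [pr_add, pr_smul, AddMonoidHom.add_apply, AddMonoidHom.smul_apply, smul_eq_mul, pr_dv,
    pr_pi_single, one_mul, gfl_apply, gk_apply, sum_mul, ← sum_add_distrib]
  exact sum_congr rfl fun e _ => by push_cast; ring

theorem fx_subset (h : V.Fx ed f n) (hE : ed ⊆ ed') : V.Fx ed' f n := by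
  obtain ⟨φ, h1, h2⟩ := h
  refine ⟨fun e => if e ∈ ed then φ e else 0, fun s => ?_, ?_⟩
  · simp only [h1 s, gfl_apply, ite_mul, zero_mul, sum_ite_mem, inter_eq_right.2 hE]
  · simpa only [ite_pow, ne_eq, OfNat.ofNat_ne_zero, not_false_eq_true, zero_pow, sum_ite_mem,
      inter_eq_right.2 hE] using h2


theorem fx_smul (h : V.Fx ed f n) (c : ℝ) : V.Fx ed (c • f) (c ^ 2 * n) := by
  obtain ⟨φ, h1, h2⟩ := h
  refine ⟨fun e => c * φ e, fun s => ?_, ?_⟩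
  · simp only [pr_smul, AddMonoidHom.smul_apply, smul_eq_mul, h1 s, gfl_apply, mul_sum, mul_assoc]
  · simp only [mul_pow, ← mul_sum]
    exact mul_le_mul_of_nonneg_left h2 (sq_nonneg c)

theorem fx_add (h : V.Fx ed f n) (h' : V.Fx ed f' n') : V.Fx ed (f + f') (2 * n + 2 * n') := by
  obtain ⟨φ, h1, h2⟩ := h
  obtain ⟨ψ, h3, h4⟩ := h'
  refine ⟨fun e => φ e + ψ e, fun s => ?_, ?_⟩
  · simp only [pr_add, AddMonoidHom.add_apply, h1 s, h3 s, gfl_apply, add_mul, sum_add_distrib]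
  · calc _ ≤ ∑ e ∈ ed, 2 * (φ e ^ 2 + ψ e ^ 2) :=
          sum_le_sum fun e _ => by nlinarith [sq_nonneg (φ e - ψ e)]
      _ ≤ _ := by rw [← mul_sum, sum_add_distrib]; linarith

theorem fx_shift (h : V.Fx ed f n) {U : Finset Pt} (h1 : V.k1 ∉ U) (h2 : V.k2 ∉ U)
    (hE : ∀ e ∈ ed, e.1 ∈ U ∧ e.2 ∈ U) (s : Cfg Pt) (i : ℤ) : pr f (s + cst U i) = pr f s := by
  obtain ⟨φ, h3, -⟩ := h
  simp only [h3, gfl_apply]
  refine sum_congr rfl fun e he => ?_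
  simp [gk_apply, dE, cst_apply, h1, h2, (hE e he).1, (hE e he).2]

end Du19

open Du19

/-- DUAL -/
theorem dualStmt : DualStmt := fun V ed n =>
  ⟨fun l => ⟨pr_lin l, fx_dual l⟩, fun _ ⟨φ, h1, h2⟩ => ⟨_, _, h1 ▸ fx_lift φ h2,
    fun h => sum_eq_zero fun e he => by rw [h e he, Int.cast_zero, mul_zero],
    fun h => sum_eq_zero fun e he => by rw [h e he, Int.cast_zero, mul_zero]⟩,
  fun _ h => ⟨fun _ => fx_subset h, fx_smul h, fun _ _ => fx_add h, fx_shift h⟩⟩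

end Crest.Agent.T145.Kv
end

-- ▼ part T145/KvExt_46
section

/-!
# Row 145, module Kv: the extended model, `ExtStmt` (helper46)
-/

set_option autoImplicit false

namespace Crest.Agent.T145.Kv

open Finset
open Vd (ray)
open Kr.Geo87 (mem_an0 nJp_iff scales)

namespace E46

section grp
variable {L : Type} [AddCommGroup L]

theorem rsd_sub (S : AddSubgroup L) : RSD fun s => ind (s ∈ S) := by
  simpa only [QuotientAddGroup.mk'_apply, QuotientAddGroup.eq_zero_iff] using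
    Md.rsd_ind (QuotientAddGroup.mk' S)

theorem pd_sub (S : AddSubgroup L) : PD fun s => ind (s ∈ S) := by
  simpa only [QuotientAddGroup.mk'_apply, QuotientAddGroup.eq_zero_iff] using
    pd_ind (QuotientAddGroup.mk' S)

/-- exponential moments from injectivity of the gradients -/
theorem se_inj {ι : Type} (S : AddSubgroup L) (E : Finset ι) (g : ι → L →+ ℤ) {w : ι → ℤ → ℝ}
    (hw : ∀ i, Cen (w i)) (hi : ∀ s ∈ S, (∀ i ∈ E, g i s = 0) → s = 0) :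
    SE fun s => ind (s ∈ S) * ∏ i ∈ E, w i (g i s) := fun f => by
  let G : S →+ (E → ℤ) := AddMonoidHom.pi fun i : E => (g i).comp S.subtype
  have hG : Function.Injective G := (injective_iff_map_eq_zero G).2 fun s h =>
    Subtype.ext (hi s s.2 fun i hi => congrFun h ⟨i, hi⟩)
  obtain ⟨F, hF⟩ := (Module.Baer.of_divisible ℝ).extension_property_addMonoidHom G hG
    (f.comp S.subtype)
  have h1 := ((T140.cen_pi (ι := E) fun i => hw i).se F).comp_injective hG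
  refine ((Subtype.val_injective (p := (· ∈ S))).summable_iff fun s hs => ?_).1 (h1.congr fun s => ?_)
  · simp only [ind_neg fun h : s ∈ S => hs ⟨⟨s, h⟩, rfl⟩, zero_mul]
  · have : F (G s) = f s := DFunLike.congr_fun hF s
    simp only [Function.comp, this, ind_pos s.2, one_mul, ← prod_coe_sort E]
    rfl

end grp

variable {Λ : Lat} {V : Gv} {W : ℝ}

theorem edI_eq (hJ : Λ.J = nn) (B : Finset Pt) : Λ.edI B = Pot.nL.edI B := by
  ext e; simp only [Lat.mem_edI, Lat.Jp, hJ]; rfl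

theorem edT_eq (hJ : Λ.J = nn) (B : Finset Pt) : Λ.edT B = Pot.nL.edT B := by
  ext e; simp only [Lat.mem_edT, Lat.Jp, hJ]; rfl

theorem gk_apply (V : Gv) (e : Pt × Pt) (s : Cfg Pt) :
    V.gk e s = dE e s + V.s1 e * s V.k1 + V.s2 e * s V.k2 := rfl

theorem gk_zero {s : Cfg Pt} (h1 : s V.k1 = 0) (h2 : s V.k2 = 0) (e : Pt × Pt) : V.gk e s = dE e s := by
  rw [gk_apply, h1, h2, mul_zero, mul_zero, add_zero, add_zero]

theorem ray_eq (e : Pt × Pt) :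
    ray 0 e = if e.1.2 = -1 ∧ e.2.2 = 0 ∧ e.1.1 = e.2.1 ∧ 0 ≤ e.1.1 then 1 else 0 := by simp [ray]

theorem s_zero {e : Pt × Pt} (h : ray 0 e = 0) : V.s1 e = 0 ∧ V.s2 e = 0 := by
  simp [Gv.s1, Gv.s2, h]

theorem gk_ray {e : Pt × Pt} (h : ray 0 e = 0) (s : Cfg Pt) : V.gk e s = dE e s := by
  rw [gk_apply, (s_zero h).1, (s_zero h).2, zero_mul, zero_mul, add_zero, add_zero]

theorem mem_kp {ed : Finset (Pt × Pt)} {e : Pt × Pt} :
    e ∈ V.kp ed ↔ e ∈ ed ∧ ray 0 e = V.s1 e + V.s2 e := mem_filter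

theorem kp_ray {ed : Finset (Pt × Pt)} {e : Pt × Pt} (he : e ∈ ed) (h : ray 0 e = 0) : e ∈ V.kp ed :=
  mem_kp.2 ⟨he, by rw [h, (s_zero h).1, (s_zero h).2, add_zero]⟩

theorem EO_ends {e : Pt × Pt} (he : e ∈ V.EO) : e.2 - e.1 ∈ Pot.nL.Jp ∧ e.1 ∈ V.G.Om ∧ e.2 ∈ V.G.Om :=
  Lat.mem_edI.1 (mem_kp.1 he).1

theorem s1_v (V : Gv) (i : ℤ) :
    V.s1 ((i, -1), (i, 0)) = if 0 ≤ i ∧ i < (V.G.rho : ℤ) - 4 * V.ω then 1 else 0 := by
  simp only [Gv.s1, ray_eq, true_and]; split_ifs <;> omega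

theorem s2_v (V : Gv) (i : ℤ) :
    V.s2 ((i, -1), (i, 0)) = if (V.G.rho : ℤ) + 4 * V.ω ≤ i then 1 else 0 := by
  simp only [Gv.s2, ray_eq, true_and]; split_ifs <;> omega

theorem ray_v (i : ℤ) : ray 0 ((i, -1), (i, 0)) = if 0 ≤ i then 1 else 0 := by
  simp only [ray_eq, true_and]

/-- no holonomy -/
theorem hol (hV : V.G.Ok W) (hG : V.Geo) {s : Cfg Pt} (h : ∀ e ∈ V.EO, V.gk e s = 0) :
    s V.k1 = 0 ∧ s V.k2 = 0 := by
  have st : ∀ x y : Pt, (y.1 = x.1 + 1 ∧ y.2 = x.2) ∨ (y.1 = x.1 ∧ y.2 = x.2 + 1) → x ∈ V.G.Om →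
      y ∈ V.G.Om → ray 0 (x, y) = 0 → s y = s x := fun x y h1 h2 h3 h4 => by
    have := h (x, y) (kp_ray (Lat.mem_edI.2 ⟨nJp_iff.2 h1, h2, h3⟩) h4)
    rw [gk_ray h4, dE] at this
    exact sub_eq_zero.1 this
  have lp : ∀ n : ℤ, V.G.c < n → n ≤ V.G.R₂ → dE ((n, -1), (n, 0)) s = 0 := fun n h1 h2 => by
    have hv : ∀ x a : ℤ, x = n ∨ x = -n → -n ≤ a → ∀ b, a ≤ b → b ≤ n → x < 0 ∨ 0 ≤ a ∨ b ≤ -1 →
        s (x, b) = s (x, a) := fun x a hx ha b hb => by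
      induction b, hb using Int.leInduction with
      | base => exact fun _ _ => rfl
      | succ b hb ih =>
        refine fun h3 h4 => (st (x, b) (x, b + 1) (Or.inr ⟨rfl, rfl⟩) ?_ ?_ ?_).trans
          (ih (by omega) (by omega))
        · rw [Kr.Gm.Om, mem_an0]; dsimp only; omega
        · rw [Kr.Gm.Om, mem_an0]; dsimp only; omega
        · rw [ray_eq, if_neg]; dsimp only; omega
    have hh : ∀ y : ℤ, y = n ∨ y = -n → ∀ b, -n ≤ b → b ≤ n → s (b, y) = s (-n, y) := fun y hy b hb => by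
      induction b, hb using Int.leInduction with
      | base => exact fun _ => rfl
      | succ b hb ih =>
        refine fun h3 => (st (b, y) (b + 1, y) (Or.inl ⟨rfl, rfl⟩) ?_ ?_ ?_).trans (ih (by omega))
        · rw [Kr.Gm.Om, mem_an0]; dsimp only; omega
        · rw [Kr.Gm.Om, mem_an0]; dsimp only; omega
        · rw [ray_eq, if_neg]; dsimp only; omega
    have a1 := hv n 0 (Or.inl rfl) (by omega) n (by omega) le_rfl (by omega)
    have a2 := hh n (Or.inl rfl) n (by omega) le_rfl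
    have a3 := hv (-n) (-n) (Or.inr rfl) le_rfl n (by omega) le_rfl (by omega)
    have a4 := hh (-n) (Or.inr rfl) n (by omega) le_rfl
    have a5 := hv n (-n) (Or.inl rfl) le_rfl (-1) (by omega) (by omega) (by omega)
    simp only [dE]; omega
  have sc := scales hV
  have := hG.ω16
  have := hG.ω_le
  have em : ∀ n : ℤ, V.G.c < n → n ≤ V.G.R₂ → n < (V.G.rho : ℤ) - 4 * V.ω ∨ (V.G.rho : ℤ) + 4 * V.ω ≤ n →
      V.s1 ((n, -1), (n, 0)) * s V.k1 + V.s2 ((n, -1), (n, 0)) * s V.k2 = 0 := fun n h1 h2 h3 => by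
    have := h ((n, -1), (n, 0)) (mem_kp.2 ⟨Lat.mem_edI.2 ⟨nJp_iff.2 (Or.inr ⟨rfl, rfl⟩), ?_, ?_⟩, ?_⟩)
    · rwa [gk_apply, lp n h1 h2, zero_add] at this
    · rw [Kr.Gm.Om, mem_an0]; dsimp only; omega
    · rw [Kr.Gm.Om, mem_an0]; dsimp only; omega
    · rw [s1_v, s2_v, ray_v]; split_ifs <;> omega
  have b1 := em V.G.r (by omega) (by omega) (by omega)
  have b2 := em V.G.R₂ (by omega) (by omega) (by omega)
  rw [s1_v, s2_v, if_pos (by omega), if_neg (by omega)] at b1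
  rw [s1_v, s2_v, if_neg (by omega), if_pos (by omega)] at b2
  omega

/-- the configurations that vanish off `Om`, `k1`, `k2` -/
def Sg (V : Gv) : AddSubgroup (Cfg Pt) where
  carrier := {s | ∀ x, x ∉ V.G.Om → x ≠ V.k1 → x ≠ V.k2 → s x = 0}
  add_mem' := fun h h' x a b c => by rw [Finsupp.add_apply, h x a b c, h' x a b c, add_zero]
  zero_mem' := fun _ _ _ _ => rfl
  neg_mem' := fun h x a b c => by rw [Finsupp.neg_apply, h x a b c, neg_zero]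

theorem rho_eq (s : Cfg Pt) : V.rho Λ s = ind (s ∈ Sg V) * ∏ e ∈ V.EO, Λ.w (V.gk e s) := rfl

theorem inj (hV : V.G.Ok W) (hG : V.Geo) {s : Cfg Pt} (hs : s ∈ Sg V) (h : ∀ e ∈ V.EO, V.gk e s = 0)
    {y : Pt} (hy : y ∈ V.G.Om) (h0 : s y = 0) : s = 0 := by
  obtain ⟨h1, h2⟩ := hol hV hG h
  have hc : ∀ x ∈ V.G.Om, s V.rt = s x := fun x hx =>
    Md.conn_ind (P := fun z => s z = s x) (fun e he => by
      have := h e he
      rw [gk_zero h1 h2, dE, sub_eq_zero] at this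
      rw [this]) (hG.conn x hx) rfl
  ext x
  by_cases hx : x ∈ V.G.Om
  · rw [← hc x hx, hc y hy, h0]; rfl
  by_cases a : x = V.k1
  · rw [a, h1]; rfl
  by_cases b : x = V.k2
  · rw [b, h2]; rfl
  exact hs x hx a b

theorem rt_Om (hV : V.G.Ok W) : V.rt ∈ V.G.Om := by
  have := scales hV
  rw [Kr.Gm.Om, mem_an0, Gv.rt]; dsimp only; omega

theorem mid_A (hV : V.G.Ok W) (hG : V.Geo) : V.mid ⊆ V.G.A := fun x hx => by
  have := scales hV
  have h := hG.mid_sub hx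
  rw [mem_an0] at h
  rw [Kr.Gm.A, mem_an0]; omega

theorem A_Om (hV : V.G.Ok W) : V.G.A ⊆ V.G.Om := fun x hx => by
  have := scales hV
  rw [Kr.Gm.A, mem_an0] at hx
  rw [Kr.Gm.Om, mem_an0]; omega

theorem rt_A (hV : V.G.Ok W) : V.rt ∉ V.G.A := by
  have := scales hV
  rw [Kr.Gm.A, mem_an0, Gv.rt]; dsimp only; omega

theorem rsd (hΛ : Λ.Ok) : RSD (V.rho Λ) :=
  Md.rsd_mul (rsd_sub (Sg V)) (Md.rsd_prod fun e _ => Md.rsd_comp hΛ.fam.cen.toRSD (V.gk e))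

theorem pos (hΛ : Λ.Ok) : 0 < V.rho Λ 0 := by
  rw [rho_eq, ind_pos (Sg V).zero_mem, one_mul]
  exact prod_pos fun _ _ => hΛ.fam.pos _

theorem cen (hΛ : Λ.Ok) (hV : V.G.Ok W) (hG : V.Geo) : Cen (V.rw Λ) := by
  refine ⟨Md.rsd_mul (Md.rsd_ind (Finsupp.applyAddHom V.rt : Cfg Pt →+ ℤ)) (rsd hΛ), ?_, ?_⟩
  · rw [Gv.rw, ind_pos (Finsupp.zero_apply (a := V.rt)), one_mul]; exact pos hΛ
  · have := se_inj ((Finsupp.applyAddHom V.rt : Cfg Pt →+ ℤ).ker ⊓ Sg V) V.EO V.gk (fun _ => hΛ.fam.cen)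
      fun s hs h => inj hV hG hs.2 h (rt_Om hV) hs.1
    convert this using 2 with s
    rw [Gv.rw, rho_eq, ← mul_assoc, ← ind_and]; rfl

theorem cenM (hΛ : Λ.Ok) (hV : V.G.Ok W) (hG : V.Geo) (a : ℕ) : Cen (V.rm Λ a) := by
  have hω : 0 < V.ω := lt_of_lt_of_le (by norm_num) hG.ω16
  have hF : Fam (gau (V.ms a)⁻¹) := ⟨false, _, by unfold Gv.ms; positivity, rfl⟩
  refine ⟨Md.rsd_mul (rsd hΛ) (Md.rsd_prod fun x _ => Md.rsd_comp hF.cen.toRSD (Finsupp.applyAddHom x)),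
    mul_pos (pos hΛ) (prod_pos fun _ _ => hF.pos _), ?_⟩
  obtain ⟨y, hy⟩ : V.Ga.Nonempty := card_pos.1 (by rw [hG.card_Ga]; positivity)
  have := se_inj (Sg V) (V.EO.disjSum V.Ga) (Sum.elim V.gk Finsupp.applyAddHom)
    (w := Sum.elim (fun _ => Λ.w) fun _ => gau (V.ms a)⁻¹) (by rintro (e | x); exacts [hΛ.fam.cen, hF.cen])
    fun s hs h => inj hV hG hs (fun e he => h (.inl e) (inl_mem_disjSum.2 he))
      (A_Om hV (mid_A hV hG (hG.Ga_sub hy))) (h (.inr y) (inr_mem_disjSum.2 hy))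
  convert this using 2 with s
  rw [Gv.rm, rho_eq, prod_disjSum, mul_assoc]; rfl

theorem m0 (hΛ : Λ.Ok) : (V.m0 Λ).Ctr ∧ (V.m0 Λ).Anch := by
  refine ⟨ctr_of_site_one (fun _ _ => hΛ.fam) rfl, fun x hx => ?_⟩
  obtain ⟨n, hn⟩ : ∃ n : ℕ, V.G.R - x.1 < n := ⟨(V.G.R - x.1).toNat + 1, by omega⟩
  induction n generalizing x with
  | zero =>
    change x ∈ V.G.A at hx
    rw [Kr.Gm.A, mem_an0] at hx; omega
  | succ n ih =>
    have he : (x, x + (1, 0)) ∈ V.EA := kp_ray (Lat.mem_edT.2 ⟨nJp_iff.2 (by simp), Or.inl hx⟩)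
      (by rw [ray_eq, if_neg]; simp only [Prod.fst_add]; omega)
    by_cases h : x + (1, 0) ∈ V.G.A
    · obtain ⟨y, h1, h2⟩ := ih _ h (by simp only [Prod.fst_add]; omega)
      exact ⟨y, Relation.ReflTransGen.head (Or.inl he) h1, h2⟩
    · exact ⟨_, Relation.ReflTransGen.single (Or.inl he), Or.inl h⟩

theorem sl (hΛ : Λ.Ok) (hG : V.Geo) : (V.sl Λ).Ctr ∧ (V.sl Λ).Anch :=
  ⟨ctr_of_site_one (fun _ _ => hΛ.fam) rfl, fun x hx =>
    ⟨V.rt, hG.conn x (mem_of_mem_erase hx), Or.inl (notMem_erase _ _)⟩⟩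

theorem shift (hG : V.Geo) (s : Cfg Pt) (i : ℤ) : V.rho Λ (s + cst V.G.Om i) = V.rho Λ s := by
  have hc : cst V.G.Om i ∈ Sg V := fun x hx _ _ => Md.cst_not hx i
  rw [rho_eq, rho_eq, ind_congr ((Sg V).add_mem_cancel_right hc)]
  congr 1
  refine prod_congr rfl fun e he => ?_
  rw [gk_apply, gk_apply, Md.dE_cst (EO_ends he).2.1 (EO_ends he).2.2, Finsupp.add_apply,
    Finsupp.add_apply, Md.cst_not hG.k_off.1, Md.cst_not hG.k_off.2.1, add_zero, add_zero]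

theorem rw_root (hV : V.G.Ok W) (hG : V.Geo) (s : Cfg Pt) :
    V.rw Λ (s - cst V.G.Om (s V.rt)) = V.rho Λ s := by
  rw [Gv.rw, ind_pos (by rw [Finsupp.sub_apply, Md.cst_mem (rt_Om hV), sub_self]), one_mul,
    sub_eq_add_neg, ← Md.cst_neg, shift hG]

theorem rho_nn (hΛ : Λ.Ok) (s : Cfg Pt) : 0 ≤ V.rho Λ s := (rsd hΛ).nonneg s

theorem float (hΛ : Λ.Ok) (hV : V.G.Ok W) (hG : V.Geo) (u : Cfg Pt → ℝ) (h0 : ∀ s, 0 ≤ u s)
    (h1 : ∀ s, HasSum (fun i : ℤ => u (s + cst V.G.Om i)) 1) :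
    Wt (fun s => u s * V.rho Λ s) ∧ Zs (fun s => u s * V.rho Λ s) = V.Z Λ ∧
    ∀ (F : Cfg Pt → ℝ) (C : ℝ), (∀ s, |F s| ≤ C) → (∀ s i, F (s + cst V.G.Om i) = F s) →
      Ex (fun s => u s * V.rho Λ s) F = V.EX Λ F := by
  have hw := (cen hΛ hV hG).wt
  have key : ∀ F : Cfg Pt → ℝ, Ig (V.rw Λ) F → (∀ s i, F (s + cst V.G.Om i) = F s) →
      HasSum (fun s => u s * V.rho Λ s * F s) (∑' t, V.rw Λ t * F t) := fun F hF hi => by
    convert X56.hasSum_root (rt_Om hV) h0 h1 hF fun t ht =>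
      ind_ne_zero.1 (left_ne_zero_of_mul (left_ne_zero_of_mul ht)) using 2 with s
    rw [rw_root hV hG, sub_eq_add_neg, ← Md.cst_neg, hi, mul_assoc]
  have k1 := key (fun _ => 1) (hw.ig_const 1) fun _ _ => rfl
  simp only [mul_one] at k1
  have hZ : Zs (fun s => u s * V.rho Λ s) = V.Z Λ := k1.tsum_eq
  refine ⟨⟨fun s => mul_nonneg (h0 s) (rho_nn hΛ s), k1.summable, hZ ▸ hw.pos⟩, hZ, fun F C hC hi => ?_⟩
  rw [Ex_def, hZ, (key F (hw.ig_bdd hC) hi).tsum_eq]; rfl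

/-- pinning everything off `U` -/
theorem pin (hΛ : Λ.Ok) (hG : V.Geo) {U : Finset Pt} (hU : U ⊆ V.G.Om) {E : Finset (Pt × Pt)}
    (hE : E ⊆ V.EO) (h : ∀ e ∈ V.EO, e ∉ E → e.1 ∉ U ∧ e.2 ∉ U) :
    Pp (fun s => ind (∀ x, x ∉ U → s x = 0) * V.rho Λ s)
      ((⟨U, E, fun _ => Λ.w, fun _ _ => 1⟩ : Mdl Pt).W 0) := by
  refine ⟨∏ _e ∈ V.EO \ E, Λ.w 0, prod_pos fun _ _ => hΛ.fam.pos _, fun s => ?_⟩
  by_cases hs : ∀ x, x ∉ U → s x = 0
  · have h1 := hs _ fun h => hG.k_off.1 (hU h)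
    have h2 := hs _ fun h => hG.k_off.2.1 (hU h)
    have h3 : s ∈ Sg V := fun x hx _ _ => hs x fun h => hx (hU h)
    simp only [Mdl.W, rho_eq, gk_zero h1 h2, Finsupp.zero_apply, ind_pos hs, ind_pos h3, one_mul,
      prod_const_one, mul_one]
    rw [← prod_sdiff hE]
    congr 1
    refine prod_congr rfl fun e he => ?_
    obtain ⟨a, b⟩ := h e (mem_sdiff.1 he).1 (mem_sdiff.1 he).2
    rw [dE, hs _ a, hs _ b, sub_self]
  · simp only [Mdl.W, Finsupp.zero_apply, ind_neg hs, zero_mul, mul_zero]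

theorem loc_pin (hΛ : Λ.Ok) (hV : V.G.Ok W) (hG : V.Geo) {U : Finset Pt} (hU : U ⊆ V.G.A)
    {E : Finset (Pt × Pt)} (hE : E ⊆ V.EO) (h : ∀ e ∈ V.EO, e ∉ E → e.1 ∉ U ∧ e.2 ∉ U) :
    Loc ((⟨U, E, fun _ => Λ.w, fun _ _ => 1⟩ : Mdl Pt).W 0) (V.rw Λ) := by
  refine ((cen hΛ hV hG).loc_mul (pd_off U) (fun _ => ind_nonneg _) (by simp)).pp_left
    ((pin hΛ hG (hU.trans (A_Om hV)) hE h).symm.trans (Pp.of_eq fun s => ?_))
  by_cases hs : ∀ x, x ∉ U → s x = 0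
  · rw [Gv.rw, ind_pos hs, ind_pos (hs _ fun h => rt_A hV (hU h)), mul_one]
  · rw [ind_neg hs, zero_mul, mul_zero]

theorem EA_off {e : Pt × Pt} (he : e ∈ V.EO) (h : e ∉ V.EA) : e.1 ∉ V.G.A ∧ e.2 ∉ V.G.A :=
  not_or.1 fun h' => h (mem_kp.2 ⟨Lat.mem_edT.2 ⟨(EO_ends he).1, h'⟩, (mem_kp.1 he).2⟩)

theorem dH_zero (hV : V.G.Ok W) (hG : V.Geo) {s : Cfg Pt} (hs : s ∈ Sg V) :
    V.dH s = 0 ↔ ∀ x, x ∉ V.G.A → s x = 0 := by
  have sc := scales hV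
  have e : V.dH s = 0 ↔ (∀ x ∈ V.In, s x = 0) ∧ ∀ x ∈ V.Ou, s x = 0 := by
    simp only [Gv.dH, AddMonoidHom.prod_apply, Prod.mk_eq_zero, Finsupp.ext_iff, resH_apply,
      Finsupp.zero_apply, ite_eq_right_iff]
  rw [e]
  simp only [Gv.In, Gv.Ou, mem_insert, forall_eq_or_imp]
  refine ⟨fun ⟨⟨a, b⟩, c, d⟩ x hx => ?_, fun h => ⟨⟨h _ fun h => hG.k_off.1 (A_Om hV h), fun x hx => h x ?_⟩,
    h _ fun h => hG.k_off.2.1 (A_Om hV h), fun x hx => h x ?_⟩⟩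
  · by_cases h1 : x ∈ V.G.In
    · exact b x h1
    by_cases h2 : x ∈ V.G.Ou
    · exact d x h2
    by_cases h3 : x = V.k1
    · exact h3 ▸ a
    by_cases h4 : x = V.k2
    · exact h4 ▸ c
    refine hs x ?_ h3 h4
    rw [Kr.Gm.A, mem_an0] at hx; rw [Kr.Gm.In, mem_an0] at h1; rw [Kr.Gm.Ou, mem_an0] at h2
    rw [Kr.Gm.Om, mem_an0]; omega
  · rw [Kr.Gm.In, mem_an0] at hx; rw [Kr.Gm.A, mem_an0]; omega
  · rw [Kr.Gm.Ou, mem_an0] at hx; rw [Kr.Gm.A, mem_an0]; omega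

theorem fib0 (hΛ : Λ.Ok) (hV : V.G.Ok W) (hG : V.Geo) :
    Pp (Kq75.fib (V.rho Λ) V.dH 0) ((V.m0 Λ).W 0) := by
  refine (Pp.of_eq fun s => ?_).trans (pin hΛ hG (A_Om hV) hG.EA_sub fun e => EA_off)
  by_cases hs : s ∈ Sg V
  · rw [Kq75.fib, ind_congr (dH_zero hV hG hs)]
  · rw [Kq75.fib, rho_eq, ind_neg hs, zero_mul, mul_zero, mul_zero]

theorem summ (hΛ : Λ.Ok) (hV : V.G.Ok W) (hG : V.Geo) (q : Cfg Pt × Cfg Pt) :
    Summable (Kq75.fib (V.rho Λ) V.dH q) := by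
  have h := (Equiv.subRight (cst V.G.Om (q.2 V.rt))).summable_iff.2 (cen hΛ hV hG).wt.summ
  refine h.of_nonneg_of_le (Kq75.fib_nonneg (rho_nn hΛ) q) fun s => ?_
  by_cases hs : V.dH s = q
  · have : q.2 V.rt = s V.rt := by
      rw [← hs]
      exact (resH_apply _ _ _).trans (if_pos (mem_insert_of_mem hG.k_off.2.2.2))
    rw [Kq75.fib, ind_pos hs, one_mul, this]
    exact (rw_root hV hG s).ge
  · rw [Kq75.fib, ind_neg hs, zero_mul]
    exact (cen hΛ hV hG).nonneg _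

theorem pd_ed (hΛ : Λ.Ok) (E : Finset (Pt × Pt)) : PD fun s => ∏ e ∈ E, Λ.w (V.gk e s) :=
  PD.prod fun e _ => hΛ.fam.pd.comp (V.gk e)

theorem split (hΛ : Λ.Ok) {E : Finset (Pt × Pt)} (hE : E ⊆ V.EO) : ∃ H : Cfg Pt → ℝ, PD H ∧
    (∀ a, 0 ≤ H a) ∧ ∀ a, V.rw Λ a = H a * ∏ e ∈ E, Λ.w (V.gk e a) :=
  ⟨fun s => ind (s V.rt = 0) * (ind (s ∈ Sg V) * ∏ e ∈ V.EO \ E, Λ.w (V.gk e s)),
    (pd_ind (Finsupp.applyAddHom V.rt : Cfg Pt →+ ℤ)).mul ((pd_sub _).mul (pd_ed hΛ _)),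
    fun _ => mul_nonneg (ind_nonneg _) (mul_nonneg (ind_nonneg _)
      (prod_nonneg fun _ _ => (hΛ.fam.pos _).le)),
    fun a => by rw [Gv.rw, rho_eq, ← prod_sdiff hE]; ring⟩

/-- the twisted gradient is exact on boxes -/
theorem grad (hG : V.Geo) {z : Pt} {l : ℕ} (hA : sq z l ⊆ V.G.A) (hE : Pot.nL.edI (sq z l) ⊆ V.EA)
    (a : Cfg Pt) : ∃ t : Cfg Pt, ∀ e ∈ Pot.nL.edI (sq z l), V.gk e a = dE e t := by
  refine ⟨a + cst ((sq z l).filter fun x => 0 ≤ x.2) (V.s1 ((z.1, -1), (z.1, 0)) * a V.k1 +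
    V.s2 ((z.1, -1), (z.1, 0)) * a V.k2), fun e he => ?_⟩
  obtain ⟨h1, h2, h3⟩ := Lat.mem_edI.1 he
  rw [nJp_iff] at h1
  rw [Md.dE_add, gk_apply, add_assoc, add_right_inj, dE, Md.cst_apply, Md.cst_apply]
  simp only [mem_filter, h2, h3, true_and]
  by_cases hv : e.1.2 = -1 ∧ e.2.2 = 0
  · obtain ⟨⟨i, y⟩, i', y'⟩ := e
    dsimp only at h1 hv ⊢
    obtain ⟨rfl, rfl⟩ := hv
    obtain rfl : i' = i := by omega
    rw [mem_sq] at h2 h3
    dsimp only at h2 h3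
    have hω := hG.ω16
    have ve : ∀ j : ℤ, z.1 ≤ j → j ≤ i' → j ≠ 0 ∧
        (0 ≤ j → j < (V.G.rho : ℤ) - 4 * V.ω ∨ (V.G.rho : ℤ) + 4 * V.ω ≤ j) := fun j a b => by
      have m1 : ((j, -1) : Pt) ∈ sq z l := by rw [mem_sq]; dsimp only; omega
      have m2 : ((j, 0) : Pt) ∈ sq z l := by rw [mem_sq]; dsimp only; omega
      have m3 := hA m2
      rw [Kr.Gm.A, mem_an0] at m3
      have m4 := (mem_kp.1 (hE (Lat.mem_edI.2 ⟨nJp_iff.2 (Or.inr ⟨rfl, rfl⟩), m1, m2⟩ :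
        (((j, -1), (j, 0)) : Pt × Pt) ∈ _))).2
      rw [s1_v, s2_v, ray_v] at m4
      dsimp only at m3
      split_ifs at m4 <;> omega
    have v0 := ve 0
    have v1 := ve z.1
    have v2 := ve ((V.G.rho : ℤ) - 4 * V.ω)
    have := hG.ω_le
    have e1 : V.s1 ((z.1, -1), (z.1, 0)) = V.s1 ((i', -1), (i', 0)) := by
      rw [s1_v, s1_v]; split_ifs <;> omega
    have e2 : V.s2 ((z.1, -1), (z.1, 0)) = V.s2 ((i', -1), (i', 0)) := by
      rw [s2_v, s2_v]; split_ifs <;> omega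
    rw [e1, e2, if_pos le_rfl, if_neg (by omega), sub_zero]
  · have h0 : ray 0 e = 0 := by rw [ray_eq, if_neg]; tauto
    rw [(s_zero h0).1, (s_zero h0).2, zero_mul, zero_mul, add_zero]
    split_ifs <;> omega

theorem gamb (hΛ : Λ.Ok) (hJ : Λ.J = nn) (hV : V.G.Ok W) (hG : V.Geo) (D : Finset Pt) (l : ℕ)
    (hD : D ⊆ V.G.A) (hE : Pot.nL.edI D ⊆ V.EA) :
    Λ.GAmb (V.rw Λ) V.gk D l ∧ Λ.GAmb ((V.m0 Λ).W 0) V.gk D l := by
  have hg : ∀ z, sq z l ⊆ D → ∀ a, ∃ t : Cfg Pt, ∀ e ∈ Λ.edI (sq z l), V.gk e a = dE e t :=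
    fun z hz a => by rw [edI_eq hJ]; exact grad hG (hz.trans hD) ((Lat.edI_mono hz).trans hE) a
  have hc := cen hΛ hV hG
  have hm := (m0 (V := V) hΛ).1.cen (m0 hΛ).2
  refine ⟨⟨hc.wt, hc.se, by rw [edI_eq hJ]; exact split hΛ (hE.trans hG.EA_sub), hg⟩, hm.wt, hm.se,
    ⟨fun s => ind (∀ x, x ∉ V.G.A → s x = 0) * ∏ e ∈ V.EA \ Pot.nL.edI D, Λ.w (V.gk e s),
      (pd_off _).mul (pd_ed hΛ _), fun _ => mul_nonneg (ind_nonneg _)
      (prod_nonneg fun _ _ => (hΛ.fam.pos _).le), fun s => ?_⟩, hg⟩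
  by_cases hs : ∀ x, x ∉ V.G.A → s x = 0
  · have h1 := hs _ fun h => hG.k_off.1 (A_Om hV h)
    have h2 := hs _ fun h => hG.k_off.2.1 (A_Om hV h)
    simp only [Mdl.W, Gv.m0, gk_zero h1 h2, Finsupp.zero_apply, prod_const_one, mul_one, edI_eq hJ]
    rw [mul_assoc, prod_sdiff hE]
  · simp only [Mdl.W, Gv.m0, Finsupp.zero_apply, ind_neg hs, zero_mul]

theorem mem_lip {x : Pt} : x ∈ V.lip ↔ (V.G.rho : ℤ) - 4 * V.ω ≤ x.1 ∧ x.1 < (V.G.rho : ℤ) + 4 * V.ω ∧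
    0 < V.ω ∧ (x.2 = 0 ∨ x.2 = -1) := by
  simp only [Gv.lip, Gv.up, Gv.lo, mem_filter, mem_union, mem_sq]; push_cast; omega

theorem ga (hΛ : Λ.Ok) (hJ : Λ.J = nn) (hV : V.G.Ok W) (hG : V.Geo) :
    Uv.GA Λ (V.rw Λ) (AddMonoidHom.id _) (V.mid \ V.lip) (V.mid \ V.lip) := by
  have hc := cen hΛ hV hG
  have hA : V.mid \ V.lip ⊆ V.G.A := sdiff_subset.trans (mid_A hV hG)
  refine ⟨hc, subset_rfl, fun U hU Φ hΦ _ => (loc_pin hΛ hV hG (hU.trans hA) (E := Λ.edT U)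
    (fun e he => ?_) fun e he h => ?_).2 Φ hΦ, fun a n hn hB f h0 h1 => ?_⟩
  · rw [edT_eq hJ] at he
    by_contra h
    obtain ⟨h1, h2, h3⟩ := (hG.slit e (Kr.Geo87.nL_edT_A hV (Lat.edT_mono (hU.trans hA) he))).1 h
    rcases (Lat.mem_edT.1 he).2 with h4 | h4
    · exact (mem_sdiff.1 (hU h4)).2 h1
    · refine (mem_sdiff.1 (hU h4)).2 ?_
      rw [mem_lip] at h1 ⊢
      rw [h3]; simp only [Prod.fst_add, Prod.snd_add]; omega
  · rw [edT_eq hJ] at h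
    exact not_or.1 fun h' => h (Lat.mem_edT.2 ⟨(EO_ends he).1, h'⟩)
  have hr := self_mem_sq a hn
  have hn := hΛ.cen_Nr hr
  have hry : ∀ e ∈ Pot.nL.edI (sq a n), ray 0 e = 0 := fun e he => by
    obtain ⟨h2, h3⟩ := mem_sdiff.1 (hB (Lat.mem_edI.1 he).2.1)
    have := hG.ω16
    have := hG.ω_le
    rw [mem_lip] at h3
    simp only [Gv.mid, Gv.rng, mem_sdiff, mem_sq] at h2
    rw [ray_eq, if_neg]; omega
  obtain ⟨H, hH, hH0, hW⟩ := split (V := V) hΛ (E := Pot.nL.edI (sq a n)) fun e he =>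
    kp_ray (Lat.edI_mono ((hB.trans hA).trans (A_Om hV)) he) (hry e he)
  let π : Cfg Pt →+ Cfg Pt := resH (sq a n) - (cstH (sq a n)).comp (Finsupp.applyAddHom a)
  have hπ : ∀ s x, π s x = if x ∈ sq a n then s x - s a else 0 := fun s x => by
    change resH (sq a n) s x - cst (sq a n) (s a) x = _
    rw [resH_apply, Md.cst_apply]; split_ifs <;> simp
  have hρ : ∀ s, (Λ.Nr (sq a n) a).W 0 (π s) = ∏ e ∈ Pot.nL.edI (sq a n), Λ.w (V.gk e s) := fun s => by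
    simp only [Mdl.W, Lat.Nr, Lat.N, Mdl.free, prod_const_one, mul_one, edI_eq hJ]
    rw [ind_pos fun x hx => ?_, one_mul]
    · refine prod_congr rfl fun e he => ?_
      rw [gk_ray (hry e he), dE, dE, hπ, hπ, if_pos (Lat.mem_edI.1 he).2.1, if_pos (Lat.mem_edI.1 he).2.2,
        sub_sub_sub_cancel_right]
    · rw [hπ]; split_ifs with h
      · rw [mem_erase, not_and_or, not_not] at hx
        rw [hx.resolve_right fun h' => h' h, sub_self]; rfl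
      · rfl
  refine Vr_le_of_M_le hn.wt hn.se hn.even hc.wt hc.se hc.even fun t => ?_
  have := T140.M_ref π hc.wt hc.se hH hH0 hn
    (fun s => by rw [hρ]; exact (prod_pos fun _ _ => hΛ.fam.pos _).ne') (fun s => by rw [hρ, hW]) (t • pr f)
  convert this using 2
  refine AddMonoidHom.ext fun s => congrArg (t * ·) (Uv.depG_pr h0 h1 _ _ (-s a) fun x hx => ?_)
  rw [hπ, if_pos hx]; rfl

/-- the sectors -/
theorem ex_sec (hV : V.G.Ok W) (hG : V.Geo) (k : ℤ) (F : Cfg Pt → ℝ) :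
    V.EX Λ (fun s => ind (s V.k1 = k ∧ s V.k2 = k) * F (resH V.G.Om s)) =
      (∑' t, (V.sl Λ).Ws 0 (k • ray 0) t * F t) / V.Z Λ := by
  obtain ⟨o1, o2, o3, -⟩ := hG.k_off
  let η : Cfg Pt := cst {V.k1, V.k2} k
  have η1 : η V.k1 = k := Md.cst_mem (by simp) k
  have η2 : η V.k2 = k := Md.cst_mem (by simp) k
  have η0 : ∀ x, x ≠ V.k1 → x ≠ V.k2 → η x = 0 := fun x a b => Md.cst_not (by simp [a, b]) k
  have ηO : ∀ x ∈ V.G.Om, η x = 0 := fun x hx => η0 x (fun h => o1 (h ▸ hx)) fun h => o2 (h ▸ hx)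
  rw [Gv.EX, Ex_def, ← (Equiv.addRight η).tsum_eq]
  congr 1
  refine tsum_congr fun t => ?_
  simp only [Equiv.coe_addRight, Gv.rw, rho_eq, Mdl.Ws, Gv.sl, Finsupp.add_apply, η1, η2,
    ηO _ (rt_Om hV), add_zero, add_eq_right, prod_const_one, mul_one, Finsupp.zero_apply]
  by_cases ht : ∀ x, x ∉ V.G.Om.erase V.rt → t x = 0
  · have t0 : ∀ x, x ∉ V.G.Om → t x = 0 := fun x hx => ht x fun h => hx (mem_of_mem_erase h)
    have h3 : t + η ∈ Sg V := fun x a b c => by rw [Finsupp.add_apply, t0 x a, η0 x b c, add_zero]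
    have h4 : resH V.G.Om (t + η) = t := by
      ext x
      rw [resH_apply]; split_ifs with h
      · rw [Finsupp.add_apply, ηO x h, add_zero]
      · exact (t0 x h).symm
    rw [ind_pos ht, ind_pos (ht _ (notMem_erase _ _)), ind_pos h3, ind_pos ⟨t0 _ o1, t0 _ o2⟩, h4]
    simp only [one_mul]
    congr 1
    refine prod_congr rfl fun e he => ?_
    rw [gk_apply, Md.dE_add, Finsupp.add_apply, Finsupp.add_apply, t0 _ o1, t0 _ o2, η1, η2, dE, dE,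
      ηO _ (EO_ends he).2.1, ηO _ (EO_ends he).2.2, Pi.smul_apply, (mem_kp.1 he).2, smul_eq_mul]
    congr 1; ring
  · rw [ind_neg ht, zero_mul, zero_mul]
    by_contra h
    have a1 := ind_ne_zero.1 (left_ne_zero_of_mul (left_ne_zero_of_mul h))
    have a2 := ind_ne_zero.1 (left_ne_zero_of_mul (right_ne_zero_of_mul (left_ne_zero_of_mul h)))
    have a3 := ind_ne_zero.1 (left_ne_zero_of_mul (right_ne_zero_of_mul h))
    refine ht fun x hx => ?_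
    by_cases b0 : x = V.rt
    · exact b0 ▸ a1
    by_cases b1 : x = V.k1
    · exact b1 ▸ a3.1
    by_cases b2 : x = V.k2
    · exact b2 ▸ a3.2
    have := a2 x (fun h => hx (mem_erase.2 ⟨b0, h⟩)) b1 b2
    rwa [Finsupp.add_apply, η0 x b1 b2, add_zero] at this

theorem Pk_eq (hV : V.G.Ok W) (hG : V.Geo) (k : ℤ) :
    V.Pk Λ k = Zs ((V.sl Λ).Ws 0 (k • ray 0)) / V.Z Λ := by
  simpa only [mul_one, Gv.Pk, Zs] using ex_sec (Λ := Λ) hV hG k fun _ => 1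

end E46

open E46 in
/-- the extended model -/
theorem extStmt (hGeo : GeoStmt) : ExtStmt := fun Λ V W hΛ hJ h =>
  have hG := hGeo V W h
  have hV := h.g
  have hs := E46.sl (V := V) hΛ hG
  { rsd := rsd hΛ
    pos := pos hΛ
    cen := cen hΛ hV hG
    cenM := cenM hΛ hV hG
    m0 := m0 hΛ
    sl := hs
    shift := shift hG
    float := float hΛ hV hG
    fib0 := fib0 hΛ hV hG
    summ := summ hΛ hV hG
    loc := loc_pin hΛ hV hG subset_rfl hG.EA_sub fun _ => EA_off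
    gamb := gamb hΛ hJ hV hG
    ga := ga hΛ hJ hV hG
    sec := fun F _ _ => by
      have := (Md.ctr_wts hs.1 hs.2 0 (ray 0)).ne
      rw [ex_sec hV hG, Pk_eq hV hG, one_smul, Gv.ES, Ex_def]
      field_simp
    rat := by
      have := (hs.1.wt hs.2 0).ne
      rw [Pk_eq hV hG, Pk_eq hV hG, one_smul, zero_smul, Vd.rat, ← funext (Md.W_eq_Ws _ _)]
      field_simp }

end Crest.Agent.T145.Kv
end

-- ▼ part T145/KvF_9
section

/-!
# Row 145, module Kv: factorisation across a massive ring for weights with seam factors (helper9)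
-/

set_option autoImplicit false

namespace Crest.Agent.T145

open Finset

namespace F9

section abs
variable {V : Type} [DecidableEq V] [Countable V] {m P : Mdl V}

omit [Countable V] in
theorem wtU (hc : m.Ctr) {U : Cfg V → ℝ} (U0 : ∀ s, 0 ≤ U s) (Up : 0 < U 0)
    (hW : Summable fun s => U s * m.W 0 s) : Wt fun s => U s * m.W 0 s :=
  Wt.of_pos (fun s => mul_nonneg (U0 s) (Mdl.W_nonneg (fun e he k => (hc.1 e he).nonneg k) hc.nn 0 s)) hW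
    (a := 0) (mul_pos Up (Md.W_pos hc.1 (fun _ _ => rfl) fun x hx => (hc.2 x hx).2.2))

/-- a PD factor read on `M` changes the law off `R` by at most `1 / P(NC)`; the weight carries a PD factor `U`
blind to `R`, the crossing is measured in a model `P` that agrees with `m` on `R` -/
theorem pd_outX (hc : m.Ctr) (hP : P.Ctr) (hA : P.Anch) {R M : Finset V} (hg : Mx31.Agr m P R)
    {U G F : Cfg V → ℝ} (hU : PD U) (U0 : ∀ s, 0 ≤ U s) (Up : 0 < U 0) (hUR : Out R U)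
    (hW : Summable fun s => U s * m.W 0 s) (hG : PD G) (h0 : ∀ s, 0 ≤ G s) (hM : Dep M G)
    (hMP : M ⊆ P.A) (hF : Out R F) (hF0 : ∀ s, 0 ≤ F s) {C : ℝ} (hC : ∀ s, |F s| ≤ C) :
    Ex (fun s => U s * m.W 0 s) (fun s => G s * F s) *
        (1 - Pr (P.J 0 0) fun p => Cross (P.A \ R) M p.2) ≤
      Ex (fun s => U s * m.W 0 s) G * Ex (fun s => U s * m.W 0 s) F := by
  have w := wtU hc U0 Up hW
  have n := Mx31.nd1 hP hA (P.A \ R) hG h0 hM
  rw [Finset.sdiff_sdiff_eq_self hg.UP] at n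
  obtain ⟨H, g1, g2, g3, g4, g5⟩ := hg.dens hc hP.1
  have e : ∀ s, U s * m.W 0 s = U s * H s * P.W 0 (resH P.A s) := fun s => by rw [g5, mul_assoc]
  obtain ⟨d1, d2, d3⟩ := Cut7.dens pdStmt (resH P.A) (hU.mul g1) (fun s => mul_nonneg (U0 s) (g2 s))
    (mul_pos Up g3) g4 e hW
  have eG : (fun s => G (resH P.A s)) = G := funext fun s => hM _ _ fun x hx => by
    rw [resH_apply, if_pos (hMP hx)]
  have d := (Cut7.dens_ex (resH P.A) e hW (F := G) (w.ig_bdd fun _ => hG.abs_le _)).2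
  rw [eG] at d
  have lo := (((hP.cen hA).loc_mul d1 d2 d3).ex_le hG).trans_eq d.symm
  have hI := w.ig_bdd hC
  obtain ⟨i, e'⟩ := Mdl.towerU_mul hg.Um hUR hF w (hI.mul_bdd w.nonneg hG.abs_le)
  have a : Ex (fun s => U s * m.W 0 s) (fun s => G s * F s) ≤
      Ex (fun s => U s * m.W 0 s) F * Ex ((P.free R).W 0) G := by
    rw [Ex_congr (G := fun s => F s * G s) fun s _ => mul_comm _ _, e', ← Ex_mul_const]
    refine Ex_mono w.nonneg i (hI.mul_const _) fun s => mul_le_mul_of_nonneg_left ?_ (hF0 s)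
    rw [Mdl.cE_def, (hg.pp hc.1 hP.1 s).ex]
    exact (le_abs_self _).trans (Mx31.ex_bc_le (hP.free hg.UP) (hA.free hg.UP) hG s)
  have b := (Mx.wtJ hP hA).pr_le_one fun p : Mx.PP V => Cross (P.A \ R) M p.2
  have c : 0 ≤ Ex (fun s => U s * m.W 0 s) F := Ex_nonneg w.nonneg fun s _ => hF0 s
  calc _ ≤ Ex (fun s => U s * m.W 0 s) F * Ex ((P.free R).W 0) G *
        (1 - Pr (P.J 0 0) fun p => Cross (P.A \ R) M p.2) :=
        mul_le_mul_of_nonneg_right a (sub_nonneg.2 b)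
    _ ≤ _ := by rw [mul_assoc, mul_comm _ (Ex (fun s => U s * m.W 0 s) F)]
                exact mul_le_mul_of_nonneg_left (by rw [mul_comm]; exact n.trans lo) c

omit [DecidableEq V] [Countable V] in
/-- one-sided comparison of two laws gives total variation -/
theorem tv_of_le {α β : Type*} {W W' : α → ℝ} (w : Wt W) (w' : Wt W') (π : α → β) {q : ℝ} (q0 : 0 ≤ q)
    (h : ∀ z, (Pr W fun s => π s = z) * (1 - q) ≤ Pr W' fun s => π s = z) (S : Finset β) :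
    ∑ z ∈ S, |push W π z / Zs W - Pr W' fun s => π s = z| ≤ 2 * q := by
  have e : ∀ {W : α → ℝ}, Wt W → ∀ z, (Pr W fun s => π s = z) = push W π z / Zs W := fun w z => by
    rw [w.push_eq, mul_div_cancel_left₀ _ w.pos.ne']
  simp only [e w, e w'] at h ⊢
  have a1 := (hasSum_push w.summ π).div_const (Zs W)
  have a2 := (hasSum_push w'.summ π).div_const (Zs W')
  have a3 := ((a1.mul_left (2 * q)).add a2).sub a1
  have key : ∀ z, |push W π z / Zs W - push W' π z / Zs W'| ≤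
      2 * q * (push W π z / Zs W) + push W' π z / Zs W' - push W π z / Zs W := fun z => by
    have b1 := h z
    have b2 := mul_nonneg q0 (div_nonneg (push_nonneg w.nonneg π z) w.pos.le)
    rw [abs_le]
    constructor <;> linarith
  refine (sum_le_sum fun z _ => key z).trans ((sum_le_hasSum S
    (fun z _ => (abs_nonneg _).trans (key z)) a3).trans (le_of_eq ?_))
  have c1 : (∑' s, W s) / Zs W = 1 := div_self w.pos.ne'
  have c2 : (∑' s, W' s) / Zs W' = 1 := div_self w'.pos.ne'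
  rw [c1, c2]; ring

/-- **(F) with seam factors**: the weight `U₁ U₂ m.W 0`; the kept edges `E` separate `A₁` from `A₂`, the
dropped edges lie in `M`; the crossing is measured in the model `P` -/
theorem facX (hc : m.Ctr) {E : Finset (V × V)} (hE : E ⊆ m.ed) (hP : P.Ctr) (hA : P.Anch)
    {A₁ A₂ R M I O : Finset V} (hg : Mx31.Agr (m.keep E) P R) (h12 : m.A = A₁ ∪ A₂)
    (hS : Md.Sep (m.keep E) A₁ A₂) (hM : ∀ e ∈ m.ed, e ∉ E → e.1 ∈ M ∧ e.2 ∈ M) (hMP : M ⊆ P.A)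
    {U₁ U₂ : Cfg V → ℝ} (p1 : PD U₁) (n1 : ∀ s, 0 ≤ U₁ s) (z1 : 0 < U₁ 0) (o1 : Out A₂ U₁)
    (r1 : Out R U₁) (p2 : PD U₂) (n2 : ∀ s, 0 ≤ U₂ s) (z2 : 0 < U₂ 0) (o2 : Out A₁ U₂) (r2 : Out R U₂)
    (s1 : Summable fun s => U₁ s * ((m.keep E).free A₁).W 0 s)
    (s2 : Summable fun s => U₂ s * ((m.keep E).free A₂).W 0 s)
    (hI : Disjoint I A₂) (hO : Disjoint O A₁) (hIR : Disjoint I R) (hOR : Disjoint O R)
    {W : Cfg V → ℝ} (hW : ∀ s, W s = U₁ s * U₂ s * m.W 0 s) :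
    ∃ p₁ p₂ : Cfg V → ℝ, (∀ s, 0 ≤ p₁ s) ∧ (∀ s, 0 ≤ p₂ s) ∧ ∀ S : Finset (Cfg V × Cfg V),
      ∑ z ∈ S, |push W (fun s => (resH I s, resH O s)) z / Zs W - p₁ z.1 * p₂ z.2| ≤
        2 * Pr (P.J 0 0) fun p => Cross (P.A \ R) M p.2 := by
  set π : Cfg V → Cfg V × Cfg V := fun s => (resH I s, resH O s) with hπ
  have kc : (m.keep E).Ctr := hc.keep hE
  have w1 := wtU (kc.free (A' := A₁) (h12 ▸ subset_union_left)) n1 z1 s1
  have w2 := wtU (kc.free (A' := A₂) (h12 ▸ subset_union_right)) n2 z2 s2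
  have dep : ∀ {U B : Finset V}, Disjoint U B → Out B (resH U) := fun h s t e => Finsupp.ext fun x => by
    rw [resH_apply, resH_apply]
    split_ifs with hx
    · exact e x (disjoint_left.1 h hx)
    · rfl
  set c := ∏ e ∈ (m.keep E).ed, (m.keep E).w e (dE e 0) with hc'
  have c0 : 0 < c := prod_pos fun e he => (kc.1 e he).pos' _
  have sp : ∀ F₁ F₂ : Cfg V → ℝ, Out A₂ F₁ → Out A₁ F₂ → (∀ s, |F₁ s| ≤ 1) → (∀ s, |F₂ s| ≤ 1) →
      HasSum (fun s => c * (U₁ s * U₂ s * (m.keep E).W 0 s * (F₁ s * F₂ s)))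
        ((∑' s, U₁ s * ((m.keep E).free A₁).W 0 s * F₁ s) *
          ∑' s, U₂ s * ((m.keep E).free A₂).W 0 s * F₂ s) := fun F₁ F₂ a1 a2 b1 b2 => by
    have := Md.hasSum_split (m := m.keep E) h12 hS 0 (o1.mul a1) (o2.mul a2)
      (Bes66.hs_congr (w1.ig_bdd b1).hasSum (fun s => by ring) rfl)
      (Bes66.hs_congr (w2.ig_bdd b2).hasSum (fun s => by ring) rfl)
    exact Bes66.hs_congr this (fun s => by ring) rfl
  have sp1 := sp (fun _ => 1) (fun _ => 1) (Out.const _ _) (Out.const _ _) (by simp) (by simp)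
  simp only [mul_one] at sp1
  have sK := (summable_mul_left_iff c0.ne').1 sp1.summable
  have n12 : ∀ s, 0 ≤ U₁ s * U₂ s := fun s => mul_nonneg (n1 s) (n2 s)
  have w' := wtU kc n12 (mul_pos z1 z2) sK
  have g := Md.pd_edges hc.1 (sdiff_subset (s := m.ed) (t := E))
  have g0 : ∀ s : Cfg V, 0 < ∏ e ∈ m.ed \ E, m.w e (dE e s) := fun s =>
    prod_pos fun e he => (hc.1 e (sdiff_subset he)).pos' _
  have z := w'.ex_pos' (w'.ig_bdd g.abs_le) g0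
  have eW : W = fun s => U₁ s * U₂ s * (m.keep E).W 0 s * ∏ e ∈ m.ed \ E, m.w e (dE e s) :=
    funext fun s => by rw [hW, Md.W_keep hE 0, mul_assoc (U₁ s * U₂ s)]
  have w : Wt W := eW ▸ w'.mul (w'.ig_bdd g.abs_le) (fun s => (g0 s).le) z
  refine ⟨fun a => Pr (fun s => U₁ s * ((m.keep E).free A₁).W 0 s) fun s => resH I s = a,
    fun b => Pr (fun s => U₂ s * ((m.keep E).free A₂).W 0 s) fun s => resH O s = b,
    fun _ => Ex_nonneg w1.nonneg fun _ _ => ind_nonneg _,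
    fun _ => Ex_nonneg w2.nonneg fun _ _ => ind_nonneg _, fun S => ?_⟩
  refine le_of_eq_of_le (sum_congr rfl fun y _ => ?_) (tv_of_le w w' π
    (Ex_nonneg (Mx.J0 hP) fun _ _ => ind_nonneg _) (fun y => ?_) S)
  · have := sp _ _ ((dep hI).comp fun a => ind (a = y.1)) ((dep hO).comp fun a => ind (a = y.2))
      (fun _ => abs_ind_le _) fun _ => abs_ind_le _
    congr 2
    beta_reduce
    rw [Pr, Pr, Pr, Ex, Ex, Ex, div_mul_div_comm, ← this.tsum_eq, ← sp1.tsum_eq, tsum_mul_left,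
      tsum_mul_left, mul_div_mul_left _ _ c0.ne']
    congr 2
    exact funext fun s => by rw [← ind_and]; exact congrArg _ (ind_congr (Prod.ext_iff (x := π s)).symm)
  · have := pd_outX kc hP hA hg (p1.mul p2) n12 (mul_pos z1 z2) (r1.mul r2) sK g (fun s => (g0 s).le)
      (Dep.prod fun e he => (Dep.dE (hM e (mem_sdiff.1 he).1 (mem_sdiff.1 he).2).1
        (hM e (mem_sdiff.1 he).1 (mem_sdiff.1 he).2).2).comp _) hMP (F := fun s => ind (π s = y))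
      (((dep hIR).comp₂ (dep hOR) Prod.mk).comp fun a => ind (a = y)) (fun _ => ind_nonneg _)
      fun _ => abs_ind_le _
    rw [eW, Pr, w'.ex_mul, div_mul_eq_mul_div, div_le_iff₀' z]
    exact this

omit [Countable V] in
/-- **extra variables**: the sites of `K` carry no edge and no weight; each of them enters through one kernel
`w κ (φ κ s + s κ)`; then all exponential moments exist -/
theorem se_shear (hc : m.Ctr) {K : Finset V} (hK : K ⊆ m.A) (he : ∀ e ∈ m.ed, e.1 ∉ K ∧ e.2 ∉ K)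
    (hs : ∀ x ∈ K, ∀ k, m.site x k = 1) (hA : (m.free (m.A \ K)).Anch) {w : V → ℤ → ℝ}
    (hw : ∀ κ ∈ K, Fam (w κ)) (φ : V → Cfg V →+ ℤ) (hφ : ∀ κ ∈ K, Out K (φ κ)) {U : Cfg V → ℝ} {C : ℝ}
    (hU : ∀ s, |U s| ≤ C * ∏ κ ∈ K, w κ (φ κ s + s κ)) : SE fun s => U s * m.W 0 s := by
  set n := m.mulSite fun x k => if x ∈ K then w x k else 1 with hn
  have c : n.Ctr := Md.ctr_mulSite hc fun x _ => by
    by_cases hx : x ∈ K
    · have k := kerStmt _ (hw x hx)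
      simp only [if_pos hx]; exact ⟨k.cen.toRSD, k.pd, k.cen.pos0⟩
    · simp only [if_neg hx]; exact ⟨rsd_one51, pd_one, one_pos⟩
  have sK : ∀ x ∈ K, SE (n.site x) := fun x hx => by
    have : n.site x = w x := funext fun k => by
      show m.site x k * (if x ∈ K then w x k else 1) = _
      rw [hs x hx, if_pos hx, one_mul]
    rw [this]; exact (kerStmt _ (hw x hx)).cen.se
  have a : n.Anch := fun x hx => by
    by_cases h : x ∈ K
    · exact ⟨x, .refl, Or.inr (sK x h)⟩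
    obtain ⟨y, h1, h2⟩ := hA x (mem_sdiff.2 ⟨hx, h⟩)
    refine ⟨y, h1, ?_⟩
    by_cases h' : y ∈ K
    · exact Or.inr (sK y h')
    refine h2.imp (fun k k' => k (mem_sdiff.2 ⟨k', h'⟩)) fun k => ?_
    have : n.site y = m.site y := funext fun k => by
      show m.site y k * (if y ∈ K then w y k else 1) = _
      rw [if_neg h', mul_one]
    rwa [this]
  set u : Cfg V →+ Cfg V := ∑ κ ∈ K, (Finsupp.singleAddHom κ).comp (φ κ) with hu
  have u1 : ∀ s x, u s x = if x ∈ K then φ x s else 0 := fun s x => by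
    simp only [hu, AddMonoidHom.finsetSum_apply, AddMonoidHom.comp_apply, Finsupp.singleAddHom_apply,
      Finsupp.finsetSum_apply, Finsupp.single_apply, sum_ite_eq']
  have u2 : ∀ s, u (u s) = 0 := fun s => Finsupp.ext fun x => by
    rw [u1]
    split_ifs with h
    · rw [hφ x h (u s) 0 fun y hy => by rw [u1, if_neg hy]; rfl, map_zero]; rfl
    · rfl
  let T : Cfg V ≃ Cfg V := ⟨fun s => s + u s, fun s => s - u s,
    fun s => by simp [u2], fun s => by simp [u2]⟩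
  have e : ∀ s, n.W 0 (s + u s) = (∏ κ ∈ K, w κ (φ κ s + s κ)) * m.W 0 s := fun s => by
    have o : ∀ x, x ∉ K → (s + u s) x = s x := fun x hx => by
      rw [Finsupp.add_apply, u1, if_neg hx, add_zero]
    have e1 : ∏ e ∈ m.ed, m.w e (dE e (s + u s)) = ∏ e ∈ m.ed, m.w e (dE e s) :=
      prod_congr rfl fun e h => by rw [dE, dE, o _ (he e h).1, o _ (he e h).2]
    have e2 : ∏ x ∈ m.A, m.site x ((s + u s) x) * (if x ∈ K then w x ((s + u s) x) else 1) =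
        (∏ κ ∈ K, w κ (φ κ s + s κ)) * ∏ x ∈ m.A, m.site x (s x) := by
      rw [prod_mul_distrib, mul_comm, ← prod_filter, filter_mem_eq_inter, inter_eq_right.2 hK]
      congr 1
      · exact prod_congr rfl fun x hx => by rw [Finsupp.add_apply, u1, if_pos hx, add_comm]
      · refine prod_congr rfl fun x _ => ?_
        by_cases h : x ∈ K
        · rw [hs x h, hs x h]
        · rw [o x h]
    show ind (∀ x, x ∉ m.A → (s + u s) x = _) * (∏ e ∈ m.ed, m.w e (dE e (s + u s))) *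
      ∏ x ∈ m.A, m.site x ((s + u s) x) * (if x ∈ K then w x ((s + u s) x) else 1) = _
    rw [e1, e2, Mdl.W, ind_congr (forall₂_congr fun x hx => by rw [o x fun k => hx (hK k)])]
    ring
  have se : SE fun s => n.W 0 (s + u s) := fun f =>
    (T.summable_iff.2 ((c.cen a).se (f - f.comp u))).congr fun s => by
      simp [T, u2]
  have W0 := Mdl.W_nonneg (fun e he k => (hc.1 e he).nonneg k) hc.nn 0
  refine se.of_le (C := C) fun s => ?_
  rw [e, abs_mul, abs_mul, ← mul_assoc, abs_of_nonneg (prod_nonneg fun κ h => (hw κ h).nonneg _)]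
  exact mul_le_mul_of_nonneg_right (hU s) (abs_nonneg _)

/-- the edges of `T` twisted by the extra variable `s κ` -/
noncomputable def sea (w : ℤ → ℝ) (T : Finset (V × V)) (σ : V × V → ℤ) (κ : V) (s : Cfg V) : ℝ :=
  ∏ e ∈ T, w (dE e s + σ e * s κ)

section
omit [Countable V]
variable {w : ℤ → ℝ} {T : Finset (V × V)} {σ : V × V → ℤ} {κ : V}

omit [DecidableEq V] in
theorem sea_pd (hw : Fam w) : PD (sea w T σ κ) :=
  PD.prod fun e _ => hw.pd.comp (dH e + σ e • Finsupp.applyAddHom κ)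

omit [DecidableEq V] in
theorem sea_pos (hw : Fam w) (s : Cfg V) : 0 < sea w T σ κ s := prod_pos fun _ _ => hw.pos _

omit [DecidableEq V] in
theorem sea_out {B : Finset V} (hκ : κ ∉ B) (hT : ∀ e ∈ T, e.1 ∉ B ∧ e.2 ∉ B) : Out B (sea w T σ κ) :=
  fun s t h => prod_congr rfl fun e he => by rw [dE, dE, h _ hκ, h _ (hT e he).1, h _ (hT e he).2]

theorem sea_se (hc : m.Ctr) (hw : Fam w) (hκ : κ ∈ m.A) (he : ∀ e ∈ m.ed, e.1 ≠ κ ∧ e.2 ≠ κ)
    (hs : ∀ k, m.site κ k = 1) (hA : (m.free (m.A \ {κ})).Anch) {e : V × V} (hT : e ∈ T) (h1 : σ e = 1)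
    (h2 : e.1 ≠ κ ∧ e.2 ≠ κ) : SE fun s => sea w T σ κ s * m.W 0 s := by
  refine se_shear hc (K := {κ}) (singleton_subset_iff.2 hκ) (by simpa using he) (by simpa using hs) hA
    (w := fun _ => w) (fun _ _ => hw) (fun _ => dH e) (fun _ _ s t h => ?_)
    (C := ∏ _e ∈ T.erase e, w 0) fun s => ?_
  · rw [dH_apply, dH_apply, dE, dE, h _ (by simpa using h2.2), h _ (by simpa using h2.1)]
  · rw [abs_of_pos (sea_pos hw s), sea, ← prod_erase_mul _ _ hT, prod_singleton, h1, one_mul, dH_apply]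
    exact mul_le_mul_of_nonneg_right (prod_le_prod (fun _ _ => hw.nonneg _) fun _ _ => hw.pd.le _)
      (hw.nonneg _)

end

end abs

/-- the edge crosses the positive horizontal half line between the rows `-1` and `0` -/
def Sl (e : Pt × Pt) : Prop := 0 < e.1.1 ∧ ¬ (e.1.2 < 0 ↔ e.2.2 < 0)

open Nc Nc.Geo Pot.H59 in
/-- the crossing bound in the massive ring of width `64 h`, cut along its middle circle and along the slit -/
theorem ringX {Λ : Lat} (hΛ : Λ.Ok) {P : Mdl Pt} (hc : P.Ctr) (hA : P.Anch) {ρ h n : ℕ} {μ q : ℝ}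
    (hμ : 0 < μ) (hh : Λ.rg ≤ h) (h0 : 0 < h) (hρ : 16 * h ≤ ρ) (hn : ρ + 64 * h ≤ n * h)
    (hq : q ≤ 1 / 2) (hm : Mx31.Mx1 Λ μ (16 * h) h q) (hPA : P.A = an 0 ρ (ρ + 64 * h))
    (hs : ∀ x ∈ P.A, ∀ k, P.site x k = gau μ⁻¹ k) (hw : ∀ e ∈ P.ed, P.w e = Λ.w)
    (hE : ∀ e, e ∈ P.ed ↔ e ∈ Λ.edI (an 0 ρ (ρ + 64 * h)) ∧
      (ds 0 e.1 ≤ ρ + 32 * h ↔ ds 0 e.2 ≤ ρ + 32 * h) ∧ ¬ Sl e) :
    Pr (P.J 0 0) (fun p => Cross (P.A \ an 0 (ρ + h) (ρ + 63 * h))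
      (an 0 (ρ + 31 * h) (ρ + 33 * h)) p.2) ≤ (2 * n + 1) ^ 2 * (2 * q) := by
  have ma : ∀ {x : Pt} {a b : ℕ}, x ∈ an 0 a b ↔ ds 0 x ≤ b ∧ (a : ℤ) < ds 0 x := by
    intro x a b; rw [mem_an, mem_bl_ds, mem_bl_ds, not_le]
  have dd : ∀ x : Pt, ds 0 x = max |x.1| |x.2| := fun x => by simp [ds]
  set z : Pt → Pt := tile (-(n * h), -(n * h)) h with hz
  set a : Pt → Pt := fun i => ((z i).1 - 8 * h, if 0 < (z i).1 then
    (if 0 ≤ (z i).2 then max ((z i).2 - 8 * h) 0 else min ((z i).2 - 8 * h) (-(16 * h))) else (z i).2 - 8 * h)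
    with ha
  set T := (sq 0 (2 * n + 1)).filter fun i => (14 * h : ℤ) ≤ |ds 0 (z i) - (ρ + 32 * h)| ∧
    |ds 0 (z i) - (ρ + 32 * h)| ≤ 17 * h with hT
  have z2 : ∀ i, 0 ≤ (z i).2 ∨ (z i).2 ≤ -h := fun i => by
    have : (z i).2 = h * (i.2 - n) := by simp only [hz, tile]; ring
    rw [this]
    rcases le_or_gt 0 (i.2 - n) with k | k
    · exact Or.inl (by positivity)
    · exact Or.inr (by nlinarith)
  have q0 : 0 ≤ q := le_trans (Ex_nonneg (Mx.J0 (ctr_ms hΛ _ hμ).1) fun _ _ => ind_nonneg _)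
    (hm 0 ∅ ∅ fun _ h => absurd h (notMem_empty _))
  refine (Mx31.ring_le hΛ hμ hc hA hh le_rfl hq hm (D := fun x => ((-|ds 0 x - (ρ + 32 * h)| : ℤ) : ℝ))
    (ρ := Λ.rg) (d₀ := ((-(16 * h) : ℤ) : ℝ)) (fun e he => ?_) (fun x hx => Int.cast_lt.2 ?_)
    (fun x hx => Int.cast_le.2 ?_) T a z (fun i hi => ?_) fun e he x hx h1 h2 => ?_).trans ?_
  · have := ds_lip 0 (Lat.edge_near (Lat.mem_edI.1 ((hE e).1 he).1).1)
    have b : |(-|ds 0 e.1 - (ρ + 32 * h)|) - (-|ds 0 e.2 - (ρ + 32 * h)|)| ≤ (Λ.rg : ℤ) := by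
      simp only [abs_eq_max_neg] at *; omega
    exact_mod_cast b
  · rw [hPA] at hx
    simp only [mem_sdiff, ma, abs_eq_max_neg] at *; omega
  · simp only [ma, abs_eq_max_neg] at *; omega
  · have c0 := (mem_filter.1 hi).2
    have c1 := z2 i
    have c2 : ∀ y ∈ sq (a i) (16 * h), (ds 0 y ≤ ρ + 32 * h ↔ ds 0 (z i) ≤ ρ + 32 * h) ∧
        (ρ + 5 * h : ℤ) ≤ ds 0 y ∧ ds 0 y ≤ ρ + 59 * h ∧ (0 < y.1 → ∀ y' ∈ sq (a i) (16 * h),
          (y.2 < 0 ↔ y'.2 < 0)) := fun y hy => by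
      refine ⟨?_, ?_, ?_, fun k y' hy' => ?_⟩ <;>
      · simp only [ha, dd, mem_sq, abs_eq_max_neg] at *
        split_ifs at * <;> omega
    have c3 : Λ.edI (sq (a i) (16 * h)) ⊆ P.ed := fun e he => by
      obtain ⟨b1, b2, b3⟩ := Lat.mem_edI.1 he
      have d2 := c2 _ b2
      have d3 := c2 _ b3
      exact (hE e).2 ⟨Lat.mem_edI.2 ⟨b1, ma.2 (by omega), ma.2 (by omega)⟩, d2.1.trans d3.1.symm,
        fun k => k.2 (d2.2.2.2 k.1 _ b3)⟩
    refine ⟨Mx31.agr_of' inter_subset_left c3 (fun e he => hw e (c3 he)) (fun e he k => ?_)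
      (fun y hy => ?_) fun y _ hy => hs y hy, Or.inl (disjoint_left.2 fun y hy hy' => ?_)⟩
    · obtain ⟨b1, -, b2⟩ := (hE e).1 he
      have b3 := (Lat.mem_edI.1 b1).1
      have b4 := mem_bl.1 (Lat.edge_near b3)
      rw [Lat.mem_edI, and_iff_right b3]
      simp only [ha, dd, Sl, mem_inter, mem_sq, mem_bl, abs_eq_max_neg] at *
      split_ifs at * <;> omega
    · have := c2 y (mem_inter.1 hy).1
      rw [hPA]; exact ma.2 (by omega)
    · have := c2 y (mem_inter.1 hy').1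
      exact (mem_sdiff.1 hy).2 (ma.2 (by omega))
  · have h1' : -(16 * h : ℤ) ≤ -|ds 0 x - (ρ + 32 * h)| := by exact_mod_cast h1
    have h2' : -|ds 0 x - (ρ + 32 * h)| < -(16 * h : ℤ) + Λ.rg := by exact_mod_cast h2
    set i := tileOf (-(n * h), -(n * h)) h x with hi
    have c1 : x ∈ sq (z i) h := (mem_tile_iff h0).2 hi.symm
    have c2 := z2 i
    refine ⟨i, mem_filter.2 ⟨(tileOf_mem h0).2 ?_, ?_⟩, ?_⟩
    · rw [show (2 * n + 1) * h = 2 * (n * h) + h by ring]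
      have : ((n * h : ℕ) : ℤ) = n * h := by push_cast; rfl
      simp only [dd, mem_sq, abs_eq_max_neg] at *; omega
    · simp only [dd, mem_sq, abs_eq_max_neg] at *; omega
    · simp only [ha, mem_inter, mem_sq, mem_bl] at *
      split_ifs <;> omega
  · refine mul_le_mul_of_nonneg_right ?_ (by positivity)
    have := (card_filter_le (sq 0 (2 * n + 1)) _ : #T ≤ _)
    rw [card_sq] at this
    exact_mod_cast this

theorem conn_half {Λ : Lat} (hΛ : Λ.Ok) {U : Finset Pt} {E : Finset (Pt × Pt)}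
    (hE : ∀ e ∈ Λ.edI U, (e.1.2 < 0 ↔ e.2.2 < 0) → e ∈ E) {x y : Pt} (hxy : x.2 < 0 ↔ y.2 < 0)
    (h : Rect U x y) : Conn E x y := by
  refine (hΛ.conn_rect (B := U.filter fun z => z.2 < 0 ↔ x.2 < 0) fun z a b c d =>
    mem_filter.2 ⟨h z a b c d, by omega⟩).mono fun e he => ?_
  obtain ⟨b1, b2, b3⟩ := Lat.mem_edI.1 he
  exact hE e (Lat.mem_edI.2 ⟨b1, (mem_filter.1 b2).1, (mem_filter.1 b3).1⟩)
    ((mem_filter.1 b2).2.trans (mem_filter.1 b3).2.symm)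

open Nc Nc.Geo Pot.H59 in
/-- **(F) on the extended lattice**: free annulus, slit through the massive ring, the two seams carry the
extra variables `l k₁`, `l k₂` -/
theorem coreX {Λ : Lat} (hΛ : Λ.Ok) {c ρ R₂ h n : ℕ} {Z I O : Finset Pt} {μ q : ℝ} {k₁ k₂ : Pt}
    {ed : Finset (Pt × Pt)} {σ₁ σ₂ : Pt × Pt → ℤ} (hμ : 0 < μ) (hh : Λ.rg ≤ h) (h0 : 0 < h)
    (hρ : 16 * h ≤ ρ) (hn : ρ + 64 * h ≤ n * h) (hq : q ≤ 1 / 2) (hm : Mx31.Mx1 Λ μ (16 * h) h q)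
    (hc : c ≤ ρ) (hR : ρ + 64 * h ≤ R₂) (hZ : an 0 ρ (ρ + 64 * h) ⊆ Z) (hZ' : Z ⊆ an 0 c R₂)
    (hk₁ : k₁ ∉ an 0 c R₂) (hk₂ : k₂ ∉ an 0 c R₂) (hk : k₁ ≠ k₂) (h1 : ed ⊆ Λ.edI (an 0 c R₂))
    (h2 : ∀ e ∈ Λ.edI (an 0 c R₂), ¬ Sl e → e ∈ ed ∧ σ₁ e = 0 ∧ σ₂ e = 0)
    (h3 : ∀ e ∈ ed, Sl e → (ds 0 e.1 ≤ ρ ∧ ds 0 e.2 ≤ ρ ∧ σ₂ e = 0) ∨
      ((ρ + 64 * h : ℤ) < ds 0 e.1 ∧ (ρ + 64 * h : ℤ) < ds 0 e.2 ∧ σ₁ e = 0))
    (h4 : ∃ e ∈ ed, σ₁ e = 1) (h5 : ∃ e ∈ ed, σ₂ e = 1) (hI : I ⊆ insert k₁ (an 0 c ρ))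
    (hO : O ⊆ insert k₂ (an 0 (ρ + 64 * h) R₂)) {W : Cfg Pt → ℝ}
    (hW : ∀ l, W l = ind (∀ x, x ∉ insert k₁ (insert k₂ (an 0 c R₂)) → l x = 0) *
      (∏ e ∈ ed, Λ.w (dE e l + σ₁ e * l k₁ + σ₂ e * l k₂)) * ∏ x ∈ Z, gau μ⁻¹ (l x)) :
    ∃ p₁ p₂ : Cfg Pt → ℝ, (∀ s, 0 ≤ p₁ s) ∧ (∀ s, 0 ≤ p₂ s) ∧ ∀ S : Finset (Cfg Pt × Cfg Pt),
      ∑ z ∈ S, |push W (fun s => (resH I s, resH O s)) z / Zs W - p₁ z.1 * p₂ z.2| ≤
        4 * (2 * n + 1) ^ 2 * q := by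
  classical
  have k := (gauStmt _ (inv_pos.2 hμ)).1
  have f := hΛ.fam
  have ma : ∀ {x : Pt} {a b : ℕ}, x ∈ an 0 a b ↔ ds 0 x ≤ b ∧ (a : ℤ) < ds 0 x := by
    intro x a b; rw [mem_an, mem_bl_ds, mem_bl_ds, not_le]
  have dd : ∀ x : Pt, ds 0 x = max |x.1| |x.2| := fun x => by simp [ds]
  set m : Mdl Pt := ⟨insert k₁ (insert k₂ (an 0 c R₂)), ed.filter fun e => ¬ Sl e, fun _ => Λ.w,
    fun x j => if x ∈ Z then gau μ⁻¹ j else 1⟩ with hm'
  have mc : m.Ctr := ⟨fun _ _ => f, fun x _ => by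
    by_cases hx : x ∈ Z
    · simp only [hm', if_pos hx]; exact ⟨k.cen.toRSD, k.pd, gau_pos _ _⟩
    · simp only [hm', if_neg hx]; exact ⟨rsd_one51, pd_one, one_pos⟩⟩
  have hs : ∀ x ∈ an 0 ρ (ρ + 64 * h), m.site x = gau μ⁻¹ := fun x hx => funext fun j => if_pos (hZ hx)
  have me : ∀ {e : Pt × Pt}, e ∈ m.ed ↔ e ∈ Λ.edI (an 0 c R₂) ∧ ¬ Sl e := fun {e} =>
    ⟨fun h => ⟨h1 (mem_filter.1 h).1, (mem_filter.1 h).2⟩, fun h => mem_filter.2 ⟨(h2 e h.1 h.2).1, h.2⟩⟩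
  set E := m.ed.filter fun e => ds 0 e.1 ≤ ρ + 32 * h ↔ ds 0 e.2 ≤ ρ + 32 * h with hE
  have mE : ∀ {e : Pt × Pt}, e ∈ E ↔ ((e.2 - e.1 ∈ Λ.Jp ∧ e.1 ∈ an 0 c R₂ ∧ e.2 ∈ an 0 c R₂) ∧ ¬ Sl e) ∧
      (ds 0 e.1 ≤ ρ + 32 * h ↔ ds 0 e.2 ≤ ρ + 32 * h) := by
    intro e; rw [hE, mem_filter, me, Lat.mem_edI]
  have kc : (m.keep E).Ctr := mc.keep (filter_subset _ _)
  have lip : ∀ e : Pt × Pt, e.2 - e.1 ∈ Λ.Jp → |ds 0 e.2 - ds 0 e.1| ≤ Λ.rg := fun e he =>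
    ds_lip 0 (Lat.edge_near he)
  set P := (Mx.ms Λ (an 0 ρ (ρ + 64 * h)) μ).keep (inn (an 0 ρ (ρ + 64 * h)) E) with hP
  have sB : an 0 ρ (ρ + 64 * h) ⊆ an 0 c R₂ := an_mono _ hc hR
  have mP : ∀ e, e ∈ P.ed ↔ e ∈ Λ.edI (an 0 ρ (ρ + 64 * h)) ∧
      (ds 0 e.1 ≤ ρ + 32 * h ↔ ds 0 e.2 ≤ ρ + 32 * h) ∧ ¬ Sl e := fun e => by
    show e ∈ inn _ E ↔ _
    rw [inn, mem_filter, mE, Lat.mem_edI]
    exact ⟨fun h => ⟨⟨h.1.1.1.1, h.2⟩, h.1.2, h.1.1.2⟩,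
      fun h => ⟨⟨⟨⟨h.1.1, sB h.1.2.1, sB h.1.2.2⟩, h.2.2⟩, h.2.1⟩, h.1.2⟩⟩
  have Pc : P.Ctr := (ctr_ms hΛ _ hμ).1.keep fun e he => ((mP e).1 he).1
  have Ps : ∀ x j, P.site x j = gau μ⁻¹ j := fun x j => one_mul _
  have Pa : P.Anch := Md.anch_of_se fun x _ => by rw [funext (Ps x)]; exact k.cen.se
  have n1 : ∀ {x}, x ∈ an 0 c R₂ → x ≠ k₁ ∧ x ≠ k₂ := fun hx => ⟨fun e => hk₁ (e ▸ hx), fun e => hk₂ (e ▸ hx)⟩
  have sm : ∀ {κ : Pt} {a b : ℕ} {T : Finset (Pt × Pt)} {σ : Pt × Pt → ℤ}, κ ∉ an 0 c R₂ →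
      insert κ (an 0 a b) ⊆ m.A → (∀ e ∈ Λ.edI (an 0 a b), ¬ Sl e → e ∈ E) →
      (∀ x ∈ an 0 a b, ∃ y ∈ an 0 ρ (ρ + 64 * h), (x.2 < 0 ↔ y.2 < 0) ∧ Rect (an 0 a b) x y) →
      (∃ e ∈ T, e ∈ ed ∧ σ e = 1) →
      Summable fun s => sea Λ.w T σ κ s * ((m.keep E).free (insert κ (an 0 a b))).W 0 s := by
    intro κ a b T σ a1 a2 a3 a4 ⟨e, a5, a6, a7⟩
    have a8 : ∀ e ∈ Λ.edI (an 0 c R₂), e.1 ≠ κ ∧ e.2 ≠ κ := fun e he =>
      ⟨fun j => a1 (j ▸ (Lat.mem_edI.1 he).2.1), fun j => a1 (j ▸ (Lat.mem_edI.1 he).2.2)⟩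
    refine (sea_se (kc.free a2) f (mem_insert_self _ _) (fun e he => a8 e (me.1 (mem_filter.1 he).1).1)
      (fun j => if_neg fun j => a1 (hZ' j)) (fun x hx => ?_) a5 a7 (a8 e (h1 a6))).summable
    obtain ⟨b1, b2⟩ := mem_sdiff.1 hx
    obtain ⟨y, c1, c2, c3⟩ := a4 x ((mem_insert.1 b1).resolve_left (by simpa using b2))
    exact ⟨y, conn_half hΛ (fun e he j => a3 e he fun i => i.2 j) c2 c3,
      Or.inr (show SE (m.site y) by rw [hs y c1]; exact k.cen.se)⟩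
  have sub : ∀ a b : ℕ, c ≤ a → b ≤ R₂ → b ≤ ρ + 32 * h ∨ ρ + 32 * h ≤ a →
      ∀ e ∈ Λ.edI (an 0 a b), ¬ Sl e → e ∈ E := fun a b a1 a2 a3 e he j => by
    obtain ⟨b1, b2, b3⟩ := Lat.mem_edI.1 he
    refine mE.2 ⟨⟨⟨b1, an_mono _ a1 a2 b2, an_mono _ a1 a2 b3⟩, j⟩, ?_⟩
    have := ma.1 b2; have := ma.1 b3; omega
  have sl : ∀ e ∈ ed, σ₁ e = 1 ∨ σ₂ e = 1 → Sl e := fun e he j => by
    by_contra i
    have := h2 e (h1 he) i
    omega
  have mT : ∀ e ∈ ed, e.1 ∈ an 0 c R₂ ∧ e.2 ∈ an 0 c R₂ := fun e he => (Lat.mem_edI.1 (h1 he)).2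
  refine Exists.elim (facX (m := m) (P := P) mc (E := E) (filter_subset _ _) Pc Pa
    (A₁ := insert k₁ (an 0 c (ρ + 32 * h))) (A₂ := insert k₂ (an 0 (ρ + 32 * h) R₂))
    (R := an 0 (ρ + h) (ρ + 63 * h)) (M := an 0 (ρ + 31 * h) (ρ + 33 * h)) (I := I) (O := O)
    ⟨filter_subset _ _, fun _ _ => rfl, fun e he => ⟨fun _ => (mem_filter.1 he).2.1,
      fun _ => (mem_filter.1 he).2.2⟩, fun x hx _ => ⟨fun _ => 1, pd_one, fun _ => zero_le_one, one_pos,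
      fun j => by rw [Ps, mul_one]; exact congrFun (hs x hx) j⟩, fun x _ j => by rw [Ps]; exact gau_pos _ _,
      fun x hx => mem_insert_of_mem (mem_insert_of_mem (an_mono _ (by omega) (by omega) hx)),
      an_mono _ (by omega) (by omega), fun e he j => mem_filter.2 ⟨he, by
        have := lip e (mE.1 he).1.1.1
        simp only [ma, abs_le] at j this ⊢; omega⟩,
      fun x hx j => by rw [Ps]; exact congrFun (hs x (an_mono _ (by omega) (by omega) hx)) j⟩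
    (by rw [insert_union, union_insert, an_union_an 0 (by omega) (by omega)])
    ⟨disjoint_left.2 fun x b1 b2 => by
      rcases mem_insert.1 b1 with rfl | b1 <;> rcases mem_insert.1 b2 with b2 | b2
      · exact hk b2
      · exact hk₁ (an_mono _ (by omega) le_rfl b2)
      · exact hk₂ (b2 ▸ an_mono _ le_rfl (by omega) b1)
      · have := ma.1 b1; have := ma.1 b2; omega, fun e he => by
      obtain ⟨⟨⟨-, b1, b2⟩, -⟩, b3⟩ := mE.1 he
      simp only [mem_insert, (n1 b1).1, (n1 b1).2, (n1 b2).1, (n1 b2).2, false_or, ma]; omega⟩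
    (fun e he he' => by
      obtain ⟨b1, b2⟩ := me.1 he
      have b4 := lip e (Lat.mem_edI.1 b1).1
      rw [mE, and_iff_right ⟨Lat.mem_edI.1 b1, b2⟩] at he'
      simp only [ma, abs_le] at b4 ⊢; omega)
    (an_mono _ (by omega) (by omega))
    (U₁ := sea Λ.w ((ed.filter Sl).filter fun e => ds 0 e.1 ≤ ρ) σ₁ k₁)
    (U₂ := sea Λ.w ((ed.filter Sl).filter fun e => ¬ ds 0 e.1 ≤ ρ) σ₂ k₂)
    (sea_pd f) (fun s => (sea_pos f s).le) (sea_pos f 0)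
    (sea_out (by rw [mem_insert, not_or]; exact ⟨hk, fun j => hk₁ (an_mono _ (by omega) le_rfl j)⟩)
      fun e he => by
        simp only [mem_filter] at he
        have := h3 e he.1.1 he.1.2
        simp only [mem_insert, (n1 (mT e he.1.1).1).2, (n1 (mT e he.1.1).2).2, false_or, ma]; omega)
    (sea_out (fun j => hk₁ (an_mono _ (by omega) (by omega) j)) fun e he => by
        simp only [mem_filter] at he
        have := h3 e he.1.1 he.1.2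
        simp only [ma]; omega)
    (sea_pd f) (fun s => (sea_pos f s).le) (sea_pos f 0)
    (sea_out (by rw [mem_insert, not_or]; exact ⟨hk.symm, fun j => hk₂ (an_mono _ le_rfl (by omega) j)⟩)
      fun e he => by
        simp only [mem_filter] at he
        have := h3 e he.1.1 he.1.2
        simp only [mem_insert, (n1 (mT e he.1.1).1).1, (n1 (mT e he.1.1).2).1, false_or, ma]; omega)
    (sea_out (fun j => hk₂ (an_mono _ (by omega) (by omega) j)) fun e he => by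
        simp only [mem_filter] at he
        have := h3 e he.1.1 he.1.2
        simp only [ma]; omega)
    (sm hk₁ (insert_subset_insert _ ((an_mono _ le_rfl (by omega)).trans (subset_insert _ _)))
      (sub _ _ le_rfl (by omega) (Or.inl le_rfl)) (fun x hx => ?_) ?_)
    (sm hk₂ ((insert_subset_insert _ (an_mono _ (by omega) le_rfl)).trans (subset_insert _ _))
      (sub _ _ (by omega) le_rfl (Or.inr le_rfl)) (fun x hx => ?_) ?_)
    (disjoint_left.2 fun x b1 b2 => by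
      rcases mem_insert.1 (hI b1) with rfl | b1 <;> rcases mem_insert.1 b2 with b2 | b2
      · exact hk b2
      · exact hk₁ (an_mono _ (by omega) le_rfl b2)
      · exact hk₂ (b2 ▸ an_mono _ le_rfl (by omega) b1)
      · have := ma.1 b1; have := ma.1 b2; omega)
    (disjoint_left.2 fun x b1 b2 => by
      rcases mem_insert.1 (hO b1) with rfl | b1 <;> rcases mem_insert.1 b2 with b2 | b2
      · exact hk b2.symm
      · exact hk₂ (an_mono _ le_rfl (by omega) b2)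
      · exact hk₁ (b2 ▸ an_mono _ (by omega) le_rfl b1)
      · have := ma.1 b1; have := ma.1 b2; omega)
    (disjoint_left.2 fun x b1 b2 => by
      rcases mem_insert.1 (hI b1) with rfl | b1
      · exact hk₁ (an_mono _ (by omega) (by omega) b2)
      · have := ma.1 b1; have := ma.1 b2; omega)
    (disjoint_left.2 fun x b1 b2 => by
      rcases mem_insert.1 (hO b1) with rfl | b1
      · exact hk₂ (an_mono _ (by omega) (by omega) b2)
      · have := ma.1 b1; have := ma.1 b2; omega) (W := W) fun s => ?_) fun p₁ ⟨p₂, a1, a2, a3⟩ => ?_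
  · refine ⟨(if |x.2| ≤ |x.1| then if 0 ≤ x.1 then ρ + 32 * h else -(ρ + 32 * h) else x.1,
      if |x.2| ≤ |x.1| then x.2 else if 0 ≤ x.2 then ρ + 32 * h else -(ρ + 32 * h)), ?_, ?_, fun z => ?_⟩ <;>
    · simp only [ma, dd, abs_eq_max_neg] at hx ⊢
      split_ifs <;> omega
  · obtain ⟨e, b1, b2⟩ := h4
    have := h3 e b1 (sl e b1 (Or.inl b2))
    exact ⟨e, mem_filter.2 ⟨mem_filter.2 ⟨b1, sl e b1 (Or.inl b2)⟩, by omega⟩, b1, b2⟩
  · refine ⟨(max (-(ρ + 32 * h + 1)) (min x.1 (ρ + 32 * h + 1)),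
      max (-(ρ + 32 * h + 1)) (min x.2 (ρ + 32 * h + 1))), ?_, ?_, fun z => ?_⟩ <;>
    · simp only [ma, dd, abs_eq_max_neg] at hx ⊢
      omega
  · obtain ⟨e, b1, b2⟩ := h5
    have := h3 e b1 (sl e b1 (Or.inr b2))
    exact ⟨e, mem_filter.2 ⟨mem_filter.2 ⟨b1, sl e b1 (Or.inr b2)⟩, by omega⟩, b1, b2⟩
  · have e1 : ∏ x ∈ m.A, m.site x (s x) = ∏ x ∈ Z, gau μ⁻¹ (s x) := by
      show ∏ x ∈ m.A, (if x ∈ Z then gau μ⁻¹ (s x) else 1) = _
      rw [← prod_filter, filter_mem_eq_inter, inter_eq_right.2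
        (hZ'.trans ((subset_insert _ _).trans (subset_insert _ _)))]
    have e2 : ∏ e ∈ ed, Λ.w (dE e s + σ₁ e * s k₁ + σ₂ e * s k₂) =
        sea Λ.w ((ed.filter Sl).filter fun e => ds 0 e.1 ≤ ρ) σ₁ k₁ s *
        sea Λ.w ((ed.filter Sl).filter fun e => ¬ ds 0 e.1 ≤ ρ) σ₂ k₂ s *
        ∏ e ∈ m.ed, m.w e (dE e s) := by
      rw [← prod_filter_mul_prod_filter_not ed Sl,
        ← prod_filter_mul_prod_filter_not (ed.filter Sl) fun e => ds 0 e.1 ≤ ρ]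
      congr 1
      · congr 1 <;> refine prod_congr rfl fun e he => ?_ <;> simp only [mem_filter] at he <;>
          have := h3 e he.1.1 he.1.2
        · rw [show σ₂ e = 0 by omega, zero_mul, add_zero]
        · rw [show σ₁ e = 0 by omega, zero_mul, add_zero]
      · refine prod_congr rfl fun e he => ?_
        have := h2 e (me.1 he).1 (me.1 he).2
        rw [this.2.1, this.2.2, zero_mul, zero_mul, add_zero, add_zero]
    rw [hW, Mdl.W, e1, e2]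
    simp only [Finsupp.coe_zero, Pi.zero_apply]
    ring
  · refine ⟨p₁, p₂, a1, a2, fun S => (a3 S).trans ?_⟩
    have := ringX hΛ Pc Pa hμ hh h0 hρ hn hq hm rfl (fun x _ => Ps x) (fun _ _ => rfl) mP
    linarith

end F9

end Crest.Agent.T145
end

-- ▼ part T145/KvFs_9
section

/-!
# Row 145, module Kv: (F), the screened extended model factorises (helper9)
-/

set_option autoImplicit false

namespace Crest.Agent.T145.Kv

open Finset Nc Nc.Geo Pot.H59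

theorem fStmt (hM : Mx.Mix0Stmt) (hGe : GeoStmt) (hm : T1mStmt) : FStmt := by
  intro F θ₀ W K j hJ hθ hK ε hε
  obtain ⟨K₀, hK₀, H⟩ := hM F (θ₀ / 2) (1 / 16) (by positivity) (by norm_num)
  set N : ℝ := 4 * (2 * ((64 * 2 ^ j : ℕ) : ℝ) + 1) ^ 2 with hN
  obtain ⟨a₀, ha₀⟩ := pow_unbounded_of_one_lt (16 * (K₀ + 1 + N / ε)) (by norm_num : (1 : ℝ) < 4)
  refine ⟨a₀, fun a ha => ?_⟩
  set x : ℝ := 4 ^ a / 16 with hx
  have x1 : K₀ + 1 + N / ε ≤ x := by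
    have := pow_le_pow_right₀ (by norm_num : (1 : ℝ) ≤ 4) ha
    rw [hx, le_div_iff₀ (by norm_num)]; linarith
  have e0 : 0 < N / ε := by positivity
  have x2 : 1 / x ^ 4 ≤ 1 / x := one_div_le_one_div_of_le (by linarith)
    (le_self_pow₀ (by linarith) (by norm_num))
  obtain ⟨δ₁, hδ₁, H⟩ := H x
  obtain ⟨k, hk⟩ := pow_unbounded_of_one_lt (256 * K * 2 ^ j) (by norm_num : (1 : ℝ) < 2)
  refine exists_of_ev ?_
  filter_upwards [ev_subwin hm F hθ hδ₁ k, ev_large' (64 * K * 2 ^ j * 64)]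
    with δ h1 h2 Λ hΛ l L hw V hV hj hA
  have A := hGe V W hV
  have r0 := A.rho_eq
  rw [hj] at r0
  have r1 : (L : ℝ) ≤ 64 * K * 2 ^ j * V.ω := by
    have : (V.G.R : ℝ) ≤ 64 * (2 ^ j * V.ω) := by exact_mod_cast r0 ▸ A.le_rho
    nlinarith [hA.2]
  have r2 : 64 ≤ V.ω := by
    have := le_of_mul_le_mul_left ((h2 l L hw.sep).2.2.trans r1) (by positivity)
    exact_mod_cast this
  obtain ⟨i, hi⟩ : ∃ i, V.om2 = i + 6 := Nat.exists_eq_add_of_le' (by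
    by_contra h
    have : 2 ^ V.om2 ≤ 2 ^ 5 := Nat.pow_le_pow_right two_pos (by omega)
    unfold Gv.ω at r2; omega)
  have r3 : V.ω = 64 * 2 ^ i := by rw [Gv.ω, hi]; ring
  have r4 : 2 ^ (i + 4) = 16 * 2 ^ i := by ring
  have h0 : 0 < 2 ^ i := by positivity
  have g1 := A.rho_le
  have g2 := A.ω_le
  have g3 := A.r_le
  have g4 := hV.g.hc
  have g5 := hV.g.out
  have w := h1 Λ hΛ l L hw (i + 4) (by have := hA.1; omega) (Or.inl (by
    have : (L : ℝ) ≤ 2 ^ (i + 4 + k) := by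
      rw [r3] at r1
      push_cast at r1
      rw [pow_add, pow_add]
      nlinarith [mul_le_mul_of_nonneg_right hk.le (by positivity : (0 : ℝ) ≤ 2 ^ i)]
    exact_mod_cast this))
  rw [r4] at w
  have m1 : V.ms a * ((16 * 2 ^ i : ℕ) : ℝ) ^ 2 = x := by
    rw [Gv.ms, r3, hx, show (4 : ℝ) ^ a = (2 ^ a) ^ 2 by rw [← pow_mul, mul_comm, pow_mul]; norm_num]
    push_cast
    field_simp
    norm_num
  have m0 : 0 < V.ms a := by rw [Gv.ms, r3]; positivity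
  have hJ' : Λ.J = nn := hΛ.1.trans hJ
  have eI : ∀ D, Λ.edI D = Pot.nL.edI D := fun D => by
    simp only [Lat.edI, Lat.edT, Lat.Jp, hJ', Pot.nL_J]
  have jp : ∀ y, y ∈ Pot.nL.Jp ↔ y = (1, 0) ∨ y = (0, 1) := fun y => by
    rw [show Pot.nL.Jp = {(1, 0), (0, 1)} by decide, mem_insert, mem_singleton]
  have mI : ∀ {e : Pt × Pt}, e ∈ Pot.nL.edI V.G.Om ↔ (e.2.1 = e.1.1 + 1 ∧ e.2.2 = e.1.2 ∨
      e.2.1 = e.1.1 ∧ e.2.2 = e.1.2 + 1) ∧ e.1 ∈ an 0 V.G.c V.G.R₂ ∧ e.2 ∈ an 0 V.G.c V.G.R₂ := by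
    intro e
    rw [Lat.mem_edI, jp]
    refine and_congr ?_ Iff.rfl
    simp only [Prod.ext_iff, Prod.fst_sub, Prod.snd_sub]; omega
  have mE : ∀ {e : Pt × Pt}, e ∈ V.EO ↔ e ∈ Pot.nL.edI V.G.Om ∧ Vd.ray 0 e = V.s1 e + V.s2 e := mem_filter
  have dd : ∀ x : Pt, ds 0 x = max |x.1| |x.2| := fun x => by simp [ds]
  obtain ⟨ρ, hρ⟩ : ∃ ρ, V.G.rho = ρ + 64 * 2 ^ i := ⟨V.G.rho - 64 * 2 ^ i, by omega⟩
  have mG : ∀ {x : Pt}, x ∈ V.Ga ↔ (-(ρ + 128 * 2 ^ i : ℤ) ≤ x.1 ∧ x.1 < ρ + 128 * 2 ^ i ∧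
      -(ρ + 128 * 2 ^ i : ℤ) ≤ x.2 ∧ x.2 < ρ + 128 * 2 ^ i) ∧
      ¬ (-(ρ : ℤ) ≤ x.1 ∧ x.1 < ρ ∧ -(ρ : ℤ) ≤ x.2 ∧ x.2 < ρ) := by
    intro x
    simp only [Gv.Ga, Gv.rng, mem_sdiff, mem_sq, hρ, r3, Nat.add_sub_cancel]
    push_cast
    omega
  have p0 : ((2 ^ i : ℕ) : ℤ) = 2 ^ i := by push_cast; rfl
  obtain ⟨p₁, p₂, a1, a2, a3⟩ := F9.coreX hΛ.ok (c := V.G.c) (ρ := ρ) (R₂ := V.G.R₂) (h := 2 ^ i)
    (n := 64 * 2 ^ j) (Z := V.Ga) (I := V.In) (O := V.Ou) (q := 1 / x ^ 4) (k₁ := V.k1) (k₂ := V.k2)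
    (ed := V.EO) (σ₁ := V.s1) (σ₂ := V.s2) (W := V.rm Λ a) m0
    (by rw [Lat.rg, hJ']; exact h0) h0 (by omega) (by rw [← hρ, r0, r3]; exact le_of_eq (by ring))
    (x2.trans (one_div_le_one_div_of_le two_pos (by linarith)))
    (fun b S S' hS => by
      have := H Λ hΛ l _ w (V.ms a) b S S' (by rw [m1]; linarith) m1.le (by
        rwa [show (1 / 16 : ℝ) * ((16 * 2 ^ i : ℕ) : ℝ) = ((2 ^ i : ℕ) : ℝ) by push_cast; ring])
      rwa [m1] at this)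
    (by omega) (by omega)
    (fun y hy => by simp only [mG, mem_an, mem_bl, Prod.fst_zero, Prod.snd_zero] at hy ⊢; omega)
    (fun y hy => by simp only [mG, mem_an, mem_bl, Prod.fst_zero, Prod.snd_zero] at hy ⊢; omega)
    A.k_off.1 A.k_off.2.1 A.k_off.2.2.1 (by rw [eI]; exact filter_subset _ _)
    (fun e he hs => by
      rw [eI] at he
      have r : Vd.ray 0 e = 0 := if_neg fun k => by
        have := mI.1 he
        simp only [F9.Sl, mem_an, mem_bl, Prod.fst_zero, Prod.snd_zero] at this k hs; omega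
      have s1 : V.s1 e = 0 := by rw [Gv.s1, r, ite_self]
      have s2 : V.s2 e = 0 := by rw [Gv.s2, r, ite_self]
      exact ⟨mE.2 ⟨he, by rw [r, s1, s2, add_zero]⟩, s1, s2⟩)
    (fun e he hs => by
      obtain ⟨b1, b2⟩ := mE.1 he
      have b3 := (mI.1 b1).1
      have r : Vd.ray 0 e = 1 := if_pos (by
        simp only [F9.Sl, Prod.fst_zero, Prod.snd_zero] at hs ⊢; omega)
      simp only [F9.Sl, Gv.s1, Gv.s2, r, dd, abs_eq_max_neg] at b2 hs ⊢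
      split_ifs at b2 ⊢ <;> omega)
    ⟨((V.G.c + 1, -1), (V.G.c + 1, 0)), mE.2 ⟨mI.2 ⟨Or.inr ⟨rfl, rfl⟩, by
      simp only [mem_an, mem_bl, Prod.fst_zero, Prod.snd_zero]; omega⟩, by
      simp only [Gv.s1, Gv.s2]; split_ifs <;> omega⟩,
      (if_pos (by simp only; omega)).trans (if_pos ⟨rfl, rfl, rfl, by simp only [Prod.fst_zero]; omega⟩)⟩
    ⟨((V.G.R₂, -1), (V.G.R₂, 0)), mE.2 ⟨mI.2 ⟨Or.inr ⟨rfl, rfl⟩, by
      simp only [mem_an, mem_bl, Prod.fst_zero, Prod.snd_zero]; omega⟩, by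
      simp only [Gv.s1, Gv.s2]; split_ifs <;> omega⟩,
      (if_pos (by simp only; omega)).trans (if_pos ⟨rfl, rfl, rfl, by simp only [Prod.fst_zero]; omega⟩)⟩
    (insert_subset_insert _ (an_mono _ le_rfl (by omega)))
    (insert_subset_insert _ (an_mono _ (by omega) le_rfl)) fun s => by
      rw [Gv.rm, Gv.rho]
      congr 2
      exact ind_congr (forall_congr' fun y => by
        simp only [mem_insert, not_or]; exact ⟨fun k k' => k k'.2.2 k'.1 k'.2.1, fun k a b c => k ⟨b, c, a⟩⟩)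
  refine ⟨p₁, p₂, a1, a2, fun S => (a3 S).trans ?_⟩
  refine (mul_le_mul_of_nonneg_left x2 (by positivity)).trans ?_
  rw [mul_one_div, div_le_comm₀ (by linarith) hε]
  linarith

end Crest.Agent.T145.Kv
end

-- ▼ part T145/KvGeo_32
section

/-!
# Row 145, module Kv: geometry of the slit condenser (helper32, task KV GEO)
-/

set_option autoImplicit false

namespace Crest.Agent.T145.Kv

open Finset Nc
open Kr (Gm)
open Kr.Geo87 (mem_an0 cn mem_cn cn_dvd cn_eq nJp_iff)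
open Vd (ray)

namespace Geo32

variable {V : Gv} {W : ℝ}

theorem rho_eq (h : V.Ok W) : V.G.rho = 2 ^ V.j * V.ω := by
  have := h.jp
  rw [Gv.ω, Gv.om2, ← pow_add, Nat.add_sub_cancel' (by omega)]; rfl

theorem ω16 (h : V.Ok W) : 16 ≤ V.ω := by
  have := h.jp
  calc 16 = 2 ^ 4 := rfl
    _ ≤ 2 ^ V.om2 := Nat.pow_le_pow_right two_pos (by rw [Gv.om2]; omega)

theorem ω_le (h : V.Ok W) : 16 * V.ω ≤ V.G.rho := by
  rw [rho_eq h]
  exact Nat.mul_le_mul_right _ (Nat.pow_le_pow_right two_pos h.j4 : 2 ^ 4 ≤ 2 ^ V.j)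

/-- all the inequalities between the scales, for `omega` -/
theorem scales (h : V.Ok W) : 2 * V.G.c ≤ V.G.r ∧ 64 ≤ V.G.r ∧ 16 * V.G.r ≤ V.G.rho ∧
    32 * V.G.rho ≤ V.G.R ∧ V.G.R < 64 * V.G.rho ∧ 1024 * V.G.r ≤ V.G.R ∧ 2 * V.G.R ≤ V.G.R₂ ∧
    16 ≤ V.ω ∧ 16 * V.ω ≤ V.G.rho :=
  let ⟨a, b, c, d, e, f, g⟩ := Kr.Geo87.scales h.g
  ⟨a, b, c, d, e, f, g, ω16 h, ω_le h⟩

theorem mem_rng {n : ℕ} (hn : n ≤ V.G.rho) {x : Pt} : x ∈ V.rng n ↔
    (-(V.G.rho + n : ℤ) ≤ x.1 ∧ x.1 < V.G.rho + n ∧ -(V.G.rho + n : ℤ) ≤ x.2 ∧ x.2 < V.G.rho + n) ∧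
      ¬ (-(V.G.rho - n : ℤ) ≤ x.1 ∧ x.1 < V.G.rho - n ∧ -(V.G.rho - n : ℤ) ≤ x.2 ∧
        x.2 < V.G.rho - n) := by
  simp only [Gv.rng, mem_sdiff, mem_sq]; omega

theorem card_rng {n : ℕ} (hn : n ≤ V.G.rho) : (V.rng n).card = 16 * V.G.rho * n := by
  rw [Gv.rng, card_sdiff_of_subset (fun x hx => by simp only [mem_sq] at *; omega), card_sq, card_sq]
  obtain ⟨m, hm⟩ := Nat.exists_eq_add_of_le hn
  rw [hm, Nat.add_sub_cancel_left]
  have : (2 * (n + m + n)) ^ 2 = 16 * (n + m) * n + (2 * m) ^ 2 := by ring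
  omega

theorem mem_Ga (h : V.Ok W) {x : Pt} : x ∈ V.Ga ↔
    (-(V.G.rho + V.ω : ℤ) ≤ x.1 ∧ x.1 < V.G.rho + V.ω ∧ -(V.G.rho + V.ω : ℤ) ≤ x.2 ∧
      x.2 < V.G.rho + V.ω) ∧
      ¬ (-(V.G.rho - V.ω : ℤ) ≤ x.1 ∧ x.1 < V.G.rho - V.ω ∧ -(V.G.rho - V.ω : ℤ) ≤ x.2 ∧
        x.2 < V.G.rho - V.ω) := mem_rng (by have := ω_le h; omega)

theorem mem_mid (h : V.Ok W) {x : Pt} : x ∈ V.mid ↔
    (-(V.G.rho + 2 * V.ω : ℤ) ≤ x.1 ∧ x.1 < V.G.rho + 2 * V.ω ∧ -(V.G.rho + 2 * V.ω : ℤ) ≤ x.2 ∧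
      x.2 < V.G.rho + 2 * V.ω) ∧
      ¬ (-(V.G.rho - 2 * V.ω : ℤ) ≤ x.1 ∧ x.1 < V.G.rho - 2 * V.ω ∧ -(V.G.rho - 2 * V.ω : ℤ) ≤ x.2 ∧
        x.2 < V.G.rho - 2 * V.ω) := by
  rw [Gv.mid, mem_rng (by have := ω_le h; omega)]; push_cast; rfl

theorem mem_up {x : Pt} : x ∈ V.up ↔
    (V.G.rho : ℤ) - 4 * V.ω ≤ x.1 ∧ x.1 < V.G.rho + 4 * V.ω ∧ 0 ≤ x.2 ∧ x.2 < 8 * V.ω := by
  simp only [Gv.up, mem_sq]; omega

theorem mem_lo {x : Pt} : x ∈ V.lo ↔
    (V.G.rho : ℤ) - 4 * V.ω ≤ x.1 ∧ x.1 < V.G.rho + 4 * V.ω ∧ -(8 * V.ω : ℤ) ≤ x.2 ∧ x.2 < 0 := by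
  simp only [Gv.lo, mem_sq]; omega

theorem mem_ul {x : Pt} : x ∈ V.up ∪ V.lo ↔
    (V.G.rho : ℤ) - 4 * V.ω ≤ x.1 ∧ x.1 < V.G.rho + 4 * V.ω ∧ -(8 * V.ω : ℤ) ≤ x.2 ∧ x.2 < 8 * V.ω := by
  rw [mem_union, mem_up, mem_lo]; omega

theorem mem_lip {x : Pt} : x ∈ V.lip ↔
    (V.G.rho : ℤ) - 4 * V.ω ≤ x.1 ∧ x.1 < V.G.rho + 4 * V.ω ∧ (x.2 = 0 ∨ x.2 = -1) := by
  rw [Gv.lip, mem_filter, mem_ul]; omega

theorem ray0 (e : Pt × Pt) :
    ray 0 e = if e.1.2 = -1 ∧ e.2.2 = 0 ∧ e.1.1 = e.2.1 ∧ 0 ≤ e.1.1 then 1 else 0 := by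
  simp only [ray, Prod.fst_zero, Prod.snd_zero, zero_sub]

/-- the kept edges -/
theorem mem_kp (h : V.Ok W) {ed : Finset (Pt × Pt)} {e : Pt × Pt} : e ∈ V.kp ed ↔ e ∈ ed ∧
    ¬ (e.1.2 = -1 ∧ e.2.2 = 0 ∧ e.1.1 = e.2.1 ∧ (V.G.rho : ℤ) - 4 * V.ω ≤ e.1.1 ∧
      e.1.1 < V.G.rho + 4 * V.ω) := by
  have := scales h
  rw [Gv.kp, mem_filter, Gv.s1, Gv.s2, ray0]
  refine and_congr_right fun _ => ?_
  split_ifs <;> omega



theorem Ga_sub (h : V.Ok W) : V.Ga ⊆ V.mid := fun x hx => by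
  rw [mem_Ga h] at hx; rw [mem_mid h]; omega

theorem mid_sub (h : V.Ok W) : V.mid ⊆ an 0 (V.G.rho / 2) (2 * V.G.rho) := fun x hx => by
  have := scales h
  rw [mem_mid h] at hx; rw [mem_an0]; omega

theorem ul_sub (h : V.Ok W) : V.up ∪ V.lo ⊆ an 0 (V.G.rho / 2) (2 * V.G.rho) := fun x hx => by
  have := scales h
  rw [mem_ul] at hx; rw [mem_an0]; omega

theorem an_sub_A (h : V.Ok W) : an 0 (V.G.rho / 2) (2 * V.G.rho) ⊆ V.G.A :=
  Geo.an_mono 0 (by have := scales h; omega) (by have := scales h; omega)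

theorem mid_sub_A (h : V.Ok W) : V.mid ⊆ V.G.A := (mid_sub h).trans (an_sub_A h)
theorem Ga_sub_A (h : V.Ok W) : V.Ga ⊆ V.G.A := (Ga_sub h).trans (mid_sub_A h)

theorem card_Ga (h : V.Ok W) : V.Ga.card = 16 * 2 ^ V.j * V.ω ^ 2 := by
  rw [Gv.Ga, card_rng (by have := ω_le h; omega), rho_eq h]; ring

theorem card_mid (h : V.Ok W) : V.mid.card = 32 * 2 ^ V.j * V.ω ^ 2 := by
  rw [Gv.mid, card_rng (by have := ω_le h; omega), rho_eq h]; ring

/-! ## Cells -/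

theorem mem_cor {q : ℕ} {i : Pt} : i ∈ V.cor q ↔ i ∈ V.Ga ∧ (2 ^ q : ℤ) ∣ i.1 ∧ (2 ^ q : ℤ) ∣ i.2 :=
  mem_filter

theorem ω_eq {q : ℕ} (hq : q ≤ V.om2) : V.ω = 2 ^ q * 2 ^ (V.om2 - q) := by
  rw [← pow_add, Nat.add_sub_cancel' hq]; rfl

theorem cn_mem_Ga (h : V.Ok W) {q : ℕ} (hq : q ≤ V.om2) {x : Pt} : cn q x ∈ V.Ga ↔ x ∈ V.Ga := by
  have h0 : (0 : ℤ) < 2 ^ q := by positivity
  have e : (V.ω : ℤ) = 2 ^ q * 2 ^ (V.om2 - q) := by exact_mod_cast ω_eq hq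
  have e' : (V.G.rho : ℤ) = 2 ^ V.j * V.ω := by exact_mod_cast rho_eq h
  generalize (2 : ℤ) ^ (V.om2 - q) = m at e
  generalize (2 : ℤ) ^ V.j = n at e'
  have lo : ∀ u c : ℤ, 2 ^ q * c ≤ 2 ^ q * (u / 2 ^ q) ↔ 2 ^ q * c ≤ u := fun u c => by
    rw [mul_le_mul_iff_right₀ h0, Int.le_ediv_iff_mul_le h0, mul_comm]
  have hi : ∀ u c : ℤ, 2 ^ q * (u / 2 ^ q) < 2 ^ q * c ↔ u < 2 ^ q * c := fun u c => by
    rw [← not_le, lo, not_le]
  have e2 : (V.G.rho : ℤ) + V.ω = 2 ^ q * (n * m + m) := by rw [e', e]; ring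
  have e4 : (V.G.rho : ℤ) - V.ω = 2 ^ q * (n * m - m) := by rw [e', e]; ring
  rw [mem_Ga h, mem_Ga h, e2, e4, ← mul_neg, ← mul_neg]
  simp only [cn, tile, tileOf, Prod.fst_zero, Prod.snd_zero, zero_add, sub_zero, Nat.cast_pow,
    Nat.cast_ofNat, lo, hi]

theorem cn_mem_cor (h : V.Ok W) {q : ℕ} (hq : q ≤ V.om2) {x : Pt} : cn q x ∈ V.cor q ↔ x ∈ V.Ga := by
  rw [mem_cor, cn_mem_Ga h hq]; exact and_iff_left (cn_dvd q x)

theorem cel_subset (h : V.Ok W) {q : ℕ} (hq : q ≤ V.om2) {i : Pt} (hi : i ∈ V.cor q) :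
    sq i (2 ^ q) ⊆ V.Ga := fun x hx => by
  obtain ⟨-, h1, h2⟩ := mem_cor.1 hi
  rwa [← cn_mem_cor h hq, cn_eq h1 h2 hx]

theorem cel_union (h : V.Ok W) {q : ℕ} (hq : q ≤ V.om2) :
    (V.cor q).biUnion (fun i => sq i (2 ^ q)) = V.Ga := by
  ext x
  rw [mem_biUnion]
  exact ⟨fun ⟨i, hi, hx⟩ => cel_subset h hq hi hx, fun hx => ⟨_, (cn_mem_cor h hq).2 hx, mem_cn q x⟩⟩

theorem cel_disjoint (V : Gv) (q : ℕ) : (V.cor q : Set Pt).PairwiseDisjoint fun i => sq i (2 ^ q) :=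
  fun _ hi _ hj hij => disjoint_left.2 fun _ hx hx' => hij <|
    (cn_eq (mem_cor.1 hi).2.1 (mem_cor.1 hi).2.2 hx).symm.trans
      (cn_eq (mem_cor.1 hj).2.1 (mem_cor.1 hj).2.2 hx')

theorem card_cor (h : V.Ok W) {q : ℕ} (hq : q ≤ V.om2) :
    (V.cor q).card = 16 * 2 ^ V.j * 4 ^ (V.om2 - q) := by
  have h1 := card_Ga h
  rw [← cel_union h hq, card_biUnion (cel_disjoint V q), ω_eq hq] at h1
  simp only [card_sq, sum_const, smul_eq_mul] at h1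
  have h2 : (4 : ℕ) ^ (V.om2 - q) = (2 ^ (V.om2 - q)) ^ 2 := by
    rw [← pow_mul, mul_comm, pow_mul]; norm_num
  refine Nat.eq_of_mul_eq_mul_right (m := (2 ^ q) ^ 2) (by positivity) ?_
  rw [h1, h2]; ring

theorem cel_EA (h : V.Ok W) {q : ℕ} (hq : q ≤ V.om2) {i : Pt} (hi : i ∈ V.cor q) :
    Pot.nL.edI (sq i (2 ^ q)) ⊆ V.EA := fun e he => by
  obtain ⟨hJ, h1, h2⟩ := Lat.mem_edI.1 he
  rw [Gv.EA, mem_kp h, Lat.mem_edT]
  refine ⟨⟨hJ, Or.inl (Ga_sub_A h (cel_subset h hq hi h1))⟩, fun ⟨a, b, _⟩ => ?_⟩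
  obtain ⟨-, -, ⟨t, ht⟩⟩ := mem_cor.1 hi
  have h0 : (0 : ℤ) < 2 ^ q := by positivity
  rw [mem_sq] at h1 h2
  push_cast at h1 h2
  have k1 : 2 ^ q * t < 2 ^ q * 0 := by omega
  have k2 : 2 ^ q * 0 < 2 ^ q * (t + 1) := by rw [mul_add]; omega
  have := lt_of_mul_lt_mul_left k1 h0.le
  have := lt_of_mul_lt_mul_left k2 h0.le
  omega

/-! ## Sites, edges, seams -/

theorem k_off (h : V.Ok W) : V.k1 ∉ V.G.Om ∧ V.k2 ∉ V.G.Om ∧ V.k1 ≠ V.k2 ∧ V.rt ∈ V.G.Ou := by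
  have := scales h
  simp only [Gv.k1, Gv.k2, Gv.rt, Gm.Om, Gm.Ou, mem_an0, Ne, Prod.ext_iff, Prod.fst_zero, Prod.snd_zero]
  omega

theorem kp_mono {ed ed' : Finset (Pt × Pt)} (h : ed ⊆ ed') : V.kp ed ⊆ V.kp ed' :=
  filter_subset_filter _ h


theorem EA_sub (h : V.Ok W) : V.EA ⊆ V.EO := kp_mono (Kr.Geo87.nL_edT_A h.g)

theorem slit (h : V.Ok W) {e : Pt × Pt} (he : e ∈ Pot.nL.edI V.G.Om) :
    e ∉ V.EO ↔ e.1 ∈ V.lip ∧ e.1.2 = -1 ∧ e.2 = e.1 + (0, 1) := by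
  rw [Gv.EO, mem_kp h, mem_lip, Prod.ext_iff]
  simp only [he, true_and, Prod.fst_add, Prod.snd_add]
  omega

theorem seam (V : Gv) (e : Pt × Pt) :
    (V.s1 e ≠ 0 → V.s1 e = 1 ∧ V.s2 e = 0 ∧ e.1.2 = -1 ∧ e.2 = e.1 + (0, 1) ∧ 0 ≤ e.1.1 ∧
      e.1.1 < (V.G.rho : ℤ) - 4 * V.ω) ∧
    (V.s2 e ≠ 0 → V.s2 e = 1 ∧ V.s1 e = 0 ∧ e.1.2 = -1 ∧ e.2 = e.1 + (0, 1) ∧
      (V.G.rho : ℤ) + 4 * V.ω ≤ e.1.1) := by
  simp only [Gv.s1, Gv.s2, ray0, Prod.ext_iff, Prod.fst_add, Prod.snd_add]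
  split_ifs <;> omega

/-! ## Connectedness -/

theorem row (h : V.Ok W) (y a b : ℤ) (hab : a ≤ b) (hO : ∀ t, a ≤ t → t ≤ b → (t, y) ∈ V.G.Om) :
    Conn V.EO (a, y) (b, y) := by
  induction b, hab using Int.leInduction with
  | base => exact Conn.refl _ _
  | succ n hn ih =>
    refine (ih fun t h1 h2 => hO t h1 (by omega)).trans (Conn.edge ?_)
    rw [Gv.EO, mem_kp h, Lat.mem_edI, nJp_iff]
    exact ⟨⟨by simp, hO _ hn (by omega), hO _ (by omega) le_rfl⟩, by simp only; omega⟩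

theorem col (h : V.Ok W) (x a b : ℤ) (hab : a ≤ b) (hO : ∀ t, a ≤ t → t ≤ b → (x, t) ∈ V.G.Om)
    (hx : x < (V.G.rho : ℤ) - 4 * V.ω ∨ (V.G.rho : ℤ) + 4 * V.ω ≤ x) : Conn V.EO (x, a) (x, b) := by
  induction b, hab using Int.leInduction with
  | base => exact Conn.refl _ _
  | succ n hn ih =>
    refine (ih fun t h1 h2 => hO t h1 (by omega)).trans (Conn.edge ?_)
    rw [Gv.EO, mem_kp h, Lat.mem_edI, nJp_iff]
    exact ⟨⟨by simp, hO _ hn (by omega), hO _ (by omega) le_rfl⟩, by simp only; omega⟩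

theorem conn (h : V.Ok W) {x : Pt} (hx : x ∈ V.G.Om) : Conn V.EO x V.rt := by
  have := scales h
  obtain ⟨a, b⟩ := x
  simp only [Gm.Om, mem_an0] at hx
  by_cases hc : a < -(V.G.c : ℤ)
  · refine ((row h b (-V.G.R₂) a (by omega) fun t h1 h2 => ?_).symm.trans
      (col h (-V.G.R₂) b V.G.R₂ (by omega) (fun t h1 h2 => ?_) (by omega))).trans
      (row h V.G.R₂ (-V.G.R₂) V.G.R₂ (by omega) fun t h1 h2 => ?_) <;>
    simp only [Gm.Om, mem_an0] <;> omega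
  · refine (row h b a V.G.R₂ (by omega) fun t h1 h2 => ?_).trans
      (col h V.G.R₂ b V.G.R₂ (by omega) (fun t h1 h2 => ?_) (by omega)) <;>
    simp only [Gm.Om, mem_an0] <;> omega

end Geo32

theorem geoStmt : GeoStmt := fun V _ h =>
  { r_le := Kr.Geo87.r_le h.g
    rho_le := Kr.Geo87.rho_le h.g
    le_rho := Kr.Geo87.le_rho V.G
    rho_eq := Geo32.rho_eq h
    ω16 := Geo32.ω16 h
    ω_le := Geo32.ω_le h
    Ga_sub := Geo32.Ga_sub h
    mid_sub := Geo32.mid_sub h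
    ul_sub := Geo32.ul_sub h
    card_Ga := Geo32.card_Ga h
    card_mid := Geo32.card_mid h
    cells := fun q hq => ⟨Geo32.cel_union h hq, Geo32.cel_disjoint V q, Geo32.card_cor h hq,
      fun _ hi => Geo32.cel_EA h hq hi⟩
    k_off := Geo32.k_off h
    EA_sub := Geo32.EA_sub h
    slit := fun _ he => Geo32.slit h he
    seam := Geo32.seam V
    conn := fun _ hx => Geo32.conn h hx }

end Crest.Agent.T145.Kv
end

-- ▼ part T145/KvGff_16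
section

/-!
# Row 145, module Kv: `Kv.gffStmt` (helper16)
-/

set_option autoImplicit false

namespace Crest.Agent.T145.Kv

open Finset Real

namespace Gf16

variable {V : Gv}

theorem X_add (V : Gv) (u v : Pt → ℝ) : V.X (u + v) = V.X u + V.X v := by
  simp only [Gv.X, gfl, map_add, add_smul, sum_add_distrib]

theorem X_smul (V : Gv) (t : ℝ) (u : Pt → ℝ) : V.X (t • u) = t • V.X u := by
  simp only [Gv.X, gfl, map_smul, smul_eq_mul, mul_smul, smul_sum]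

theorem glue_smul (V : Gv) (t : ℝ) (u : Fin 3 → Pt → ℝ) : V.glue (t • u) = t • V.glue u := by
  simp only [Gv.glue, Pi.smul_apply, Pot.on_smul, smul_add]

theorem pc_smul {K K' t : ℝ} {u : Fin 3 → Pt → ℝ} (h : V.Pc K u) (hR : (0 : ℝ) < V.G.R) (hK : 0 < K)
    (hKK : K ≤ K') (ht : |t| * K ≤ K') : V.Pc K' (t • u) := by
  have hb : ∀ x : Pt, bl x ⌊(V.G.R : ℝ) / K'⌋₊ ⊆ bl x ⌊(V.G.R : ℝ) / K⌋₊ := fun x =>
    bl_mono x (Nat.floor_le_floor (by gcongr))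
  have hne : ∀ i x, (t • u) i x ≠ 0 → u i x ≠ 0 := fun i x h1 h2 => h1 (by simp [h2])
  refine ⟨fun i => ⟨F45.sm2_smul (h.sm i).1 hR ht, fun x => ?_⟩,
    fun x hx => (hb x).trans (h.s0 x (hne 0 x hx)),
    fun x hx => (hb x).trans (h.s12 x (hx.imp (hne 1 x) (hne 2 x)))⟩
  rw [Pi.smul_apply, Pi.smul_apply, smul_eq_mul, abs_mul]
  exact (mul_le_mul_of_nonneg_left ((h.sm i).2 x) (abs_nonneg t)).trans ht

/-- the extended weight is a product of edge kernels and of a positive definite factor -/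
theorem rw_eq (V : Gv) (Λ : Lat) : ∃ H : Cfg Pt → ℝ, PD H ∧ (∀ s, 0 ≤ H s) ∧
    ∀ s, V.rw Λ s = H s * ∏ e ∈ V.EO, Λ.w (V.gk e s) := by
  refine ⟨fun s => ind (Finsupp.applyAddHom V.rt s = 0) *
      ind (∀ x, x ∉ insert V.k1 (insert V.k2 V.G.Om) → s x = 0),
    (pd_ind _).mul (pd_off _), fun s => mul_nonneg (ind_nonneg _) (ind_nonneg _), fun s => ?_⟩
  rw [Gv.rw, Gv.rho, ← mul_assoc]
  congr 2
  refine ind_congr (forall_congr' fun x => ?_)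
  simp only [mem_insert, not_or]
  tauto

/-- the bare bound for `X_w` -/
theorem bare (hB : BrgStmt) {Λ : Lat} (hO : Λ.Ok) (hE : V.EA ⊆ V.EO) (hc : Cen (V.rw Λ)) {w : Pt → ℝ}
    (hw : V.B w w ≤ 1) : M (V.rw Λ) (V.X w) ≤ Λ.τ * V.B w w := by
  obtain ⟨H, h1, h2, h3⟩ := rw_eq V Λ
  have h4 := hB Λ _ (V.rw Λ) H V.gk V.EO (fun e => if e ∈ V.EA then V.Gk e w else 0) hO hc.wt hc.se
    h1 h2 h3
  have e1 : gfl V.EO (fun e => if e ∈ V.EA then V.Gk e w else 0) V.gk = V.X w := by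
    rw [Gv.X, gfl, gfl, ← sum_subset hE fun e _ he => by rw [if_neg he, zero_smul]]
    exact sum_congr rfl fun e he => by rw [if_pos he]
  have e2 : V.B w w = ∑ e ∈ V.EA, V.Gk e w ^ 2 := by
    rw [Gv.B, Gv.eT, Pot.sqF_apply]
    exact sum_congr rfl fun e _ => by ring
  rw [e1, ← sum_subset hE fun e _ he => by rw [if_neg he, cosh_zero, sub_self]] at h4
  refine h4.trans (mul_le_mul_of_nonneg_left ?_ hO.2.le)
  rw [e2] at hw ⊢
  refine sum_le_sum fun e he => ?_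
  rw [if_pos he]
  have h5 : V.Gk e w ^ 2 ≤ 1 := (single_le_sum (f := fun e => V.Gk e w ^ 2)
    (fun _ _ => sq_nonneg _) he).trans hw
  have h6 : cosh (V.Gk e w) ≤ cosh 1 := cosh_le_cosh.2 (by
    rw [abs_one]; exact (sq_le_one_iff_abs_le_one _).1 h5)
  nlinarith [cosh_sub_one_le (V.Gk e w), cosh_one_le_two, sq_nonneg (V.Gk e w)]

theorem A_sub {W : ℝ} (h : V.Ok W) : V.G.A ⊆ V.G.Om :=
  sdiff_subset_sdiff (bl_mono 0 (by have := h.g.out; omega)) (bl_mono 0 (by have := h.g.hc; omega))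

theorem ul_sub (hg : V.Geo) : V.up ∪ V.lo ⊆ V.G.A :=
  hg.ul_sub.trans (sdiff_subset_sdiff (bl_mono 0 (by have := hg.rho_le; omega))
    (bl_mono 0 (by have := hg.r_le; omega)))

theorem sup_glue (hg : V.Geo) {K : ℝ} {u : Fin 3 → Pt → ℝ} (h : V.Pc K u) :
    Pot.Sup V.G.A (V.glue u) := by
  refine (Pot.Sup.add (fun x hx => ?_) ((Pot.sup_on _ _).mono (subset_union_left.trans (ul_sub hg)))).add
    ((Pot.sup_on _ _).mono (subset_union_right.trans (ul_sub hg)))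
  by_contra h0
  exact hx (mem_sdiff.1 (h.s0 x h0 (self_mem_bl _ _))).1

theorem B_eq {W : ℝ} (h : V.Ok W) (hg : V.Geo) (ha : V.Alg) {u v : Pt → ℝ} (hu : Pot.Sup V.G.A u)
    (hv : Pot.Sup V.G.A v) : V.B u v = Pot.edF V.EA u v :=
  ha.plain _ u v (hu _ fun hx => hg.k_off.1 (A_sub h hx)) (hu _ fun hx => hg.k_off.2.1 (A_sub h hx))
    (hv _ fun hx => hg.k_off.1 (A_sub h hx)) (hv _ fun hx => hg.k_off.2.1 (A_sub h hx))

theorem G_eq (ha : V.Alg) (f g : Pt → ℝ) :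
    Pot.G V.G.A V.B f g = Pot.G V.G.A (Pot.edF V.EA) f g := by rw [Pot.G, Pot.G, ha.gr_eq]

theorem one_le_R (hg : V.Geo) : 1 ≤ V.G.R := by
  have h1 := hg.rho_le
  have h2 := hg.ω16
  have h3 := hg.ω_le
  omega

/-- the Green energy of a bounded density -/
theorem G_le (hg : V.Geo) (ha : V.Alg) {f : Pt → ℝ} {K : ℝ}
    (hf : ∀ x ∈ V.G.A, |f x| ≤ K / (V.G.R : ℝ) ^ 2) : Pot.G V.G.A (Pot.edF V.EA) f f ≤ 36 * K ^ 2 := by
  have hR : (1 : ℝ) ≤ V.G.R := by exact_mod_cast one_le_R hg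
  refine ha.coE.G_le_of (by positivity) fun u hu => ?_
  have h1 : Pot.ip V.G.A f u ^ 2 ≤ (∑ x ∈ V.G.A, f x ^ 2) * ∑ x ∈ V.G.A, u x ^ 2 :=
    sum_mul_sq_le_sq_mul_sq _ _ _
  have h2 : (V.G.A.card : ℝ) ≤ (3 * V.G.R) ^ 2 := by
    have := card_le_card (sdiff_subset : V.G.A ⊆ bl 0 V.G.R)
    rw [card_bl] at this
    have h5 : (V.G.A.card : ℝ) ≤ (2 * (V.G.R : ℝ) + 1) ^ 2 := by exact_mod_cast this
    exact h5.trans (pow_le_pow_left₀ (by positivity) (by linarith) 2)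
  have h3 : ∑ x ∈ V.G.A, f x ^ 2 ≤ (3 * V.G.R) ^ 2 * (K / (V.G.R : ℝ) ^ 2) ^ 2 := by
    have := sum_le_card_nsmul V.G.A (fun x => f x ^ 2) ((K / (V.G.R : ℝ) ^ 2) ^ 2) fun x hx => by
      rw [← sq_abs]; exact pow_le_pow_left₀ (abs_nonneg _) (hf x hx) 2
    rw [nsmul_eq_mul] at this
    exact this.trans (mul_le_mul_of_nonneg_right h2 (sq_nonneg _))
  refine h1.trans ((mul_le_mul h3 (ha.poin u hu) (sum_nonneg fun _ _ => sq_nonneg _)
    (by positivity)).trans (le_of_eq ?_))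
  field_simp
  ring

end Gf16

open Gf16

set_option maxHeartbeats 1600000 in
/-- GFF -/
theorem gffStmt (hP : P0Stmt) (h1 : T1Stmt) (hD : DlStmt) (hB : BrgStmt) (hA : AFacStmt)
    (hT : T1aStmt) (hG : GeoStmt) (hAl : AlgStmt) (hX : ExtStmt) : GffStmt := by
  intro F θ₀ W K j hJ hθ hK K' ε hε
  obtain ⟨_, hT⟩ := hT F
  set T : ℝ := |F.τ₂| + 1 with hTd
  have hT1 : 1 ≤ T := by linarith [abs_nonneg F.τ₂]
  set C : ℝ := 36 * K' ^ 2 with hC
  have hC0 : 0 ≤ C := by positivity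
  obtain ⟨R, ε₁, hR0, hε₁, H⟩ := hA.2.2 (T * C) ε hε
  set s : ℝ := min 1 (ε₁ / (2 * T * (1 + R ^ 2) * (2 * √C + 1))) with hs
  have hs0 : 0 < s := by positivity
  have b1 : s * (2 * T * (1 + R ^ 2) * (2 * √C + 1)) ≤ ε₁ :=
    (le_div_iff₀ (by positivity)).1 (min_le_right _ _)
  set n : ℝ := min (s ^ 2) (min (1 / R ^ 2) (ε₁ / (T * R ^ 2))) with hn
  have hn0 : 0 < n := by positivity
  have b2 : n * R ^ 2 ≤ 1 := (le_div_iff₀ (by positivity)).1 ((min_le_right _ _).trans (min_le_left _ _))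
  have b3 : n * (T * R ^ 2) ≤ ε₁ :=
    (le_div_iff₀ (by positivity)).1 ((min_le_right _ _).trans (min_le_right _ _))
  obtain ⟨K₁, R₀, hK₁, P⟩ := hP W K' n j hn0
  have hKR : K₁ ≤ (R + 1) * K₁ := by nlinarith
  obtain ⟨δ₁, hδ₁, Q₁⟩ := h1 F θ₀ W K j hJ hθ hK ((R + 1) * K₁) (ε₁ / 2) (hK₁.trans hKR) (by positivity)
  obtain ⟨δ₂, hδ₂, Q₂⟩ := hD F θ₀ W K j hJ hθ hK K₁ (ε₁ / 2) hK₁ (by positivity)
  refine ⟨min (min δ₁ δ₂) (1 / ((⌈K * R₀⌉₊ : ℝ) + 1)), by positivity,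
    fun Λ hΛ l L hw V hV hj hAt f hf => ?_⟩
  have hO := F45.ok hΛ
  have hg := hG V W hV
  have ha := hAl V W hV
  have hx := hX Λ V W hO (hΛ.1.trans hJ) hV
  have hτ : Λ.τ ≤ T := by linarith [hΛ.2.2.2, le_abs_self F.τ₂]
  obtain ⟨h0, h1', -⟩ := hT Λ hΛ l (F45.win_l hw)
  obtain ⟨he0, he1⟩ := Kr.Ga45.inv_e0 hΛ
  have g0 : 0 ≤ Λ.gN l := div_nonneg h0 he0.le
  have g1 : Λ.gN l ≤ T := by
    rw [Lat.gN, div_eq_mul_inv]; exact (mul_le_of_le_one_left (inv_pos.2 he0).le h1').trans he1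
  have hR : (1 : ℝ) ≤ V.G.R := by exact_mod_cast one_le_R hg
  have hR₀ : R₀ ≤ V.G.R := by
    have h2 : (⌈K * R₀⌉₊ : ℝ) ≤ L := by exact_mod_cast F45.win_large hw (min_le_right _ _)
    have h3 := (Nat.le_ceil (K * R₀)).trans (h2.trans hAt.2)
    exact_mod_cast le_of_mul_le_mul_left h3 (by linarith)
  obtain ⟨u, hu, hE⟩ := P V hV hj hR₀ f hf
  rw [G_eq ha, ha.gr_eq]
  have hc := ha.coE
  have hG0 := hc.G_nonneg f
  have hG1 : Pot.G V.G.A (Pot.edF V.EA) f f ≤ C := G_le hg ha hf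
  have hGe := hc.G_eq f f
  have hsv := hc.gr_sup f
  set v := Pot.gr V.G.A (Pot.edF V.EA) f
  set G := Pot.G V.G.A (Pot.edF V.EA) f f
  have q1 := fun (t : ℝ) (ht : |t| ≤ R) => (Q₁ Λ hΛ l L
    (F45.win_mono hw ((min_le_left _ _).trans (min_le_left _ _))) V hV hj hAt (t • u)
    (pc_smul hu (by linarith) (by linarith) hKR (mul_le_mul_of_nonneg_right (by linarith) (by linarith)))).2
  have q2 := Q₂ Λ hΛ l L (F45.win_mono hw ((min_le_left _ _).trans (min_le_right _ _))) V hV hj hAt u hu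
  have hsw := sup_glue hg hu
  simp only [glue_smul, X_smul, map_smul, LinearMap.smul_apply, smul_eq_mul] at q1
  set w := V.glue u
  set E := Pot.edF V.EA w w with hEd
  have hEG : |E - G| ≤ s * (2 * √C + 1) := by
    have hs1 : √(Pot.edF V.EA (v - w) (v - w)) ≤ s :=
      (Real.sqrt_le_left hs0.le).2 (hE.trans (min_le_left _ _))
    have t1 := hc.toSy.sqrt_add w (v - w)
    have t2 := hc.toSy.sqrt_add v (w - v)
    have t3 : Pot.edF V.EA (w - v) (w - v) = Pot.edF V.EA (v - w) (v - w) := by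
      rw [← neg_sub v w]; simp only [map_neg, LinearMap.neg_apply, neg_neg]
    rw [add_sub_cancel] at t1 t2
    rw [t3] at t2
    exact F45.abs_sub_of_sqrt hG0 (hc.nonneg w) hG1
      (by rw [hGe, abs_le]; constructor <;> linarith) (min_le_left _ _)
  have hv : |Λ.gN l * E - Λ.gN l * G| ≤ ε₁ / (2 * (1 + R ^ 2)) := by
    rw [← mul_sub, abs_mul, abs_of_nonneg g0, le_div_iff₀ (by positivity)]
    have := mul_le_mul g1 hEG (abs_nonneg _) (by linarith)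
    nlinarith [mul_le_mul_of_nonneg_right this (by positivity : 0 ≤ 2 * (1 + R ^ 2))]
  set η := ε₁ / (2 * (1 + R ^ 2)) with hη
  have hη0 : 0 < η := by positivity
  have hη1 : η * (2 * (1 + R ^ 2)) = ε₁ := div_mul_cancel₀ _ (by positivity)
  have hR2 : ∀ t : ℝ, |t| ≤ R → t ^ 2 ≤ R ^ 2 := fun t ht => by
    rw [← sq_abs]; exact pow_le_pow_left₀ (abs_nonneg t) ht 2
  have m1 : ∀ t : ℝ, |t| ≤ R → M (V.rw Λ) (t • V.X w) ≤ Λ.gN l * G * t ^ 2 / 2 + ε₁ := fun t ht => by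
    have h4 := mul_le_mul (abs_le.1 hv).2 (hR2 t ht) (sq_nonneg t) hη0.le
    nlinarith [q1 t ht]
  have m2 : ∀ t : ℝ, |t| ≤ R → M (V.rw Λ) (t • V.X (v - w)) ≤ ε₁ := fun t ht => by
    have e : V.B (t • (v - w)) (t • (v - w)) = t ^ 2 * Pot.edF V.EA (v - w) (v - w) := by
      rw [← B_eq hV hg ha (hsv.sub hsw) (hsv.sub hsw)]
      simp only [map_smul, LinearMap.smul_apply, smul_eq_mul]; ring
    have h4 : V.B (t • (v - w)) (t • (v - w)) ≤ R ^ 2 * n := by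
      rw [e]; exact mul_le_mul (hR2 t ht) hE (hc.nonneg _) (sq_nonneg R)
    rw [← X_smul]
    refine (bare hB hO hg.EA_sub hx.cen (by linarith)).trans ?_
    have h5 := mul_le_mul hτ h4 (ha.coA.nonneg _) (by linarith)
    linarith
  have m3 : Λ.gN l * G - ε₁ ≤ Vr ((V.m0 Λ).W 0) (V.X w) (V.X w) := by
    nlinarith [(abs_le.1 hv).1, mul_nonneg hη0.le (sq_nonneg R)]
  have hab : |Λ.gN l * G| ≤ T * C := by
    rw [abs_of_nonneg (mul_nonneg g0 hG0)]; exact mul_le_mul g1 hG1 hG0 (by linarith)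
  have c0 := hx.m0.1.cen hx.m0.2
  have e : V.X v = V.X w + V.X (v - w) := by rw [← X_add, add_sub_cancel]
  rw [e]
  exact ⟨H _ _ _ _ _ c0 hab (fun t ht => (hx.loc.1 _).trans (m1 t ht)) m3
      fun t ht => (hx.loc.1 _).trans (m2 t ht),
    H _ _ _ _ _ hx.cen hab m1 (m3.trans (hx.loc.Vr_le c0 hx.cen _)) m2⟩

end Crest.Agent.T145.Kv
end

-- ▼ part T145/PotW_17
section

/-!
# Row 145 (helper17): the ring form and screening for a general (twisted) energy form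

`Kw56.rgB` with `edF ed` replaced by a form `B` that agrees with `edF ed` on functions supported in `A`.
-/

set_option autoImplicit false
set_option linter.unusedSectionVars false

namespace Crest.Agent.T145.Pot.Tw

open Finset Kw56

section abstract
variable {V ι : Type*} [DecidableEq V] {ed : Finset (V × V)} {T : Finset ι} {β : ι → Finset V}
  {A Γ : Finset V} {P c κ : ℝ} {B : Bf V}

/-- the screened form -/
noncomputable def scG (c : ℝ) (B : Bf V) (T : Finset ι) (β : ι → Finset V) (κ : ℝ) : Bf V :=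
  c • B + cellF T β κ

/-- the ring form -/
noncomputable def rgG (A : Finset V) (c : ℝ) (B : Bf V) (T : Finset ι) (β : ι → Finset V) (κ : ℝ)
    (m m' : V → ℝ) : ℝ :=
  scG c B T β κ (hx A (scG c B T β κ) m) (hx A (scG c B T β κ) m') - c * B m m'


theorem scG_apply (u v : V → ℝ) : scG c B T β κ u v = c * B u v + cellF T β κ u v := by simp [scG]

theorem co_scG (hA : Co A B) (hc : 0 < c) (hκ : 0 ≤ κ) (T : Finset ι) (β : ι → Finset V) :
    Co A (scG c B T β κ) := (hA.smul hc).add (sy_cellF T β hκ)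

theorem add_of_hm (hA : Co A B) {m u : V → ℝ} (hm : Hm A B m) (hu : Sup A u) :
    B (m + u) (m + u) = B m m + B u u := by rw [hA.toSy.sq_add, hm u hu]; ring

theorem rgG_le (hA : Co A B) (hc : 0 < c) (hκ : 0 ≤ κ) {m u : V → ℝ} (hm : Hm A B m) (hu : Sup A u) :
    rgG A c B T β κ m m ≤ c * B u u + cellF T β κ (m + u) (m + u) := by
  have := (co_scG hA hc hκ T β).hx_min (η := m) (u := m + u) fun x hx => by simp [hu x hx]
  rw [scG_apply (m + u), add_of_hm hA hm hu] at this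
  unfold rgG; linarith

theorem rgG_eq (hA : Co A B) (hc : 0 < c) (hκ : 0 ≤ κ) {m : V → ℝ} (hm : Hm A B m) :
    rgG A c B T β κ m m = c * B (hx A (scG c B T β κ) m - m) (hx A (scG c B T β κ) m - m) +
      cellF T β κ (hx A (scG c B T β κ) m) (hx A (scG c B T β κ) m) := by
  have := add_of_hm hA hm (sup_hx_sub (co_scG hA hc hκ T β) m)
  rw [add_sub_cancel] at this
  unfold rgG
  rw [scG_apply, this]; ring

theorem rgG_nonneg (hA : Co A B) (hc : 0 < c) (hκ : 0 ≤ κ) {m : V → ℝ} (hm : Hm A B m) :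
    0 ≤ rgG A c B T β κ m m := by
  rw [rgG_eq hA hc hκ hm]
  exact add_nonneg (mul_nonneg hc.le (hA.nonneg _)) ((sy_cellF T β hκ).nonneg _)

theorem rgG_le_cut (hA : Co A B) (hc : 0 < c) (hκ : 0 ≤ κ) {m ζ : V → ℝ} (hm : Hm A B m)
    (hs : Sup A fun x => ζ x * m x) (hζ : ∀ i ∈ T, ∀ x ∈ β i, ζ x = 1) :
    rgG A c B T β κ m m ≤ c * B (fun x => ζ x * m x) (fun x => ζ x * m x) := by
  have := rgG_le (T := T) (β := β) hA hc hκ hm hs.neg
  rw [cellF_congr κ (u' := 0) (v' := 0) (fun i hi x hx => by simp [hζ i hi x hx])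
    (fun i hi x hx => by simp [hζ i hi x hx])] at this
  simpa using this

theorem rgG_comm (hA : Co A B) (hc : 0 < c) (hκ : 0 ≤ κ) (m m' : V → ℝ) :
    rgG A c B T β κ m m' = rgG A c B T β κ m' m := by
  rw [rgG, rgG, (co_scG hA hc hκ T β).symm, hA.symm]

theorem rgG_add_left (hA : Co A B) (hc : 0 < c) (hκ : 0 ≤ κ) (m₁ m₂ m' : V → ℝ) :
    rgG A c B T β κ (m₁ + m₂) m' = rgG A c B T β κ m₁ m' + rgG A c B T β κ m₂ m' := by
  simp only [rgG, (co_scG hA hc hκ T β).hx_add, map_add, LinearMap.add_apply]; ring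

theorem rgG_smul_left (hA : Co A B) (hc : 0 < c) (hκ : 0 ≤ κ) (a : ℝ) (m m' : V → ℝ) :
    rgG A c B T β κ (a • m) m' = a * rgG A c B T β κ m m' := by
  simp only [rgG, (co_scG hA hc hκ T β).hx_smul, map_smul, LinearMap.smul_apply, smul_eq_mul]; ring

theorem rgG_add_sq (hA : Co A B) (hc : 0 < c) (hκ : 0 ≤ κ) (m m' : V → ℝ) :
    rgG A c B T β κ (m + m') (m + m') =
      rgG A c B T β κ m m + 2 * rgG A c B T β κ m m' + rgG A c B T β κ m' m' := by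
  rw [rgG_add_left hA hc hκ, rgG_comm hA hc hκ m, rgG_comm hA hc hκ m', rgG_add_left hA hc hκ,
    rgG_add_left hA hc hκ, rgG_comm hA hc hκ m' m]
  ring

theorem rgG_add_le (hA : Co A B) (hc : 0 < c) (hκ : 0 ≤ κ) {m m' : V → ℝ} (hm : Hm A B m)
    (hm' : Hm A B m') : rgG A c B T β κ (m + m') (m + m') ≤
      2 * (rgG A c B T β κ m m + rgG A c B T β κ m' m') := by
  have h := rgG_nonneg (T := T) (β := β) hA hc hκ (Hm.add' hm (Hm.smul' hm' (-1)))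
  rw [rgG_add_sq hA hc hκ, rgG_smul_left hA hc hκ, rgG_comm hA hc hκ m ((-1 : ℝ) • m'),
    rgG_smul_left hA hc hκ, rgG_comm hA hc hκ m' ((-1 : ℝ) • m'), rgG_smul_left hA hc hκ,
    rgG_comm hA hc hκ m' m] at h
  rw [rgG_add_sq hA hc hκ]; linarith

theorem rgG_eq_cell (hA : Co A B) (hc : 0 < c) (hκ : 0 ≤ κ) (m : V → ℝ) {m' : V → ℝ}
    (hm' : Hm A B m') : rgG A c B T β κ m m' = cellF T β κ (hx A (scG c B T β κ) m) m' := by
  have hF := co_scG hA hc hκ T β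
  have h1 := hF.hx_hm m _ (sup_hx_sub hF m')
  have h2 := hm' _ (sup_hx_sub hF m)
  rw [map_sub] at h1
  rw [hA.symm, map_sub, LinearMap.sub_apply] at h2
  rw [rgG, sub_eq_zero.1 h1, scG_apply, sub_eq_zero.1 h2]
  ring

theorem hx_scG (hA : Co A B) (hc : 0 < c) (hκ : 0 ≤ κ) (hβ : ∀ i ∈ T, β i ⊆ A) {m : V → ℝ}
    (hm : Hm A B m) : hx A (scG c B T β κ) m =
      m - c⁻¹ • gr A B (chC T β κ (hx A (scG c B T β κ) m)) := by
  have hF := co_scG hA hc hκ T β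
  have : gr A B (chC T β κ (hx A (scG c B T β κ) m)) = c • (m - hx A (scG c B T β κ) m) := by
    refine hA.gr_unique (Sup.smul (fun x hx' => by simp [hF.hx_off m hx']) c) fun φ hφ => ?_
    have h1 := hF.hx_hm m φ hφ
    rw [scG_apply] at h1
    rw [ip_chC hβ, map_smul, LinearMap.smul_apply, map_sub, LinearMap.sub_apply, hm φ hφ,
      smul_eq_mul]
    linarith
  rw [this, smul_smul, inv_mul_cancel₀ hc.ne', one_smul, sub_sub_cancel]

theorem co_of_agree (hA : Co A B) (hE : ∀ u v, Sup A u → Sup A v → B u v = edF ed u v) :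
    Co A (edF ed) := ⟨sy_edF ed, fun u hu h => hA.defn u hu ((hE u u hu hu).trans h)⟩

open Matrix in
/-- `B (m, m') = m̄ · (Σ + S⁻¹)⁻¹ m̄'` -/
theorem rgG_eq_tl [Fintype ι] [DecidableEq ι] (hA : Co A B)
    (hE : ∀ u v, Sup A u → Sup A v → B u v = edF ed u v) (hc : 0 < c) (hκ : 0 ≤ κ)
    (hβ : ∀ i, β i ⊆ A) {m m' : V → ℝ} (hm : Hm A B m) (hm' : Hm A B m') :
    rgG A c B univ β κ m m' =
      (fun i => avL (β i) m) ⬝ᵥ Gs.tl (msM β κ) (sgM A c ed β) *ᵥ fun i => avL (β i) m' := by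
  have hA' := co_of_agree hA hE
  rw [rgG_comm hA hc hκ, rgG_eq_cell hA hc hκ m' hm, (sy_cellF univ β hκ).symm, cellF_eq_dot]
  congr 1
  have h1 := hx_scG (T := univ) hA hc hκ (fun i _ => hβ i) hm'
  rw [gr_congr_form hE] at h1
  set v := hx A (scG c B univ β κ) m'
  have h2 : ((1 + sgM A c ed β * msM β κ) *ᵥ fun i => avL (β i) v) = fun i => avL (β i) m' := by
    funext i
    have h3 := congrArg (avL (β i)) h1
    rw [map_sub, map_smul, ← ip_unC (hβ i) (gr _ _ _), chC_eq_sum] at h3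
    have h4 := sgM_quad hA' c β (Pi.single i 1) (msM β κ *ᵥ fun i => avL (β i) v)
    simp only [single_dotProduct, one_mul, Pi.single_apply, ite_smul, one_smul, zero_smul,
      sum_ite_eq', mem_univ, if_true] at h4
    rw [add_mulVec, one_mulVec, ← mulVec_mulVec, Pi.add_apply, h4, h3, G, smul_eq_mul]
    ring
  rw [← h2, Gs.tl, mulVec_mulVec, Matrix.mul_assoc, nonsing_inv_mul _
    (Gs.unit_psd (sgM_psd hA' hc.le β) (msM_psd β hκ)), Matrix.mul_one]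

theorem apriori (h : Cells ed T β Γ P) (hA : Co A B)
    (hE : ∀ u v, Sup A u → Sup A v → B u v = edF ed u v) (hc : 0 < c) (hκ : 0 ≤ κ) {m ζ : V → ℝ}
    (hm : Hm A B m) (hs : Sup A fun x => ζ x * m x) (hζ : ∀ x ∈ Γ, ζ x = 1) :
    edF (inn Γ ed) (hx A (scG c B T β κ) m) (hx A (scG c B T β κ) m) ≤
        4 * edF ed (fun x => ζ x * m x) (fun x => ζ x * m x) ∧
      κ * ∑ x ∈ Γ, hx A (scG c B T β κ) m x ^ 2 ≤
        (c + 4 * (κ * P)) * edF ed (fun x => ζ x * m x) (fun x => ζ x * m x) := by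
  have h1 := rgG_le_cut (T := T) (β := β) hA hc hκ hm hs fun i hi x hx => hζ x (h.sub hi hx)
  have s0 := sup_hx_sub (co_scG hA hc hκ T β) m
  rw [rgG_eq hA hc hκ hm, hE _ _ hs hs, hE _ _ s0 s0] at h1
  set v := hx A (scG c B T β κ) m
  set Ea := edF ed (fun x => ζ x * m x) (fun x => ζ x * m x)
  have q0 := (sy_cellF T β hκ).nonneg v
  have e0 := (sy_edF ed).nonneg (v - m)
  have h2 : edF ed (v - m) (v - m) ≤ Ea := by
    refine le_of_mul_le_mul_left ?_ hc; linarith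
  have h3 : edF (inn Γ ed) m m ≤ Ea := by
    refine le_trans (le_of_eq ?_) (edF_mono (filter_subset _ _ : inn Γ ed ⊆ ed) _)
    rw [edF_self, edF_self]
    refine sum_congr rfl fun e he => ?_
    rw [hζ _ (mem_filter.1 he).2.1, hζ _ (mem_filter.1 he).2.2, one_mul, one_mul]
  have h4 : edF (inn Γ ed) (v - m) (v - m) ≤ edF ed (v - m) (v - m) :=
    edF_mono (filter_subset _ _) (v - m)
  have h5 : edF (inn Γ ed) v v ≤ 4 * Ea := by
    have a := (sy_edF (inn Γ ed)).sq_add m (v - m)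
    have b := (sy_edF (inn Γ ed)).sq_sub m (v - m)
    have := (sy_edF (inn Γ ed)).nonneg (m - (v - m))
    rw [add_sub_cancel] at a
    linarith
  refine ⟨h5, (h.norm_le hκ v).trans ?_⟩
  have := mul_le_mul_of_nonneg_left h5 (mul_nonneg hκ h.nn)
  nlinarith [mul_nonneg hc.le e0]

theorem screen (h : Cells ed T β Γ P) (hA : Co A B)
    (hE : ∀ u v, Sup A u → Sup A v → B u v = edF ed u v) {lam lam' D : ℝ} (hc : 0 < c)
    (hκ : 0 < κ) {m m' ζ χ : V → ℝ} (hm : Hm A B m) (hm' : Hm A B m')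
    (hs : Sup A fun x => ζ x * m x) (hs' : Sup A fun x => ζ x * m' x) (hζ : ∀ x ∈ Γ, ζ x = 1)
    (hχ : Sup A fun x => (1 - χ x) * m x) (hχ' : Sup A fun x => χ x * m' x)
    (hC : ∀ u v : V → ℝ, B (fun x => χ x * u x) v - B u (fun x => χ x * v x) =
      edF ed (fun x => χ x * u x) v - edF ed u (fun x => χ x * v x))
    (h0 : 0 ≤ lam) (h0' : 0 ≤ lam') (hD0 : 0 ≤ D) (h1 : ∀ e ∈ ed, |χ e.2 - χ e.1| ≤ lam)
    (h2 : ∀ e ∈ ed, χ e.1 ≠ χ e.2 → e.1 ∈ Γ ∧ e.2 ∈ Γ)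
    (h3 : ∀ i ∈ T, ∀ x ∈ β i, ∀ y ∈ β i, |χ x - χ y| ≤ lam')
    (hD : ∀ x, ((ed.filter fun e => e.1 = x).card : ℝ) ≤ D) :
    |rgG A c B T β κ m m' + c * B m m'| ≤
      (4 * c * lam * √D * √((c + 4 * (κ * P)) / κ) + lam' * (c + 4 * (κ * P))) *
        (√(edF ed (fun x => ζ x * m x) (fun x => ζ x * m x)) *
          √(edF ed (fun x => ζ x * m' x) (fun x => ζ x * m' x))) := by
  have hF := co_scG hA hc hκ.le T β
  obtain ⟨a1, a2⟩ := apriori h hA hE hc hκ.le hm hs hζ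
  obtain ⟨b1, b2⟩ := apriori h hA hE hc hκ.le hm' hs' hζ
  rw [rgG, sub_add_cancel, wronski hF.toSy (hF.hx_hm m) (hF.hx_hm m') (χ := χ)
    (fun x hx => by simpa only [hF.hx_off m hx] using hχ x hx)
    (fun x hx => by simpa only [hF.hx_off m' hx] using hχ' x hx), scG_apply, scG_apply]
  set u := hx A (scG c B T β κ) m
  set v := hx A (scG c B T β κ) m'
  set Ea := edF ed (fun x => ζ x * m x) (fun x => ζ x * m x)
  set Eb := edF ed (fun x => ζ x * m' x) (fun x => ζ x * m' x)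
  set K := c + 4 * (κ * P)
  have hK : 0 ≤ K := add_nonneg hc.le (mul_nonneg (by norm_num) (mul_nonneg hκ.le h.nn))
  have e1 := abs_edF_comm h0 hD0 h1 h2 hD u v
  have e2 := abs_cellF_comm hκ.le h0' h.disj (fun i hi => h.sub hi) h3 u v
  have s1 : ∀ {x E : ℝ}, x ≤ 4 * E → √x ≤ 2 * √E := fun {x E} hx => by
    rw [show (2 : ℝ) = √4 by rw [show (4 : ℝ) = 2 ^ 2 by norm_num, Real.sqrt_sq (by norm_num)],
      ← Real.sqrt_mul (by norm_num)]
    exact Real.sqrt_le_sqrt hx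
  have s2 : ∀ {x E : ℝ}, κ * x ≤ K * E → √x ≤ √(K / κ) * √E := fun {x E} hx => by
    rw [← Real.sqrt_mul (div_nonneg hK hκ.le)]
    refine Real.sqrt_le_sqrt ?_
    rw [div_mul_eq_mul_div, le_div_iff₀ hκ]; linarith
  have n := Real.sqrt_nonneg
  have t1 : √(∑ x ∈ Γ, u x ^ 2) * √(edF (inn Γ ed) v v) ≤ (√(K / κ) * √Ea) * (2 * √Eb) :=
    mul_le_mul (s2 a2) (s1 b1) (n _) (mul_nonneg (n _) (n _))
  have t2 : √(∑ x ∈ Γ, v x ^ 2) * √(edF (inn Γ ed) u u) ≤ (√(K / κ) * √Eb) * (2 * √Ea) :=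
    mul_le_mul (s2 b2) (s1 a1) (n _) (mul_nonneg (n _) (n _))
  have t3 : √(∑ x ∈ Γ, u x ^ 2) * √(∑ x ∈ Γ, v x ^ 2) ≤ (√(K / κ) * √Ea) * (√(K / κ) * √Eb) :=
    mul_le_mul (s2 a2) (s2 b2) (n _) (mul_nonneg (n _) (n _))
  have t4 : κ * lam' * ((√(K / κ) * √Ea) * (√(K / κ) * √Eb)) = lam' * K * (√Ea * √Eb) := by
    have := Real.mul_self_sqrt (div_nonneg hK hκ.le)
    calc _ = κ * (√(K / κ) * √(K / κ)) * lam' * (√Ea * √Eb) := by ring
      _ = _ := by rw [this]; field_simp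
  have f1 := e1.trans (mul_le_mul_of_nonneg_left (add_le_add t1 t2) (mul_nonneg h0 (n D)))
  have f2 := e2.trans (mul_le_mul_of_nonneg_left t3 (mul_nonneg hκ.le h0'))
  rw [t4] at f2
  rw [show ∀ a b a' b' : ℝ, c * a + b - (c * a' + b') = c * (a - a') + (b - b') from
    fun _ _ _ _ => by ring, hC]
  refine (abs_add_le _ _).trans ?_
  rw [abs_mul, abs_of_pos hc]
  have f3 := mul_le_mul_of_nonneg_left f1 hc.le
  calc _ ≤ c * (lam * √D * (√(K / κ) * √Ea * (2 * √Eb) + √(K / κ) * √Eb * (2 * √Ea))) +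
        lam' * K * (√Ea * √Eb) := add_le_add f3 f2
    _ = _ := by ring

/-- `B` is the edge form of `ed` twisted along seams inside `I` (flux at `k₁`) and inside `O` (flux at `k₂`) -/
structure IsTw (B : Bf V) (ed : Finset (V × V)) (k₁ k₂ : V) (I O : Set V) : Prop where
  ex : ∃ s₁ s₂ : V × V → ℝ, (∀ u v, B u v = ∑ e ∈ ed, (u e.2 - u e.1 + s₁ e * u k₁ + s₂ e * u k₂) *
      (v e.2 - v e.1 + s₁ e * v k₁ + s₂ e * v k₂)) ∧
    (∀ e ∈ ed, s₁ e ≠ 0 → e.1 ∈ I ∧ e.2 ∈ I) ∧ ∀ e ∈ ed, s₂ e ≠ 0 → e.1 ∈ O ∧ e.2 ∈ O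
  k1 : k₁ ∈ I
  k2 : k₂ ∈ O
  disj : Disjoint I O

namespace IsTw
variable {k₁ k₂ : V} {I O : Set V}


theorem agree (h : IsTw B ed k₁ k₂ I O) {u v : V → ℝ} (h1 : u k₁ = 0) (h2 : u k₂ = 0) (h3 : v k₁ = 0)
    (h4 : v k₂ = 0) : B u v = edF ed u v := by
  obtain ⟨s₁, s₂, e, -⟩ := h.ex
  simp [e, edF_apply, h1, h2, h3, h4]

theorem agree' (h : IsTw B ed k₁ k₂ I O) (h1 : k₁ ∉ A) (h2 : k₂ ∉ A) (u v : V → ℝ) (hu : Sup A u)
    (hv : Sup A v) : B u v = edF ed u v := h.agree (hu _ h1) (hu _ h2) (hv _ h1) (hv _ h2)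


/-- test functions that vanish on `I` and `O` do not see the seams -/
theorem mid (h : IsTw B ed k₁ k₂ I O) (u : V → ℝ) {v : V → ℝ} (hI : ∀ x ∈ I, v x = 0)
    (hO : ∀ x ∈ O, v x = 0) : B u v = edF ed u v := by
  obtain ⟨s₁, s₂, e, a1, a2⟩ := h.ex
  rw [e, edF_apply]
  refine sum_congr rfl fun e he => ?_
  rw [hI _ h.k1, hO _ h.k2]
  by_cases b1 : s₁ e = 0
  · by_cases b2 : s₂ e = 0
    · simp [b1, b2]
    · simp [hO _ (a2 e he b2).1, hO _ (a2 e he b2).2]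
  · simp [hI _ (a1 e he b1).1, hI _ (a1 e he b1).2]

theorem comm (h : IsTw B ed k₁ k₂ I O) {χ : V → ℝ} (hI : ∀ x ∈ I, χ x = 1) (hO : ∀ x ∈ O, χ x = 0)
    (u v : V → ℝ) : B (fun x => χ x * u x) v - B u (fun x => χ x * v x) =
      edF ed (fun x => χ x * u x) v - edF ed u (fun x => χ x * v x) := by
  obtain ⟨s₁, s₂, e, a1, a2⟩ := h.ex
  rw [e, e, edF_apply, edF_apply, ← sum_sub_distrib, ← sum_sub_distrib]
  refine sum_congr rfl fun e he => ?_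
  simp only [hI _ h.k1, hO _ h.k2]
  by_cases b1 : s₁ e = 0
  · by_cases b2 : s₂ e = 0
    · simp [b1, b2]
    · simp [b1, hO _ (a2 e he b2).1, hO _ (a2 e he b2).2]
  · have b2 : s₂ e = 0 := by_contra fun b2 =>
      Set.disjoint_left.1 h.disj (a1 e he b1).1 (a2 e he b2).1
    simp [b2, hI _ (a1 e he b1).1, hI _ (a1 e he b1).2]

end IsTw

end abstract

section ring
open H59
variable {Λ : Lat} {ι : Type*} {z k₁ k₂ : Pt} {p' p q q' w : ℕ} {A Γ : Finset Pt} {ed : Finset (Pt × Pt)}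
  {T : Finset ι} {β : ι → Finset Pt} {c κ P : ℝ} {B : Bf Pt}

theorem hm_ring (h : IsTw B ed k₁ k₂ (bl z p') (bl z q' : Set Pt)ᶜ) (hM : bl z q' \ bl z p' ⊆ A)
    {m : Pt → ℝ} (hm : Hm A B m) : Hm (bl z q' \ bl z p') (edF ed) m := fun v hv => by
  rw [← h.mid m (fun x hx => hv x fun h' => (mem_sdiff.1 h').2 hx)
    fun x hx => hv x fun h' => hx (mem_sdiff.1 h').1]
  exact hm v (hv.mono hM)

theorem rgG_le_ring (h : IsTw B ed k₁ k₂ (bl z p') (bl z q' : Set Pt)ᶜ)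
    (he : ∀ e ∈ ed, e.2 - e.1 ∈ Λ.Jp) (hA : Co A B) (a1 : k₁ ∉ A) (a2 : k₂ ∉ A) (hc : 0 < c)
    (hκ : 0 ≤ κ) (hw : 4 * Λ.rg ≤ w) (h0 : 0 < w) (h1 : p' + w ≤ p) (hpq : p ≤ q)
    (h2 : q + w ≤ q') (hM : bl z q' \ bl z p' ⊆ A) (hβ : ∀ i ∈ T, β i ⊆ bl z q \ bl z p)
    {m : Pt → ℝ} (hm : Hm A B m) :
    rgG A c B T β κ m m ≤
      c * ((4 * Λ.rg / w) ^ 2 * Λ.Jp.card * ∑ x ∈ bl z q' \ bl z p', m x ^ 2) := by
  have s : Sup A fun x => zt Λ z p' p q q' x * m x := fun x hx => mul_eq_zero_of_left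
    (zt_sup hw h0 h1 hpq h2 x fun h' => hx (hM h')) _
  refine (rgG_le_cut hA hc hκ hm s fun i hi _ hx => zt_one hw h0 h1 h2 (hβ i hi hx)).trans ?_
  rw [h.agree' a1 a2 _ _ s s]
  exact mul_le_mul_of_nonneg_left (cacc_ring he hw h0 h1 hpq h2 subset_rfl (hm_ring h hM hm)) hc.le

/-- **K2 for the twisted form** -/
theorem screen_ringG {p₁ q₁ d : ℕ} (h : IsTw B ed k₁ k₂ (bl z p') (bl z q' : Set Pt)ᶜ)
    (he : ∀ e ∈ ed, e.2 - e.1 ∈ Λ.Jp) (hA : Co A B) (k1 : k₁ ∉ A) (k2 : k₂ ∉ A)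
    (hC : Cells ed T β Γ P) (hd : ∀ i ∈ T, ∀ x ∈ β i, ∀ y ∈ β i, x ∈ bl y d) (hc : 0 < c)
    (hκ : 0 < κ) (hw : 4 * Λ.rg ≤ w) (h0 : 0 < w) (h1 : p' + w ≤ p) (hp : p ≤ p₁)
    (h3 : p₁ + w ≤ q₁) (hq : q₁ ≤ q) (h2 : q + w ≤ q') (hM : bl z q' \ bl z p' ⊆ A)
    (hΓ : bl z q₁ \ bl z p₁ ⊆ Γ) (hΓ' : Γ ⊆ bl z q \ bl z p) {m m' : Pt → ℝ}
    (hm : Hm A B m) (hm' : Hm A B m') (ho : ∀ x, x ∉ A → x ∉ bl z q' → m x = 0)
    (hi : ∀ x, x ∉ A → x ∈ bl z p' → m' x = 0) :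
    |rgG A c B T β κ m m' + c * B m m'| ≤
      (8 * c * Λ.rg * √(Λ.Jp.card) * √((c + 4 * (κ * P)) / κ) + 2 * d * (c + 4 * (κ * P))) / w *
        ((4 * Λ.rg / w) ^ 2 * Λ.Jp.card) *
        (√(∑ x ∈ bl z q' \ bl z p', m x ^ 2) * √(∑ x ∈ bl z q' \ bl z p', m' x ^ 2)) := by
  have a1 : (4 * Λ.rg : ℝ) ≤ w := by exact_mod_cast hw
  have a2 : (p' + w : ℝ) ≤ p := by exact_mod_cast h1
  have a3 : (q + w : ℝ) ≤ q' := by exact_mod_cast h2
  have a4 : (0 : ℝ) < w := by exact_mod_cast h0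
  have a5 : (p₁ + w : ℝ) ≤ q₁ := by exact_mod_cast h3
  have a6 : (0 : ℝ) ≤ Λ.rg := Nat.cast_nonneg _
  have a7 : (p : ℝ) ≤ p₁ := by exact_mod_cast hp
  have a8 : (q₁ : ℝ) ≤ q := by exact_mod_cast hq
  have hpq : p ≤ q := by omega
  have b1 : (p₁ + Λ.rg : ℝ) < q₁ - Λ.rg := by linarith
  have lip : ∀ {x y : Pt} {r : ℕ}, y ∈ bl x r →
      |rmp z (p₁ + Λ.rg) (q₁ - Λ.rg) y - rmp z (p₁ + Λ.rg) (q₁ - Λ.rg) x| ≤ 2 * r / w := by
    intro x y r h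
    refine (rmp_lip z b1 h).trans ?_
    rw [div_le_div_iff₀ (by linarith) a4]
    nlinarith [mul_nonneg (Nat.cast_nonneg (α := ℝ) r)
      (show (0 : ℝ) ≤ 2 * (q₁ - Λ.rg - (p₁ + Λ.rg)) - w by linarith)]
  have nA : ∀ x, x ∉ A → x ∈ bl z p' ∨ x ∉ bl z q' := fun x hx => by
    by_contra h'
    push Not at h'
    exact hx (hM (mem_sdiff.2 ⟨h'.2, h'.1⟩))
  have c1 : ∀ x ∈ bl z p', rmp z (p₁ + Λ.rg) (q₁ - Λ.rg) x = 1 := fun x h' => by
    have : (ds z x : ℝ) ≤ p' := by exact_mod_cast mem_bl_ds.1 h'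
    exact rmp_one b1 (by linarith)
  have c0 : ∀ x, x ∉ bl z q' → rmp z (p₁ + Λ.rg) (q₁ - Λ.rg) x = 0 := fun x h' => by
    have : (q' : ℝ) < ds z x := by exact_mod_cast not_le.1 (mt mem_bl_ds.2 h')
    exact rmp_zero b1 (by linarith)
  have sup : ∀ m : Pt → ℝ, Sup A fun x => zt Λ z p' p q q' x * m x := fun m x hx =>
    mul_eq_zero_of_left (zt_sup hw h0 h1 hpq h2 x fun h' => hx (hM h')) _
  have key := screen hC hA (h.agree' k1 k2) hc hκ hm hm' (sup m) (sup m')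
    (fun x hx => zt_one hw h0 h1 h2 (hΓ' hx))
    (χ := rmp z (p₁ + Λ.rg) (q₁ - Λ.rg)) (lam := 2 * Λ.rg / w) (lam' := 2 * d / w)
    (D := Λ.Jp.card) (fun x hx => by
      rcases nA x hx with h' | h'
      · simp only [c1 x h', sub_self, zero_mul]
      · simp only [ho x hx h', mul_zero])
    (fun x hx => by
      rcases nA x hx with h' | h'
      · simp only [hi x hx h', mul_zero]
      · simp only [c0 x h', zero_mul]) (h.comm c1 c0)
    (by positivity) (by positivity) (Nat.cast_nonneg _) (fun e h' => lip (Lat.edge_near (he e h')))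
    (fun e h' hne => by
      have := rmp_ne b1 (Lat.edge_near (he e h')) hne
      refine ⟨hΓ (mem_ring.2 ⟨?_, ?_⟩), hΓ (mem_ring.2 ⟨?_, ?_⟩)⟩ <;>
        linarith [this.1.1, this.1.2, this.2.1, this.2.2])
    (fun i hi x hx y hy => lip (hd i hi x hx y hy)) (deg_fst he)
  refine key.trans ?_
  have hK : 0 ≤ c + 4 * (κ * P) := by have := hC.nn; positivity
  have s : ∀ {m : Pt → ℝ}, Hm A B m →
      √(edF ed (fun x => zt Λ z p' p q q' x * m x) (fun x => zt Λ z p' p q q' x * m x)) ≤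
        √((4 * Λ.rg / w) ^ 2 * Λ.Jp.card) * √(∑ x ∈ bl z q' \ bl z p', m x ^ 2) := fun hm => by
    rw [← Real.sqrt_mul (by positivity)]
    exact Real.sqrt_le_sqrt (cacc_ring he hw h0 h1 hpq h2 subset_rfl (hm_ring h hM hm))
  have t := mul_le_mul (s hm) (s hm') (Real.sqrt_nonneg _) (by positivity)
  rw [mul_mul_mul_comm, Real.mul_self_sqrt (by positivity)] at t
  calc _ ≤ (4 * c * (2 * Λ.rg / w) * √(Λ.Jp.card) * √((c + 4 * (κ * P)) / κ) +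
        2 * d / w * (c + 4 * (κ * P))) * ((4 * Λ.rg / w) ^ 2 * Λ.Jp.card *
        (√(∑ x ∈ bl z q' \ bl z p', m x ^ 2) * √(∑ x ∈ bl z q' \ bl z p', m' x ^ 2))) :=
        mul_le_mul_of_nonneg_left t (by positivity)
    _ = _ := by ring

end ring

end Crest.Agent.T145.Pot.Tw
end

-- ▼ part T145/KvK2_17

/-!
# Row 145, module Kv: screening, traces and capacity of the slit condenser (helper17)
-/

set_option autoImplicit false

namespace Crest.Agent.T145.Kv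

open Finset Real Pot Kw56 Pot.Tw

namespace K17
variable {V : Gv} {W : ℝ}

theorem Gk_apply (V : Gv) (e : Pt × Pt) (u : Pt → ℝ) :
    V.Gk e u = u e.2 - u e.1 + V.s1 e * u V.k1 + V.s2 e * u V.k2 := by simp [Gv.Gk]

theorem eT_apply (V : Gv) (ed : Finset (Pt × Pt)) (u v : Pt → ℝ) :
    V.eT ed u v = ∑ e ∈ ed, V.Gk e u * V.Gk e v := by simp [Gv.eT, sqF_apply]

theorem isTw (V : Gv) (ed : Finset (Pt × Pt)) {p q : ℕ} (h1 : (V.G.rho : ℤ) - 4 * V.ω ≤ p) (h0 : 1 ≤ p)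
    (hpq : p ≤ q) (h2 : (q : ℤ) < V.G.rho + 4 * V.ω) (h3 : q ≤ V.G.R₂) :
    IsTw (V.eT ed) ed V.k1 V.k2 (bl 0 p) (bl 0 q : Set Pt)ᶜ where
  ex := ⟨fun e => V.s1 e, fun e => V.s2 e, fun u v => by simp only [eT_apply, Gk_apply],
    fun e _ h => by
      simp only [Gv.s1, Vd.ray, ne_eq, Int.cast_eq_zero, mem_coe, mem_bl, Prod.fst_zero,
        Prod.snd_zero] at h ⊢
      split_ifs at h <;> omega,
    fun e _ h => by
      simp only [Gv.s2, Vd.ray, ne_eq, Int.cast_eq_zero, mem_coe, mem_bl, Prod.fst_zero,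
        Prod.snd_zero, Set.mem_compl_iff] at h ⊢
      split_ifs at h <;> omega⟩
  k1 := self_mem_bl _ _
  k2 := by simp [Gv.k2, mem_bl]; omega
  disj := Set.disjoint_compl_right_iff_subset.2 (bl_mono 0 hpq)

theorem mem_kp {ed : Finset (Pt × Pt)} {e : Pt × Pt} (h : 4 * V.ω ≤ V.G.rho) : e ∈ V.kp ed ↔
    e ∈ ed ∧ ∀ i, (V.G.rho : ℤ) - 4 * V.ω ≤ i → i < V.G.rho + 4 * V.ω → Sl.se i ≠ e := by
  obtain ⟨⟨a, b⟩, ⟨c, d⟩⟩ := e
  simp only [Gv.kp, mem_filter, Gv.s1, Gv.s2, Vd.ray, Sl.se, ne_eq, Prod.mk.injEq, Prod.fst_zero,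
    Prod.snd_zero]
  refine and_congr_right fun _ => ⟨fun h1 i _ _ h2 => ?_, fun h1 => ?_⟩
  · split_ifs at h1 <;> omega
  · have := h1 a
    split_ifs <;> omega

theorem EA_eq (h : 4 * V.ω ≤ V.G.rho) :
    V.EA = Sl.eds V.G.A (V.G.rho - 4 * V.ω) (V.G.rho + 4 * V.ω) := by
  ext e; rw [Gv.EA, mem_kp h, Sl.mem_eds]

theorem EA_nn : ∀ e ∈ V.EA, e.2 - e.1 ∈ nL.Jp := fun _ h => (Lat.mem_edT.1 (mem_filter.1 h).1).1

theorem k1_not : V.k1 ∉ V.G.A := fun h => (mem_sdiff.1 h).2 (self_mem_bl _ _)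

theorem k2_not (h : V.Ok W) : V.k2 ∉ V.G.A := fun h' => by
  have := mem_bl.1 (mem_sdiff.1 h').1
  have := h.g.out
  simp only [Gv.k2, Prod.fst_zero] at *; omega

theorem mem_rng {n : ℕ} (h : n ≤ V.G.rho) {x : Pt} : x ∈ V.rng n ↔
    ((-(V.G.rho + n : ℤ) ≤ x.1 ∧ x.1 < V.G.rho + n) ∧ -(V.G.rho + n : ℤ) ≤ x.2 ∧ x.2 < V.G.rho + n) ∧
    ¬ ((-(V.G.rho - n : ℤ) ≤ x.1 ∧ x.1 < V.G.rho - n) ∧ -(V.G.rho - n : ℤ) ≤ x.2 ∧
      x.2 < V.G.rho - n) := by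
  simp only [Gv.rng, mem_sdiff, mem_sq]
  omega

end K17

open K17

theorem k2Stmt (hG : GeoStmt) (hA : AlgStmt) : K2Stmt := by
  intro g₁ g₂ hg₁
  set C₀ := 2000 * (16 * g₁⁻¹ + 2) * (g₁⁻¹ + 8) with hC₀
  have h8 : 0 < g₁⁻¹ := by positivity
  have C0 : 0 < C₀ := by positivity
  have C1 : 1600 * g₁⁻¹ ≤ C₀ := by rw [hC₀]; nlinarith
  have C2 : C₀ ≤ C₀ * (1 + 2 * |g₂|) := le_mul_of_one_le_right C0.le (by linarith [abs_nonneg g₂])
  refine ⟨C₀ * (1 + 2 * |g₂|), by positivity, fun g hg hg' V W hV a b hab s t => ?_⟩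
  have Ge := hG V W hV
  have H := hA V W hV
  have hg0 : 0 < g := hg₁.trans_le hg
  have hc : 0 < g⁻¹ := inv_pos.2 hg0
  have hc₁ : g⁻¹ ≤ g₁⁻¹ := inv_anti₀ hg₁ hg
  have hω := Ge.ω16
  have h1 := Ge.r_le
  have h2 := Ge.rho_le
  have h3 := Ge.ω_le
  have h4 := hV.g.out
  have hr := hV.g.hr
  have hρ : (0 : ℝ) < V.ω := by exact_mod_cast (show 0 < V.ω by omega)
  have hκ : 0 < V.ms a := by unfold Gv.ms; positivity
  have tw : IsTw V.B V.EA V.k1 V.k2 (bl 0 (V.G.rho - 2 * V.ω)) (bl 0 (V.G.rho + 2 * V.ω - 1) : Set Pt)ᶜ :=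
    isTw V _ (by omega) (by omega) (by omega) (by omega) (by omega)
  have hM : bl 0 (V.G.rho + 2 * V.ω - 1) \ bl 0 (V.G.rho - 2 * V.ω) ⊆ V.G.A :=
    sdiff_subset_sdiff (bl_mono 0 (by omega)) (bl_mono 0 (by omega))
  have hM' : bl 0 (V.G.rho + 2 * V.ω - 1) \ bl 0 (V.G.rho - 2 * V.ω) ⊆ V.mid := fun x hx => by
    rw [Gv.mid, mem_rng (by omega)]
    simp only [mem_sdiff, mem_bl, Prod.fst_zero, Prod.snd_zero] at hx; omega
  have hΓ : bl 0 (V.G.rho + V.ω - 1) \ bl 0 (V.G.rho - V.ω) ⊆ V.Ga := fun x hx => by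
    rw [Gv.Ga, mem_rng (by omega)]
    simp only [mem_sdiff, mem_bl, Prod.fst_zero, Prod.snd_zero] at hx; omega
  have hΓ' : V.Ga ⊆ bl 0 (V.G.rho + V.ω) \ bl 0 (V.G.rho - V.ω - 1) := fun x hx => by
    rw [Gv.Ga, mem_rng (by omega)] at hx
    simp only [mem_sdiff, mem_bl, Prod.fst_zero, Prod.snd_zero]; omega
  set q := V.om2 - (a + b) with hq
  obtain ⟨hcov, hdis, -, hed⟩ := Ge.cells q (Nat.sub_le _ _)
  have hsub : ∀ i : V.cor q, sq i.1 (2 ^ q) ⊆ V.Ga := fun i =>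
    hcov ▸ subset_biUnion_of_mem (fun i => sq i (2 ^ q)) i.2
  have hC : Cells V.EA univ (V.cel q) V.Ga (2 * ((2 ^ q : ℕ) : ℝ) ^ 2) := by
    have := cells_sq nL_ok (ed := V.EA) (T := univ) (a := fun i : V.cor q => i.1) (k := fun _ => 2 ^ q)
      (n := 2 ^ q) (fun i _ j _ hne => hdis i.2 j.2 fun h => hne (Subtype.ext h)) (fun _ _ => le_rfl)
      fun i _ => hed i.1 i.2
    have hu : (univ : Finset (V.cor q)).biUnion (fun i => sq i.1 (2 ^ q)) = V.Ga := by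
      rw [← hcov, univ_eq_attach]
      ext x; simp only [mem_biUnion, mem_attach, true_and, Subtype.exists, exists_prop]
    rwa [hu] at this
  have hma : Hm V.G.A V.B (V.ma s) := (H.hm _).1
  have hmb : Hm V.G.A V.B (V.mb t) := (H.hm _).2
  have hβ : ∀ i, V.cel q i ⊆ V.G.A := fun i => (hsub i).trans (hΓ'.trans
    (sdiff_subset_sdiff (bl_mono 0 (by omega)) (bl_mono 0 (by omega))))
  have eq : ∀ m m', Hm V.G.A V.B m → Hm V.G.A V.B m' →
      V.Bq g a b m m' = rgG V.G.A g⁻¹ V.B univ (V.cel q) (V.ms a) m m' := fun m m' h h' =>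
    (rgG_eq_tl H.coA (tw.agree' k1_not (k2_not hV)) hc hκ.le hβ h h').symm
  have hw5 : (V.ω : ℝ) ≤ 5 * (V.ω - 1 : ℕ) := by exact_mod_cast (show V.ω ≤ 5 * (V.ω - 1) by omega)
  have hw0 : (0 : ℝ) < (V.ω - 1 : ℕ) := by exact_mod_cast (show 0 < V.ω - 1 by omega)
  have hJ : nL.Jp.card = 2 := by rw [nL_Jp]; rfl
  have hn0 : ∀ m : Pt → ℝ, 0 ≤ ∑ x ∈ V.mid, m x ^ 2 := fun m => sum_nonneg fun _ _ => sq_nonneg _
  have hn1 : ∀ m : Pt → ℝ, 0 ≤ V.nm m := fun m => div_nonneg (hn0 m) (sq_nonneg _)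
  have hs : ∀ m : Pt → ℝ, ∑ x ∈ bl 0 (V.G.rho + 2 * V.ω - 1) \ bl 0 (V.G.rho - 2 * V.ω), m x ^ 2 ≤
      ∑ x ∈ V.mid, m x ^ 2 := fun m => sum_le_sum_of_subset_of_nonneg hM' fun _ _ _ => sq_nonneg _
  have up : ∀ m, Hm V.G.A V.B m →
      rgG V.G.A g⁻¹ V.B univ (V.cel q) (V.ms a) m m ≤ 800 * g₁⁻¹ * V.nm m := fun m hm => by
    have := rgG_le_ring (Λ := nL) (p := V.G.rho - V.ω - 1) (q := V.G.rho + V.ω) (w := V.ω - 1)
      (T := univ) (β := V.cel q) tw EA_nn H.coA k1_not (k2_not hV) hc hκ.le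
      (by rw [nL_rg]; omega) (by omega) (by omega) (by omega) (by omega) hM
      (fun i _ => (hsub i).trans hΓ') hm
    refine this.trans ?_
    rw [nL_rg, hJ]
    have h6 : 1 / ((V.ω - 1 : ℕ) : ℝ) ≤ 5 / V.ω := by rw [div_le_div_iff₀ hw0 hρ]; linarith
    calc _ = g⁻¹ * (32 * (1 / ((V.ω - 1 : ℕ) : ℝ)) ^ 2 *
          ∑ x ∈ bl 0 (V.G.rho + 2 * V.ω - 1) \ bl 0 (V.G.rho - 2 * V.ω), m x ^ 2) := by push_cast; ring
      _ ≤ g₁⁻¹ * (32 * (5 / V.ω) ^ 2 * ∑ x ∈ V.mid, m x ^ 2) :=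
          mul_le_mul hc₁ (mul_le_mul (by gcongr) (hs m) (by positivity) (by positivity))
            (by positivity) (by positivity)
      _ = _ := by unfold Gv.nm; ring
  have hnt : ((2 ^ q : ℕ) : ℝ) * 2 ^ a ≤ V.ω := by
    have : 2 ^ q * 2 ^ a ≤ V.ω := by
      rw [← pow_add]; exact Nat.pow_le_pow_right two_pos (by omega)
    exact_mod_cast this
  have sc : |rgG V.G.A g⁻¹ V.B univ (V.cel q) (V.ms a) (V.ma s) (V.mb t) + g⁻¹ * V.B (V.ma s) (V.mb t)| ≤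
      C₀ / 2 ^ a * (V.nm (V.ma s) + V.nm (V.mb t)) := by
    have := screen_ringG (Λ := nL) (p := V.G.rho - V.ω - 1) (q := V.G.rho + V.ω) (w := V.ω - 1)
      (p₁ := V.G.rho - V.ω) (q₁ := V.G.rho + V.ω - 1) (d := 2 ^ q) tw EA_nn H.coA k1_not (k2_not hV) hC
      (fun i _ x hx y hy => sq_diam le_rfl hx hy) hc hκ
      (by rw [nL_rg]; omega) (by omega) (by omega) (by omega) (by omega) (by omega) (by omega) hM
      hΓ hΓ' hma hmb
      (fun x hx hx' => (H.coA.hx_off _ hx).trans (on_of_not fun h => hx' (by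
        rcases mem_insert.1 h with rfl | h
        · exact self_mem_bl _ _
        · exact bl_mono 0 (by omega) (mem_sdiff.1 h).1)))
      fun x hx hx' => (H.coA.hx_off _ hx).trans (on_of_not fun h => by
        rcases mem_insert.1 h with rfl | h
        · simp only [Gv.k2, mem_bl, Prod.fst_zero] at hx'; omega
        · exact (mem_sdiff.1 h).2 (bl_mono 0 (by omega) hx'))
    rw [nL_rg, hJ] at this
    refine this.trans (le_trans (mul_le_mul_of_nonneg_left (mul_le_mul (Real.sqrt_le_sqrt (hs _))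
      (Real.sqrt_le_sqrt (hs _)) (sqrt_nonneg _) (sqrt_nonneg _)) (by positivity)) ?_)
    have := Kr.K256.num hc hc₁ hρ (show (0 : ℝ) < 2 ^ a by positivity) (Nat.cast_nonneg _) hnt hw0 hw5
      (hn0 (V.ma s)) (hn0 (V.mb t))
    simpa only [Gv.ms, Gv.nm, Nat.cast_one, Nat.cast_ofNat] using this
  have n0 := add_nonneg (hn1 (V.ma s)) (hn1 (V.mb t))
  have a1 := rgG_nonneg (T := univ) (β := V.cel q) H.coA hc hκ.le (Hm.add' hma hmb)
  have a2 := rgG_add_le (T := univ) (β := V.cel q) H.coA hc hκ.le hma hmb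
  have a3 := rgG_add_sq (T := univ) (β := V.cel q) H.coA hc hκ.le (V.ma s) (V.mb t)
  have a4 := up _ hma
  have a5 := up _ hmb
  have a6 := mul_le_mul_of_nonneg_right C1 n0
  have a7 := mul_le_mul_of_nonneg_right C2 n0
  simp only [Gv.Bz, eq _ _ (Hm.add' hma hmb) (Hm.add' hma hmb), eq _ _ hma hma, eq _ _ hmb hmb]
  refine ⟨a1, by linarith, ?_, ?_⟩
  · have b1 : C₀ / 2 ^ a ≤ C₀ := div_le_self C0.le (one_le_pow₀ one_le_two)
    have b2 := sc.trans (mul_le_mul_of_nonneg_right b1 n0)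
    have b3 : |g⁻¹ * V.B (V.ma s) (V.mb t)| ≤ 2 * (C₀ * (V.nm (V.ma s) + V.nm (V.mb t))) := by
      rw [abs_le] at b2 ⊢
      constructor <;> nlinarith [mul_nonneg C0.le n0]
    rw [abs_mul, abs_of_pos hc, inv_mul_le_iff₀ hg0] at b3
    refine b3.trans ((mul_le_mul_of_nonneg_right (hg'.trans (le_abs_self _)) (by positivity)).trans ?_)
    nlinarith [mul_nonneg C0.le n0]
  · rw [a3]
    refine le_trans (le_of_eq (congrArg _ (by ring))) (sc.trans ?_)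
    gcongr

theorem K17.trS (hG : GeoStmt) : TrStmt := by
  obtain ⟨C, C0, hC⟩ := Sl.hs_bd
  intro g₂ j
  refine ⟨g₂ ^ 2 * C * (64 * 2 ^ j) ^ 4 + |g₂| * (16 * 2 ^ j * (128 * 2 ^ j) ^ 2),
    fun g hg hg₂ V W hV hj a b hab => ?_⟩
  have Ge := hG V W hV
  have h1 := Ge.rho_le
  have h2 := Ge.ω_le
  have h3 := Ge.ω16
  set q := V.om2 - (a + b) with hq
  obtain ⟨-, hdis, hcard, -⟩ := Ge.cells q (Nat.sub_le _ _)
  have hω : (0 : ℝ) < V.ω := by exact_mod_cast (show 0 < V.ω by omega)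
  have hR : (V.G.R : ℝ) ≤ 64 * 2 ^ j * V.ω := by
    have := Ge.le_rho
    rw [Ge.rho_eq, hj, ← mul_assoc] at this
    exact_mod_cast this
  have hR1 : (1 : ℝ) ≤ V.G.R := by exact_mod_cast (show 1 ≤ V.G.R by omega)
  have hsub : V.G.A ⊆ bl 0 V.G.R := sdiff_subset
  have e := EA_eq (V := V) (by omega)
  have hco : Co V.G.A (edF V.EA) := e ▸ Sl.co_eS _ _ _
  have hms : V.ms a * (V.ω : ℝ) ^ 2 = 4 ^ a := by
    rw [Gv.ms, div_pow, div_mul_cancel₀ _ (by positivity), ← pow_mul, mul_comm, pow_mul]; norm_num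
  have hms0 : 0 ≤ V.ms a := sq_nonneg _
  have hg' : g ≤ |g₂| := hg₂.trans (le_abs_self _)
  constructor
  · rw [Gv.Sm, Gv.Vm, Kr.Tr57.tr_two hco]
    have h5 := Gs57.blks_le hco (T := univ) (β := V.cel q) fun i _ j _ hne =>
      hdis i.2 j.2 fun h => hne (Subtype.ext h)
    have h6 : ∑ x ∈ V.G.A, ∑ y ∈ V.G.A, G V.G.A (edF V.EA) (dl x) (dl y) ^ 2 ≤ C * (V.G.R : ℝ) ^ 4 :=
      e ▸ hC _ _ _ _ (by omega) hsub
    calc _ ≤ (V.ms a * g₂) ^ 2 * (C * (64 * 2 ^ j * V.ω) ^ 4) := by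
          refine mul_le_mul (by gcongr) (h5.trans (h6.trans (by gcongr))) ?_ (sq_nonneg _)
          exact sum_nonneg fun _ _ => sum_nonneg fun _ _ => by positivity
      _ = g₂ ^ 2 * C * (64 * 2 ^ j) ^ 4 * (V.ms a * (V.ω : ℝ) ^ 2) ^ 2 := by ring
      _ = g₂ ^ 2 * C * (64 * 2 ^ j) ^ 4 * 16 ^ a := by
          rw [hms, ← pow_mul, mul_comm a, pow_mul]; norm_num
      _ ≤ _ := by
          gcongr
          exact le_add_of_nonneg_right (by positivity)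
  · rw [Gv.Sm, Gv.Vm, Kr.Tr57.tr_one hco]
    have h8 : ∀ i : V.cor q, ((V.cel q i).card : ℝ)⁻¹ * G V.G.A (edF V.EA)
        (on (V.cel q i) 1) (on (V.cel q i) 1) ≤ (128 * 2 ^ j * V.ω) ^ 2 := fun i => by
      have h9 : (0 : ℝ) < (V.cel q i).card := by rw [Gv.cel, card_sq]; positivity
      have h10 : ∀ x, gr V.G.A (edF V.EA) (on (V.cel q i) 1) x ≤ (128 * 2 ^ j * V.ω) ^ 2 := fun x => by
        rw [e]
        refine (le_abs_self _).trans ((Sl.abs_gr_le hsub zero_le_one (fun y _ => ?_) x).trans ?_)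
        · by_cases h : y ∈ V.cel q i <;> simp [on, h]
        · rw [one_mul]; gcongr; linarith
      rw [inv_mul_le_iff₀ h9, G, Pot.ip]
      calc _ ≤ ∑ x ∈ V.G.A, if x ∈ V.cel q i then (128 * 2 ^ j * V.ω : ℝ) ^ 2 else 0 :=
            sum_le_sum fun x _ => by by_cases h : x ∈ V.cel q i <;> simp [on, h, h10 x]
        _ ≤ _ := by
            rw [sum_ite_mem, sum_const, nsmul_eq_mul]
            gcongr
            exact inter_subset_right
    calc _ ≤ V.ms a * |g₂| * ((V.cor q).card * (128 * 2 ^ j * V.ω) ^ 2) := by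
          refine (mul_le_mul_of_nonneg_left (sum_le_card_nsmul _ _ _ fun i _ => h8 i)
            (by positivity)).trans ?_
          rw [nsmul_eq_mul, card_univ, Fintype.card_coe]
          gcongr
      _ = |g₂| * (16 * 2 ^ j * (128 * 2 ^ j) ^ 2) * (V.ms a * (V.ω : ℝ) ^ 2) * 4 ^ (a + b) := by
          rw [hcard, hj, show V.om2 - q = a + b by omega]; push_cast; ring
      _ ≤ _ := by
          rw [hms]
          gcongr
          exact le_add_of_nonneg_left (by positivity)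

theorem K17.capS (hA : AlgStmt) (hK : Kr.AlgStmt) : CapStmt := fun V W hV => by
  have H := hA V W hV
  have K := hK V.G W hV.g
  have hc := hV.g.hc
  have hr := hV.g.hr
  have hR : 512 * V.G.r ≤ V.G.R := by have := K.r_le; have := K.rho_le; omega
  have ho := hV.g.out
  have i1 : V.k1 ∉ V.G.In := fun h => (mem_sdiff.1 h).2 (self_mem_bl _ _)
  have i2 : V.k2 ∉ V.G.In := fun h => by
    have := mem_bl.1 (mem_sdiff.1 h).1
    simp only [Gv.k2, Prod.fst_zero] at this; omega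
  have o : ∀ x, x ∉ V.G.A → V.om x = on V.G.In 1 x := fun x hx => H.coA.hx_off _ hx
  constructor
  · have e : V.cp = edF V.EA V.om V.om := by
      have a1 := (o _ k1_not).trans (on_of_not i1)
      have a2 := (o _ (k2_not hV)).trans (on_of_not i2)
      exact H.plain _ _ _ a1 a2 a1 a2
    set n := V.G.R + 1 - V.G.r with hn
    let φ : ℤ × ℕ → Pt × Pt := fun p => ((V.G.r + p.2, p.1), (V.G.r + (p.2 + 1 : ℕ), p.1))
    have inj : Set.InjOn φ ↑(Icc (-(V.G.r : ℤ)) V.G.r ×ˢ range n) := fun p _ p' _ h => by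
      simp only [φ, Prod.mk.injEq] at h
      exact Prod.ext h.1.2 (by omega)
    have h1 : ∑ p ∈ Icc (-(V.G.r : ℤ)) V.G.r ×ˢ range n, (V.om (φ p).2 - V.om (φ p).1) ^ 2 ≤ V.cp := by
      rw [e, edF_self, ← sum_image (f := fun e : Pt × Pt => (V.om e.2 - V.om e.1) ^ 2) inj]
      refine sum_le_sum_of_subset_of_nonneg (fun e he => ?_) fun _ _ _ => sq_nonneg _
      obtain ⟨p, hp, rfl⟩ := mem_image.1 he
      simp only [mem_product, mem_Icc, mem_range] at hp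
      refine mem_filter.2 ⟨Lat.mem_edT.2 ⟨by simp [φ, nL_Jp], ?_⟩, by simp [φ, Gv.s1, Gv.s2, Vd.ray]⟩
      simp only [φ, Kr.Gm.A, Nc.an, mem_sdiff, mem_bl, Prod.fst_zero, Prod.snd_zero]; omega
    have h2 : ∑ p ∈ Icc (-(V.G.r : ℤ)) V.G.r ×ˢ range n, 1 * (V.om (φ p).2 - V.om (φ p).1) =
        -(2 * V.G.r + 1) := by
      rw [sum_product, sum_congr rfl (g := fun _ => (-1 : ℝ)) fun y hy => ?_]
      · simp only [sum_const, Int.card_Icc, nsmul_eq_mul]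
        rw [show (V.G.r + 1 - -(V.G.r : ℤ)).toNat = 2 * V.G.r + 1 by omega]; push_cast; ring
      rw [mem_Icc] at hy
      simp only [one_mul, φ]
      rw [sum_range_sub (fun i : ℕ => V.om (V.G.r + i, y)), o, o, on_of_not, on_of_mem]
      · simp
      all_goals simp only [Kr.Gm.A, Kr.Gm.In, Nc.an, mem_sdiff, mem_bl, Prod.fst_zero, Prod.snd_zero]; omega
    have h3 := sum_mul_sq_le_sq_mul_sq (Icc (-(V.G.r : ℤ)) V.G.r ×ˢ range n) (fun _ => (1 : ℝ))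
      fun p => V.om (φ p).2 - V.om (φ p).1
    rw [h2] at h3
    simp only [one_pow, sum_const, card_product, Int.card_Icc, card_range, nsmul_eq_mul, mul_one] at h3
    rw [show (V.G.r + 1 - -(V.G.r : ℤ)).toNat = 2 * V.G.r + 1 by omega] at h3
    have h4 : (n : ℝ) ≤ V.G.R := by exact_mod_cast (show n ≤ V.G.R by omega)
    have h5 := h3.trans (mul_le_mul_of_nonneg_left h1 (by positivity))
    have h6 := hV.g.hi
    have h7 := hV.g.hW
    have h8 : (64 : ℝ) ≤ V.G.r := by exact_mod_cast hr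
    have h9 := H.cp_pos
    push_cast at h5
    have h10 : 2 * (V.G.r : ℝ) + 1 ≤ n * V.cp :=
      le_of_mul_le_mul_left (by linarith) (show (0 : ℝ) < 2 * V.G.r + 1 by linarith)
    have h11 := h10.trans (mul_le_mul_of_nonneg_right (h4.trans h6) h9.le)
    rw [div_le_iff₀ (by linarith)]
    exact le_of_mul_le_mul_left (by linarith) (show (0 : ℝ) < V.G.r by linarith)
  · have hs : bl 0 V.G.r ⊆ bl 0 V.G.R := bl_mono 0 (by omega)
    set u : Pt → ℝ := fun x => if x ∈ V.G.A then V.G.om x else on V.G.In 1 x with hu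
    have a1 : u V.k1 = 0 := (if_neg k1_not).trans (on_of_not i1)
    have a2 : u V.k2 = 0 := (if_neg (k2_not hV)).trans (on_of_not i2)
    refine (H.coA.hx_min (u := u) fun x hx => if_neg hx).trans ?_
    rw [Gv.B, H.plain _ _ _ a1 a2 a1 a2, Kr.Gm.cp, K.coD.cap_eq hs]
    have key : ∀ x y, y ∈ V.G.A → x ∈ bl y 1 → u x = V.G.om x := fun x y hy hx => by
      by_cases h : x ∈ V.G.A
      · exact if_pos h
      rw [hu]
      simp only [if_neg h]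
      by_cases h' : x ∈ bl 0 V.G.r
      · rw [on_of_mem, Kr.Gm.om, K.coD.ex_on _ h']
        simp only [Kr.Gm.A, Kr.Gm.In, Nc.an, mem_sdiff, mem_bl, Prod.fst_zero, Prod.snd_zero] at *; omega
      · rw [on_of_not (K := V.G.In) fun k => h' (mem_sdiff.1 k).1, Kr.Gm.om,
          K.coD.ex_sup hs _ x fun k => h (mem_sdiff.2 ⟨k, h'⟩)]
    refine le_trans (le_of_eq ?_) (Pot.edF_mono (ed' := V.EA) ((filter_subset _ _).trans
      (Lat.edT_mono sdiff_subset)) V.G.om)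
    rw [edF_self, edF_self]
    refine sum_congr rfl fun e he => ?_
    obtain ⟨b1, b2⟩ := Lat.mem_edT.1 (mem_filter.1 he).1
    rcases b2 with b2 | b2
    · rw [key _ _ b2 (self_mem_bl _ _), key _ _ b2 (nL_rg ▸ Lat.edge_near b1)]
    · rw [key _ _ b2 (self_mem_bl _ _), key _ _ b2 (nL_rg ▸ Lat.edge_near' b1)]

end Crest.Agent.T145.Kv
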