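import Crest.Agent.T145.KvDef_8
import Crest.Agent.T145.KrK0_40
import Crest.Agent.T145.KvI_85
import Crest.Agent.T145.KrKs_90
import Crest.Agent.T145.KrKsh_77
import Crest.Agent.T145.PotAn_44
import Crest.Agent.T145.KrM3_17
import Crest.Agent.T145.PotS_17
import Crest.Agent.T145.KrMom_3_Mg
import Crest.Agent.T145.T1A_40
import Crest.Agent.T145.KrP0_75
import Crest.Agent.T145.UvG_49
import Crest.Agent.T145.ExplU_56
import Crest.Agent.T145.KrQ_75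
import Crest.Agent.T145.KrR_49
import Crest.Agent.T145.RAbs_49

-- ▼ part T145/KvK0_16
section

/-!
# Row 145, module Kv: `Kv.k0Stmt` (helper16), an instance of `Kr.K040.k0`
-/

set_option autoImplicit false

namespace Crest.Agent.T145.Kv

open Finset Real Filter Topology

namespace K016

theorem ev_wv {F : Fa} {θ₀ W K : ℝ} {j : ℕ} {P : Lat → ℝ → Gv → Prop} (h : Wv F θ₀ W K j P) :
    ∀ᶠ δ in 𝓝[>] (0 : ℝ), ∀ Λ, F.Mem Λ → ∀ l L, Λ.Win θ₀ δ l L → ∀ V : Gv, V.Ok W → V.j = j →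
      V.G.At K L → P Λ (Λ.gN l) V := by
  obtain ⟨δ₀, h0, h⟩ := h
  filter_upwards [ev_le h0] with δ hδ Λ hΛ l L hw using h Λ hΛ l L (hw.mono_d hδ)

end K016

open K016 Kr.K040 in
/-- (K0) -/
theorem k0Stmt (hR : RStmt) (hF : FStmt) (hL : LamStmt) (hK : K2Stmt) (hB : BarStmt) (hA : AlgStmt)
    (h1a : T1aStmt) (h1m : T1mStmt) : K0Stmt := by
  intro F θ₀ W K j hJ hθ hK1 A ε a₀ hε
  obtain ⟨C, hC, HL⟩ := hL F W j hJ
  obtain ⟨P, hP, HP⟩ := F.exists_bound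
  obtain ⟨C₂, -, HK⟩ := hK (θ₀ / 2 / P) P (by positivity)
  obtain ⟨C₁, H1⟩ := h1a F
  obtain ⟨N, hN⟩ := exists_nat_ge A
  obtain ⟨N₀, hN₀⟩ := exists_nat_ge (2 * C + 1)
  obtain ⟨a₁, HF⟩ := hF F θ₀ W K j hJ hθ hK1 (ε / 2 / (4 * (2 * N₀ + 1))) (by positivity)
  obtain ⟨b, HR⟩ := hR F θ₀ W K j hJ hθ hK1 (min 1 (ε / 2 / (2 * N + 1))) (max a₀ a₁) (by positivity)
  refine ⟨max a₀ a₁, b, le_max_left _ _, exists_of_ev ?_⟩
  filter_upwards [ev_wv HR, ev_wv (HF _ (le_max_right a₀ a₁)), ev_win h1m F hθ one_pos] with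
    δ r f w Λ hΛ l L hw V hV hj hGL
  obtain ⟨hab, c, hc, r⟩ := r Λ hΛ l L hw V hV hj hGL
  obtain ⟨p₁, p₂, hp₁, hp₂, f⟩ := f Λ hΛ l L hw V hV hj hGL
  obtain ⟨l3, hZ, l4, l5⟩ := HL Λ hΛ V hV hj (max a₀ a₁)
  obtain ⟨A₁, B₁, hI, hO⟩ := (hA V W hV).act 1
  have he := hΛ.e0_pos
  obtain ⟨-, -, b1, b2, -⟩ := HP Λ hΛ
  have g1 : θ₀ / 2 / P ≤ Λ.gN l := div_le_div₀ ((half_pos hθ).le.trans (w Λ hΛ l L hw).2)
    (w Λ hΛ l L hw).2 he b1
  have g2 : Λ.gN l ≤ P := (div_le_div_of_nonneg_right (H1 Λ hΛ l hw.one_le_l).2.1 he.le).trans b2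
  have pre := (hB Λ V W (Λ.gN l) 1 A₁ B₁ hΛ.ok (hΛ.1.trans hJ) hV hI hO).1
  have hlev := lev_le pre
  simp only [hI.2.2.1] at hlev
  have h0 : (0 : ℝ) < N₀ := by linarith
  refine ⟨hab, fun s => Zs (V.rm Λ (max a₀ a₁)) / c * p₁ s, p₂,
    fun s => mul_nonneg (div_pos hZ hc).le (hp₁ s), hp₂, fun S hS => ?_⟩
  have h := k0 (N₀ := N₀) pre.nonneg l4 (fun z => exp_le_one_iff.2 (by
      linarith [(HK _ g1 g2 V W hV _ _ hab z.1 z.2).1])) hc hZ (min_le_left _ _)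
    hlev r l3 ((l5 N₀ h0).trans (by
      rw [div_eq_mul_inv _ 2, mul_comm _ 2⁻¹]
      refine mul_le_mul_of_nonneg_right ((div_le_iff₀ (by positivity)).2 ?_) hZ.le
      nlinarith)) f fun z hz => (hS z hz).trans hN
  simp only [mul_assoc]
  refine h.trans ?_
  rw [mul_div_cancel₀ _ (by positivity)]
  linarith [(le_div_iff₀' (by positivity)).1 (min_le_right 1 (ε / 2 / (2 * N + 1)))]

end Crest.Agent.T145.Kv
end

-- ▼ part T145/KvK3_85
section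

/-!
# Row 145: `Kv.K3Stmt` (helper85)
-/

set_option autoImplicit false

namespace Crest.Agent.T145.Kv.K85

open Finset Pot Pot.K85 Pot.V85 Pot.H59
open Kr (cu)
open Vd (ray)

variable {V : Gv}

theorem cu_single (x : Pt) : cu (Finsupp.single x 1) = dl x := by
  funext y; simp only [cu, dl, Finsupp.single_apply, Pi.single_apply, eq_comm]; split_ifs <;> simp

theorem dl_ne {x y : Pt} (h : y ≠ x) : dl x y = 0 := Pi.single_eq_of_ne h _

theorem lift (hD : DualStmt) {ed : Finset (Pt × Pt)} (hed : ed ⊆ V.EO) {ℓ : (Pt → ℝ) → ℝ} {n : ℝ}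
    (h : Fn ed ℓ n) : ∃ (f : Pt → ℝ) (c₁ c₂ : ℝ), V.Fx V.EO f n ∧
      f = (fun x => ℓ (dl x)) + c₁ • dl V.k1 + c₂ • dl V.k2 ∧
      (∀ s, pr f s = ℓ (cu s) + c₁ * s V.k1 + c₂ * s V.k2) ∧
      ((∀ e ∈ ed, V.s1 e = 0) → c₁ = 0) ∧ ((∀ e ∈ ed, V.s2 e = 0) → c₂ = 0) := by
  obtain ⟨g, h1, h2⟩ := h.f2
  obtain ⟨c₁, c₂, h3, h4⟩ := (hD V ed n).2.1 g h1
  refine ⟨_, c₁, c₂, ((hD V ed n).2.2 _ h3).1 _ hed, ?_, fun s => ?_, h4⟩
  · congr 2; funext x; rw [← cu_single]; exact (by simp : g x = _).trans (h2 (Finsupp.single x 1)).symm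
  · simp only [pr_add, pr_smul, AddMonoidHom.add_apply, AddMonoidHom.smul_apply, smul_eq_mul, dl,
      pr_pi_single, one_mul, ← h2]
    rfl

theorem liftI (hD : DualStmt) {ed : Finset (Pt × Pt)} (hed : ed ⊆ V.EO) (h2 : ∀ e ∈ ed, V.s2 e = 0)
    {ℓ : (Pt → ℝ) → ℝ} {n : ℝ} (h : Fn ed ℓ n) (h0 : ∀ x, x ∉ V.G.In → ℓ (dl x) = 0) :
    ∃ (f : Pt → ℝ) (c : ℝ), V.Ic f n ∧ ∀ s, pr f s = ℓ (cu s) + c * s V.k1 := by
  obtain ⟨f, c₁, c₂, a1, a2, a3, -, a4⟩ := lift hD hed h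
  refine ⟨f, c₁, ⟨fun x hx => ?_, a1⟩, fun s => by rw [a3, a4 h2, zero_mul, add_zero]⟩
  rw [Gv.In, mem_insert, not_or] at hx
  simp [a2, a4 h2, h0 x hx.2, Pi.single_eq_of_ne hx.1]

theorem liftO (hD : DualStmt) {ed : Finset (Pt × Pt)} (hed : ed ⊆ V.EO) (h2 : ∀ e ∈ ed, V.s1 e = 0)
    {ℓ : (Pt → ℝ) → ℝ} {n : ℝ} (h : Fn ed ℓ n) (h0 : ∀ x, x ∉ V.G.Ou → ℓ (dl x) = 0) :
    ∃ (f : Pt → ℝ) (c : ℝ), V.Oc f n ∧ ∀ s, pr f s = ℓ (cu s) + c * s V.k2 := by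
  obtain ⟨f, c₁, c₂, a1, a2, a3, a4, -⟩ := lift hD hed h
  refine ⟨f, c₂, ⟨fun x hx => ?_, a1⟩, fun s => by rw [a3, a4 h2, zero_mul, add_zero]⟩
  rw [Gv.Ou, mem_insert, not_or] at hx
  simp [a2, a4 h2, h0 x hx.2, Pi.single_eq_of_ne hx.1]

theorem hm_hx {A : Finset Pt} {B : Bf Pt} (h : Co A B) {u : Pt → ℝ} (hu : Hm A B u) (w : Pt → ℝ) :
    B u (hx A B w) = B u w := by
  rw [hx, map_sub, hu _ (h.gr_sup _), sub_zero]

theorem on_insert {K : Finset Pt} {k : Pt} (hk : k ∉ K) (u : Pt → ℝ) :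
    on (insert k K) u = on K u + u k • dl k := by
  funext x
  by_cases h : x = k
  · simp [on, h, hk]
  · simp [on, h]

theorem pr_op (K : Finset Pt) (B : Bf Pt) (c : ℝ) (u : Pt → ℝ) (s : Cfg Pt) :
    pr (c • on K (op B u)) s = c * B u (on K (cu s)) := by
  rw [pr_smul, AddMonoidHom.smul_apply, pr_of_fsupp _ s (sup_on K _), ← ip_op K B u (sup_on K _)]
  exact congrArg _ (sum_congr rfl fun x hx => by rw [on_of_mem hx, on_of_mem hx]; rfl)

/-- the extension of `w` without flux -/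
noncomputable def ps (V : Gv) (w : Pt → ℝ) : Pt → ℝ := hx V.G.A V.B w - (V.cp⁻¹ * V.B V.om w) • V.om

theorem ps_add (a : V.Alg) (w w' : Pt → ℝ) : ps V (w + w') = ps V w + ps V w' := by
  simp only [ps, a.coA.hx_add, map_add, mul_add, add_smul]; abel
theorem ps_smul (a : V.Alg) (c : ℝ) (w : Pt → ℝ) : ps V (c • w) = c • ps V w := by
  simp only [ps, a.coA.hx_smul, map_smul, smul_sub, smul_smul, smul_eq_mul, mul_left_comm c]
theorem ps_hm (a : V.Alg) (w : Pt → ℝ) : Hm V.G.A V.B (ps V w) := fun v hv => by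
  simp [ps, a.coA.hx_hm w v hv, a.om_hm v hv]
theorem ps_off (a : V.Alg) (w : Pt → ℝ) {x : Pt} (hx : x ∉ V.G.A) :
    ps V w x = w x - V.cp⁻¹ * V.B V.om w * on V.G.In 1 x := by
  rw [ps, Pi.sub_apply, Pi.smul_apply, a.coA.hx_off _ hx, smul_eq_mul]
  exact congrArg (fun t => w x - _ * t) (a.coA.hx_off _ hx)
theorem ps_flux (a : V.Alg) (w : Pt → ℝ) : V.B (ps V w) (on V.G.In 1) = 0 := by
  rw [← hm_hx a.coA (ps_hm a w), ← Gv.om, a.coA.symm, ps, map_sub, map_smul, hm_hx a.coA a.om_hm, ← Gv.cp,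
    smul_eq_mul, mul_right_comm, inv_mul_cancel₀ a.cp_pos.ne', one_mul, sub_self]

theorem y0_eq (a : V.Alg) (s t : Cfg Pt) :
    V.y0 s t = -V.B (ps V (on V.Ou (cu t))) (on V.In (cu s)) := by
  have := a.cp_pos
  rw [Gv.y0, Gv.eq, Gv.te, pr_op, pr_op, a.coA.symm, Gv.ma, Gv.mI, Gv.mb, hm_hx a.coA (a.hm _).2, Gv.mO, ps,
    map_sub, map_smul, LinearMap.sub_apply, LinearMap.smul_apply, smul_eq_mul]
  field_simp
  ring

theorem mem_an' {x : Pt} {p q : ℕ} : x ∈ Nc.an 0 p q ↔ (p : ℤ) < ds 0 x ∧ ds 0 x ≤ q := Pot.K85.mem_an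

theorem ds0 (x : Pt) : ds 0 x = max (max x.1 (-x.1)) (max x.2 (-x.2)) := by
  simp only [ds, Prod.fst_zero, Prod.snd_zero, sub_zero, abs_eq_max_neg]

/-- edges left of the slit -/
theorem kp_in {ed : Finset (Pt × Pt)} {e : Pt × Pt} (he : e ∈ ed) (h : e.1.1 < (V.G.rho : ℤ) - 4 * V.ω) :
    e ∈ V.kp ed ∧ V.s2 e = 0 := by
  have : V.s2 e = 0 := if_neg (by omega)
  exact ⟨mem_filter.2 ⟨he, by rw [this, Gv.s1, if_pos h, add_zero]⟩, this⟩

/-- edges outside the slit -/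
theorem kp_out {ed : Finset (Pt × Pt)} {e : Pt × Pt} (he : e ∈ ed) (h : (V.G.rho : ℤ) + 4 * V.ω ≤ ds 0 e.2) :
    e ∈ V.kp ed ∧ V.s1 e = 0 := by
  rw [ds0] at h
  rw [Gv.kp, mem_filter]
  simp only [he, Gv.s1, Gv.s2, ray, Prod.fst_zero, Prod.snd_zero, true_and]
  split_ifs <;> omega

end Crest.Agent.T145.Kv.K85

namespace Crest.Agent.T145.Kv

open Finset Pot Pot.K85 Pot.V85 Pot.H59 K85
open Kr (cu)

theorem k3Stmt (hG : GeoStmt) (hA : AlgStmt) (hD : DualStmt) : K3Stmt := by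
  obtain ⟨C₁, c1, h₁⟩ := V85.inner
  obtain ⟨C₂, c2, h₂⟩ := fn_out
  refine ⟨10 ^ 12 * (1 + C₁ + C₂ ^ 2), 2 ^ 16, by positivity, fun V W hW hV => ?_⟩
  set C := 10 ^ 12 * (1 + C₁ + C₂ ^ 2) with hC
  have g := hG V W hV
  have a := hA V W hV
  have W0 : 0 < W := by linarith
  obtain ⟨r, hr⟩ : ∃ r, r = V.G.r := ⟨_, rfl⟩
  obtain ⟨R, hR⟩ : ∃ R, R = V.G.rho / 4 := ⟨_, rfl⟩
  have n1 := hV.g.hc
  have n2 := hV.g.hr
  have n3 := hV.g.out
  have n4 := g.rho_le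
  have n5 := g.le_rho
  have n6 := g.ω_le
  have n7 : 65536 * V.G.r ≤ V.G.R := by
    have : (65536 * V.G.r : ℝ) ≤ V.G.R :=
      (mul_le_mul_of_nonneg_right (by linarith) V.G.r.cast_nonneg).trans hV.g.lo
    exact_mod_cast this
  have r0 : (64 : ℝ) ≤ r := by exact_mod_cast (by omega : 64 ≤ r)
  have R0 : (0 : ℝ) < R := by exact_mod_cast (by omega : 0 < R)
  have q1 : (r : ℝ) / R ≤ 257 / W := by
    rw [div_le_div_iff₀ R0 W0, mul_comm, hr]
    exact hV.g.lo.trans (by exact_mod_cast (by omega : V.G.R ≤ 257 * R))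
  have q0 : 0 ≤ (r : ℝ) / R := by positivity
  have mA : ∀ {x}, x ∈ V.G.A ↔ (r : ℤ) < ds 0 x ∧ ds 0 x ≤ V.G.R := by rw [hr]; exact mem_an'
  have mI : ∀ {x}, x ∈ V.G.In ↔ (V.G.c : ℤ) < ds 0 x ∧ ds 0 x ≤ r := by rw [hr]; exact mem_an'
  have mO : ∀ {x}, x ∈ V.G.Ou ↔ (V.G.R : ℤ) < ds 0 x ∧ ds 0 x ≤ V.G.R₂ := mem_an'
  have mm : ∀ {x}, x ∈ V.G.Om ↔ (V.G.c : ℤ) < ds 0 x ∧ ds 0 x ≤ V.G.R₂ := mem_an'
  have d1 : ds 0 V.k1 = 0 := by simp [ds0, Gv.k1]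
  have d2 : ds 0 V.k2 = V.G.R₂ + 1 := by simp only [ds0, Gv.k2]; omega
  have eA : ∀ e ∈ V.EA, e.2 - e.1 ∈ nL.Jp ∧ (e.1 ∈ V.G.A ∨ e.2 ∈ V.G.A) := fun e he =>
    Lat.mem_edT.1 (mem_filter.1 he).1
  -- the extension of plain outer data
  obtain ⟨Ψ, hΨ⟩ : ∃ Ψ : (Pt → ℝ) → Pt → ℝ, ∀ u, Ψ u = ps V (on V.G.Ou u) := ⟨_, fun _ => rfl⟩
  have p1 : ∀ u x, x ∉ V.G.Om → Ψ u x = 0 := fun u x hx => by
    rw [mm] at hx
    rw [hΨ, ps_off a _ (by rw [mA]; omega), on_of_not (by rw [mO]; omega), on_of_not (by rw [mI]; omega),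
      mul_zero, sub_zero]
  have p2 : ∀ u v : Pt → ℝ, v V.k1 = 0 → v V.k2 = 0 → V.B (Ψ u) v = edF V.EA (Ψ u) v := fun u v =>
    a.plain _ _ _ (p1 u _ g.k_off.1) (p1 u _ g.k_off.2.1)
  have p3 : ∀ u v, -V.B (Ψ u) (on V.G.In v) = Yb 0 r R v (Mh 0 R (Ψ u)) := fun u v => by
    have k : ∀ v, V.B (Ψ u) (on V.G.In v) = edF V.EA (Ψ u) (on (an 0 V.G.c r) v) := fun v => by
      rw [hr]; exact p2 u _ (on_of_not (by rw [mI]; omega)) (on_of_not (by rw [mI]; omega))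
    rw [k]
    refine pair (t := -(V.cp⁻¹ * V.B V.om (on V.G.Ou u))) (by omega) (by omega) (fun e he => ?_)
      (fun e he => ⟨(eA e he).1, ?_⟩) (fun x hx => ?_) (fun x hx => ?_) ((k 1).symm.trans (hΨ u ▸ ps_flux a _)) v
    · rw [Lat.mem_edT, Pot.K85.mem_an, Pot.K85.mem_an] at he
      have := abs_le.1 (edge_ds 0 he.1).2
      have := ds0 e.1
      exact (kp_in (Lat.mem_edT.2 ⟨he.1, by rw [mA, mA]; omega⟩) (by omega)).1
    · have := (eA e he).2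
      rw [mA, mA] at this; rw [mem_bl_ds, mem_bl_ds]; omega
    · rw [Pot.K85.mem_an] at hx
      rw [hΨ, ps_off a _ (by rw [mA]; omega), on_of_not (by rw [mO]; omega), on_of_mem (mI.2 hx)]
      simp
    · rw [Pot.K85.mem_an] at hx
      rw [← p2 u (dl x) (dl_ne fun h => by rw [← h] at hx; omega) (dl_ne fun h => by rw [← h] at hx; omega)]
      exact hΨ u ▸ ps_hm a _ _ (sup_dl (mA.2 (by omega)))
  set O := nL.edI (an 0 (V.G.R / 8) (2 * V.G.R)) with hO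
  have p4 : ∀ u, edF (nL.edI (an 0 (R / 8) (2 * R))) (Ψ u) (Ψ u) ≤ 200000 * edF O u u := fun u => by
    obtain ⟨c, v, v1, v2, v3⟩ := fill0 0 (p := V.G.R / 2) (R := V.G.R) (by omega) (by omega) u
    set w := on V.G.Om v - Ψ u with hw
    have b1 : V.B (Ψ u) w = 0 := by
      have := ps_hm a (on V.G.Ou u) (w - (c + V.cp⁻¹ * V.B V.om (on V.G.Ou u)) • on V.G.In 1) fun x hx => by
        rw [hw, hΨ, Pi.sub_apply, Pi.sub_apply, ps_off a _ hx, Pi.smul_apply, smul_eq_mul]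
        rw [mA] at hx
        by_cases h : x ∈ V.G.In
        · have := mI.1 h
          rw [on_of_mem h, on_of_mem (mm.2 (by omega)), on_of_not (by rw [mO]; omega), v2 x (by omega)]
          simp
        · rw [on_of_not h]
          rw [mI] at h
          by_cases h' : x ∈ V.G.Ou
          · have := mO.1 h'
            rw [on_of_mem h', on_of_mem (mm.2 (by omega)), v1 x (by omega)]; simp
          · rw [on_of_not h']
            rw [mO] at h'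
            rw [on_of_not (by rw [mm]; omega)]; simp
      rwa [map_sub, map_smul, ps_flux a, smul_zero, sub_zero, ← hΨ] at this
    have b2 := a.coA.sq_add (Ψ u) w
    have b3 := a.coA.nonneg w
    rw [b1, hw, add_sub_cancel, ← hw, p2 u _ (p1 u _ g.k_off.1) (p1 u _ g.k_off.2.1)] at b2
    have b4 : V.B (on V.G.Om v) (on V.G.Om v) = edF V.EA v v := by
      rw [Gv.B, a.plain _ _ _ (on_of_not g.k_off.1) (on_of_not g.k_off.2.1) (on_of_not g.k_off.1)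
        (on_of_not g.k_off.2.1), edF_self, edF_self]
      refine sum_congr rfl fun e he => ?_
      have := (Lat.mem_edI.1 (mem_filter.1 (g.EA_sub he)).1).2
      rw [on_of_mem this.1, on_of_mem this.2]
    have b5 : edF V.EA v v ≤ eD nL (bl 0 V.G.R) v v :=
      edF_mono ((filter_subset _ _).trans (Lat.edT_mono sdiff_subset)) v
    have b6 : eN nL (an 0 (V.G.R / 2 / 2) (V.G.R + 1)) u u ≤ edF O u u :=
      eN_mono (fun x hx => by rw [Pot.K85.mem_an] at *; push_cast at *; omega) u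
    have b7 : edF (nL.edI (an 0 (R / 8) (2 * R))) (Ψ u) (Ψ u) ≤ edF V.EA (Ψ u) (Ψ u) :=
      edF_mono (fun e he => by
        rw [Lat.mem_edI, Pot.K85.mem_an, Pot.K85.mem_an] at he
        have := ds0 e.1
        exact (kp_in (Lat.mem_edT.2 ⟨he.1, by rw [mA, mA]; omega⟩) (by omega)).1) _
    linarith
  have lO : ∀ {ℓ : (Pt → ℝ) → ℝ} {n n' : ℝ}, Fn (nL.edI (an 0 (R / 8) (2 * R))) ℓ n → 200000 * n ≤ n' →
      ∃ (f : Pt → ℝ) (c : ℝ), V.Oc f n' ∧ ∀ s, pr f s = ℓ (Ψ (cu s)) + c * s V.k2 := fun {ℓ n n'} h hn => by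
    have k : ∀ e ∈ O, e ∈ V.EO ∧ V.s1 e = 0 := fun e he => by
      rw [hO, Lat.mem_edI, Pot.K85.mem_an, Pot.K85.mem_an] at he
      exact kp_out (Lat.mem_edI.2 ⟨he.1, by rw [mm, mm]; omega⟩) (by omega)
    obtain ⟨φ, h1, h2⟩ := id h
    have l2 : ∀ (c : ℝ) u, ℓ (Ψ (c • u)) = c * ℓ (Ψ u) := fun c u => by
      simp only [hΨ, on_smul, ps_smul a, h1, Pi.smul_apply, smul_eq_mul, mul_sum]
      exact sum_congr rfl fun _ _ => by ring
    refine liftO hD (ℓ := fun u => ℓ (Ψ u)) (fun e he => (k e he).1) (fun e he => (k e he).2)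
      (fn_of_dual (by linarith [h.nonneg]) (fun u v => ?_) l2 fun u => (h.sq_le _).trans ?_) fun x hx => ?_
    · simp only [hΨ, on_add, ps_add a, h1, Pi.add_apply, ← sum_add_distrib]
      exact sum_congr rfl fun _ _ => by ring
    · nlinarith [mul_le_mul_of_nonneg_left (p4 u) h.nonneg,
        mul_le_mul_of_nonneg_right hn ((sy_edF O).nonneg u)]
    · have := l2 0 0
      rw [zero_mul] at this
      rw [← this, hΨ, hΨ]
      congr 2
      funext y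
      by_cases hy : y ∈ V.G.Ou
      · rw [on_of_mem hy, on_of_mem hy, dl_ne fun h : y = x => hx (h ▸ hy)]; simp
      · rw [on_of_not hy, on_of_not hy]
  have lI : ∀ {φ : Pt → ℝ} {t n n' : ℝ}, (∀ x ∈ bl 0 (3 * r), lap φ x = 0) →
      Fn (nL.edI (an 0 (r / 2) (2 * r))) (fun u => t * Yb 0 r R u φ) n → n ≤ n' →
      ∃ (f : Pt → ℝ) (c : ℝ), V.Ic f n' ∧ ∀ s, pr f s = t * Yb 0 r R (cu s) φ + c * s V.k1 :=
    fun {φ t n n'} hφ h hn => by
      have k : ∀ e ∈ nL.edI (an 0 (r / 2) (2 * r)), e ∈ V.EO ∧ V.s2 e = 0 := fun e he => by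
        rw [Lat.mem_edI, Pot.K85.mem_an, Pot.K85.mem_an] at he
        have := ds0 e.1
        exact kp_in (Lat.mem_edI.2 ⟨he.1, by rw [mm, mm]; omega⟩) (by omega)
      refine liftI hD (fun e he => (k e he).1) (fun e he => (k e he).2) (h.mono hn) fun x hx => ?_
      rw [Yb_loc (by omega) (fun y hy => hφ y (mem_bl_ds.2 (by omega))) (v := (0 : ℝ) • 0) fun y hy => by
        rw [dl_ne fun h : y = x => hx (h ▸ mI.2 (by omega))]; simp, Yb_smul_left, zero_mul, mul_zero]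
  obtain ⟨S, Y, S0, S1, hY, hM⟩ := h₁ r R (by omega) (by omega)
  obtain ⟨o1, o2, -⟩ := h₂ 0 R (by omega)
  have Sp : (0 : ℝ) < S.card := by exact_mod_cast S0.card_pos
  choose yi ci hyi using fun i => lI (t := (r : ℝ)⁻¹) (n' := C) (fun x _ => lap_cx (z := 0) i x)
    ((fn_Yb (by omega) (by omega) (fun x _ => lap_cx i x) fun x _ e he => dif_cx i he x).smul _) (by
      rw [← mul_pow, hC, show (r : ℝ)⁻¹ * (10 ^ 6 * r * 1) = 10 ^ 6 by field_simp]; nlinarith [sq_nonneg C₂])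
  choose di cd hdi using fun i => lO (n' := C / W ^ 2) ((o2 i).smul r) (by
    have := mul_le_mul_of_nonneg_left (pow_le_pow_left₀ q0 q1 2) (sq_nonneg C₂)
    rw [div_pow 257, ← mul_div_assoc, le_div_iff₀ (by positivity)] at this
    rw [le_div_iff₀ (by positivity), show (r : ℝ) ^ 2 * (C₂ / R) ^ 2 = C₂ ^ 2 * (r / R) ^ 2 by ring, hC]
    nlinarith [sq_nonneg C₂])
  choose! y₂ cy hy₂ using fun w hw => lI (n' := C / W ^ 4) (hY w hw).1 (hY w hw).2 (by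
    refine (mul_le_mul_of_nonneg_left (pow_le_pow_left₀ q0 q1 4) c1).trans ?_
    rw [div_pow, ← mul_div_assoc, hC]
    exact div_le_div_of_nonneg_right (by nlinarith [sq_nonneg C₂]) (by positivity))
  choose! al ca hal using fun w (hw : w ∈ S) => lO (n' := C) (o1 w (S1 hw)) (by
    rw [hC]; nlinarith [sq_nonneg C₂])
  refine ⟨fun s => -V.B (ps V (dl V.k2)) (on V.In (cu s)) - ∑ i, pr (yi i) s * cd i -
      (∑ w ∈ S, pr (y₂ w) s * ca w) / S.card,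
    fun s => -V.B (Ψ (cu s)) (dl V.k1) - ∑ i, ci i * (r * pc 0 (Mh 0 R (Ψ (cu s))) i) -
      (∑ w ∈ S, cy w * (Mh 0 R (Ψ (cu s)) w - Mh 0 R (Ψ (cu s)) 0)) / S.card, yi, di, S, y₂, al, S0,
    fun i => ⟨(hyi i).1, (hdi i).1⟩, fun w hw => ⟨(hy₂ w hw).1, (hal w hw).1⟩, fun s t h1 h2 => ?_⟩
  have e1 : V.y0 s t = -V.B (ps V (dl V.k2)) (on V.In (cu s)) - V.B (Ψ (cu t)) (dl V.k1) +
      Yb 0 r R (cu s) (Mh 0 R (Ψ (cu t))) := by
    rw [y0_eq a, Gv.Ou, on_insert (by rw [mO]; omega), ps_add a, ps_smul a, show cu t V.k2 = 1 by simp [cu, h2],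
      one_smul, map_add, LinearMap.add_apply, ← p3, ← hΨ]
    conv_lhs => enter [1, 1]; rw [Gv.In, on_insert (by rw [mI]; omega), show cu s V.k1 = 1 by simp [cu, h1],
      one_smul, map_add]
    ring
  have e2 : ∑ w ∈ S, pr (y₂ w) s * pr (al w) t = S.card * ∑ w ∈ S, Yb 0 r R (cu s) (Y w) *
      (Mh 0 R (Ψ (cu t)) w - Mh 0 R (Ψ (cu t)) 0) + ∑ w ∈ S, pr (y₂ w) s * ca w +
      ∑ w ∈ S, cy w * (Mh 0 R (Ψ (cu t)) w - Mh 0 R (Ψ (cu t)) 0) := by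
    rw [mul_sum, ← sum_add_distrib, ← sum_add_distrib]
    exact sum_congr rfl fun w hw => by rw [(hy₂ w hw).2, (hal w hw).2, h1, h2]; push_cast; ring
  rw [e1, e2, hM _ fun x hx => lap_Mh _ hx]
  simp only [Fin.sum_univ_two, (hyi _).2, (hdi _).2, h1, h2]
  push_cast
  field_simp
  ring

end Crest.Agent.T145.Kv
end

-- ▼ part T145/KvKsh_77
section

/-!
# Row 145, module Kv: (K#) on the extended lattice (helper77)
-/

set_option autoImplicit false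

namespace Crest.Agent.T145.Kv

open Finset Real Filter Topology KrA

namespace K77

theorem thf_le {κ : ℝ} (hκ : 0 < κ) (u : ℝ) : 0 ≤ thf κ u ∧ thf κ u ≤ 3 * √(2 * π / min κ 1) := by
  have k0 : 0 < min κ 1 := lt_min hκ one_pos
  have hl := exp_two_pi_le k0 (min_le_right _ _)
  have h := (abs_le.1 (thk_near k0 hl u)).2
  rw [thk, sub_le_iff_le_add, div_le_iff₀ (sqrt_pos.2 (by positivity))] at h
  refine ⟨tsum_nonneg fun _ => (exp_pos _).le, le_trans ((summ_thf hκ u).tsum_le_tsum (fun j => ?_)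
    (summ_thf k0 u)) (h.trans (mul_le_mul_of_nonneg_right (by linarith) (sqrt_nonneg _)))⟩
  exact exp_le_exp.2 (by nlinarith [sq_nonneg (u - j), min_le_left κ 1])

theorem shp {X Y : Type} {A : Act X} {B : Act Y} {ν : X × Y → ℝ} {y : X → Y → ℝ} {p : X → ℝ} {q : Y → ℝ}
    {κ η M₀ : ℝ} (hP : Kr.Pre A B ν y) (hκ : 0 < κ) (y1 : ∀ a b, A.T a → B.T b → |y a b| ≤ M₀)
    (p0 : ∀ a, 0 ≤ p a) (q0 : ∀ b, 0 ≤ q b) (pe : ∀ a, p (A.ng a) = p a) (qe : ∀ b, q (B.ng b) = q b)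
    (sA : Summable (A.pib p)) (sB : Summable (B.pib q))
    (cl : ∑' z : X × Y, |mub A B ν z - A.pib p z.1 * B.pib q z.2 *
      (thf κ (A.H z.1 - B.H z.2) * exp (y z.1 z.2))| ≤ η) :
    KrA.Shp A B ν κ y (fun a => √(2 * π / κ) * A.pib p a) (B.pib q) η := by
  have s0 : 0 < √(2 * π / κ) := sqrt_pos.2 (by positivity)
  refine ⟨hP.nonneg, hP.one, fun a => mul_nonneg s0.le (A.pib_nonneg p0 a), sA.mul_left _,
    B.pib_nonneg q0, sB, fun a ha => (A.pib_ne (right_ne_zero_of_mul ha)).1, fun b hb => (B.pib_ne hb).1,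
    fun a => by rw [A.pib_ng pe], B.pib_ng qe, ?_, le_of_eq_of_le (tsum_congr fun z => ?_) cl⟩
  · refine ((hasSum_mub_one A B hP.nonneg hP.one).summable.sub (summ_bdd
      («π» := fun z : X × Y => √(2 * π / κ) * A.pib p z.1 * B.pib q z.2)
      (U := 3 * √(2 * π / min κ 1) / √(2 * π / κ) * exp M₀)
      (fun z => mul_nonneg (mul_nonneg s0.le (A.pib_nonneg p0 _)) (B.pib_nonneg q0 _))
      (summ_tens (sA.mul_left _) sB) fun z hz => ?_)).abs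
    have := thf_le hκ (A.H z.1 - B.H z.2)
    rw [abs_mul, abs_of_pos (exp_pos _), thk, abs_of_nonneg (div_nonneg this.1 s0.le)]
    exact mul_le_mul (div_le_div_of_nonneg_right this.2 s0.le) (exp_le_exp.2 (abs_le.1 (y1 _ _
      (A.pib_ne (right_ne_zero_of_mul (left_ne_zero_of_mul hz))).1
      (B.pib_ne (right_ne_zero_of_mul hz)).1)).2) (exp_pos _).le (by positivity)
  · congr 2; rw [thk]; field_simp

/-- the tail of the window -/
theorem tail {X Y : Type} {A : Act X} {B : Act Y} {ν : X × Y → ℝ} {y : X → Y → ℝ} {K e₁ e₂ : ℝ}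
    (hP : Kr.Pre A B ν y)
    (h1 : ∑' z : X × Y, tw (A.H z.1) * ν z * ind (¬ (A.T z.1 ∧ B.T z.2)) ≤ e₁)
    (h2 : ∑' z : X × Y, tw (A.H z.1) * ν z * ind (K < |A.H z.1 - B.H z.2|) ≤ e₂) :
    ∑' z : X × Y, tw (A.H z.1) * ν z * ind (¬ (A.T z.1 ∧ B.T z.2 ∧ |A.H z.1 - B.H z.2| ≤ K)) ≤
      e₁ + e₂ := by
  have w0 : ∀ z : X × Y, 0 ≤ tw (A.H z.1) * ν z := fun z => mul_nonneg (tw_nonneg _) (hP.nonneg z)
  have S : ∀ p : X × Y → Prop, Summable fun z : X × Y => tw (A.H z.1) * ν z * ind (p z) := fun p =>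
    summ_bdd w0 hP.one.summable (U := 1) fun z _ => by
      rw [abs_of_nonneg (ind_nonneg _)]; exact ind_le_one _
  refine le_trans ?_ (add_le_add h1 h2)
  rw [← (S _).tsum_add (S _)]
  refine (S _).tsum_le_tsum (fun z => ?_) ((S _).add (S _))
  rw [← mul_add]
  refine mul_le_mul_of_nonneg_left ((ind_mono fun h => ?_).trans (ind_or_le _ _)) (w0 z)
  by_contra h'
  rw [not_or, not_not, not_lt] at h'
  exact h ⟨h'.1.1, h'.1.2, h'.2⟩

/-- the capacity and the cross term are bounded on the typical sets -/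
theorem y_bd {V : Gv} (Al : V.Alg) {A B : Act (Cfg Pt)} {α C T : ℝ} (α0 : 0 ≤ α) (C0 : 0 ≤ C) (T0 : 0 ≤ T)
    (hI : V.IsI A α) (hO : V.IsO B α)
    (h2 : ∀ s t, |V.B (V.ma s) (V.mb t)| ≤ C * (V.nm (V.ma s) + V.nm (V.mb t)))
    (ha : ∀ a, A.T a → V.nm (V.ma a) ≤ 2 * α + T * pr V.eq a ^ 2)
    (hb : ∀ b, B.T b → V.nm (V.mb b) ≤ 2 * α + T * pr V.te b ^ 2) :
    V.cp ≤ C * (4 * α + 2 * T) ∧ ∀ a b, A.T a → B.T b → |V.y0 a b| ≤ 2 * (C * (4 * α + 2 * T)) := by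
  have key : ∀ a b, A.T a → B.T b → |A.H a| ≤ 1 → |B.H b| ≤ 1 →
      |V.B (V.ma a) (V.mb b)| ≤ C * (4 * α + 2 * T) := fun a b h1 h3 k1 k3 => by
    rw [hI.2.2.1] at k1
    rw [hO.2.2.1] at k3
    have m1 := mul_le_mul_of_nonneg_left ((sq_le_one_iff_abs_le_one _).2 k1) T0
    have m2 := mul_le_mul_of_nonneg_left ((sq_le_one_iff_abs_le_one _).2 k3) T0
    exact (h2 a b).trans (mul_le_mul_of_nonneg_left (by linarith [ha a h1, hb b h3]) C0)
  have z : ∀ {m : Pt → ℝ}, m = -m → m = 0 := fun {m} h => funext fun x => by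
    have := congrFun h x
    rw [Pi.neg_apply] at this
    rw [Pi.zero_apply]; linarith
  have n0 : V.nm 0 = 0 := by simp [Gv.nm]
  have TA : A.T 0 := (hI.2.2.2 0).2 (by
    rw [z (m := V.ma 0) (by rw [← (Al.m_neg 0).1, neg_zero]), map_zero, zero_smul, sub_zero, n0]; exact α0)
  have TB : B.T 0 := (hO.2.2.2 0).2 (by
    rw [z (m := V.mb 0) (by rw [← (Al.m_neg 0).2, neg_zero]), map_zero, zero_smul, sub_zero, n0]; exact α0)
  have HA : A.H (A.s 1 0) = 1 := by rw [A.H_s, hI.2.2.1, map_zero]; simp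
  have HB : B.H (B.s 1 0) = 1 := by rw [B.H_s, hO.2.2.1, map_zero]; simp
  have yi : ∀ i j a b, V.y0 (A.s i a) (B.s j b) = V.y0 a b := fun i j a b => by
    rw [hI.1, hO.1, Al.y_in, Al.y_out]
  have c1 : V.cp ≤ C * (4 * α + 2 * T) := by
    have k := key _ _ ((A.T_s 1 0).2 TA) ((B.T_s 1 0).2 TB) (by rw [HA, abs_one]) (by rw [HB, abs_one])
    have y0 := yi 1 1 0 0
    have y1 := (Al.y_neg 0 0).1
    rw [neg_zero] at y1
    rw [Gv.y0, ← hI.2.2.1, ← hO.2.2.1, HA, HB] at y0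
    linarith [(abs_le.1 k).1]
  refine ⟨c1, fun a b h1 h3 => ?_⟩
  have r : ∀ u : ℝ, |u + ((-round u : ℤ) : ℝ)| ≤ 1 := fun u => by
    rw [Int.cast_neg, ← sub_eq_add_neg]; exact (abs_sub_round u).trans (by norm_num)
  have k1 : |A.H (A.s (-round (A.H a)) a)| ≤ 1 := by rw [A.H_s]; exact r _
  have k3 : |B.H (B.s (-round (B.H b)) b)| ≤ 1 := by rw [B.H_s]; exact r _
  have k := key _ _ ((A.T_s _ a).2 h1) ((B.T_s _ b).2 h3) k1 k3
  rw [← yi (-round (A.H a)) (-round (B.H b)), Gv.y0, ← hI.2.2.1, ← hO.2.2.1]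
  refine (abs_sub _ _).trans ?_
  rw [abs_neg, abs_mul, abs_mul, abs_of_pos Al.cp_pos]
  have := mul_le_one₀ k1 (abs_nonneg _) k3
  nlinarith [Al.cp_pos]

end K77

set_option maxHeartbeats 800000 in
open K77 in
theorem kshStmt (hKs : Kr.KsStmt) (hK0 : K0Stmt) (hK2 : K2Stmt) (hT : TypStmt) (hB : BarStmt)
    (hC : CapStmt) (hA : AlgStmt) (ha : T1aStmt) (hm : T1mStmt) : KshStmt := by
  intro F θ₀ W Kw j hJ hθ hKw η η0
  obtain ⟨g₂, hg₂⟩ : ∃ g₂, g₂ = max F.τ₂ 1 := ⟨_, rfl⟩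
  have g₂1 : 1 ≤ g₂ := hg₂ ▸ le_max_right _ _
  have E0 : 0 < F.base.a / F.τ₁ := div_pos F.base_ok.a_pos F.pos
  obtain ⟨g₁, hg₁⟩ : ∃ g₁, g₁ = θ₀ / 2 / (F.base.a / F.τ₁) := ⟨_, rfl⟩
  have g₁0 : 0 < g₁ := by rw [hg₁]; positivity
  obtain ⟨C, C0, hK2⟩ := hK2 g₁ g₂ g₁0
  obtain ⟨T, T0, hT⟩ := hT F W j hJ
  obtain ⟨α, hα⟩ : ∃ α, α = 3 * T / η := ⟨_, rfl⟩
  have α0 : 0 < α := by rw [hα]; positivity
  obtain ⟨U, hU⟩ : ∃ U, U = C * (4 * α + 2 * T) := ⟨_, rfl⟩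
  obtain ⟨K₀, hKs⟩ := hKs (1 / (2 * max W 1) / g₂) (U / g₁) (2 * U / g₁) (η / 3) (by positivity)
    (by positivity)
  obtain ⟨K, hK⟩ : ∃ K, K = max K₀ (1 + 12 * T / η) := ⟨_, rfl⟩
  have q0 : 0 ≤ 12 * T / η := by positivity
  have K1 : 1 + 12 * T / η ≤ K := hK ▸ le_max_right _ _
  have K0 : 0 < K := by linarith
  have Kt : T / (K / 2) ^ 2 ≤ η / 3 := by
    rw [div_le_iff₀ (by positivity)]
    have : 12 * T / η ≤ K ^ 2 := by nlinarith
    rw [div_le_iff₀ η0] at this; linarith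
  obtain ⟨M, hM⟩ : ∃ M, M = C * (2 * (2 * α + T * K ^ 2)) := ⟨_, rfl⟩
  obtain ⟨e, e0, hKs⟩ := hKs K M (hK ▸ le_max_left _ _)
  obtain ⟨a₀, ha₀⟩ := pow_unbounded_of_one_lt (M / e) (one_lt_two (α := ℝ))
  obtain ⟨a, b, hab, δ₁, δ0, hδ⟩ := hK0 F θ₀ W Kw j hJ hθ hKw K e a₀ e0
  obtain ⟨δ, δp, δ1, hw'⟩ := exists_of_ev ((ev_le δ0).and (ev_win hm F hθ one_pos))
  refine ⟨δ, δp, fun Λ hΛ l L hw V hV hj hL => ?_⟩
  obtain ⟨hp, p₁, p₂, p10, p20, h0⟩ := hδ Λ hΛ l L (hw.mono_d δ1) V hV hj hL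
  have g2 : Λ.gN l ≤ g₂ := hg₂ ▸ Kr.K77.g_range ha hΛ hw.one_le_l
  have g1 : g₁ ≤ Λ.gN l := by
    have := (hw' Λ hΛ l L hw).2
    rw [hg₁]
    exact div_le_div₀ (by linarith) this hΛ.e0_pos hΛ.e0_le
  generalize Λ.gN l = g at *
  have g0 : 0 < g := by linarith
  have Al := hA V W hV
  obtain ⟨A, B, hI, hO⟩ := Al.act α
  obtain ⟨Pr, -, bar, -⟩ := hB Λ V W g α A B hΛ.ok (hΛ.1.trans hJ) hV hI hO
  obtain ⟨far, hT⟩ := hT Λ hΛ V hV hj
  obtain ⟨bad, mA, mB⟩ := hT α A B α0 hI hO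
  have k2 := hK2 g g1 g2 V W hV a b hp
  obtain ⟨c2, yb⟩ := y_bd Al α0.le C0.le T0.le hI hO (fun s t => (k2 s t).2.2.1) mA mB
  rw [← hU] at c2 yb
  have cp0 := Al.cp_pos
  have W1 : max W 1 = W := max_eq_left (by linarith [hV.g.hW])
  have yb' : ∀ s t, A.T s → B.T t → |V.y0 s t / g| ≤ 2 * U / g₁ := fun s t h1 h2 => by
    rw [abs_div, abs_of_pos g0]
    exact div_le_div₀ (by linarith) (yb s t h1 h2) g₁0 g1
  have ab : ∀ p : Prop, |ind p| ≤ 1 := fun p => by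
    rw [abs_of_nonneg (ind_nonneg p)]; exact ind_le_one p
  have t1 := bar (fun z => ind (¬ (A.T z.1 ∧ B.T z.2))) 1 (fun z => ab _) fun i a b => by
    simp only [A.T_s, B.T_s]
  have t2 := bar (fun z => ind (K / 2 < |A.H z.1 - B.H z.2|)) 1 (fun z => ab _) fun i a b => by
    simp only [A.H_s, B.H_s, add_sub_add_right_eq_sub]
  have t3 : (fun s => ind (K / 2 < |A.H (V.dH s).1 - B.H (V.dH s).2|)) =
      fun s => ind (K / 2 < |pr V.eq s - pr V.te s|) := by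
    funext s
    rw [hI.2.2.1, hO.2.2.1, (Al.dat s).2.2.1, (Al.dat s).2.2.2]
  rw [t3] at t2
  have t4 : T / α = η / 3 := by rw [hα]; field_simp
  obtain ⟨p, q, P0, Q0, pe, qe, sp, sq, -, cl⟩ := hKs _ _ A B (V.nu Λ) (V.Bz g a b)
    (fun s t => V.y0 s t / g) p₁ (fun s => V.Bq g a b (V.ma s) (V.ma s) / 2) p₂
    (fun t => V.Bq g a b (V.mb t) (V.mb t) / 2) (V.cp / g) (η / 3 + η / 3)
    (by rw [W1]; exact div_le_div₀ cp0.le (hC V W hV).1 g0 g2)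
    (div_le_div₀ (by linarith) c2 g₁0 g1) Pr yb' p10 p20
    (tail Pr (t1.trans_le (bad.trans_eq t4)) (t2.trans_le ((far _ (by positivity)).trans Kt)))
    (fun S hS => h0 S fun z hz => by rw [← hI.2.2.1]; exact hS z hz)
    (fun s t h1 h2 h3 h4 => by
      obtain ⟨-, k1, -, k3⟩ := k2 s t
      rw [hI.2.2.1] at h2 ⊢
      rw [hO.2.2.1] at h4 ⊢
      have m1 := mul_le_mul_of_nonneg_left (sq_le_sq' (abs_le.1 h2).1 (abs_le.1 h2).2) T0.le
      have m2 := mul_le_mul_of_nonneg_left (sq_le_sq' (abs_le.1 h4).1 (abs_le.1 h4).2) T0.le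
      have m3 : C * (V.nm (V.ma s) + V.nm (V.mb t)) ≤ M :=
        hM ▸ mul_le_mul_of_nonneg_left (by linarith [mA s h1, mB t h3]) C0.le
      refine ⟨k1.trans m3, le_of_eq_of_le ?_ (k3.trans ?_)⟩
      · congr 2
        rw [Gv.y0]; ring
      · have t2 : (2 : ℝ) ^ a₀ ≤ 2 ^ a := pow_le_pow_right₀ one_le_two hab
        rw [div_mul_eq_mul_div, div_le_iff₀ (by positivity)]
        rw [div_lt_iff₀ e0] at ha₀
        nlinarith)
  exact ⟨g0, α, A, B, _, _, hI, hO, shp Pr (div_pos cp0 g0) yb' P0 Q0 pe qe sp sq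
    (cl.trans_eq (by ring))⟩

end Crest.Agent.T145.Kv
end

-- ▼ part T145/KvRing_12
section

/-!
# Row 145, module Kv: the Poincaré inequality on the slit ring (helper12)
-/

set_option autoImplicit false

namespace Crest.Agent.T145.Kv

open Finset Pot Pot.An44
open Vd (ray)

namespace Ring12

variable (V : Gv)

/-- the edges inside the ring that do not cross the ray -/
noncomputable def cut (n : ℕ) : Finset (Pt × Pt) := (nL.edI (V.rng n)).filter fun e => ray 0 e = 0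

variable {V}

theorem mem_rng {n : ℕ} (hn : n ≤ V.G.rho) {x : Pt} : x ∈ V.rng n ↔
    ((-(V.G.rho + n : ℤ) ≤ x.1 ∧ x.1 < V.G.rho + n) ∧ -(V.G.rho + n : ℤ) ≤ x.2 ∧ x.2 < V.G.rho + n) ∧
      ¬ ((-(V.G.rho - n : ℤ) ≤ x.1 ∧ x.1 < V.G.rho - n) ∧ -(V.G.rho - n : ℤ) ≤ x.2 ∧
        x.2 < V.G.rho - n) := by
  simp only [Gv.rng, mem_sdiff, mem_sq]
  omega

theorem card_rng_le (n : ℕ) : (V.rng n).card ≤ (2 * (V.G.rho + n)) ^ 2 :=
  (card_le_card sdiff_subset).trans (by rw [card_sq])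

/-- Poincaré inequality on the C-shaped ring -/
theorem poin (lam : ℕ) : ∃ C : ℝ, 0 < C ∧ ∀ (V : Gv) (n : ℕ) (u : Pt → ℝ), n ≤ V.G.rho →
    V.G.rho + n ≤ lam * n →
      ∑ x ∈ V.rng n, (u x - av (V.rng n) u) ^ 2 ≤ C * (n : ℝ) ^ 2 * edF (cut V n) u u := by
  set c : ℝ := 2 + 2 * (lam : ℝ) ^ 2 with hc
  refine ⟨c * (c * (c * (c * 2 + 1) + 1) + 1) * (8 * lam ^ 2) + 1, by positivity, fun V n u hn h => ?_⟩
  have hE := (sy_edF (cut V n)).nonneg u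
  set ρ := V.G.rho with hρ
  set K : ℝ := 8 * (lam : ℝ) ^ 2 * (n : ℝ) ^ 2 * edF (cut V n) u u with hK
  have h' : ((2 * (ρ + n) : ℕ) : ℝ) ≤ 2 * (lam * n) := by exact_mod_cast (by omega)
  have base : ∀ (a : Pt) (p q : ℕ), p ≤ 2 * (ρ + n) → q ≤ 2 * (ρ + n) → rec a p q ⊆ V.rng n →
      (a.1 + p ≤ 0 ∨ 0 ≤ a.2 ∨ a.2 + q ≤ 0) →
      ∑ x ∈ rec a p q, (u x - av (rec a p q) u) ^ 2 ≤ K := by
    intro a p q hp hq hs hr
    refine (poin_rec a hp hq u).trans (mul_le_mul ?_ (Pot.edF_mono (fun e he => ?_) u)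
      (Po44.eN_nonneg _ _ _) (by positivity))
    · have := pow_le_pow_left₀ (Nat.cast_nonneg _) h' 2
      nlinarith
    · obtain ⟨h0, h1, h2⟩ := Lat.mem_edI.1 he
      refine mem_filter.2 ⟨Lat.mem_edI.2 ⟨h0, hs h1, hs h2⟩, if_neg ?_⟩
      rw [mem_rec] at h1 h2
      simp only [Prod.fst_zero, Prod.snd_zero]
      omega
  have crd : ∀ (A : Finset Pt) (a : Pt), A ⊆ V.rng n →
      (A.card : ℝ) ≤ (lam : ℝ) ^ 2 * (rec a (2 * n) (2 * n)).card := by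
    intro A a hA
    have e1 := (card_le_card hA).trans (card_rng_le n)
    have e2 : (2 * (ρ + n)) ^ 2 ≤ (2 * (lam * n)) ^ 2 := Nat.pow_le_pow_left (by omega) 2
    have e3 : A.card ≤ lam ^ 2 * (2 * n * (2 * n)) := (e1.trans e2).trans (le_of_eq (by ring))
    rw [card_rec]
    exact_mod_cast e3
  set L := rec (-(ρ + n : ℤ), -(ρ + n : ℤ)) (2 * n) (2 * (ρ + n))
  set T := rec (-(ρ + n : ℤ), (ρ - n : ℤ)) (2 * (ρ + n)) (2 * n)
  set B := rec (-(ρ + n : ℤ), -(ρ + n : ℤ)) (2 * (ρ + n)) (2 * n)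
  set U := rec ((ρ - n : ℤ), 0) (2 * n) (ρ + n)
  set D := rec ((ρ - n : ℤ), -(ρ + n : ℤ)) (2 * n) (ρ + n)
  have hL : L ⊆ V.rng n := fun x => by simp only [L, mem_rec, mem_rng hn]; omega
  have hT : T ⊆ V.rng n := fun x => by simp only [T, mem_rec, mem_rng hn]; omega
  have hB : B ⊆ V.rng n := fun x => by simp only [B, mem_rec, mem_rng hn]; omega
  have hU : U ⊆ V.rng n := fun x => by simp only [U, mem_rec, mem_rng hn]; omega
  have hD : D ⊆ V.rng n := fun x => by simp only [D, mem_rec, mem_rng hn]; omega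
  have g1 := glue (A := L) (B := T) (T := rec (-(ρ + n : ℤ), (ρ - n : ℤ)) (2 * n) (2 * n))
    (by positivity) (fun x => by simp only [L, mem_rec]; omega)
    (fun x => by simp only [T, mem_rec]; omega) (crd _ _ hL) (crd _ _ hT)
    (base _ _ _ (by omega) le_rfl hL (by simp only; omega))
    (base _ _ _ le_rfl (by omega) hT (by simp only; omega))
  have g2 := glue (A := L ∪ T) (B := B) (T := rec (-(ρ + n : ℤ), -(ρ + n : ℤ)) (2 * n) (2 * n))
    (by positivity) (fun x => by simp only [L, T, mem_union, mem_rec]; omega)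
    (fun x => by simp only [B, mem_rec]; omega) (crd _ _ (union_subset hL hT)) (crd _ _ hB) g1
    (base _ _ _ le_rfl (by omega) hB (by simp only; omega))
  have g3 := glue (A := L ∪ T ∪ B) (B := U) (T := rec ((ρ - n : ℤ), (ρ - n : ℤ)) (2 * n) (2 * n))
    (by positivity) (fun x => by simp only [L, T, B, mem_union, mem_rec]; omega)
    (fun x => by simp only [U, mem_rec]; omega)
    (crd _ _ (union_subset (union_subset hL hT) hB)) (crd _ _ hU) g2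
    (base _ _ _ (by omega) (by omega) hU (by simp only; omega))
  have g4 := glue (A := L ∪ T ∪ B ∪ U) (B := D)
    (T := rec ((ρ - n : ℤ), -(ρ + n : ℤ)) (2 * n) (2 * n)) (by positivity)
    (fun x => by simp only [L, T, B, U, mem_union, mem_rec]; omega)
    (fun x => by simp only [D, mem_rec]; omega)
    (crd _ _ (union_subset (union_subset (union_subset hL hT) hB) hU)) (crd _ _ hD) g3
    (base _ _ _ (by omega) (by omega) hD (by simp only; omega))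
  have e : L ∪ T ∪ B ∪ U ∪ D = V.rng n := by
    ext x; simp only [L, T, B, U, D, mem_union, mem_rec, mem_rng hn]; omega
  rw [e, ← hc] at g4
  refine g4.trans ?_
  have : 0 ≤ (n : ℝ) ^ 2 * edF (cut V n) u u := by positivity
  rw [hK]
  nlinarith

theorem plain_of_ray {e : Pt × Pt} (h : ray 0 e = 0) : V.s1 e = 0 ∧ V.s2 e = 0 := by
  simp only [Gv.s1, Gv.s2, h, ite_self, and_self]

theorem cut_plain {n : ℕ} {e : Pt × Pt} (he : e ∈ cut V n) : V.s1 e = 0 ∧ V.s2 e = 0 :=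
  plain_of_ray (mem_filter.1 he).2

theorem Gk_plain {e : Pt × Pt} (h : V.s1 e = 0 ∧ V.s2 e = 0) (u : Pt → ℝ) :
    V.Gk e u = u e.2 - u e.1 := by
  simp [Gv.Gk, h.1, h.2]

theorem cut_kp (n : ℕ) : cut V n ⊆ V.kp (nL.edI (V.rng n)) := fun e he =>
  mem_filter.2 ⟨(mem_filter.1 he).1, by
    rw [(cut_plain he).1, (cut_plain he).2, (mem_filter.1 he).2]; rfl⟩


theorem eT_self (ed : Finset (Pt × Pt)) (u : Pt → ℝ) : V.eT ed u u = ∑ e ∈ ed, V.Gk e u ^ 2 := by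
  simp [Gv.eT, sqF_apply, pow_two]

theorem eT_nonneg (ed : Finset (Pt × Pt)) (u : Pt → ℝ) : 0 ≤ V.eT ed u u := by
  rw [eT_self]; positivity

theorem eT_mono {ed ed' : Finset (Pt × Pt)} (h : ed ⊆ ed') (u : Pt → ℝ) :
    V.eT ed u u ≤ V.eT ed' u u := by
  rw [eT_self, eT_self]
  exact sum_le_sum_of_subset_of_nonneg h fun _ _ _ => sq_nonneg _

theorem eT_cut (n : ℕ) (u : Pt → ℝ) : V.eT (cut V n) u u = edF (cut V n) u u := by
  rw [eT_self, edF_self]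
  exact sum_congr rfl fun e he => by rw [Gk_plain (cut_plain he)]

theorem rng_mono {n n' : ℕ} (h : n ≤ n') (hn : n' ≤ V.G.rho) : V.rng n ⊆ V.rng n' := fun x => by
  simp only [mem_rng hn, mem_rng (h.trans hn)]; omega

theorem rng_A (g : V.Geo) {n : ℕ} (hn : n ≤ 8 * V.ω) : V.rng n ⊆ V.G.A := fun x hx => by
  have h1 := g.r_le
  have h2 := g.rho_le
  have h3 := g.ω_le
  have h4 := g.ω16
  rw [mem_rng (by omega)] at hx
  simp only [Nc.an, Kr.Gm.A, mem_sdiff, mem_bl, Prod.fst_zero, Prod.snd_zero]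
  omega

theorem cut_EA (g : V.Geo) {n : ℕ} (hn : n ≤ 8 * V.ω) : cut V n ⊆ V.EA := (cut_kp _).trans
  (filter_subset_filter _ fun _ he =>
    Lat.mem_edT.2 ⟨(Lat.mem_edI.1 he).1, Or.inl (rng_A g hn (Lat.mem_edI.1 he).2.1)⟩)

theorem edF_cut_le (g : V.Geo) {n : ℕ} (hn : n ≤ 8 * V.ω) (u : Pt → ℝ) :
    edF (cut V n) u u ≤ V.B u u ∧ V.B u u ≤ V.eT V.EO u u :=
  ⟨(eT_cut _ u).symm.trans_le (eT_mono (cut_EA g hn) u), eT_mono g.EA_sub u⟩

/-- recentre at the mean over a large subset -/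
theorem recentre {S T : Finset Pt} {M : ℝ} (hM : 0 ≤ M) (h : T ⊆ S)
    (hc : (S.card : ℝ) ≤ M * T.card) (u : Pt → ℝ) (c : ℝ) :
    ∑ x ∈ S, (u x - av T u) ^ 2 ≤ (2 + 2 * M) * ∑ x ∈ S, (u x - c) ^ 2 := by
  have e1 : T.card * (av T u - c) ^ 2 ≤ ∑ x ∈ S, (u x - c) ^ 2 := (Po44.card_mul_av_sub T u c).trans
    (sum_le_sum_of_subset_of_nonneg h fun _ _ _ => sq_nonneg _)
  have e2 : ∑ x ∈ S, (u x - av T u) ^ 2 ≤
      2 * ∑ x ∈ S, (u x - c) ^ 2 + 2 * (S.card * (av T u - c) ^ 2) := by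
    rw [← nsmul_eq_mul, ← sum_const, mul_sum, mul_sum, ← sum_add_distrib]
    exact sum_le_sum fun x _ => by nlinarith [sq_nonneg (u x - 2 * c + av T u)]
  have e3 : S.card * (av T u - c) ^ 2 ≤ M * ∑ x ∈ S, (u x - c) ^ 2 :=
    (mul_le_mul_of_nonneg_right hc (sq_nonneg _)).trans
      (by rw [mul_assoc]; exact mul_le_mul_of_nonneg_left e1 hM)
  linarith

end Ring12

open Ring12

/-- Poincaré inequality on the slit rings `rng (m ω)` (`Ga`: `m = 1`, `mid`: `m = 2`), centred at the mean over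
`Ga`; only plain edges inside the ring are used -/
theorem ring12 (j : ℕ) : ∃ C : ℝ, 0 < C ∧ ∀ V : Gv, V.Geo → V.j = j → ∀ m : ℕ, 1 ≤ m → m ≤ 8 →
    ∀ u : Pt → ℝ, ∑ x ∈ V.rng (m * V.ω), (u x - Kw56.avL V.Ga u) ^ 2 ≤
        C * (V.ω : ℝ) ^ 2 * edF (cut V (m * V.ω)) u u ∧
      ∑ x ∈ V.rng (m * V.ω), (u x - Kw56.avL V.Ga u) ^ 2 ≤ C * (V.ω : ℝ) ^ 2 * V.eT V.EA u u ∧
      ∑ x ∈ V.rng (m * V.ω), (u x - Kw56.avL V.Ga u) ^ 2 ≤ C * (V.ω : ℝ) ^ 2 * V.eT V.EO u u := by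
  obtain ⟨C, hC, h⟩ := poin (2 ^ j + 1)
  refine ⟨(2 + 2 * (2 ^ j + 8) ^ 2) * (C * 64), by positivity, fun V g hj m h1 h8 u => ?_⟩
  have e1 := g.ω_le
  have e2 := g.rho_eq
  rw [hj] at e2
  have e3 : V.ω ≤ m * V.ω := Nat.le_mul_of_pos_left _ h1
  have e4 : m * V.ω ≤ 8 * V.ω := Nat.mul_le_mul_right _ h8
  have e5 : 2 ^ j * V.ω ≤ 2 ^ j * (m * V.ω) := Nat.mul_le_mul_left _ e3
  have h3 := h V (m * V.ω) u (by omega) (by rw [e2, add_mul]; omega)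
  have e6 : (V.rng (m * V.ω)).card ≤ (2 ^ j + 8) ^ 2 * V.Ga.card := by
    have a1 : (2 * (V.G.rho + m * V.ω)) ^ 2 ≤ (2 * ((2 ^ j + 8) * V.ω)) ^ 2 :=
      Nat.pow_le_pow_left (by rw [e2, add_mul]; omega) 2
    have a2 : 4 * V.ω ^ 2 ≤ V.Ga.card := by
      rw [g.card_Ga]; exact Nat.mul_le_mul_right _ (by have := Nat.two_pow_pos V.j; omega)
    exact ((card_rng_le _).trans a1).trans
      ((le_of_eq (by ring)).trans (Nat.mul_le_mul_left ((2 ^ j + 8) ^ 2) a2))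
  have h5 := recentre (M := (2 ^ j + 8) ^ 2) (by positivity) (rng_mono (V := V) e3 (by omega))
    (by exact_mod_cast e6) u (av (V.rng (m * V.ω)) u)
  have h0 := (sy_edF (cut V (m * V.ω))).nonneg u
  have h6 : ∑ x ∈ V.rng (m * V.ω), (u x - Kw56.avL V.Ga u) ^ 2 ≤
      (2 + 2 * (2 ^ j + 8) ^ 2) * (C * 64) * (V.ω : ℝ) ^ 2 * edF (cut V (m * V.ω)) u u := by
    rw [Kw56.avL_apply]
    refine h5.trans ((mul_le_mul_of_nonneg_left h3 (by positivity)).trans ?_)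
    have a1 : ((m * V.ω : ℕ) : ℝ) ≤ 8 * V.ω := by exact_mod_cast e4
    calc _ ≤ (2 + 2 * (2 ^ j + 8) ^ 2) * (C * (8 * V.ω : ℝ) ^ 2 * edF (cut V (m * V.ω)) u u) := by
          gcongr
      _ = _ := by ring
  have h7 := edF_cut_le g e4 u
  exact ⟨h6, h6.trans (mul_le_mul_of_nonneg_left h7.1 (by positivity)),
    h6.trans (mul_le_mul_of_nonneg_left (h7.1.trans h7.2) (by positivity))⟩

end Crest.Agent.T145.Kv
end

-- ▼ part T145/KvM3A_89
section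

/-!
# Row 145, module Kv: M3 from the ring Poincaré inequality and the pointwise bound (helper89)
-/

set_option autoImplicit false

namespace Crest.Agent.T145.Kv

open Finset Pot Kw56 H59
open Kr (cu)

namespace M89

/-- Poincaré inequality on the slit ring -/
def RingStmt : Prop := ∀ j : ℕ, ∃ C : ℝ, 0 ≤ C ∧ ∀ (V : Gv) (W : ℝ), V.Ok W → V.j = j → ∀ u : Pt → ℝ,
  ∑ x ∈ V.rng (3 * V.ω), (u x - avL V.Ga u) ^ 2 ≤ C * (V.ω : ℝ) ^ 2 * V.eT V.EA u u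

/-- mean value inequality in the slit domain -/
def PtStmt : Prop := ∃ C : ℝ, 0 ≤ C ∧ ∀ (V : Gv) (W : ℝ), V.Ok W → ∀ w, Hm V.G.A V.B w →
  ∀ x ∈ V.mid, w x ^ 2 ≤ C / (V.ω : ℝ) ^ 2 * ∑ y ∈ V.rng (3 * V.ω), w y ^ 2

/-- a competitor bounds the level and the flux free part -/
theorem key {X : Type} [DecidableEq X] {A : Finset X} {B : Bf X} (h : Co A B) {o η v : X → ℝ} {τ : ℝ}
    (ho : Hm A B o) (hp : 0 < B o o) (hv : ∀ x, x ∉ A → v x = η x - τ * o x) :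
    (B o η / B o o - τ) ^ 2 * B o o ≤ B v v ∧ ∃ z, Pot.Sup A z ∧ B z z ≤ B v v ∧
      ∀ x, hx A B η x - o x * (B o η / B o o) = v x - z x - (B o η / B o o - τ) * o x := by
  have h1 : B o v = B o η - τ * B o o := by
    have := ho (v - (η - τ • o)) fun x hx' => by simp [hv x hx']
    simp only [map_sub, map_smul, smul_eq_mul] at this
    linarith
  have h2 : hx A B v = hx A B η - τ • o :=
    h.hx_unique (fun x hx' => by simp [h.hx_off _ hx', hv x hx']) fun w hw => by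
      simp [h.hx_hm η w hw, ho w hw]
  obtain ⟨s1, s2⟩ := h.sub_hx_le (η := v) (v := v) fun _ _ => rfl
  refine ⟨?_, _, s1, s2, fun x => ?_⟩
  · have h3 := h.cs o v
    have h4 : B o η / B o o - τ = B o v / B o o := by rw [h1]; field_simp
    rw [h4, div_pow, div_mul_eq_mul_div, div_le_iff₀ (by positivity)]
    nlinarith
  · rw [Pi.sub_apply, h2]; simp only [Pi.sub_apply, Pi.smul_apply, smul_eq_mul]; ring

theorem sum_edge {E : Finset (Pt × Pt)} (hE : ∀ e ∈ E, e.2 - e.1 ∈ nL.Jp) {T : Finset Pt}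
    {F : Pt × Pt → ℝ} {g : Pt → ℝ} (h0 : ∀ x, 0 ≤ g x)
    (hT : ∀ e ∈ E, F e ≠ 0 → e.1 ∈ T ∧ F e ≤ g e.1) : ∑ e ∈ E, F e ≤ 2 * ∑ x ∈ T, g x := by
  rw [← sum_filter_of_ne (p := fun e => F e ≠ 0) fun _ _ h => h,
    ← sum_fiberwise_of_maps_to (g := fun e : Pt × Pt => e.1) (t := T)
      fun e he => (hT e (mem_filter.1 he).1 (mem_filter.1 he).2).1, mul_sum]
  refine sum_le_sum fun x _ => (sum_le_card_nsmul _ _ (g x) fun e he => ?_).trans ?_
  · obtain ⟨a, b⟩ := mem_filter.1 he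
    exact b ▸ (hT e (mem_filter.1 a).1 (mem_filter.1 a).2).2
  · have := deg_fst (Λ := nL) (ed := E.filter fun e => F e ≠ 0)
      (fun e he => hE e (mem_filter.1 he).1) x
    rw [nL_Jp, card_pair (by decide)] at this
    rw [nsmul_eq_mul]
    exact mul_le_mul_of_nonneg_right (by exact_mod_cast this) (h0 x)

variable {V : Gv} {W : ℝ}

theorem Gk_apply (V : Gv) (e : Pt × Pt) (u : Pt → ℝ) :
    V.Gk e u = u e.2 - u e.1 + V.s1 e * u V.k1 + V.s2 e * u V.k2 := by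
  simp [Gv.Gk]

theorem eT_apply (V : Gv) (ed : Finset (Pt × Pt)) (u v : Pt → ℝ) :
    V.eT ed u v = ∑ e ∈ ed, V.Gk e u * V.Gk e v := by
  simp [Gv.eT, sqF_apply]

theorem eT_self (V : Gv) (ed : Finset (Pt × Pt)) (u : Pt → ℝ) :
    V.eT ed u u = ∑ e ∈ ed, V.Gk e u ^ 2 := by
  simp [eT_apply, pow_two]

theorem eT_nonneg (V : Gv) (ed : Finset (Pt × Pt)) (u : Pt → ℝ) : 0 ≤ V.eT ed u u := by
  rw [eT_self]; positivity

theorem eT_mono (V : Gv) {ed ed' : Finset (Pt × Pt)} (h : ed ⊆ ed') (u : Pt → ℝ) :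
    V.eT ed u u ≤ V.eT ed' u u := by
  rw [eT_self, eT_self]
  exact sum_le_sum_of_subset_of_nonneg h fun _ _ _ => sq_nonneg _

theorem EA_ends (hG : V.Geo) {e : Pt × Pt} (he : e ∈ V.EA) :
    e.2 - e.1 ∈ nL.Jp ∧ e.1 ∈ V.G.Om ∧ e.2 ∈ V.G.Om :=
  Lat.mem_edI.1 (mem_filter.1 (hG.EA_sub he)).1

theorem mem_rng {n : ℕ} (hn : n ≤ V.G.rho) {x : Pt} : x ∈ V.rng n ↔
    ((-(V.G.rho + n : ℤ) ≤ x.1 ∧ x.1 < V.G.rho + n) ∧ -(V.G.rho + n : ℤ) ≤ x.2 ∧ x.2 < V.G.rho + n) ∧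
      ¬ ((-(V.G.rho - n : ℤ) ≤ x.1 ∧ x.1 < V.G.rho - n) ∧ -(V.G.rho - n : ℤ) ≤ x.2 ∧ x.2 < V.G.rho - n) := by
  simp only [Gv.rng, mem_sdiff, mem_sq]
  omega

theorem ds_zero (x : Pt) : ds 0 x = max |x.1| |x.2| := by simp [ds]

theorem mem_an0 {p q : ℕ} {x : Pt} : x ∈ Nc.an 0 p q ↔ (p : ℤ) < ds 0 x ∧ ds 0 x ≤ q := by
  rw [Nc.an, mem_sdiff, mem_bl_ds, mem_bl_ds, not_le, and_comm]

theorem rng_sub (hG : V.Geo) : V.rng (3 * V.ω) ⊆ V.G.A := fun x hx' => by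
  have h1 := hG.r_le
  have h2 := hG.rho_le
  have h3 := hG.ω_le
  have h4 := hG.ω16
  rw [mem_rng (by omega)] at hx'
  rw [Kr.Gm.A, mem_an0, ds_zero]
  simp only [lt_max_iff, max_le_iff, lt_abs, abs_le]
  omega

theorem mem_rng_of (hG : V.Geo) {x : Pt} (h1 : (V.G.rho : ℤ) - 3 * V.ω < ds 0 x)
    (h2 : ds 0 x < V.G.rho + 3 * V.ω) : x ∈ V.rng (3 * V.ω) := by
  have h3 := hG.ω_le
  rw [mem_rng (by omega)]
  rw [ds_zero] at h1 h2
  simp only [lt_max_iff, max_lt_iff, lt_abs, abs_lt] at h1 h2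
  omega

/-- the data with the level `τ` subtracted -/
noncomputable def tu (V : Gv) (u : Pt → ℝ) (τ : ℝ) (x : Pt) : ℝ :=
  if x ∈ V.G.Om then u x - τ else if x = V.k1 ∨ x = V.k2 then u x else 0

/-- the cut-off -/
noncomputable def ze (V : Gv) : Pt → ℝ := rmp 0 (V.G.rho - V.ω) (V.G.rho + V.ω)

theorem ze_mem (V : Gv) (x : Pt) : 0 ≤ ze V x ∧ ze V x ≤ 1 :=
  ⟨le_max_left _ _, max_le zero_le_one (min_le_left _ _)⟩

theorem ω_pos (hG : V.Geo) : (0 : ℝ) < V.ω := by exact_mod_cast (show 0 < V.ω by linarith [hG.ω16])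

theorem ze_one (hG : V.Geo) {x : Pt} (h : ds 0 x ≤ V.G.rho - V.ω) : ze V x = 1 :=
  rmp_one (by linarith [ω_pos hG]) (by exact_mod_cast h)

theorem ze_zero (hG : V.Geo) {x : Pt} (h : (V.G.rho : ℤ) + V.ω ≤ ds 0 x) : ze V x = 0 :=
  rmp_zero (by linarith [ω_pos hG]) (by exact_mod_cast h)

theorem ze_k1 (hG : V.Geo) : ze V V.k1 = 1 := ze_one hG (by
  have := hG.ω_le
  simp only [Gv.k1, ds_zero, Prod.fst_zero, Prod.snd_zero, abs_zero, max_self]; omega)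

theorem ze_k2 (ok : V.Ok W) (hG : V.Geo) : ze V V.k2 = 0 := ze_zero hG (by
  have h1 := hG.ω_le
  have h2 := hG.rho_le
  have h3 := ok.g.out
  simp only [Gv.k2, ds_zero, le_max_iff, le_abs]; omega)

theorem Gk_tu (hG : V.Geo) (u : Pt → ℝ) (τ : ℝ) {e : Pt × Pt} (he : e ∈ V.EA) :
    V.Gk e (tu V u τ) = V.Gk e u := by
  obtain ⟨-, h1, h2⟩ := EA_ends hG he
  simp only [Gk_apply, tu, if_pos h1, if_pos h2, if_neg hG.k_off.1, if_neg hG.k_off.2.1, true_or, or_true,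
    if_true]
  ring

/-- the energy of the competitors -/
theorem en_cut (ok : V.Ok W) (hG : V.Geo) {χ : Pt → ℝ} (hχ : χ = ze V ∨ χ = 1 - ze V) (u : Pt → ℝ) (τ : ℝ) :
    V.B (fun x => χ x * tu V u τ x) (fun x => χ x * tu V u τ x) ≤
      2 * V.eT V.EA u u + (∑ x ∈ V.rng (3 * V.ω), (u x - τ) ^ 2) / (V.ω : ℝ) ^ 2 := by
  have hω := ω_pos hG
  have a1 : ∀ x, χ x ^ 2 ≤ 1 := fun x => by
    obtain ⟨c1, c2⟩ := ze_mem V x
    rcases hχ with rfl | rfl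
    · nlinarith
    · simp only [Pi.sub_apply, Pi.one_apply]; nlinarith
  have a2 : ∀ x y, (χ x - χ y) ^ 2 = (ze V x - ze V y) ^ 2 := fun x y => by
    rcases hχ with rfl | rfl
    · rfl
    · simp only [Pi.sub_apply, Pi.one_apply]; ring
  have a3 : ∀ x y, ze V x = ze V y → χ x = χ y := fun x y h => by
    have := a2 x y
    rw [h, sub_self] at this
    nlinarith [sq_nonneg (χ x - χ y), sq_eq_zero_iff.1 (show (χ x - χ y) ^ 2 = 0 by simpa using this)]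
  have a4 : ∀ e ∈ V.EA, V.Gk e (fun x => χ x * tu V u τ x) =
      χ e.2 * V.Gk e u + (χ e.2 - χ e.1) * (u e.1 - τ) := fun e he => by
    have c1 : (V.s1 e : ℝ) * (χ V.k1 - χ e.2) = 0 := by
      by_cases h : V.s1 e = 0
      · simp [h]
      obtain ⟨-, -, d1, d2, d3, d4⟩ := (hG.seam e).1 h
      rw [a3 V.k1 e.2 (by
        rw [ze_k1 hG, ze_one hG]
        rw [d2, ds_zero]
        simp only [Prod.fst_add, Prod.snd_add, max_le_iff, abs_le]; omega), sub_self, mul_zero]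
    have c2 : (V.s2 e : ℝ) * (χ V.k2 - χ e.2) = 0 := by
      by_cases h : V.s2 e = 0
      · simp [h]
      obtain ⟨-, -, d1, d2, d3⟩ := (hG.seam e).2 h
      rw [a3 V.k2 e.2 (by
        rw [ze_k2 ok hG, ze_zero hG]
        rw [d2, ds_zero]
        simp only [Prod.fst_add, Prod.snd_add, le_max_iff, le_abs]; omega), sub_self, mul_zero]
    have c3 : tu V u τ e.1 = u e.1 - τ := if_pos (EA_ends hG he).2.1
    rw [← Gk_tu hG u τ he, ← c3, Gk_apply, Gk_apply]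
    linear_combination tu V u τ V.k1 * c1 + tu V u τ V.k2 * c2
  have a5 := sum_edge (E := V.EA) (fun e he => (EA_ends hG he).1) (T := V.rng (3 * V.ω))
    (F := fun e => ((χ e.2 - χ e.1) * (u e.1 - τ)) ^ 2) (g := fun x => (u x - τ) ^ 2 / (4 * (V.ω : ℝ) ^ 2))
    (fun x => by positivity) fun e he h0 => by
      have c1 : e.2 ∈ bl e.1 1 := by have := Lat.edge_near (EA_ends hG he).1; rwa [nL_rg] at this
      have c0 : (V.G.rho : ℝ) - V.ω < V.G.rho + V.ω := by linarith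
      have c2 : ze V e.1 ≠ ze V e.2 := fun h => h0 (by rw [a3 _ _ h]; simp)
      obtain ⟨⟨c3, c4⟩, -⟩ := rmp_ne c0 c1 c2
      have c5 := rmp_lip 0 c0 c1
      have c6 : (16 : ℝ) ≤ V.ω := by exact_mod_cast hG.ω16
      refine ⟨mem_rng_of hG ?_ ?_, ?_⟩
      · have : (V.G.rho : ℝ) - 3 * V.ω < ds 0 e.1 := by push_cast at c3; linarith
        exact_mod_cast this
      · have : (ds 0 e.1 : ℝ) < V.G.rho + 3 * V.ω := by push_cast at c4; linarith
        exact_mod_cast this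
      · rw [mul_pow, a2, div_eq_inv_mul]
        refine mul_le_mul_of_nonneg_right ((sq_le_sq' (abs_le.1 c5).1 (abs_le.1 c5).2).trans
          (le_of_eq ?_)) (sq_nonneg _)
        rw [show (V.G.rho : ℝ) + V.ω - (V.G.rho - V.ω) = 2 * V.ω by ring]
        push_cast
        field_simp
        ring
  rw [← sum_div] at a5
  rw [Gv.B, eT_self, eT_self, sum_congr rfl fun e he => by rw [a4 e he]]
  calc _ ≤ ∑ e ∈ V.EA, (2 * V.Gk e u ^ 2 + 2 * ((χ e.2 - χ e.1) * (u e.1 - τ)) ^ 2) :=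
        sum_le_sum fun e _ => by
          nlinarith [sq_nonneg (χ e.2 * V.Gk e u - (χ e.2 - χ e.1) * (u e.1 - τ)),
            mul_le_mul_of_nonneg_right (a1 e.2) (sq_nonneg (V.Gk e u))]
    _ ≤ _ := by
        rw [sum_add_distrib, ← mul_sum, ← mul_sum]
        refine add_le_add le_rfl ((mul_le_mul_of_nonneg_left a5 zero_le_two).trans (le_of_eq ?_))
        field_simp
        ring

theorem sq3 (a b c : ℝ) : (a - b - c) ^ 2 ≤ 3 * a ^ 2 + 3 * b ^ 2 + 3 * c ^ 2 := by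
  nlinarith [sq_nonneg (a + b), sq_nonneg (a + c), sq_nonneg (b - c)]

theorem chi_sq {χ : Pt → ℝ} (hχ : χ = ze V ∨ χ = 1 - ze V) (x : Pt) : χ x ^ 2 ≤ 1 := by
  obtain ⟨c1, c2⟩ := ze_mem V x
  rcases hχ with rfl | rfl
  · nlinarith
  · simp only [Pi.sub_apply, Pi.one_apply]; nlinarith

/-- level and flux free part of a harmonic extension -/
theorem est (ok : V.Ok W) (hG : V.Geo) (hA : V.Alg) (hc : 1 / (2 * W) ≤ V.cp) {C τ : ℝ} (hC : 0 ≤ C)
    {u χ o η : Pt → ℝ}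
    (hR : ∑ x ∈ V.rng (3 * V.ω), (u x - τ) ^ 2 ≤ C * (V.ω : ℝ) ^ 2 * V.eT V.EA u u)
    (hχ : χ = ze V ∨ χ = 1 - ze V) (ho : Hm V.G.A V.B o) (hoo : V.B o o = V.cp)
    (ob : ∀ x ∈ V.G.A, o x ^ 2 ≤ 1) (hv : ∀ x, x ∉ V.G.A → χ x * tu V u τ x = η x - τ * o x) :
    (V.B o η / V.cp - τ) ^ 2 ≤ 2 * W * (2 + C) * V.eT V.EA u u ∧
      ∑ y ∈ V.rng (3 * V.ω), (hx V.G.A V.B η y - o y * (V.B o η / V.cp)) ^ 2 ≤
        3 * (C + (4 + 18 * W) * (64 * 2 ^ V.j) ^ 2 * (2 + C)) * (V.ω : ℝ) ^ 2 * V.eT V.EA u u := by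
  have hω := ω_pos hG
  have hW : 0 < W := by linarith [ok.g.hW]
  have hE := eT_nonneg V V.EA u
  obtain ⟨k1, z, z1, z2, z3⟩ := key hA.coA ho (hoo ▸ hA.cp_pos) hv
  have e1 := (en_cut ok hG hχ u τ).trans (add_le_add le_rfl (div_le_div_of_nonneg_right hR (by positivity)))
  rw [hoo] at k1 z3
  obtain ⟨E, hE'⟩ : ∃ E, E = V.eT V.EA u u := ⟨_, rfl⟩
  obtain ⟨b, hb⟩ : ∃ b, b = V.B (fun x => χ x * tu V u τ x) (fun x => χ x * tu V u τ x) := ⟨_, rfl⟩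
  obtain ⟨d, hd⟩ : ∃ d, d = V.B o η / V.cp - τ := ⟨_, rfl⟩
  rw [← hE'] at hE e1 hR ⊢
  rw [← hb] at k1 z2 e1
  rw [← hd] at k1 z3 ⊢
  have e2 : b ≤ (2 + C) * E := e1.trans (le_of_eq (by field_simp))
  have e3 : d ^ 2 ≤ 2 * W * (2 + C) * E := by
    have c1 := (mul_le_mul_of_nonneg_left hc (sq_nonneg d)).trans (k1.trans e2)
    rw [mul_one_div, div_le_iff₀ (by positivity)] at c1
    linarith
  refine ⟨e3, ?_⟩
  have kA : V.k1 ∉ V.G.A ∧ V.k2 ∉ V.G.A := by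
    have : V.G.A ⊆ V.G.Om := An44.an_mono 0 (by linarith [ok.g.hc]) (by linarith [ok.g.out])
    exact ⟨fun h => hG.k_off.1 (this h), fun h => hG.k_off.2.1 (this h)⟩
  have r1 : (V.G.R : ℝ) ^ 2 ≤ (64 * 2 ^ V.j) ^ 2 * (V.ω : ℝ) ^ 2 := by
    have : (V.G.R : ℝ) ≤ 64 * 2 ^ V.j * V.ω := by
      have c1 := hG.le_rho
      rw [hG.rho_eq, ← mul_assoc] at c1
      exact_mod_cast c1
    rw [← mul_pow]
    exact pow_le_pow_left₀ (Nat.cast_nonneg _) this 2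
  have r2 : ((V.rng (3 * V.ω)).card : ℝ) ≤ 9 * (V.G.R : ℝ) ^ 2 := by
    have c1 : (V.rng (3 * V.ω)).card ≤ (2 * V.G.R + 1) ^ 2 :=
      (card_le_card ((rng_sub hG).trans sdiff_subset)).trans_eq (card_bl _ _)
    have c2 : 1 ≤ V.G.R := by linarith [hG.rho_le, hG.ω_le, hG.ω16]
    have c3 : (V.rng (3 * V.ω)).card ≤ 9 * V.G.R ^ 2 := c1.trans (by nlinarith)
    exact_mod_cast c3
  have s1 : ∑ y ∈ V.rng (3 * V.ω), z y ^ 2 ≤ 4 * (V.G.R : ℝ) ^ 2 * ((2 + C) * E) := by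
    refine (sum_le_sum_of_subset_of_nonneg (rng_sub hG) fun _ _ _ => sq_nonneg _).trans
      ((hA.poin z z1).trans (mul_le_mul_of_nonneg_left ?_ (by positivity)))
    rw [← hA.plain _ z z (z1 _ kA.1) (z1 _ kA.2) (z1 _ kA.1) (z1 _ kA.2)]
    exact z2.trans e2
  have s2 : ∑ y ∈ V.rng (3 * V.ω), (hx V.G.A V.B η y - o y * (V.B o η / V.cp)) ^ 2 ≤
      ∑ y ∈ V.rng (3 * V.ω), (3 * (u y - τ) ^ 2 + 3 * z y ^ 2 + 3 * d ^ 2) := sum_le_sum fun y hy => by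
    have c0 := rng_sub hG hy
    have c1 : tu V u τ y = u y - τ :=
      if_pos (An44.an_mono 0 (by linarith [ok.g.hc]) (by linarith [ok.g.out]) c0)
    have c2 := chi_sq hχ y
    have c3 : (χ y * (u y - τ)) ^ 2 ≤ (u y - τ) ^ 2 := by
      rw [mul_pow]; exact mul_le_of_le_one_left (sq_nonneg _) c2
    have c4 : (d * o y) ^ 2 ≤ d ^ 2 := by
      rw [mul_pow]; exact mul_le_of_le_one_right (sq_nonneg _) (ob y c0)
    rw [z3, c1]
    linarith only [sq3 (χ y * (u y - τ)) (z y) (d * o y), c3, c4]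
  rw [sum_add_distrib, sum_add_distrib, ← mul_sum, ← mul_sum, sum_const, nsmul_eq_mul] at s2
  have t0 : 0 ≤ (2 + C) * E := by positivity
  have t1 := mul_le_mul_of_nonneg_right r1 t0
  have t2 : ((V.rng (3 * V.ω)).card : ℝ) * (3 * d ^ 2) ≤
      9 * ((64 * 2 ^ V.j) ^ 2 * (V.ω : ℝ) ^ 2) * (3 * (2 * W * (2 + C) * E)) :=
    mul_le_mul (by linarith only [r1, r2]) (by linarith only [e3]) (by positivity) (by positivity)
  exact s2.trans (by linarith only [hR, s1, t1, t2])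

theorem on_dl (K : Finset Pt) (y : Pt) : on K (dl y) = if y ∈ K then dl y else 0 := by
  funext x
  by_cases h : x = y
  · subst h; by_cases h' : x ∈ K <;> simp [on, h']
  · split_ifs <;> simp [on, Pi.single_eq_of_ne h]

theorem fx_lin (hD : DualStmt) (V : Gv) (ed : Finset (Pt × Pt)) {ℓ : (Pt → ℝ) → ℝ} (hℓ : IsLinearMap ℝ ℓ) :
    (∀ s, pr (fun y => ℓ (dl y)) s = ℓ (cu s)) ∧ ∀ n : ℝ, 0 ≤ n → (∀ u, ℓ u ^ 2 ≤ n * V.eT ed u u) →
      V.Fx ed (fun y => ℓ (dl y)) n :=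
  ⟨((hD V ed 0).1 (hℓ.mk' _)).1, fun n => ((hD V ed n).1 (hℓ.mk' _)).2⟩

/-- the outer equilibrium potential -/
noncomputable def oo (V : Gv) : Pt → ℝ := on V.G.Om 1 - V.om

theorem B_one (hG : V.Geo) (v : Pt → ℝ) : V.B (on V.G.Om 1) v = 0 := by
  rw [Gv.B, eT_apply]
  refine sum_eq_zero fun e he => ?_
  obtain ⟨-, h1, h2⟩ := EA_ends hG he
  simp [Gk_apply, on, h1, h2, hG.k_off.1, hG.k_off.2.1]

theorem B_oo (hG : V.Geo) (v : Pt → ℝ) : V.B (oo V) v = -V.B V.om v := by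
  rw [oo, map_sub, LinearMap.sub_apply, B_one hG, zero_sub]

theorem m3 (hG : GeoStmt) (hA : AlgStmt) (hD : DualStmt) (hC : CapStmt) (hR : RingStmt) (hP : PtStmt) :
    M3Stmt := by
  intro W j
  obtain ⟨C, C0, hR⟩ := hR j
  obtain ⟨Q, Q0, hP⟩ := hP
  obtain ⟨K, hK⟩ : ∃ K, K = 3 * (C + (4 + 18 * |W|) * (64 * 2 ^ j) ^ 2 * (2 + C)) := ⟨_, rfl⟩
  have K0 : 0 ≤ K := by rw [hK]; positivity
  refine ⟨1 + Q * K + 8 * |W| * (2 + C), by positivity, fun V ok hj => ?_⟩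
  have ge := hG V W ok
  have al := hA V W ok
  have hc := (hC V W ok).1
  have hW : 0 < W := by linarith [ok.g.hW]
  have hω := ω_pos ge
  rw [abs_of_pos hW] at hK ⊢
  subst hj
  have g1 := ge.r_le
  have g2 := ge.rho_le
  have g3 := ge.ω_le
  have g4 := ok.g.hc
  have g5 := ok.g.out
  have g6 := ok.g.hr
  obtain ⟨f1, f2, f3, -⟩ := ge.k_off
  have om_off : ∀ x, x ∉ V.G.A → V.om x = on V.G.In 1 x := fun x hx' => al.coA.hx_off _ hx'
  have iO : V.G.In ⊆ V.G.Om := An44.an_mono 0 le_rfl (by omega)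
  have oO : V.G.Ou ⊆ V.G.Om := An44.an_mono 0 (by omega) le_rfl
  have aO : V.G.A ⊆ V.G.Om := An44.an_mono 0 (by omega) (by omega)
  have tri : ∀ x, x ∉ V.G.A → x ∈ V.G.Om → (x ∈ V.G.In ∧ x ∉ V.G.Ou ∧ ze V x = 1) ∨
      (x ∉ V.G.In ∧ x ∈ V.G.Ou ∧ ze V x = 0) := fun x h1 h2 => by
    rw [Kr.Gm.A, mem_an0] at h1
    rw [Kr.Gm.Om, mem_an0] at h2
    rw [Kr.Gm.In, Kr.Gm.Ou, mem_an0, mem_an0]
    by_cases h : ds 0 x ≤ V.G.r
    · exact Or.inl ⟨by omega, by omega, ze_one ge (by omega)⟩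
    · exact Or.inr ⟨by omega, by omega, ze_zero ge (by omega)⟩
  have z1 := ze_k1 ge
  have z2 := ze_k2 ok ge
  have eI := fun u => est ok ge al hc C0 (hR V W ok rfl u) (Or.inl rfl) al.om_hm rfl
    (fun x _ => by nlinarith [al.om_mem x]) (η := on V.In u) fun x hx' => by
      rw [om_off x hx']
      by_cases h : x ∈ V.G.Om
      · have h1 : x ≠ V.k1 := fun h1 => f1 (h1 ▸ h)
        rcases tri x hx' h with ⟨c1, -, c3⟩ | ⟨c1, -, c3⟩ <;> simp [tu, on, Gv.In, h, h1, c1, c3]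
      · have c1 : x ∉ V.G.In := fun c => h (iO c)
        by_cases h1 : x = V.k1
        · subst h1; simp [tu, on, Gv.In, h, c1, z1]
        · by_cases h2 : x = V.k2
          · subst h2; simp [on, Gv.In, h1, c1, z2]
          · simp [tu, on, Gv.In, h, h1, h2, c1]
  have hoo : Hm V.G.A V.B (oo V) := fun v hv => by rw [B_oo ge, al.om_hm v hv, neg_zero]
  have ooA : ∀ x ∈ V.G.A, oo V x = 1 - V.om x := fun x hx' => by simp [oo, on, aO hx']
  have eO := fun u => est ok ge al hc C0 (hR V W ok rfl u) (Or.inr rfl) hoo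
    (by rw [B_oo ge, al.coA.symm, B_oo ge, neg_neg]; rfl)
    (fun x hx' => by rw [ooA x hx']; nlinarith [al.om_mem x]) (η := on V.Ou u) fun x hx' => by
      rw [oo, Pi.sub_apply, Pi.sub_apply, om_off x hx']
      by_cases h : x ∈ V.G.Om
      · have h1 : x ≠ V.k2 := fun h1 => f2 (h1 ▸ h)
        rcases tri x hx' h with ⟨c1, c2, c3⟩ | ⟨c1, c2, c3⟩ <;> simp [tu, on, Gv.Ou, h, h1, c1, c2, c3]
      · have c1 : x ∉ V.G.In := fun c => h (iO c)
        have c2 : x ∉ V.G.Ou := fun c => h (oO c)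
        by_cases h2 : x = V.k2
        · subst h2; simp [tu, on, Gv.Ou, h, c1, z2]
        · by_cases h1 : x = V.k1
          · subst h1; simp [on, Gv.Ou, h, h2, c1, c2, z1]
          · simp [tu, on, Gv.Ou, h, h1, h2, c1, c2]
  have lH : ∀ (o : Pt → ℝ) (S : Finset Pt), IsLinearMap ℝ fun u => V.B o (on S u) / V.cp := fun o S =>
    ⟨fun u v => by rw [on_add, map_add, add_div], fun c u => by
      rw [on_smul, map_smul, smul_eq_mul, smul_eq_mul, mul_div_assoc]⟩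
  have lW : ∀ (o : Pt → ℝ) (S : Finset Pt) (x : Pt), IsLinearMap ℝ fun u =>
      hx V.G.A V.B (on S u) x - o x * (V.B o (on S u) / V.cp) := fun o S x =>
    ⟨fun u v => by rw [(lH o S).map_add, on_add, al.coA.hx_add, Pi.add_apply]; ring, fun c u => by
      rw [(lH o S).map_smul, on_smul, al.coA.hx_smul, Pi.smul_apply]; simp only [smul_eq_mul]; ring⟩
  have q1 : (fun y => V.B V.om (on V.In (dl y)) / V.cp) = V.eq := funext fun y => by
    rw [on_dl, Gv.eq, Pi.smul_apply, on]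
    split_ifs <;> simp [op, div_eq_inv_mul]
  have q2 : (fun y => V.B (oo V) (on V.Ou (dl y)) / V.cp) = V.te := funext fun y => by
    rw [B_oo ge, on_dl, Gv.te, Pi.smul_apply, on]
    split_ifs <;> simp [op, div_eq_inv_mul]
  have fin : ∀ {a b : ℝ} (u : Pt → ℝ), a ≤ b * V.eT V.EA u u → 0 ≤ b →
      b ≤ 1 + Q * K + 8 * W * (2 + C) → a ≤ (1 + Q * K + 8 * W * (2 + C)) * V.eT V.EO u u :=
    fun u h1 h2 h3 => h1.trans (mul_le_mul h3 (eT_mono V ge.EA_sub u) (eT_nonneg _ _ _) (h2.trans h3))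
  have n0 : 0 ≤ 1 + Q * K + 8 * W * (2 + C) := by positivity
  have n1 : 0 ≤ W * (2 + C) := by positivity
  have n2 := mul_nonneg Q0 K0
  have pt : ∀ (o η u : Pt → ℝ), Hm V.G.A V.B o →
      ∑ y ∈ V.rng (3 * V.ω), (hx V.G.A V.B η y - o y * (V.B o η / V.cp)) ^ 2 ≤
        K * (V.ω : ℝ) ^ 2 * V.eT V.EA u u → ∀ x ∈ V.mid,
      (hx V.G.A V.B η x - o x * (V.B o η / V.cp)) ^ 2 ≤
        (1 + Q * K + 8 * W * (2 + C)) * V.eT V.EO u u := fun o η u ho h x hx' => by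
    have c1 := hP V W ok (hx V.G.A V.B η - (V.B o η / V.cp) • o) (fun v hv => by
      simp [al.coA.hx_hm η v hv, ho v hv]) x hx'
    simp only [Pi.sub_apply, Pi.smul_apply, smul_eq_mul, mul_comm (V.B o η / V.cp)] at c1
    refine fin u (b := Q * K) (c1.trans ((mul_le_mul_of_nonneg_left h (by positivity)).trans
      (le_of_eq (by field_simp)))) n2 (by linarith)
  refine ⟨fun x hx' => ?_, ?_, ?_⟩
  · obtain ⟨p1, p2⟩ := fx_lin hD V V.EO (lW V.om V.In x)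
    obtain ⟨p3, p4⟩ := fx_lin hD V V.EO (lW (oo V) V.Ou x)
    have xA : x ∈ V.G.A := An44.an_mono 0 (by omega) (by omega) (ge.mid_sub hx')
    refine ⟨_, _, p2 _ n0 fun u => pt _ _ u al.om_hm (hK ▸ (eI u).2) x hx',
      p4 _ n0 fun u => pt _ _ u hoo (hK ▸ (eO u).2) x hx', fun a => ?_, fun b => ?_⟩
    · rw [p1, ← q1, (fx_lin hD V V.EO (lH V.om V.In)).1]; exact (add_sub_cancel _ _).symm
    · rw [p3, ← q2, (fx_lin hD V V.EO (lH (oo V) V.Ou)).1, ← ooA x xA]; exact (add_sub_cancel _ _).symm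
  · have ll : IsLinearMap ℝ fun u => V.B V.om (on V.In u) / V.cp - V.B (oo V) (on V.Ou u) / V.cp :=
      ⟨fun u v => by rw [(lH _ _).map_add, (lH _ _).map_add]; ring,
        fun c u => by rw [(lH _ _).map_smul, (lH _ _).map_smul, smul_sub]⟩
    rw [← q1, ← q2]
    refine (fx_lin hD V V.EO ll).2 _ n0 fun u => fin u (b := 8 * W * (2 + C)) ?_ (by linarith) (by linarith)
    nlinarith [(eI u).1, (eO u).1, sq_nonneg (V.B V.om (on V.In u) / V.cp - avL V.Ga u +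
      (V.B (oo V) (on V.Ou u) / V.cp - avL V.Ga u))]
  · have ll : IsLinearMap ℝ fun u => V.B V.om (on V.In u) / V.cp - avL V.Ga u :=
      ⟨fun u v => by rw [(lH _ _).map_add, map_add]; ring,
        fun c u => by rw [(lH _ _).map_smul, map_smul, smul_sub]⟩
    have q3 : (fun y => avL V.Ga (dl y)) = unC V.Ga := funext fun y => by
      rw [avL_apply, unC, sum_pi_single']
      split_ifs <;> simp
    rw [← q1, ← q3]
    exact (fx_lin hD V V.EO ll).2 _ n0 fun u => fin u (eI u).1 (by linarith) (by linarith)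

theorem ringStmt (hG : GeoStmt) : RingStmt := fun j => by
  obtain ⟨C, h0, h⟩ := ring12 j
  exact ⟨C, h0.le, fun V W ok hj u => (h V (hG V W ok) hj 3 (by omega) (by omega) u).2.1⟩

end M89

/-- M3 from the pointwise bound -/
theorem m3Stmt_of (hG : GeoStmt) (hA : AlgStmt) (hD : DualStmt) (hC : CapStmt) (hP : M89.PtStmt) : M3Stmt :=
  M89.m3 hG hA hD hC (M89.ringStmt hG) hP

end Crest.Agent.T145.Kv
end

-- ▼ part T145/KvPt_81
section

/-! # Row 145, module Kv: the mean value inequality in the middle of the slit condenser (helper81) -/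

set_option autoImplicit false

namespace Crest.Agent.T145.Kv

open Finset Real
open Pot Pot.Sl

namespace Pt81

variable {V : Gv} {W : ℝ}

theorem mem_rng {n : ℕ} (hn : n ≤ V.G.rho) {y : Pt} : y ∈ V.rng n ↔
    ((-((V.G.rho : ℤ) + n) ≤ y.1 ∧ y.1 < V.G.rho + n) ∧ -((V.G.rho : ℤ) + n) ≤ y.2 ∧ y.2 < V.G.rho + n) ∧
    ¬ ((-((V.G.rho : ℤ) - n) ≤ y.1 ∧ y.1 < V.G.rho - n) ∧ -((V.G.rho : ℤ) - n) ≤ y.2 ∧
      y.2 < V.G.rho - n) := by
  rw [Gv.rng, mem_sdiff, mem_sq, mem_sq]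
  dsimp only
  omega

theorem rf_mem {n : ℕ} (hn : n ≤ V.G.rho) {y : Pt} : rf y ∈ V.rng n ↔ y ∈ V.rng n := by
  rw [mem_rng hn, mem_rng hn, rf_fst, rf_snd]
  omega

theorem rng_sub (h : V.Geo) {y : Pt} (hy : y ∈ V.rng (3 * V.ω)) : y ∈ V.G.A := by
  have := h.ω_le
  have := h.r_le
  have := h.rho_le
  have := h.ω16
  rw [mem_rng (by omega)] at hy
  rw [Kr.Gm.A, Nc.an, mem_sdiff, mem_bl, mem_bl]
  simp only [Prod.fst_zero, Prod.snd_zero]
  omega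

theorem mem_EA (h : V.Geo) (e : Pt × Pt) (he : e.1 ∈ V.G.A ∨ e.2 ∈ V.G.A) :
    e ∈ V.EA ↔ e.2 - e.1 ∈ nL.Jp ∧
      ∀ i, (V.G.rho : ℤ) - 4 * V.ω ≤ i → i < V.G.rho + 4 * V.ω → se i ≠ e := by
  have := h.ω_le
  rw [Gv.EA, Gv.kp, mem_filter, Lat.mem_edT, and_iff_left he]
  refine and_congr_right fun _ => ?_
  obtain ⟨⟨a, b⟩, c, d⟩ := e
  simp only [Gv.s1, Gv.s2, Vd.ray, se, Prod.mk.injEq, Prod.fst_zero, Prod.snd_zero, ne_eq]
  constructor
  · rintro h1 i h2 h3 ⟨⟨rfl, rfl⟩, rfl, rfl⟩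
    rw [if_pos (by omega), if_neg (by omega), if_neg (by omega)] at h1
    omega
  · intro h1
    split_ifs with h2 h3 h4 h5 <;> first | rfl | omega | exact (h1 a (by omega) (by omega) (by omega)).elim

/-- test functions in the ring do not see the seams -/
theorem op_eq (hV : V.Ok W) (h : V.Geo) (w : Pt → ℝ) {y : Pt} (hy : y ∈ V.rng (3 * V.ω)) :
    V.B w (dl y) = op (eS V.G.A (V.G.rho - 4 * V.ω) (V.G.rho + 4 * V.ω)) w y := by
  have hA := rng_sub h hy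
  have := h.ω_le
  have := h.ω16
  have := h.rho_le
  have := hV.g.out
  rw [mem_rng (by omega)] at hy
  rw [op, ← edF_eq_eS (mem_EA h) w (sup_dl hA), Gv.B, Gv.eT, sqF_apply, edF_apply]
  refine sum_congr rfl fun e _ => ?_
  have k1 : V.k1 ≠ y := by
    rintro rfl
    simp only [Gv.k1, Prod.fst_zero, Prod.snd_zero] at hy
    omega
  have k2 : V.k2 ≠ y := by
    rintro rfl
    simp only [Gv.k2] at hy
    omega
  simp only [Gv.Gk, dr, LinearMap.add_apply, LinearMap.smul_apply, LinearMap.sub_apply,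
    LinearMap.proj_apply, smul_eq_mul, one_mul, Pi.single_eq_of_ne k1, Pi.single_eq_of_ne k2, mul_zero,
    add_zero]
  by_cases he : e.1 = y ∨ e.2 = y
  · have s1 : V.s1 e = 0 := by
      by_contra hn
      obtain ⟨-, -, a1, a2, a3, a4⟩ := (h.seam e).1 hn
      have a5 := congrArg Prod.fst a2
      have a6 := congrArg Prod.snd a2
      simp only [Prod.fst_add, Prod.snd_add] at a5 a6
      rcases he with rfl | rfl <;> omega
    have s2 : V.s2 e = 0 := by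
      by_contra hn
      obtain ⟨-, -, a1, a2, a3⟩ := (h.seam e).2 hn
      have a5 := congrArg Prod.fst a2
      simp only [Prod.fst_add] at a5
      rcases he with rfl | rfl <;> omega
    simp [s1, s2]
  · rw [not_or] at he
    simp [Pi.single_eq_of_ne he.1, Pi.single_eq_of_ne he.2]

theorem sum_le {T : Finset Pt} (hT : ∀ y, rf y ∈ T ↔ y ∈ T) {u w : Pt → ℝ}
    (h : ∀ y, u y = w y ∨ u y = w (rf y)) : ∑ y ∈ T, u y ^ 2 ≤ 2 * ∑ y ∈ T, w y ^ 2 := by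
  have e : ∑ y ∈ T, w (rf y) ^ 2 = ∑ y ∈ T, w y ^ 2 :=
    sum_equiv rf (fun y => (hT y).symm) fun _ _ => rfl
  rw [two_mul]
  nth_rewrite 2 [← e]
  rw [← sum_add_distrib]
  refine sum_le_sum fun y _ => ?_
  rcases h y with h | h <;> rw [h] <;> nlinarith [sq_nonneg (w y), sq_nonneg (w (rf y))]

end Pt81

open Pt81 in
/-- mean value inequality for harmonic functions of the slit condenser -/
theorem pt81 (hG : GeoStmt) : ∃ C : ℝ, 0 ≤ C ∧ ∀ (V : Gv) (W : ℝ), V.Ok W → ∀ w, Pot.Hm V.G.A V.B w →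
    ∀ x ∈ V.mid, w x ^ 2 ≤ C / (V.ω : ℝ) ^ 2 * ∑ y ∈ V.rng (3 * V.ω), w y ^ 2 := by
  obtain ⟨C, C0, hp⟩ := pt_sq_le
  refine ⟨512 * C, by positivity, fun V W hV w hw x hx => ?_⟩
  have h := hG V W hV
  have g1 := h.ω_le
  have g2 := h.ω16
  have hT : ∀ y, rf y ∈ V.rng (3 * V.ω) ↔ y ∈ V.rng (3 * V.ω) := fun y => rf_mem (by omega)
  have h0 : ∀ y ∈ V.rng (3 * V.ω), op (eS V.G.A (V.G.rho - 4 * V.ω) (V.G.rho + 4 * V.ω)) w y = 0 :=
    fun y hy => by rw [← op_eq hV h w hy]; exact hw _ (sup_dl (rng_sub h hy))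
  obtain ⟨k, hk1, hk2⟩ : ∃ k : ℕ, 8 * k ≤ V.ω ∧ V.ω < 8 * k + 8 := ⟨V.ω / 8, by omega, by omega⟩
  rw [Gv.mid, mem_rng (by omega)] at hx
  have hb : bl x (2 * k + 1) ⊆ V.rng (3 * V.ω) := fun y hy => by
    rw [mem_bl] at hy
    rw [mem_rng (by omega)]
    omega
  have hb' : ∀ y ∈ bl x (2 * k), y ∈ V.rng (3 * V.ω) := fun y hy => hb (bl_mono x (by omega) hy)
  have key : ∃ u : Pt → ℝ, u x = w x ∧ (∀ y, u y = w y ∨ u y = w (rf y)) ∧
      ∀ y ∈ bl x (2 * k), lap u y = 0 := by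
    by_cases hc : (V.G.rho : ℤ) - 4 * V.ω + 2 * k ≤ x.1
    · have hin : ∀ y ∈ bl x (2 * k), (V.G.rho : ℤ) - 4 * V.ω ≤ y.1 ∧ y.1 < V.G.rho + 4 * V.ω :=
        fun y hy => by rw [mem_bl] at hy; omega
      by_cases hx2 : 0 ≤ x.2
      · refine ⟨up w, gl_up hx2, up_cases w, fun y hy => ?_⟩
        rw [lap_up (rng_sub h (hb' y hy)) (rng_sub h ((hT y).2 (hb' y hy))) (hin y hy), neg_eq_zero]
        rcases up_cases (op (eS V.G.A (V.G.rho - 4 * V.ω) (V.G.rho + 4 * V.ω)) w) y with e | e <;> rw [e]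
        exacts [h0 y (hb' y hy), h0 _ ((hT y).2 (hb' y hy))]
      · refine ⟨dn w, gl_dn (not_le.1 hx2), dn_cases w, fun y hy => ?_⟩
        rw [lap_dn (rng_sub h (hb' y hy)) (rng_sub h ((hT y).2 (hb' y hy))) (hin y hy), neg_eq_zero]
        rcases dn_cases (op (eS V.G.A (V.G.rho - 4 * V.ω) (V.G.rho + 4 * V.ω)) w) y with e | e <;> rw [e]
        exacts [h0 y (hb' y hy), h0 _ ((hT y).2 (hb' y hy))]
    · refine ⟨w, rfl, fun _ => Or.inl rfl, fun y hy => ?_⟩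
      have h1 := hb' y hy
      have h2 := h0 y h1
      rw [op_eS_off (rng_sub h h1), neg_eq_zero] at h2
      · exact h2
      rw [mem_rng (by omega)] at h1
      rw [mem_bl] at hy
      omega
  obtain ⟨u, u1, u2, u3⟩ := key
  have k1 : 1 ≤ k := by omega
  have k0 : (0 : ℝ) < k := by exact_mod_cast k1
  have w0 : (0 : ℝ) < V.ω := by exact_mod_cast (show 0 < V.ω by omega)
  have w1 : (V.ω : ℝ) ≤ 16 * k := by exact_mod_cast (show V.ω ≤ 16 * k by omega)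
  have c1 : C / (k : ℝ) ^ 2 ≤ 256 * C / (V.ω : ℝ) ^ 2 := by
    rw [div_le_div_iff₀ (by positivity) (by positivity)]
    nlinarith [mul_le_mul_of_nonneg_left (pow_le_pow_left₀ w0.le w1 2) C0]
  have S0 : 0 ≤ ∑ y ∈ V.rng (3 * V.ω), w y ^ 2 := sum_nonneg fun _ _ => sq_nonneg _
  rw [← u1]
  refine (hp x k u _ k1 hb u3).trans ((mul_le_mul c1 (sum_le hT u2) (sum_nonneg fun _ _ => sq_nonneg _)
    (by positivity)).trans_eq (by ring))

end Crest.Agent.T145.Kv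
end

-- ▼ part T145/KvM3_89
section

/-!
# Row 145, module Kv: M3 (helper89)
-/

set_option autoImplicit false

namespace Crest.Agent.T145.Kv

/-- M3 -/
theorem m3Stmt (hG : GeoStmt) (hA : AlgStmt) (hD : DualStmt) (hC : CapStmt) : M3Stmt :=
  m3Stmt_of hG hA hD hC (pt81 hG)

end Crest.Agent.T145.Kv
end

-- ▼ part T145/KvMom_3
section

/-!
# Row 145, module Kv: MOM, TYP, LAM on the extended lattice (helper3)
-/

set_option autoImplicit false

namespace Crest.Agent.T145.Kv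

open Finset Real

namespace Mom3

theorem cosh_le_sq {a : ℝ} (h : a ^ 2 ≤ 1) : cosh a - 1 ≤ a ^ 2 := by
  have h1 := cosh_sub_one_le a
  have h2 : cosh a ≤ cosh 1 := by
    rw [Real.cosh_le_cosh, abs_one]; exact (sq_le_one_iff_abs_le_one a).1 h
  nlinarith [cosh_one_le_two, sq_nonneg a]

section grp
variable {G : Type} [AddCommGroup G] {ρ H : G → ℝ} {g : Pt × Pt → G →+ ℤ} {ed : Finset (Pt × Pt)}
  {φ : Pt × Pt → ℝ} {Λ : Lat}

/-- the bare bound for a flow of squared norm at most one -/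
theorem M_le (hΛ : Λ.Ok) (hρ : Cen ρ) (hH : PD H) (h0 : ∀ a, 0 ≤ H a)
    (e : ∀ a, ρ a = H a * ∏ e ∈ ed, Λ.w (g e a)) (h1 : ∑ e ∈ ed, φ e ^ 2 ≤ 1) :
    M ρ (gfl ed φ g) ≤ Λ.τ * ∑ e ∈ ed, φ e ^ 2 :=
  (brgStmt Λ G ρ H g ed φ hΛ hρ.wt hρ.se hH h0 e).trans (mul_le_mul_of_nonneg_left
    (sum_le_sum fun _ he => cosh_le_sq
      ((single_le_sum (f := fun e => φ e ^ 2) (fun _ _ => sq_nonneg _) he).trans h1)) hΛ.2.le)

/-- all even moments of a flow -/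
theorem mom_le (hΛ : Λ.Ok) (hρ : Cen ρ) (hH : PD H) (h0 : ∀ a, 0 ≤ H a)
    (e : ∀ a, ρ a = H a * ∏ e ∈ ed, Λ.w (g e a)) {n : ℝ} (hn : 0 < n) (h1 : ∑ e ∈ ed, φ e ^ 2 ≤ n)
    (k : ℕ) : Ex ρ (fun s => gfl ed φ g s ^ (2 * k)) ≤ (2 * k).factorial * exp Λ.τ * n ^ k := by
  have hs : 0 < √n := Real.sqrt_pos.2 hn
  have h2 : ∑ e ∈ ed, (φ e / √n) ^ 2 ≤ 1 := by
    simp only [div_pow, Real.sq_sqrt hn.le, ← sum_div]; rwa [div_le_one hn]
  have h3 := (M_le hΛ hρ hH h0 e h2).trans (mul_le_of_le_one_right hΛ.2.le h2)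
  have h4 : ∀ s, gfl ed (fun e => φ e / √n) g s = gfl ed φ g s / √n := fun s => by
    rw [T140.gfl_apply, T140.gfl_apply, sum_div]; exact sum_congr rfl fun _ _ => by ring
  calc _ ≤ Ex ρ (fun s => ((2 * k).factorial * n ^ k) * cosh (gfl ed (fun e => φ e / √n) g s)) :=
        Ex_mono hρ.nonneg (hρ.ig ((Tame.hom _).pow _)) (hρ.ig ((Tame.cosh _).const_mul _)) fun s => by
          have h1 := Kr.Mom3.pow_le_cosh k (gfl ed φ g s / √n)
          rw [div_pow, pow_mul (√n), Real.sq_sqrt hn.le, div_le_iff₀ (by positivity)] at h1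
          rw [h4]; linarith
    _ ≤ _ := by
        rw [Ex_const_mul, hρ.ex_cosh]
        have := mul_le_mul_of_nonneg_left (exp_le_exp.2 h3)
          (by positivity : (0 : ℝ) ≤ (2 * k).factorial * n ^ k)
        linarith

end grp

variable {V : Gv} {Λ : Lat}

theorem pd_off (V : Gv) :
    PD fun s : Cfg Pt => ind (∀ x, x ∉ V.G.Om → x ≠ V.k1 → x ≠ V.k2 → s x = 0) := by
  have h := T145.pd_off (insert V.k1 (insert V.k2 V.G.Om))
  refine (funext fun s => ind_congr (forall_congr' fun x => ?_) : _ = _) ▸ h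
  simp only [mem_insert, not_or]; tauto

theorem pd_rho (hΛ : Λ.Ok) (V : Gv) : PD (V.rho Λ) :=
  (pd_off V).mul (PD.prod fun e _ => (kerStmt _ hΛ.fam).pd.comp (V.gk e))

theorem ω_pos (V : Gv) : 0 < (V.ω : ℝ) := by unfold Gv.ω; positivity

theorem ms_pos (V : Gv) (a : ℕ) : 0 < V.ms a := by have := ω_pos V; unfold Gv.ms; positivity

theorem mom_rw (hΛ : Λ.Ok) (hE : V.Ext Λ) {f : Pt → ℝ} {n : ℝ} (hn : 0 < n) (hf : V.Fx V.EO f n)
    (k : ℕ) : V.EX Λ (fun s => pr f s ^ (2 * k)) ≤ (2 * k).factorial * exp Λ.τ * n ^ k := by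
  obtain ⟨φ, h1, h2⟩ := hf
  simp only [h1]
  exact mom_le hΛ hE.cen ((pd_ind (Finsupp.applyAddHom V.rt)).mul (pd_off V))
    (fun _ => mul_nonneg (ind_nonneg _) (ind_nonneg _)) (fun _ => (mul_assoc _ _ _).symm) hn h2 k

theorem mom_rm (hΛ : Λ.Ok) (hE : V.Ext Λ) {f : Pt → ℝ} {n : ℝ} (hn : 0 < n) (hf : V.Fx V.EO f n)
    (k a : ℕ) : Ex (V.rm Λ a) (fun s => pr f s ^ (2 * k)) ≤ (2 * k).factorial * exp Λ.τ * n ^ k := by
  obtain ⟨φ, h1, h2⟩ := hf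
  simp only [h1]
  exact mom_le (H := fun s => ind (∀ x, x ∉ V.G.Om → x ≠ V.k1 → x ≠ V.k2 → s x = 0) *
      ∏ x ∈ V.Ga, gau (V.ms a)⁻¹ (s x)) hΛ (hE.cenM a) ((pd_off V).mul (PD.prod fun x _ =>
      (gauStmt _ (inv_pos.2 (ms_pos V a))).1.pd.comp (Finsupp.applyAddHom x)))
    (fun _ => mul_nonneg (ind_nonneg _) (prod_nonneg fun _ _ => (gau_pos _ _).le))
    (fun _ => mul_right_comm _ _ _) hn h2 k

/-- the mean over the ring has variance at most `1 / 8` in the screened model -/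
theorem vr_unC (hΛ : Λ.Ok) (hE : V.Ext Λ) (hG : V.Geo) (a : ℕ) :
    Vr (V.rm Λ a) (pr (Kw56.unC V.Ga)) (pr (Kw56.unC V.Ga)) ≤ 1 / 8 := by
  have hω := ω_pos V
  have hm := ms_pos V a
  have inj : Set.InjOn (fun x : Pt => (x, x)) V.Ga := fun _ _ _ _ h => congrArg Prod.fst h
  have h1 : (1 : ℝ) ≤ 2 ^ V.j := one_le_pow₀ one_le_two
  have h2 : (1 : ℝ) ≤ (2 ^ a) ^ 2 := one_le_pow₀ (one_le_pow₀ one_le_two)
  have h3 : (1 : ℝ) ≤ V.ω := by exact_mod_cast Nat.one_le_two_pow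
  have hc : (V.Ga.card : ℝ) = 16 * 2 ^ V.j * (V.ω : ℝ) ^ 2 := by rw [hG.card_Ga]; push_cast; ring
  have hs : ∑ e ∈ V.Ga.image fun x => (x, x), Kw56.unC V.Ga e.1 ^ 2 = (V.Ga.card : ℝ)⁻¹ := by
    rw [sum_image inj, Kr.L48.sum_unC]
  have hM := M_le (Λ := ⟨nn, false, (V.ms a)⁻¹⟩) (g := fun e => Finsupp.applyAddHom e.1)
    (ed := V.Ga.image fun x => (x, x)) (φ := fun e => Kw56.unC V.Ga e.1)
    ⟨admissible_nn, inv_pos.2 hm⟩ (hE.cenM a) (pd_rho hΛ V) hE.rsd.nonneg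
    (fun s => by rw [prod_image inj]; rfl)
    (by rw [hs, hc]; exact inv_le_one_of_one_le₀ (by nlinarith))
  have e : gfl (V.Ga.image fun x => (x, x)) (fun e => Kw56.unC V.Ga e.1)
      (fun e => (Finsupp.applyAddHom e.1 : Cfg Pt →+ ℤ)) = pr (Kw56.unC V.Ga) :=
    AddMonoidHom.ext fun s => by
      rw [T140.gfl_apply, sum_image inj,
        pr_of_fsupp (U := V.Ga) (Kw56.unC V.Ga) _ fun x hx => if_neg hx]; rfl
  have h4 := (corStmt _ _ (hE.cenM a)).2.1 (pr (Kw56.unC V.Ga))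
  rw [e, hs, hc] at hM
  have h5 : (V.ms a)⁻¹ * (16 * 2 ^ V.j * (V.ω : ℝ) ^ 2)⁻¹ ≤ 1 / 16 := by
    rw [Gv.ms, ← mul_inv, one_div]
    refine inv_anti₀ (by norm_num) ?_
    rw [div_pow, div_mul_eq_mul_div, le_div_iff₀ (by positivity)]
    nlinarith [mul_le_mul h2 h1 zero_le_one (by positivity), sq_nonneg (V.ω : ℝ)]
  change _ ≤ (V.ms a)⁻¹ * _ at hM
  linarith

theorem nm_add (V : Gv) (u v : Pt → ℝ) (c : ℝ) (hv : ∀ x, |v x| ≤ 1) (hG : V.Geo) :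
    V.nm u ≤ 2 * V.nm (u - c • v) + 64 * 2 ^ V.j * c ^ 2 := by
  have hω := ω_pos V
  have h1 : ∑ x ∈ V.mid, u x ^ 2 ≤ ∑ x ∈ V.mid, (2 * (u - c • v) x ^ 2 + 2 * c ^ 2) :=
    sum_le_sum fun x _ => by
      have := mul_le_mul_of_nonneg_left ((sq_le_one_iff_abs_le_one _).2 (hv x)) (sq_nonneg c)
      simp only [Pi.sub_apply, Pi.smul_apply, smul_eq_mul]
      nlinarith [sq_nonneg (u x - 2 * (c * v x))]
  rw [sum_add_distrib, ← mul_sum, sum_const, nsmul_eq_mul, hG.card_mid] at h1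
  rw [Gv.nm, Gv.nm, div_le_iff₀ (by positivity), add_mul, mul_assoc 2, div_mul_cancel₀ _ (by positivity)]
  push_cast at h1
  linarith

/-- Markov for the mean square on the middle ring -/
theorem pr_nm (hE : V.Ext Λ) (hG : V.Geo) {m : Cfg Pt → Pt → ℝ} {C α : ℝ} (hα : 0 < α)
    (h : ∀ x ∈ V.mid, ∃ f : Pt → ℝ, (∀ s, m s x = pr f s) ∧ V.EX Λ (fun s => pr f s ^ (2 * 1)) ≤ C) :
    Pr (V.rw Λ) (fun s => ¬ V.nm (m s) ≤ α) ≤ 32 * 2 ^ V.j * C / α := by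
  have hω := ω_pos V
  choose! f hf using h
  have hi : ∀ x ∈ V.mid, Ig (V.rw Λ) fun s => pr (f x) s ^ (2 * 1) := fun x _ =>
    hE.cen.ig ((Tame.hom _).pow _)
  have h1 := hE.cen.wt.markov (p := fun s => ¬ V.nm (m s) ≤ α) (Ig.sum _ hi)
    (fun s => sum_nonneg fun _ _ => (even_two_mul 1).pow_nonneg _) (t := α * (V.ω : ℝ) ^ 2) fun s hs => by
      rw [Gv.nm, not_le, lt_div_iff₀ (by positivity)] at hs
      exact hs.le.trans_eq (sum_congr rfl fun x hx => by rw [(hf x hx).1])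
  rw [Ex_sum _ hi] at h1
  have h2 := h1.trans (sum_le_sum fun x hx => (hf x hx).2)
  rw [sum_const, nsmul_eq_mul, hG.card_mid] at h2
  push_cast at h2
  rw [le_div_iff₀ hα]
  exact le_of_mul_le_mul_right (by linarith) (by positivity : 0 < (V.ω : ℝ) ^ 2)

end Mom3

open Mom3

/-- MOM -/
theorem momStmt (hE : ExtStmt) : MomStmt := fun F k hJ =>
  ⟨(2 * k).factorial * exp F.τ₂, by positivity, fun Λ hΛ V W hV _ S f n hn hf => by
    have hX := hE Λ V W hΛ.ok (hΛ.1.trans hJ) hV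
    have h1 : ((2 * k).factorial : ℝ) * exp Λ.τ * n ^ k ≤ (2 * k).factorial * exp F.τ₂ * n ^ k :=
      mul_le_mul_of_nonneg_right (mul_le_mul_of_nonneg_left (exp_le_exp.2 hΛ.tau_le) (by positivity))
        (by positivity)
    exact ⟨fun i hi => ⟨(mom_rw hΛ.ok hX hn (hf i hi) k).trans h1,
        fun a => (mom_rm hΛ.ok hX hn (hf i hi) k a).trans h1⟩,
      fun A hA => Kr.Mom3.tail_avg hX.cen.wt S (fun i s => pr (f i) s) k (by positivity) hn hA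
        (fun _ _ => hX.cen.ig ((Tame.hom _).pow _))
        fun i hi => (mom_rw hΛ.ok hX hn (hf i hi) k).trans h1⟩⟩

/-- TYP -/
theorem typStmt (hG : GeoStmt) (hA : AlgStmt) (hE : ExtStmt) (h3 : M3Stmt) : TypStmt := by
  intro F W j hJ
  obtain ⟨C, hC, h3⟩ := h3 W j
  obtain ⟨D, hD, hM⟩ := momStmt hE F 1 hJ
  have h2 : (1 : ℝ) ≤ 2 ^ j := one_le_pow₀ one_le_two
  have hDC : 0 < D * C := by positivity
  refine ⟨64 * 2 ^ j * (D * C + 1), by positivity, fun Λ hΛ V hV hj => ?_⟩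
  subst hj
  have hX := hE Λ V W hΛ.ok (hΛ.1.trans hJ) hV
  have hg := hG V W hV
  have ha := hA V W hV
  obtain ⟨m1, m2, -⟩ := h3 V hV rfl
  have mo : ∀ f, V.Fx V.EO f C → V.EX Λ (fun s => pr f s ^ (2 * 1)) ≤ D * C := fun f hf => by
    simpa using ((hM Λ hΛ V W hV Unit univ (fun _ => f) C hC fun _ _ => hf).1 () (mem_univ _)).1
  refine ⟨fun K hK => ?_, fun α A B hα hI hO => ⟨?_, fun a h => ?_, fun b h => ?_⟩⟩
  · have := Kr.Mom3.tail_one hX.cen.wt (fun s => pr (V.eq - V.te) s) 1 hK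
      (hX.cen.ig ((Tame.hom _).pow _)) (mo _ m2)
    simp only [pr_sub, AddMonoidHom.sub_apply] at this
    exact this.trans (div_le_div_of_nonneg_right (by nlinarith) (by positivity))
  · have p1 := pr_nm hX hg (m := fun s => V.ma s - pr V.eq s • V.om) hα fun x hx => by
      obtain ⟨f, -, hf, -, e, -⟩ := m1 x hx
      exact ⟨f, fun s => by simp only [Pi.sub_apply, Pi.smul_apply, smul_eq_mul, e]; ring, mo f hf⟩
    have p2 := pr_nm hX hg (m := fun s => V.mb s - pr V.te s • (1 - V.om)) hα fun x hx => by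
      obtain ⟨-, f, -, hf, -, e⟩ := m1 x hx
      exact ⟨f, fun s => by
        simp only [Pi.sub_apply, Pi.smul_apply, smul_eq_mul, Pi.one_apply, e]; ring, mo f hf⟩
    refine le_trans (hX.cen.wt.pr_mono fun s _ hs => ?_)
      ((hX.cen.wt.pr_or_le _ _).trans ((add_le_add p1 p2).trans ?_))
    · obtain ⟨d1, d2, d3, d4⟩ := ha.dat s
      rwa [hI.2.2.2, hO.2.2.2, d1, d2, d3, d4, not_and_or] at hs
    · rw [← add_div]
      exact div_le_div_of_nonneg_right (by nlinarith) hα.le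
  · have := nm_add V (V.ma a) V.om (pr V.eq a) (fun x => abs_le.2
      ⟨by linarith [(ha.om_mem x).1], (ha.om_mem x).2⟩) hg
    have h' := (hI.2.2.2 a).1 h
    nlinarith [mul_nonneg (mul_nonneg (zero_le_one.trans h2) hDC.le) (sq_nonneg (pr V.eq a))]
  · have := nm_add V (V.mb b) (1 - V.om) (pr V.te b) (fun x => abs_le.2
      ⟨by simp only [Pi.sub_apply, Pi.one_apply]; linarith [(ha.om_mem x).2],
        by simp only [Pi.sub_apply, Pi.one_apply]; linarith [(ha.om_mem x).1]⟩) hg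
    have h' := (hO.2.2.2 b).1 h
    nlinarith [mul_nonneg (mul_nonneg (zero_le_one.trans h2) hDC.le) (sq_nonneg (pr V.te b))]

/-- LAM -/
theorem lamStmt (hG : GeoStmt) (hA : AlgStmt) (hE : ExtStmt) (h3 : M3Stmt) : LamStmt := by
  intro F W j hJ
  obtain ⟨C, hC, h3⟩ := h3 W j
  obtain ⟨D, hD, hM⟩ := momStmt hE F 1 hJ
  refine ⟨2 * (D * C + 1 / 8), by positivity, fun Λ hΛ V hV hj a => ?_⟩
  have hX := hE Λ V W hΛ.ok (hΛ.1.trans hJ) hV
  have hc := hX.cenM a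
  refine ⟨hasSum_push hc.wt.summ _, hc.wt.pos, push_nonneg hc.nonneg _, fun A hA0 => ?_⟩
  refine Kr.L48.cheb hc V.dH (fun z => pr V.eq z.1) (pr V.eq)
    (fun s => ((hA V W hV).dat s).2.2.1) ?_ hA0
  have h1 := ((hM Λ hΛ V W hV Unit univ (fun _ => V.eq - Kw56.unC V.Ga) C hC
    fun _ _ => (h3 V hV hj).2.2).1 () (mem_univ _)).2 a
  have h2 := hc.vr_add_le (pr (V.eq - Kw56.unC V.Ga)) (pr (Kw56.unC V.Ga))
  rw [← pr_add, sub_add_cancel, hc.Vr_eq (pr (V.eq - Kw56.unC V.Ga))] at h2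
  have h4 := vr_unC hΛ.ok hX (hG V W hV) a
  simp only [mul_one, pow_one, pow_two] at h1
  linarith

end Crest.Agent.T145.Kv
end

-- ▼ part T145/KvP0_75
section

/-!
# Row 145 (helper75): P0 for a domain with a horizontal slit

Logarithmic cut-offs at the tips, even reflection along the two sides, P0 for square integrable data.
-/

set_option autoImplicit false

namespace Crest.Agent.T145.Pot

open Finset Ho14 P75

namespace S75

variable {u v w g θ : Pt → ℝ} {D : Finset Pt} {ed : Finset (Pt × Pt)}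

theorem ip_mol {a : ℕ} (ha : 1 ≤ a) (hg : F g) (hv : Sup D v) :
    |ip D (mol a g - g) v| ≤ √(S g) * (4 * a) * √(EJ nL v) := by
  have e : ip D (mol a g - g) v = ∑ y ∈ bl 0 (2 * a), ker a y * I g (dif (-y) v) := by
    rw [sub_mol ha]
    simp only [ip, Finset.sum_apply, Pi.smul_apply, smul_eq_mul, sum_mul]
    rw [sum_comm]
    refine sum_congr rfl fun y _ => ?_
    rw [← I_dif hg, I, tsum_eq_sum (s := D) fun x hx => by simp [hv x hx], mul_sum]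
    exact sum_congr rfl fun x _ => by ring
  rw [e, ← one_mul (√(S g) * (4 * a) * √(EJ nL v)), ← sum_ker ha, sum_mul]
  refine (abs_sum_le_sum_abs _ _).trans (sum_le_sum fun y hy => ?_)
  rw [abs_mul, abs_of_nonneg (ker_nonneg _ _)]
  refine mul_le_mul_of_nonneg_left ((abs_I_le hg (F.dif ⟨D, hv⟩ _)).trans ?_) (ker_nonneg _ _)
  have hy' : -y ∈ bl 0 (2 * a) := by
    rw [mem_bl] at *; simp only [Prod.fst_neg, Prod.snd_neg, Prod.fst_zero, Prod.snd_zero] at *; omega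
  have := N_dif_le nL_ok ⟨D, hv⟩ hy'
  push_cast at this
  rw [mul_assoc]
  exact mul_le_mul_of_nonneg_left (this.trans_eq (by ring)) (Real.sqrt_nonneg _)

/-- the scale `L / M` -/
theorem scale {L M : ℕ} (hM : 1 ≤ M) (hL : M ≤ L) :
    1 ≤ L / M ∧ ((L / M : ℕ) : ℝ) * M ≤ L ∧ (L : ℝ) ≤ 2 * M * (L / M : ℕ) := by
  have h1 : 1 ≤ L / M := (Nat.le_div_iff_mul_le hM).2 (by omega)
  have h2 := Nat.lt_div_mul_add (a := L) hM
  have h3 : M ≤ L / M * M := Nat.le_mul_of_pos_left _ h1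
  refine ⟨h1, by exact_mod_cast Nat.div_mul_le_self _ _, ?_⟩
  have : L ≤ 2 * M * (L / M) := by rw [mul_assoc, mul_comm M]; omega
  exact_mod_cast this

/-- P0 for square integrable data -/
theorem p0L2 (k : ℕ) (E W : ℝ) {ε : ℝ} (hε : 0 < ε) : ∃ K' L₀ : ℕ, 1 ≤ K' ∧
    ∀ (z : Pt) (L s : ℕ) (D : Finset Pt), L₀ ≤ L → D ⊆ bl z L → (L : ℝ) ≤ W * s → Ext D s →
      ∀ v : Pt → ℝ, Sup D v → ∑ x ∈ D, lap v x ^ 2 ≤ E / (L : ℝ) ^ 2 →
      ∃ u, Sm k Set.univ K' L u ∧ (∀ x, u x ≠ 0 → bl x (L / K') ⊆ D) ∧ √(EJ nL (v - u)) ≤ ε := by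
  obtain ⟨C, C0, hm⟩ := sm_mol 0
  obtain ⟨M, hM⟩ := exists_nat_ge (1 + 8 * √E / ε)
  have hM0 : 0 ≤ 8 * √E / ε := by positivity
  have M1 : 1 ≤ M := by exact_mod_cast (show (1 : ℝ) ≤ M by linarith)
  obtain ⟨K', L₀, K1, h⟩ := p0Stmt nn k (C * (3 * √E) * (2 * M) ^ 2) W ((ε / 2) ^ 2) nL_ok.1
    (by positivity)
  refine ⟨K', max L₀ M, K1, fun z L s D hL hD hW hE v hv hl => ?_⟩
  obtain ⟨a1, a2, a3⟩ := scale M1 ((le_max_right _ _).trans hL)
  set a := L / M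
  have L1 : 1 ≤ L := M1.trans ((le_max_right _ _).trans hL)
  have L0 : (0 : ℝ) < L := by exact_mod_cast L1
  have a0 : (0 : ℝ) < a := by exact_mod_cast a1
  have co := co_eD nL_ok D
  set g := on D (-lap v) with hg
  have sg : Sup D g := sup_on _ _
  have ev : gr D (eD nL D) g = v := co.gr_unique' hv fun x hx => by
    rw [op_eD nL_ok hx, hg, on_of_mem hx]; rfl
  have m1 : ∑ x ∈ D, g x ^ 2 ≤ (√E / L) ^ 2 := by
    refine (sum_congr rfl fun x hx => by rw [hg, on_of_mem hx, Pi.neg_apply, neg_sq]).trans_le (hl.trans ?_)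
    rw [div_pow]
    exact div_le_div_of_nonneg_right (by rw [Real.sq_sqrt']; exact le_max_left _ _) (by positivity)
  have m2 : √(S g) ≤ √E / L := by rw [Real.sqrt_le_left (by positivity), S_eq sg]; exact m1
  have m3 : ∑ x ∈ D, |g x| ≤ 3 * L * (√E / L) := by
    refine (abs_le_of_sq_le_sq' ?_ (by positivity)).2
    refine (sq_sum_le_card_mul_sum_sq).trans ?_
    simp only [sq_abs]
    rw [mul_pow]
    exact mul_le_mul (sqrt_card_le hD L1) m1 (sum_nonneg fun _ _ => sq_nonneg _) (by positivity)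
  obtain ⟨u, h1, h2, h3⟩ := h nL nL_ok rfl z L s D ((le_max_left _ _).trans hL) hD hW hE (mol a g)
    fun x _ => ((hm a D g a1 sg).zero (Set.mem_univ x)).trans (by
      rw [div_le_div_iff₀ (by positivity) (by positivity)]
      have e : 3 * L * (√E / L) = 3 * √E := by field_simp
      have := mul_le_mul (mul_le_mul_of_nonneg_left (m3.trans_eq e) C0) (pow_le_pow_left₀ L0.le a3 2)
        (by positivity) (by positivity)
      linarith)
  refine ⟨u, h1, h2, ?_⟩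
  have su : Sup D u := fun x hx => by_contra fun hn => hx (h2 x hn (self_mem_bl _ _))
  have h4 : G D (eD nL D) (mol a g - g) (mol a g - g) ≤ (ε / 2) ^ 2 :=
    co.G_le_of (by positivity) fun φ hφ => by
      rw [← EJ_eq nL_ok hφ, ← Real.sq_sqrt (EJ_nonneg nL φ), ← mul_pow]
      refine sq_le_sq.2 ((ip_mol a1 ⟨D, sg⟩ hφ).trans (le_trans ?_ (le_abs_self _)))
      refine mul_le_mul_of_nonneg_right ((mul_le_mul_of_nonneg_right m2 (by positivity)).trans ?_)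
        (Real.sqrt_nonneg _)
      rw [div_mul_eq_mul_div, div_le_iff₀ L0]
      have h5 : 8 * √E / ε ≤ M := by linarith
      rw [div_le_iff₀ hε] at h5
      nlinarith [mul_le_mul_of_nonneg_right h5 a0.le, mul_le_mul_of_nonneg_left a2 hε.le]
  rw [co.G_eq, ← EJ_eq nL_ok (co.gr_sup _)] at h4
  rw [← EJ_eq nL_ok ((co.gr_sup _).sub su)] at h3
  have h6 := EJ_sub nL_ok ⟨D, (co.gr_sup (mol a g)).sub su⟩ ⟨D, co.gr_sup (mol a g - g)⟩
  rw [co.gr_sub, ev, show gr D (eD nL D) (mol a g) - u - (gr D (eD nL D) (mol a g) - v) = v - u by abel,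
    ← ev, ← co.gr_sub, ev] at h6
  linarith [(Real.sqrt_le_left (half_pos hε).le).2 h3, (Real.sqrt_le_left (half_pos hε).le).2 h4]

theorem mol_mem {a : ℕ} (ha : 1 ≤ a) (h : ∀ x, 0 ≤ v x ∧ v x ≤ 1) (x : Pt) :
    0 ≤ mol a v x ∧ mol a v x ≤ 1 :=
  ⟨sum_nonneg fun _ _ => mul_nonneg (ker_nonneg _ _) (h _).1, (sum_le_sum fun _ _ =>
    mul_le_of_le_one_right (ker_nonneg _ _) (h _).2).trans_eq (sum_ker ha)⟩

theorem mol_one {a : ℕ} (ha : 1 ≤ a) {x : Pt} (h : ∀ y ∈ bl x (2 * a), v y = 1) : mol a v x = 1 :=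
  (sum_congr rfl fun y hy => by
    rw [h _ (by
      rw [mem_bl] at *
      simp only [Prod.fst_add, Prod.snd_add, Prod.fst_zero, Prod.snd_zero] at *; omega), mul_one]).trans
    (sum_ker ha)

theorem EJ_mol {a : ℕ} (ha : 1 ≤ a) (hv : F v) : √(EJ nL (mol a v)) ≤ √(EJ nL v) := by
  have e : mol a v = ∑ y ∈ bl 0 (2 * a), ker a y • fun x => v (x + y) := by
    funext x; simp only [mol, Finset.sum_apply, Pi.smul_apply, smul_eq_mul]
  rw [e]
  refine (EJ_sum nL_ok _ fun y _ => (hv.shift y).smul _).trans ?_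
  rw [← one_mul (√(EJ nL v)), ← sum_ker ha, sum_mul]
  exact sum_le_sum fun y _ => by
    rw [EJ_smul, Real.sqrt_mul (sq_nonneg _), Real.sqrt_sq (ker_nonneg _ _), EJ_shift]

theorem edF_le (h : ∀ e ∈ ed, e.2 - e.1 ∈ nL.Jp) (hv : F v) : edF ed v v ≤ EJ nL v := by
  obtain ⟨D, hD⟩ := hv
  rw [EJ_eq nL_ok (hD.mono (subset_union_left (s₂ := ed.image Prod.fst)))]
  exact edF_mono (fun e he => Lat.mem_edT.2 ⟨h e he, Or.inl (mem_union_right _ (mem_image_of_mem _ he))⟩) v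

/-- smooth logarithmic cut-off at a point -/
theorem tip {δ : ℝ} (hδ : 0 < δ) : ∃ (M : ℕ) (C : ℝ), 1 ≤ M ∧ 0 ≤ C ∧ ∀ (p : Pt) (t : ℕ), 1 ≤ t →
    ∃ η : Pt → ℝ, (∀ x, 0 ≤ η x ∧ η x ≤ 1) ∧ (∀ x ∈ bl p (8 * t), η x = 1) ∧ Sup (bl p (M * t)) η ∧
      EJ nL η ≤ δ ∧ Sm 2 Set.univ C t η := by
  obtain ⟨C, C0, hm⟩ := sm_mol 2
  obtain ⟨N, hN⟩ := exists_nat_ge (1 + 162 / δ)
  have hN0 : 0 ≤ 162 / δ := by positivity
  have N1 : 1 ≤ N := by exact_mod_cast (show (1 : ℝ) ≤ N by linarith)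
  refine ⟨4 ^ N * 10 + 2, C * (3 * (4 ^ N * 10)) ^ 2, by omega, by positivity, fun p t ht => ?_⟩
  let d : Pt → ℕ := fun x => max (x.1 - p.1).natAbs (x.2 - p.2).natAbs
  have hd : ∀ x h, d x ≤ h ↔ x ∈ bl p h := fun x h => by simp only [d, mem_bl]; omega
  set R := 4 ^ N * (10 * t) with hR
  have R1 : 1 ≤ R := Nat.mul_pos (by positivity) (by omega)
  obtain ⟨η, η1, η2, η3, -, η4⟩ := logcut (Λ := nL) (ed := nL.edT (bl p R))
    (fun e he => (Lat.mem_edT.1 he).1) (sup_on (bl p (R + 1)) 1) d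
    (fun x y hy => by simp only [d, mem_bl] at *; omega) (a := 10 * t) (N := N) (by omega)
    (by rw [nL_rg]; omega) N1 (C₁ := 81) fun j _ => by
      have h1 : 1 ≤ 3 * (4 ^ j * (10 * t)) := Nat.mul_pos (by norm_num) (Nat.mul_pos (by positivity) (by omega))
      refine (sum_le_card_nsmul _ _ 1 fun x hx => ?_).trans ?_
      · rw [on_of_mem (mem_filter.1 hx).1]; simp
      · rw [nsmul_eq_mul, mul_one]
        refine (sqrt_card_le (z := p) (fun x hx => (hd _ _).1 (mem_filter.1 hx).2) h1).trans_eq ?_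
        push_cast; ring
  have sη : Sup (bl p R) η := fun x hx => by_contra fun hn => hx ((hd _ _).1 (η3 x hn))
  have t0 : (0 : ℝ) < t := by exact_mod_cast ht
  refine ⟨mol t η, mol_mem ht η1, fun x hx => mol_one ht fun y hy => η2 y ((hd _ _).2 ?_),
    fun x hx => by_contra fun hn => hx ?_, ?_, (hm t _ η ht sη).mono le_rfl subset_rfl ?_ t0⟩
  · rw [mem_bl] at *; omega
  · obtain ⟨y, h1, h2⟩ := mol_ne hn
    have := (hd _ _).1 (η3 y h2)
    rw [show (4 ^ N * 10 + 2) * t = R + 2 * t by rw [hR]; ring]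
    rw [mem_bl] at *; omega
  · refine (Real.sqrt_le_sqrt_iff (EJ_nonneg _ _)).1 (EJ_mol ht ⟨_, sη⟩) |>.trans ?_
    rw [EJ_eq nL_ok sη, eD, edF_self]
    refine (sum_congr rfl fun e he => ?_).trans_le (η4.trans ?_)
    · have := Lat.mem_edI.1 (Lat.edT_bl_subset (Λ := nL) p (R := R + 1) (by rw [nL_rg]) he)
      rw [on_of_mem this.2.1, on_of_mem this.2.2]; simp
    · rw [nL_rg, nL_Jp, card_pair (by decide), div_le_iff₀ (by exact_mod_cast N1)]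
      have h5 : 162 / δ ≤ N := by linarith
      rw [div_le_iff₀ hδ] at h5
      push_cast; linarith
  · rw [div_le_iff₀ (by positivity), mul_assoc]
    refine mul_le_mul_of_nonneg_left ((sum_le_card_nsmul _ _ 1 fun x _ => ?_).trans ?_) C0
    · rw [abs_of_nonneg (η1 x).1]; exact (η1 x).2
    · rw [nsmul_eq_mul, mul_one]
      refine (sqrt_card_le subset_rfl R1).trans_eq ?_
      rw [hR]; push_cast; ring

theorem lap_mul (w θ : Pt → ℝ) (x : Pt) : lap (fun y => θ y * w y) x =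
    θ x * lap w x + w x * lap θ x + ∑ e ∈ nn, dif e θ x * dif e w x := by
  simp only [lap, lapJ, dif, mul_sum, ← sum_add_distrib]
  exact sum_congr rfl fun e _ => by ring

theorem prod_bd {T : Finset Pt} {C t κ B E : ℝ} (hθ : Sm 2 Set.univ C t θ)
    (h1 : ∀ x ∈ T, |lap w x| ≤ κ) (h2 : ∀ x, |w x| ≤ B) (h3 : ∀ e ∈ nn, ∑ x ∈ T, dif e w x ^ 2 ≤ E) :
    ∑ x ∈ T, lap (fun y => θ y * w y) x ^ 2 ≤
      2 * T.card * (C * κ + B * (2 * (C / t ^ 2))) ^ 2 + 32 * (C / t) ^ 2 * E := by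
  have c4 : nn.card = 4 := by decide
  have h4 : ∑ e ∈ nn, ∑ x ∈ T, dif e w x ^ 2 ≤ 4 * E := by
    simpa [c4] using sum_le_card_nsmul _ _ E h3
  rw [sum_comm] at h4
  calc _ ≤ ∑ x ∈ T, (2 * (C * κ + B * (2 * (C / t ^ 2))) ^ 2 +
        8 * (C / t) ^ 2 * ∑ e ∈ nn, dif e w x ^ 2) := sum_le_sum fun x hx => by
        have C0 := (abs_nonneg _).trans (hθ.zero (Set.mem_univ x))
        have a1 : |θ x * lap w x + w x * lap θ x| ≤ C * κ + B * (2 * (C / t ^ 2)) := by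
          refine (abs_add_le _ _).trans (add_le_add ?_ ?_) <;> rw [abs_mul]
          · exact mul_le_mul (hθ.zero trivial) (h1 x hx) (abs_nonneg _) C0
          · exact mul_le_mul (h2 x) (hθ.abs_lap fun _ _ => trivial) (abs_nonneg _)
              ((abs_nonneg _).trans (h2 x))
        have a2 : (∑ e ∈ nn, dif e θ x * dif e w x) ^ 2 ≤ 4 * (C / t) ^ 2 * ∑ e ∈ nn, dif e w x ^ 2 := by
          refine (sum_mul_sq_le_sq_mul_sq _ _ _).trans
            (mul_le_mul_of_nonneg_right ?_ (sum_nonneg fun _ _ => sq_nonneg _))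
          simpa [c4] using sum_le_card_nsmul nn (fun e => dif e θ x ^ 2) ((C / t) ^ 2) fun e he =>
            sq_le_sq' (abs_le.1 (hθ.one one_le_two he trivial)).1 (abs_le.1 (hθ.one one_le_two he trivial)).2
        rw [lap_mul]
        nlinarith [sq_le_sq' (abs_le.1 a1).1 (abs_le.1 a1).2,
          sq_nonneg (θ x * lap w x + w x * lap θ x - ∑ e ∈ nn, dif e θ x * dif e w x)]
    _ ≤ _ := by
        rw [sum_add_distrib, sum_const, nsmul_eq_mul, ← mul_sum]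
        nlinarith [mul_le_mul_of_nonneg_left h4 (sq_nonneg (C / t))]

/-! ## The slit -/

/-- the nearest neighbour edges meeting `D`, without the vertical edges `((i, -1), (i, 0))`, `a ≤ i < b` -/
def Sl (D : Finset Pt) (a b : ℤ) (ed : Finset (Pt × Pt)) : Prop :=
  ∀ e, e ∈ ed ↔ e ∈ nL.edT D ∧ ¬ ∃ i, a ≤ i ∧ i < b ∧ e = ((i, -1), (i, 0))

variable {a b : ℤ}

theorem jp_iff {e : Pt × Pt} : e.2 - e.1 ∈ nL.Jp ↔
    (e.2.1 = e.1.1 + 1 ∧ e.2.2 = e.1.2) ∨ (e.2.1 = e.1.1 ∧ e.2.2 = e.1.2 + 1) := by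
  simp only [nL_Jp, mem_insert, mem_singleton, Prod.ext_iff, Prod.fst_sub, Prod.snd_sub]; omega

theorem Sl.mem (h : Sl D a b ed) {e : Pt × Pt} : e ∈ ed ↔ e.2 - e.1 ∈ nL.Jp ∧ (e.1 ∈ D ∨ e.2 ∈ D) ∧
    ¬ (a ≤ e.1.1 ∧ e.1.1 < b ∧ e.1.2 = -1 ∧ e.2.2 = 0) := by
  rw [h, Lat.mem_edT, and_assoc]
  refine and_congr_right fun h1 => and_congr_right fun _ => not_congr ⟨?_, fun h2 => ⟨e.1.1, h2.1, h2.2.1, ?_⟩⟩
  · rintro ⟨i, h2, h3, rfl⟩; exact ⟨h2, h3, rfl, rfl⟩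
  · rw [jp_iff] at h1; simp only [Prod.ext_iff, true_and]; omega

theorem Sl.op_off (h : Sl D a b ed) (u : Pt → ℝ) {y : Pt} (hy : y ∈ D)
    (h1 : ¬ (a ≤ y.1 ∧ y.1 < b ∧ -1 ≤ y.2 ∧ y.2 ≤ 0)) : op (edF ed) u y = -lap u y :=
  op_edF nL_ok (fun e he => by
    rw [h.mem]
    refine and_iff_left_of_imp fun h2 => ⟨he.imp (fun h => by rwa [h]) fun h => by rwa [h], ?_⟩
    rw [jp_iff] at h2
    rcases he with rfl | rfl <;> omega) u

theorem Sl.op_on (h : Sl D a b ed) (u : Pt → ℝ) {i : ℤ} (h1 : a ≤ i) (h2 : i < b) {y : Pt} (hy : y ∈ D)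
    (h3 : y = (i, 0) ∨ y = (i, -1)) :
    op (edF ed) u y + (u (i, 0) - u (i, -1)) * (dl y (i, 0) - dl y (i, -1)) = -lap u y := by
  have hn : (((i, -1), (i, 0)) : Pt × Pt) ∉ ed := fun h4 => (h.mem.1 h4).2.2 ⟨h1, h2, rfl, rfl⟩
  have := op_edF nL_ok (ed := insert ((i, -1), (i, 0)) ed) (x := y) (fun e he => by
    rw [mem_insert, h.mem, jp_iff]
    have h5 : e.1 ∈ D ∨ e.2 ∈ D := he.imp (fun h => by rwa [h]) fun h => by rwa [h]
    simp only [h5, true_and, Prod.ext_iff] at *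
    omega) u
  rw [op, edF_apply, sum_insert hn, ← edF_apply] at this
  exact (add_comm _ _).trans this

theorem Sl.co (h : Sl D a b ed) {z : Pt} {L : ℕ} (hD : D ⊆ bl z L) : Co D (edF ed) := by
  have key : ∀ (n : ℕ) (x : Pt), (x.1 + n, x.2) ∉ D → ∃ y, y ∉ D ∧
      Relation.ReflTransGen (fun u v => (u, v) ∈ ed ∨ (v, u) ∈ ed) x y := fun n => by
    induction n with
    | zero => exact fun x hx => ⟨x, by simpa using hx, .refl⟩
    | succ n ih =>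
      intro x hx
      by_cases h0 : x ∈ D
      · obtain ⟨y, h1, h2⟩ := ih (x.1 + 1, x.2) (by rwa [Nat.cast_succ, add_comm _ (1 : ℤ), ← add_assoc] at hx)
        exact ⟨y, h1, .head (b := (x.1 + 1, x.2)) (Or.inl (h.mem.2 ⟨jp_iff.2 (Or.inl ⟨rfl, rfl⟩), Or.inl h0, by
          simp only; omega⟩)) h2⟩
      · exact ⟨x, h0, .refl⟩
  refine co_edF fun x hx => key (2 * L + 1) x fun h1 => ?_
  have h2 := mem_bl.1 (hD hx)
  have h3 := mem_bl.1 (hD h1)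
  simp only at h3; omega

/-- the barrier does not see the slit -/
theorem Sl.sup (h : Sl D a b ed) {z : Pt} {L : ℕ} (hD : D ⊆ bl z L) {f : Pt → ℝ} {κ : ℝ} (hκ : 0 ≤ κ)
    (hf : ∀ x ∈ D, |f x| ≤ κ) (x : Pt) : |gr D (edF ed) f x| ≤ κ * (L + 1) ^ 2 / 2 := by
  have co := h.co hD
  let φ : ℤ → ℝ := fun i => max (κ * ((L + 1) ^ 2 - ((i : ℝ) - z.1) ^ 2) / 2) 0
  have e : ∀ i : ℤ, z.1 - (L + 1) ≤ i → i ≤ z.1 + (L + 1) →
      φ i = κ * ((L + 1) ^ 2 - ((i : ℝ) - z.1) ^ 2) / 2 := fun i h1 h2 => max_eq_left (by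
    have h3 : (z.1 : ℝ) - (L + 1) ≤ i := by exact_mod_cast h1
    have h4 : (i : ℝ) ≤ z.1 + (L + 1) := by exact_mod_cast h2
    exact div_nonneg (mul_nonneg hκ (by nlinarith)) two_pos.le)
  refine (co.abs_gr_le (mk_edF _) hf x).trans ((co.compare (mk_edF _) (w := fun y => φ y.1)
    (fun y hy => by rw [co.gr_sup _ y hy]; exact le_max_right _ _) (fun y hy => ?_) x).trans
    (max_le ?_ (by positivity)))
  · have h1 := mem_bl.1 (hD hy)
    have h2 : -lap (fun y => φ y.1) y = κ := by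
      rw [lap_apply]
      simp only
      rw [e _ (by omega) (by omega), e _ (by omega) (by omega), e _ (by omega) (by omega)]
      push_cast; ring
    rw [co.op_gr _ hy, ← h2]
    by_cases h3 : a ≤ y.1 ∧ y.1 < b ∧ -1 ≤ y.2 ∧ y.2 ≤ 0
    · rw [← h.op_on _ h3.1 h3.2.1 hy (by simp only [Prod.ext_iff, true_and]; omega)]; simp
    · rw [h.op_off _ hy h3]
  · nlinarith [mul_nonneg hκ (sq_nonneg ((x.1 : ℝ) - z.1))]

theorem sum_le_edF {T : Finset Pt} (φ : Pt → Pt × Pt) (hi : Function.Injective φ) (h : ∀ x ∈ T, φ x ∈ ed)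
    (u : Pt → ℝ) : ∑ x ∈ T, (u (φ x).2 - u (φ x).1) ^ 2 ≤ edF ed u u := by
  rw [edF_self, ← sum_image (f := fun e : Pt × Pt => (u e.2 - u e.1) ^ 2) hi.injOn]
  exact sum_le_sum_of_subset_of_nonneg (image_subset_iff.2 h) fun _ _ _ => sq_nonneg _

/-- reflection in the line of the slit -/
def rf (x : Pt) : Pt := (x.1, -1 - x.2)

/-- folding onto the upper half plane -/
def fo (x : Pt) : Pt := if 0 ≤ x.2 then x else rf x

theorem rf_rf (x : Pt) : rf (rf x) = x := by simp [rf]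
theorem fo_pos {x : Pt} (h : 0 ≤ x.2) : fo x = x := if_pos h
theorem fo_neg {x : Pt} (h : ¬ 0 ≤ x.2) : fo x = rf x := if_neg h

theorem fo_rf (x : Pt) : fo (rf x) = fo x := by
  by_cases hx : 0 ≤ x.2
  · rw [fo_pos hx, fo_neg (by simp only [rf]; omega), rf_rf]
  · rw [fo_neg hx, fo_pos (by simp only [rf]; omega)]

theorem lap_rf (u : Pt → ℝ) (y : Pt) : lap (u ∘ rf) y = lap u (rf y) := by
  simp only [lap_apply, Function.comp, rf]
  rw [show -1 - (y.2 + 1) = -1 - y.2 - 1 by ring, show -1 - (y.2 - 1) = -1 - y.2 + 1 by ring]; ring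

theorem lap_fo {U : Pt → ℝ} {κ : ℝ} {i h : ℤ} (h1 : ∀ j, 1 ≤ j → j ≤ h → |lap U (i, j)| ≤ κ)
    (h2 : |lap U (i, 0) + (U (i, 0) - U (i, -1))| ≤ κ) {j : ℤ} (h3 : -h ≤ j) (h4 : j ≤ h) :
    |lap (U ∘ fo) (i, j)| ≤ κ := by
  have up : ∀ j, 0 ≤ j → j ≤ h → |lap (U ∘ fo) (i, j)| ≤ κ := fun j h5 h6 => by
    rcases h5.eq_or_lt with rfl | h5
    · refine le_of_eq_of_le (congrArg _ ?_) h2
      simp [lap_apply, fo, rf]; ring
    · refine le_of_eq_of_le (congrArg _ ?_) (h1 j h5 h6)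
      simp only [lap_apply, fo, Function.comp, if_pos h5.le, if_pos (show 0 ≤ j + 1 by omega),
        if_pos (show 0 ≤ j - 1 by omega)]
  by_cases h5 : 0 ≤ j
  · exact up j h5 h4
  · have e : U ∘ fo = (U ∘ fo) ∘ rf := funext fun x => congrArg U (fo_rf x).symm
    rw [e, lap_rf]
    exact up (-1 - j) (by omega) (by omega)

theorem en_fo {U : Pt → ℝ} {E : ℝ} {h : ℤ}
    (hE : ∀ e ∈ nL.Jp, ∀ T : Finset Pt, (∀ x ∈ T, a - 1 ≤ x.1 ∧ x.1 < b ∧ 0 ≤ x.2 ∧ x.2 ≤ h) →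
      ∑ x ∈ T, dif e U x ^ 2 ≤ E) {T : Finset Pt}
    (hT : ∀ x ∈ T, a ≤ x.1 ∧ x.1 < b ∧ -h ≤ x.2 ∧ x.2 ≤ h) :
    ∀ e ∈ nn, ∑ x ∈ T, dif e (U ∘ fo) x ^ 2 ≤ 2 * E := by
  have key : ∀ e ∈ nL.Jp, ∀ T : Finset Pt, (∀ x ∈ T, a - 1 ≤ x.1 ∧ x.1 < b ∧ -h - 1 ≤ x.2 ∧ x.2 ≤ h) →
      ∑ x ∈ T, dif e (U ∘ fo) x ^ 2 ≤ 2 * E := fun e he T hT => by
    have he2 : e.2 = 0 ∨ e.2 = 1 := by
      rw [nL_Jp, mem_insert, mem_singleton] at he; rcases he with rfl | rfl <;> simp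
    let σ : Pt → Pt := fun x => (x.1, -1 - e.2 - x.2)
    have hσ : Function.Injective σ := fun x y h => by simp only [σ, Prod.ext_iff] at *; omega
    have k1 := hE e he (T.filter fun x => 0 ≤ x.2) fun x hx => by
      have := hT x (mem_filter.1 hx).1; have := (mem_filter.1 hx).2; omega
    have k2 := hE e he ((T.filter fun x => x.2 ≤ -1 - e.2).image σ) fun x hx => by
      obtain ⟨y, hy, rfl⟩ := mem_image.1 hx
      have := hT y (mem_filter.1 hy).1; have := (mem_filter.1 hy).2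
      simp only [σ]; omega
    rw [sum_image hσ.injOn] at k2
    rw [sum_filter] at k1 k2
    refine le_trans (sum_le_sum fun x _ => ?_) ((sum_add_distrib.trans_le (add_le_add k1 k2)).trans_eq (two_mul E).symm)
    obtain ⟨i, j⟩ := x
    rw [nL_Jp, mem_insert, mem_singleton] at he
    by_cases h0 : 0 ≤ j
    · rw [if_pos h0, if_neg (by simp only; omega), add_zero]
      simp only [dif, Function.comp, fo, Prod.snd_add, if_pos h0, if_pos (show 0 ≤ j + e.2 by omega), le_rfl]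
    · rw [if_neg h0, zero_add]
      rcases he with rfl | rfl
      · rw [if_pos (by simp only; omega)]
        simp [dif, fo, rf, σ, h0]
      · by_cases h1 : j = -1
        · subst h1; simp [dif, fo, rf]
        · rw [if_pos (by simp only; omega)]
          simp only [dif, Function.comp, fo, rf, σ, Prod.mk_add_mk, if_neg h0, add_zero,
            if_neg (show ¬ 0 ≤ j + 1 by omega)]
          rw [show -1 - 1 - j + 1 = -1 - j by ring, show -1 - (j + 1) = -1 - 1 - j by ring]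
          exact le_of_eq (by ring)
  have neg : ∀ e ∈ nL.Jp, ∑ x ∈ T, dif (-e) (U ∘ fo) x ^ 2 ≤ 2 * E := fun e he => by
    have := key e he (T.image (· + -e)) fun x hx => by
      obtain ⟨y, hy, rfl⟩ := mem_image.1 hx
      have := hT y hy
      rw [nL_Jp, mem_insert, mem_singleton] at he
      rcases he with rfl | rfl <;> simp <;> omega
    rw [sum_image (add_left_injective _).injOn] at this
    exact (sum_congr rfl fun x _ => by simp only [dif, neg_add_cancel_right]; ring).trans_le this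
  have pos : ∀ e ∈ nL.Jp, ∑ x ∈ T, dif e (U ∘ fo) x ^ 2 ≤ 2 * E := fun e he =>
    key e he T fun x hx => by have := hT x hx; omega
  intro e he
  simp only [nn, mem_insert, mem_singleton] at he
  rcases he with rfl | rfl | rfl | rfl
  exacts [pos _ (by simp [nL_Jp]), neg (1, 0) (by simp [nL_Jp]), pos _ (by simp [nL_Jp]),
    neg (0, 1) (by simp [nL_Jp])]

/-- cutting along the slit does not increase the energy -/
theorem Sl.half (h : Sl D a b ed) {c : Pt → ℝ} (c1 : ∀ x, |c x| ≤ 1)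
    (c2 : ∀ x y : Pt, (0 ≤ x.2 ↔ 0 ≤ y.2) → c x = c y) (hv : F v) (h1 : ∀ x, v x ≠ 0 → a ≤ x.1 ∧ x.1 < b) :
    edF ed (fun x => c x * v x) (fun x => c x * v x) ≤ EJ nL v := by
  refine le_trans ?_ (edF_le (fun e he => (h.mem.1 he).1) hv)
  rw [edF_self, edF_self]
  refine sum_le_sum fun e he => ?_
  obtain ⟨h2, -, h3⟩ := h.mem.1 he
  rw [jp_iff] at h2
  by_cases h4 : 0 ≤ e.1.2 ↔ 0 ≤ e.2.2
  · rw [c2 _ _ h4, ← mul_sub, mul_pow]
    exact mul_le_of_le_one_left (sq_nonneg _) (by rw [← sq_abs]; exact pow_le_one₀ (abs_nonneg _) (c1 _))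
  · have h5 : v e.1 = 0 := by_contra fun h => by have := h1 _ h; omega
    have h6 : v e.2 = 0 := by_contra fun h => by have := h1 _ h; omega
    simp [h5, h6]

theorem ext_rc (a b c d : ℤ) (s : ℕ) : Ext (Ico a b ×ˢ Icc c d) s := fun x hx => by
  simp only [mem_product, mem_Ico, mem_Icc] at hx ⊢
  by_cases h1 : x.1 < a
  · exact ⟨(-1, 0), by simp [nn], fun j _ => by simp; omega⟩
  by_cases h2 : b ≤ x.1
  · exact ⟨(1, 0), by simp [nn], fun j _ => by simp; omega⟩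
  by_cases h3 : x.2 < c
  · exact ⟨(0, -1), by simp [nn], fun j _ => by simp; omega⟩
  · exact ⟨(0, 1), by simp [nn], fun j _ => by simp; omega⟩

theorem ext_sd {s t : ℕ} (h : Ext D s) (ht : t ≤ s) (a b : ℤ) :
    Ext (D \ Icc a b ×ˢ Icc (-(t : ℤ)) t) t := fun x hx => by
  by_cases h0 : x ∈ D
  · simp only [mem_sdiff, h0, true_and, not_not, mem_product, mem_Icc] at hx
    by_cases h1 : 0 ≤ x.2
    · exact ⟨(0, -1), by simp [nn], fun j _ h => (mem_sdiff.1 h).2 (by simp; omega)⟩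
    · exact ⟨(0, 1), by simp [nn], fun j _ h => (mem_sdiff.1 h).2 (by simp; omega)⟩
  · obtain ⟨e, he, h1⟩ := h x h0
    exact ⟨e, he, fun j hj h => h1 j (hj.trans ht) (mem_sdiff.1 h).1⟩

theorem sq_prod {a a' b b' : ℝ} (ha : 0 ≤ a ∧ a ≤ 1) (hb : 0 ≤ b' ∧ b' ≤ 1) :
    ((1 - (1 - a') * (1 - b')) - (1 - (1 - a) * (1 - b))) ^ 2 ≤ 2 * (a' - a) ^ 2 + 2 * (b' - b) ^ 2 := by
  have h1 : ((a' - a) * (1 - b')) ^ 2 ≤ (a' - a) ^ 2 := by
    rw [mul_pow]; exact mul_le_of_le_one_right (sq_nonneg _) (by nlinarith)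
  have h2 : ((1 - a) * (b' - b)) ^ 2 ≤ (b' - b) ^ 2 := by
    rw [mul_pow]; exact mul_le_of_le_one_left (sq_nonneg _) (by nlinarith)
  nlinarith [sq_nonneg ((a' - a) * (1 - b') - (1 - a) * (b' - b))]

end S75

open S75

/-- P0 for a domain with a slit -/
def P0SStmt : Prop := ∀ (k : ℕ) (K W ε : ℝ), 0 < ε → ∃ K' L₀ : ℕ, 1 ≤ K' ∧
  ∀ (z : Pt) (L s : ℕ) (D : Finset Pt) (a b : ℤ) (ed : Finset (Pt × Pt)), L₀ ≤ L → D ⊆ bl z L →
    (L : ℝ) ≤ W * s → Ext D s → Sl D a b ed →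
    (∀ x : Pt, a - s ≤ x.1 → x.1 ≤ b + s → -(s : ℤ) ≤ x.2 → x.2 ≤ s → x ∈ D) →
    ∀ f : Pt → ℝ, (∀ x ∈ D, |f x| ≤ K / (L : ℝ) ^ 2) →
    ∃ u₀ up um : Pt → ℝ, Sm k Set.univ K' L u₀ ∧ Sm k Set.univ K' L up ∧ Sm k Set.univ K' L um ∧
      (∀ x, u₀ x ≠ 0 → ∀ y ∈ bl x (L / K'), y ∈ D ∧ ¬ (a ≤ y.1 ∧ y.1 ≤ b ∧ -1 ≤ y.2 ∧ y.2 ≤ 0)) ∧
      (∀ x, up x ≠ 0 ∨ um x ≠ 0 → ∀ y ∈ bl x (L / K'), a ≤ y.1 ∧ y.1 < b ∧ -(s : ℤ) ≤ y.2 ∧ y.2 ≤ s) ∧
      edF ed (gr D (edF ed) f - (u₀ + fun x => if 0 ≤ x.2 then up x else um x))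
        (gr D (edF ed) f - (u₀ + fun x => if 0 ≤ x.2 then up x else um x)) ≤ ε

set_option maxHeartbeats 800000 in
theorem p0SStmt : P0SStmt := by
  intro k K W ε hε
  obtain ⟨ε', hε'⟩ : ∃ ε', ε' = √ε / 4 := ⟨_, rfl⟩
  have ε0 : 0 < ε' := by rw [hε']; positivity
  obtain ⟨B, hB⟩ : ∃ B, B = 2 * |K| := ⟨_, rfl⟩
  have B0 : 0 ≤ B := by rw [hB]; positivity
  obtain ⟨M, C, M1, C0, htip⟩ := tip (δ := ε' ^ 2 / (8 * (B ^ 2 + 1))) (by positivity)
  obtain ⟨Cm, Cm0, hm⟩ := sm_mol 2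
  obtain ⟨N, hN⟩ := exists_nat_ge (1 + 10 * |W| + 36 * M ^ 2 * |K| * B / ε' ^ 2)
  have hN0 : 0 ≤ 36 * M ^ 2 * |K| * B / ε' ^ 2 := by positivity
  have hW0 := abs_nonneg W
  have N1' : (1 : ℝ) ≤ N := by linarith
  have N1 : 1 ≤ N := by exact_mod_cast N1'
  obtain ⟨C₀, hC₀⟩ : ∃ C₀, C₀ = 2 ^ 2 * (2 ^ 2 * (|1| + C) * (|1| + C)) * (|1| + Cm * (6 * N) ^ 2) := ⟨_, rfl⟩
  have C₀0 : 0 ≤ C₀ := by rw [hC₀]; positivity
  obtain ⟨K', L₀, K1, hP⟩ := p0L2 k (18 * (C₀ * |K| + B * (2 * (C₀ * (2 * N) ^ 2))) ^ 2 +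
    32 * (C₀ * (2 * N)) ^ 2 * (2 * (9 * |K| * B))) N ε0
  refine ⟨K', max L₀ N, K1, fun z L s D a b ed hL hD hW hE h hQ f hf => ?_⟩
  obtain ⟨t1, t2, t3⟩ := scale N1 ((le_max_right _ _).trans hL)
  generalize L / N = t at t1 t2 t3
  have L1 : 1 ≤ L := N1.trans ((le_max_right _ _).trans hL)
  have L1' : (1 : ℝ) ≤ L := by exact_mod_cast L1
  have L0 : (0 : ℝ) < L := by linarith
  have t0 : (0 : ℝ) < t := by exact_mod_cast t1
  have ts : 10 * t ≤ s := by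
    have h1 : (L : ℝ) ≤ |W| * s := hW.trans (mul_le_mul_of_nonneg_right (le_abs_self _) (Nat.cast_nonneg _))
    have h2 : (10 * t : ℝ) * N ≤ s * N := by
      nlinarith [mul_le_mul_of_nonneg_right (show 10 * |W| ≤ N by linarith) (Nat.cast_nonneg (α := ℝ) s)]
    exact_mod_cast le_of_mul_le_mul_right h2 (by linarith)
  have co := h.co hD
  set u := gr D (edF ed) f with hu
  have su : Sup D u := co.gr_sup f
  have hf' : ∀ x ∈ D, |f x| ≤ |K| / (L : ℝ) ^ 2 := fun x hx =>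
    (hf x hx).trans (by gcongr; exact le_abs_self _)
  have bu : ∀ x, |u x| ≤ B := fun x => (h.sup hD (by positivity) hf' x).trans (by
    rw [hB, div_le_iff₀ two_pos, div_mul_eq_mul_div, div_le_iff₀ (by positivity)]
    nlinarith [mul_le_mul_of_nonneg_left (show ((L : ℝ) + 1) ^ 2 ≤ 4 * L ^ 2 by nlinarith) (abs_nonneg K)])
  have test : ∀ (T : Finset Pt) (φ : Pt → ℝ), Sup T φ → Sup D φ → (∀ x, |φ x| ≤ B) →
      edF ed u φ ≤ T.card * (|K| / (L : ℝ) ^ 2 * B) := fun T φ h1 h2 h3 => by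
    rw [co.gr_spec f h2, ip_of_sup (inter_subset_left (s₂ := T)) f fun x hx => by
      by_contra hn; exact hx (mem_inter.2 ⟨by_contra fun h => hn (h2 x h), by_contra fun h => hn (h1 x h)⟩)]
    refine (sum_le_card_nsmul _ _ (|K| / (L : ℝ) ^ 2 * B) fun x hx => (le_abs_self _).trans ?_).trans ?_
    · rw [abs_mul]
      exact mul_le_mul (hf' x (mem_inter.1 hx).1) (h3 x) (abs_nonneg _) (by positivity)
    · rw [nsmul_eq_mul]
      exact mul_le_mul_of_nonneg_right (by exact_mod_cast card_le_card inter_subset_right) (by positivity)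
  have Eu : edF ed u u ≤ 9 * |K| * B := (test D u su su bu).trans
    ((mul_le_mul_of_nonneg_right (sqrt_card_le hD L1) (by positivity)).trans_eq (by field_simp; ring))
  have hen : ∀ e ∈ nL.Jp, ∀ (T : Finset Pt) (c : Pt → Pt), Function.Injective c →
      (∀ x ∈ T, (c x ∈ D ∨ c x + e ∈ D) ∧ ¬ (a ≤ (c x).1 ∧ (c x).1 < b ∧ (c x).2 = -1 ∧ e.2 = 1)) →
      ∑ x ∈ T, dif e u (c x) ^ 2 ≤ 9 * |K| * B := fun e he T c hc hT =>
    (sum_le_edF (fun x => (c x, c x + e)) (fun x y h => hc (congrArg Prod.fst h)) (fun x hx => h.mem.2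
      ⟨by simpa using he, (hT x hx).1, by have := (hT x hx).2; simp only [Prod.snd_add]; omega⟩) u).trans Eu
  obtain ⟨η₁, a1, a2, a3, a4, a5⟩ := htip (a, 0) t t1
  obtain ⟨η₂, b1, b2, b3, b4, b5⟩ := htip (b, 0) t t1
  set θ : Pt → ℝ := fun x => (1 - η₁ x) * (1 - η₂ x) with hθ
  have θ1 : ∀ x, 0 ≤ θ x ∧ θ x ≤ 1 := fun x => by
    have := a1 x; have := b1 x; simp only [hθ]; constructor <;> nlinarith
  have Ec : √(edF ed (fun x => (1 - θ x) * u x) fun x => (1 - θ x) * u x) ≤ ε' := by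
    rw [Real.sqrt_le_left ε0.le, edF_cacc]
    have h1 := test (bl (a, 0) (M * t) ∪ bl (b, 0) (M * t)) (fun x => (1 - θ x) ^ 2 * u x)
      (fun x hx => by
        rw [mem_union, not_or] at hx
        simp [hθ, a3 x hx.1, b3 x hx.2]) (su.mul _) fun x => by
        rw [abs_mul, abs_of_nonneg (sq_nonneg _)]
        exact (mul_le_of_le_one_left (abs_nonneg _) (by have := θ1 x; nlinarith)).trans (bu x)
    have h2 : ((bl (a, 0) (M * t) ∪ bl (b, 0) (M * t)).card : ℝ) ≤ 18 * M ^ 2 * t ^ 2 := by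
      have h3 := fun p : Pt => sqrt_card_le (z := p) subset_rfl (Nat.mul_pos M1 t1)
      have h4 : ((bl (a, 0) (M * t) ∪ bl (b, 0) (M * t)).card : ℝ) ≤
          (bl (a, 0) (M * t)).card + (bl (b, 0) (M * t)).card := by exact_mod_cast card_union_le _ _
      have := h3 (a, 0); have := h3 (b, 0)
      push_cast at *; linarith
    have h3 : 18 * M ^ 2 * t ^ 2 * (|K| / (L : ℝ) ^ 2 * B) ≤ ε' ^ 2 / 2 := by
      have h4 : 36 * M ^ 2 * |K| * B / ε' ^ 2 ≤ N := by linarith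
      rw [div_le_iff₀ (by positivity)] at h4
      have h5 : (t : ℝ) ^ 2 * N ≤ L ^ 2 := by nlinarith [pow_le_pow_left₀ (by positivity) t2 2]
      rw [div_mul_eq_mul_div, mul_div_assoc', div_le_iff₀ (by positivity)]
      nlinarith [mul_le_mul_of_nonneg_left h4 (sq_nonneg (t : ℝ)), mul_le_mul_of_nonneg_left h5 (sq_nonneg ε')]
    have h4 : ∑ e ∈ ed, (1 - θ e.2 - (1 - θ e.1)) ^ 2 * (u e.1 * u e.2) ≤
        B ^ 2 * (2 * edF ed η₁ η₁ + 2 * edF ed η₂ η₂) := by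
      rw [edF_self, edF_self, mul_sum, mul_sum, ← sum_add_distrib, mul_sum]
      refine sum_le_sum fun e _ => ?_
      rw [mul_comm]
      refine mul_le_mul ((le_abs_self _).trans ?_) (sq_prod (a1 _) (b1 _)) (sq_nonneg _) (sq_nonneg _)
      rw [abs_mul, pow_two]
      exact mul_le_mul (bu _) (bu _) (abs_nonneg _) B0
    have h5 := (edF_le (fun e he => (h.mem.1 he).1) ⟨_, a3⟩).trans a4
    have h6 := (edF_le (fun e he => (h.mem.1 he).1) ⟨_, b3⟩).trans b4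
    have h7 : B ^ 2 * (4 * (ε' ^ 2 / (8 * (B ^ 2 + 1)))) ≤ ε' ^ 2 / 2 := by
      rw [mul_div_assoc', mul_div_assoc', div_le_iff₀ (by positivity)]; nlinarith
    have h8 := mul_le_mul_of_nonneg_right h2 (show 0 ≤ |K| / (L : ℝ) ^ 2 * B by positivity)
    nlinarith [mul_le_mul_of_nonneg_left (add_le_add h5 h6) (sq_nonneg B)]
  set Q := Ico (a + 4 * t) (b - 4 * t) ×ˢ Icc (-(6 * t : ℤ)) (6 * t) with hQ'
  set D₁ := Ico (a + 2 * t) (b - 2 * t) ×ˢ Icc (-(8 * t : ℤ)) (8 * t) with hD₁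
  set D₀ := D \ Icc (a - 4 * t) (b + 4 * t) ×ˢ Icc (-((4 * t : ℕ) : ℤ)) (4 * t : ℕ) with hD₀
  have mQ : ∀ x : Pt, x ∈ Q ↔ (a + 4 * t ≤ x.1 ∧ x.1 < b - 4 * t) ∧ -(6 * t : ℤ) ≤ x.2 ∧ x.2 ≤ 6 * t :=
    fun x => by simp only [hQ', mem_product, mem_Ico, mem_Icc]
  have m1 : ∀ x : Pt, x ∈ D₁ ↔ (a + 2 * t ≤ x.1 ∧ x.1 < b - 2 * t) ∧ -(8 * t : ℤ) ≤ x.2 ∧ x.2 ≤ 8 * t :=
    fun x => by simp only [hD₁, mem_product, mem_Ico, mem_Icc]
  have m0 : ∀ x : Pt, x ∈ D₀ ↔ x ∈ D ∧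
      ¬ ((a - 4 * t ≤ x.1 ∧ x.1 ≤ b + 4 * t) ∧ -(4 * t : ℤ) ≤ x.2 ∧ x.2 ≤ 4 * t) :=
    fun x => by simp only [hD₀, mem_sdiff, mem_product, mem_Icc]; push_cast; rfl
  have s1 : D₁ ⊆ D := fun x hx => by rw [m1] at hx; apply hQ <;> omega
  have sQ : Q ⊆ D := fun x hx => by rw [mQ] at hx; apply hQ <;> omega
  set ζ := mol t (on Q 1) with hζ
  have ζ0 : ∀ x, x ∉ D₁ → ζ x = 0 := fun x hx => by_contra fun hn => by
    obtain ⟨y, h1, h2⟩ := mol_ne hn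
    have := (mQ y).1 (by_contra fun h => h2 (on_of_not h))
    rw [m1] at hx; rw [mem_bl] at h1; omega
  have sζ : Sm 2 Set.univ (Cm * (6 * N) ^ 2) t ζ := (hm t Q _ t1 (sup_on _ _)).mono le_rfl subset_rfl (by
    rw [div_le_iff₀ (by positivity), mul_assoc]
    refine mul_le_mul_of_nonneg_left ((sum_le_card_nsmul _ _ 1 fun x hx => ?_).trans ?_) Cm0
    · rw [on_of_mem hx]; simp
    · rw [nsmul_eq_mul, mul_one, ← mul_pow]
      exact (sqrt_card_le (sQ.trans hD) L1).trans (pow_le_pow_left₀ (by positivity) (by linarith) 2)) t0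
  have one := Sm.const 2 Set.univ t0 1
  have sθ := (one.sub a5).mul_univ t0 (one.sub b5)
  have k0 : Sm 2 Set.univ C₀ t fun x => θ x * (1 - ζ x) := hC₀ ▸ sθ.mul_univ t0 (one.sub sζ)
  have k1 : Sm 2 Set.univ C₀ t fun x => θ x * ζ x := hC₀ ▸ sθ.mul_univ t0
    (sζ.mono le_rfl subset_rfl (le_add_of_nonneg_left (abs_nonneg _)) t0)
  have main : ∀ (T : Finset Pt) (ϑ w : Pt → ℝ), T ⊆ D → Ext T (4 * t) → Sm 2 Set.univ C₀ t ϑ →
      Sup T (fun x => ϑ x * w x) → (∀ x ∈ T, |lap w x| ≤ |K| / (L : ℝ) ^ 2) → (∀ x, |w x| ≤ B) →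
      (∀ e ∈ nn, ∑ x ∈ T, dif e w x ^ 2 ≤ 2 * (9 * |K| * B)) →
      ∃ v, Sm k Set.univ K' L v ∧ (∀ x, v x ≠ 0 → bl x (L / K') ⊆ T) ∧
        √(EJ nL ((fun x => ϑ x * w x) - v)) ≤ ε' := fun T ϑ w h1 h2 h3 h4 h5 h6 h7 => by
    refine hP z L (4 * t) T ((le_max_left _ _).trans hL) (h1.trans hD) (by push_cast; nlinarith) h2 _ h4
      ((prod_bd h3 h5 h6 h7).trans ?_)
    have h8 : C₀ / t ≤ C₀ * (2 * N) / L := by
      rw [div_le_div_iff₀ t0 L0, mul_assoc]; exact mul_le_mul_of_nonneg_left t3 C₀0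
    have h9 : C₀ / (t : ℝ) ^ 2 ≤ C₀ * (2 * N) ^ 2 / L ^ 2 := by
      rw [div_le_div_iff₀ (by positivity) (by positivity), mul_assoc, ← mul_pow]
      exact mul_le_mul_of_nonneg_left (pow_le_pow_left₀ L0.le t3 2) C₀0
    have h10 := sqrt_card_le (h1.trans hD) L1
    calc _ ≤ 2 * (3 * (L : ℝ)) ^ 2 * (C₀ * (|K| / L ^ 2) + B * (2 * (C₀ * (2 * N) ^ 2 / L ^ 2))) ^ 2 +
          32 * (C₀ * (2 * N) / L) ^ 2 * (2 * (9 * |K| * B)) := by gcongr
      _ = _ := by field_simp; ring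
  have KB : 9 * |K| * B ≤ 2 * (9 * |K| * B) := by linarith [show 0 ≤ 9 * |K| * B by positivity]
  have off : ∀ x ∈ D, ¬ (a ≤ x.1 ∧ x.1 < b ∧ -1 ≤ x.2 ∧ x.2 ≤ 0) → |lap u x| ≤ |K| / (L : ℝ) ^ 2 :=
    fun x hx h1 => by rw [← abs_neg, ← h.op_off u hx h1, co.op_gr f hx]; exact hf' x hx
  obtain ⟨u₀, p1, p2, p3⟩ := main D₀ _ u sdiff_subset (ext_sd hE (by omega) _ _) k0 (fun x hx => by
      by_cases h0 : x ∈ D
      · rw [m0] at hx
        simp only [h0, true_and, not_not] at hx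
        by_cases h1 : x.1 < a + 6 * t
        · simp [hθ, a2 x (by simp only [mem_bl]; omega)]
        by_cases h2 : b - 6 * t ≤ x.1
        · simp [hθ, b2 x (by simp only [mem_bl]; omega)]
        · simp [hζ, mol_one t1 (x := x) (v := on Q 1) fun y hy =>
            on_of_mem ((mQ y).2 (by rw [mem_bl] at hy; omega))]
      · simp [su x h0])
    (fun x hx => off x (m0 x |>.1 hx).1 (by have := (m0 x |>.1 hx).2; omega)) bu fun e he => by
      have pos : ∀ e ∈ nL.Jp, ∑ x ∈ D₀, dif e u x ^ 2 ≤ 2 * (9 * |K| * B) := fun e he =>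
        (hen e he D₀ id (fun _ _ h => h) fun x hx => ⟨Or.inl (m0 x |>.1 hx).1, by
          have := (m0 x |>.1 hx).2; simp only [id]; omega⟩).trans KB
      have neg : ∀ e ∈ nL.Jp, ∑ x ∈ D₀, dif (-e) u x ^ 2 ≤ 2 * (9 * |K| * B) := fun e he =>
        (sum_congr rfl fun x _ => by simp only [dif, neg_add_cancel_right]; ring).trans_le
          ((hen e he D₀ (· + -e) (add_left_injective _) fun x hx => ⟨Or.inr (by simpa using (m0 x |>.1 hx).1), by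
            have := (m0 x |>.1 hx).2
            rw [nL_Jp, mem_insert, mem_singleton] at he
            rcases he with rfl | rfl <;> simp <;> omega⟩).trans KB)
      simp only [nn, mem_insert, mem_singleton] at he
      rcases he with rfl | rfl | rfl | rfl
      exacts [pos _ (by simp [nL_Jp]), neg (1, 0) (by simp [nL_Jp]), pos _ (by simp [nL_Jp]),
        neg (0, 1) (by simp [nL_Jp])]
  have side : ∀ U : Pt → ℝ, (∀ x, |U x| ≤ B) →
      (∀ i j : ℤ, a ≤ i → i < b → 1 ≤ j → j ≤ 8 * t → |lap U (i, j)| ≤ |K| / (L : ℝ) ^ 2) →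
      (∀ i : ℤ, a ≤ i → i < b → |lap U (i, 0) + (U (i, 0) - U (i, -1))| ≤ |K| / (L : ℝ) ^ 2) →
      (∀ e ∈ nL.Jp, ∀ T : Finset Pt, (∀ x ∈ T, a - 1 ≤ x.1 ∧ x.1 < b ∧ 0 ≤ x.2 ∧ x.2 ≤ 8 * t) →
        ∑ x ∈ T, dif e U x ^ 2 ≤ 9 * |K| * B) → ∃ v, Sm k Set.univ K' L v ∧
      (∀ x, v x ≠ 0 → bl x (L / K') ⊆ D₁) ∧ ∀ c : Pt → ℝ, (∀ x, |c x| ≤ 1) →
        (∀ x y : Pt, (0 ≤ x.2 ↔ 0 ≤ y.2) → c x = c y) →
        √(edF ed (fun x => c x * (θ x * ζ x * U (fo x) - v x)) fun x => c x * (θ x * ζ x * U (fo x) - v x)) ≤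
          ε' := fun U h1 h2 h3 h4 => by
    have h5 : Sup D₁ fun x => θ x * ζ x * (U ∘ fo) x := fun x hx => by simp [ζ0 x hx]
    obtain ⟨v, q1, q2, q3⟩ := main D₁ _ (U ∘ fo) s1 (ext_rc _ _ _ _ _) k1 h5 (fun x hx => by
      rw [m1] at hx
      exact lap_fo (h := 8 * t) (fun j => h2 _ j (by omega) (by omega)) (h3 _ (by omega) (by omega))
        hx.2.1 hx.2.2) (fun x => h1 _) (en_fo h4 fun x hx => by rw [m1] at hx; omega)
    have h6 : Sup D₁ v := fun x hx => by_contra fun hn => hx (q2 x hn (self_mem_bl _ _))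
    refine ⟨v, q1, q2, fun c c1 c2 => (Real.sqrt_le_sqrt (h.half c1 c2 ⟨_, h5.sub h6⟩ fun x hx => ?_)).trans q3⟩
    have := (m1 x).1 (by_contra fun hn => hx (h5.sub h6 x hn))
    omega
  obtain ⟨up, q1, q2, q3⟩ := side u bu (fun i j h1 h2 h3 h4 => off _ (by apply hQ <;> simp only <;> omega)
    (by simp only; omega)) (fun i h1 h2 => by
      have hx : ((i, 0) : Pt) ∈ D := by apply hQ <;> simp only <;> omega
      have := h.op_on u h1 h2 hx (Or.inl rfl)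
      rw [co.op_gr f hx] at this
      refine le_of_eq_of_le (abs_eq_abs.2 (Or.inr ?_)) (hf' _ hx)
      simp [dl] at this; linarith)
    fun e he T hT => hen e he T id (fun _ _ h => h) fun x hx => by
      have := hT x hx
      exact ⟨Or.inl (by apply hQ <;> simp only [id] <;> omega), by simp only [id]; omega⟩
  obtain ⟨um, r1, r2, r3⟩ := side (u ∘ rf) (fun x => bu _) (fun i j h1 h2 h3 h4 => by
      rw [lap_rf]
      exact off _ (by apply hQ <;> simp only [rf] <;> omega) (by simp only [rf]; omega)) (fun i h1 h2 => by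
      have hx : ((i, -1) : Pt) ∈ D := by apply hQ <;> simp only <;> omega
      have := h.op_on u h1 h2 hx (Or.inr rfl)
      rw [co.op_gr f hx] at this
      refine le_of_eq_of_le (abs_eq_abs.2 (Or.inr ?_)) (hf' _ hx)
      rw [lap_rf]
      simp [dl, rf] at this ⊢; linarith)
    fun e he T hT => by
      refine le_of_eq_of_le (sum_congr rfl fun x _ => ?_) (hen e he T (fun x => (x.1, -1 - e.2 - x.2))
        (fun x y h => by simp only [Prod.ext_iff] at *; omega) fun x hx => ?_) <;>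
        rw [nL_Jp, mem_insert, mem_singleton] at he
      · rcases he with rfl | rfl
        · simp [dif, rf]
        · simp only [dif, rf, Function.comp, Prod.fst_add, Prod.snd_add, Prod.mk_add_mk]
          rw [show -1 - 1 - x.2 + 1 = -1 - x.2 by ring, show -1 - (x.2 + 1) = -1 - 1 - x.2 by ring, add_zero]
          ring
      · have := hT x hx
        exact ⟨Or.inl (by rcases he with rfl | rfl <;> apply hQ <;> simp only <;> omega), by simp only; omega⟩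
  refine ⟨u₀, up, um, p1, q1, r1, fun x hx y hy => ?_, fun x hx y hy => ?_, ?_⟩
  · have := (m0 y).1 (p2 x hx hy)
    exact ⟨this.1, by omega⟩
  · have := (m1 y).1 (hx.elim (q2 x · hy) (r2 x · hy))
    omega
  · have su₀ : Sup D u₀ := fun x hx => by_contra fun hn => hx ((m0 x).1 (p2 x hn (self_mem_bl _ _))).1
    have e1 := (Real.sqrt_le_sqrt (edF_le (fun e he => (h.mem.1 he).1) ⟨D, (su.mul _).sub su₀⟩)).trans p3
    have e2 := q3 (fun x => if 0 ≤ x.2 then 1 else 0) (fun x => by split_ifs <;> simp)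
      fun x y h => by simp only [h]
    have e3 := r3 (fun x => if 0 ≤ x.2 then 0 else 1) (fun x => by split_ifs <;> simp)
      fun x y h => by simp only [h]
    have e : (u - (u₀ + fun x => if 0 ≤ x.2 then up x else um x)) =
        ((fun x => (1 - θ x) * u x) + ((fun x => θ x * (1 - ζ x) * u x) - u₀)) +
        ((fun x => (if 0 ≤ x.2 then 1 else 0) * (θ x * ζ x * u (fo x) - up x)) +
          fun x => (if 0 ≤ x.2 then 0 else 1) * (θ x * ζ x * (u ∘ rf) (fo x) - um x)) := by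
      funext x
      simp only [Pi.add_apply, Pi.sub_apply, Function.comp]
      by_cases hx : 0 ≤ x.2
      · simp only [if_pos hx, fo_pos hx]; ring
      · simp only [if_neg hx, fo_neg hx, rf_rf]; ring
    rw [e, ← Real.sqrt_le_sqrt_iff hε.le]
    refine ((sy_edF ed).sqrt_add _ _).trans ((add_le_add (((sy_edF ed).sqrt_add _ _).trans (add_le_add Ec e1))
      (((sy_edF ed).sqrt_add _ _).trans (add_le_add e2 e3))).trans_eq ?_)
    rw [hε']; ring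

end Crest.Agent.T145.Pot
end

-- ▼ part T145/KvP0b_75
section

/-! # Row 145, module Kv: P0 in the slit condenser (helper75) -/

set_option autoImplicit false

namespace Crest.Agent.T145.Kv

open Finset Real
open Pot (edF gr)

theorem Gv.sl_EA {V : Gv} (h : V.Geo) :
    Pot.S75.Sl V.G.A (V.G.rho - 4 * V.ω) (V.G.rho + 4 * V.ω) V.EA := fun e => by
  have := h.ω_le
  rw [Gv.EA, Gv.kp, mem_filter]
  refine and_congr_right fun _ => ?_
  obtain ⟨⟨a, b⟩, c, d⟩ := e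
  simp only [Gv.s1, Gv.s2, Vd.ray, Prod.mk.injEq, Prod.fst_zero, Prod.snd_zero]
  constructor
  · rintro h1 ⟨i, h2, h3, ⟨rfl, rfl⟩, rfl, rfl⟩
    rw [if_pos (by omega), if_neg (by omega), if_neg (by omega)] at h1
    omega
  · intro h1
    split_ifs with h2 h3 h4 h5 <;> first | rfl | omega | exact (h1 ⟨a, by omega⟩).elim

theorem p0Stmt (hG : GeoStmt) : P0Stmt := by
  intro W K ε j hε
  obtain ⟨K', L₀, K1, hP⟩ := Pot.p0SStmt 2 K (64 * 2 ^ j + 2 * |W|) ε hε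
  refine ⟨K', L₀, by exact_mod_cast K1, fun V hV hj hL f hf => ?_⟩
  have g := hG V W hV
  have h1 := g.r_le; have h2 := g.rho_le; have h3 := g.ω_le; have h4 := g.ω16
  have hE : Pot.Ext V.G.A (min V.ω V.G.r) := fun x hx =>
    (Pot.ext_an 0 V.G.r V.G.R x hx).imp fun e he => ⟨he.1, fun i hi => he.2 i (hi.trans (min_le_right _ _))⟩
  have hW : (V.G.R : ℝ) ≤ (64 * 2 ^ j + 2 * |W|) * (min V.ω V.G.r : ℕ) := by
    have h5 : (V.G.R : ℝ) ≤ 64 * (2 ^ j * V.ω) := by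
      have := g.le_rho; rw [g.rho_eq, hj] at this; exact_mod_cast this
    have h6 := hV.g.hi.trans (mul_le_mul_of_nonneg_right
      (mul_le_mul_of_nonneg_left (le_abs_self W) two_pos.le) (Nat.cast_nonneg _))
    rcases le_total V.ω V.G.r with h | h
    · rw [min_eq_left h]; nlinarith [mul_nonneg (abs_nonneg W) (Nat.cast_nonneg (α := ℝ) V.ω)]
    · rw [min_eq_right h]
      nlinarith [mul_nonneg (show (0 : ℝ) ≤ 2 ^ j by positivity) (Nat.cast_nonneg (α := ℝ) V.G.r)]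
  obtain ⟨u₀, u₁, u₂, a0, a1, a2, b0, b1, e⟩ := hP 0 V.G.R _ V.G.A _ _ V.EA hL sdiff_subset hW hE
    (Gv.sl_EA g) (fun x _ _ _ _ => by
      simp only [Kr.Gm.A, Nc.an, mem_sdiff, mem_bl, Prod.fst_zero, Prod.snd_zero]; omega) f hf
  have fl : ⌊(V.G.R : ℝ) / (K' : ℝ)⌋₊ = V.G.R / K' := Nat.floor_div_eq_div _ _
  have mu : ∀ x : Pt, x ∈ V.up ↔ ((V.G.rho : ℤ) - 4 * V.ω ≤ x.1 ∧ x.1 < V.G.rho + 4 * V.ω) ∧
      0 ≤ x.2 ∧ x.2 < 8 * V.ω := fun x => by rw [Gv.up, mem_sq]; push_cast; omega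
  have ml : ∀ x : Pt, x ∈ V.lo ↔ ((V.G.rho : ℤ) - 4 * V.ω ≤ x.1 ∧ x.1 < V.G.rho + 4 * V.ω) ∧
      -(8 * V.ω : ℤ) ≤ x.2 ∧ x.2 < 0 := fun x => by rw [Gv.lo, mem_sq]; push_cast; omega
  have sm : ∀ u, Pot.Sm 2 Set.univ K' V.G.R u → Sm2 u K' V.G.R ∧ ∀ x, |u x| ≤ K' := fun u hu =>
    ⟨hu.sm2 le_rfl, fun x => by simpa [Pot.difs] using hu [] (by simp) (by simp) x trivial⟩
  refine ⟨![u₀, u₁, u₂], ⟨fun i => ?_, fun x hx y hy => ?_, fun x hx y hy => ?_⟩, ?_⟩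
  · fin_cases i
    exacts [sm _ a0, sm _ a1, sm _ a2]
  · have := b0 x hx y (fl ▸ hy)
    rw [mem_sdiff, Gv.lip, mem_filter, mem_union, mu, ml]
    exact ⟨this.1, by omega⟩
  · have := b1 x hx y (fl ▸ hy)
    rw [mem_union, mu, ml]; omega
  · have : V.glue ![u₀, u₁, u₂] = u₀ + fun x => if 0 ≤ x.2 then u₁ x else u₂ x := by
      funext x
      have h5 := fun h => b1 x h x (self_mem_bl _ _)
      show u₀ x + Pot.on V.up u₁ x + Pot.on V.lo u₂ x = u₀ x + if 0 ≤ x.2 then u₁ x else u₂ x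
      rw [add_assoc]
      congr 1
      split_ifs with h
      · rw [Pot.on_of_not (K := V.lo) (by rw [ml]; omega), add_zero]
        by_cases h6 : x ∈ V.up
        · exact Pot.on_of_mem h6
        · rw [Pot.on_of_not h6]
          exact (by_contra fun hn => h6 (by have := h5 (Or.inl hn); rw [mu]; omega) : u₁ x = 0).symm
      · rw [Pot.on_of_not (K := V.up) (by rw [mu]; omega), zero_add]
        by_cases h6 : x ∈ V.lo
        · exact Pot.on_of_mem h6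
        · rw [Pot.on_of_not h6]
          exact (by_contra fun hn => h6 (by have := h5 (Or.inr hn); rw [ml]; omega) : u₂ x = 0).symm
    rwa [this]

end Crest.Agent.T145.Kv
end

-- ▼ part T145/XW_49
section

/-!
# Row 145: weights of the extended lattice (seams with free fluxes, slits) (helper49)

`xw Λ A ed g s = 1{s = 0 off A} ∏_{e ∈ ed} w (g e s)` for arbitrary homomorphisms `g e`.
-/

set_option autoImplicit false

namespace Crest.Agent.T145.Xw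

open Finset

section grp
variable {G L : Type} [AddCommGroup G] [AddCommGroup L] [IsAddTorsionFree L] {ρ H : G → ℝ} {W : L → ℝ}

/-- a weight with a PD density over `W ∘ π` -/
theorem M_dens (π : G →+ L) (hρ : Cen ρ) (hW : Cen W) (hH : PD H) (h0 : ∀ s, 0 ≤ H s) (hp : 0 < H 0)
    (hne : ∀ s, W (π s) ≠ 0) (e : ∀ s, ρ s = H s * W (π s)) (φ : L →+ ℝ) : M ρ (φ.comp π) ≤ M W φ := by
  obtain ⟨h1, h2, h3⟩ := Cut7.dens pdStmt π hH h0 hp hne e hρ.wt.summ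
  exact (congrArg Real.log (Cut7.dens_ex π e hρ.wt.summ (F := fun t => Real.exp (φ t))
    (hρ.se (φ.comp π))).2).trans_le ((hW.loc_mul h1 h2 h3).1 φ)

theorem Vr_dens (π : G →+ L) (hρ : Cen ρ) (hW : Cen W) (hH : PD H) (h0 : ∀ s, 0 ≤ H s) (hp : 0 < H 0)
    (hne : ∀ s, W (π s) ≠ 0) (e : ∀ s, ρ s = H s * W (π s)) (φ : L →+ ℝ) :
    Vr ρ (φ.comp π) (φ.comp π) ≤ Vr W φ φ :=
  Vr_le_of_M_le hW.wt hW.se hW.even hρ.wt hρ.se hρ.even fun t =>
    M_dens π hρ hW hH h0 hp hne e (t • φ)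


end grp

section root
variable {V : Type} [DecidableEq V] {ρ : Cfg V → ℝ} {A : Finset V} {r : V}

/-- any partition of unity along the zero mode replaces the root -/
theorem root (hr : r ∈ A) (inv : ∀ s i, ρ (s + cst A i) = ρ s) (hW : Wt fun s => ρ s * ind (s r = 0))
    {U : Cfg V → ℝ} (hU0 : ∀ s, 0 ≤ U s) (hU : ∀ s, HasSum (fun h : ℤ => U (s + cst A h)) 1) :
    (Wt (fun s => U s * ρ s) ∧ Zs (fun s => U s * ρ s) = Zs fun s => ρ s * ind (s r = 0)) ∧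
    ∀ F : Cfg V → ℝ, (∀ s h, F (s + cst A h) = F s) → Ig (fun s => ρ s * ind (s r = 0)) F →
      Ig (fun s => U s * ρ s) F ∧ Ex (fun s => U s * ρ s) F = Ex (fun s => ρ s * ind (s r = 0)) F := by
  have hr0 : ∀ t : Cfg V, ρ t * ind (t r = 0) ≠ 0 → t r = 0 := fun t ht => by
    by_contra h; exact ht (mul_eq_zero_of_right _ (ind_neg h))
  have sh : ∀ s : Cfg V, ρ (s - cst A (s r)) * ind ((s - cst A (s r)) r = 0) = ρ s := fun s => by
    rw [ind_pos (by rw [Finsupp.sub_apply, Md.cst_mem hr, sub_self]), mul_one, sub_eq_add_neg,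
      ← Md.cst_neg, inv]
  have hZ := X56.hasSum_root hr hU0 hU hW.summ hr0
  simp only [sh] at hZ
  have hZ' : Zs (fun s => U s * ρ s) = Zs fun s => ρ s * ind (s r = 0) := hZ.tsum_eq
  refine ⟨⟨⟨fun s => mul_nonneg (hU0 s) ?_, hZ.summable, by rw [hZ']; exact hW.pos⟩, hZ'⟩,
    fun F hF hI => ?_⟩
  · rw [← sh]; exact hW.nonneg _
  · have h2 := X56.hasSum_root hr hU0 hU hI fun t ht => hr0 t (left_ne_zero_of_mul ht)
    have h3 : ∀ s : Cfg V, F (s - cst A (s r)) = F s := fun s => by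
      rw [sub_eq_add_neg, ← Md.cst_neg, hF]
    simp only [sh, h3, ← mul_assoc] at h2
    exact ⟨h2.summable, by rw [Ex_def, Ex_def, hZ', h2.tsum_eq]⟩

end root



variable {Λ : Lat} {A U Ω Ω' : Finset Pt} {ed E : Finset (Pt × Pt)} {g : Pt × Pt → Cfg Pt →+ ℤ}

theorem w_pos (hΛ : Λ.Ok) (k : ℤ) : 0 < Λ.w k := (kerStmt _ hΛ.fam).lc.1 k





theorem pd_edges (hΛ : Λ.Ok) (E : Finset (Pt × Pt)) : PD fun s : Cfg Pt => ∏ e ∈ E, Λ.w (dE e s) :=
  PD.prod (F := fun e s => Λ.w (dE e s)) fun e _ => (kerStmt _ hΛ.fam).pd.comp (Cut7.dH e)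







theorem prj_W (Λ : Lat) {B : Finset Pt} (a : Pt) (s : Cfg Pt) :
    (Λ.Nr B a).W 0 (Cut7.prjH {()} (fun _ => B) (fun _ => a) s) = ∏ e ∈ Λ.edI B, Λ.w (dE e s) := by
  have hd : ∀ i ∈ ({()} : Finset Unit), ∀ j ∈ ({()} : Finset Unit), i ≠ j → Disjoint B B :=
    fun _ _ _ _ h => absurd rfl h
  rw [Cut7.prjH_apply, Mdl.W, ind_pos fun x hx => ?_, one_mul]
  · change (∏ e ∈ Λ.edI B, Λ.w _) * ∏ _x ∈ B.erase a, (1 : ℝ) = _
    rw [prod_const_one, mul_one]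
    refine prod_congr rfl fun e he => ?_
    obtain ⟨-, h1, h2⟩ := Lat.mem_edI.1 he
    rw [dE, dE, Cut7.prj_mem hd (mem_singleton_self _) h1, Cut7.prj_mem hd (mem_singleton_self _) h2]
    congr 1; ring
  · by_cases h : x ∈ B
    · obtain rfl : x = a := by_contra fun hne => hx (mem_erase.2 ⟨hne, h⟩)
      rw [Cut7.prj_mem hd (mem_singleton_self _) h, sub_self]; rfl
    · exact Cut7.prj_not (fun _ _ => h) s

/-- a weight containing the edges of `B` is more localised than the free model on `B` -/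
theorem vr_free (hΛ : Λ.Ok) {ρ : Cfg Pt → ℝ} (hρ : Cen ρ) {H : Cfg Pt → ℝ} (hH : PD H) (h0 : ∀ s, 0 ≤ H s)
    (hp : 0 < H 0) (e : ∀ s, ρ s = H s * ∏ e ∈ Λ.edI Ω', Λ.w (dE e s)) {B : Finset Pt} {a : Pt}
    (hB : B ⊆ Ω') (hN : Cen ((Λ.Nr B a).W 0)) {f : Pt → ℝ} (f0 : Sup B f) (f1 : ∑ x ∈ B, f x = 0) :
    Vr ρ (pr f) (pr f) ≤ Vr ((Λ.Nr B a).W 0) (pr f) (pr f) := by
  have hE := Lat.edI_mono (Λ := Λ) hB
  have := Vr_dens (H := fun s => H s * ∏ e ∈ Λ.edI Ω' \ Λ.edI B, Λ.w (dE e s))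
    (Cut7.prjH {()} (fun _ => B) fun _ => a) hρ hN
    (hH.mul (pd_edges hΛ _))
    (fun s => mul_nonneg (h0 s) (prod_nonneg fun _ _ => (w_pos hΛ _).le))
    (mul_pos hp (prod_pos fun _ _ => w_pos hΛ _))
    (fun s => by rw [prj_W]; exact (prod_pos fun _ _ => w_pos hΛ _).ne')
    (fun s => by rw [prj_W, e, ← prod_sdiff hE, mul_assoc]) (pr f)
  have e2 : (pr f).comp (Cut7.prjH {()} (fun _ => B) fun _ => a) = pr f := AddMonoidHom.ext fun s => by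
    rw [AddMonoidHom.comp_apply, Cut7.prjH_apply]
    exact pr_prj (fun _ _ _ _ h => absurd rfl h) (fun x hx => f0 x (hx () (mem_singleton_self _)))
      (fun _ _ => f1) s
  rwa [e2] at this

/-- a weight with the lattice edges on `Ω'` and Dirichlet restrictions on `Ω` is an ambient weight -/
theorem ga (hΛ : Λ.Ok) {ρ : Cfg Pt → ℝ} (hρ : Cen ρ) (hs : Ω ⊆ Ω')
    (up : ∀ U ⊆ Ω, Pp (fun s => ρ s * ind (∀ x, x ∉ U → s x = 0)) ((Λ.D U).W 0))
    {H : Cfg Pt → ℝ} (hH : PD H) (h0 : ∀ s, 0 ≤ H s) (hp : 0 < H 0)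
    (e : ∀ s, ρ s = H s * ∏ e ∈ Λ.edI Ω', Λ.w (dE e s)) : Uv.GA Λ ρ (AddMonoidHom.id _) Ω Ω' where
  cen := hρ
  sub := hs
  up := fun U hU Φ hΦ _ => ((hρ.loc_mul (Cut7.pd_off pdStmt U) (fun _ => ind_nonneg _)
    ((ind_pos (p := ∀ x, x ∉ U → (0 : Cfg Pt) x = 0) fun _ _ => rfl).symm ▸ one_pos)).pp_left (up U hU).symm).2 Φ hΦ
  lo := fun a _ hn hB _ f0 f1 => vr_free hΛ hρ hH h0 hp e hB (hΛ.cen_Nr (self_mem_sq a hn)) f0 f1


end Crest.Agent.T145.Xw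
end

-- ▼ part T145/KvUv_49
section

/-!
# Row 145, module Kv: UV for the thin ring on the extended lattice (helper49)
-/

set_option autoImplicit false

namespace Crest.Agent.T145.Kv.U49

open Finset Uv

variable {Λ : Lat} {V : Gv} {W : ℝ}


theorem mem_rng {n : ℕ} {x : Pt} : x ∈ V.rng n ↔
    ((-(V.G.rho + n : ℤ) ≤ x.1 ∧ x.1 < V.G.rho + n) ∧ -(V.G.rho + n : ℤ) ≤ x.2 ∧ x.2 < V.G.rho + n) ∧
      ¬ ((-(V.G.rho - n : ℤ) ≤ x.1 ∧ x.1 < -(V.G.rho - n : ℤ) + (2 * (V.G.rho - n) : ℕ)) ∧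
        -(V.G.rho - n : ℤ) ≤ x.2 ∧ x.2 < -(V.G.rho - n : ℤ) + (2 * (V.G.rho - n) : ℕ)) := by
  simp only [Gv.rng, mem_sdiff, mem_sq]; omega

theorem Ga_sub (ge : V.Geo) : V.Ga ⊆ V.G.A :=
  (ge.Ga_sub.trans ge.mid_sub).trans (Nc.Geo.an_mono 0 (by have := ge.r_le; omega)
    (by have := ge.rho_le; omega))

theorem cel_sub (ge : V.Geo) {q : ℕ} (hq : q ≤ V.om2) {i : Pt} (hi : i ∈ V.cor q) :
    sq i (2 ^ q) ⊆ V.Ga := (ge.cells q hq).1 ▸ subset_biUnion_of_mem (fun i => sq i (2 ^ q)) hi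

/-- no seam starts in the thin ring -/
theorem gk_Ga (ge : V.Geo) {e : Pt × Pt} (he : e.1 ∈ V.Ga) (s : Cfg Pt) : V.gk e s = dE e s := by
  have h := mem_rng.1 he
  have := ge.ω_le
  have := ge.ω16
  have h1 : V.s1 e = 0 := by
    by_contra h'
    have := (ge.seam e).1 h'
    omega
  have h2 : V.s2 e = 0 := by
    by_contra h'
    have := (ge.seam e).2 h'
    omega
  simp [Gv.gk, h1, h2, dE]

theorem vr_hf (hR : R1Stmt) (hΛ : Λ.Ok) (ge : V.Geo) (xt : V.Ext Λ) {q : ℕ}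
    (hq : q ≤ V.om2) {t : Ix} (ht : t ∈ terms (V.cor q) q (range q)) :
    Vr (V.rw Λ) (pr (hf t.1 t.2.1 t.2.2)) (pr (hf t.1 t.2.1 t.2.2)) ≤ Λ.τ * 32 := by
  obtain ⟨h1, h2, h3⟩ := mem_terms.1 ht
  have hs := cel_sub ge hq h1
  obtain ⟨-, -, ⟨H, hH, h0, e⟩, -⟩ := (xt.gamb _ 0 (hs.trans (Ga_sub ge)) ((ge.cells q hq).2.2.2 _ h1)).1
  have e' : ∀ s, V.rw Λ s = H s * ∏ e ∈ Λ.edI (sq t.1 (2 ^ q)), Λ.w (dE e s) := fun s =>
    (e s).trans (congrArg _ (prod_congr rfl fun e he => by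
      rw [gk_Ga ge (hs (Lat.mem_edI.1 he).2.1)]))
  have hp : 0 < H 0 := by
    have := xt.cen.pos0
    rw [e'] at this
    exact (pos_iff_pos_of_mul_pos this).2 (prod_pos fun _ _ => Xw.w_pos hΛ _)
  exact (Xw.vr_free hΛ xt.cen hH h0 hp e' (par_sub_top (mem_range.1 h2) h3)
    (hΛ.cen_Nr (self_mem_sq _ (by positivity))) (fun _ hx => hf_off hx) (sum_hf subset_rfl)).trans
    (((hf_flow hR hΛ _ _ _).f2a _).vr_le hΛ.pos (hΛ.ctr_Nr _ _)
      (hΛ.anch_Nr (self_mem_sq _ (by positivity))) subset_rfl fun _ _ => rfl)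

theorem thn (ge : V.Geo) : Mx.Thn V.Ga (V.mid \ V.lip) (40 * V.G.rho) := fun ρ hρ => by
  have h1 := ge.ω_le
  have h2 := ge.ω16
  have h3 : (#(V.Ga.filter fun x => ¬ bl x ρ ⊆ V.mid \ V.lip)) ≤ 40 * V.G.rho * ρ := by
    by_cases h : ρ ≤ V.ω
    · refine (card_le_card (t := Ico (V.G.rho - 5 * V.ω : ℤ) (V.G.rho + 5 * V.ω) ×ˢ Icc (-1 - ρ : ℤ) ρ)
        fun x hx => ?_).trans ?_
      · obtain ⟨hx, hb⟩ := mem_filter.1 hx
        obtain ⟨y, hy, hn⟩ := not_subset.1 hb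
        have a1 := mem_rng.1 hx
        have a2 : y ∈ V.mid := by
          rw [mem_bl] at hy
          rw [Gv.mid, mem_rng]; omega
        have a3 : y ∈ V.lip := by_contra fun h' => hn (mem_sdiff.2 ⟨a2, h'⟩)
        simp only [Gv.lip, Gv.up, Gv.lo, mem_filter, mem_union, mem_sq, mem_bl] at a3 hy
        simp only [mem_product, mem_Ico, mem_Icc]; omega
      · rw [card_product, Int.card_Ico, Int.card_Icc,
          show ((V.G.rho : ℤ) + 5 * V.ω - (V.G.rho - 5 * V.ω)).toNat = 10 * V.ω by omega,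
          show ((ρ : ℤ) + 1 - (-1 - ρ)).toNat = 2 * ρ + 2 by omega]
        nlinarith [Nat.mul_le_mul (show V.ω ≤ V.G.rho by omega) (show 2 * ρ + 2 ≤ 4 * ρ by omega)]
    · refine ((card_filter_le _ _).trans_eq ge.card_Ga).trans ?_
      rw [ge.rho_eq]
      nlinarith [Nat.mul_le_mul_left (2 ^ V.j * V.ω) (not_le.1 h).le]
  exact_mod_cast h3

/-- sizes in a good window -/
theorem sizes {θ₀ K δ N : ℝ} {l L n : ℕ} (hK : 1 ≤ K) (hw : Λ.Win θ₀ δ l L) (N0 : 0 ≤ N)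
    (hδ : δ ≤ min 1 (N + 64 * K * 2 ^ (n + V.j))⁻¹) (ge : V.Geo) (at' : V.G.At K L) :
    N ≤ L ∧ n ≤ V.om2 ∧ (V.G.rho : ℝ) ≤ L ∧ (L : ℝ) ≤ 64 * K * 2 ^ V.j * V.ω := by
  have N1 : 0 < N + 64 * K * 2 ^ (n + V.j) := by positivity
  have hNL : N + 64 * K * 2 ^ (n + V.j) ≤ L :=
    (hw.2.1.le_l ((mul_le_mul_of_nonneg_left (hδ.trans (min_le_right _ _)) N1.le).trans_eq
      (mul_inv_cancel₀ N1.ne'))).trans (by exact_mod_cast hw.2.1.le (hδ.trans (min_le_left _ _)))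
  have e1 : (L : ℝ) ≤ 64 * K * V.G.rho := at'.2.trans (by
    have : (V.G.R : ℝ) ≤ 64 * V.G.rho := by exact_mod_cast ge.le_rho
    nlinarith)
  have e2 : 2 ^ (n + V.j) ≤ V.G.rho := by
    have : 64 * K * 2 ^ (n + V.j) ≤ 64 * K * V.G.rho := by linarith
    exact_mod_cast le_of_mul_le_mul_left this (by positivity)
  have e3 : n + V.j ≤ V.G.p := (Nat.pow_le_pow_iff_right one_lt_two).1 e2
  have : (0 : ℝ) ≤ 64 * K * 2 ^ (n + V.j) := by positivity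
  refine ⟨by linarith, by unfold Gv.om2; omega, ?_, ?_⟩
  · exact_mod_cast (by have := ge.rho_le; have := at'.1; omega : V.G.rho ≤ L)
  · rw [ge.rho_eq] at e1; push_cast at e1; linarith

end Crest.Agent.T145.Kv.U49

namespace Crest.Agent.T145.Kv

open Finset Uv U49

theorem uvStmt (hU : Mx.UvGStmt) (hG : Mx.GdStmt) (hR : R1Stmt) (hg : GeoStmt) (hE : ExtStmt) :
    UvStmt := by
  intro F θ₀ W K j hJ hθ hK ε a hε
  obtain ⟨W', r₀, δ₁, hδ₁, h1⟩ := hG F θ₀ hθ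
  obtain ⟨C, h2⟩ := hU F W' r₀ (40 + 4 ^ a * (64 * K * 2 ^ j) ^ 2)
  obtain ⟨δ₂, L₀, hδ₂, h3⟩ := h2 (Real.log (1 + ε)) (Real.log_pos (by linarith))
  obtain ⟨b₀, hb₀⟩ := exists_pow_lt_of_lt_one hδ₂ (show (1 / 2 : ℝ) < 1 by norm_num)
  refine ⟨b₀, fun b hb => ⟨min δ₁ (min 1 ((L₀ : ℝ) + 64 * K * 2 ^ (a + b + j))⁻¹), by positivity,
    fun Λ hΛ l L hw V ok hj at' => ?_⟩⟩
  subst hj
  have ge := hg V W ok
  have xt := hE Λ V W hΛ.ok (hΛ.1.trans hJ) ok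
  obtain ⟨s1, s2, s3, s4⟩ := sizes hK hw (Nat.cast_nonneg _) (min_le_right _ _) ge at'
  set q := V.om2 - (a + b) with hq
  obtain ⟨c1, c2, c3, -⟩ := ge.cells q (Nat.sub_le _ _)
  have w0 : (0 : ℝ) < V.ω := by exact_mod_cast (by have := ge.ω16; omega : 0 < V.ω)
  have wr : (V.ω : ℝ) ≤ V.G.rho := by exact_mod_cast (by have := ge.ω_le; omega : V.ω ≤ V.G.rho)
  have p0 : (0 : ℝ) ≤ 4 ^ a * (64 * K * 2 ^ V.j) ^ 2 := by positivity
  refine ⟨s2, ?_⟩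
  have H := (h3 Λ hΛ L (by exact_mod_cast s1) (h1 Λ hΛ l L (hw.mono le_rfl (min_le_left _ _)))
    (Cfg Pt) (V.rw Λ) (AddMonoidHom.id _) _ _ (V.cor q) q (range q) (V.ms a) xt.ga
    (fun t ht => vr_hf hR hΛ.ok ge xt (Nat.sub_le _ _) ht) (fun i hi j hj h => c2 hi hj h) subset_rfl
    (sq_nonneg _) ?_ ?_ ?_ fun ρ hρ => ?_).2 fun i hi => ?_
  · rw [Real.exp_log (by linarith)] at H
    exact H
  · have : V.ms a * (L : ℝ) ^ 2 ≤ V.ms a * (64 * K * 2 ^ V.j * V.ω) ^ 2 :=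
      mul_le_mul_of_nonneg_left (pow_le_pow_left₀ (by positivity) s4 2) (sq_nonneg _)
    have e : V.ms a * (64 * K * 2 ^ V.j * V.ω) ^ 2 = 4 ^ a * (64 * K * 2 ^ V.j) ^ 2 := by
      rw [Gv.ms, div_pow, ← pow_mul, mul_comm a, pow_mul]; field_simp; norm_num
    linarith
  · have : 2 ^ q ≤ V.ω := Nat.pow_le_pow_right two_pos (Nat.sub_le _ _)
    exact this.trans (by exact_mod_cast wr.trans s3)
  · have e : (V.ω : ℝ) ^ 2 = 4 ^ (V.om2 - q) * 4 ^ q := by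
      rw [← pow_add, Nat.sub_add_cancel (Nat.sub_le _ _), Gv.ω]; push_cast
      rw [← pow_mul, mul_comm, pow_mul]; norm_num
    have e2 : (V.G.rho : ℝ) = 2 ^ V.j * V.ω := by exact_mod_cast ge.rho_eq
    rw [c3]; push_cast
    nlinarith [mul_le_mul s3 (wr.trans s3) w0.le (by positivity),
      mul_nonneg p0 (sq_nonneg (L : ℝ)), sq_nonneg (L : ℝ)]
  · rw [c1]
    refine (thn ge ρ hρ).trans (mul_le_mul_of_nonneg_right ?_ (by positivity))
    nlinarith [mul_nonneg p0 (show (0 : ℝ) ≤ L by positivity)]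
  · have h4 : (2 : ℝ) ^ i * 2 ^ b₀ ≤ V.ω := by
      rw [← pow_add, Gv.ω]; push_cast
      exact pow_le_pow_right₀ one_le_two (by have := mem_range.1 hi; omega)
    rw [one_div, inv_pow, inv_lt_iff_one_lt_mul₀ (by positivity)] at hb₀
    nlinarith [mul_le_mul_of_nonneg_left (h4.trans (wr.trans s3)) hδ₂.le,
      mul_le_mul_of_nonneg_left hb₀.le (show (0 : ℝ) ≤ 2 ^ i by positivity)]

end Crest.Agent.T145.Kv
end

-- ▼ part T145/KvR_49

/-!
# Row 145, module Kv: (R), the ring weight on the extended lattice (helper49)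
-/

set_option autoImplicit false

namespace Crest.Agent.T145.Kv.R49

open Finset Matrix Kq75 Kw56 U49
open Kr (cu)

variable {Λ : Lat} {V : Gv} {W : ℝ}

/-- the tent at level `i` -/
noncomputable def lv (V : Gv) (i : ℤ) (z : Cfg Pt × Cfg Pt) : ℝ := KrA.tw (pr V.eq z.1 - i)

theorem Ga_Om (ok : V.Ok W) (ge : V.Geo) : V.Ga ⊆ V.G.Om :=
  (Ga_sub ge).trans (Nc.Geo.an_mono 0 (by have := ok.g.hc; omega) (by have := ok.g.out; omega))

theorem eq_Om (ok : V.Ok W) (ge : V.Geo) (al : V.Alg) : ∑ x ∈ V.G.Om, V.eq x = 1 := by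
  have h : V.G.In ⊆ V.G.Om := Nc.Geo.an_mono 0 le_rfl (by
    have := ok.g.out; have := ge.r_le; have := ge.rho_le; omega)
  rw [← al.eq_sum]
  refine (sum_subset h fun x hx hn => ?_).symm
  have : x ∉ V.In := fun h' => (mem_insert.1 h').elim (fun e => ge.k_off.1 (e ▸ hx)) hn
  simp only [Gv.eq, Pi.smul_apply, Pot.on, if_neg this, smul_zero]

theorem root (ok : V.Ok W) (ge : V.Geo) (al : V.Alg) (xt : V.Ext Λ) (i : ℤ) :
    Fb (V.rho Λ) V.dH (lv V i) ∧ Zs (amb (V.rho Λ) V.dH (lv V i)) = V.Z Λ ∧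
      ∀ F : Cfg Pt → ℝ, (∀ s, |F s| ≤ 1) → (∀ s k, F (s + cst V.G.Om k) = F s) →
        Ex (amb (V.rho Λ) V.dH (lv V i)) F = V.EX Λ F := by
  obtain ⟨h1, h2, h3⟩ := xt.float (fun s => lv V i (V.dH s)) (fun _ => KrA.tw_nonneg _) fun s => by
    refine hs_congr (KrA.hasSum_tw (pr V.eq s - i)) (fun k => ?_) rfl
    rw [lv, (al.dat _).2.2.1, map_add, pr_cst, eq_Om ok ge al]; congr 1; ring
  exact ⟨⟨xt.rsd, xt.pos, xt.summ, fun _ => KrA.tw_nonneg _, h1⟩, h2, fun F => h3 F 1⟩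

theorem X_cst (ge : V.Geo) (u : Pt → ℝ) (s : Cfg Pt) (k : ℤ) : V.X u (s + cst V.G.Om k) = V.X u s := by
  rw [map_add, add_eq_left, Gv.X, gfl, AddMonoidHom.finsetSum_apply]
  refine sum_eq_zero fun e he => ?_
  obtain ⟨-, h1, h2⟩ := Lat.mem_edI.1 (mem_filter.1 (ge.EA_sub he)).1
  simp [Gv.gk, Md.cst_mem h1, Md.cst_mem h2, Md.cst_not ge.k_off.1, Md.cst_not ge.k_off.2.1]

theorem X_sum (al : V.Alg) {ι : Type} [Fintype ι] (t : ι → ℝ) (f : ι → Pt → ℝ) :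
    ∑ i, t i • V.X (Pot.gr V.G.A V.B (f i)) = V.X (Pot.gr V.G.A V.B (∑ i, t i • f i)) :=
  AddMonoidHom.ext fun s => by
    simp only [AddMonoidHom.finsetSum_apply, AddMonoidHom.smul_apply, al.X_eq, al.coA.gr_sum,
      al.coA.gr_smul, map_sum, map_smul, LinearMap.sum_apply, LinearMap.smul_apply]

/-- the cell averages split into a fluctuation and the harmonic part -/
theorem cY_eq (al : V.Alg) {q : ℕ} (hc : ∀ i, V.cel q i ⊆ V.G.A) (s : Cfg Pt) :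
    cY V.dH (fun i => V.X (Pot.gr V.G.A V.B (unC (V.cel q i))))
      (fun z i => avL (V.cel q i) (V.ma z.1 + V.mb z.2)) s = fun i => pr (unC (V.cel q i)) s := by
  funext i
  have h1 : V.B (Pot.gr V.G.A V.B (unC (V.cel q i))) (Pot.hx V.G.A V.B (cu s)) = 0 := by
    rw [al.coA.symm]; exact al.coA.hx_hm _ _ (al.coA.gr_sup _)
  have h2 := al.coA.gr_spec (unC (V.cel q i)) (al.coA.gr_sup (Pot.op V.B (cu s)))
  have h3 : Pot.ip V.G.A (unC (V.cel q i)) (Pot.hx V.G.A V.B (cu s)) =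
      avL (V.cel q i) (V.ma s + V.mb s) := by
    rw [← ip_unC (hc i)]
    exact sum_congr rfl fun x hx => by rw [al.hx_dat s x hx]
  have h4 : pr (unC (V.cel q i)) s = Pot.ip V.G.A (unC (V.cel q i)) (cu s) :=
    pr_apply _ s fun x hx => mul_eq_zero_of_left (if_neg fun h => hx (hc i h)) _
  rw [Pot.hx, map_sub, h2] at h1
  rw [Pot.hx, Pot.ip_sub_right] at h3
  simp only [cY, (al.dat s).1, (al.dat s).2.1, al.X_eq]
  linarith

/-- the screened weight -/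
theorem rm_eq (ge : V.Geo) (a b : ℕ) (s : Cfg Pt) :
    V.rm Λ a s = V.rho Λ s * (Gs.gw (V.Sm a b) (fun i => pr (unC (V.cel (V.om2 - (a + b)) i)) s) *
      V.hi a b s) := by
  set q := V.om2 - (a + b)
  obtain ⟨c1, c2, -⟩ := ge.cells q (Nat.sub_le _ _)
  have H := Uv.haar (μ := V.ms a) (sq_nonneg _) (V.cor q) q s 0
  rw [← sum_biUnion c2, c1] at H
  simp only [add_zero] at H
  have e1 : (fun i => pr (unC (V.cel q i)) s) ⬝ᵥ msM (V.cel q) (V.ms a) *ᵥ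
      (fun i => pr (unC (V.cel q i)) s) =
      V.ms a * ((2 : ℝ) ^ q) ^ 2 * ∑ i ∈ V.cor q, pr (Uv.ua i (2 ^ q)) s ^ 2 := by
    rw [← sum_coe_sort (V.cor q), mul_sum]
    simp only [dotProduct, msM, mulVec_diagonal, Gv.cel, Kr.R49.unC_eq, card_sq]
    exact sum_congr rfl fun i _ => by push_cast; ring
  have e2 : ∏ x ∈ V.Ga, gau (V.ms a)⁻¹ (s x) =
      Real.exp (-(V.ms a * ∑ x ∈ V.Ga, (s x : ℝ) ^ 2) / 2) := by
    rw [mul_sum, ← sum_neg_distrib, sum_div, Real.exp_sum]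
    exact prod_congr rfl fun x _ => by
      rw [gau]; congr 1; rw [div_eq_mul_inv, mul_inv, inv_inv]; ring
  rw [Gs.gw, Gv.Sm, e1, Gv.hi, gq, ← Real.exp_add, ← add_div, ← neg_add, ← H, ← e2, Gv.rm]

theorem abs_cells {q : ℕ} (hd : (V.cor q : Set Pt).PairwiseDisjoint fun i => sq i (2 ^ q))
    {t : V.cor q → ℝ} {T : ℝ} (hT : ‖t‖ ≤ T) (x : Pt) :
    |(∑ i, t i • unC (V.cel q i)) x| ≤ T / ((2 : ℝ) ^ q) ^ 2 := by
  have T0 : 0 ≤ T := (norm_nonneg _).trans hT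
  rw [Finset.sum_apply]
  by_cases hx : ∃ i, x ∈ V.cel q i
  · obtain ⟨i, hi⟩ := hx
    rw [sum_eq_single i (fun j _ hj => ?_) fun h => absurd (mem_univ i) h]
    · simp only [Pi.smul_apply, unC, if_pos hi, smul_eq_mul]
      rw [Gv.cel, card_sq, abs_mul, abs_of_nonneg (a := _⁻¹) (by positivity), div_eq_mul_inv]
      push_cast
      exact mul_le_mul_of_nonneg_right ((norm_le_pi_norm t i).trans hT) (by positivity)
    · have : x ∉ V.cel q j := fun h => disjoint_left.1 (hd j.2 i.2 fun e => hj (Subtype.ext e)) h hi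
      simp only [Pi.smul_apply, unC, if_neg this, smul_zero]
  · rw [sum_eq_zero fun i _ => by
      simp only [Pi.smul_apply, unC, if_neg fun h => hx ⟨i, h⟩, smul_zero], abs_zero]
    positivity

/-- (Q) for the cells -/
theorem qh (ok : V.Ok W) (ge : V.Geo) (al : V.Alg) (xt : V.Ext Λ) {q : ℕ} {g T ε : ℝ} (i : ℤ)
    (H : ∀ f : Pt → ℝ, (∀ x, |f x| ≤ T / ((2 : ℝ) ^ q) ^ 2) →
      Gs3 ((V.m0 Λ).W 0) (V.X (Pot.gr V.G.A V.B f)) (g * Pot.G V.G.A V.B f f) (ε ^ 2) ∧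
      Gs3 (V.rw Λ) (V.X (Pot.gr V.G.A V.B f)) (g * Pot.G V.G.A V.B f f) (ε ^ 2)) (hq : q ≤ V.om2) :
    QH (V.rho Λ) V.dH (lv V i) (fun i => V.X (Pot.gr V.G.A V.B (unC (V.cel q i))))
      (sgM V.G.A g⁻¹ V.EA (V.cel q)) T ε := by
  have e : ∀ t : V.cor q → ℝ, t ⬝ᵥ sgM V.G.A g⁻¹ V.EA (V.cel q) *ᵥ t =
      g * Pot.G V.G.A V.B (∑ i, t i • unC (V.cel q i)) (∑ i, t i • unC (V.cel q i)) := fun t => by
    rw [sgM_quad al.coE, inv_inv, Pot.G, Pot.G, al.gr_eq]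
  have c2 := (ge.cells q hq).2.1
  refine ⟨fun t ht => ?_, fun t ht => ?_⟩
  · rw [xt.fib0.Ph, e, X_sum al]
    linarith [(abs_le.1 (H _ (abs_cells c2 ht)).1.2.2).2]
  · rw [e, X_sum al, (root ok ge al xt i).2.2 _ (fun s => Real.abs_cos_le_one _)
      fun s k => by rw [X_cst ge]]
    have := (abs_le.1 (H _ (abs_cells c2 ht)).2.2.2).1
    unfold Ph at this
    unfold Gv.EX
    linarith

end Crest.Agent.T145.Kv.R49

namespace Crest.Agent.T145.Kv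

open Finset Matrix Kq75 Kw56 U49 R49

theorem rStmt (hQ : GffStmt) (hU : UvStmt) (hT : TrStmt) (hg : GeoStmt) (hA : AlgStmt) (hE : ExtStmt)
    (ha : T1aStmt) (hm : T1mStmt) : RStmt := by
  intro F θ₀ W K j hJ hθ hK ε a hε
  obtain ⟨C, hC⟩ := hT F.τ₂ j
  obtain ⟨C₁, ha⟩ := ha F
  obtain ⟨χ, χ0, h0⟩ := r_abs (K₂ := |C| * 16 ^ a) (by positivity) hε
  obtain ⟨b, hb⟩ := hU F θ₀ W K j hJ hθ hK (χ ^ 2) a (by positivity)
  obtain ⟨δ₁, hδ₁, h1⟩ := hb b le_rfl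
  obtain ⟨T, ε₁, T0, e0, h2⟩ := h0 (16 * 2 ^ j * 4 ^ (a + b)) (1 + |C| * 4 ^ a * 4 ^ (a + b))
    (by positivity)
  obtain ⟨δ₂, hδ₂, h3⟩ := hQ F θ₀ W K j hJ hθ hK (T * (64 * 2 ^ j * 2 ^ (a + b)) ^ 2) (ε₁ ^ 2)
    (by positivity)
  obtain ⟨δ₃, hδ₃, h4⟩ := hm.2.2 F θ₀ 1 0 hθ one_pos
  refine ⟨b, min (min δ₁ δ₂) δ₃, by positivity, fun Λ hΛ l L hw V ok hj at' => ?_⟩
  have ge := hg V W ok
  have al := hA V W ok
  have xt := hE Λ V W hΛ.ok (hΛ.1.trans hJ) ok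
  obtain ⟨hp, uv⟩ := h1 Λ hΛ l L (hw.mono le_rfl ((min_le_left _ _).trans (min_le_left _ _))) V ok hj at'
  have gff := h3 Λ hΛ l L (hw.mono le_rfl ((min_le_left _ _).trans (min_le_right _ _))) V ok hj at'
  have t0 := (h4 Λ hΛ l L (hw.mono le_rfl (min_le_right _ _))).2.1
  have g0 : 0 < Λ.gN l := div_pos (by linarith) hΛ.e0_pos
  have g1 : Λ.gN l ≤ F.τ₂ := (div_le_div_of_nonneg_right (ha Λ hΛ l hw.2.1.one_le_l).2.1
    hΛ.e0_pos.le).trans hΛ.inv_e0_le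
  obtain ⟨tr2, tr1⟩ := hC _ g0 g1 V W ok hj a b hp
  subst hj
  set q := V.om2 - (a + b) with hq
  obtain ⟨c1, c2, c3, -⟩ := ge.cells q (Nat.sub_le _ _)
  have hc : ∀ i, V.cel q i ⊆ V.G.A := fun i => (cel_sub ge (Nat.sub_le _ _) i.2).trans (Ga_sub ge)
  have er : (V.ω : ℝ) = 2 ^ (a + b) * 2 ^ q := by
    rw [← pow_add, hq, Nat.add_sub_cancel' hp, Gv.ω]; push_cast; rfl
  have H0 : ∀ s, 0 < V.hi a b s := fun s => gq_pos _ _ s
  have H1 : ∀ s, V.hi a b s ≤ 1 := fun s => gq_le_one _ _ s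
  have b1 : ∀ s, |V.hi a b s| ≤ 1 := fun s => by rw [abs_of_pos (H0 s)]; exact H1 s
  have b2 : ∀ s, |V.hi a b s ^ 2| ≤ 1 := fun s => by
    rw [abs_pow]; exact pow_le_one₀ (abs_nonneg _) (b1 s)
  have dep : DepG V.G.Om (V.hi a b) := Kr.gq_terms_shift (fun j hj => mem_range.1 hj)
    (fun i hi => (cel_sub ge (Nat.sub_le _ _) hi).trans (Ga_Om ok ge)) _
  have R0 : (0 : ℝ) < V.G.R := by
    exact_mod_cast (by have := ge.rho_le; have := ge.ω_le; have := ge.ω16; omega : 0 < V.G.R)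
  have eR : (V.G.R : ℝ) ≤ 64 * 2 ^ V.j * 2 ^ (a + b) * 2 ^ q := by
    have e1 : (V.G.R : ℝ) ≤ 64 * V.G.rho := by exact_mod_cast ge.le_rho
    have e2 : (V.G.rho : ℝ) = 2 ^ V.j * V.ω := by exact_mod_cast ge.rho_eq
    rw [e2, er] at e1; linarith
  have key := fun i : ℤ => h2 _ _ _ _ _ _ _ (V.Sm a b) (V.Vm (Λ.gN l) a b) (V.hi a b)
    (root ok ge al xt i).1 (qh ok ge al xt i (fun f hf => gff f fun x _ => (hf x).trans (by
      rw [div_le_div_iff₀ (by positivity) (by positivity), mul_assoc, ← mul_pow]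
      gcongr)) (Nat.sub_le _ _)) (msM_psd _ (sq_nonneg _)) (sgM_psd al.coE (inv_pos.2 g0).le _)
    (by rw [Fintype.card_coe, c3, hq, Nat.sub_sub_self hp]) (fun i => by
      have : V.ms a * (V.cel q i).card ≤ 1 := by
        rw [Gv.ms, Gv.cel, card_sq, er, pow_add]; push_cast
        rw [← mul_pow]
        refine pow_le_one₀ (by positivity) ?_
        rw [div_mul_eq_mul_div, div_le_one (by positivity)]
        gcongr
        exact le_mul_of_one_le_right (by positivity) (one_le_pow₀ one_le_two)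
      have h5 : 0 ≤ |C| * 4 ^ a * 4 ^ (a + b) := by positivity
      rw [Gv.Sm, msM, diagonal_apply_eq]; linarith)
    (tr1.trans (by
      have := mul_le_mul_of_nonneg_right (le_abs_self C) (show (0 : ℝ) ≤ 4 ^ a * 4 ^ (a + b) by positivity)
      linarith)) (tr2.trans (mul_le_mul_of_nonneg_right (le_abs_self C) (by positivity))) H0 H1 (by
      rw [(root ok ge al xt i).2.2 _ b1 (dep.shift subset_rfl), (root ok ge al xt i).2.2 _ b2
        ((dep.comp fun t => t ^ 2).shift subset_rfl)]; exact uv)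
  simp only [fun i => (root ok ge al xt i).2.1,
    fun i => (root ok ge al xt i).2.2 _ b1 (dep.shift subset_rfl)] at key
  refine ⟨hp, _, (key 0).1, fun i S => ?_⟩
  have := (key i).2 (fun z i => avL (V.cel q i) (V.ma z.1 + V.mb z.2)) S
  rw [show V.nuM Λ a = _ from congrArg (push · V.dH) (funext fun s =>
    (rm_eq ge a b s).trans (by rw [← cY_eq al hc s]))]
  exact this

end Crest.Agent.T145.Kv
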