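import Crest.Agent.T145.VxDef_35

/-!
# Row 145, twisted module: shared base (helper30)

Geometry of `ds` and of the pair, weights in the sector, linearity of `exN`, `tr`, the seminorms `N`, `ν`.
-/

set_option autoImplicit false

namespace Crest.Agent.T145.Vx.B30

open Finset
open Nc (an Amb)

/-! ## geometry -/

section geo
variable {z w x : Pt} {r r' : ℕ}

theorem mem_bl_ds : x ∈ bl z r ↔ ds x z ≤ r := by
  simp only [mem_bl, ds, max_le_iff]; omega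
theorem ds_comm (z w : Pt) : ds z w = ds w z := by simp only [ds]; omega
theorem ds_self (z : Pt) : ds z z = 0 := by simp [ds]
theorem ds_tri (z w x : Pt) : ds z x ≤ ds z w + ds w x := by simp only [ds]; omega
theorem ds_eq_zero : ds z w = 0 ↔ z = w := by
  simp only [ds, Prod.ext_iff]; omega
theorem one_le_ds (h : z ≠ w) : 1 ≤ ds z w := Nat.one_le_iff_ne_zero.2 fun e => h (ds_eq_zero.1 e)
theorem ds_add (z x : Pt) : ds (z + x) z = ds x 0 := by simp [ds]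
theorem ds_sub (z w : Pt) : ds (z - w) 0 = ds z w := by simp [ds]
theorem mem_an_ds {R : ℕ} : x ∈ an z r R ↔ r < ds x z ∧ ds x z ≤ R := by
  simp only [an, mem_sdiff, mem_bl_ds]; omega
theorem bl_sub (h : ds z w + r ≤ r') : bl z r ⊆ bl w r' := fun x hx => by
  have := ds_tri x z w
  rw [mem_bl_ds] at hx ⊢; omega
theorem bl_disj (h : r + r' < ds z w) : Disjoint (bl z r) (bl w r') := disjoint_left.2 fun x h1 h2 => by
  have := ds_tri z x w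
  rw [mem_bl_ds] at h1 h2
  rw [ds_comm z x] at this; omega
theorem an_sub (z : Pt) (r R : ℕ) : an z r R ⊆ bl z R := sdiff_subset
theorem an_disj (z : Pt) (r R : ℕ) : Disjoint (an z r R) (bl z r) := sdiff_disjoint

variable (V : Vp)

@[simp] theorem sw_σ : V.sw.σ = V.σ := rfl
@[simp] theorem sw_r : V.sw.r = V.r := rfl
@[simp] theorem sw_a : V.sw.a = V.a := rfl
@[simp] theorem sw_t : V.sw.t = V.t := rfl
@[simp] theorem sw_p : V.sw.p = V.q := rfl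
@[simp] theorem sw_sw : V.sw.sw = V := by cases V; simp [Vp.sw]
@[simp] theorem sw_q : V.sw.q = V.p := by rw [Vp.q, sw_sw]
@[simp] theorem sw_d (z : Pt) : V.sw.d z = V.d z := by simp only [Vp.d, sw_p, sw_q, min_comm]
theorem d_le_p (z : Pt) : V.d z ≤ ds z V.p := min_le_left _ _
theorem d_le_q (z : Pt) : V.d z ≤ ds z V.q := min_le_right _ _
theorem p_snd : V.p.2 = 0 := by unfold Vp.p; split_ifs <;> rfl
theorem q_snd : V.q.2 = 0 := p_snd V.sw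
theorem ds_pq : ds V.p V.q = V.r := by
  obtain ⟨a, r, sd⟩ := V
  cases sd <;> simp [Vp.p, Vp.q, Vp.sw, ds]
theorem ds_qp : ds V.q V.p = V.r := by rw [ds_comm, ds_pq V]
/-- near the core `p` the distance to the cores is the distance to `p` -/
theorem d_eq_p {z : Pt} (h : 2 * ds z V.p ≤ V.r) : V.d z = ds z V.p := by
  have h1 := ds_pq V
  have h2 := ds_tri V.p z V.q
  rw [ds_comm V.p z] at h2
  simp only [Vp.d]; omega

end geo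

/-! ## weights in a sector -/

section wt
variable {Λ : Lat} {m : Mdl Pt} {U : Finset Pt} {σ : Pt × Pt → ℤ} {z : Pt} {R : ℕ}
  {F G : Cfg Pt → ℝ}

theorem amb_mono {U' : Finset Pt} (h : Amb Λ m U) (hU : U' ⊆ U) : Amb Λ m U' :=
  ⟨h.ctr, h.anch, hU.trans h.sub, h.near.mono hU⟩
theorem amb_wt (h : Amb Λ m U) (σ : Pt × Pt → ℤ) : Wt (m.Ws 0 σ) := Md.ctr_wts h.ctr h.anch 0 σ
theorem amb_se (h : Amb Λ m U) (σ : Pt × Pt → ℤ) : SE (m.Ws 0 σ) := Md.ctr_ses h.ctr h.anch 0 σ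
theorem amb_ig (h : Amb Λ m U) (σ : Pt × Pt → ℤ) (hF : Tame F) : Ig (m.Ws 0 σ) F := (amb_se h σ).ig hF
theorem wt_Nr (hΛ : Λ.Ok) (σ : Pt × Pt → ℤ) (z : Pt) (R : ℕ) : Wt ((Λ.Nr (bl z R) z).Ws 0 σ) :=
  Md.ctr_wts (hΛ.ctr_Nr _ _) (hΛ.anch_Nr_bl (self_mem_bl z R)) 0 σ
theorem se_Nr (hΛ : Λ.Ok) (σ : Pt × Pt → ℤ) (z : Pt) (R : ℕ) : SE ((Λ.Nr (bl z R) z).Ws 0 σ) :=
  Md.ctr_ses (hΛ.ctr_Nr _ _) (hΛ.anch_Nr_bl (self_mem_bl z R)) 0 σ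
theorem wt_D (hΛ : Λ.Ok) (D : Finset Pt) (η : Cfg Pt) (σ : Pt × Pt → ℤ) : Wt ((Λ.D D).Ws η σ) :=
  Md.ctr_wts (hΛ.ctr_D D) (hΛ.anch_D D) η σ
theorem se_D (hΛ : Λ.Ok) (D : Finset Pt) (η : Cfg Pt) (σ : Pt × Pt → ℤ) : SE ((Λ.D D).Ws η σ) :=
  Md.ctr_ses (hΛ.ctr_D D) (hΛ.anch_D D) η σ

/-! ### `exN`, `nrm` -/

theorem exN_const (hΛ : Λ.Ok) (σ : Pt × Pt → ℤ) (z : Pt) (R : ℕ) (c : ℝ) :
    Λ.exN σ z R (fun _ => c) = c := (wt_Nr hΛ σ z R).ex_const c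
theorem exN_add (hΛ : Λ.Ok) (hF : Tame F) (hG : Tame G) :
    Λ.exN σ z R (fun s => F s + G s) = Λ.exN σ z R F + Λ.exN σ z R G :=
  Ex_add ((se_Nr hΛ σ z R).ig hF) ((se_Nr hΛ σ z R).ig hG)
theorem exN_sub (hΛ : Λ.Ok) (hF : Tame F) (hG : Tame G) :
    Λ.exN σ z R (fun s => F s - G s) = Λ.exN σ z R F - Λ.exN σ z R G :=
  Ex_sub ((se_Nr hΛ σ z R).ig hF) ((se_Nr hΛ σ z R).ig hG)
theorem exN_smul (σ : Pt × Pt → ℤ) (z : Pt) (R : ℕ) (c : ℝ) (F : Cfg Pt → ℝ) :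
    Λ.exN σ z R (fun s => c * F s) = c * Λ.exN σ z R F := Ex_const_mul _ _ _
theorem exN_mono (hΛ : Λ.Ok) (hF : Tame F) (hG : Tame G) (h : ∀ s, F s ≤ G s) :
    Λ.exN σ z R F ≤ Λ.exN σ z R G :=
  Ex_mono (wt_Nr hΛ σ z R).nonneg ((se_Nr hΛ σ z R).ig hF) ((se_Nr hΛ σ z R).ig hG) h
theorem abs_exN_le (hΛ : Λ.Ok) (hF : Tame F) : |Λ.exN σ z R F| ≤ Λ.nrm σ z R F :=
  abs_Ex_le (wt_Nr hΛ σ z R).nonneg ((se_Nr hΛ σ z R).ig hF)
theorem nrm_nonneg (hΛ : Λ.Ok) (σ : Pt × Pt → ℤ) (z : Pt) (R : ℕ) (F : Cfg Pt → ℝ) :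
    0 ≤ Λ.nrm σ z R F := Ex_nonneg (wt_Nr hΛ σ z R).nonneg fun _ _ => abs_nonneg _
theorem nrm_const (hΛ : Λ.Ok) (σ : Pt × Pt → ℤ) (z : Pt) (R : ℕ) (c : ℝ) :
    Λ.nrm σ z R (fun _ => c) = |c| := exN_const hΛ σ z R _
theorem nrm_le_exN (hΛ : Λ.Ok) (hG : Tame G) (h : ∀ s, |F s| ≤ G s) : Λ.nrm σ z R F ≤ Λ.exN σ z R G :=
  exN_mono hΛ (hG.of_le h).abs hG h
theorem nrm_add_le (hΛ : Λ.Ok) (hF : Tame F) (hG : Tame G) :
    Λ.nrm σ z R (fun s => F s + G s) ≤ Λ.nrm σ z R F + Λ.nrm σ z R G :=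
  (nrm_le_exN hΛ (hF.abs.add hG.abs) fun _ => abs_add_le _ _).trans_eq (exN_add hΛ hF.abs hG.abs)
theorem nrm_sub_le (hΛ : Λ.Ok) (hF : Tame F) (hG : Tame G) :
    Λ.nrm σ z R (fun s => F s - G s) ≤ Λ.nrm σ z R F + Λ.nrm σ z R G :=
  (nrm_le_exN hΛ (hF.abs.add hG.abs) fun _ => abs_sub _ _).trans_eq (exN_add hΛ hF.abs hG.abs)
theorem nrm_smul (σ : Pt × Pt → ℤ) (z : Pt) (R : ℕ) (c : ℝ) (F : Cfg Pt → ℝ) :
    Λ.nrm σ z R (fun s => c * F s) = |c| * Λ.nrm σ z R F := by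
  simp only [Lat.nrm, abs_mul]; exact exN_smul σ z R _ _
theorem nrm_mul_le (hΛ : Λ.Ok) (hF : Tame F) (hG : Tame G) :
    Λ.nrm σ z R (fun s => F s * G s) ≤
      √(Λ.exN σ z R fun s => F s ^ 2) * √(Λ.exN σ z R fun s => G s ^ 2) := by
  have := abs_Ex_mul_le (wt_Nr hΛ σ z R).nonneg ((se_Nr hΛ σ z R).ig (hF.abs.pow 2))
    ((se_Nr hΛ σ z R).ig (hG.abs.pow 2))
  simp only [sq_abs, ← abs_mul] at this
  exact (le_abs_self _).trans this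
/-- centring costs a factor two, whatever the constant -/
theorem nrm_cen_le (hΛ : Λ.Ok) (hF : Tame F) (c : ℝ) :
    Λ.nrm σ z R (fun s => F s - Λ.exN σ z R F) ≤ 2 * Λ.nrm σ z R fun s => F s - c := by
  have h1 : Tame fun s => F s - c := hF.sub (Tame.const c)
  have h2 := abs_exN_le (σ := σ) (z := z) (R := R) hΛ h1
  rw [exN_sub hΛ hF (Tame.const c), exN_const hΛ] at h2
  have h3 := nrm_sub_le (σ := σ) (z := z) (R := R) hΛ h1 (Tame.const (Λ.exN σ z R F - c))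
  rw [nrm_const hΛ] at h3
  simp only [sub_sub_sub_cancel_right] at h3
  linarith

/-! ### `tr` -/

theorem tr_const (hΛ : Λ.Ok) (σ : Pt × Pt → ℤ) (z : Pt) (R : ℕ) (c : ℝ) :
    Λ.tr σ z R (fun _ => c) = fun _ => c := funext fun s => (wt_D hΛ _ s σ).ex_const c
theorem tr_add (hΛ : Λ.Ok) (hF : Tame F) (hG : Tame G) :
    Λ.tr σ z R (fun s => F s + G s) = fun s => Λ.tr σ z R F s + Λ.tr σ z R G s :=
  funext fun s => Ex_add ((se_D hΛ _ s σ).ig hF) ((se_D hΛ _ s σ).ig hG)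
theorem tr_sub (hΛ : Λ.Ok) (hF : Tame F) (hG : Tame G) :
    Λ.tr σ z R (fun s => F s - G s) = fun s => Λ.tr σ z R F s - Λ.tr σ z R G s :=
  funext fun s => Ex_sub ((se_D hΛ _ s σ).ig hF) ((se_D hΛ _ s σ).ig hG)
theorem tr_smul (σ : Pt × Pt → ℤ) (z : Pt) (R : ℕ) (c : ℝ) (F : Cfg Pt → ℝ) :
    Λ.tr σ z R (fun s => c * F s) = fun s => c * Λ.tr σ z R F s := funext fun _ => Ex_const_mul _ _ _
theorem tr_sub_const (hΛ : Λ.Ok) (hF : Tame F) (c : ℝ) :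
    Λ.tr σ z R (fun s => F s - c) = fun s => Λ.tr σ z R F s - c := by
  rw [tr_sub hΛ hF (Tame.const c), tr_const hΛ]

/-! ### covariances -/

theorem cv_sub_const {W : Cfg Pt → ℝ} (hW : Wt W) (hS : SE W) (hF : Tame F) (hG : Tame G) (c d : ℝ) :
    Cv W (fun s => F s - c) (fun s => G s - d) = Cv W F G := by
  rw [hW.cv_eq (hS.ig hF) (hS.ig hG) (hS.ig (hF.mul hG)) c d, Cv, hW.ex_sub_const (hS.ig hF),
    hW.ex_sub_const (hS.ig hG)]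
theorem abs_cv_le {W : Cfg Pt → ℝ} (hW : Wt W) (hS : SE W) (hF : Tame F) (hG : Tame G) :
    |Cv W F G| ≤ Ex W (fun s => |F s * G s|) + Ex W (fun s => |F s|) * Ex W fun s => |G s| := by
  rw [Cv]
  refine (abs_sub _ _).trans (add_le_add (abs_Ex_le hW.nonneg (hS.ig (hF.mul hG))) ?_)
  rw [abs_mul]
  exact mul_le_mul (abs_Ex_le hW.nonneg (hS.ig hF)) (abs_Ex_le hW.nonneg (hS.ig hG)) (abs_nonneg _)
    (Ex_nonneg hW.nonneg fun _ _ => abs_nonneg _)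
theorem cv_add_left {W H : Cfg Pt → ℝ} (hS : SE W) (hF : Tame F) (hG : Tame G) (hH : Tame H) :
    Cv W (fun s => F s + G s) H = Cv W F H + Cv W G H :=
  Cv_add_left (hS.ig hF) (hS.ig hG) (hS.ig (hF.mul hH)) (hS.ig (hG.mul hH))
theorem cv_add_right {W H : Cfg Pt → ℝ} (hS : SE W) (hF : Tame F) (hG : Tame G) (hH : Tame H) :
    Cv W H (fun s => F s + G s) = Cv W H F + Cv W H G := by
  rw [Cv_comm, cv_add_left hS hF hG hH, Cv_comm W F, Cv_comm W G]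
theorem cv_sub_left {W H : Cfg Pt → ℝ} (hS : SE W) (hF : Tame F) (hG : Tame G) (hH : Tame H) :
    Cv W (fun s => F s - G s) H = Cv W F H - Cv W G H := by
  simp only [sub_eq_add_neg]
  rw [cv_add_left hS hF hG.neg hH, Cv_neg_left]
theorem cv_sub_right {W H : Cfg Pt → ℝ} (hS : SE W) (hF : Tame F) (hG : Tame G) (hH : Tame H) :
    Cv W H (fun s => F s - G s) = Cv W H F - Cv W H G := by
  rw [Cv_comm, cv_sub_left hS hF hG hH, Cv_comm W F, Cv_comm W G]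
theorem cv_sum_left {W : Cfg Pt → ℝ} (hS : SE W) {ι : Type*} (T : Finset ι) {H : ι → Cfg Pt → ℝ}
    (h : ∀ i ∈ T, Tame (H i)) (hG : Tame G) :
    Cv W (fun s => ∑ i ∈ T, H i s) G = ∑ i ∈ T, Cv W (H i) G :=
  Cv_sum_left T (fun i hi => hS.ig (h i hi)) fun i hi => hS.ig ((h i hi).mul hG)
theorem cv_sum_right {W : Cfg Pt → ℝ} (hS : SE W) {ι : Type*} (T : Finset ι) {H : ι → Cfg Pt → ℝ}
    (h : ∀ i ∈ T, Tame (H i)) (hG : Tame G) :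
    Cv W G (fun s => ∑ i ∈ T, H i s) = ∑ i ∈ T, Cv W G (H i) := by
  rw [Cv_comm, cv_sum_left hS T h hG]; exact sum_congr rfl fun i _ => Cv_comm _ _ _

end wt

/-! ## insertions -/

section ins
variable {z : Pt} {r : ℕ} {F G : Cfg Pt → ℝ}

theorem ins_mono {z' : Pt} {r' : ℕ} (h : Ins z r F) (hs : ds z z' + r ≤ r') : Ins z' r' F :=
  ⟨h.1.mono (bl_sub hs), h.2⟩
theorem ins_le {r' : ℕ} (h : Ins z r F) (hr : r ≤ r') : Ins z r' F := ⟨h.1.mono (bl_mono z hr), h.2⟩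
theorem ins_const (z : Pt) (r : ℕ) (c : ℝ) : Ins z r fun _ => c := ⟨DepG.const _ c, Tame.const c⟩
theorem ins_add (h : Ins z r F) (h' : Ins z r G) : Ins z r fun s => F s + G s :=
  ⟨h.1.add h'.1, h.2.add h'.2⟩
theorem ins_sub (h : Ins z r F) (h' : Ins z r G) : Ins z r fun s => F s - G s :=
  ⟨h.1.sub h'.1, h.2.sub h'.2⟩
theorem ins_mul (h : Ins z r F) (h' : Ins z r G) : Ins z r fun s => F s * G s :=
  ⟨h.1.mul h'.1, h.2.mul h'.2⟩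
theorem ins_smul (h : Ins z r F) (c : ℝ) : Ins z r fun s => c * F s := ins_mul (ins_const z r c) h
theorem ins_sub_const (h : Ins z r F) (c : ℝ) : Ins z r fun s => F s - c := ins_sub h (ins_const z r c)
theorem ins_abs (h : Ins z r F) : Ins z r fun s => |F s| := ⟨h.1.comp (|·|), h.2.abs⟩
theorem ins_out {w : Pt} {c : ℕ} (h : Ins z r F) (hd : r + c < ds z w) : Out (bl w c) F :=
  h.1.dep.out (bl_disj hd)

end ins

/-! ## the seminorms -/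

section nu
variable {P : Par} {V : Vp} {z : Pt} {ρ : ℕ} {F G : Cfg Pt → ℝ}

theorem L_rg (P : Par) : P.L.rg = 1 := xyL_rg P.b
theorem N_sw (P : Par) (V : Vp) : P.N V.sw = P.N V := rfl
theorem ν_eq (P : Par) (V : Vp) (ρ : ℕ) (F : Cfg Pt → ℝ) : P.ν V ρ F =
    P.N V V.p ρ fun s => P.L.tr V.σ V.p ρ F s - P.L.exN V.σ V.p (P.W₀ * ρ) F := rfl
theorem ν_sw_eq (P : Par) (V : Vp) (ρ : ℕ) (F : Cfg Pt → ℝ) : P.ν V.sw ρ F =
    P.N V V.q ρ fun s => P.L.tr V.σ V.q ρ F s - P.L.exN V.σ V.q (P.W₀ * ρ) F := rfl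
theorem N_smul (P : Par) (V : Vp) (z : Pt) (ρ : ℕ) (c : ℝ) (F : Cfg Pt → ℝ) :
    P.N V z ρ (fun s => c * F s) = |c| * P.N V z ρ F := nrm_smul _ _ _ _ _
theorem ν_smul (P : Par) (V : Vp) (ρ : ℕ) (c : ℝ) (F : Cfg Pt → ℝ) :
    P.ν V ρ (fun s => c * F s) = |c| * P.ν V ρ F := by
  rw [ν_eq, tr_smul, exN_smul, ν_eq, ← N_smul]
  simp only [mul_sub]

variable (hP : P.Ok)
include hP

theorem lok : P.L.Ok := hP.crit.1
theorem b_pos : 0 < P.b := (lok hP).2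
theorem succ_le (h : 1 ≤ ρ) : ρ + 1 ≤ P.W₀ * ρ := by have := hP.W2; nlinarith
theorem four_le : 4 * ρ ≤ P.W₀ * ρ := Nat.mul_le_mul_right _ hP.W2
theorem N_nonneg (V : Vp) (z : Pt) (ρ : ℕ) (F : Cfg Pt → ℝ) : 0 ≤ P.N V z ρ F :=
  nrm_nonneg (lok hP) _ _ _ _
theorem N_one (V : Vp) (z : Pt) (ρ : ℕ) : P.N V z ρ (fun _ => 1) = 1 := by
  rw [Par.N, nrm_const (lok hP), abs_one]
theorem ν_nonneg (V : Vp) (ρ : ℕ) (F : Cfg Pt → ℝ) : 0 ≤ P.ν V ρ F := N_nonneg hP _ _ _ _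

variable (hT : TrStmt)
include hT

theorem tame_tr (h : Ins z (ρ + 1) F) (σ : Pt × Pt → ℤ) : Tame (P.L.tr σ z ρ F) :=
  (hT P.b σ z ρ F (b_pos hP) h).1
theorem depG_tr (h : Ins z (ρ + 1) F) (σ : Pt × Pt → ℤ) : DepG (an z ρ (ρ + 1)) (P.L.tr σ z ρ F) :=
  (hT P.b σ z ρ F (b_pos hP) h).2.1
theorem ins_tr (h : Ins z (ρ + 1) F) (σ : Pt × Pt → ℤ) : Ins z (ρ + 1) (P.L.tr σ z ρ F) :=
  ⟨(depG_tr hP hT h σ).mono (an_sub _ _ _), tame_tr hP hT h σ⟩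
theorem nrm_tr_le (h : Ins z (ρ + 1) F) (σ : Pt × Pt → ℤ) {z' : Pt} {c : ℕ} (hc : ds z z' + ρ + 1 ≤ c) :
    P.L.nrm σ z' c (P.L.tr σ z ρ F) ≤ P.L.nrm σ z' c F :=
  (hT P.b σ z ρ F (b_pos hP) h).2.2.1 z' c (bl_sub (by omega))
theorem tr_tr_mul (h : Ins z (ρ + 1) F) (σ : Pt × Pt → ℤ) (hG : Out (bl z ρ) G) (hG' : Tame G) {z' : Pt}
    {R : ℕ} (hc : ds z z' + ρ ≤ R) :
    P.L.tr σ z' R (fun s => F s * G s) = P.L.tr σ z' R fun s => P.L.tr σ z ρ F s * G s :=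
  ((hT P.b σ z ρ F (b_pos hP) h).2.2.2 G hG hG').1 z' R (bl_sub hc)
theorem tr_tr (h : Ins z (ρ + 1) F) (σ : Pt × Pt → ℤ) {z' : Pt} {R : ℕ} (hc : ds z z' + ρ ≤ R) :
    P.L.tr σ z' R (P.L.tr σ z ρ F) = P.L.tr σ z' R F := by
  simpa only [mul_one] using (tr_tr_mul hP hT h σ (Out.const _ 1) (Tame.const 1) hc).symm
theorem exN_tr_mul (h : Ins z (ρ + 1) F) (σ : Pt × Pt → ℤ) (hG : Out (bl z ρ) G) {z' : Pt} {c : ℕ}
    (hG' : Ins z' c G) (hc : ds z z' + ρ + 1 ≤ c) :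
    P.L.exN σ z' c (fun s => F s * G s) = P.L.exN σ z' c fun s => P.L.tr σ z ρ F s * G s :=
  ((hT P.b σ z ρ F (b_pos hP) h).2.2.2 G hG hG'.2).2.1 z' c
    (bl_sub (by omega)) hG'.1
theorem exN_tr (h : Ins z (ρ + 1) F) (σ : Pt × Pt → ℤ) {z' : Pt} {c : ℕ} (hc : ds z z' + ρ + 1 ≤ c) :
    P.L.exN σ z' c (P.L.tr σ z ρ F) = P.L.exN σ z' c F := by
  simpa only [mul_one] using (exN_tr_mul hP hT h σ (Out.const _ 1) (ins_const z' c 1) hc).symm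
theorem ex_tr_mul (h : Ins z (ρ + 1) F) (σ : Pt × Pt → ℤ) (hG : Out (bl z ρ) G) (hG' : Tame G)
    {m : Mdl Pt} (hm : Amb P.L m (bl z ρ)) :
    Ex (m.Ws 0 σ) (fun s => F s * G s) = Ex (m.Ws 0 σ) fun s => P.L.tr σ z ρ F s * G s :=
  ((hT P.b σ z ρ F (b_pos hP) h).2.2.2 G hG hG').2.2 m hm
theorem ex_tr (h : Ins z (ρ + 1) F) (σ : Pt × Pt → ℤ) {m : Mdl Pt} (hm : Amb P.L m (bl z ρ)) :
    Ex (m.Ws 0 σ) (P.L.tr σ z ρ F) = Ex (m.Ws 0 σ) F := by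
  simpa only [mul_one] using (ex_tr_mul hP hT h σ (Out.const _ 1) (Tame.const 1) hm).symm
theorem cv_tr (h : Ins z (ρ + 1) F) (σ : Pt × Pt → ℤ) (hG : Out (bl z ρ) G) (hG' : Tame G)
    {m : Mdl Pt} (hm : Amb P.L m (bl z ρ)) :
    Cv (m.Ws 0 σ) (P.L.tr σ z ρ F) G = Cv (m.Ws 0 σ) F G := by
  rw [Cv, Cv, ex_tr hP hT h σ hm, ex_tr_mul hP hT h σ hG hG' hm]

theorem ν_add_le (h : Ins V.p (ρ + 1) F) (h' : Ins V.p (ρ + 1) G) :
    P.ν V ρ (fun s => F s + G s) ≤ P.ν V ρ F + P.ν V ρ G := by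
  rw [ν_eq, tr_add (lok hP) h.2 h'.2, exN_add (lok hP) h.2 h'.2]
  simp only [add_sub_add_comm]
  exact nrm_add_le (lok hP) ((tame_tr hP hT h _).sub (Tame.const _))
    ((tame_tr hP hT h' _).sub (Tame.const _))
theorem ν_sub_le (h : Ins V.p (ρ + 1) F) (h' : Ins V.p (ρ + 1) G) :
    P.ν V ρ (fun s => F s - G s) ≤ P.ν V ρ F + P.ν V ρ G := by
  have := ν_add_le hP hT h (ins_smul h' (-1))
  rw [ν_smul] at this
  simpa only [abs_neg, abs_one, one_mul, neg_mul, ← sub_eq_add_neg] using this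
/-- `ν` is at most twice the distance of the flowed insertion from any constant -/
theorem ν_le_tr (h : Ins V.p (ρ + 1) F) (h1 : 1 ≤ ρ) (c : ℝ) :
    P.ν V ρ F ≤ 2 * P.N V V.p ρ fun s => P.L.tr V.σ V.p ρ F s - c := by
  rw [ν_eq, ← exN_tr hP hT h V.σ (z' := V.p) (by rw [ds_self, zero_add]; exact succ_le hP h1)]
  exact nrm_cen_le (lok hP) (tame_tr hP hT h _) c
theorem ν_le_N (h : Ins V.p (ρ + 1) F) (h1 : 1 ≤ ρ) (c : ℝ) :
    P.ν V ρ F ≤ 2 * P.N V V.p ρ fun s => F s - c := by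
  refine (ν_le_tr hP hT h h1 c).trans (mul_le_mul_of_nonneg_left ?_ zero_le_two)
  rw [← tr_sub_const (lok hP) h.2]
  exact nrm_tr_le hP hT (ins_sub_const h c) _ (by rw [ds_self, zero_add]; exact succ_le hP h1)
theorem ν_le_N' (h : Ins V.p (ρ + 1) F) (h1 : 1 ≤ ρ) : P.ν V ρ F ≤ 2 * P.N V V.p ρ F := by
  simpa only [sub_zero] using ν_le_N hP hT h h1 0
/-- flowing a part of the insertion first does not change `ν` -/
theorem ν_tr_mul {a : ℕ} (h : Ins z (a + 1) F) (hG : Out (bl z a) G) (hG' : Ins V.p (ρ + 1) G)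
    (hc : ds z V.p + a ≤ ρ) (h1 : 1 ≤ ρ) :
    P.ν V ρ (fun s => P.L.tr V.σ z a F s * G s) = P.ν V ρ fun s => F s * G s := by
  have := succ_le hP h1
  rw [ν_eq, ν_eq, tr_tr_mul hP hT h V.σ hG hG'.2 hc,
    exN_tr_mul hP hT h V.σ hG (ins_le hG' this) (by omega)]
theorem ν_tr {a : ℕ} (h : Ins z (a + 1) F) (hc : ds z V.p + a ≤ ρ) (h1 : 1 ≤ ρ) :
    P.ν V ρ (P.L.tr V.σ z a F) = P.ν V ρ F := by
  simpa only [mul_one] using ν_tr_mul hP hT h (Out.const _ 1) (ins_const _ _ 1) hc h1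

end nu

end Crest.Agent.T145.Vx.B30
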