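import Crest.Agent.T145.VxSum_34_Mg
import Crest.Agent.T145.TopDef_76
import Crest.Agent.T145.XyD_48
import Crest.Agent.T145.XyH_48
import Crest.Agent.T145.TauA_5

-- ▼ part T145/VxInfB_48
section

/-!
# Row 145 (helper48): the micro cross ratio of the XY two point function as a vortex-sector covariance
-/

set_option autoImplicit false

open Finset Filter Topology

noncomputable section

namespace Crest.Agent.T145.Inf48

variable {b : ℝ} {C : ℕ → ℝ} {Λ : Lat} {σ : Pt × Pt → ℤ}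




/-- the vertical edge crossing the axis at `i` -/
def eV (i : ℤ) : Pt × Pt := ((i, -1), (i, 0))

theorem eV_Jp (b : ℝ) (i : ℤ) : (eV i).2 - (eV i).1 ∈ (xyL b).Jp := by
  rw [Xy48.Jp_xyL]; simp [eV]




/-- the micro move `w (k + 1) / w k` -/
def mv (Λ : Lat) (σ : Pt × Pt → ℤ) (e : Pt × Pt) (s : Cfg Pt) : ℝ :=
  Λ.w (nE σ e s + 1) / Λ.w (nE σ e s)

theorem dens_one (e : Pt × Pt) : dens Λ {e} σ (σ + Pi.single e 1) = mv Λ σ e := by
  funext s
  simp [dens, mv, nE, add_assoc]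


theorem tendsto_mv (h : Λ.Ok) (hσ : FinS σ) {e : Pt × Pt} (he : e.2 - e.1 ∈ Λ.Jp) :
    Tendsto (fun D => Ex ((Λ.D D).Ws 0 σ) (mv Λ σ e)) atTop
      (𝓝 (ratI Λ (σ + Pi.single e 1) / ratI Λ σ)) := by
  have h1 := hσ.add (finS_single e 1)
  have h2 := (exI_dens h (S := {e}) (by simpa using he) (fun e' he' => by
    rw [Pi.add_apply, Pi.single_eq_of_ne (notMem_singleton.1 he'), add_zero]) hσ h1 (Lo.const 1)).1
  simpa only [mul_one, dens_one, exI_const h h1] using h2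






end Crest.Agent.T145.Inf48
end
end

-- ▼ part T145/VxCal_48

/-!
# Row 145 (helper48): the micro move is tame; the exact calibration identities
-/

set_option autoImplicit false

open Finset Filter Topology

noncomputable section

namespace Crest.Agent.T145.Inf48

variable {b : ℝ} {Λ : Lat} {σ σ' : Pt × Pt → ℤ} {F : Cfg Pt → ℝ}

theorem bes_succ_le (hb : 0 < b) (k : ℤ) : bes b (k + 1) / bes b k ≤ 1 + 2 / b * |(k : ℝ)| := by
  have hF : Fam (bes b) := ⟨true, b, hb, rfl⟩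
  have h0 := hF.pos k
  have ha : ∀ k l : ℤ, |k| ≤ |l| → bes b l ≤ bes b k := fun k l h => by
    rw [← hF.abs k, ← hF.abs l]
    generalize hm : |k| = m at h
    have hm0 : 0 ≤ m := hm ▸ abs_nonneg k
    generalize |l| = n at h
    induction n, h using Int.leInduction with
    | base => exact le_rfl
    | succ n hn ih =>
      refine le_trans ?_ ih
      have h1 := Tau5.bes_rec b (n + 1)
      have h2 : ∀ j : ℕ, bes b ((j : ℤ) + 1) ≤ bes b j := fun j => by
        induction j with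
        | zero => exact hF.pd.le _
        | succ j ih =>
          have h3 := hF.lc.2 ((j : ℤ) + 1)
          have h4 := hF.pos ((j : ℤ) + 1)
          have h5 := hF.pos j
          rw [add_sub_cancel_right] at h3
          push_cast
          by_contra h6
          push Not at h6
          nlinarith
      obtain ⟨j, rfl⟩ := Int.eq_ofNat_of_zero_le (hm0.trans hn)
      exact h2 j
  rw [div_le_iff₀ h0]
  rcases le_or_gt 0 k with hk | hk
  · have h1 := ha k (k + 1) (by rw [abs_of_nonneg hk, abs_of_nonneg (by omega)]; omega)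
    have h2 : 0 ≤ 2 / b * |(k : ℝ)| * bes b k := by positivity
    nlinarith
  · have h1 := ha k (k - 1) (by rw [abs_of_neg hk, abs_of_neg (by omega)]; omega)
    have h2 := Tau5.bes_rec b k
    have h3 : |(k : ℝ)| = -k := abs_of_neg (by exact_mod_cast hk)
    have h4 : 2 / b * -(k : ℝ) * bes b k = bes b (k + 1) - bes b (k - 1) := by
      field_simp
      linarith
    rw [h3, add_mul, h4]
    linarith

theorem mv_pos (h : Λ.Ok) (σ : Pt × Pt → ℤ) (e : Pt × Pt) (s : Cfg Pt) : 0 < mv Λ σ e s :=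
  div_pos (h.fam.pos _) (h.fam.pos _)

theorem mv_le (hb : 0 < b) (σ : Pt × Pt → ℤ) (e : Pt × Pt) (s : Cfg Pt) :
    mv (xyL b) σ e s ≤ 1 + 2 / b * |(nE σ e s : ℝ)| := bes_succ_le hb _

theorem tame_nE (σ : Pt × Pt → ℤ) (e : Pt × Pt) : Tame fun s => (nE σ e s : ℝ) :=
  ((Tame.dE e).add (Tame.const (σ e))).congr fun s => by rw [nE]; push_cast; rfl

theorem tame_mv (hb : 0 < b) (σ : Pt × Pt → ℤ) (e : Pt × Pt) : Tame (mv (xyL b) σ e) :=
  ((Tame.const 1).add ((tame_nE σ e).abs.const_mul (2 / b))).of_le fun s => by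
    rw [abs_of_pos (mv_pos (xyL_ok hb) σ e s)]
    exact mv_le hb σ e s

theorem depG_mv (Λ : Lat) (σ : Pt × Pt → ℤ) {e : Pt × Pt} {B : Finset Pt} (h1 : e.1 ∈ B)
    (h2 : e.2 ∈ B) : DepG B (mv Λ σ e) :=
  (DepG.dE h1 h2).comp fun k => Λ.w (k + σ e + 1) / Λ.w (k + σ e)

theorem lo_mv (hb : 0 < b) (σ : Pt × Pt → ℤ) (e : Pt × Pt) : Lo (mv (xyL b) σ e) :=
  ⟨⟨{e.1, e.2}, depG_mv _ σ (by simp) (by simp)⟩, tame_mv hb σ e⟩

/-- a linear functional of the gauge invariant gradients -/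
def Yf (T : Finset (Pt × Pt)) (ψ : Pt × Pt → ℝ) (σ : Pt × Pt → ℤ) (s : Cfg Pt) : ℝ :=
  ∑ e ∈ T, ψ e * nE σ e s

theorem lo_Yf (T : Finset (Pt × Pt)) (ψ : Pt × Pt → ℝ) (σ : Pt × Pt → ℤ) : Lo (Yf T ψ σ) :=
  Lo.sum T fun e _ => (Lo.edge e σ (fun k => (k : ℝ)) (tame_nE σ e)).const_mul _



theorem exI_mv_mul (h : Λ.Ok) (hσ : FinS σ) {e : Pt × Pt} (he : e.2 - e.1 ∈ Λ.Jp) (hF : Lo F) :
    exI Λ σ (fun s => mv Λ σ e s * F s) =
      ratI Λ (σ + Pi.single e 1) / ratI Λ σ * exI Λ (σ + Pi.single e 1) F := by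
  have h2 := (exI_dens h (S := {e}) (by simpa using he) (fun e' he' => by
    rw [Pi.add_apply, Pi.single_eq_of_ne (notMem_singleton.1 he'), add_zero]) hσ
    (hσ.add (finS_single e 1)) hF).2
  rwa [dens_one] at h2

theorem exI_mv (h : Λ.Ok) (hσ : FinS σ) {e : Pt × Pt} (he : e.2 - e.1 ∈ Λ.Jp) :
    exI Λ σ (mv Λ σ e) = ratI Λ (σ + Pi.single e 1) / ratI Λ σ :=
  (tendsto_mv h hσ he).limUnder_eq

/-- infinite-volume covariance -/
def cvI (Λ : Lat) (σ : Pt × Pt → ℤ) (F G : Cfg Pt → ℝ) : ℝ :=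
  exI Λ σ (fun s => F s * G s) - exI Λ σ F * exI Λ σ G

theorem tendsto_cvI (h : Λ.Ok) (hσ : FinS σ) {G : Cfg Pt → ℝ} (hF : Lo F) (hG : Lo G) :
    Tendsto (fun D => Cv ((Λ.D D).Ws 0 σ) F G) atTop (𝓝 (cvI Λ σ F G)) :=
  (tendsto_exI h hσ (hF.mul hG)).sub ((tendsto_exI h hσ hF).mul (tendsto_exI h hσ hG))





end Crest.Agent.T145.Inf48
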