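import Crest.Agent.T145.KvRm_78
import Crest.Agent.T145.KsC_68
import Crest.Agent.T145.KvDef_8
import Crest.Agent.T145.NcAll_78
import Crest.Agent.T145.NcT4Def_78
import Crest.Agent.T145.KrKs_90
import Crest.Agent.T145.KrBar_90
import Crest.Agent.T145.KrKsh_77
import Crest.Agent.T145.KrTyp_74
import Crest.Agent.T145.Br_73
import Crest.Agent.T145.Soft_23
import Crest.Agent.T145.KvOut_90
import Crest.Agent.T145.KsT_68
import Crest.Agent.T145.VxDef_35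
import Crest.Agent.T145.EsK_28
import Crest.Agent.T145.VxBas_30
import Crest.Agent.T145.VxCal_48

-- ▼ part T145/KvRmv_78
section

/-!
# Row 145 (helper78): removal of the slit, `Kv.RmvStmt`
-/

set_option autoImplicit false

namespace Crest.Agent.T145.Kv78

open Finset Nc Ks68

section gen
variable {V : Type} [DecidableEq V] {m m' : Mdl V} {N S U K T X S' Y : Finset V} {σ : V × V → ℤ}
  {ψ : Cfg V}

/-- a gradient seam has weight one in a free model -/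
theorem zr_grad {r : V} (hF : m.Fm) (hY : Cn m Y) (hr : r ∈ Y) (hσ : ∀ e ∈ inn Y m.ed, σ e = dE e ψ) :
    zr (pn m Y {r}) σ = 1 := by
  rw [zr, div_eq_one_iff_eq (pn_wt hF hY hr (mem_singleton_self r) 0).ne,
    ← Zs_equiv (Equiv.addRight (pj Y r ψ)) ((pn m Y {r}).W 0)]
  refine congrArg _ (funext fun t => ?_)
  have h := Md.Ws_gauge (pn m Y {r}) 0 (pj Y r ψ) t 0 fun _ _ _ => rfl
  rw [Sl46.Ws_congr (pn m Y {r}) 0 (σ' := σ) fun e he => by
    rw [Pi.zero_apply, zero_add, dE_pj (mem_filter.1 he).2, hσ e he]] at h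
  rw [Equiv.coe_addRight, Md.W_eq_Ws, ← h, Mdl.Ws, Mdl.Ws]
  congr 2
  exact ind_congr (forall₂_congr fun x hx => by
    rw [Finsupp.add_apply 0, pj_off ψ hx, add_zero])

/-- filling a hole costs little in a sector whose seam only crosses the neighbourhood of the hole -/
theorem zr_ge (hc : m.Ctr) (ha : m.Anch) (h : Cut m N S U K T) (hX : Box (hole m N) X S')
    (hl : Cl (hole m N) X) (hh : (hole (hole m N) X).Anch) (hU : U ⊆ X) (hd : Disjoint N X)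
    (hσ : ∀ e ∈ inn (N ∪ X) m.ed, σ e = dE e ψ) :
    zr (hole m N) σ - zr m σ ≤ cr (hole m N) X T S' * (cr m U K T - 1) := by
  obtain ⟨r, hr⟩ := h.tne
  have hrU := h.tsub hr
  have hn : N.Nonempty := h.ne.mono h.sub
  have ch := hole_ctr hc N
  have ah := h.hole_anch ha
  set c := cr m U K T with hcd
  have c0 : 0 < c := cr_pos hc.1 h.cnU h.tsub h.tne K
  have p0 : ∀ s, 0 < (hdt m σ N U T s)⁻¹ := fun s => inv_pos.2 (hdt_pos hc.1 h σ s)
  have p1 : ∀ s, (hdt m σ N U T s)⁻¹ ≤ c := fun s => (inv_hdt_le hc.1 h σ s).trans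
    (mul_le_of_le_one_right c0.le (zr_le_one (fr_ctr hc.1 _) (fr_anch h.cn hn) σ))
  have p2 : ∀ s, |(hdt m σ N U T s)⁻¹| ≤ c := fun s => by rw [abs_of_pos (p0 s)]; exact p1 s
  have dF : DepG T fun s => c - (hdt m σ N U T s)⁻¹ := (hdt_depG h σ).comp fun a => c - a⁻¹
  have hTX := h.tsub.trans hU
  have k1 := (td1_one ch ah hX hl hTX hh σ dF (fun s => sub_nonneg.2 (p1 s))
    ((wt_rWs ch.1 hX.cn ⟨r, hTX hr⟩ σ).ig_bdd (C := c) fun s => by
      rw [abs_of_nonneg (sub_nonneg.2 (p1 s))]; linarith [p0 s])).2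
  have cn : Cn m (N ∪ X) := by
    have k : ∀ x ∈ N ∪ X, Conn (inn (N ∪ X) m.ed) x r := fun x hx => (mem_union.1 hx).elim
      (fun hx => (h.cn_union x (mem_union_left _ hx) r (mem_union_right _ hrU)).mono fun e he =>
        mem_filter.2 ⟨(mem_filter.1 he).1, union_subset_union_right hU (mem_filter.1 he).2.1,
          union_subset_union_right hU (mem_filter.1 he).2.2⟩)
      fun hx => (hX.cn x hx r (hTX hr)).mono fun e he =>
        mem_filter.2 ⟨(mem_hole_ed.1 (mem_filter.1 he).1).1, mem_union_right _ (mem_filter.1 he).2.1,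
          mem_union_right _ (mem_filter.1 he).2.2⟩
    exact fun x hx y hy => (k x hx).trans (k y hy).symm
  have hrX : r ∈ N ∪ X := mem_union_right _ (hTX hr)
  have c2 := pn_ctr hc.1 (N ∪ X) {r}
  have a2 := pn_anch cn hrX (mem_singleton_self r)
  have h2 := h.pn (R := {r}) (union_subset_union_right hU)
    (disjoint_singleton_right.2 (disjoint_right.1 h.disjT hr))
  have k2 := zr_glue c2 a2 h2 σ
  have k3 := (kap_bd c2 a2 h2).2
  have c3 := pn_ctr hc.1 X {r}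
  have a3 : (pn m X {r}).Anch := pn_anch ((agr_hole hd).cn hX.cn) (hTX hr) (mem_singleton_self r)
  rw [zr_grad hc.1 cn hrX hσ, hole_pn hd, hdt_congr h2 h (agr_pn (union_subset_union_right hU) _)] at k2
  have k4 : 1 ≤ zx (pn m X {r}) σ fun s => (hdt m σ N U T s)⁻¹ :=
    k2.trans_le (mul_le_of_le_one_left (zx_nonneg c3 σ fun s => (p0 s).le) k3)
  rw [zx_root (hTX hr) (dF.mono hTX), Hd10.pn_hole hd, (zx_add_sub c3 a3 σ p2).2,
    (zx_add_sub ch ah σ p2).2] at k1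
  have k5 := zr_le_one c3 a3 σ
  have k6 := zr_le_one (hole_ctr ch X) hh σ
  have k7 := zr_pos (hole_ctr ch X) hh σ
  have c4 : 0 ≤ cr (hole m N) X T S' := cr_nonneg ch.1 _ _ _
  obtain ⟨k8, k9⟩ := kap_bd hc ha h
  have c1 : 1 ≤ c := (div_le_one c0).1 (k8.trans k9)
  have k10 : c * zr (hole m N) σ - zx (hole m N) σ (fun s => (hdt m σ N U T s)⁻¹) ≤
      cr (hole m N) X T S' * (c - 1) := by
    refine k1.trans ?_
    calc _ ≤ cr (hole m N) X T S' * (c - 1) * zr (hole (hole m N) X) σ :=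
          mul_le_mul_of_nonneg_right (mul_le_mul_of_nonneg_left (by nlinarith) c4) k7.le
      _ ≤ _ := mul_le_of_le_one_right (mul_nonneg c4 (sub_nonneg.2 c1)) k6
  have k11 : zx (hole m N) σ (fun s => (hdt m σ N U T s)⁻¹) ≤ c * zr m σ := by
    rw [zr_glue hc ha h σ, ← mul_assoc]
    refine le_mul_of_one_le_left (zx_nonneg ch σ fun s => (p0 s).le) ?_
    rwa [div_le_iff₀' c0] at k8
  refine le_of_mul_le_mul_left ?_ c0
  nlinarith [mul_nonneg c4 (sub_nonneg.2 c1)]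

/-- **removal of a hole**, three scales -/
theorem rem_hole' (hc : m.Ctr) (ha : m.Anch) (h : Cut m N S U K T) (hX : Box (hole m N) X S')
    (hl : Cl (hole m N) X) (hh : (hole (hole m N) X).Anch) (hU : U ⊆ X) (hd : Disjoint N X)
    (hσ : ∀ e ∈ inn (N ∪ X) m.ed, σ e = dE e ψ) {g D C : ℝ} (hg : cr m U K T ≤ 1 + g)
    (hD : cr (hole m N) X T S' ≤ D) {G : Cfg V → ℝ} (oG : Out (N ∪ U \ T) G) (hG : ∀ s, |G s| ≤ C) :
    |zx m σ G - zx (hole m N) σ G| ≤ (2 + D) * g * C := by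
  have ch := hole_ctr hc N
  have ah := h.hole_anch ha
  have k1 := zr_ge hc ha h hX hl hh hU hd hσ
  set c := cr m U K T with hcd
  have c1 : 1 ≤ c := by
    obtain ⟨k2, k3⟩ := kap_bd hc ha h
    exact (div_le_one (cr_pos hc.1 h.cnU h.tsub h.tne K)).1 (k2.trans k3)
  have c4 : 0 ≤ cr (hole m N) X T S' := cr_nonneg ch.1 _ _ _
  have C0 : 0 ≤ C := (abs_nonneg _).trans (hG 0)
  have wh := Md.ctr_wts ch ah 0 σ
  have u1 := zx_le hc ha h σ (G := fun s => C + G s) (oG.comp fun a => C + a)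
    (fun s => by linarith [neg_abs_le (G s), hG s]) ((wh.ig_const _).add (wh.ig_bdd hG))
  have u2 := zx_le hc ha h σ (G := fun s => C - G s) (oG.comp fun a => C - a)
    (fun s => by linarith [le_abs_self (G s), hG s]) ((wh.ig_const _).sub (wh.ig_bdd hG))
  rw [(zx_add_sub hc ha _ hG).1, (zx_add_sub ch ah _ hG).1] at u1
  rw [(zx_add_sub hc ha _ hG).2, (zx_add_sub ch ah _ hG).2] at u2
  have u3 := abs_le.1 (abs_zx_le ch ah σ hG)
  have g1 : c - 1 ≤ g := by linarith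
  have a1 : C * (zr (hole m N) σ - zr m σ) ≤ C * (D * g) := mul_le_mul_of_nonneg_left
    (k1.trans (mul_le_mul hD g1 (sub_nonneg.2 c1) (c4.trans hD))) C0
  have a2 : (c - 1) * (C * zr (hole m N) σ) ≤ g * C :=
    mul_le_mul g1 (mul_le_of_le_one_right C0 (zr_le_one ch ah σ))
      (mul_nonneg C0 (zr_pos ch ah σ).le) (by linarith)
  have b1 := mul_le_mul_of_nonneg_left u3.1 (sub_nonneg.2 c1)
  have b2 := mul_le_mul_of_nonneg_left u3.2 (sub_nonneg.2 c1)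
  rw [abs_le]
  constructor <;> nlinarith

theorem hole_keep {E : Finset (V × V)} (hE : E ⊆ m.ed) (h : ∀ e ∈ m.ed, e ∉ E → e.1 ∈ N ∧ e.2 ∈ N) :
    hole (m.keep E) N = hole m N := by
  have : E.filter (fun e => e.1 ∉ N ∧ e.2 ∉ N) = m.ed.filter fun e => e.1 ∉ N ∧ e.2 ∉ N := by
    ext e; simp only [mem_filter]
    exact ⟨fun k => ⟨hE k.1, k.2⟩, fun k => ⟨by_contra fun k' => k.2.1 (h e k.1 k').1, k.2⟩⟩
  simp only [hole, Mdl.keep, this]

theorem cut_keep {E : Finset (V × V)} (h : Cut m N S U K T) (hE : E ⊆ m.ed)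
    (hN : ∀ e ∈ m.ed, e ∉ E → e.1 ∈ N ∧ e.2 ∈ N) (cn : Cn (m.keep E) N) : Cut (m.keep E) N S U K T where
  cn := cn
  sub := h.sub
  ne := h.ne
  cl := h.cl
  bd := (bd_mono_ed (m' := m.keep E) hE _).trans h.bd
  clN := h.clN
  disj := h.disj
  cnU := (agr_hole (m := m.keep E) h.disj).cn (by
    rw [hole_keep hE hN]; exact (agr_hole h.disj).symm.cn h.cnU)
  clU := h.clU
  ksub := h.ksub
  kne := h.kne
  kbd := (bd_mono_ed (m' := m.keep E) hE _).trans h.kbd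
  bne := by
    obtain ⟨b, hb⟩ := h.bne
    obtain ⟨h1, e, he, h2⟩ := Mdl.mem_bd.1 hb
    refine ⟨b, Mdl.mem_bd.2 ⟨h1, e, by_contra fun k => h1 ?_, h2⟩⟩
    rcases h2 with ⟨rfl, _⟩ | ⟨rfl, _⟩
    exacts [(hN e he k).1, (hN e he k).2]
  tsub := h.tsub
  tne := h.tne
  tbd := (bd_mono_ed (m' := m.keep E) hE _).trans h.tbd

/-- **removal of a slit**: edges inside `N` are deleted -/
theorem rem_keep {E : Finset (V × V)} (hc : m.Ctr) (ha' : (m.keep E).Anch) (h : Cut m N S U K T)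
    (hE : E ⊆ m.ed) (hN : ∀ e ∈ m.ed, e ∉ E → e.1 ∈ N ∧ e.2 ∈ N) (cn : Cn (m.keep E) N)
    (hX : Box (hole m N) X S') (hl : Cl (hole m N) X) (hh : (hole (hole m N) X).Anch) (hU : U ⊆ X)
    (hd : Disjoint N X) (hσ : ∀ e ∈ inn (N ∪ X) m.ed, σ e = dE e ψ) {g D C : ℝ}
    (hg : cr m U K T ≤ 1 + g) (hD : cr (hole m N) X T S' ≤ D) {G : Cfg V → ℝ} (oG : Out (N ∪ U \ T) G)
    (hG : ∀ s, |G s| ≤ C) :
    zr m σ * |Ex (m.Ws 0 σ) G - Ex ((m.keep E).Ws 0 σ) G| ≤ 4 * (2 + D) * g * C := by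
  have ha := ha'.of_keep hE
  have hc' := hc.keep hE
  have e := hole_keep hE hN
  have ag : Agr (m.keep E) m U := (agr_hole (m := m.keep E) h.disj).symm.trans (e ▸ agr_hole h.disj)
  have key : ∀ {G : Cfg V → ℝ} {C : ℝ}, Out (N ∪ U \ T) G → (∀ s, |G s| ≤ C) →
      |zx m σ G - zx (m.keep E) σ G| ≤ 2 * (2 + D) * g * C := fun oG hG => by
    have k1 := rem_hole' hc ha h hX hl hh hU hd hσ hg hD oG hG
    have k2 := rem_hole' hc' ha' (cut_keep h hE hN cn) (e ▸ hX) (e ▸ hl) (e ▸ hh) hU hd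
      (fun e he => hσ e (mem_filter.2 ⟨hE (mem_filter.1 he).1, (mem_filter.1 he).2⟩))
      (by rwa [ag.cr]) (e ▸ hD) oG hG
    rw [e] at k2
    rw [abs_le] at k1 k2 ⊢
    constructor <;> linarith
  have k1 := key (G := fun _ => 1) (C := 1) (Out.const _ _) fun _ => by simp
  rw [zx_one, zx_one, mul_one] at k1
  have k2 := ex_of_zx hc ha hc' ha' hG k1 (key oG hG)
  rw [le_div_iff₀' (zr_pos hc ha σ)] at k2
  linarith

end gen

open Geo Vd

/-- the lattice form: a horizontal slit of vertical edges inside `bl (ρ, 0) q` -/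
theorem rem_lat {Λ : Lat} (hΛ : Λ.Ok) (hJ : Λ.J = nn) {Ω : Finset Pt} {r : Pt} {E : Finset (Pt × Pt)}
    {ρ q R b : ℕ} (q1 : 1 ≤ q) (hq : q ≤ R) (hb : R + 2 ≤ b) (hρ : b ≤ ρ)
    (hΩ : bl ((ρ : ℤ), 0) (b + 1) ⊆ Ω) (hr : r ∉ bl ((ρ : ℤ), 0) b) (hE : E ⊆ Λ.edI Ω)
    (hs : ∀ e ∈ Λ.edI Ω, e ∉ E → (ρ : ℤ) - q < e.1.1 ∧ e.1.1 ≤ ρ + q ∧ e.1.2 = -1 ∧ e.2 = e.1 + (0, 1))
    (cn : ∀ x ∈ Ω, Conn E x r) {g D C : ℝ} (hg : gam Λ q (R + 1) ≤ 1 + g) (hD : gam Λ R b ≤ D)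
    {G : Cfg Pt → ℝ} (oG : Out (bl ((ρ : ℤ), 0) R) G) (hG : ∀ s, |G s| ≤ C) :
    zr (pn (Λ.N Ω) Ω {r}) (ray 0) * |Ex ((pn (Λ.N Ω) Ω {r}).Ws 0 (ray 0)) G -
      Ex (((pn (Λ.N Ω) Ω {r}).keep E).Ws 0 (ray 0)) G| ≤ 4 * (2 + D) * g * C := by
  have rg : Λ.rg = 1 := by rw [Lat.rg, hJ]; decide
  have jp : ∀ {e : Pt × Pt}, e.2 - e.1 ∈ Λ.Jp →
      (e.2.1 = e.1.1 + 1 ∧ e.2.2 = e.1.2) ∨ (e.2.1 = e.1.1 ∧ e.2.2 = e.1.2 + 1) := fun {e} h => by
    rw [show Λ.Jp = {(1, 0), (0, 1)} by rw [Lat.Jp, hJ]; decide, mem_insert, mem_singleton,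
      Prod.ext_iff, Prod.ext_iff] at h
    simp only [Prod.fst_sub, Prod.snd_sub] at h
    omega
  set z : Pt := ((ρ : ℤ), 0) with hz
  set m := pn (Λ.N Ω) Ω {r} with hm
  have ed : m.ed = Λ.edI Ω := Lat.inn_edI Subset.rfl
  have hF : (Λ.N Ω).Fm := fun _ _ => hΛ.fam
  have hc : m.Ctr := pn_ctr hF _ _
  have ha' : (m.keep E).Anch := fun x hx =>
    ⟨r, cn x (mem_sdiff.1 hx).1, Or.inl fun h => (mem_sdiff.1 h).2 (mem_singleton_self r)⟩
  have ha : m.Anch := ha'.of_keep (ed ▸ hE)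
  have lh : Lh Λ m ∅ z b := ⟨fun e he _ => ⟨(Lat.mem_edI.1 (ed ▸ he)).1, notMem_empty _, notMem_empty _⟩,
    by rw [sdiff_empty, rg]; exact (inL_N hΩ).pn hΩ _,
    by rw [sdiff_empty]; exact cl_pn ((bl_mono z (by omega)).trans hΩ) (disjoint_singleton_right.2 hr)⟩
  have lR : Lh Λ m ∅ z R := lh.mono (by omega)
  have cut := lR.cut0 hΛ (c := q) (by omega) hq
  have eB : bl z q ∪ an z q (R + Λ.rg) \ an z R (R + Λ.rg) = bl z R := by
    rw [an_sdiff_an z q (by omega), bl_union_an z hq]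
  have lH := lh.hole0 (bl z q)
  have hN : ∀ e ∈ m.ed, e ∉ E → e.1 ∈ bl z q ∧ e.2 ∈ bl z q := fun e he h => by
    obtain ⟨h1, h2, h3, h4⟩ := hs e (ed ▸ he) h
    rw [h4]; simp only [mem_bl, hz, Prod.fst_add, Prod.snd_add]; omega
  have sub : ∀ {P : Pt → Prop} [DecidablePred P], (∀ x, P x → P (x + (0, 1)) → x.2 = -1 →
      x.1 ≤ (ρ : ℤ) - q) → Λ.edI ((bl z q).filter P) ⊆ inn (bl z q) E := fun hP e he => by
    obtain ⟨h1, h2, h3⟩ := Lat.mem_edI.1 he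
    have hz' : bl z q ⊆ Ω := (bl_mono z (by omega)).trans hΩ
    refine mem_filter.2 ⟨by_contra fun k => ?_, (mem_filter.1 h2).1, (mem_filter.1 h3).1⟩
    obtain ⟨k1, -, k3, k4⟩ := hs e (Lat.mem_edI.2 ⟨h1, hz' (mem_filter.1 h2).1, hz' (mem_filter.1 h3).1⟩) k
    have := hP e.1 (mem_filter.1 h2).2 (k4 ▸ (mem_filter.1 h3).2) k3
    omega
  have cnE : Cn (m.keep E) (bl z q) := by
    have k : ∀ x ∈ bl z q, Conn (inn (bl z q) E) x ((ρ : ℤ) - q, 0) := fun x hx =>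
      ((hΛ.conn_rect (y := ((ρ : ℤ) - q, x.2)) (B := (bl z q).filter fun w => w.2 = x.2)
        fun w _ _ _ _ => by simp only [mem_filter, mem_bl, hz] at *; omega).mono
          (sub fun w h1 h2 _ => by simp only [Prod.snd_add] at h2; omega)).trans
      ((hΛ.conn_rect (B := (bl z q).filter fun w => w.1 = (ρ : ℤ) - q)
        fun w _ _ _ _ => by simp only [mem_filter, mem_bl, hz] at *; omega).mono
          (sub fun w h1 _ _ => h1.le))
    exact fun x hx y hy => (k x hx).trans (k y hy).symm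
  refine rem_keep (X := an z q b) (S' := an z (b - Λ.rg) b)
    (ψ := cst ((bl z b).filter fun x => 0 ≤ x.2) 1) hc ha' cut (ed ▸ hE) hN cnE
    ((lH.mono (by omega)).box' hΛ (by omega) (bl_mono z (by omega)) (cnL_an hΛ z (by omega))) lH.cl
    (by rw [hole_hole, bl_union_an z (by omega)]; exact lh.anch_hole hΛ ha le_rfl)
    (an_mono z le_rfl (by omega)) (disjoint_bl_an z b le_rfl) (fun e he => ?_)
    (by rw [lR.cr_cut hΛ (empty_subset _) hq, rg]; exact hg)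
    ((InL.cr_le U.monoCr hΛ (Nc.hole_ctr hc _).1 ((lH.inL_an Subset.rfl).mono (an_mono z le_rfl (by omega)))
      (cnL_an hΛ z (by omega)) (an_mono z hq le_rfl) (an_subset_bl z q b) (an_mono z hq (by omega))
      (an_subset_bl z R _) (an_nonempty z (by omega)) (by omega)).trans hD) (eB.symm ▸ oG) hG
  rw [bl_union_an z (by omega), ed] at he
  obtain ⟨h1, h2, h3⟩ := mem_filter.1 he
  have h4 := jp (Lat.mem_edI.1 h1).1
  simp only [dE, cst_apply, mem_filter, h2, h3, true_and, ray, Prod.fst_zero, Prod.snd_zero]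
  simp only [mem_bl, hz] at h2 h3
  split_ifs <;> omega

end Crest.Agent.T145.Kv78

namespace Crest.Agent.T145.Kv

open Finset Nc Ks68 Geo Kv78 Vd

theorem scales (C t ω ρ : ℕ) (hω : 1 ≤ ω) (h : ρ = 2 ^ (3 * C + 4 + t) * ω) : ∃ R b : ℕ, 5 * ω ≤ R ∧
    R + 2 ≤ b ∧ C * (5 * ω) ≤ R ∧ C * R ≤ b ∧ C * b ≤ 2 * ρ ∧ 2 * b ≤ ρ + 4 ∧ 2 ^ t * (5 * ω) ≤ R + 1 := by
  have hP : C < 2 ^ C := Nat.lt_two_pow_self
  have u1 : ω ≤ 2 ^ t * ω := Nat.le_mul_of_pos_left _ Nat.one_le_two_pow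
  have e : ρ = 2 * (2 ^ C * (2 ^ C * (2 ^ C * (8 * (2 ^ t * ω))))) := by rw [h]; ring
  rw [mul_left_comm (2 ^ t)]
  generalize 2 ^ C = P at hP e
  generalize 2 ^ t * ω = u at u1 e ⊢
  have P1 : 1 ≤ P := by omega
  have r0 : C * (5 * ω) ≤ P * (8 * u) := Nat.mul_le_mul hP.le (by omega)
  have r1 : 8 * u ≤ P * (8 * u) := Nat.le_mul_of_pos_left _ P1
  generalize P * (8 * u) = R at r0 r1 e
  have r2 : R ≤ P * R := Nat.le_mul_of_pos_left _ P1
  have r3 : P * R ≤ P * (P * R) := Nat.le_mul_of_pos_left _ P1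
  have r4 : P ≤ P * R := Nat.le_mul_of_pos_right _ (by omega)
  have r5 : C * R ≤ P * R := Nat.mul_le_mul_right _ hP.le
  have r6 : C * (P * R + 2) ≤ P * (P * R + 2) := Nat.mul_le_mul_right _ hP.le
  rw [mul_add P] at r6
  refine ⟨R, P * R + 2, ?_, ?_, ?_, ?_, ?_, ?_, ?_⟩ <;> omega

theorem rmvStmt (hR : RateStmt) (hG : GeoStmt) : RmvStmt := by
  intro F θ₀ hJ h0
  obtain ⟨C, c, c0, H⟩ := hR F θ₀ h0
  have C0 : (0 : ℝ) ≤ C := Nat.cast_nonneg _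
  refine ⟨(4 * (3 + C) * C + 2) * 2 ^ (c * (3 * C + 4 : ℕ)), c, c0, fun W K j _ =>
    ⟨1, one_pos, fun Λ hΛ l L hw V hV hj hA Φ B dΦ bΦ => ?_⟩⟩
  have g := hG V W hV
  have ok := hΛ.ok
  have hJ' : Λ.J = nn := hΛ.1.trans hJ
  have B0 : 0 ≤ B := (abs_nonneg _).trans (bΦ 0)
  have eI : Pot.nL.edI V.G.Om = Λ.edI V.G.Om := by
    simp only [Lat.edI, Lat.edT, Lat.Jp, hJ']; rfl
  have o1 := hV.g.hc
  have o2 := hV.g.out
  have o3 := g.r_le
  have o4 := g.rho_le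
  have o5 := g.ω16
  have o6 := g.ω_le
  have sub : V.G.In ∪ V.G.Ou ⊆ V.G.Om :=
    union_subset (an_mono 0 le_rfl (by omega)) (an_mono 0 (by omega) le_rfl)
  have rt : V.rt ∈ V.G.Om := sub (mem_union_right _ g.k_off.2.2.2)
  have hE : V.EO ⊆ Λ.edI V.G.Om := eI ▸ filter_subset _ _
  have e1 : TV Λ V.G = zr (pn (Λ.N V.G.Om) V.G.Om {V.rt}) (ray 0) := zr_root rt
  have e2 : EV Λ V.G Φ = Ex ((pn (Λ.N V.G.Om) V.G.Om {V.rt}).Ws 0 (ray 0)) Φ :=
    Ks68.ex_root rt (dΦ.mono sub)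
  have e3 : V.ES Λ Φ = Ex (((pn (Λ.N V.G.Om) V.G.Om {V.rt}).keep V.EO).Ws 0 (ray 0)) Φ := by
    rw [Gv.ES, Gv.sl, ← sdiff_singleton_eq_erase]; rfl
  have hc := pn_ctr (m := Λ.N V.G.Om) (fun _ _ => ok.fam) V.G.Om {V.rt}
  have ha' : ((pn (Λ.N V.G.Om) V.G.Om {V.rt}).keep V.EO).Anch := fun x hx =>
    ⟨V.rt, g.conn x (mem_sdiff.1 hx).1, Or.inl fun h => (mem_sdiff.1 h).2 (mem_singleton_self _)⟩
  have hE' : V.EO ⊆ (pn (Λ.N V.G.Om) V.G.Om {V.rt}).ed := hE.trans (Lat.inn_edI Subset.rfl).ge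
  have ha := ha'.of_keep hE'
  rw [e1, e2, e3, mul_assoc, mul_assoc, ← mul_assoc ((2 : ℝ) ^ _), ← Real.rpow_add two_pos]
  by_cases hs : j < 3 * C + 4
  · have k1 := (Md.ctr_wts hc ha 0 (ray 0)).abs_ex_le fun s _ => bΦ s
    have k2 := (Md.ctr_wts (hc.keep hE') ha' 0 (ray 0)).abs_ex_le fun s _ => bΦ s
    have k3 : (1 : ℝ) ≤ 2 ^ (c * (3 * C + 4 : ℕ) + -(c * j)) := Real.one_le_rpow one_le_two (by
      have : (j : ℝ) ≤ (3 * C + 4 : ℕ) := Nat.cast_le.2 hs.le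
      nlinarith)
    refine (mul_le_of_le_one_left (abs_nonneg _) (zr_le_one hc ha _)).trans
      (((abs_sub _ _).trans (add_le_add k1 k2)).trans ?_)
    have k4 : B ≤ 2 ^ (c * (3 * C + 4 : ℕ) + -(c * j)) * B := le_mul_of_one_le_left B0 k3
    have k5 := mul_nonneg (mul_nonneg (by positivity : (0 : ℝ) ≤ 4 * (3 + C)) C0) (B0.trans k4)
    linarith
  obtain ⟨t, ht⟩ := Nat.exists_eq_add_of_le (not_lt.1 hs)
  obtain ⟨R, b, r1, r2, r3, r4, r5, r6, r7⟩ := scales C t V.ω V.G.rho (by omega) (by rw [g.rho_eq, hj, ht])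
  have hL := hA.1
  have st : Stf Λ θ₀ (2 * L) := Or.inl hw.2.2.1
  have g1 := H Λ hΛ (2 * L) (5 * V.ω) (R + 1) st (by omega) (by omega)
    ((Nat.mul_le_mul_left C (show R + 1 ≤ b by omega)).trans (by omega))
  have g2 := H Λ hΛ (2 * L) R b st (by omega) r4 (by omega)
  have g3 : gam Λ R b ≤ 1 + C := g2.trans (by
    have : ((R : ℝ) / b) ^ c ≤ 1 := Real.rpow_le_one (by positivity)
      (div_le_one_of_le₀ (Nat.cast_le.2 (by omega)) (Nat.cast_nonneg _)) c0.le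
    linarith [mul_le_of_le_one_right C0 this])
  have g4 : (((5 * V.ω : ℕ) : ℝ) / (R + 1 : ℕ)) ^ c ≤ 2 ^ (c * (3 * C + 4 : ℕ) + -(c * j)) := by
    rw [show c * (3 * C + 4 : ℕ) + -(c * j) = (-(t : ℝ)) * c by rw [ht]; push_cast; ring,
      Real.rpow_mul zero_le_two]
    refine Real.rpow_le_rpow (by positivity) ?_ c0.le
    rw [Real.rpow_neg zero_le_two, Real.rpow_natCast, div_le_iff₀ (by positivity),
      le_inv_mul_iff₀ (by positivity)]
    exact_mod_cast r7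
  have k := rem_lat ok hJ' (Ω := V.G.Om) (r := V.rt) (E := V.EO) (ρ := V.G.rho) (q := 5 * V.ω) (R := R)
    (b := b) (by omega) (by omega) (by omega) (by omega)
    (fun x hx => by simp only [Kr.Gm.Om, mem_an, mem_bl, Prod.fst_zero, Prod.snd_zero] at hx ⊢; omega)
    (by simp only [Gv.rt, mem_bl]; omega) hE (fun e he h => ?_) g.conn g1 g3
    (dΦ.dep.out (disjoint_left.2 fun x hx hx' => by
      simp only [Kr.Gm.In, Kr.Gm.Ou, mem_union, mem_an, mem_bl, Prod.fst_zero, Prod.snd_zero] at hx hx'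
      omega)) bΦ
  · refine k.trans ?_
    have k4 := mul_le_mul_of_nonneg_right g4 B0
    have k5 : 0 ≤ 2 ^ (c * (3 * C + 4 : ℕ) + -(c * j)) * B := by positivity
    have k6 := mul_le_mul_of_nonneg_left k4 (by positivity : (0 : ℝ) ≤ 4 * (3 + C) * C)
    linarith
  · obtain ⟨h1, h2, h3⟩ := (g.slit e (eI ▸ he)).1 h
    simp only [Gv.lip, Gv.up, Gv.lo, mem_filter, mem_union, mem_sq] at h1
    refine ⟨?_, ?_, h2, h3⟩ <;> omega

end Crest.Agent.T145.Kv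
end

-- ▼ part T145/KrV_90
section

/-!
# Row 145: sectors without parity (mixing, rank-one dipole expansion), conditional laws (helper90)
-/

set_option autoImplicit false

namespace Crest.Agent.T145.KrA

open Finset Real

variable {X Y : Type*}

namespace Fac
variable {μ : X × Y → ℝ} {p : X → ℝ} {q : Y → ℝ} {κ : X → Y → ℝ} {η ω : ℝ}

theorem mono (h : Fac μ p q κ η ω) {η' ω' : ℝ} (h1 : η ≤ η') (h2 : η' ≤ 1 / 2) (h3 : ω ≤ ω')
    (h4 : ω' ≤ 1 / 2) : Fac μ p q κ η' ω' :=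
  { h with
    close := h.close.trans h1
    κ1 := fun a b ha hb => (h.κ1 a b ha hb).trans h3
    η1 := h2
    ω0 := h.ω0.trans h3
    ω1 := h4 }



theorem br_cen (h : Fac μ p q κ η ω) {F : X → ℝ} {Φ : X → Y → ℝ} {N B : ℝ} (hF : ∀ a, |F a| ≤ N)
    (hΦ : ∀ a b, |Φ a b| ≤ B) (c : ℝ) :
    br μ (fun a b => (F a - c) * Φ a b) = br μ (fun a b => F a * Φ a b) - c * br μ Φ := by
  have h1 : ∀ a b, |F a * Φ a b| ≤ N * B := fun a b => by
    rw [abs_mul]; exact mul_le_mul (hF a) (hΦ a b) (abs_nonneg _) ((abs_nonneg _).trans (hF a))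
  rw [br, br, br, ← tsum_mul_left, ← (h.summ_μ h1).tsum_sub ((h.summ_μ hΦ).mul_left c)]
  exact tsum_congr fun z => by ring

/-- products of nonnegative observables, relative error -/
theorem pos_near (h : Fac μ p q κ η ω) {u : X → ℝ} {v : Y → ℝ} {U V : ℝ} (hU : 0 ≤ U) (hV : 0 ≤ V)
    (u0 : ∀ a, 0 ≤ u a) (hu : ∀ a, u a ≤ U) (v0 : ∀ b, 0 ≤ v b) (hv : ∀ b, v b ≤ V) :
    |br μ (fun a b => u a * v b) - sm p u * sm q v| ≤ η * (U * V) + ω * (sm p u * sm q v) := by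
  have hb : ∀ a b, |u a * v b| ≤ U * V := fun a b => by
    rw [abs_of_nonneg (mul_nonneg (u0 a) (v0 b))]; exact mul_le_mul (hu a) (hv b) (v0 b) hU
  have h1 := h.transfer (mul_nonneg hU hV) hb
  have su : Summable fun a => p a * u a := summ_bdd h.π0 h.πs fun a _ => (abs_of_nonneg (u0 a)).trans_le (hu a)
  have sv : Summable fun b => q b * v b :=
    summ_bdd h.π'0 h.π's fun b _ => (abs_of_nonneg (v0 b)).trans_le (hv b)
  have s := summ_tens su sv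
  have h2 := abs_tsum_bdd (fun z : X × Y => mul_nonneg (mul_nonneg (h.π0 z.1) (u0 z.1))
    (mul_nonneg (h.π'0 z.2) (v0 z.2))) s (u := fun z => κ z.1 z.2 - 1) (U := ω) fun z hz =>
      h.κ1 _ _ (left_ne_zero_of_mul (left_ne_zero_of_mul hz)) (left_ne_zero_of_mul (right_ne_zero_of_mul hz))
  have e : ∑' z : X × Y, p z.1 * u z.1 * (q z.2 * v z.2) * (κ z.1 z.2 - 1) =
      ∑' z : X × Y, p z.1 * q z.2 * (κ z.1 z.2 * (u z.1 * v z.2)) - sm p u * sm q v := by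
    rw [sm, sm, ← tsum_prod_mul su sv, ← (h.summ_k hb).tsum_sub s]
    exact tsum_congr fun z => by ring
  rw [e, tsum_prod_mul su sv] at h2
  change _ ≤ sm p u * sm q v * ω at h2
  rw [abs_le] at *
  constructor <;> linarith [h1.1, h1.2, h2.1, h2.2]

/-- MIX: nonnegative observables decorrelate with a relative error -/
theorem mix (h : Fac μ p q κ η ω) (hη : η ≤ 1 / 20) (hω : ω ≤ 1 / 20) {F : X → ℝ} {G : Y → ℝ} {A B : ℝ}
    (hA : 0 ≤ A) (hB : 0 ≤ B) (F0 : ∀ a, 0 ≤ F a) (hF : ∀ a, F a ≤ A) (G0 : ∀ b, 0 ≤ G b)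
    (hG : ∀ b, G b ≤ B) :
    |br μ (fun a b => F a * G b) - br μ (fun a _ => F a) * br μ (fun _ b => G b)| ≤
      5 * ω * (br μ (fun a _ => F a) * br μ fun _ b => G b) + 8 * η * (A * B) := by
  have h1 := h.pos_near hA hB F0 hF G0 hG
  have h2 := h.pos_near (v := fun _ => 1) hA zero_le_one F0 hF (fun _ => zero_le_one) fun _ => le_rfl
  have h3 := h.pos_near (u := fun _ => 1) zero_le_one hB (fun _ => zero_le_one) (fun _ => le_rfl) G0 hG
  have h4 := h.pos_near (u := fun _ => 1) (v := fun _ => 1) zero_le_one zero_le_one (fun _ => zero_le_one)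
    (fun _ => le_rfl) (fun _ => zero_le_one) fun _ => le_rfl
  simp only [mul_one, one_mul] at h2 h3 h4
  rw [h.br_one] at h4
  have x1 : br μ (fun a _ => F a) ≤ A :=
    (le_abs_self _).trans (h.abs_br fun a _ => (abs_of_nonneg (F0 a)).trans_le (hF a))
  have y1 : br μ (fun _ b => G b) ≤ B :=
    (le_abs_self _).trans (h.abs_br fun _ b => (abs_of_nonneg (G0 b)).trans_le (hG b))
  have x0 : 0 ≤ br μ (fun a _ => F a) := tsum_nonneg fun z => mul_nonneg (h.μ0 z) (F0 _)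
  have y0 : 0 ≤ br μ (fun _ b => G b) := tsum_nonneg fun z => mul_nonneg (h.μ0 z) (G0 _)
  have a0 : 0 ≤ sm p F := tsum_nonneg fun a => mul_nonneg (h.π0 a) (F0 a)
  have b0 : 0 ≤ sm q G := tsum_nonneg fun a => mul_nonneg (h.π'0 a) (G0 a)
  have P0 : 0 ≤ sm p (fun _ => 1) := tsum_nonneg fun a => mul_nonneg (h.π0 a) zero_le_one
  have Q0 : 0 ≤ sm q (fun _ => 1) := tsum_nonneg fun a => mul_nonneg (h.π'0 a) zero_le_one
  have e0 := h.η0
  have w0 := h.ω0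
  generalize br μ (fun a b => F a * G b) = z at *
  generalize br μ (fun a _ => F a) = x at *
  generalize br μ (fun _ b => G b) = y at *
  have e : sm p F * sm q (fun _ => 1) * (sm p (fun _ => 1) * sm q G) =
      sm p F * sm q G * (sm p (fun _ => 1) * sm q fun _ => 1) := by ring
  have s0 := mul_nonneg a0 Q0
  have t0 := mul_nonneg P0 b0
  have c0 := mul_nonneg a0 b0
  have m0 := mul_nonneg P0 Q0
  generalize sm p F * sm q (fun _ => 1) = s at *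
  generalize sm p (fun _ => 1) * sm q G = t at *
  generalize sm p F * sm q G = c at *
  generalize sm p (fun _ => 1) * sm q (fun _ => 1) = m at *
  rw [abs_le] at h1 h2 h3 h4 ⊢
  have xy0 := mul_nonneg x0 y0
  have xy1 : x * y ≤ A * B := mul_le_mul x1 y1 y0 hA
  have AB := mul_nonneg hA hB
  have u1 : (1 - ω) * s * ((1 - ω) * t) ≤ x * y + 3 * η * (A * B) := by
    refine (mul_le_mul (show (1 - ω) * s ≤ x + η * A by linarith [h2.1])
      (show (1 - ω) * t ≤ y + η * B by linarith [h3.1]) (by nlinarith) (by positivity)).trans ?_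
    nlinarith [mul_le_mul_of_nonneg_right x1 (mul_nonneg e0 hB), mul_le_mul_of_nonneg_right y1 (mul_nonneg e0 hA),
      mul_le_mul_of_nonneg_right hη (mul_nonneg e0 AB)]
  have u2 : x * y ≤ (1 + ω) * s * ((1 + ω) * t) + 2 * η * (A * B) := by
    have v1 : x ≤ (1 + ω) * s + η * A := by linarith [h2.2]
    have v2 : y ≤ (1 + ω) * t + η * B := by linarith [h3.2]
    by_cases k1 : x ≤ η * A
    · nlinarith [mul_le_mul k1 y1 y0 (mul_nonneg e0 hA), mul_nonneg s0 t0, mul_nonneg e0 AB,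
        mul_nonneg (mul_nonneg (by linarith : 0 ≤ 1 + ω) s0) (mul_nonneg (by linarith : 0 ≤ 1 + ω) t0)]
    by_cases k2 : y ≤ η * B
    · nlinarith [mul_le_mul x1 k2 y0 hA, mul_nonneg e0 AB,
        mul_nonneg (mul_nonneg (by linarith : 0 ≤ 1 + ω) s0) (mul_nonneg (by linarith : 0 ≤ 1 + ω) t0)]
    · have := mul_le_mul (show x - η * A ≤ (1 + ω) * s by linarith) (show y - η * B ≤ (1 + ω) * t by linarith)
        (by linarith) (by positivity)
      nlinarith [mul_le_mul_of_nonneg_right x1 (mul_nonneg e0 hB),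
        mul_le_mul_of_nonneg_right y1 (mul_nonneg e0 hA), mul_nonneg (mul_nonneg e0 e0) AB]
  have m1 : (1 - ω) * m ≤ 1 + η := by linarith [h4.1]
  have m2 : 1 - η ≤ (1 + ω) * m := by linarith [h4.2]
  have r1 : (1 - ω) ^ 2 * (1 - η) * c ≤ (1 + ω) * (x * y + 3 * η * (A * B)) := by
    have := mul_le_mul_of_nonneg_left m2 (mul_nonneg (sq_nonneg (1 - ω)) c0)
    have e' : (1 - ω) ^ 2 * c * ((1 + ω) * m) = (1 + ω) * ((1 - ω) * s * ((1 - ω) * t)) := by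
      linear_combination (-(1 - ω) ^ 2 * (1 + ω)) * e
    nlinarith [mul_le_mul_of_nonneg_left u1 (by linarith : 0 ≤ 1 + ω)]
  have r2 : (1 - ω) * (x * y - 2 * η * (A * B)) ≤ (1 + ω) ^ 2 * (1 + η) * c := by
    have := mul_le_mul_of_nonneg_left m1 (mul_nonneg (sq_nonneg (1 + ω)) c0)
    have e' : (1 + ω) ^ 2 * c * ((1 - ω) * m) = (1 - ω) * ((1 + ω) * s * ((1 + ω) * t)) := by
      linear_combination (-(1 + ω) ^ 2 * (1 - ω)) * e
    nlinarith [mul_le_mul_of_nonneg_left u2 (by linarith : 0 ≤ 1 - ω)]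
  have k1 : (1 + ω) ^ 2 ≤ (1 + 5 * ω + 2 * η) * ((1 - ω) ^ 2 * (1 - η)) := by
    have a1 : 1 - 2 * ω - η ≤ (1 - ω) ^ 2 * (1 - η) := by nlinarith [mul_nonneg e0 w0, mul_nonneg w0 w0]
    nlinarith [mul_le_mul_of_nonneg_left a1 (by linarith : 0 ≤ 1 + 5 * ω + 2 * η), mul_nonneg e0 w0]
  have k2 : (1 - 4 * ω - η) * ((1 + ω) ^ 2 * (1 + η)) ≤ (1 - ω) ^ 2 := by
    nlinarith [mul_nonneg e0 w0, mul_nonneg w0 w0, mul_nonneg e0 e0, mul_nonneg (mul_nonneg e0 w0) w0,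
      mul_nonneg (mul_nonneg w0 w0) w0, mul_nonneg (mul_nonneg e0 e0) w0,
      mul_nonneg (mul_nonneg e0 w0) (mul_nonneg w0 w0), mul_nonneg (mul_nonneg e0 w0) (mul_nonneg e0 w0)]
  have D0 : 0 < (1 - ω) ^ 2 * (1 - η) := mul_pos (pow_pos (by linarith) 2) (by linarith)
  have D1 : 0 < (1 + ω) ^ 2 * (1 + η) := by positivity
  have f1 : (1 + ω) * c ≤ (1 + 5 * ω + 2 * η) * (x * y + 3 * η * (A * B)) := by
    refine le_of_mul_le_mul_left ?_ D0
    have := mul_le_mul_of_nonneg_right k1 (show 0 ≤ x * y + 3 * η * (A * B) by positivity)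
    nlinarith [mul_le_mul_of_nonneg_left r1 (by linarith : 0 ≤ 1 + ω)]
  have f2 : (1 - 4 * ω - η) * (x * y) - 2 * η * (A * B) ≤ (1 - ω) * c := by
    refine le_of_mul_le_mul_left ?_ D1
    have a1 := mul_le_mul_of_nonneg_right k2 xy0
    have a2 : (1 - ω) ^ 2 ≤ (1 + ω) ^ 2 * (1 + η) := by nlinarith [mul_nonneg e0 (sq_nonneg (1 + ω))]
    have a3 := mul_le_mul_of_nonneg_right a2 (show 0 ≤ 2 * η * (A * B) by positivity)
    nlinarith [mul_le_mul_of_nonneg_left r2 (by linarith : 0 ≤ 1 - ω)]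
  have g1 := mul_le_mul_of_nonneg_left xy1 e0
  have g2 : (5 * ω + 2 * η) * (3 * η * (A * B)) ≤ 7 / 20 * (3 * η * (A * B)) :=
    mul_le_mul_of_nonneg_right (by linarith) (by positivity)
  constructor <;> nlinarith [h1.1, h1.2, mul_nonneg w0 xy0, mul_nonneg e0 AB]

/-- first order (dipole) expansion without any parity -/
theorem vec (h : Fac μ p q κ η ω) {ι : Type*} (T : Finset ι) {yy : ι → X → ℝ} {d : ι → Y → ℝ}
    {y₀ d₀ β : ℝ} (hy0 : 0 ≤ y₀) (hd0 : 0 ≤ d₀) (hβ : 0 ≤ β) (hyy : ∀ i ∈ T, ∀ a, |yy i a| ≤ y₀)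
    (hd : ∀ i ∈ T, ∀ b, |d i b| ≤ d₀)
    (hκ : ∀ a b, p a ≠ 0 → q b ≠ 0 → |κ a b - 1 - ∑ i ∈ T, yy i a * d i b| ≤ β)
    {F : X → ℝ} {N : ℝ} (hN : 0 ≤ N) (hF : ∀ a, |F a| ≤ N) {φ : Y → ℝ} {B : ℝ} (hB : 0 ≤ B)
    (hφ : ∀ b, |φ b| ≤ B) :
    |br μ (fun a b => F a * φ b) - br μ (fun a _ => F a) * br μ (fun _ b => φ b) -
      ∑ i ∈ T, (br μ (fun a _ => F a * yy i a) - br μ (fun a _ => F a) * br μ fun a _ => yy i a) *
        (br μ (fun _ b => d i b * φ b) - br μ (fun _ b => d i b) * br μ fun _ b => φ b)| ≤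
      N * B * (4 * η + 12 * β + 60 * (η + 3 * ω) * (T.card * (y₀ * d₀))) := by
  set c := br μ (fun a _ => F a) with hc
  have c1 : |c| ≤ N := h.abs_br fun a _ => hF a
  have F' : ∀ a, |F a - c| ≤ 2 * N := fun a => (abs_sub _ _).trans (by linarith [hF a])
  have key := h.master0 T (u := yy) (v := d) (U := fun _ => y₀) (V := fun _ => d₀) (fun _ _ => hy0)
    (fun _ _ => hd0) hyy hd (F := fun a => F a - c) (N := 2 * N) (β := β) (c₀ := sm p fun a => F a - c)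
    (by positivity) hβ F' (by
      have := h.br_cen (Φ := fun _ _ => 1) (B := 1) hF (by simp) c
      simp only [mul_one] at this
      rw [this, h.br_one, ← hc]; ring) ?_ hB hφ
  · rw [h.br_cen hF (Φ := fun _ b => φ b) (fun _ b => hφ b), sum_congr rfl fun i hi => by
      rw [h.br_cen hF (Φ := fun a _ => yy i a) (fun a _ => hyy i hi a)], sum_const, nsmul_eq_mul] at key
    exact key.trans_eq (by ring)
  · intro b hb
    have S : ∀ {u : X → ℝ} {U : ℝ}, (∀ a, p a ≠ 0 → |u a| ≤ U) →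
        HasSum (fun a => p a * ((F a - c) * u a)) (sm p fun a => (F a - c) * u a) := fun {u U} hu =>
      (summ_bdd h.π0 h.πs (U := 2 * N * U) fun a ha => by
        rw [abs_mul]; exact mul_le_mul (F' a) (hu a ha) (abs_nonneg _) (by positivity)).hasSum
    have s0 : HasSum (fun a => p a * (F a - c)) (sm p fun a => F a - c) :=
      (summ_bdd h.π0 h.πs fun a _ => F' a).hasSum
    have s := ((S fun a ha => h.κ_le ha hb).sub s0).sub
      (hasSum_sum fun i hi => (S fun a _ => hyy i hi a).mul_right (d i b))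
    rw [← s.tsum_eq]
    refine le_of_eq_of_le ?_ (abs_tsum_bdd h.π0 h.πs
      (u := fun a => (F a - c) * (κ a b - 1 - ∑ i ∈ T, yy i a * d i b)) fun a ha => by
        rw [abs_mul]; exact mul_le_mul (F' a) (hκ a b ha hb) (abs_nonneg _) (by positivity))
    congr 1
    refine tsum_congr fun a => ?_
    simp only [mul_sub, mul_sum, mul_one, mul_assoc]

end Fac

theorem ker_vec {th l y z β₁ β₂ : ℝ} (hth : |th - 1| ≤ l) (hy : |y| ≤ β₁) (h1 : β₁ ≤ 1 / 2)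
    (hz : |y - z| ≤ β₂) : |th * exp y - 1 - z| ≤ β₂ + β₁ ^ 2 + 2 * l := by
  have e1 := abs_exp_sub_one_sub_id_le (x := y) (hy.trans (by linarith))
  have e2 : y ^ 2 ≤ β₁ ^ 2 := sq_le_sq' (abs_le.1 hy).1 (abs_le.1 hy).2
  have e3 : exp y ≤ 2 := by
    have := abs_le.1 (abs_exp_sub_one_le (x := y) (hy.trans (by linarith)))
    linarith [this.2]
  have e4 : |(th - 1) * exp y| ≤ l * 2 := by
    rw [abs_mul, abs_of_pos (exp_pos y)]
    exact mul_le_mul hth e3 (exp_pos y).le ((abs_nonneg _).trans hth)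
  rw [abs_le] at *
  constructor <;> linarith [e1.1, e1.2, e4.1, e4.2, hz.1, hz.2]

end Crest.Agent.T145.KrA

namespace Crest.Agent.T145.Kr

open Finset Real KrA

variable {L X Y : Type} {A : Act X} {B : Act Y}



end Crest.Agent.T145.Kr
end

-- ▼ part T145/KvSecA_74
section

/-!
# Row 145, module Kv: conditioning (K#) on a product sector, abstract part (helper74)
-/

set_option autoImplicit false

namespace Crest.Agent.T145.Kv.S74

open Finset Real KrA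

variable {X Y : Type*}

theorem ind_nonneg (P : Prop) : 0 ≤ ind P := by unfold ind; split_ifs <;> norm_num
theorem ind_le_one (P : Prop) : ind P ≤ 1 := by unfold ind; split_ifs <;> norm_num
theorem ind_of {P : Prop} (h : P) : ind P = 1 := by unfold ind; exact if_pos h
theorem ind_not {P : Prop} (h : ¬ P) : ind P = 0 := by unfold ind; exact if_neg h
theorem of_ind {P : Prop} (h : ind P ≠ 0) : P := by by_contra h'; exact h (ind_not h')

/-- a nonnegative summable product with a nonzero value has summable factors -/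
theorem summ_fac {u : X → ℝ} {v : Y → ℝ} (s : Summable fun z : X × Y => u z.1 * v z.2) {a₀ : X} {b₀ : Y}
    (h : u a₀ * v b₀ ≠ 0) : Summable u ∧ Summable v := by
  have ha : u a₀ ≠ 0 := left_ne_zero_of_mul h
  have hb : v b₀ ≠ 0 := right_ne_zero_of_mul h
  constructor
  · have := (s.comp_injective (i := fun a : X => (a, b₀)) fun a a' e => congrArg Prod.fst e).mul_right (v b₀)⁻¹
    exact this.congr fun a => by simp only [Function.comp]; field_simp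
  · have := (s.comp_injective (i := fun b : Y => (a₀, b)) fun a a' e => congrArg Prod.snd e).mul_left (u a₀)⁻¹
    exact this.congr fun a => by simp only [Function.comp]; field_simp

theorem ker_near {th l d β : ℝ} (d2 : |th - 1| ≤ 3 * l) (l0 : 0 ≤ l) (hd : |d| ≤ β) (hβ : β ≤ 1 / 20)
    (hl : l ≤ 1 / 20) : |th * exp d - 1| ≤ 3 * β + 3 * l := by
  have β0 : 0 ≤ β := (abs_nonneg _).trans hd
  have d1 := abs_le.1 ((abs_exp_sub_one_le (hd.trans (by linarith))).trans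
    (mul_le_mul_of_nonneg_left hd zero_le_two))
  have d3 : |(th - 1) * (exp d - 1)| ≤ 3 * l * (2 * β) := by
    rw [abs_mul]; exact mul_le_mul d2 (abs_le.2 d1) (abs_nonneg _) (by positivity)
  rw [abs_le] at *
  constructor <;> nlinarith [d1.1, d1.2, d2.1, d2.2, d3.1, d3.2]

variable {A : Act X} {B : Act Y} {μ : X × Y → ℝ} {κ η : ℝ} {y : X → Y → ℝ} {p : X → ℝ} {q : Y → ℝ}

/-- restriction of (K#) to a product sector, with unbounded one-sided terms -/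
theorem restrict2 (h : Shp A B μ κ y p q η) {β₁ m : ℝ} (hκ : 0 < κ) (P : X → Prop) (Q : Y → Prop)
    (ψ₁ : X → ℝ) (ψ₂ : Y → ℝ) (β0 : 0 ≤ β₁) (y1 : ∀ a b, P a → Q b → |y a b - ψ₁ a - ψ₂ b| ≤ β₁)
    (m0 : 0 < m) (hm : br (mub A B μ) (fun a b => ind (P a) * ind (Q b)) = m)
    (hη : η ≤ m / 2) (hβ : β₁ ≤ 1 / 20) (hl : exp (-(2 * π ^ 2 / κ)) ≤ 1 / 20) :
    Fac (fun z => mub A B μ z * (ind (P z.1) * ind (Q z.2)) / m)
      (fun a => ind (P a) * (p a * exp (ψ₁ a))) (fun b => ind (Q b) * (q b * exp (ψ₂ b)) / m)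
      (fun a b => thk κ (A.H a - B.H b) * exp (y a b - ψ₁ a - ψ₂ b)) (η / m)
      (3 * β₁ + 3 * exp (-(2 * π ^ 2 / κ))) := by
  set l := exp (-(2 * π ^ 2 / κ)) with hl'
  have l0 : 0 < l := exp_pos _
  have n0 := mub_nonneg A B h.μ0
  have sμ := (hasSum_mub_one A B h.μ0 h.μ1).summable
  have i0 : ∀ z : X × Y, 0 ≤ ind (P z.1) * ind (Q z.2) := fun z => mul_nonneg (ind_nonneg _) (ind_nonneg _)
  have s1 : Summable fun z : X × Y => mub A B μ z * (ind (P z.1) * ind (Q z.2)) :=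
    summ_bdd n0 sμ (U := 1) fun z _ => by
      rw [abs_of_nonneg (i0 z)]
      exact mul_le_one₀ (ind_le_one _) (ind_nonneg _) (ind_le_one _)
  set u : X → ℝ := fun a => ind (P a) * (p a * exp (ψ₁ a)) with hu
  set v : Y → ℝ := fun b => ind (Q b) * (q b * exp (ψ₂ b)) / m with hv
  set k : X → Y → ℝ := fun a b => thk κ (A.H a - B.H b) * exp (y a b - ψ₁ a - ψ₂ b) with hk
  have u0 : ∀ a, 0 ≤ u a := fun a => mul_nonneg (ind_nonneg _) (mul_nonneg (h.p0 a) (exp_pos _).le)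
  have v0 : ∀ b, 0 ≤ v b := fun b =>
    div_nonneg (mul_nonneg (ind_nonneg _) (mul_nonneg (h.q0 b) (exp_pos _).le)) m0.le
  have k1 : ∀ a b, u a ≠ 0 → v b ≠ 0 → |k a b - 1| ≤ 3 * β₁ + 3 * l := fun a b ha hb => by
    have hP : P a := of_ind (left_ne_zero_of_mul ha)
    have hQ : Q b := of_ind (left_ne_zero_of_mul (div_ne_zero_iff.1 hb).1)
    exact ker_near (thk_near hκ (hl.trans (by norm_num)) _) l0.le (y1 a b hP hQ) hβ hl
  have b : ∀ z : X × Y, |mub A B μ z * (ind (P z.1) * ind (Q z.2)) / m - u z.1 * v z.2 * k z.1 z.2| ≤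
      |mub A B μ z - p z.1 * q z.2 * (thk κ (A.H z.1 - B.H z.2) * exp (y z.1 z.2))| / m := fun z => by
    simp only [hu, hv, hk]
    by_cases hP : P z.1
    · by_cases hQ : Q z.2
      · rw [ind_of hP, ind_of hQ, ← abs_of_pos m0, ← abs_div, abs_of_pos m0, exp_sub, exp_sub]
        exact le_of_eq (by congr 1; field_simp)
      · rw [ind_not hQ]
        simp only [mul_zero, zero_mul, zero_div, sub_zero, abs_zero]; positivity
    · rw [ind_not hP]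
      simp only [mul_zero, zero_mul, zero_div, sub_zero, abs_zero]; positivity
  have sb := Summable.of_nonneg_of_le (fun _ => abs_nonneg _) b (h.sm.div_const m)
  have cl : ∑' z : X × Y, |mub A B μ z * (ind (P z.1) * ind (Q z.2)) / m - u z.1 * v z.2 * k z.1 z.2| ≤
      η / m := by
    refine (sb.tsum_le_tsum b (h.sm.div_const m)).trans ?_
    rw [tsum_div_const]
    exact div_le_div_of_nonneg_right h.cl m0.le
  have one : HasSum (fun z : X × Y => mub A B μ z * (ind (P z.1) * ind (Q z.2)) / m) 1 := by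
    have := s1.hasSum.div_const m
    rwa [show (∑' z : X × Y, mub A B μ z * (ind (P z.1) * ind (Q z.2))) = m from hm,
      div_self m0.ne'] at this
  have η1 : η / m ≤ 1 / 2 := by rw [div_le_iff₀ m0]; linarith
  have suv : Summable fun z : X × Y => u z.1 * v z.2 := by
    have s2 : Summable fun z : X × Y => u z.1 * v z.2 * k z.1 z.2 :=
      (one.summable.sub sb.of_abs).congr fun z => by ring
    refine Summable.of_nonneg_of_le (fun z => mul_nonneg (u0 _) (v0 _)) (fun z => ?_) (s2.mul_left 2)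
    by_cases h0 : u z.1 * v z.2 = 0
    · rw [h0]; simp
    · have := (abs_le.1 (k1 _ _ (left_ne_zero_of_mul h0) (right_ne_zero_of_mul h0))).1
      nlinarith [mul_nonneg (u0 z.1) (v0 z.2)]
  obtain ⟨z₀, hz⟩ : ∃ z : X × Y, u z.1 * v z.2 ≠ 0 := by
    by_contra hn
    push Not at hn
    have e : ∀ z : X × Y, |mub A B μ z * (ind (P z.1) * ind (Q z.2)) / m - u z.1 * v z.2 * k z.1 z.2| =
        mub A B μ z * (ind (P z.1) * ind (Q z.2)) / m := fun z => by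
      rw [hn z, zero_mul, sub_zero, abs_of_nonneg (div_nonneg (mul_nonneg (n0 z) (i0 z)) m0.le)]
    rw [tsum_congr e, one.tsum_eq] at cl
    linarith
  obtain ⟨su, sv⟩ := summ_fac suv hz
  exact ⟨fun z => div_nonneg (mul_nonneg (n0 z) (i0 z)) m0.le, one, u0, su, v0, sv, cl, k1, η1,
    by positivity, by linarith⟩

theorem num1 {β γ e : ℝ} (β0 : 0 ≤ β) (γ0 : 0 ≤ γ) (hβ : 10000 * β ≤ 1) (hγ : 10000 * γ ≤ 1) {l : ℝ}
    (hl : l ≤ γ) (he : e ≤ γ) :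
    4 * e + 12 * (γ + (γ + 2 * β) ^ 2 + 2 * (3 * l)) +
      60 * (e + 3 * (3 * (γ + 2 * β) + 3 * l)) * (2 * (1 * β)) ≤ 10000 * (γ + β ^ 2) := by
  have h1 : (e + 3 * (3 * (γ + 2 * β) + 3 * l)) * β ≤ (19 * γ + 18 * β) * β :=
    mul_le_mul_of_nonneg_right (by linarith) β0
  have h2 : γ * β ≤ γ := mul_le_of_le_one_right γ0 (by linarith)
  have h3 : γ * γ ≤ γ := mul_le_of_le_one_right γ0 (by linarith)
  nlinarith [sq_nonneg β]

/-- SEC with the covariances written out -/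
theorem sec_abs {β γ m : ℝ} {ψ₁ : X → ℝ} {ψ₂ : Y → ℝ} {P : X → Prop} {Q : Y → Prop}
    {yy : Fin 2 → X → ℝ} {dd : Fin 2 → Y → ℝ} (hκ : 0 < κ) (h : Shp A B μ κ y p q η)
    (hy : ∀ i a, |yy i a| ≤ 1) (hd : ∀ i b, |dd i b| ≤ β) (hβ : 10000 * β ≤ 1) (hγ : 10000 * γ ≤ 1)
    (hl : exp (-(2 * π ^ 2 / κ)) ≤ γ)
    (y2 : ∀ a b, P a → Q b → |y a b - ψ₁ a - ψ₂ b - ∑ i, yy i a * dd i b| ≤ γ) (m0 : 0 < m)
    (hm : br (mub A B μ) (fun a b => ind (P a) * ind (Q b)) = m) (hη : η ≤ γ * m)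
    {ν : X × Y → ℝ} (hν : ν = fun z => mub A B μ z * (ind (P z.1) * ind (Q z.2)) / m)
    {F : X → ℝ} {φ : Y → ℝ} {N M : ℝ} (hF : ∀ a, |F a| ≤ N) (hφ : ∀ b, |φ b| ≤ M) :
    |br ν (fun a b => F a * φ b) - br ν (fun a _ => F a) * br ν (fun _ b => φ b) -
      ∑ i, (br ν (fun a _ => F a * yy i a) - br ν (fun a _ => F a) * br ν fun a _ => yy i a) *
        (br ν (fun _ b => dd i b * φ b) - br ν (fun _ b => dd i b) * br ν fun _ b => φ b)| ≤
      10000 * (γ + β ^ 2) * (N * M) ∧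
    ((∀ a, 0 ≤ F a) → (∀ b, 0 ≤ φ b) →
      |br ν (fun a b => F a * φ b) - br ν (fun a _ => F a) * br ν (fun _ b => φ b)| ≤
        1 / 32 * (br ν (fun a _ => F a) * br ν fun _ b => φ b) + 10000 * (η / m) * (N * M)) := by
  have γ0 : 0 < γ := (exp_pos _).trans_le hl
  obtain ⟨⟨a₀, b₀⟩⟩ : Nonempty (X × Y) := by
    by_contra hn
    rw [not_nonempty_iff] at hn
    have := (hasSum_mub_one A B h.μ0 h.μ1).tsum_eq
    simp at this
  have β0 : 0 ≤ β := (abs_nonneg _).trans (hd 0 b₀)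
  have N0 : 0 ≤ N := (abs_nonneg _).trans (hF a₀)
  have M0 : 0 ≤ M := (abs_nonneg _).trans (hφ b₀)
  have z1 : ∀ a b, |∑ i, yy i a * dd i b| ≤ 2 * β := fun a b => by
    have t : ∀ i, |yy i a * dd i b| ≤ β := fun i => by
      rw [abs_mul]; exact (mul_le_of_le_one_left (abs_nonneg _) (hy i a)).trans (hd i b)
    rw [Fin.sum_univ_two]
    exact (abs_add_le _ _).trans (by linarith [t 0, t 1])
  have y1 : ∀ a b, P a → Q b → |y a b - ψ₁ a - ψ₂ b| ≤ γ + 2 * β := fun a b hP hQ => by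
    have h1 := abs_le.1 (y2 a b hP hQ)
    have h2 := abs_le.1 (z1 a b)
    rw [abs_le]; constructor <;> linarith [h1.1, h1.2, h2.1, h2.2]
  have he : η / m ≤ γ := by rw [div_le_iff₀ m0]; exact hη
  have f := restrict2 h hκ P Q ψ₁ ψ₂ (by positivity) y1 m0 hm (by nlinarith) (by linarith) (by linarith)
  rw [← hν] at f
  have e0 := f.η0
  constructor
  · have := f.vec univ (yy := yy) (d := dd) (y₀ := 1) (d₀ := β)
      (β := γ + (γ + 2 * β) ^ 2 + 2 * (3 * exp (-(2 * π ^ 2 / κ)))) zero_le_one β0 (by positivity)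
      (fun i _ => hy i) (fun i _ => hd i) (fun a b ha hb => by
        have hP : P a := of_ind (left_ne_zero_of_mul ha)
        have hQ : Q b := of_ind (left_ne_zero_of_mul (div_ne_zero_iff.1 hb).1)
        exact ker_vec (thk_near hκ (by linarith) _) (y1 a b hP hQ) (by linarith) (y2 a b hP hQ))
      N0 hF M0 hφ
    refine this.trans ?_
    rw [mul_comm (N * M), card_univ, Fintype.card_fin, Nat.cast_ofNat]
    exact mul_le_mul_of_nonneg_right (num1 β0 γ0.le hβ hγ hl he) (mul_nonneg N0 M0)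
  · intro F0 φ0
    have := f.mix (by linarith) (by linarith) N0 M0 F0 (fun a => (le_abs_self _).trans (hF a)) φ0
      fun b => (le_abs_self _).trans (hφ b)
    refine this.trans (add_le_add (mul_le_mul_of_nonneg_right (by linarith) (mul_nonneg ?_ ?_))
      (mul_le_mul_of_nonneg_right (by linarith) (mul_nonneg N0 M0)))
    · exact tsum_nonneg fun z => mul_nonneg (f.μ0 z) (F0 _)
    · exact tsum_nonneg fun z => mul_nonneg (f.μ0 z) (φ0 _)

theorem br_div (μ : X × Y → ℝ) (P : X → Prop) (Q : Y → Prop) (m : ℝ) (Φ : X × Y → ℝ) :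
    br μ (fun a b => ind (P a) * ind (Q b) * Φ (a, b)) / m =
      br (fun z => μ z * (ind (P z.1) * ind (Q z.2)) / m) fun a b => Φ (a, b) := by
  unfold br
  rw [← tsum_div_const]
  exact tsum_congr fun z => by ring

end Crest.Agent.T145.Kv.S74
end

-- ▼ part T145/KvSec_74
section

/-!
# Row 145, module Kv: SEC (helper74)
-/

set_option autoImplicit false

namespace Crest.Agent.T145.Kv

theorem secStmt : SecStmt := by
  refine ⟨10000, by norm_num, ?_⟩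
  intro X Y A B μ κ η β γ m y p ψ₁ q ψ₂ P Q yy dd hκ h _ hy hd hβ hγ hl y2 m0 hm hη E F φ N M hF hφ
  have := S74.sec_abs hκ h hy hd hβ hγ hl y2 m0 hm hη rfl hF hφ
  simp only [cov, E, S74.br_div]
  exact this

end Crest.Agent.T145.Kv
end

-- ▼ part T145/KvSect_51
section

/-!
# Row 145, module Kv: SECT, the twisted slit model (helper51)
-/

set_option autoImplicit false

namespace Crest.Agent.T145.Kv

open Finset Real Filter
open Kr (Gm)

namespace S51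

/-- two numbers of size `C` at distance `τ C` -/
def Nr (τ x y C : ℝ) : Prop := |x - y| ≤ τ * C ∧ |x| ≤ C ∧ |y| ≤ C

theorem Nr.mul {τ τ' x y x' y' A B : ℝ} (h : Nr τ x y A) (h' : Nr τ' x' y' B) :
    Nr (τ + τ') (x * x') (y * y') (A * B) := by
  obtain ⟨h1, h2, h3⟩ := h
  obtain ⟨k1, k2, k3⟩ := h'
  have A0 := (abs_nonneg _).trans h2
  refine ⟨?_, abs_mul x x' ▸ mul_le_mul h2 k2 (abs_nonneg _) A0,
    abs_mul y y' ▸ mul_le_mul h3 k3 (abs_nonneg _) A0⟩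
  rw [show x * x' - y * y' = (x - y) * x' + y * (x' - y') by ring]
  refine (abs_add_le _ _).trans ?_
  rw [abs_mul, abs_mul]
  have a := mul_le_mul h1 k2 (abs_nonneg _) ((abs_nonneg _).trans h1)
  have b := mul_le_mul h3 k1 (abs_nonneg _) A0
  linarith

theorem Nr.cov {τ x y a a' b b' A B : ℝ} (h : Nr τ x y (A * B)) (h1 : Nr τ a a' A) (h2 : Nr τ b b' B) :
    Nr (3 / 2 * τ) (x - a * b) (y - a' * b') (2 * (A * B)) := by
  obtain ⟨k1, k2, k3⟩ := h1.mul h2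
  obtain ⟨l1, l2, l3⟩ := h
  rw [Nr, abs_le, abs_le, abs_le]
  rw [abs_le] at k1 k2 k3 l1 l2 l3
  refine ⟨⟨?_, ?_⟩, ⟨?_, ?_⟩, ?_, ?_⟩ <;> linarith [k1.1, k1.2, k2.1, k2.2, k3.1, k3.2]

theorem abs_ex_ind {α : Type} {ρ : α → ℝ} (h : Wt ρ) (p : α → Prop) {Φ : α → ℝ} {C : ℝ}
    (hΦ : ∀ s, |Φ s| ≤ C) : |Ex ρ fun s => ind (p s) * Φ s| ≤ Pr ρ p * C := by
  have i := (h.ig_bdd hΦ).ind_mul h.nonneg p
  rw [Pr, ← Ex_mul_const]
  refine (abs_Ex_le h.nonneg i).trans (Ex_mono h.nonneg (i.abs h.nonneg) ((h.ig_ind p).mul_const C) fun s => ?_)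
  rw [abs_mul, abs_of_nonneg (ind_nonneg _)]
  exact mul_le_mul_of_nonneg_left (hΦ s) (ind_nonneg _)

/-- conditioning on an event and on most of it -/
theorem cond {α : Type} {ρ : α → ℝ} (h : Wt ρ) {S T : α → Prop} {u : ℝ} (u2 : u ≤ 1 / 2) (p0 : 0 < Pr ρ S)
    (hb : Pr ρ (fun s => S s ∧ ¬ T s) ≤ u * Pr ρ S) :
    Pr ρ S / 2 ≤ Pr ρ (fun s => S s ∧ T s) ∧ ∀ (Φ : α → ℝ) (C : ℝ), (∀ s, |Φ s| ≤ C) →
      Nr (2 * u) ((Ex ρ fun s => ind (S s ∧ T s) * Φ s) / Pr ρ fun s => S s ∧ T s)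
        ((Ex ρ fun s => ind (S s) * Φ s) / Pr ρ S) C := by
  have sp : ∀ (Φ : α → ℝ) (C : ℝ), (∀ s, |Φ s| ≤ C) → (Ex ρ fun s => ind (S s) * Φ s) =
      (Ex ρ fun s => ind (S s ∧ T s) * Φ s) + Ex ρ fun s => ind (S s ∧ ¬ T s) * Φ s := fun Φ C hΦ => by
    rw [← Ex_add ((h.ig_bdd hΦ).ind_mul h.nonneg _) ((h.ig_bdd hΦ).ind_mul h.nonneg _)]
    exact Ex_congr fun s _ => by rw [ind_and, ind_and, ind_not]; ring
  have e : Pr ρ S = Pr ρ (fun s => S s ∧ T s) + Pr ρ fun s => S s ∧ ¬ T s := by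
    simpa only [mul_one, Pr] using sp (fun _ => 1) 1 fun _ => abs_one.le
  have r0 := Pr_nonneg h.nonneg fun s => S s ∧ ¬ T s
  have m2 : Pr ρ S / 2 ≤ Pr ρ fun s => S s ∧ T s := by nlinarith
  refine ⟨m2, fun Φ C hΦ => ?_⟩
  have a := abs_ex_ind h (fun s => S s ∧ T s) hΦ
  have b := abs_ex_ind h (fun s => S s ∧ ¬ T s) hΦ
  have c := abs_ex_ind h S hΦ
  rw [sp Φ C hΦ] at c ⊢
  generalize (Ex ρ fun s => ind (S s ∧ T s) * Φ s) = x at *
  generalize (Ex ρ fun s => ind (S s ∧ ¬ T s) * Φ s) = y at *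
  generalize (Pr ρ fun s => S s ∧ T s) = m at *
  generalize (Pr ρ fun s => S s ∧ ¬ T s) = r at *
  generalize Pr ρ S = p at *
  have m0 : 0 < m := by linarith
  have C0 : 0 ≤ C := by
    have := (abs_nonneg _).trans a
    exact nonneg_of_mul_nonneg_right this m0 |> fun h => by
      by_contra h'; nlinarith
  refine ⟨?_, ?_, ?_⟩
  · rw [show x / m - (x + y) / p = (x * r - m * y) / (m * p) by rw [e]; field_simp; ring, abs_div,
      abs_of_pos (mul_pos m0 p0), div_le_iff₀ (mul_pos m0 p0)]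
    refine (abs_sub _ _).trans ?_
    rw [abs_mul, abs_mul, abs_of_nonneg r0, abs_of_pos m0]
    have a' := mul_le_mul_of_nonneg_right a r0
    have b' := mul_le_mul_of_nonneg_left b m0.le
    have c' := mul_le_mul_of_nonneg_left hb (mul_nonneg m0.le C0)
    nlinarith
  · rw [abs_div, abs_of_pos m0, div_le_iff₀' m0]; exact a
  · rw [abs_div, abs_of_pos p0, div_le_iff₀' p0]; exact c

/-- transfer of the conclusion of `SecStmt` -/
theorem out_of {G : Gm} {E' : (Cfg Pt × Cfg Pt → ℝ) → ℝ} {E : (Cfg Pt → ℝ) → ℝ} {τ β γ η γ' η' : ℝ}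
    {y d : Fin 2 → Cfg Pt → ℝ} (τ0 : 0 ≤ τ) (β1 : β ≤ 1) (h1 : γ + 27 * τ ≤ γ') (h2 : η + 4 * τ ≤ η')
    (E0 : ∀ F, (∀ s, 0 ≤ F s) → 0 ≤ E F)
    (hy : ∀ i, DepG G.In (y i) ∧ (∀ s, |y i s| ≤ 1) ∧ DepG G.Ou (d i) ∧ ∀ s, |d i s| ≤ β)
    (key : ∀ (Ψ : Cfg Pt → Cfg Pt → ℝ) (C : ℝ), (∀ b, DepG G.In fun a => Ψ a b) → (∀ a, DepG G.Ou (Ψ a)) →
      (∀ a b, |Ψ a b| ≤ C) → Nr τ (E' fun z => Ψ z.1 z.2) (E fun s => Ψ s s) C)
    (h : ∀ (F φ : Cfg Pt → ℝ) (N M : ℝ), (∀ a, |F a| ≤ N) → (∀ b, |φ b| ≤ M) →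
      |cov E' (fun z => F z.1) (fun z => φ z.2) - ∑ i, cov E' (fun z => F z.1) (fun z => y i z.1) *
        cov E' (fun z => d i z.2) (fun z => φ z.2)| ≤ γ * (N * M) ∧
      ((∀ a, 0 ≤ F a) → (∀ b, 0 ≤ φ b) → |cov E' (fun z => F z.1) fun z => φ z.2| ≤
        1 / 32 * (E' (fun z => F z.1) * E' fun z => φ z.2) + η * (N * M))) :
    Out G E β γ' (1 / 16) η' := by
  refine ⟨y, d, hy, fun F φ A B hF hφ bF bφ => ?_⟩
  have A0 := (abs_nonneg _).trans (bF 0)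
  have B0 := (abs_nonneg _).trans (bφ 0)
  have AB := mul_nonneg A0 B0
  have bm : ∀ {x y P Q : ℝ}, |x| ≤ P → |y| ≤ Q → |x * y| ≤ P * Q := fun {x y _ _} hx hy =>
    (abs_mul x y).trans_le (mul_le_mul hx hy (abs_nonneg _) ((abs_nonneg _).trans hx))
  have kI : ∀ {f : Cfg Pt → ℝ} {C : ℝ}, DepG G.In f → (∀ s, |f s| ≤ C) →
      Nr τ (E' fun z => f z.1) (E f) C := fun {f C} hf hC =>
    key (fun a _ => f a) C (fun _ => hf) (fun _ => DepG.const _ _) fun a _ => hC a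
  have kO : ∀ {f : Cfg Pt → ℝ} {C : ℝ}, DepG G.Ou f → (∀ s, |f s| ≤ C) →
      Nr τ (E' fun z => f z.2) (E f) C := fun {f C} hf hC =>
    key (fun _ b => f b) C (fun _ => DepG.const _ _) (fun _ => hf) fun _ b => hC b
  have c0 : Nr (3 / 2 * τ) (cov E' (fun z => F z.1) fun z => φ z.2) (cov E F φ) (2 * (A * B)) :=
    (key (fun a b => F a * φ b) _ (fun _ => hF.mul (DepG.const _ _)) (fun _ => (DepG.const _ _).mul hφ)
      fun a b => bm (bF a) (bφ b)).cov (kI hF bF) (kO hφ bφ)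
  have c1 : ∀ i, |cov E' (fun z => F z.1) (fun z => y i z.1) * cov E' (fun z => d i z.2) (fun z => φ z.2) -
      cov E F (y i) * cov E (d i) φ| ≤ 12 * τ * (A * B) := fun i => by
    obtain ⟨y1, y2, y3, y4⟩ := hy i
    have a : Nr (3 / 2 * τ) (cov E' (fun z => F z.1) fun z => y i z.1) (cov E F (y i)) (2 * (A * 1)) :=
      (kI (hF.mul y1) fun s => bm (bF s) (y2 s)).cov (kI hF bF) (kI y1 y2)
    have y5 : ∀ s, |d i s| ≤ 1 := fun s => (y4 s).trans β1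
    have b : Nr (3 / 2 * τ) (cov E' (fun z => d i z.2) fun z => φ z.2) (cov E (d i) φ) (2 * (1 * B)) :=
      (kO (y3.mul hφ) fun s => bm (y5 s) (bφ s)).cov (kO y3 y5) (kO hφ bφ)
    exact (a.mul b).1.trans (le_of_eq (by ring))
  obtain ⟨g1, g2⟩ := h F φ A B bF bφ
  have t := mul_nonneg τ0 AB
  have c2 := abs_le.1 c0.1
  refine ⟨?_, fun F0 φ0 => ?_⟩
  · have a := abs_le.1 (c1 0)
    have b := abs_le.1 (c1 1)
    have c := mul_le_mul_of_nonneg_right h1 AB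
    rw [Fin.sum_univ_two, abs_le] at g1 ⊢
    constructor <;> linarith [g1.1, g1.2]
  · have a := abs_le.1 (g2 F0 φ0)
    have b := abs_le.1 ((kI hF bF).mul (kO hφ bφ)).1
    have c := mul_le_mul_of_nonneg_right h2 AB
    have e := mul_nonneg (E0 F F0) (E0 φ φ0)
    rw [abs_le]
    constructor <;> linarith [a.1, a.2]

/-- the pairing in the sector `s k = 1` -/
noncomputable def lf (U : Finset Pt) (k : Pt) (f : Pt → ℝ) (s : Cfg Pt) : ℝ := ∑ x ∈ U, f x * s x + f k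

theorem lf_eq {U : Finset Pt} {k : Pt} {f : Pt → ℝ} (hk : k ∉ U) (hf : Sup (insert k U) f) {s : Cfg Pt}
    (hs : s k = 1) : pr f s = lf U k f s := by
  rw [pr_of_fsupp f s hf, sum_insert hk, hs, lf]; push_cast; ring

theorem lf_dep {U : Finset Pt} (k : Pt) {f : Pt → ℝ} (h0 : ∑ x ∈ U, f x = 0) : DepG U (lf U k f) :=
  fun s s' i e => by
    have : ∑ x ∈ U, f x * (s' x : ℝ) = ∑ x ∈ U, f x * (s x : ℝ) + (∑ x ∈ U, f x) * i := by
      rw [sum_mul, ← sum_add_distrib]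
      exact sum_congr rfl fun x hx => by rw [e x hx]; push_cast; ring
    rw [lf, lf, this, h0]; ring

theorem dep_res {β : Type} {U U' : Finset Pt} {F : Cfg Pt → β} (h : DepG U F) (hU : U ⊆ U') (s : Cfg Pt) :
    F (resH U' s) = F s := h.dep _ _ fun x hx => by rw [resH_apply, if_pos (hU hx)]

/-- clamp -/
noncomputable def clp (c x : ℝ) : ℝ := max (-c) (min x c)
theorem abs_cl {c : ℝ} (hc : 0 ≤ c) (x : ℝ) : |clp c x| ≤ c :=
  abs_le.2 ⟨le_max_left _ _, max_le (by linarith) (min_le_right _ _)⟩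
theorem cl_of {c x : ℝ} (h : |x| ≤ c) : clp c x = x := by
  rw [clp, min_eq_left (abs_le.1 h).2, max_eq_right (abs_le.1 h).1]

variable {V : Gv} {W : ℝ} {Λ : Lat}

theorem In_sub (h : V.Ok W) : V.G.In ⊆ V.G.Om :=
  Kr.K77.an_sub le_rfl (by have := Kr.K77.r_le_R h.g; have := h.g.out; omega)
theorem Ou_sub (h : V.Ok W) : V.G.Ou ⊆ V.G.Om :=
  Kr.K77.an_sub (by have := Kr.K77.r_le_R h.g; have := h.g.hc; omega) le_rfl

/-- a twisted flow is neutral -/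
theorem neutral (hG : V.Geo) {U : Finset Pt} {k : Pt} (hU : U ⊆ V.G.Om) (hk : k ∉ V.G.Om) {f : Pt → ℝ}
    {n : ℝ} (hs : Sup (insert k U) f) (hf : V.Fx V.EO f n) : ∑ x ∈ U, f x = 0 := by
  obtain ⟨φ, h, -⟩ := hf
  have e := h (cst V.G.Om 1)
  have z : gfl V.EO φ V.gk (cst V.G.Om 1) = 0 := by
    rw [gfl, AddMonoidHom.finsetSum_apply]
    refine sum_eq_zero fun e he => ?_
    obtain ⟨-, h1, h2⟩ := Lat.mem_edI.1 (mem_filter.1 he).1
    simp [Gv.gk, cst_of_mem _ h1, cst_of_mem _ h2, cst_of_notMem _ hG.k_off.1, cst_of_notMem _ hG.k_off.2.1]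
  rw [z, pr_cst,
    ← sum_subset hU fun x hx hn => hs x fun h' => (mem_insert.1 h').elim (fun h' => hk (h' ▸ hx)) hn] at e
  simpa using e

/-- the sector of the data law against the twisted slit model -/
theorem key (hV : V.Ok W) (hG : V.Geo) (hE : V.Ext Λ) {A B : KrA.Act (Cfg Pt)} {μ : Cfg Pt × Cfg Pt → ℝ}
    (hA : ∀ i a, A.s i a = a + cst V.G.In i) (hB : ∀ i a, B.s i a = a + cst V.G.Ou i)
    (bar : ∀ (Φ : Cfg Pt → Cfg Pt → ℝ) (C : ℝ), (∀ a b, |Φ a b| ≤ C) → (∀ i a b, Φ (A.s i a) b = Φ a b) →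
      (∀ i a b, Φ a (B.s i b) = Φ a b) → KrA.br μ Φ = V.EX Λ fun s => Φ (V.dH s).1 (V.dH s).2)
    {T₁ T₂ : Cfg Pt → Prop} (h1 : DepG V.G.In T₁) (h2 : DepG V.G.Ou T₂) {u : ℝ} (u2 : u ≤ 1 / 2)
    (p0 : 0 < V.Pk Λ 1)
    (hb : Pr (V.rw Λ) (fun s => (s V.k1 = 1 ∧ s V.k2 = 1) ∧ ¬ (T₁ s ∧ T₂ s)) ≤ u * V.Pk Λ 1) {m : ℝ}
    (hm : KrA.br μ (fun a b => ind (a V.k1 = 1 ∧ T₁ a) * ind (b V.k2 = 1 ∧ T₂ b)) = m) :
    V.Pk Λ 1 / 2 ≤ m ∧ ∀ (Ψ : Cfg Pt → Cfg Pt → ℝ) (C : ℝ), (∀ b, DepG V.G.In fun a => Ψ a b) →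
      (∀ a, DepG V.G.Ou (Ψ a)) → (∀ a b, |Ψ a b| ≤ C) →
      Nr (2 * u) (KrA.br μ (fun a b => ind (a V.k1 = 1 ∧ T₁ a) * ind (b V.k2 = 1 ∧ T₂ b) * Ψ a b) / m)
        (V.ES Λ fun s => Ψ s s) C := by
  have k1 : V.k1 ∉ V.G.In := fun h => hG.k_off.1 (In_sub hV h)
  have k2 : V.k2 ∉ V.G.Ou := fun h => hG.k_off.2.1 (Ou_sub hV h)
  obtain ⟨c1, c2⟩ := cond hE.cen.wt u2 p0 hb
  have e : ∀ (Ψ : Cfg Pt → Cfg Pt → ℝ) (C : ℝ), (∀ b, DepG V.G.In fun a => Ψ a b) →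
      (∀ a, DepG V.G.Ou (Ψ a)) → (∀ a b, |Ψ a b| ≤ C) →
      KrA.br μ (fun a b => ind (a V.k1 = 1 ∧ T₁ a) * ind (b V.k2 = 1 ∧ T₂ b) * Ψ a b) =
        Ex (V.rw Λ) fun s => ind ((s V.k1 = 1 ∧ s V.k2 = 1) ∧ T₁ s ∧ T₂ s) * Ψ s s := fun Ψ C d1 d2 hΨ => by
    rw [bar _ C (fun a b => ?_) (fun i a b => ?_) fun i a b => ?_]
    · refine Ex_congr fun s _ => ?_
      show ind (resH V.In s V.k1 = 1 ∧ T₁ (resH V.In s)) * ind (resH V.Ou s V.k2 = 1 ∧ T₂ (resH V.Ou s)) *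
        Ψ (resH V.In s) (resH V.Ou s) = _
      rw [Gv.In, Gv.Ou, dep_res h1 (subset_insert _ _), dep_res h2 (subset_insert _ _),
        dep_res (d2 _) (subset_insert _ _), dep_res (d1 _) (subset_insert _ _), resH_apply, resH_apply, if_pos (mem_insert_self _ _),
        if_pos (mem_insert_self _ _), ← ind_and, and_and_and_comm]
    · rw [← ind_and, abs_mul, abs_of_nonneg (ind_nonneg _)]
      exact (mul_le_of_le_one_left (abs_nonneg _) (ind_le_one _)).trans (hΨ a b)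
    · rw [hA, h1.shift subset_rfl, (d1 b).shift subset_rfl, Finsupp.add_apply, cst_of_notMem _ k1, add_zero]
    · rw [hB, h2.shift subset_rfl, (d2 a).shift subset_rfl, Finsupp.add_apply, cst_of_notMem _ k2, add_zero]
  have em : m = Pr (V.rw Λ) fun s => (s V.k1 = 1 ∧ s V.k2 = 1) ∧ T₁ s ∧ T₂ s := by
    simpa only [mul_one, hm, Pr] using e (fun _ _ => 1) 1 (fun _ => DepG.const _ _) (fun _ => DepG.const _ _)
      fun _ _ => abs_one.le
  refine ⟨em ▸ c1, fun Ψ C d1 d2 hΨ => ?_⟩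
  have := hE.sec (fun s => Ψ s s) C fun s => hΨ s s
  simp only [dep_res (d2 _) (Ou_sub hV), fun s => dep_res (d1 s) (In_sub hV)] at this
  rw [e Ψ C d1 d2 hΨ, em, (eq_div_iff p0.ne').2 ((mul_comm _ _).trans this.symm)]
  exact c2 (fun s => Ψ s s) C fun s => hΨ s s

/-- a test -/
def Ts {ι : Type} (U : Finset Pt) (k : Pt) (S : Finset ι) (f : ι → Pt → ℝ) (θ : ℝ) (a : Cfg Pt) : Prop :=
  ∑ i ∈ S, lf U k (f i) a ^ 2 ≤ θ

theorem ts_dep {ι : Type} {U : Finset Pt} (k : Pt) {S : Finset ι} {f : ι → Pt → ℝ} (θ : ℝ)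
    (h : ∀ i ∈ S, ∑ x ∈ U, f i x = 0) : DepG U (Ts U k S f θ) :=
  (DepG.sum fun i hi => (lf_dep k (h i hi)).comp fun t => t ^ 2).comp fun t => t ≤ θ

theorem ts_bad {ι : Type} {U : Finset Pt} {k : Pt} {S : Finset ι} {f : ι → Pt → ℝ} {θ b : ℝ} {ρ : Cfg Pt → ℝ}
    (hρ : Wt ρ) (hk : k ∉ U) (h : ∀ i ∈ S, Sup (insert k U) (f i))
    (hb : Pr ρ (fun s => θ < ∑ i ∈ S, pr (f i) s ^ 2) ≤ b) : Pr ρ (fun s => s k = 1 ∧ ¬ Ts U k S f θ s) ≤ b :=
  (hρ.pr_mono fun s _ hs => (not_le.1 hs.2).trans_eq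
    (sum_congr rfl fun i hi => by rw [lf_eq hk (h i hi) hs.1])).trans hb

theorem ts_abs {U : Finset Pt} {k : Pt} {f : Fin 2 → Pt → ℝ} {θ c : ℝ} {a : Cfg Pt} (h : Ts U k univ f θ a)
    (hc : 0 ≤ c) (hθ : θ ≤ c ^ 2) (i : Fin 2) : |lf U k (f i) a| ≤ c :=
  abs_le_of_sq_le_sq' (((single_le_sum (fun j _ => sq_nonneg (lf U k (f j) a)) (mem_univ i)).trans h).trans hθ) hc
    |> abs_le.2

/-- the kernel on the typical sets -/
theorem ker {U U' S : Finset Pt} {k k' : Pt} {yi di : Fin 2 → Pt → ℝ} {y₂ al : Pt → Pt → ℝ} {a b : Cfg Pt}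
    {t C g y ψ ψ' : ℝ} (W0 : 0 < W) (g1 : 1 / 2 ≤ g) (C0 : 0 < C) (tC : 2 * C ≤ t) (t3 : 3 ≤ t)
    (S0 : S.Nonempty) (h1 : Ts U k univ yi (t * C * 2) a) (h2 : Ts U k S y₂ (t * (C / W ^ 4) * S.card) a)
    (h3 : Ts U' k' univ di (t * (C / W ^ 2) * 2) b) (h4 : Ts U' k' S al (t * C * S.card) b)
    (hy : y = ψ + ψ' + ∑ i, lf U k (yi i) a * lf U' k' (di i) b +
      (∑ w ∈ S, lf U k (y₂ w) a * lf U' k' (al w) b) / S.card) :
    |y / g - ψ / g - ψ' / g - ∑ i, clp 1 (lf U k (yi i) a / t) * clp (t ^ 4 / W) (t * lf U' k' (di i) b / g)| ≤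
      (t ^ 4 / W) ^ 2 := by
  have t0 : 0 < t := by linarith
  have g0 : 0 < g := by linarith
  have tt : t * (2 * C) ≤ t ^ 2 := by nlinarith
  have y1 := ts_abs h1 t0.le (by linarith)
  have y2 := ts_abs h3 (c := t / W) (by positivity) (by
    rw [div_pow, show t * (C / W ^ 2) * 2 = t * (2 * C) / W ^ 2 by ring]
    exact div_le_div_of_nonneg_right tt (by positivity))
  have y3 := Kr.T74.cs_le S0 (c := t * C / W ^ 2) (by positivity) h2 h4 (le_of_eq (by ring))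
  have gi : ∀ {x y : ℝ}, |x| ≤ y → |x / g| ≤ 2 * y := fun {x y} h => by
    rw [abs_div, abs_of_pos g0, div_le_iff₀ g0]; nlinarith [abs_nonneg x]
  have t2 : 2 ≤ t ^ 2 := by nlinarith
  have e1 : ∀ i, clp 1 (lf U k (yi i) a / t) * clp (t ^ 4 / W) (t * lf U' k' (di i) b / g) =
      lf U k (yi i) a * lf U' k' (di i) b / g := fun i => by
    rw [cl_of (by rw [abs_div, abs_of_pos t0, div_le_one t0]; exact y1 i), cl_of ((gi (y := t * (t / W)) (by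
      rw [abs_mul, abs_of_pos t0]; exact mul_le_mul_of_nonneg_left (y2 i) t0.le)).trans ?_)]
    · field_simp
    · rw [show 2 * (t * (t / W)) = 2 * t ^ 2 / W by ring]
      exact div_le_div_of_nonneg_right (by nlinarith) W0.le
  simp only [e1]
  rw [hy, ← sum_div]
  refine (le_of_eq (congrArg abs (by ring))).trans ((gi y3).trans ?_)
  rw [show 2 * (t * C / W ^ 2) = t * (2 * C) / W ^ 2 by ring, div_pow]
  refine div_le_div_of_nonneg_right ?_ (by positivity)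
  have := pow_le_pow_right₀ (by linarith : 1 ≤ t) (by norm_num : 2 ≤ 4 * 2)
  rw [← pow_mul]; linarith

theorem prp {a b p q r s : Prop} (h : (a ∧ b) ∧ ¬ ((p ∧ q) ∧ r ∧ s)) :
    (a ∧ ¬ p ∨ a ∧ ¬ q) ∨ b ∧ ¬ r ∨ b ∧ ¬ s := by tauto

theorem rp {ε x : ℝ} (W0 : 0 < W) (a n : ℕ) (h : x = -a + n * (ε / 4)) :
    W ^ x = (W ^ (ε / 4)) ^ n / W ^ a := by
  rw [h, rpow_add W0, rpow_neg W0.le, rpow_natCast, mul_comm (n : ℝ), rpow_mul W0.le, rpow_natCast]; ring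

theorem num {t Cs u e m : ℝ} {N : ℕ} (W1 : 1024 ≤ W) (Cs1 : 1 ≤ Cs) (ht : 2 * Cs + 1 ≤ t) (h5 : t ^ 5 ≤ W)
    (hu : u = (W ^ (N + 3))⁻¹) (m0 : 0 < m) (he : e ≤ u * m) :
    Cs * (t ^ 4 / W) ≤ 1 ∧ t ^ 4 / W ≤ 1 ∧ Cs * (t ^ 4 / W) ^ 2 ≤ 1 ∧ t ^ 5 / W ^ 2 ≤ (t ^ 4 / W) ^ 2 ∧
      e ≤ (t ^ 4 / W) ^ 2 * m ∧ Cs * ((t ^ 4 / W) ^ 2 + (t ^ 4 / W) ^ 2) + 27 * (2 * u) ≤ t ^ 10 / W ^ 2 ∧
      Cs * (e / m) + 4 * (2 * u) ≤ (W ^ N)⁻¹ := by
  have W0 : 0 < W := by linarith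
  have t1 : 1 ≤ t := by linarith
  have b0 : 0 ≤ t ^ 4 / W := by positivity
  have a1 : Cs * (t ^ 4 / W) ≤ 1 := by
    rw [← mul_div_assoc, div_le_one W0]
    exact (mul_le_mul_of_nonneg_right (by linarith : Cs ≤ t) (by positivity)).trans (by linarith [pow_succ' t 4])
  have a2 : t ^ 4 / W ≤ 1 := (le_mul_of_one_le_left b0 Cs1).trans a1
  have e8 : (t ^ 4 / W) ^ 2 = t ^ 8 / W ^ 2 := by ring
  have u3 : 54 * u ≤ 1 / W ^ 2 := by
    rw [hu, ← div_eq_mul_inv, div_le_div_iff₀ (by positivity) (by positivity), pow_add]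
    have a := mul_le_mul_of_nonneg_right (one_le_pow₀ (n := N) (by linarith : 1 ≤ W)) (pow_pos W0 3).le
    have b := mul_le_mul_of_nonneg_right W1 (pow_pos W0 2).le
    have : W ^ 3 = W * W ^ 2 := by ring
    linarith [pow_pos W0 2]
  have u0 : 0 < u := by rw [hu]; positivity
  have t8 : 1 / W ^ 2 ≤ t ^ 8 / W ^ 2 := div_le_div_of_nonneg_right (one_le_pow₀ t1) (by positivity)
  refine ⟨a1, a2, by nlinarith, ?_, he.trans (mul_le_mul_of_nonneg_right (by linarith) m0.le), ?_, ?_⟩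
  · rw [e8]; exact div_le_div_of_nonneg_right (pow_le_pow_right₀ t1 (by norm_num)) (by positivity)
  · have : 2 * Cs + 1 ≤ t ^ 2 := by nlinarith
    have := mul_le_mul_of_nonneg_right this (by positivity : 0 ≤ t ^ 8 / W ^ 2)
    rw [e8, show t ^ 10 / W ^ 2 = t ^ 2 * (t ^ 8 / W ^ 2) by ring]
    linarith
  · have a := mul_le_mul_of_nonneg_left ((div_le_iff₀ m0).2 he) (by linarith : 0 ≤ Cs)
    have b : (W ^ N)⁻¹ = W ^ 3 * u := by rw [hu, pow_add]; field_simp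
    have c : t ≤ W := (le_self_pow₀ t1 (by norm_num)).trans h5
    have d : W + 8 ≤ W ^ 3 := by nlinarith [mul_pos W0 W0]
    have := mul_le_mul_of_nonneg_right (by linarith : Cs + 8 ≤ W ^ 3) u0.le
    linarith

end S51

set_option maxHeartbeats 800000 in
open S51 in
theorem sectStmt (hK : KshStmt) (hS : SecStmt) (h3 : K3Stmt) (hM : MomStmt) (hZ : ZkStmt) (hB : BarStmt)
    (hE : ExtStmt) (hC : CapStmt) (hG : GeoStmt) : SectStmt := by
  intro F θ₀ ε N C hJ hθ hε hε4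
  obtain ⟨Cs, Cs1, hS⟩ := hS
  obtain ⟨C3, W3, C30, h3⟩ := h3
  obtain ⟨c, c0, hZ⟩ := hZ F hJ
  obtain ⟨k, hk⟩ := exists_nat_ge (((C + N + 4 : ℕ) : ℝ) / (ε / 4))
  obtain ⟨Cm, Cm0, hM⟩ := hM F k hJ
  obtain ⟨Cc, Cc0, hcap⟩ := Kr.K77.cap_bd
  have t1 := tendsto_rpow_atTop (y := ε / 4) (by positivity)
  obtain ⟨W₂, hW₂⟩ := eventually_atTop.1 ((eventually_ge_atTop W3).and ((eventually_ge_atTop 1024).and
    ((eventually_ge_atTop (4 * Cm / c)).and ((t1.eventually_ge_atTop (2 * Cs + 2 * C3 + 1)).and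
      ((t1.eventually_ge_atTop (exp (4 * π * Cc))).and
        (tendsto_log_atTop.eventually_ge_atTop (2 * π * (Cc + 2))))))))
  refine ⟨W₂, fun W hW K j hK1 => ?_⟩
  obtain ⟨w1, w2, w3, w4, w5, w6⟩ := hW₂ W hW
  have W0 : 0 < W := by linarith
  have W1 : 1 ≤ W := by linarith
  obtain ⟨u, hu⟩ : ∃ u, u = (W ^ (N + 3))⁻¹ := ⟨_, rfl⟩
  have u0 : 0 < u := by rw [hu]; positivity
  obtain ⟨δ, δ0, hδ⟩ := hK F θ₀ W K j hJ hθ hK1 (u * (c * (W ^ C)⁻¹ / 2)) (by positivity)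
  refine ⟨δ, δ0, fun Λ hΛ l L hw V hV hj hL hg hT => ?_⟩
  obtain ⟨g0, α, A, B, p, q, iI, iO, shp⟩ := hδ Λ hΛ l L hw V hV hj hL
  generalize Λ.gN l = g at *
  have g1 := Kr.K77.half_le hε4 hg
  have J : Λ.J = nn := hΛ.1.trans hJ
  have Ge := hG V W hV
  have Xt := hE Λ V W hΛ.ok J hV
  obtain ⟨Pe, -, -, bar⟩ := hB Λ V W g α A B hΛ.ok J hV iI iO
  obtain ⟨cp1, cp2⟩ := hC V W hV
  have cp0 : 0 < V.cp := lt_of_lt_of_le (by positivity) cp1
  have lam := Kr.K77.lam_le Cc0 W0 hε hg g0 ((hcap V.G W hV.g).1.trans (inv_anti₀ cp0 cp2)) w6 w5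
  have h5 : (W ^ (ε / 4)) ^ 5 ≤ W := by
    rw [← rpow_natCast, ← rpow_mul W0.le]
    exact (rpow_le_rpow_of_exponent_le W1 (by push_cast; linarith)).trans_eq (rpow_one W)
  have hk' : W ^ (C + N + 4) ≤ (W ^ (ε / 4)) ^ k := by
    rw [← rpow_natCast, ← rpow_natCast, ← rpow_mul W0.le]
    exact rpow_le_rpow_of_exponent_le W1 (by rwa [div_le_iff₀' (by positivity)] at hk)
  rw [rp (ε := ε) (x := -2 + 5 / 4 * ε) W0 2 5 (by push_cast; ring)] at lam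
  rw [rp (ε := ε) (x := -1 + ε) W0 1 4 (by push_cast; ring),
    rp (ε := ε) (x := -2 + 5 / 2 * ε) W0 2 10 (by push_cast; ring), pow_one, rpow_neg W0.le, rpow_natCast]
  rw [rpow_neg W0.le, rpow_natCast] at hT
  clear hδ hW₂ hcap t1
  generalize W ^ (ε / 4) = t at *
  have t0 : 0 < t := by linarith
  obtain ⟨ψ₁, ψ₂, yi, di, S, y₂, al, S0, hi, hw, hy⟩ := h3 V W w1 hV
  have k1 : V.k1 ∉ V.G.In := fun h => Ge.k_off.1 (In_sub hV h)
  have k2 : V.k2 ∉ V.G.Ou := fun h => Ge.k_off.2.1 (Ou_sub hV h)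
  have nI : ∀ {f n}, V.Ic f n → ∑ x ∈ V.G.In, f x = 0 := fun h => neutral Ge (In_sub hV) Ge.k_off.1 h.1 h.2
  have nO : ∀ {f n}, V.Oc f n → ∑ x ∈ V.G.Ou, f x = 0 := fun h => neutral Ge (Ou_sub hV) Ge.k_off.2.1 h.1 h.2
  have hρ := Xt.cen.wt
  have b1 := ts_bad hρ k1 (fun i _ => (hi i).1.1)
    ((hM Λ hΛ V W hV _ univ yi C3 C30 fun i _ => (hi i).1.2).2 t t0)
  have b2 := ts_bad hρ k1 (fun i h => (hw i h).1.1)
    ((hM Λ hΛ V W hV _ S y₂ _ (by positivity) fun i h => (hw i h).1.2).2 t t0)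
  have b3 := ts_bad hρ k2 (fun i _ => (hi i).2.1)
    ((hM Λ hΛ V W hV _ univ di _ (by positivity) fun i _ => (hi i).2.2).2 t t0)
  have b4 := ts_bad hρ k2 (fun i h => (hw i h).2.1)
    ((hM Λ hΛ V W hV _ S al C3 C30 fun i h => (hw i h).2.2).2 t t0)
  rw [card_univ, Fintype.card_fin, Nat.cast_ofNat] at b1 b3
  have pk : c * (W ^ C)⁻¹ ≤ V.Pk Λ 1 := (mul_le_mul_of_nonneg_left hT c0.le).trans (hZ Λ hΛ V W hV).1
  have p0 : 0 < V.Pk Λ 1 := lt_of_lt_of_le (by positivity) pk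
  have u2 : u ≤ 1 / 2 := by
    rw [hu, one_div]
    exact inv_anti₀ two_pos (le_trans (by linarith) (le_self_pow₀ W1 (by omega)))
  obtain ⟨T₁, e₁⟩ : ∃ T : Cfg Pt → Prop, T = fun a => Ts V.G.In V.k1 univ yi (t * C3 * 2) a ∧
    Ts V.G.In V.k1 S y₂ (t * (C3 / W ^ 4) * S.card) a := ⟨_, rfl⟩
  obtain ⟨T₂, e₂⟩ : ∃ T : Cfg Pt → Prop, T = fun a => Ts V.G.Ou V.k2 univ di (t * (C3 / W ^ 2) * 2) a ∧
    Ts V.G.Ou V.k2 S al (t * C3 * S.card) a := ⟨_, rfl⟩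
  obtain ⟨m, hm⟩ : ∃ m, KrA.br (KrA.mub A B (V.nu Λ))
    (fun a b => ind (a V.k1 = 1 ∧ T₁ a) * ind (b V.k2 = 1 ∧ T₂ b)) = m := ⟨_, rfl⟩
  obtain ⟨m1, ky⟩ := key hV Ge Xt iI.1 iO.1 bar (T₁ := T₁) (T₂ := T₂)
    (e₁ ▸ (ts_dep _ _ fun i _ => nI (hi i).1).comp₂ (ts_dep _ _ fun i h => nI (hw i h).1) And)
    (e₂ ▸ (ts_dep _ _ fun i _ => nO (hi i).2).comp₂ (ts_dep _ _ fun i h => nO (hw i h).2) And) u2 p0 (by
      rw [e₁, e₂]
      refine (hρ.pr_mono fun s _ hs => prp hs).trans ((hρ.pr_or_le _ _).trans ((add_le_add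
        ((hρ.pr_or_le _ _).trans (add_le_add b1 b2)) ((hρ.pr_or_le _ _).trans (add_le_add b3 b4))).trans ?_))
      refine le_trans ?_ (mul_le_mul_of_nonneg_left pk u0.le)
      have a : Cm / t ^ k ≤ Cm / W ^ (C + N + 4) := div_le_div_of_nonneg_left Cm0.le (by positivity) hk'
      have b : u * (c * (W ^ C)⁻¹) = c * W / W ^ (C + N + 4) := by rw [hu]; field_simp; ring
      have d : 4 * Cm / W ^ (C + N + 4) ≤ c * W / W ^ (C + N + 4) :=
        div_le_div_of_nonneg_right ((div_le_iff₀' c0).1 w3) (by positivity)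
      rw [mul_div_assoc 4] at d
      linarith) hm
  have m0 := lt_of_lt_of_le (half_pos p0) m1
  obtain ⟨n1, n2, n3, n4, n5, n6, n7⟩ := num w2 Cs1 (by linarith) h5 hu m0
    (mul_le_mul_of_nonneg_left ((div_le_div_of_nonneg_right pk two_pos.le).trans m1) u0.le)
  have β0 : 0 ≤ t ^ 4 / W := by positivity
  have sec := hS _ _ A B _ _ _ (t ^ 4 / W) ((t ^ 4 / W) ^ 2) m _ p (fun a => ψ₁ a / g) q (fun b => ψ₂ b / g)
    (fun a => a V.k1 = 1 ∧ T₁ a) (fun b => b V.k2 = 1 ∧ T₂ b) (fun i a => clp 1 (lf V.G.In V.k1 (yi i) a / t))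
    (fun i b => clp (t ^ 4 / W) (t * lf V.G.Ou V.k2 (di i) b / g)) (by positivity) shp
    (KrA.hasSum_mub_one A B Pe.nonneg Pe.one) (fun _ _ => abs_cl zero_le_one _) (fun _ _ => abs_cl β0 _)
    n1 n3 (lam.trans n4) (fun a b ha hb => by
      rw [e₁] at ha; rw [e₂] at hb
      refine ker W0 g1 C30 (by linarith) (by linarith) S0 ha.2.1 ha.2.2 hb.2.1 hb.2.2 ?_
      rw [hy a b ha.1 hb.1, sum_congr rfl fun i _ => by
        rw [lf_eq k1 (hi i).1.1 ha.1, lf_eq k2 (hi i).2.1 hb.1], sum_congr (s₁ := S) rfl fun w h => by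
        rw [lf_eq k1 (hw w h).1.1 ha.1, lf_eq k2 (hw w h).2.1 hb.1]]) m0 hm n5
  exact out_of (E' := fun Φ => KrA.br (KrA.mub A B (V.nu Λ))
      (fun a b => ind (a V.k1 = 1 ∧ T₁ a) * ind (b V.k2 = 1 ∧ T₂ b) * Φ (a, b)) / m)
    (y := fun i a => clp 1 (lf V.G.In V.k1 (yi i) a / t))
    (d := fun i b => clp (t ^ 4 / W) (t * lf V.G.Ou V.k2 (di i) b / g)) (by positivity) n2 n6 n7
    (fun f hf => Ex_nonneg (Md.ctr_wts Xt.sl.1 Xt.sl.2 0 _).nonneg fun s _ => hf s)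
    (fun i => ⟨(lf_dep _ (nI (hi i).1)).comp fun x => clp 1 (x / t), fun _ => abs_cl zero_le_one _,
      (lf_dep _ (nO (hi i).2)).comp fun x => clp (t ^ 4 / W) (t * x / g), fun _ => abs_cl β0 _⟩) ky sec

end Crest.Agent.T145.Kv
end

-- ▼ part T145/KvT1_60
section

/-!
# Row 145, module Kv: T1 for glued pieces (helper60)
-/

set_option autoImplicit false

namespace Crest.Agent.T145.Kv

open Finset Real
open Vd (ray)

namespace T60

theorem gfl_apply {G : Type} [AddCommGroup G] (ed : Finset (Pt × Pt)) (φ : Pt × Pt → ℝ)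
    (g : Pt × Pt → G →+ ℤ) (s : G) : gfl ed φ g s = ∑ e ∈ ed, φ e * g e s := by
  simp [gfl]

theorem reg_sd {X : Finset Pt} {K : ℝ} {l L : ℕ} (h : Reg X K l L) (hl : l ≤ L) (a : Pt) {n₁ n₂ : ℕ}
    (h1 : n₁ ≤ 3 * L) (h2 : n₂ ≤ 3 * L) : Reg (X \ rc a n₁ n₂) (K + 16) l L := by
  have hL : (0 : ℝ) ≤ L := L.cast_nonneg
  have hl0 : (0 : ℝ) ≤ l := l.cast_nonneg
  refine ⟨(Nat.cast_le.2 (card_le_card sdiff_subset)).trans (h.1.trans (by gcongr; linarith)), ?_⟩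
  have hs : ((X \ rc a n₁ n₂).filter fun x => ¬ bl x l ⊆ X \ rc a n₁ n₂) ⊆
      (X.filter fun x => ¬ bl x l ⊆ X) ∪
        (rc (a.1 - l, a.2 - l) (n₁ + 2 * l) (n₂ + 2 * l) \ rc a n₁ n₂) := fun x hx => by
    rw [mem_filter, mem_sdiff] at hx
    by_contra hn
    rw [mem_union, not_or, mem_filter, mem_sdiff, not_and_not_right, not_and_not_right] at hn
    refine hx.2 fun y hy => mem_sdiff.2 ⟨hn.1 hx.1.1 hy, fun hy' => hx.1.2 (hn.2 ?_)⟩
    rw [mem_bl] at hy; rw [mem_rc] at hy' ⊢; push_cast; omega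
  have h3 : rc a n₁ n₂ ⊆ rc (a.1 - l, a.2 - l) (n₁ + 2 * l) (n₂ + 2 * l) := fun y hy => by
    rw [mem_rc] at hy ⊢; push_cast; omega
  have h4 := card_sdiff_add_card_eq_card h3
  rw [card_rc, card_rc] at h4
  have h5 := (Nat.cast_le (α := ℝ)).2 ((card_le_card hs).trans (card_union_le _ _))
  have h6 := congrArg (Nat.cast : ℕ → ℝ) h4
  have h7 : (n₁ : ℝ) ≤ 3 * L := by exact_mod_cast h1
  have h8 : (n₂ : ℝ) ≤ 3 * L := by exact_mod_cast h2
  have h9 : (l : ℝ) ≤ L := by exact_mod_cast hl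
  push_cast at h5 h6
  nlinarith [h.2, mul_le_mul_of_nonneg_left h7 hl0, mul_le_mul_of_nonneg_left h8 hl0,
    mul_le_mul_of_nonneg_left h9 hl0]

theorem reg_mono {X : Finset Pt} {K K' : ℝ} {l L : ℕ} (h : Reg X K l L) (hK : K ≤ K') : Reg X K' l L :=
  ⟨h.1.trans (by gcongr), h.2.trans (by gcongr)⟩

theorem nn_cases {e : Pt × Pt} (h : e.2 - e.1 ∈ Pot.nL.Jp) : ∃ i, e = (e.1, e.1 + ev i) := by
  rw [Pot.nL_Jp, mem_insert, mem_singleton] at h
  rcases h with h | h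
  · exact ⟨0, Prod.ext rfl (by rw [sub_eq_iff_eq_add'] at h; exact h)⟩
  · exact ⟨1, Prod.ext rfl (by rw [sub_eq_iff_eq_add'] at h; exact h)⟩

theorem ev_Jp (i : Fin 2) : ev i ∈ Pot.nL.Jp := by
  rw [Pot.nL_Jp]; fin_cases i <;> simp [ev]

theorem vfl_ev (b : Fin 2 → Pt → ℝ) (x : Pt) (i : Fin 2) : vfl b (x, x + ev i) = b i x := by
  fin_cases i <;> simp [vfl, co, ev]

theorem ev_bl (x : Pt) (i : Fin 2) : x ∈ bl (x + ev i) 1 := by
  fin_cases i <;> simp [mem_bl, ev] <;> omega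

variable (V : Gv)

/-- the lower lip -/
noncomputable def LL : Finset Pt := rc (V.G.rho - 4 * V.ω, -1) (8 * V.ω) 1

/-- the gradient of the glued function -/
noncomputable def gr (u : Fin 3 → Pt → ℝ) (i : Fin 2) (x : Pt) : ℝ :=
  df i (u 0) x + if 0 ≤ x.2 then df i (u 1) x else df i (u 2) x

variable {V} {K : ℝ} {u : Fin 3 → Pt → ℝ}

theorem mem_up {x : Pt} : x ∈ V.up ↔ ((V.G.rho : ℤ) - 4 * V.ω ≤ x.1 ∧ x.1 < V.G.rho + 4 * V.ω) ∧
    0 ≤ x.2 ∧ x.2 < 8 * V.ω := by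
  rw [Gv.up, mem_sq]; push_cast; omega

theorem mem_lo {x : Pt} : x ∈ V.lo ↔ ((V.G.rho : ℤ) - 4 * V.ω ≤ x.1 ∧ x.1 < V.G.rho + 4 * V.ω) ∧
    -(8 * V.ω : ℤ) ≤ x.2 ∧ x.2 < 0 := by
  rw [Gv.lo, mem_sq]; push_cast; omega

theorem mem_LL {x : Pt} : x ∈ LL V ↔ ((V.G.rho : ℤ) - 4 * V.ω ≤ x.1 ∧ x.1 < V.G.rho + 4 * V.ω) ∧
    x.2 = -1 := by
  rw [LL, mem_rc]; push_cast; omega

theorem kp_iff (hG : V.Geo) {x : Pt} {i : Fin 2} :
    ray 0 (x, x + ev i) = V.s1 (x, x + ev i) + V.s2 (x, x + ev i) ↔ x ∉ LL V ∨ i = 0 := by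
  have := hG.ω_le
  rw [mem_LL]
  fin_cases i <;> simp only [Gv.s1, Gv.s2, ray, ev] <;> simp <;> split_ifs <;> omega

theorem glue_eq (h : V.Pc K u) (x : Pt) : V.glue u x = u 0 x + if 0 ≤ x.2 then u 1 x else u 2 x := by
  have h1 := fun h' => mem_union.1 (h.s12 x h' (self_mem_bl _ _))
  simp only [mem_up, mem_lo] at h1
  have h2 : u 1 x = 0 ∨ u 1 x ≠ 0 := em _
  have h3 : u 2 x = 0 ∨ u 2 x ≠ 0 := em _
  simp only [Gv.glue, Pi.add_apply, Pot.on, mem_up, mem_lo, add_assoc, add_right_inj]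
  split_ifs
  all_goals first | omega | (simp; done) |
    (rcases h2 with h2 | h2; · simp [h2]
     have := h1 (Or.inl h2); omega) |
    (rcases h3 with h3 | h3; · simp [h3]; done
     have := h1 (Or.inr h3); omega)

theorem van (h : V.Pc K u) {x y : Pt} (hx : x ∉ LL V) (h2 : x.2 = -1) (hy : x ∈ bl y ⌊(V.G.R : ℝ) / K⌋₊) :
    u 1 y = 0 ∧ u 2 y = 0 := by
  by_contra hn
  have := mem_union.1 (h.s12 y (not_and_or.1 hn) hy)
  rw [mem_up, mem_lo] at this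
  rw [mem_LL] at hx
  omega

theorem side {x : Pt} {i : Fin 2} (hx : x ∉ LL V ∨ i = 0) :
    (0 ≤ (x + ev i).2 ↔ 0 ≤ x.2) ∨ (x ∉ LL V ∧ x.2 = -1 ∧ i = 1) := by
  fin_cases i
  · left; simp [ev]
  · simp [ev] at hx ⊢
    simp only [hx, not_false_eq_true, true_and]; omega

theorem df_glue (h : V.Pc K u) (hn : 2 ≤ ⌊(V.G.R : ℝ) / K⌋₊) {x : Pt} {i : Fin 2} (hx : x ∉ LL V ∨ i = 0) :
    V.glue u (x + ev i) - V.glue u x = gr u i x := by
  rw [glue_eq h, glue_eq h, gr]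
  simp only [df]
  rcases side hx with h1 | ⟨h1, h2, rfl⟩
  · simp only [h1]; split_ifs <;> ring
  · have h3 := van h h1 h2 (bl_mono _ (by omega) (ev_bl x 1))
    rw [if_neg (show ¬ 0 ≤ x.2 by omega), if_neg (show ¬ 0 ≤ x.2 by omega), h3.1, h3.2, ite_self]
    ring

theorem abs_gr (h : V.Pc K u) (i : Fin 2) (x : Pt) : |gr u i x| ≤ 2 * (K / V.G.R) := by
  refine (abs_add_le _ _).trans ?_
  split_ifs
  · linarith [(h.sm 0).1.1 i x, (h.sm 1).1.1 i x]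
  · linarith [(h.sm 0).1.1 i x, (h.sm 2).1.1 i x]

theorem abs_df_gr (h : V.Pc K u) (hn : 2 ≤ ⌊(V.G.R : ℝ) / K⌋₊) (i j : Fin 2) {x : Pt} (hx : x ∉ LL V) :
    |df j (gr u i) x| ≤ 2 * (K / (V.G.R : ℝ) ^ 2) := by
  have e : df j (gr u i) x = df j (df i (u 0)) x +
      if 0 ≤ x.2 then df j (df i (u 1)) x else df j (df i (u 2)) x := by
    rw [df, gr, gr]
    simp only [df.eq_1 j]
    rcases side (i := j) (Or.inl hx) with h1 | ⟨h1, h2, rfl⟩
    · simp only [h1]; split_ifs <;> ring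
    · have h3 := van h h1 h2 (bl_mono _ (by omega) (ev_bl x 1))
      have h4 := van h h1 h2 (y := x + ev 1 + ev i) (bl_subset_bl (ev_bl _ i) hn (ev_bl x 1))
      have h5 : df i (u 1) (x + ev 1) = 0 := by rw [df, h3.1, h4.1, sub_self]
      have h6 : df i (u 2) (x + ev 1) = 0 := by rw [df, h3.2, h4.2, sub_self]
      rw [if_neg (show ¬ 0 ≤ x.2 by omega), if_neg (show ¬ 0 ≤ x.2 by omega), h5, h6, ite_self]
      ring
  rw [e]
  refine (abs_add_le _ _).trans ?_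
  split_ifs
  · linarith [(h.sm 0).1.2 i j x, (h.sm 1).1.2 i j x]
  · linarith [(h.sm 0).1.2 i j x, (h.sm 2).1.2 i j x]

theorem ul_A (hG : V.Geo) : V.up ∪ V.lo ⊆ V.G.A := fun x hx => by
  have h1 := mem_sdiff.1 (hG.ul_sub hx)
  have := hG.r_le
  have := hG.rho_le
  exact mem_sdiff.2 ⟨bl_mono 0 (by omega) h1.1, fun h => h1.2 (bl_mono 0 (by omega) h)⟩

theorem glue_near (hG : V.Geo) (h : V.Pc K u) {x : Pt} (hx : V.glue u x ≠ 0) :
    bl x ⌊(V.G.R : ℝ) / K⌋₊ ⊆ V.G.A := by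
  by_cases h0 : u 0 x = 0
  · refine (h.s12 x ?_).trans (ul_A hG)
    by_contra hn
    rw [not_or, not_not, not_not] at hn
    exact hx (by rw [glue_eq h, h0, hn.1, hn.2, ite_self, add_zero])
  · exact (h.s0 x h0).trans sdiff_subset

theorem A_Om {W : ℝ} (h : V.Ok W) : V.G.A ⊆ V.G.Om := fun x hx => by
  have h1 := mem_sdiff.1 hx
  have := h.g.hc
  have := h.g.out
  exact mem_sdiff.2 ⟨bl_mono 0 (by omega) h1.1, fun h => h1.2 (bl_mono 0 (by omega) h)⟩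

theorem mem_EA (hG : V.Geo) {x : Pt} {i : Fin 2} : (x, x + ev i) ∈ V.EA ↔
    (x ∈ V.G.A ∨ x + ev i ∈ V.G.A) ∧ (x ∉ LL V ∨ i = 0) := by
  rw [Gv.EA, Gv.kp, mem_filter, kp_iff hG, Lat.mem_edT, add_sub_cancel_left, and_iff_right (ev_Jp i)]

theorem EA_cases {e : Pt × Pt} (h : e ∈ V.EA) : ∃ i, e = (e.1, e.1 + ev i) :=
  nn_cases (Lat.mem_edT.1 (mem_filter.1 h).1).1

theorem d_glue (hG : V.Geo) (h : V.Pc K u) (hn : 2 ≤ ⌊(V.G.R : ℝ) / K⌋₊) {e : Pt × Pt} (he : e ∈ V.EA) :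
    V.glue u e.2 - V.glue u e.1 = vfl (gr u) e ∧ |vfl (gr u) e| ≤ 2 * (K / V.G.R) := by
  obtain ⟨i, hi⟩ := EA_cases he
  rw [hi] at he ⊢
  rw [vfl_ev]
  exact ⟨df_glue h hn ((mem_EA hG).1 he).2, abs_gr h i _⟩

theorem edI_sub (hG : V.Geo) : Pot.nL.edI (V.G.A \ LL V) ⊆ V.EA := fun e he => by
  obtain ⟨h1, h2, -⟩ := Lat.mem_edI.1 he
  obtain ⟨i, hi⟩ := nn_cases h1
  rw [hi, mem_EA hG]
  exact ⟨Or.inl (mem_sdiff.1 h2).1, Or.inl (mem_sdiff.1 h2).2⟩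

theorem sum_le (hG : V.Geo) (b : Fin 2 → Pt → ℝ) :
    ∑ x ∈ V.G.A \ LL V, ∑ i, b i x ^ 2 ≤ ∑ e ∈ V.EA, vfl b e ^ 2 := by
  rw [← sum_product', ← sum_congr rfl fun p _ => congrArg (· ^ 2) (vfl_ev b p.1 p.2),
    ← sum_image (g := fun p : Pt × Fin 2 => (p.1, p.1 + ev p.2)) (f := fun e => vfl b e ^ 2)]
  · refine sum_le_sum_of_subset_of_nonneg (fun e he => ?_) fun _ _ _ => sq_nonneg _
    obtain ⟨p, hp, rfl⟩ := mem_image.1 he
    have := mem_sdiff.1 (mem_product.1 hp).1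
    exact (mem_EA hG).2 ⟨Or.inl this.1, Or.inl this.2⟩
  · rintro ⟨x, i⟩ - ⟨y, j⟩ - h
    simp only [Prod.mk.injEq] at h ⊢
    obtain ⟨rfl, h⟩ := h
    refine ⟨rfl, ?_⟩
    rw [add_right_inj] at h
    fin_cases i <;> fin_cases j <;> simp_all [ev]

theorem card_EA (hR : 2 ≤ V.G.R) : (V.EA.card : ℝ) ≤ 25 * (V.G.R : ℝ) ^ 2 := by
  have h1 := (show V.EA.card ≤ _ from card_filter_le _ _).trans (Lat.card_edT_le (Λ := Pot.nL) V.G.A)
  have h2 : V.G.A.card ≤ (2 * V.G.R + 1) ^ 2 := (card_le_card sdiff_subset).trans_eq (card_bl _ _)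
  rw [Pot.nL_Jp, card_pair (by decide)] at h1
  have h3 : V.EA.card ≤ 25 * V.G.R ^ 2 := h1.trans (by nlinarith)
  exact_mod_cast h3

/-- the edges outside `A \ LL` that carry a gradient -/
theorem extra (hG : V.Geo) (h : V.Pc K u) (hn : 2 ≤ ⌊(V.G.R : ℝ) / K⌋₊) {e : Pt × Pt}
    (he : e ∈ V.EA \ Pot.nL.edI (V.G.A \ LL V)) (h0 : vfl (gr u) e ≠ 0) : e ∈ Pot.nL.edT (LL V) := by
  obtain ⟨h1, h2⟩ := mem_sdiff.1 he
  rw [← (d_glue hG h hn h1).1] at h0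
  have h3 := (Lat.mem_edT.1 (mem_filter.1 h1).1).1
  obtain ⟨i, hi⟩ := nn_cases h3
  have h4 : e.1 ∈ bl e.2 1 := by rw [hi]; exact ev_bl _ i
  have h5 : e.1 ∈ V.G.A ∧ e.2 ∈ V.G.A := by
    by_cases h6 : V.glue u e.1 = 0
    · have := glue_near hG h (x := e.2) (by rwa [h6, sub_zero] at h0)
      exact ⟨this (bl_mono _ (by omega) h4), this (self_mem_bl _ _)⟩
    · have := glue_near hG h h6
      exact ⟨this (self_mem_bl _ _), this (bl_mono _ (by omega) (mem_bl_comm.1 h4))⟩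
  refine Lat.mem_edT.2 ⟨h3, by_contra fun hc => h2 (Lat.mem_edI.2 ⟨h3, ?_⟩)⟩
  rw [not_or] at hc
  exact ⟨mem_sdiff.2 ⟨h5.1, hc.1⟩, mem_sdiff.2 ⟨h5.2, hc.2⟩⟩

theorem card_LL (hG : V.Geo) : ((Pot.nL.edT (LL V)).card : ℝ) ≤ V.G.R := by
  have h1 := Lat.card_edT_le (Λ := Pot.nL) (LL V)
  have hc : (LL V).card = 8 * V.ω * 1 := card_rc _ _ _
  rw [Pot.nL_Jp, card_pair (by decide), hc] at h1
  have := hG.ω_le
  have := hG.rho_le
  exact_mod_cast h1.trans (by omega)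

theorem dens {Λ : Lat} (hΛ : Λ.Ok) {ed : Finset (Pt × Pt)} (h : ed ⊆ V.EO) : ∃ H : Cfg Pt → ℝ, PD H ∧
    (∀ s, 0 ≤ H s) ∧ ∀ s, V.rw Λ s = H s * ∏ e ∈ ed, Λ.w (V.gk e s) := by
  refine ⟨fun s => ind (s V.rt = 0) * ind (∀ x, x ∉ insert V.k1 (insert V.k2 V.G.Om) → s x = 0) *
    ∏ e ∈ V.EO \ ed, Λ.w (V.gk e s), ((pd_ind (Finsupp.applyAddHom V.rt)).mul (Cut7.pd_off pdStmt _)).mul
      (PD.prod fun e _ => (kerStmt _ hΛ.fam).pd.comp (V.gk e)), fun s =>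
    mul_nonneg (mul_nonneg (ind_nonneg _) (ind_nonneg _))
      (prod_nonneg fun _ _ => ((kerStmt _ hΛ.fam).lc.1 _).le), fun s => ?_⟩
  rw [Gv.rw, Gv.rho, ← prod_sdiff h, mul_assoc, mul_assoc]
  congr 2
  exact ind_congr (forall_congr' fun x => by simp only [mem_insert, not_or]; tauto)

theorem cosh_le {x : ℝ} (h : |x| ≤ 1) : cosh x - 1 ≤ x ^ 2 := by
  have h1 := cosh_sub_one_le x
  have h2 : cosh x ≤ 2 := by
    have h3 : cosh x ≤ cosh 1 := cosh_le_cosh.2 (by rwa [abs_one])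
    have h4 := cosh_sub_one_le 1
    linarith
  nlinarith [sq_nonneg x]

end T60

open T60

set_option maxHeartbeats 800000 in
theorem t1Stmt (hT : T1gStmt) (hB : BrgStmt) (hG : GeoStmt) (hE : ExtStmt) (hA : T1aStmt) : T1Stmt := by
  intro F θ₀ W K j hJ _ hK K' ε hK' hε
  obtain ⟨T, T1, hT2⟩ : ∃ T : ℝ, 1 ≤ T ∧ F.τ₂ ≤ T := ⟨max 1 F.τ₂, le_max_left _ _, le_max_right _ _⟩
  obtain ⟨θ, θ0, θ1, θ2⟩ : ∃ θ : ℝ, 0 < θ ∧ θ ≤ 1 / 2 ∧ θ * (T * (100 * K' ^ 2)) ≤ ε / 3 :=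
    ⟨min (1 / 2) (ε / 3 / (T * (100 * K' ^ 2))), by positivity, min_le_left _ _,
      (le_div_iff₀ (by positivity)).1 (min_le_right _ _)⟩
  have hq : 0 ≤ 4 * T * K' * K ^ 2 := by positivity
  obtain ⟨δ₁, δ₁0, hT⟩ := hT F (36 + 16 + 16 + 4 * T * K' * K ^ 2) (ε / 3) (by positivity)
  obtain ⟨C, hA⟩ := hA F
  obtain ⟨R₀, R1, R2, R3⟩ : ∃ R₀ : ℝ, 2 ≤ R₀ ∧ 2 * K' / θ ≤ R₀ ∧ 12 * T * K' ^ 2 / (θ * ε) ≤ R₀ := by
    have h1 : 0 ≤ 2 * K' / θ := by positivity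
    have h2 : 0 ≤ 12 * T * K' ^ 2 / (θ * ε) := by positivity
    exact ⟨2 + 2 * K' / θ + 12 * T * K' ^ 2 / (θ * ε), by linarith, by linarith, by linarith⟩
  have hKR : 1 ≤ K * R₀ := one_le_mul_of_one_le_of_one_le hK (by linarith)
  refine ⟨min δ₁ (K * R₀)⁻¹, by positivity, fun Λ hΛ l L hW V hV _ hAt u hu => ?_⟩
  have hok := hΛ.ok
  have τ0 := hΛ.tau_pos
  have τT : Λ.τ ≤ T := hΛ.tau_le.trans hT2
  have hJ' : Λ.J = nn := hΛ.1.trans hJ
  have hJp : Λ.Jp = Pot.nL.Jp := by rw [Lat.Jp, hJ']; rfl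
  have hI : ∀ D, Λ.edI D = Pot.nL.edI D := fun D => by rw [Lat.edI, Lat.edT, hJp]; rfl
  have ha : Λ.a = 1 := by rw [Lat.a, hJp]; exact Pot.nL_a
  have G := hG V W hV
  have E := hE Λ V W hok hJ' hV
  obtain ⟨s1, s2⟩ := hW.2.1
  have l0 : (0 : ℝ) ≤ l := l.cast_nonneg
  have L0 : (0 : ℝ) ≤ L := L.cast_nonneg
  have hS : Sep δ₁ l L := ⟨s1.trans (mul_le_mul_of_nonneg_right (min_le_left _ _) l0),
    s2.trans (mul_le_mul_of_nonneg_right (min_le_left _ _) L0)⟩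
  have hlL : (l : ℝ) ≤ L := s2.trans (mul_le_of_le_one_left L0
    ((min_le_right _ _).trans (inv_le_one_of_one_le₀ hKR)))
  have hl : K * R₀ ≤ l := by
    have := s1.trans (mul_le_mul_of_nonneg_right (min_le_right _ _) l0)
    rwa [le_inv_mul_iff₀ (by linarith), mul_one] at this
  have hR : R₀ ≤ V.G.R := le_of_mul_le_mul_left (hl.trans (hlL.trans hAt.2)) (by linarith)
  have R0 : (0 : ℝ) < V.G.R := by linarith
  have Lp : (0 : ℝ) < L := by linarith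
  rw [div_le_iff₀ θ0] at R2
  have hKθ : 2 * K' ≤ V.G.R * θ := R2.trans (by gcongr)
  have hn : 2 ≤ ⌊(V.G.R : ℝ) / K'⌋₊ := Nat.le_floor (by
    rw [le_div_iff₀ (by linarith)]; push_cast; nlinarith)
  have hd := fun e he => d_glue G hu hn (e := e) he
  have hEn : Pot.edF V.EA (V.glue u) (V.glue u) = ∑ e ∈ V.EA, vfl (gr u) e ^ 2 := by
    rw [Pot.edF_self]; exact sum_congr rfl fun e he => by rw [(hd e he).1]
  have hsq : ∀ e ∈ V.EA, vfl (gr u) e ^ 2 ≤ (2 * (K' / V.G.R)) ^ 2 := fun e he => by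
    rw [← sq_abs]; exact pow_le_pow_left₀ (abs_nonneg _) (hd e he).2 2
  have hEb : Pot.edF V.EA (V.glue u) (V.glue u) ≤ 100 * K' ^ 2 := by
    rw [hEn]
    refine (sum_le_card_nsmul _ _ _ hsq).trans ?_
    rw [nsmul_eq_mul]
    refine (mul_le_mul_of_nonneg_right (card_EA (by exact_mod_cast R1.trans hR)) (sq_nonneg _)).trans
      (le_of_eq (by field_simp; norm_num))
  refine ⟨hEb, ?_⟩
  have θ3 : 0 < 1 - θ := by linarith
  set D := V.G.A \ LL V with hD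
  have hc : Λ.τ / (1 - θ) ≤ 2 * T := by rw [div_le_iff₀ θ3]; nlinarith
  have c0 : 0 < Λ.τ / (1 - θ) := by positivity
  have hRL : 1 / (V.G.R : ℝ) ≤ K / L := by rw [div_le_div_iff₀ R0 Lp, one_mul]; exact hAt.2
  have hreg : Reg D (36 + 16 + 16) l L := by
    have h0 := hAt.1
    have := G.r_le
    have := G.rho_le
    have := G.ω_le
    have hL1 : 1 ≤ L := by exact_mod_cast Lp
    have h1 : ((2 * V.G.R + 1 : ℕ) : ℝ) ≤ 3 * L := by exact_mod_cast (by omega : 2 * V.G.R + 1 ≤ 3 * L)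
    have h2 := reg_rc ((0 : Pt).1 - V.G.R, (0 : Pt).2 - V.G.R) l L (K := 3) (by norm_num) h1 h1
    rw [show (4 * 3 ^ 2 : ℝ) = 36 by norm_num] at h2
    rw [hD, Kr.Gm.A, Nc.an, bl_eq_sq, bl_eq_sq, sq_eq_rc, sq_eq_rc]
    exact reg_sd (reg_sd h2 (by exact_mod_cast hlL) _ (by omega) (by omega)) (by exact_mod_cast hlL) _
      (by omega) (by omega)
  have h1 := hT Λ hΛ l L hS _ (V.rw Λ) V.gk D (fun i x => Λ.τ / (1 - θ) * gr u i x) (fun _ => 0)
    (E.gamb D l sdiff_subset (edI_sub G)).1 (reg_mono hreg (by linarith))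
    (fun i x _ => by
      rw [abs_mul, abs_of_pos c0]
      calc _ ≤ 2 * T * (2 * (K' * (K / L))) := mul_le_mul hc ((abs_gr hu i x).trans (by
            rw [div_eq_mul_one_div]; gcongr)) (abs_nonneg _) (by positivity)
        _ = 4 * T * K' * K / L := by ring
        _ ≤ _ := by gcongr; nlinarith [mul_le_mul_of_nonneg_left hK (show 0 ≤ 4 * T * K' * K by positivity)])
    (fun i j x hx _ => by
      rw [show df j (fun x => Λ.τ / (1 - θ) * gr u i x) x = Λ.τ / (1 - θ) * df j (gr u i) x by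
        simp only [df]; ring, abs_mul, abs_of_pos c0]
      calc _ ≤ 2 * T * (2 * (K' * (K / L) ^ 2)) := mul_le_mul hc
            ((abs_df_gr hu hn i j (mem_sdiff.1 hx).2).trans (by
              rw [div_eq_mul_one_div, ← one_div_pow]; gcongr)) (abs_nonneg _) (by positivity)
        _ = 4 * T * K' * K ^ 2 / L ^ 2 := by ring
        _ ≤ _ := by gcongr; linarith)
    (fun _ _ => by rw [abs_zero]; positivity)
  obtain ⟨H, H1, H2, H3⟩ := dens hok ((sdiff_subset (s := V.EA) (t := Pot.nL.edI D)).trans G.EA_sub)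
  have h2 := hB Λ _ (V.rw Λ) H V.gk _ (fun e => vfl (gr u) e / θ) hok E.cen.wt E.cen.se H1 H2 H3
  have h3 := (E.cen.wt.convexOn_M E.cen.se).2 (Set.mem_univ (gfl (Λ.edI D)
    (fun e => vfl (fun i x => Λ.τ / (1 - θ) * gr u i x) e / Λ.τ + 0) V.gk))
    (Set.mem_univ (gfl (V.EA \ Pot.nL.edI D) (fun e => vfl (gr u) e / θ) V.gk)) θ3.le θ0.le (by ring)
  have hk : ∀ x, x ∉ V.G.Om → V.glue u x = 0 := fun x hx =>
    by_contra fun h => hx (A_Om hV (glue_near G hu h (self_mem_bl _ _)))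
  have e1 : V.X (V.glue u) = (1 - θ) • gfl (Λ.edI D)
      (fun e => vfl (fun i x => Λ.τ / (1 - θ) * gr u i x) e / Λ.τ + 0) V.gk +
      θ • gfl (V.EA \ Pot.nL.edI D) (fun e => vfl (gr u) e / θ) V.gk := by
    refine AddMonoidHom.ext fun s => ?_
    rw [Gv.X, AddMonoidHom.add_apply, AddMonoidHom.smul_apply, AddMonoidHom.smul_apply, gfl_apply, gfl_apply,
      gfl_apply, hI, ← sum_sdiff (edI_sub G), add_comm, smul_eq_mul, smul_eq_mul, mul_sum, mul_sum]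
    have e2 : ∀ e ∈ V.EA, V.Gk e (V.glue u) = vfl (gr u) e := fun e he => by
      rw [← (hd e he).1]; simp [Gv.Gk, Pot.dr, hk _ G.k_off.1, hk _ G.k_off.2.1]
    congr 1
    · refine sum_congr rfl fun e he => ?_
      rw [e2 e (edI_sub G he)]
      simp only [vfl, mul_assoc, ← mul_sum]
      field_simp; ring
    · refine sum_congr rfl fun e he => ?_
      rw [e2 e (mem_sdiff.1 he).1]; field_simp
  have h4 : ∑ e ∈ V.EA \ Pot.nL.edI D, (cosh (vfl (gr u) e / θ) - 1) ≤ V.G.R * (2 * (K' / V.G.R) / θ) ^ 2 := by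
    rw [← sum_filter_of_ne (p := (· ∈ Pot.nL.edT (LL V))) fun e he h => extra G hu hn he fun h0 =>
      h (by rw [h0, zero_div, cosh_zero, sub_self])]
    refine (sum_le_card_nsmul _ _ ((2 * (K' / V.G.R) / θ) ^ 2) fun e he => ?_).trans ?_
    · have h5 := (mem_sdiff.1 (mem_filter.1 he).1).1
      refine (cosh_le ?_).trans (by
        rw [div_pow, div_pow _ θ]; exact div_le_div_of_nonneg_right (hsq e h5) (sq_nonneg _))
      rw [abs_div, abs_of_pos θ0, div_le_one θ0]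
      exact (hd e h5).2.trans (by rw [← mul_div_assoc, div_le_iff₀ R0]; linarith)
    · rw [nsmul_eq_mul]
      exact mul_le_mul_of_nonneg_right ((Nat.cast_le.2 (card_le_card fun e he =>
        (mem_filter.1 he).2)).trans (card_LL G)) (sq_nonneg _)
  have h5 : θ * (Λ.τ * (V.G.R * (2 * (K' / V.G.R) / θ) ^ 2)) ≤ ε / 3 := by
    rw [div_le_iff₀ (by positivity)] at R3
    calc _ = 4 * Λ.τ * K' ^ 2 / (θ * V.G.R) := by field_simp; ring
      _ ≤ 4 * T * K' ^ 2 / (θ * R₀) := by gcongr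
      _ ≤ ε / 3 := by rw [div_le_div_iff₀ (by positivity) (by norm_num)]; linarith
  obtain ⟨t0, t1, -⟩ := hA Λ hΛ l (by exact_mod_cast hKR.trans hl)
  have h6 := sum_le G (gr u)
  rw [← hEn] at h6
  simp only [mul_pow, ← mul_sum, zero_mul, sum_const_zero, mul_zero, add_zero, ne_eq, OfNat.ofNat_ne_zero,
    not_false_eq_true, zero_pow, smul_eq_mul] at h1 h3
  have e3 : Λ.gN l = Λ.tN l * Λ.τ := by rw [Lat.gN, Lat.e0, ha]; field_simp
  rw [e1, e3]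
  simp only [add_zero]
  rw [Lat.e0, ha] at h1
  have S0 : 0 ≤ ∑ x ∈ D, ∑ i, gr u i x ^ 2 := by positivity
  generalize Pot.edF V.EA (V.glue u) (V.glue u) = En at *
  generalize ∑ x ∈ D, ∑ i, gr u i x ^ 2 = S at *
  have h7 : (1 - θ) * (Λ.tN l * (1 / Λ.τ) * ((Λ.τ / (1 - θ)) ^ 2 * S) / 2 + ε / 3) ≤
      Λ.tN l * Λ.τ * En / 2 + ε / 3 + ε / 3 := by
    have g0 : 0 ≤ Λ.tN l * Λ.τ := by positivity
    have g1 : Λ.tN l * Λ.τ ≤ T := (mul_le_of_le_one_left τ0.le t1).trans τT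
    have h8 : θ * (Λ.tN l * Λ.τ * En) ≤ ε / 3 := le_trans (by gcongr; linarith) θ2
    have h9 : S / (1 - θ) ≤ En + 2 * θ * En := by
      rw [div_le_iff₀ θ3]; nlinarith [mul_nonneg (mul_nonneg θ0.le (S0.trans h6)) (sub_nonneg.2 θ1)]
    calc _ = Λ.tN l * Λ.τ * (S / (1 - θ)) / 2 + (1 - θ) * (ε / 3) := by field_simp
      _ ≤ Λ.tN l * Λ.τ * (En + 2 * θ * En) / 2 + 1 * (ε / 3) := by gcongr; linarith
      _ ≤ _ := by linarith
  have h10 := mul_le_mul_of_nonneg_left h1 θ3.le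
  have h11 := mul_le_mul_of_nonneg_left (h2.trans (mul_le_mul_of_nonneg_left h4 τ0.le)) θ0.le
  linarith

end Crest.Agent.T145.Kv
end

-- ▼ part T145/KvVec_90
section

/-!
# Row 145: from the output `VecStmt` of the twisted kernel module to `Vx.KvStmt` (helper90)
-/

set_option autoImplicit false

namespace Crest.Agent.T145.Ks68

open Finset Nc Nc.Geo Filter Real

variable {Λ : Lat} {U I O : Finset Pt} {z : Pt} {σ : Pt × Pt → ℤ} {α β α' β' : ℝ}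

theorem Vec.mono {V : Type} {W : Cfg V → ℝ} {I O : Finset V} (h : Vec W I O α β) (h1 : α ≤ α') (h2 : β ≤ β') :
    Vec W I O α' β' := by
  obtain ⟨a, hl, h⟩ := h
  refine ⟨a, hl, fun F M dF bF => ?_⟩
  have M0 : 0 ≤ M := (abs_nonneg _).trans (bF 0)
  exact ⟨fun i => ((h F M dF bF).1 i).trans (mul_le_mul_of_nonneg_right h1 M0), fun φ d b =>
    ((h F M dF bF).2 φ d b).trans (add_le_add le_rfl (mul_le_mul_of_nonneg_right h2 M0))⟩

theorem vec_vtx (hΛ : Λ.Ok) (hv : Vtx Λ z (U.map (Equiv.addRight z).toEmbedding) σ) (hn : U.Nonempty)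
    (hI : I ⊆ U) (hO : O ⊆ U) (M : Vec (wN Λ U (Vd.ray 0)) I O α β) :
    Vec (wN Λ (U.map (Equiv.addRight z).toEmbedding) σ) (I.map (Equiv.addRight z).toEmbedding)
      (O.map (Equiv.addRight z).toEmbedding) α β := by
  obtain ⟨r, hr⟩ := hn
  obtain ⟨φ, ε, v, -, h1, h⟩ := vtx_equiv hΛ hv r
  have k : ∀ {X : Cfg Pt → ℝ}, DepG (U.map (Equiv.addRight z).toEmbedding) X →
      Ex (wN Λ (U.map (Equiv.addRight z).toEmbedding) σ) X =
        Ex (wN Λ U (Vd.ray 0)) fun s => X (φ s) := fun hX => by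
    rw [ex_wN (r := r + z) (mem_map_of_mem _ hr) hX, ex_wN hr (depG_equiv h1 hX), ← Md.ex_equiv φ,
      funext h]
  obtain ⟨a, hl, M⟩ := M
  refine ⟨fun F => a fun s => F (φ s), fun F G x y B bF bG => hl _ _ x y B (fun _ => bF _) fun _ => bG _,
    fun F B dF bF => ⟨(M _ B (depG_equiv h1 dF) fun _ => bF _).1, fun G dG bG => ?_⟩⟩
  have dF' := dF.mono (map_subset_map.2 hI)
  have dG' := dG.mono (map_subset_map.2 hO)
  rw [Cv, k (dF'.mul dG'), k dF', k dG']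
  exact (M _ B (depG_equiv h1 dF) fun _ => bF _).2 _ (depG_equiv h1 dG) fun _ => bG _

/-- near a core the seam of the pair is a unit vortex -/
theorem vtx_Vp (hJ : Λ.J = nn) (V : Vx.Vp) {R : ℕ} (h : R < V.r) : Vtx Λ V.p (bl V.p R) V.σ := by
  obtain ⟨a, r, _ | _⟩ := V
  · refine ⟨-1, cst ((bl ((a + r, 0) : Pt) R).filter fun x => 0 ≤ x.2) 1, .inr rfl, fun e he => ?_⟩
    obtain ⟨h0, h1, h2⟩ := Lat.mem_edI.1 he
    simp only [Vx.Vp.p, Bool.false_eq_true, if_false] at h1 h2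
    simp only [Vx.Vp.σ, Vx.sm, Vx.Vp.p, Bool.false_eq_true, if_false, dE, cst_apply, mem_filter, h1, h2, true_and]
    have h3 := mem_bl.1 h1
    simp only [Lat.Jp, hJ, nn, mem_filter, mem_insert, mem_singleton, posD, Prod.ext_iff, Prod.fst_sub,
      Prod.snd_sub] at h0
    simp only [Vd.ray] at *
    split_ifs <;> omega
  · refine ⟨1, 0, .inl rfl, fun e he => ?_⟩
    have h3 := mem_bl.1 (Lat.mem_edI.1 he).2.1
    simp only [Vx.Vp.p, if_true] at h3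
    simp only [Vx.Vp.σ, Vx.sm, Vx.Vp.p, if_true, dE, Finsupp.coe_zero, Pi.zero_apply, Vd.ray] at *
    split_ifs <;> omega

/-- the dual bound controls the `L¹` norm of the conditional expectation -/
theorem l1_of_dual {b : ℝ} (hΛ : (xyL b).Ok) {c r R R₂ : ℕ} (h1 : c ≤ R) (h2 : r ≤ R) (h3 : R < R₂)
    {F : Cfg Pt → ℝ} {M B : ℝ} (dF : DepG (an z c r) F) (bF : ∀ s, |F s| ≤ M)
    (h : ∀ φ : Cfg Pt → ℝ, DepG (an z R R₂) φ → (∀ s, |φ s| ≤ 1) →
      |Cv (wN (xyL b) (an z c R₂) σ) F φ| ≤ B) :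
    Ex (wN (xyL b) (an z c R₂) σ)
      (fun s => |Vx.trA b σ z c R F s - Ex (wN (xyL b) (an z c R₂) σ) F|) ≤ B := by
  obtain ⟨x, hx⟩ := an_nonempty z h3
  have sO : an z R R₂ ⊆ an z c R₂ := an_mono z h1 le_rfl
  have cn := cnL_an hΛ z (h1.trans_lt h3)
  have wt := wt_wN hΛ cn ⟨x, sO hx⟩ σ
  let m₁ := tw ((xyL b).N (an z c (R + 1))) σ
  let m₂ := tw ((xyL b).Nr (an z c R₂) x) σ
  have n1 := tw_ne (hΛ.ctr_N (an z c (R + 1))).1 σ
  have n2 := tw_ne (hΛ.ctr_Nr (an z c R₂) x).1 σ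
  have e1 : Vx.trA b σ z c R F = m₁.cE (an z c R) F := rfl
  have e2 : m₁.cE (an z c R) = m₂.cE (an z c R) := by
    refine Mdl.cE_congr_mdl n1 n2 (ext fun e => ?_) (fun _ _ => rfl) fun _ _ => rfl
    rw [Mdl.mem_edM, Mdl.mem_edM]
    refine and_congr_left fun he => ?_
    change e ∈ (xyL b).edI _ ↔ e ∈ (xyL b).edI _
    refine ⟨fun k => Lat.edI_mono (an_mono z le_rfl h3) k, fun k => ?_⟩
    obtain ⟨k0, k1, k2⟩ := Lat.mem_edI.1 k
    have := near_bl (z := z) (r := R) k0 (he.imp (fun k => an_subset_bl _ _ _ k) fun k => an_subset_bl _ _ _ k)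
    rw [xyL_rg] at this
    exact Lat.mem_edI.2 ⟨k0, mem_an.2 ⟨this.1, (mem_an.1 k1).2⟩, mem_an.2 ⟨this.2, (mem_an.1 k2).2⟩⟩
  have dT : DepG (an z R R₂) (m₁.cE (an z c R) F) := by
    refine (Mdl.cE_depG n1 (fun _ _ _ _ => rfl) dF).mono (union_subset ?_ fun y hy => ?_)
    · refine (bd_subset (B' := an z c (R + 1)) fun e he _ => (Lat.mem_edI.1 he).2).trans ?_
      rw [an_sdiff_an' z _ h1]; exact an_mono z le_rfl h3
    · exact absurd (an_mono z le_rfl h2 (mem_sdiff.1 hy).1) (mem_sdiff.1 hy).2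
  have bT : ∀ s, |m₁.cE (an z c R) F s| ≤ M := fun s => Mdl.abs_cE_le_of_bdd
    (Mdl.W_nonneg (m := m₁.free (an z c R)) (fun e he k => (tw_pos (hΛ.ctr_N _).1 σ e he k).le)
      (fun _ _ _ => zero_le_one) s) bF
  rw [e1]
  set T := m₁.cE (an z c R) F
  set μ := Ex (wN (xyL b) (an z c R₂) σ) F with hμ
  let φ : Cfg Pt → ℝ := fun s => if 0 ≤ T s - μ then 1 else -1
  have dφ : DepG (an z R R₂) φ := dT.comp fun t => if 0 ≤ t - μ then (1 : ℝ) else -1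
  have bφ : ∀ s, |φ s| ≤ 1 := fun s => by simp only [φ]; split_ifs <;> simp
  have am : ∀ {u : Cfg Pt → ℝ}, (∀ s, |u s| ≤ M) → ∀ s, |φ s * u s| ≤ M := fun hu s => by
    rw [abs_mul]; exact (mul_le_of_le_one_left (abs_nonneg _) (bφ s)).trans (hu s)
  have w2 : Wt (m₂.W 0) := Md.ctr_wts (hΛ.ctr_Nr _ x) (Lat.anch_Nr fun y hy => cn y hy x (sO hx)) 0 σ
  have tow := (Mdl.tower_cE_mul (m := m₂) (B := an z c R) (F := F) (fun y hy => mem_erase.2
    ⟨fun k => (mem_an.1 hx).2 (k ▸ an_subset_bl _ _ _ hy), an_mono z le_rfl h3.le hy⟩)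
    (dφ.dep.out (disjoint_left.2 fun y k1 k2 => (mem_an.1 k1).2 (an_subset_bl _ _ _ k2))) w2
    (w2.ig_bdd (am bF))).2
  have dF' := dF.mono (an_mono z le_rfl (h2.trans h3.le))
  rw [← e2, tw_W, ← ex_wN (sO hx) ((dφ.mono sO).mul dF'), ← ex_wN (sO hx) ((dφ.mono sO).mul (dT.mono sO))] at tow
  refine le_trans (le_of_eq ?_) ((le_abs_self _).trans (h φ dφ bφ))
  rw [Cv, Ex_congr (G := fun s => φ s * F s) fun s _ => mul_comm _ _, tow, ← hμ, ← Ex_const_mul,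
    ← Ex_sub (wt.ig_bdd (am bT)) ((wt.ig_bdd bφ).const_mul _)]
  refine Ex_congr fun s _ => ?_
  simp only [φ]
  split_ifs with k
  · rw [abs_of_nonneg k]; ring
  · rw [abs_of_neg (not_le.1 k)]; ring

theorem num {W D a t b : ℝ} (hW : 1 ≤ W) (hD : 1 ≤ D) (ha : -2 ≤ a) (h : D ^ 2 ≤ W ^ t) (hb : a + t ≤ b) :
    (W / D) ^ a ≤ W ^ b := by
  have W0 : 0 < W := by linarith
  have D0 : 0 < D := by linarith
  have h1 : D ^ (-2 : ℝ) ≤ D ^ a := rpow_le_rpow_of_exponent_le hD ha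
  rw [rpow_neg D0.le, rpow_two] at h1
  rw [div_rpow W0.le D0.le, div_le_iff₀ (rpow_pos_of_pos D0 _)]
  refine le_trans ?_ (mul_le_mul (rpow_le_rpow_of_exponent_le hW hb) h1 (by positivity) (by positivity))
  rw [rpow_add W0, mul_assoc]
  exact le_mul_of_one_le_right (by positivity) (by rwa [← div_eq_mul_inv, one_le_div (by positivity)])

end Crest.Agent.T145.Ks68

namespace Crest.Agent.T145.Vx

open Finset Nc Nc.Geo Filter Real Ks68 Topology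

theorem kvStmt (h : VecStmt) (hm : T1mStmt) : KvStmt := by
  intro b hb W₀ κ hW₀ hκ
  have ok := hb.1
  have p0 := pi_pos
  have t0 : 0 < (xyL b).tI := ok.gI_pos_iff.1 (by rw [hb.2.1]; positivity)
  set ε := min (κ / 4) (1 / 4) with hε
  have ε0 : 0 < ε := by positivity
  have ε1 : ε ≤ κ / 4 := min_le_left _ _
  obtain ⟨W₁, h⟩ := h ((xyL b).fa ok) _ ε rfl (half_pos t0) ε0 (min_le_right _ _)
  have w0 : (2 : ℝ) ≤ W₀ := by exact_mod_cast hW₀
  set D : ℝ := 2 * (W₀ : ℝ) ^ 2 with hD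
  have D1 : 1 ≤ D := by nlinarith
  have t1 : Tendsto (fun W : ℕ => (W : ℝ) / D) atTop atTop :=
    tendsto_natCast_atTop_atTop.atTop_div_const (by linarith)
  obtain ⟨W₂, hW₂⟩ := eventually_atTop.1 ((t1.eventually_ge_atTop W₁).and ((t1.eventually_ge_atTop 1024).and
    ((t1.eventually_ge_atTop (2 * W₀)).and (((tendsto_rpow_atTop (y := κ / 4) (by positivity)).comp
      tendsto_natCast_atTop_atTop).eventually_ge_atTop (D ^ 2)))))
  refine ⟨W₂, fun W hW => ?_⟩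
  obtain ⟨w1, w2, w3, w4⟩ := hW₂ W hW
  have w5 : 1024 * D ≤ W := (le_div_iff₀ (by linarith)).1 w2
  obtain ⟨δ, δ0, h⟩ := h _ w1 (2 * W₀) (by linarith)
  obtain ⟨l1, -, -, -, -, l2⟩ := hm.1 _ ok
  have l3 : Tendsto (fun l => π * (xyL b).gN l) atTop (𝓝 2) := by
    have := (l1.div_const (xyL b).e0).const_mul π
    rwa [show π * ((xyL b).tI / (xyL b).e0) = 2 by
      change π * (xyL b).gI = 2
      rw [hb.2.1]; field_simp] at this
  obtain ⟨l, hl, hg⟩ := ((l2 t0 δ δ0).and (l3.eventually (le_mem_nhds (show 2 - ε < 2 by linarith)))).exists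
  obtain ⟨j₀, hj⟩ := eventually_atTop.1 hl
  refine ⟨max 64 (2 ^ j₀), fun V ρ hρ hV => ?_⟩
  have ρ1 : 64 ≤ ρ := (le_max_left _ _).trans hρ
  have ρ2 : (64 : ℝ) ≤ ρ := by exact_mod_cast ρ1
  have w6 : W₀ * W₀ * 2 ≤ W := by
    have : (W₀ * W₀ * 2 : ℝ) ≤ W := by nlinarith
    exact_mod_cast this
  have a1 : W₀ * ρ * 2 ≤ W₀ * (W₀ * ρ) := by nlinarith [Nat.mul_le_mul_left (W₀ * ρ) hW₀]
  have a2 : W₀ * (W₀ * ρ) * 2 ≤ W * ρ := by nlinarith [Nat.mul_le_mul_right ρ w6]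
  have a3 : W * ρ * 2 ≤ W₀ * (W * ρ) := by nlinarith [Nat.mul_le_mul_left (W * ρ) hW₀]
  have a4 : ρ * 2 ≤ W₀ * ρ := by nlinarith [Nat.mul_le_mul_left ρ hW₀]
  let G : Kr.Gm := ⟨W₀ * ρ, W₀ * (W₀ * ρ) + 1, W * ρ, W₀ * (W * ρ)⟩
  have b1 := Nat.lt_pow_succ_log_self one_lt_two G.R₂
  have b2 := Nat.pow_log_le_self 2 (x := G.R₂) (by simp only [G]; omega)
  have b3 : j₀ ≤ Nat.log 2 G.R₂ + 1 := by
    refine (Nat.pow_le_pow_iff_right one_lt_two).1 (le_trans ?_ b1.le)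
    exact ((le_max_right _ _).trans hρ).trans (by simp only [G]; omega)
  have D0 : 0 < D := by linarith
  have c0 : (1 : ℝ) ≤ W₀ * (W₀ * ρ) := by nlinarith [mul_le_mul w0 ρ2 (by norm_num) (by linarith)]
  have W0 : (0 : ℝ) ≤ W := Nat.cast_nonneg _
  have hG : G.Ok (W / D) := ⟨w2, by simp only [G]; omega, by simp only [G]; omega, by
      simp only [G]; push_cast
      rw [div_mul_eq_mul_div, div_le_iff₀ D0, hD]
      nlinarith [mul_le_mul_of_nonneg_left c0 W0], by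
      simp only [G]; push_cast
      rw [mul_div_assoc', div_mul_eq_mul_div, le_div_iff₀ D0, hD]
      nlinarith, by simp only [G]; omega⟩
  have k := h _ (Lat.mem_fa ok) l _ (hj _ b3) hg G hG ⟨by simp only [G] at b1 ⊢; omega, by
      have : 2 ^ (Nat.log 2 G.R₂ + 1) ≤ 2 * W₀ * (W * ρ) := by rw [pow_succ]; simp only [G] at b2 ⊢; linarith
      simp only [G] at this ⊢
      exact_mod_cast this⟩ b1.le (by
      simp only [G]; push_cast
      nlinarith [mul_le_mul_of_nonneg_right w3 (by positivity : (0 : ℝ) ≤ W₀ * ρ)]) (by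
      simp only [G]; push_cast
      exact mul_le_mul_of_nonneg_right (by linarith) (by positivity))
  have k2 := (vec_vtx (z := V.p) (σ := V.σ) ok (by
      rw [map_an0]
      exact (vtx_Vp rfl V (R := G.R₂) (by simp only [G]; omega)).mono (an_subset_bl _ _ _))
    (an_nonempty 0 (by simp only [G]; omega)) (an_mono 0 le_rfl (by simp only [G]; omega))
    (an_mono 0 (by simp only [G]; omega) le_rfl) k).mono
    (num (b := κ - 1) (by linarith) D1 (by linarith) w4 (by linarith))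
    (num (b := κ - 2) (by linarith) D1 (by linarith) w4 (by linarith))
  simp only [map_an0] at k2
  obtain ⟨a, al, k2⟩ := k2
  exact ⟨a, al, fun F M dF bF => ⟨(k2 F M dF bF).1,
    l1_of_dual ok (by omega) (by omega) (by omega) dF bF (k2 F M dF bF).2⟩⟩

end Crest.Agent.T145.Vx
end

-- ▼ part T145/KsD_68
section

/-!
# Row 145 (helper68): KS on the lattice, the two inductions, quasi-multiplicativity
-/

set_option autoImplicit false

namespace Crest.Agent.T145.Ks68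

open Finset Nc Nc.Geo

/-- what the lattice provides at all scales `≥ r₀`; `M = W₀ W W₀` -/
structure Env (Λ : Lat) (W₀ W M r₀ : ℕ) (K η : ℝ) : Prop where
  ok : Λ.Ok
  nn : Λ.J = nn
  W2 : 2 ≤ W₀
  W1 : 1 ≤ W
  hM : M = W₀ * (W * W₀)
  rg : 2 * Λ.rg ≤ r₀
  gam : ∀ r, r₀ ≤ r → gam Λ r (W₀ * r) ≤ 2
  mix : ∀ c, r₀ ≤ c → Mix (wN Λ (an 0 c (M * c)) (Vd.ray 0)) (an 0 c (W₀ * c))
    (an 0 (W * (W₀ * c)) (M * c)) (1 / 8) η
  η0 : 0 ≤ η
  K1 : 1 ≤ K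
  ηK : 32 * η * (3 * K) * (3 * K) ≤ 1
  hT : ∀ c R, r₀ ≤ c → R ≤ M * (M * (M * c)) → 1 ≤ K * TT Λ c R
  h2 : ∀ (z : Pt) (n c : ℕ) (m : Mdl Pt) (σ : Pt × Pt → ℤ), r₀ ≤ c → 4 * c ≤ n → n ≤ 4 * M * (M * c) →
    Amb Λ m (bl z (2 * n)) → (∀ e ∈ m.ed, σ e = Es28.sm z n e) →
    1 ≤ K * zr (hole (hole m (bl (z + ((n : ℤ), 0)) c)) (bl z c)) σ
  st : ∃ c, r₀ ≤ c ∧ uu Λ c ≤ 3 * K * uu Λ (M * c)

variable {Λ : Lat} {W₀ W M r₀ : ℕ} {K η : ℝ} {m : Mdl Pt} {H : Finset Pt} {z : Pt} {c R n : ℕ}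
  {σ : Pt × Pt → ℤ}

theorem vtx_sm_left (hR : R < n) : Vtx Λ z (bl z R) (Es28.sm z n) :=
  ⟨1, 0, .inl rfl, fun e he => by
    have := mem_bl.1 (Lat.mem_edI.1 he).2.1
    simp only [Es28.sm, Vd.ray, dE, Finsupp.zero_apply]
    split_ifs <;> omega⟩

theorem vtx_sm_right (hJ : Λ.J = nn) (hR : R ≤ n) :
    Vtx Λ (z + ((n : ℤ), 0)) (bl (z + ((n : ℤ), 0)) R) (Es28.sm z n) :=
  ⟨-1, cst ((bl (z + ((n : ℤ), 0)) R).filter fun x => z.2 ≤ x.2) 1, .inr rfl, fun e he => by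
    obtain ⟨h0, h1, h2⟩ := Lat.mem_edI.1 he
    have h3 := mem_bl.1 h1
    have : Λ.Jp = Pot.nL.Jp := by simp only [Lat.Jp, hJ]; rfl
    rw [this, Vd.mem_Jp, Prod.ext_iff, Prod.ext_iff] at h0
    simp only [Es28.sm, Vd.ray, dE, cst_apply, mem_filter, h1, h2, true_and, Prod.fst_add, Prod.snd_add,
      Prod.fst_sub, Prod.snd_sub] at h0 h3 ⊢
    split_ifs <;> omega⟩

namespace Env
variable (E : Env Λ W₀ W M r₀ K η)
include E

theorem two (c : ℕ) : 2 * c ≤ W₀ * c ∧ W₀ * c ≤ W * (W₀ * c) ∧ 2 * (W * (W₀ * c)) ≤ M * c :=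
  ⟨Nat.mul_le_mul_right _ E.W2, Nat.le_mul_of_pos_left _ E.W1, by
    rw [E.hM, mul_assoc, mul_assoc]; exact Nat.mul_le_mul_right _ E.W2⟩

theorem four (c : ℕ) : 4 * c ≤ M * c := by have := E.two c; omega

/-- KS on the lattice minus `H` -/
theorem ksL (hc : m.Ctr) (ha : m.Anch) (h : Lh Λ m H z (M * c)) (c0 : r₀ ≤ c)
    (hH : H ⊆ bl z (c - Λ.rg)) (n1 : CnL Λ (bl z c \ H)) (n2 : CnL Λ (bl z (M * c) \ H))
    (hv : Vtx Λ z (an z c (M * c)) σ) (hi : zN Λ (bl z c \ H) σ ≤ 3 * K * zN Λ (bl z (M * c) \ H) σ)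
    (ho : zr (hole m (bl z (M * c) \ H)) σ ≤ 3 * K * zr (hole m (bl z c \ H)) σ) :
    zN Λ (bl z (M * c) \ H) σ * zr (hole m (bl z c \ H)) σ ≤ 3 * zr m σ := by
  have hΛ := E.ok
  have r1 := hΛ.one_le_rg
  have r2 := E.rg
  obtain ⟨a1, a2, a3⟩ := E.two c
  have g1 := E.gam c c0
  have g2 := E.gam (W * (W₀ * c)) (by omega)
  have mx := mix_vtx hΛ (by rwa [map_an0]) (an_nonempty 0 (by omega)) (an_mono 0 le_rfl (by omega))
    (an_mono 0 (by omega) le_rfl) (E.mix c c0)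
  rw [map_an0, map_an0, map_an0] at mx
  rw [show W₀ * (W * (W₀ * c)) = M * c by rw [E.hM, mul_assoc, mul_assoc]] at g2
  have eT := zN_an hΛ hv
  generalize M * c = d at *
  generalize W * (W₀ * c) = b at *
  generalize W₀ * c = a at *
  obtain ⟨a, rfl⟩ : ∃ a', a = a' + Λ.rg := ⟨a - Λ.rg, by omega⟩
  have hH' : H ⊆ bl z c := hH.trans (bl_mono z (by omega))
  have ct := (h.mono (by omega : a ≤ d)).cut hΛ (by omega) (by omega) hH n1
  have ct' := h.cut hΛ (by omega) le_rfl (hH.trans (bl_mono z (by omega))) n2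
  have lh := h.hole (bl z c \ H)
  rw [union_sdiff_of_subset hH'] at lh
  have eU : bl z c \ H ∪ an z c d = bl z d \ H := by
    have := union_cut z hH' (by omega : c ≤ d) d le_rfl
    rwa [an, an, sdiff_self, bot_eq_empty, sdiff_empty] at this
  have iX : InL Λ m (an z c d) := (h.inL_an hH').mono (an_mono z le_rfl (by omega))
  have iD : InL Λ m (bl z d \ H) := h.ins.mono (sdiff_subset_sdiff (bl_mono z (by omega)) subset_rfl)
  have iN : InL Λ m (bl z c \ H) := h.ins.mono (sdiff_subset_sdiff (bl_mono z (by omega)) subset_rfl)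
  have iH : InL Λ (hole m (bl z c \ H)) (an z c d) := lh.ins.mono (an_mono z le_rfl (Nat.le_add_right _ _))
  have bd : (hole m (bl z c \ H)).bd (an z c b) ⊆ an z b (b + Λ.rg) :=
    (lh.bd (by omega : b ≤ d)).trans sdiff_subset
  have bx : Box (hole m (bl z c \ H)) (an z c d) (an z (d - Λ.rg) d) :=
    (lh.mono (Nat.sub_le _ _)).box' hΛ (by omega) (bl_mono z (by omega)) (cnL_an hΛ z (by omega))
  have T1 := TT_le_one hΛ c d
  have T0 := TT_pos hΛ c d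
  have ah := ct.hole_anch ha
  have k := ks (X := an z c d) (S' := an z (d - Λ.rg) d) (I := an z c (a + Λ.rg)) (O := an z b d)
    (B := an z c b) (C := an z c (b + Λ.rg)) (σ := σ) (Ki := 3 * K) (Ko := 3 * K) hc ha ct
    bx lh.cl
    (by rw [hole_hole, eU]; exact ct'.hole_anch ha) subset_rfl (an_mono z le_rfl a2)
    (by rw [an_sdiff_an z c (by omega)]; exact an_mono z le_rfl (by omega))
    (bd.trans (an_mono z (by omega) le_rfl)) (bd.trans (an_mono z le_rfl (by omega)))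
    (an_mono z le_rfl (by omega)) (an_mono z (by omega) le_rfl)
    ((disjoint_bl_an z d le_rfl).symm.mono_right (an_subset_bl _ _ _)) E.η0 (by rwa [rWs_fr iX])
    (((h.mono (by omega : a ≤ d)).cr_cut hΛ hH' (by omega)).trans_le g1)
    ((iH.cr_hole U.monoCr hΛ (Nc.hole_fm hc.1 _) (by omega) (by omega)).trans g2)
    (by
      rw [eU, zr_fr iN, zr_fr iX, zr_fr iD, eT]
      exact (mul_le_of_le_one_right (zN_pos hΛ n1 (ct.ne.mono ct.sub) σ).le T1).trans hi)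
    (by
      rw [hole_hole, eU, zr_fr iX, eT]
      exact (mul_le_of_le_one_left (zr_pos (Nc.hole_ctr hc _) (ct'.hole_anch ha) σ).le T1).trans ho) E.ηK
  rw [eU, zr_fr iX, zr_fr iD, eT] at k
  have := mul_le_of_le_one_right (zr_pos hc ha σ).le T1
  have := zr_pos hc ha σ
  linarith

/-- KS in the free ball of radius `R` minus `H` -/
theorem ksF (c0 : r₀ ≤ c) (hH : H ⊆ bl 0 (c - Λ.rg)) (hn : ∀ ρ, c ≤ ρ → CnL Λ (bl 0 ρ \ H))
    (hR : 2 * (M * c) ≤ R)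
    (hi : zN Λ (bl 0 c \ H) (Vd.ray 0) ≤ 3 * K * zN Λ (bl 0 (M * c) \ H) (Vd.ray 0))
    (ho : TT Λ (M * c) R ≤ 3 * K * TT Λ c R) :
    zN Λ (bl 0 (M * c) \ H) (Vd.ray 0) * TT Λ c R ≤ 3 * zN Λ (bl 0 R \ H) (Vd.ray 0) := by
  have hΛ := E.ok
  have r1 := hΛ.one_le_rg
  have r2 := E.rg
  have r3 := E.four c
  have iR : InL Λ (hole (Λ.N (bl 0 R)) H) (bl 0 R \ H) := (inL_N subset_rfl).hole H
  have fm := Nc.hole_fm (hΛ.ctr_N (bl 0 R)).1 H
  have hx : ∀ ρ, ρ < R → (((R : ℤ), (0 : ℤ)) : Pt) ∈ an 0 ρ R := fun ρ h => by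
    simp only [mem_an, mem_bl, Prod.fst_zero, Prod.snd_zero]; omega
  have sub : ∀ ρ, c ≤ ρ → an 0 ρ R ⊆ bl 0 R \ H := fun ρ h =>
    sdiff_subset_sdiff subset_rfl (hH.trans (bl_mono 0 (by omega)))
  have eh : ∀ ρ, c ≤ ρ → ρ < R → zr (hole (pn (hole (Λ.N (bl 0 R)) H) (bl 0 R \ H) {((R : ℤ), (0 : ℤ))})
      (bl 0 ρ \ H)) (Vd.ray 0) = TT Λ ρ R := fun ρ h h' => by
    have := union_cut 0 (hH.trans (bl_mono 0 (by omega : c - Λ.rg ≤ ρ))) h'.le R le_rfl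
    rw [an, an, sdiff_self, bot_eq_empty, sdiff_empty, ← an] at this
    rw [← this, hole_pn ((disjoint_bl_an 0 R le_rfl).mono_left sdiff_subset), ← zr_root (hx ρ h'),
      zr_fr (iR.mono (sub ρ h))]; rfl
  have k := E.ksL (pn_ctr fm (bl 0 R \ H) {((R : ℤ), (0 : ℤ))})
    (pn_anch (iR.cn (hn R (by omega))) (sub c le_rfl (hx c (by omega))) (mem_singleton_self _))
    (((lh_N (by omega)).hole0 H).pn (sdiff_subset_sdiff (bl_mono 0 (by omega)) subset_rfl)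
      (disjoint_singleton_left.2 fun k => (mem_an.1 (hx _ (by omega))).2 (mem_sdiff.1 k).1))
    c0 hH (hn c le_rfl) (hn _ (by omega)) (vtx_ray Λ 0 _) hi
    (by rwa [eh _ (by omega) (by omega), eh _ le_rfl (by omega)])
  rwa [eh _ le_rfl (by omega), ← zr_root (sub c le_rfl (hx c (by omega))), zr_fr iR] at k

/-- the outer induction -/
theorem outer (R : ℕ) : ∀ c, r₀ ≤ c → TT Λ (M * c) R ≤ 3 * K * TT Λ c R := by
  have hΛ := E.ok
  have r1 := hΛ.one_le_rg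
  have r2 := E.rg
  have K1 := E.K1
  suffices h : ∀ k c, R - c ≤ k → r₀ ≤ c → TT Λ (M * c) R ≤ 3 * K * TT Λ c R from
    fun c => h _ c le_rfl
  intro k
  induction k with
  | zero =>
    intro c h _
    have := E.four c
    rw [TT_of_le Λ (by omega), TT_of_le Λ (by omega)]; linarith
  | succ k ih =>
    intro c h c0
    have r3 := E.four c
    have r4 := E.four (M * c)
    have r5 := E.four (M * (M * c))
    have T0 := TT_pos hΛ c R
    have T1 := TT_pos hΛ (M * c) R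
    rcases le_or_gt R (M * (M * (M * c))) with q | q
    · have := E.hT c R c0 q
      have := TT_le_one hΛ (M * c) R
      nlinarith
    have t := E.hT c (M * (M * c)) c0 (by omega)
    have k : TT Λ c (M * (M * c)) * TT Λ (M * c) R ≤ 3 * TT Λ c R :=
      E.ksF (H := bl 0 c) (c := M * c) (by omega) (bl_mono 0 (by omega))
        (fun ρ h => cnL_an hΛ 0 (by omega)) (by omega)
        ((TT_le_one hΛ c (M * c)).trans (t.trans (by
          have := TT_pos hΛ c (M * (M * c))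
          change _ ≤ 3 * K * TT Λ c (M * (M * c))
          nlinarith))) (ih _ (by omega) (by omega))
    nlinarith [mul_le_mul_of_nonneg_right t T1.le, mul_le_mul_of_nonneg_left k (by linarith : 0 ≤ K)]

theorem ksU (c0 : r₀ ≤ c) (hR : 2 * (M * c) ≤ R) (hi : uu Λ c ≤ 3 * K * uu Λ (M * c)) :
    uu Λ (M * c) * TT Λ c R ≤ 3 * uu Λ R := by
  have := E.ksF (H := ∅) (R := R) c0 (empty_subset _)
  simp only [sdiff_empty] at this
  exact this (fun ρ _ => cnL_bl E.ok 0 ρ) hR hi (E.outer R c c0)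

/-- the inner induction -/
theorem inner (c0 : r₀ ≤ c) (hi : uu Λ c ≤ 3 * K * uu Λ (M * c)) :
    uu Λ (M * c) ≤ 3 * K * uu Λ (M * (M * c)) := by
  have r4 := E.four (M * c)
  have r5 := E.four (M * (M * c))
  have k := E.ksU c0 (R := M * (M * c)) (by omega) hi
  have t := E.hT c (M * (M * c)) c0 (by omega)
  have := E.K1
  nlinarith [mul_le_mul_of_nonneg_right t (uu_pos E.ok (M * c)).le,
    mul_le_mul_of_nonneg_left k (by linarith : 0 ≤ K)]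

theorem good : ∃ c₀, ∀ ρ, c₀ ≤ ρ → ∃ c, r₀ ≤ c ∧ c ≤ ρ ∧ ρ < M * c ∧ uu Λ c ≤ 3 * K * uu Λ (M * c) := by
  obtain ⟨c₀, h0, h1⟩ := E.st
  have r1 := E.ok.one_le_rg
  have r2 := E.rg
  refine ⟨c₀, fun ρ h => ?_⟩
  induction ρ, h using Nat.le_induction with
  | base => exact ⟨c₀, h0, le_rfl, by have := E.four c₀; omega, h1⟩
  | succ ρ _ ih =>
    obtain ⟨c, a, b, d, e⟩ := ih
    have := E.four c
    have := E.four (M * c)
    rcases lt_or_ge (ρ + 1) (M * c) with q | q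
    exacts [⟨c, a, by omega, q, e⟩, ⟨M * c, by omega, q, by omega, E.inner a e⟩]

/-- two cores -/
theorem pair (c0 : r₀ ≤ c) (h1 : 4 * (M * c) ≤ n) (h2 : n ≤ 4 * M * (M * c))
    (hi : uu Λ c ≤ 3 * K * uu Λ (M * c)) (hm : Amb Λ m (bl z (2 * n)))
    (hσ : ∀ e ∈ m.ed, σ e = Es28.sm z n e) : uu Λ (M * c) ^ 2 ≤ 9 * K * zr m σ := by
  have hΛ := E.ok
  have r1 := hΛ.one_le_rg
  have r2 := E.rg
  have r3 := E.four c
  have K1 := E.K1
  have t := E.h2 z n c m σ c0 (by omega) h2 hm hσ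
  have e0 : ∀ {y : Pt} {m : Mdl Pt}, Amb Λ m (bl y (M * c + Λ.rg)) → Vtx Λ y (bl y (M * c)) σ →
      zr (hole m (bl y (M * c))) σ ≤ 3 * K * zr (hole m (bl y c)) σ →
      uu Λ (M * c) * zr (hole m (bl y c)) σ ≤ 3 * zr m σ := fun {y m} a v o => by
    have := E.ksL a.ctr a.anch (lh_amb a) c0 (empty_subset _) (σ := σ)
    simp only [sdiff_empty] at this
    rw [zN_bl hΛ v, zN_bl hΛ (v.mono (bl_mono y (by omega)))] at this
    exact this (cnL_bl hΛ y _) (cnL_bl hΛ y _) (v.mono (an_subset_bl _ _ _)) hi o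
  generalize M * c = d at *
  set x : Pt := z + ((n : ℤ), 0) with hx
  have az : Amb Λ m (bl z (d + Λ.rg)) := amb_mono hm (bl_mono z (by omega))
  have ax : Amb Λ m (bl x (d + Λ.rg)) := amb_mono hm fun y hy => by
    simp only [mem_bl, hx, Prod.fst_add, Prod.snd_add] at hy ⊢; omega
  have dj : ∀ ρ, ρ ≤ d → Disjoint (bl z (d + Λ.rg)) (bl x (ρ + Λ.rg)) := fun ρ h =>
    disjoint_left.2 fun y hy hy' => by
      simp only [mem_bl, hx, Prod.fst_add, Prod.snd_add] at hy hy'; omega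
  have a1 : ∀ ρ, ρ ≤ d → Amb Λ (hole m (bl x ρ)) (bl z (d + Λ.rg)) := fun ρ h =>
    ⟨Nc.hole_ctr hm.ctr _, (lh_amb ax).anch_hole hΛ hm.anch h, fun y hy => mem_sdiff.2 ⟨az.sub hy,
      fun k => disjoint_left.1 (dj ρ h) hy (bl_mono x (by omega) k)⟩, near_hole az.near (dj ρ h)⟩
  have ed : ∀ {y : Pt}, Amb Λ m (bl y (d + Λ.rg)) → ∀ e ∈ Λ.edI (bl y d), σ e = Es28.sm z n e :=
    fun a e he => hσ e ((a.near.1 e (.inl (bl_mono _ (by omega) (Lat.mem_edI.1 he).2.1))).2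
      (Lat.mem_edI.1 he).1)
  have vz : Vtx Λ z (bl z d) σ := (vtx_sm_left (by omega)).congr (ed az)
  have vx : Vtx Λ x (bl x d) σ := (vtx_sm_right E.nn (by omega)).congr (ed ax)
  have b1 := a1 c (by omega)
  have p1 := zr_pos (Nc.hole_ctr b1.ctr (bl z c)) ((lh_amb b1).anch_hole hΛ b1.anch (by omega)) σ
  have k1 := e0 b1 vz ((zr_le_one (Nc.hole_ctr b1.ctr _) ((lh_amb b1).anch_hole hΛ b1.anch le_rfl) σ).trans
    (by nlinarith))
  have u0 := uu_pos hΛ d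
  have k2 : uu Λ d ≤ 3 * K * zr (hole m (bl x c)) σ := by
    nlinarith [mul_le_mul_of_nonneg_right t u0.le, mul_le_mul_of_nonneg_left k1 (by linarith : 0 ≤ K)]
  have b2 := a1 d le_rfl
  have k3 := e0 ax vx (((zr_le_zN b2.ctr b2.anch ((lh_amb b2).inL_bl (by omega)) (cnL_bl hΛ z d)
    ⟨z, self_mem_bl _ _⟩ σ).trans_eq (zN_bl hΛ vz)).trans k2)
  nlinarith [mul_le_mul_of_nonneg_left k2 u0.le, mul_le_mul_of_nonneg_left k3 (by linarith : 0 ≤ K)]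

theorem qm : ∃ ρ₀, Qm Λ ((3 * K) ^ 3) ρ₀ := by
  obtain ⟨c₀, h⟩ := E.good
  have hΛ := E.ok
  have K1 := E.K1
  have M4 := E.four 1
  refine ⟨4 * M * c₀, fun ρ R h1 h2 => ?_, fun n z m σ h1 hm hσ => ?_⟩
  · obtain ⟨c, c0, a, b, e1⟩ := h ρ ((Nat.le_mul_of_pos_left _ (by omega)).trans h1)
    have r3 := E.four c
    have r4 := E.four (M * c)
    have r5 := E.four (M * (M * c))
    have e2 := E.inner c0 e1
    have e3 := E.inner (by omega) e2
    have u1 := uu_anti hΛ a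
    have u0 := uu_pos hΛ ρ
    have u2 := uu_pos hΛ R
    have K0 : 0 ≤ 3 * K := by linarith
    have e4 : uu Λ ρ ≤ 3 * K * (3 * K * uu Λ (M * (M * c))) :=
      u1.trans (e1.trans (mul_le_mul_of_nonneg_left e2 K0))
    rcases le_or_gt R (M * (M * (M * c))) with q | q
    · calc _ ≤ uu Λ ρ := mul_le_of_le_one_right u0.le (TT_le_one hΛ _ _)
        _ ≤ 3 * K * (3 * K * (3 * K * uu Λ R)) := e4.trans (mul_le_mul_of_nonneg_left
          (mul_le_mul_of_nonneg_left (e3.trans (mul_le_mul_of_nonneg_left (uu_anti hΛ q) K0)) K0) K0)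
        _ = _ := by ring
    · calc _ ≤ 3 * K * (3 * K * uu Λ (M * (M * c))) * TT Λ (M * c) R :=
          mul_le_mul e4 (TT_anti hΛ b.le le_rfl) (TT_pos hΛ _ _).le (u0.le.trans e4)
        _ = (3 * K) ^ 2 * (uu Λ (M * (M * c)) * TT Λ (M * c) R) := by ring
        _ ≤ (3 * K) ^ 2 * (3 * K * uu Λ R) := mul_le_mul_of_nonneg_left
          ((E.ksU (by omega) (by omega) e2).trans (mul_le_mul_of_nonneg_right (by linarith) u2.le))
          (sq_nonneg _)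
        _ = _ := by ring
  · obtain ⟨c, c0, a, b, e1⟩ := h (n / (4 * M))
      ((Nat.le_div_iff_mul_le (by omega)).2 (by rwa [mul_comm]))
    have a' : 4 * (M * c) ≤ n := by
      have := (Nat.le_div_iff_mul_le (by omega)).1 a
      rwa [mul_comm, mul_assoc] at this
    have b' := (Nat.div_lt_iff_lt_mul (by omega)).1 b
    have k := E.pair c0 a' (by rw [mul_comm]; exact b'.le) e1 hm hσ
    have z0 := zr_pos hm.ctr hm.anch σ
    calc _ ≤ uu Λ (M * c) ^ 2 := pow_le_pow_left₀ (uu_pos hΛ _).le (uu_anti hΛ (by omega)) 2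
      _ ≤ 9 * K * zr m σ := k
      _ ≤ _ := mul_le_mul_of_nonneg_right (by nlinarith [mul_self_nonneg (K - 1)]) z0.le

end Env

end Crest.Agent.T145.Ks68
end

-- ▼ part T145/KsE_68
section

/-!
# Row 145 (helper68): `QmStmt` from MIX, (H) and the good scales
-/

set_option autoImplicit false

namespace Crest.Agent.T145.Ks68

open Finset Nc Nc.Geo Filter Topology

theorem one_le_mul_pow {A x y : ℝ} {k C : ℕ} (hA : 1 ≤ A) (hx : 0 ≤ x) (h : 1 ≤ A * x) (hk : k ≤ C)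
    (hy : x ^ k ≤ y) : 1 ≤ A ^ C * y :=
  calc (1 : ℝ) ≤ (A * x) ^ k := one_le_pow₀ h
    _ = A ^ k * x ^ k := mul_pow _ _ _
    _ ≤ _ := mul_le_mul (pow_le_pow_right₀ hA hk) hy (by positivity) (by positivity)

/-- a polynomial lower bound gives one good step -/
theorem pigeon {u : ℕ → ℝ} {M r C : ℕ} {c K : ℝ} (hc : 0 < c) (hM : 1 ≤ M) (h1 : u r ≤ 1)
    (hu : ∀ R : ℕ, c / ((R : ℝ) + 2) ^ C ≤ u R) (hK : (M : ℝ) ^ C ≤ K) :
    ∃ a, r ≤ a ∧ u a ≤ 3 * K * u (M * a) := by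
  by_contra hn
  push Not at hn
  have M1 : (1 : ℝ) ≤ M := by exact_mod_cast hM
  have K0 : 0 < K := lt_of_lt_of_le (by positivity) hK
  have k : ∀ j : ℕ, (3 * K) ^ j * u (M ^ j * r) ≤ 1 := fun j => by
    induction j with
    | zero => simpa using h1
    | succ j ih =>
      have := hn (M ^ j * r) (Nat.le_mul_of_pos_left _ (by positivity))
      rw [pow_succ, pow_succ' M, mul_assoc M, mul_assoc]
      exact (mul_le_mul_of_nonneg_left this.le (by positivity)).trans ih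
  obtain ⟨j, hj⟩ := pow_unbounded_of_one_lt (((r : ℝ) + 2) ^ C / c) (by norm_num : (1 : ℝ) < 3)
  have e := (mul_le_mul_of_nonneg_left (hu (M ^ j * r)) (by positivity)).trans (k j)
  rw [← mul_div_assoc, div_le_one (by positivity), mul_pow] at e
  have e2 : (((M ^ j * r : ℕ) : ℝ) + 2) ^ C ≤ K ^ j * ((r : ℝ) + 2) ^ C := by
    have : (1 : ℝ) ≤ (M : ℝ) ^ j := one_le_pow₀ M1
    calc _ ≤ ((M : ℝ) ^ j * ((r : ℝ) + 2)) ^ C := by
          refine pow_le_pow_left₀ (by positivity) ?_ C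
          push_cast; linarith
      _ = ((M : ℝ) ^ C) ^ j * ((r : ℝ) + 2) ^ C := by rw [mul_pow, ← pow_mul, ← pow_mul, mul_comm j]
      _ ≤ _ := by gcongr
  rw [div_lt_iff₀ hc] at hj
  nlinarith [e.trans e2, mul_lt_mul_of_pos_left hj (pow_pos K0 j)]

theorem env (hM : MixStmt) (hG : GdStmt) (hK : Es28.HKStmt) (h2 : Es28.HTwoStmt) (hm : T1mStmt)
    {Λ : Lat} (hΛ : Λ.Ok) (hJ : Λ.J = nn) (hg : 2 / Real.pi ≤ Λ.gI) :
    ∃ W₀ W M r₀ K η, Env Λ W₀ W M r₀ K η := by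
  have pi0 := Real.pi_pos
  have t0 : 0 < Λ.tI := hΛ.gI_pos_iff.1 (lt_of_lt_of_le (by positivity) hg)
  have mem := Lat.mem_fa hΛ
  obtain ⟨W₀, r₁, cc, -, G⟩ := hG (Λ.fa hΛ) _ 1 (half_pos t0) one_pos
  have G := (G Λ mem).2 (half_le_self t0.le)
  obtain ⟨C₁, δ₁, p1, H1⟩ := hK (Λ.fa hΛ) _ (half_pos t0)
  obtain ⟨C₂, δ₂, p2, H2⟩ := h2 (Λ.fa hΛ) _ (half_pos t0)
  obtain ⟨W₁, H3⟩ := hM (Λ.fa hΛ) _ (20 * max C₁ C₂ + 1) hJ (half_pos t0)
  obtain ⟨W, w1, w2, w3⟩ : ∃ W : ℕ, W₁ ≤ W ∧ W₀ ≤ W ∧ 1024 ≤ W :=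
    ⟨max ⌈W₁⌉₊ (max W₀ 1024), (Nat.le_ceil _).trans (by exact_mod_cast le_max_left _ _), by omega, by omega⟩
  have w4 : (1024 : ℝ) ≤ W := by exact_mod_cast w3
  have w5 : (W₀ : ℝ) ≤ W := by exact_mod_cast w2
  obtain ⟨δ₃, p3, H3⟩ := H3 W w1 (2 * W) (by linarith)
  have p : 0 < min δ₁ (min δ₂ δ₃) := by positivity
  have ev : ∀ᶠ l in atTop, 7 / 4 ≤ Real.pi * Λ.gN l := by
    have : Tendsto (fun l => Real.pi * Λ.gN l) atTop (𝓝 (Real.pi * Λ.gI)) :=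
      (((hm.1 Λ hΛ).1).div_const _).const_mul _
    refine this.eventually (eventually_ge_nhds ?_)
    rw [div_le_iff₀ pi0] at hg; linarith
  obtain ⟨l, hl, hw⟩ := (ev.and ((hm.1 Λ hΛ).2.2.2.2.2 t0 _ p)).exists
  obtain ⟨j₀, hw⟩ := eventually_atTop.1 hw
  obtain ⟨c₀, c0, H1⟩ := H1 Λ mem hJ l
  obtain ⟨r₀, q1, q2, q3, q4⟩ : ∃ r₀ : ℕ, r₁ ≤ r₀ ∧ 64 ≤ r₀ ∧ 2 ^ j₀ ≤ r₀ ∧
      (l : ℝ) ≤ min δ₁ (min δ₂ δ₃) * r₀ := by
    refine ⟨max (max r₁ 64) (2 ^ j₀), by omega, by omega, le_max_right _ _,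
      (hw j₀ le_rfl).sep.2.trans ?_⟩
    gcongr; exact le_max_right _ _
  have W2 := (G 0).1
  have big : ∀ R, R < 16 * 2 ^ (j₀ + R) := fun R => by
    have := Nat.lt_two_pow_self (n := j₀ + R); omega
  have ld : ∀ {c : ℕ} {δ : ℝ}, r₀ ≤ c → min δ₁ (min δ₂ δ₃) ≤ δ → (l : ℝ) ≤ δ * c := fun h h' =>
    q4.trans (mul_le_mul h' (by exact_mod_cast h) (Nat.cast_nonneg _) (p.le.trans h'))
  have d1 := min_le_left δ₁ (min δ₂ δ₃)
  have d2 := (min_le_right δ₁ _).trans (min_le_left δ₂ δ₃)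
  have d3 := (min_le_right δ₁ _).trans (min_le_right δ₂ δ₃)
  obtain ⟨M, eM⟩ : ∃ M, M = W₀ * (W * W₀) := ⟨_, rfl⟩
  have M2 : 2 ≤ M := by rw [eM]; exact W2.trans (Nat.le_mul_of_pos_right _ (by positivity))
  have M2' : (2 : ℝ) ≤ M := by exact_mod_cast M2
  have M3 : (M : ℝ) ≤ (W : ℝ) ^ 3 := by
    rw [eM]; push_cast
    calc _ ≤ (W : ℝ) * (W * W) := by gcongr
      _ = _ := by ring
  have A0 : (M : ℝ) ≤ 4 * (M : ℝ) ^ 3 := by nlinarith [mul_self_nonneg ((M : ℝ) - 1)]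
  have A1 : (1 : ℝ) ≤ 4 * (M : ℝ) ^ 3 := by linarith
  have K1 : (1 : ℝ) ≤ (4 * (M : ℝ) ^ 3) ^ max C₁ C₂ := one_le_pow₀ A1
  have r1 := hΛ.one_le_rg
  have r2 := (G 0).2.1
  refine ⟨W₀, W, M, r₀, (4 * (M : ℝ) ^ 3) ^ max C₁ C₂, 1 / (W : ℝ) ^ (20 * max C₁ C₂ + 1), hΛ, hJ, W2,
    by omega, eM, by omega, fun r hr => ((G r).2.2 r (by omega) le_rfl).trans_eq one_add_one_eq_two,
    fun c hc => ?_, by positivity, K1, ?_, fun c R hc hR => ?_, fun z n c m σ hc n1 n2 a hσ => ?_, ?_⟩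
  · have a1 : 2 * c ≤ W₀ * c := Nat.mul_le_mul_right _ W2
    have a2 : W₀ * c ≤ W * (W₀ * c) := Nat.le_mul_of_pos_left _ (by omega)
    have e : M * c = W₀ * (W * (W₀ * c)) := by rw [eM, mul_assoc, mul_assoc]
    have a3 : 2 * (W * (W₀ * c)) ≤ M * c := e ▸ Nat.mul_le_mul_right _ W2
    have a4 : M * c ≤ W * (W * (W₀ * c)) := e ▸ Nat.mul_le_mul_right _ w2
    have l1 : M * c ≤ 2 ^ Nat.clog 2 (M * c) := Nat.le_pow_clog one_lt_two _
    have l2 : 2 ^ Nat.clog 2 (M * c) ≤ 2 * (M * c) := by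
      have := Nat.pow_pred_clog_lt_self one_lt_two (by omega : 1 < M * c)
      have h := Nat.clog_pos one_lt_two (by omega : 1 < M * c)
      rw [← Nat.succ_pred_eq_of_pos h, pow_succ]; omega
    refine H3 Λ mem l _ ((hw _ ((Nat.pow_le_pow_iff_right one_lt_two).1 (q3.trans (by omega : r₀ ≤
      2 ^ Nat.clog 2 (M * c))))).mono_d d3) hl ⟨c, W₀ * c, W * (W₀ * c), M * c⟩
      ⟨w4, a1, by dsimp only; omega, by simp, ?_, a3⟩ ⟨by dsimp only; omega, ?_⟩ l1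
      (by exact_mod_cast Nat.mul_le_mul_right c w2) (by exact_mod_cast a4)
    · exact_mod_cast (by rw [mul_assoc 2]; omega : W * (W₀ * c) ≤ 2 * W * (W₀ * c))
    · exact_mod_cast (by rw [mul_assoc 2]; omega : 2 ^ Nat.clog 2 (M * c) ≤ 2 * W * (W * (W₀ * c)))
  · have b1 : 4 * (M : ℝ) ^ 3 ≤ (W : ℝ) ^ 10 :=
      calc _ ≤ (W : ℝ) * ((W : ℝ) ^ 3) ^ 3 := by gcongr; linarith
        _ = _ := by ring
    have b2 : (4 * (M : ℝ) ^ 3) ^ max C₁ C₂ ≤ ((W : ℝ) ^ 10) ^ max C₁ C₂ := by gcongr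
    have b3 : (W : ℝ) ^ (20 * max C₁ C₂ + 1) = W * (((W : ℝ) ^ 10) ^ max C₁ C₂) ^ 2 := by ring
    rw [b3, show ∀ x y : ℝ, 32 * (1 / x) * (3 * y) * (3 * y) = 288 * y ^ 2 / x from fun _ _ => by ring,
      div_le_one (by positivity)]
    gcongr; linarith
  · rcases le_or_gt R c with q | q
    · rwa [TT_of_le Λ q, mul_one]
    refine one_le_mul_pow A1 (by positivity) ?_ (le_max_left _ _)
      ((H1 _ ((hw _ (Nat.le_add_right _ R)).mono_d d1) 0 R (big R)).1 c (ld hc d1) q)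
    rw [← mul_div_assoc, le_div_iff₀ (by positivity)]
    have : (R : ℝ) ≤ M * (M * (M * c)) := by exact_mod_cast hR
    have : (1 : ℝ) ≤ R := by exact_mod_cast (by omega : 1 ≤ R)
    nlinarith
  · set x : Pt := z + ((n : ℤ), 0) with hx
    have az : Amb Λ m (bl z (c + Λ.rg)) := amb_mono a (bl_mono z (by omega))
    have ax : Amb Λ m (bl x (c + Λ.rg)) := amb_mono a fun y hy => by
      simp only [mem_bl, hx, Prod.fst_add, Prod.snd_add] at hy ⊢; omega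
    have dj : Disjoint (bl z (c + Λ.rg)) (bl x (c + Λ.rg)) := disjoint_left.2 fun y hy hy' => by
      simp only [mem_bl, hx, Prod.fst_add, Prod.snd_add] at hy hy'; omega
    have b : Amb Λ (hole m (bl x c)) (bl z (c + Λ.rg)) :=
      ⟨Nc.hole_ctr a.ctr _, (lh_amb ax).anch_hole hΛ a.anch le_rfl, fun y hy => mem_sdiff.2 ⟨az.sub hy,
        fun k => disjoint_left.1 dj hy (bl_mono x (by omega) k)⟩, near_hole az.near dj⟩
    have sq' : sq z n ⊆ bl z (2 * n) := fun y hy => by simp only [mem_sq, mem_bl] at hy ⊢; omega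
    refine one_le_mul_pow A1 (by positivity) ?_ (le_max_right _ _)
      (H2 Λ mem hJ l _ ((hw _ (Nat.le_add_right _ n)).mono_d d2) c n (ld hc d2) (by omega) (big n).le z
        (hole (hole m (bl x c)) (bl z c)) σ (Nc.hole_ctr b.ctr _)
        ((lh_amb b).anch_hole hΛ b.anch le_rfl) (fun e he h => ?_) (fun y hy h => ?_)
        (fun y _ hy => a.near.2.2 y (sq' hy)) fun e he => hσ e (Nc.mem_hole_ed.1 (Nc.mem_hole_ed.1 he).1).1)
    · rw [← mul_div_assoc, le_div_iff₀ (by have : (0 : ℝ) < n := by exact_mod_cast (by omega : 0 < n)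
                                           positivity)]
      have : (n : ℝ) ≤ 4 * M * (M * c) := by exact_mod_cast n2
      nlinarith [mul_le_mul_of_nonneg_right M2' (by positivity : (0 : ℝ) ≤ M * (M * c))]
    · obtain ⟨h1, h2, h3⟩ := Nc.mem_hole_ed.1 he
      obtain ⟨h4, h5, h6⟩ := Nc.mem_hole_ed.1 h1
      have h' := h.imp (@sq' _) (@sq' _)
      exact ⟨(a.near.1 e h').1 h4, a.near.2.1 e h4 h', fun k => (mem_union.1 k).elim h2 h5,
        fun k => (mem_union.1 k).elim h3 h6⟩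
    · exact mem_sdiff.2 ⟨mem_sdiff.2 ⟨a.sub (sq' hy), fun k => h (mem_union_right _ k)⟩,
        fun k => h (mem_union_left _ k)⟩
  · exact pigeon c0 (by omega) (uu_le_one hΛ r₀)
      (fun R => (H1 _ ((hw _ (Nat.le_add_right _ R)).mono_d d1) 0 R (big R)).2)
      ((pow_le_pow_left₀ (by positivity) A0 _).trans (pow_le_pow_right₀ A1 (le_max_left _ _)))

/-- **KSTEP** -/
theorem qmStmt (hM : MixStmt) (hG : GdStmt) (hD : GffDStmt) (hm : T1mStmt) : QmStmt :=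
  fun _ hΛ hJ hg => by
    obtain ⟨W₀, W, M, r₀, K, η, E⟩ := env hM hG (Es28.hKStmt hD hm) (Es28.hTwoStmt hD hm) hm hΛ hJ hg
    obtain ⟨ρ₀, h⟩ := E.qm
    exact ⟨_, ρ₀, one_le_pow₀ (by linarith [E.K1]), h⟩

end Crest.Agent.T145.Ks68
end

-- ▼ part T145/VxApr_15
section

/-!
# Row 145, twisted module: the a priori bound for the micro move (helper15)

`ν` at a core does not depend on the length of the seam, so the other core is put at the distance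
`Λ ×` (the scale); Lasota-Yorke and the calibration then give `M ↦ A + M / 2` along the scales `W ^ k ρ₁`.
-/

set_option autoImplicit false

namespace Crest.Agent.T145.Vx

open Finset Filter Topology B30
open Nc (an Amb)
open Vd (ray)

namespace A15

/-- the same core, another length -/
def rl (V : Vp) (r : ℕ) : Vp := ⟨if V.sd then V.a else V.a + V.r - r, r, V.sd⟩

theorem rl_r (V : Vp) (r : ℕ) : (rl V r).r = r := rfl

theorem rl_p (V : Vp) (r : ℕ) : (rl V r).p = V.p := by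
  obtain ⟨a, n, sd⟩ := V
  cases sd <;> simp [rl, Vp.p]

theorem rl_e (V : Vp) (r : ℕ) : (rl V r).e = V.e := by
  obtain ⟨a, n, sd⟩ := V
  cases sd <;> simp [rl, Vp.e]

theorem rl_σ (V : Vp) {r c : ℕ} (h : c < V.r) (h' : c < r) {e : Pt × Pt}
    (he : e.1 ∈ bl V.p c ∨ e.2 ∈ bl V.p c) : (rl V r).σ e = V.σ e := by
  obtain ⟨a, n, sd⟩ := V
  cases sd <;>
    simp only [rl, Vp.p, Vp.σ, sm, ray, mem_bl, Bool.false_eq_true, if_false, if_true] at h he ⊢ <;>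
    split_ifs <;> omega

theorem e_mem (V : Vp) : V.e.1 ∈ bl V.p 1 ∧ V.e.2 ∈ bl V.p 1 := by
  obtain ⟨a, n, sd⟩ := V
  cases sd <;> simp only [Vp.p, Vp.e, mem_bl, Bool.false_eq_true, if_false, if_true] <;> omega

theorem ins_Dv {b : ℝ} (hb : 0 < b) (V : Vp) : Ins V.p 1 (Dv b V) :=
  ⟨Inf48.depG_mv (xyL b) V.σ (e_mem V).1 (e_mem V).2, Inf48.tame_mv hb V.σ V.e⟩

theorem Dv_rl (b : ℝ) (V : Vp) {r : ℕ} (h : 1 < V.r) (h' : 1 < r) : Dv b (rl V r) = Dv b V := by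
  funext s
  simp only [Dv, nE, rl_e, rl_σ V h h' (Or.inl (e_mem V).1)]

theorem Ws_congr (m : Mdl Pt) (η : Cfg Pt) {σ σ' : Pt × Pt → ℤ} (h : ∀ e ∈ m.ed, σ e = σ' e) :
    m.Ws η σ = m.Ws η σ' := by
  funext s
  simp only [Mdl.Ws]
  rw [prod_congr rfl fun e he => by rw [h e he]]

theorem ν_rl {P : Par} (hP : P.Ok) (V : Vp) {r ρ : ℕ} (h : P.W₀ * ρ < V.r) (h' : P.W₀ * ρ < r)
    (F : Cfg Pt → ℝ) : P.ν (rl V r) ρ F = P.ν V ρ F := by
  have h4 := four_le (ρ := ρ) hP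
  have h1 : (P.L.Nr (bl V.p (P.W₀ * ρ)) V.p).Ws 0 (rl V r).σ =
      (P.L.Nr (bl V.p (P.W₀ * ρ)) V.p).Ws 0 V.σ :=
    Ws_congr _ _ fun e he => rl_σ V h h' (Or.inl (Lat.mem_edI.1 he).2.1)
  have h2 : ∀ s, (P.L.D (bl V.p ρ)).Ws s (rl V r).σ = (P.L.D (bl V.p ρ)).Ws s V.σ := fun s =>
    Ws_congr _ _ fun e he => rl_σ V (c := ρ) (by omega) (by omega) (Lat.mem_edT.1 he).2
  simp only [Par.ν, Par.N, Lat.nrm, Lat.exN, Lat.tr, rl_p, h1, h2]

theorem amb_ev {P : Par} (hP : P.Ok) (U : Finset Pt) :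
    ∀ᶠ R : ℕ in atTop, Amb P.L (P.L.D (faces R)) U :=
  (Inf48.tendsto_faces.eventually (eventually_ge_atTop U)).mono fun _ h =>
    ⟨(lok hP).ctr_D _, (lok hP).anch_D _, h, Lat.near_D h⟩

theorem ins_pr {p : Pt} {D Λc : ℕ} {A : ℝ} {g : Pt → ℝ} (h : Chg p D Λc A g) :
    Ins p (Λc * D) (pr g) :=
  ⟨DepG.pr (fun x hx => by_contra fun h0 => hx (mem_bl_ds.2 (h.1 x h0).2)) h.2.1, Tame.hom _⟩

theorem half_le {x ε : ℝ} (hε : 0 ≤ ε) (h : x ≤ ε ^ 2) : x ^ (1 - 1 / 2 : ℝ) ≤ ε := by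
  rw [show (1 - 1 / 2 : ℝ) = 1 / 2 by norm_num, ← Real.sqrt_eq_rpow]
  exact Real.sqrt_le_iff.2 ⟨hε, h⟩

theorem th_le {W : ℕ} (hW : 16 ≤ W) : (W : ℝ) ^ (-(3 / 4 : ℝ)) ≤ 1 / 4 := by
  have h16 : (16 : ℝ) ≤ W := by exact_mod_cast hW
  calc (W : ℝ) ^ (-(3 / 4 : ℝ)) ≤ (16 : ℝ) ^ (-(3 / 4 : ℝ)) :=
        Real.rpow_le_rpow_of_nonpos (by norm_num) h16 (by norm_num)
    _ ≤ (16 : ℝ) ^ (-(1 / 2 : ℝ)) := Real.rpow_le_rpow_of_exponent_le (by norm_num) (by norm_num)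
    _ = 1 / 4 := by
        rw [Real.rpow_neg (by norm_num), ← Real.sqrt_eq_rpow, show (16 : ℝ) = 4 ^ 2 by norm_num,
          Real.sqrt_sq (by norm_num)]
        norm_num

/-- the contraction, with the gain `ε` -/
theorem nu' (hN : NuStmt) {P : Par} (hP : P.Ok) : ∃ C : ℝ, 0 ≤ C ∧ ∀ (V : Vp) (ρ ρ' : ℕ)
    (F : Cfg Pt → ℝ) (ε : ℝ), P.r₀ ≤ ρ → ρ ≤ ρ' → 2 * (P.W₀ * ρ') ≤ V.r → Ins V.p (ρ + 1) F → 0 ≤ ε →
      (ρ : ℝ) ≤ ε ^ 2 * ρ' → P.ν V ρ' F ≤ C * ε * P.ν V ρ F := by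
  obtain ⟨C, hC⟩ := hN P hP (1 / 2) (by norm_num)
  refine ⟨|C|, abs_nonneg _, fun V ρ ρ' F ε h1 h2 h3 hF hε h4 => (hC V ρ ρ' F h1 h2 h3 hF).trans ?_⟩
  have h0 : (0 : ℝ) < ρ' := by have := hP.r2; exact_mod_cast (by omega : 0 < ρ')
  have h5 := half_le (x := (ρ : ℝ) / ρ') hε ((div_le_iff₀ h0).2 h4)
  exact mul_le_mul_of_nonneg_right (mul_le_mul (le_abs_self _) h5 (by positivity) (abs_nonneg _))
    (ν_nonneg hP _ _ _)

/-- the left functional does not see the other core -/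
theorem far (hN : NuStmt) (hC : CovStmt) (hL : LinStmt) (hU : UcStmt) (hY : YStmt) {P : Par}
    (hP : P.Ok) : ∃ (K : ℝ) (r₁ : ℕ), 0 ≤ K ∧ ∀ (V : Vp) (m : Mdl Pt) (ρ s n : ℕ) (F : Cfg Pt → ℝ),
      r₁ ≤ ρ → ρ < s → 1 ≤ n → V.r = 4 * (P.W₀ * (3 * n ^ 2 * s)) → Amb P.L m (bl V.p (4 * V.r)) →
      Ins V.q (ρ + 1) F → ∀ i, |lf V m s F i| ≤ K / n * s * P.ν V.sw ρ F := by
  obtain ⟨CN, hCN, hN⟩ := nu' hN hP
  obtain ⟨CV, hC⟩ := hC P hP 1
  obtain ⟨CL, rL, hL⟩ := hL P hP 3 (by norm_num)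
  obtain ⟨CU, hU⟩ := hU
  refine ⟨|CV| * (CN * (|CL| * |CU|)) * CN, max rL P.r₀, by positivity,
    fun V m ρ s n F hρ hs hn hr hm hF i => ?_⟩
  have h16 := hP.r2
  have hW := hP.W2
  obtain ⟨hρ1, hρ2⟩ := max_le_iff.1 hρ
  obtain ⟨u1, u2, -⟩ := hU V.p s i (by omega)
  have hI := ins_pr u2
  obtain ⟨-, y2, -⟩ := hY V.σ _ _ u1
  have hn2 : 1 ≤ n ^ 2 := Nat.one_le_pow _ _ hn
  set t := 3 * n ^ 2 * s with ht
  have hst : 3 * s ≤ t := by rw [ht]; nlinarith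
  have h4 := four_le (ρ := t) hP
  have hle : P.W₀ * (3 * (s - 1)) ≤ P.W₀ * t := Nat.mul_le_mul_left _ (by omega)
  have e : lf V m s F i = Cv (m.Ws 0 V.σ) (pr (A0 (uc V.p s i))) F := by
    rw [lf, funext y2, Cv_comm, cv_add_left (amb_se hm _) hI.2 (Tame.const _) hF.2,
      (amb_wt hm _).cv_const_left, add_zero]
  have c1 := (hC V m t t _ F (by omega) (by omega) (by omega) (by omega) hm (ins_le hI (by omega))
    (ins_le hF (by omega))).2.1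
  have hn0 : (0 : ℝ) < n := by exact_mod_cast hn
  have hs0 : ((s - 1 : ℕ) : ℝ) ≤ s := by exact_mod_cast Nat.sub_le _ _
  have c2 := hN V (3 * (s - 1)) t _ (1 / n) (by omega) (by omega) (by omega) (ins_le hI (by omega))
    (by positivity) (by
      rw [ht]; push_cast
      have : (1 / (n : ℝ)) ^ 2 * (3 * n ^ 2 * s) = 3 * s := by field_simp
      rw [this]; linarith)
  have c3 := (hL V (s - 1) CU _ (by omega) (by omega) u2 (Or.inl (by omega))).2 (3 * (s - 1)) le_rfl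
    (by omega) (by omega)
  have c4 := hN V.sw ρ t F 1 hρ2 (by omega) (by rw [sw_r]; omega) hF zero_le_one
    (by rw [one_pow, one_mul]; exact_mod_cast (by omega : ρ ≤ t))
  have c5 : P.ν V (3 * (s - 1)) (pr (A0 (uc V.p s i))) ≤ |CL| * |CU| * s := by
    refine c3.trans (mul_le_mul ?_ hs0 (Nat.cast_nonneg _) (by positivity))
    rw [← abs_mul]; exact le_abs_self _
  have p1 := ν_nonneg hP V t (pr (A0 (uc V.p s i)))
  have p2 := ν_nonneg hP V.sw t F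
  have p3 := ν_nonneg hP V.sw ρ F
  rw [e]
  calc _ ≤ |CV| * P.ν V t (pr (A0 (uc V.p s i))) * P.ν V.sw t F :=
        c1.trans (by gcongr; exact le_abs_self _)
    _ ≤ |CV| * (CN * (1 / n) * (|CL| * |CU| * s)) * (CN * 1 * P.ν V.sw ρ F) := by
        gcongr
        exact c2.trans (by gcongr)
    _ = _ := by ring

/-- one step -/
theorem step {P : Par} (hP : P.Ok) {W : ℕ} (hW : 16 ≤ W) (hLy : Ly P W) (hK : CalStmt) (hM : MicStmt)
    (hN : NuStmt) (hC : CovStmt) (hL : LinStmt) (hU : UcStmt) (hY : YStmt) :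
    ∃ (A : ℝ) (ρ₁ : ℕ), P.r₀ ≤ ρ₁ ∧ ∀ (ρ : ℕ) (M : ℝ), ρ₁ ≤ ρ →
      (∀ V : Vp, 2 * (P.W₀ * ρ) ≤ V.r → ρ * P.ν V ρ (Dv P.b V) ≤ M) →
      ∀ V : Vp, 2 * (P.W₀ * (W * ρ)) ≤ V.r → (W * ρ : ℕ) * P.ν V (W * ρ) (Dv P.b V) ≤ A + M / 2 := by
  obtain ⟨CL, rL, hLy⟩ := hLy
  obtain ⟨CK, rK, hK⟩ := hK P hP
  obtain ⟨-, c₀, CM, rM, hc₀, hM⟩ := hM P hP
  obtain ⟨K, rF, hK0, hF⟩ := far hN hC hL hU hY hP
  obtain ⟨n, hn⟩ := exists_nat_ge (4 * (|CL| * |CM| * (K * (8 * (P.W₀ * W) : ℕ)) / c₀) + 1)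
  have hq : 0 ≤ |CL| * |CM| * (K * (8 * (P.W₀ * W) : ℕ)) / c₀ := by positivity
  have hn1 : (1 : ℝ) ≤ n := by linarith
  have hn1' : 1 ≤ n := by exact_mod_cast hn1
  set B := 4 * (P.W₀ * (3 * n ^ 2 * (8 * (P.W₀ * W)))) with hB
  obtain ⟨E, hE⟩ := exists_nat_ge (Real.exp (B + 1))
  refine ⟨|CL| * (|CM| * (|CK| + 1)), P.r₀ + rL + rK + rM + rF + E, by omega,
    fun ρ M hρ hM' V₀ hV₀ => ?_⟩
  have h16 := hP.r2
  have hW₀ := hP.W2
  have hb := b_pos hP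
  have hρ0 : (0 : ℝ) < ρ := by exact_mod_cast (by omega : 0 < ρ)
  have w1 : 16 * ρ ≤ W * ρ := Nat.mul_le_mul_right _ hW
  have w2 := four_le (ρ := W * ρ) hP
  have w3 : P.W₀ * ρ ≤ P.W₀ * (W * ρ) := Nat.mul_le_mul_left _ (by omega)
  set s := 8 * (P.W₀ * (W * ρ)) with hs
  have hn2 : 1 ≤ n ^ 2 := Nat.one_le_pow _ _ hn1'
  have w4 : 3 * s ≤ 3 * n ^ 2 * s := by nlinarith
  have w5 := four_le (ρ := 3 * n ^ 2 * s) hP
  set r := 4 * (P.W₀ * (3 * n ^ 2 * s)) with hr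
  have hrB : r = B * ρ := by rw [hr, hs, hB]; ring
  rw [← ν_rl hP V₀ (r := r) (by omega) (by omega), ← Dv_rl P.b V₀ (r := r) (by omega) (by omega)]
  have hVr := rl_r V₀ r
  generalize rl V₀ r = V at hVr ⊢
  obtain ⟨R₀, hLy⟩ := hLy V (by omega)
  obtain ⟨R, ⟨k0, k1⟩, a1, a2, a3⟩ := ((hK V s (by omega) (by omega)).and ((amb_ev hP (bl V.p R₀)).and
    ((amb_ev hP (bl V.p (4 * V.r))).and (amb_ev hP (bl V.q (4 * V.r)))))).exists
  generalize P.L.D (faces R) = m at k0 k1 a1 a2 a3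
  have lρ : (B : ℝ) + 1 ≤ Real.log ρ := by
    rw [Real.le_log_iff_exp_le hρ0]
    exact hE.trans (by exact_mod_cast (by omega : E ≤ ρ))
  have hB0 : (0 : ℝ) ≤ B := Nat.cast_nonneg _
  have lg : ∀ k : ℕ, ρ ≤ k → (B : ℝ) + 1 ≤ Real.log k := fun k hk =>
    lρ.trans (Real.log_le_log hρ0 (by exact_mod_cast hk))
  have hwin : (V.r : ℝ) ≤ ρ * V.t ^ 3 := by
    have h1 := lg V.r (by omega)
    have h2 : V.t ^ 1 ≤ V.t ^ 3 := pow_le_pow_right₀ (by rw [Vp.t]; linarith) (by norm_num)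
    rw [pow_one] at h2
    have h3 : (B : ℝ) ≤ V.t ^ 3 := le_trans (by rw [Vp.t]; linarith) h2
    calc (V.r : ℝ) = ρ * B := by rw [hVr, hrB]; push_cast; ring
      _ ≤ _ := by gcongr
  have l1 := hLy m ρ _ a1 hwin (by omega) (ins_le (ins_Dv hb V) (by omega))
  obtain ⟨m1, m2, -⟩ := hM V m (by omega) a2
  obtain ⟨m3, -⟩ := hM V.sw m (by rw [sw_r]; omega) a3
  have f1 := hF V m ρ s n _ (by omega) (by omega) hn1' hVr a2 (ins_le (ins_Dv hb V.sw) (by omega)) 1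
  have g1 := hM' V (by omega)
  have g2 := hM' V.sw (by rw [sw_r]; omega)
  have p1 := mul_nonneg hρ0.le (ν_nonneg hP V ρ (Dv P.b V))
  have hM0 : 0 ≤ M := p1.trans g1
  rw [sw_σ] at m3
  rw [Fin.sum_univ_two, ← hs, k0, abs_zero, zero_add] at l1
  have l2 : Real.log s ^ (-1 - P.δ) ≤ 1 :=
    Real.rpow_le_one_of_one_le_of_nonpos (by linarith [lg s (by omega)]) (by linarith [hP.δ0])
  have l3 : CK * Real.log s ^ (-1 - P.δ) ≤ |CK| :=
    (mul_le_mul (le_abs_self _) l2 (Real.rpow_nonneg (Real.log_natCast_nonneg _) _)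
      (abs_nonneg _)).trans_eq (mul_one _)
  generalize lf V m s (Dv P.b V) 1 = x at k1 l1
  generalize lf V m s (Dv P.b V.sw) 1 = y at k1 f1
  generalize Ex (m.Ws 0 V.σ) (Dv P.b V) = a at k1 m1 m2
  generalize Ex (m.Ws 0 V.σ) (Dv P.b V.sw) = a' at k1 m3
  have ha : 0 < a := hc₀.trans_le m1
  have ha' : 0 < a' := hc₀.trans_le m3
  have f2 : |y| ≤ K * (8 * (P.W₀ * W) : ℕ) / n * M := by
    refine f1.trans ?_
    calc K / n * s * P.ν V.sw ρ (Dv P.b V.sw)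
        = K * (8 * (P.W₀ * W) : ℕ) / n * (ρ * P.ν V.sw ρ (Dv P.b V.sw)) := by
          rw [hs]; push_cast; ring
      _ ≤ _ := by gcongr
  have f3 : |y / a'| ≤ K * (8 * (P.W₀ * W) : ℕ) / n * M / c₀ := by
    rw [abs_div, abs_of_pos ha']; gcongr
  have f4 : |x / a| ≤ |CK| + 1 + K * (8 * (P.W₀ * W) : ℕ) / n * M / c₀ := by
    have h1 := abs_le.1 (k1.trans l3)
    have h2 := abs_le.1 f3
    rw [abs_le]; constructor <;> linarith [h1.1, h1.2, h2.1, h2.2]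
  have f5 : |x| ≤ |CM| * (|CK| + 1 + K * (8 * (P.W₀ * W) : ℕ) / n * M / c₀) := by
    rw [abs_div, abs_of_pos ha, div_le_iff₀ ha] at f4
    refine f4.trans ?_
    rw [mul_comm]
    exact mul_le_mul_of_nonneg_right (m2.trans (le_abs_self _)) (by positivity)
  have f6 : |CL| * |CM| * (K * (8 * (P.W₀ * W) : ℕ)) / c₀ / n ≤ 1 / 4 := by
    rw [div_le_iff₀ (by linarith)]; linarith
  have f7 := mul_le_mul (th_le hW) g1 p1 (by norm_num)
  calc _ ≤ CL * |x| + _ := l1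
    _ ≤ |CL| * (|CM| * (|CK| + 1 + K * (8 * (P.W₀ * W) : ℕ) / n * M / c₀)) + 1 / 4 * M :=
        add_le_add (mul_le_mul (le_abs_self _) f5 (abs_nonneg _) (abs_nonneg _)) f7
    _ = |CL| * (|CM| * (|CK| + 1)) + |CL| * |CM| * (K * (8 * (P.W₀ * W) : ℕ)) / c₀ / n * M +
          1 / 4 * M := by ring
    _ ≤ _ := by linarith [mul_le_mul_of_nonneg_right f6 hM0]

end A15

open A15

theorem aprStmt (hLy : LyStmt) (hK : CalStmt) (hM : MicStmt) (hN : NuStmt) (hC : CovStmt) (hL : LinStmt)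
    (hU : UcStmt) (hY : YStmt) (hT : TrStmt) : AprStmt := by
  intro P hP
  obtain ⟨W, hW, hLy⟩ := hLy P hP
  obtain ⟨A, ρ₁, hρ₁, hS⟩ := step hP hW hLy hK hM hN hC hL hU hY
  obtain ⟨CN, hCN, hN⟩ := nu' hN hP
  obtain ⟨C, hC⟩ := (hM P hP).1 (P.W₀ * P.r₀)
  have h16 := hP.r2
  have hb := b_pos hP
  have h4 := four_le (ρ := P.r₀) hP
  have mono : ∀ (V : Vp) (ρ ρ' : ℕ), P.r₀ ≤ ρ → ρ ≤ ρ' → 2 * (P.W₀ * ρ') ≤ V.r →
      P.ν V ρ' (Dv P.b V) ≤ CN * P.ν V ρ (Dv P.b V) := fun V ρ ρ' h1 h2 h3 => by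
    simpa only [mul_one] using hN V ρ ρ' _ 1 h1 h2 h3 (ins_le (ins_Dv hb V) (by omega)) zero_le_one
      (by rw [one_pow, one_mul]; exact_mod_cast h2)
  have base : ∀ (V : Vp) (ρ : ℕ), P.r₀ ≤ ρ → ρ ≤ ρ₁ → 2 * (P.W₀ * ρ) ≤ V.r →
      ρ * P.ν V ρ (Dv P.b V) ≤ ρ₁ * (CN * (2 * C)) := fun V ρ h1 h2 h3 => by
    have h5 : P.W₀ * P.r₀ ≤ P.W₀ * ρ := Nat.mul_le_mul_left _ h1
    have h6 := (hC V V.p V.p (by omega) (by rw [ds_self]; omega) (by rw [ds_self]; omega) (by omega)).2.2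
    have h7 := ν_le_N' hP hT (ins_le (ins_Dv hb V) (by omega : 1 ≤ P.r₀ + 1)) (by omega)
    have h8 : P.ν V ρ (Dv P.b V) ≤ CN * (2 * C) := (mono V _ _ le_rfl h1 h3).trans
      (mul_le_mul_of_nonneg_left (h7.trans (mul_le_mul_of_nonneg_left h6 zero_le_two)) hCN)
    exact mul_le_mul (by exact_mod_cast h2) h8 (ν_nonneg hP _ _ _) (Nat.cast_nonneg _)
  set M := max (ρ₁ * (CN * (2 * C))) (2 * A) with hM
  have ind : ∀ (k : ℕ) (V : Vp), 2 * (P.W₀ * (W ^ k * ρ₁)) ≤ V.r →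
      (W ^ k * ρ₁ : ℕ) * P.ν V (W ^ k * ρ₁) (Dv P.b V) ≤ M := fun k => by
    induction k with
    | zero =>
      intro V hV
      rw [pow_zero, one_mul] at hV ⊢
      exact (base V ρ₁ hρ₁ le_rfl hV).trans (le_max_left _ _)
    | succ k ih =>
      intro V hV
      rw [pow_succ', mul_assoc] at hV ⊢
      have h1 := hS _ M (Nat.le_mul_of_pos_left _ (Nat.pow_pos (by omega))) ih V hV
      linarith [le_max_right (ρ₁ * (CN * (2 * C))) (2 * A)]
  refine ⟨max M (W * CN * M), fun V ρ h1 h2 => ?_⟩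
  rcases le_total ρ ρ₁ with h3 | h3
  · exact (base V ρ h1 h3 h2).trans ((le_max_left _ _).trans (le_max_left _ _))
  · have q1 : 1 ≤ ρ / ρ₁ := (Nat.one_le_div_iff (by omega)).2 h3
    set k := Nat.log W (ρ / ρ₁)
    have q2 : W ^ k * ρ₁ ≤ ρ := (Nat.mul_le_mul_right _ (Nat.pow_log_le_self W (by omega))).trans
      (Nat.div_mul_le_self _ _)
    have q3 : ρ ≤ W * (W ^ k * ρ₁) := by
      have := (Nat.div_lt_iff_lt_mul (by omega)).1 (Nat.lt_pow_succ_log_self (by omega : 1 < W) (ρ / ρ₁))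
      rw [pow_succ', mul_assoc] at this
      exact this.le
    have q4 : ρ₁ ≤ W ^ k * ρ₁ := Nat.le_mul_of_pos_left _ (Nat.pow_pos (by omega))
    have q5 : P.W₀ * (W ^ k * ρ₁) ≤ P.W₀ * ρ := Nat.mul_le_mul_left _ q2
    have q6 := ind k V (by omega)
    have q7 := mono V _ ρ (hρ₁.trans q4) q2 h2
    refine le_trans ?_ (le_max_right _ _)
    calc ρ * P.ν V ρ (Dv P.b V)
        ≤ (W * (W ^ k * ρ₁) : ℕ) * (CN * P.ν V (W ^ k * ρ₁) (Dv P.b V)) :=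
          mul_le_mul (by exact_mod_cast q3) q7 (ν_nonneg hP _ _ _) (Nat.cast_nonneg _)
      _ = W * CN * ((W ^ k * ρ₁ : ℕ) * P.ν V (W ^ k * ρ₁) (Dv P.b V)) := by
          rw [Nat.cast_mul W]; ring
      _ ≤ _ := by gcongr

end Crest.Agent.T145.Vx
end

-- ▼ part T145/VxCalS_48

/-!
# Row 145 (helper48): the exact calibration (`Vx.CalStmt`)
-/

set_option autoImplicit false

open Finset Filter Topology

noncomputable section

namespace Crest.Agent.T145.Vx.C48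

open Inf48
open _root_.Crest.Agent.T145.Lat (rf2 rf2_apply)

variable {Λ : Lat} {σ : Pt × Pt → ℤ}

theorem sm_eq (a : ℤ) (r : ℕ) (e : Pt × Pt) : sm a r e =
    if e.1.2 = -1 ∧ e.2.2 = 0 ∧ e.1.1 = e.2.1 ∧ a ≤ e.1.1 ∧ e.1.1 < a + r then 1 else 0 := by
  simp only [sm, Vd.ray]
  split_ifs <;> omega

theorem finS_sm (a : ℤ) (r : ℕ) : FinS (sm a r) :=
  ⟨(Ico a (a + r)).image eV, fun e he => (sm_eq a r e).trans (if_neg fun h => he
    (mem_image.2 ⟨e.1.1, mem_Ico.2 ⟨h.2.2.2.1, h.2.2.2.2⟩, by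
      ext <;> simp only [eV] <;> omega⟩))⟩

theorem sm_left (a : ℤ) (r : ℕ) : sm a r + Pi.single (eV (a - 1)) 1 = sm (a - 1) (r + 1) := by
  funext ⟨⟨x, y⟩, x', y'⟩
  simp only [Pi.add_apply, sm_eq, Pi.single_apply, eV, Prod.mk.injEq]
  push_cast
  split_ifs <;> omega

theorem sm_right (a : ℤ) (r : ℕ) : sm a r + Pi.single (eV (a + r)) 1 = sm a (r + 1) := by
  funext ⟨⟨x, y⟩, x', y'⟩
  simp only [Pi.add_apply, sm_eq, Pi.single_apply, eV, Prod.mk.injEq]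
  push_cast
  split_ifs <;> omega

theorem shS_sm (t a : ℤ) (r : ℕ) : shS (t, 0) (sm a r) = sm (a + t) r := by
  funext ⟨⟨x, y⟩, x', y'⟩
  simp only [shS, sm_eq, Prod.fst_sub, Prod.snd_sub]
  split_ifs <;> omega

theorem lo_Jv (σ : Pt × Pt → ℤ) (z : Pt) : Lo (Jv σ z) :=
  Lo.sum univ fun _ _ => (Lo.edge _ σ (fun k => (k : ℝ)) (tame_nE σ _)).sub
    (Lo.edge _ σ (fun k => (k : ℝ)) (tame_nE σ _))

theorem Yv_eq {S : Finset Pt} {u : Pt → ℝ} (hu : Sup S u) (σ : Pt × Pt → ℤ) :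
    Yv σ u = fun s => ∑ z ∈ S, u z * Jv σ z s := funext fun _ =>
  finsum_eq_sum_of_support_subset _ fun z hz => by_contra fun h => hz (by
    simp only [hu z h, zero_mul])

theorem lo_Yv {S : Finset Pt} {u : Pt → ℝ} (hu : Sup S u) (σ : Pt × Pt → ℤ) : Lo (Yv σ u) := by
  rw [Yv_eq hu]
  exact Lo.sum S fun z _ => (lo_Jv σ z).const_mul _

/-! ## the reflection -/

/-- reflection in the line of the seam, with a change of sign -/
def θ (s : Cfg Pt) : Cfg Pt := -mapH (rf2 (-1)) s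

theorem θ_apply (s : Cfg Pt) (z : Pt) : θ s z = -s (z.1, -1 - z.2) := by
  rw [θ, Finsupp.neg_apply, mapH_apply]
  congr 2
  ext <;> simp [rf2, neg_add_eq_sub]

theorem ori_eV (i : ℤ) : ori (rf2 (-1)) (eV i) = eV i := by
  show oriF _ _ = _
  simp [oriF, eV, posD]

theorem tr_sm (a : ℤ) (r : ℕ) : Tr (rf2 (-1)) (sm a r) (-sm a r) := fun e => by
  have h0 : ∀ e : Pt × Pt, (∀ i, e ≠ eV i) → sm a r e = 0 := fun e he =>
    (sm_eq a r e).trans (if_neg fun h => he e.1.1 (by ext <;> simp only [eV] <;> omega))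
  by_cases he : ∀ i, e ≠ eV i
  · rw [Pi.neg_apply, h0 e he, h0 _ fun i h => he i ((ori _).injective (h.trans (ori_eV i).symm))]
    simp
  · obtain ⟨i, hi⟩ := not_forall.1 he
    rw [not_not.1 hi, ori_eV, if_neg (by simp [eV]), Pi.neg_apply]

theorem faces_map (R : ℕ) : (faces R).map (rf2 (-1)).toEmbedding = faces R := by
  ext x
  rw [mem_map_equiv]
  simp only [faces, mem_sq, rf2, Equiv.prodCongr_symm, Equiv.prodCongr_apply, Equiv.refl_symm,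
    Equiv.subLeft_symm_apply, Prod.map_fst, Prod.map_snd, Equiv.coe_refl, id]
  push_cast
  omega

theorem ex_θ (h : Λ.Ok) (a : ℤ) (r R : ℕ) (F : Cfg Pt → ℝ) :
    Ex ((Λ.D (faces R)).Ws 0 (sm a r)) (fun s => F (θ s)) =
      Ex ((Λ.D (faces R)).Ws 0 (sm a r)) F := by
  have h1 := tsum_sym h (h.sym_rf2 (-1)) (tr_sm a r) (faces R) fun s => F (-s)
  rw [faces_map, ← (Equiv.neg (Cfg Pt)).tsum_eq] at h1
  simp only [Equiv.neg_apply, Ws_neg h, neg_neg] at h1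
  simp only [Ex_def, θ, h1]

theorem nE_θ (σ : Pt × Pt → ℤ) (i : ℤ) (s : Cfg Pt) : nE σ (eV i) (θ s) = nE σ (eV i) s := by
  simp only [nE, dE, θ_apply, eV]
  norm_num
  ring

theorem Jv_θ (a : ℤ) (r : ℕ) (z : Pt) (s : Cfg Pt) :
    Jv (sm a r) z (θ s) = -Jv (sm a r) (rf2 (-1) z) s := by
  obtain ⟨x, y⟩ := z
  have e1 : -1 - (y - 1) = -1 - y + 1 := by ring
  have e2 : -1 - (y + 1) = -1 - y - 1 := by ring
  have e3 : sm a r ((x, y - 1), (x, y)) = sm a r ((x, -1 - y), (x, -1 - y + 1)) := by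
    simp only [sm_eq, true_and]; split_ifs <;> omega
  have e4 : sm a r ((x, y), (x, y + 1)) = sm a r ((x, -1 - y - 1), (x, -1 - y)) := by
    simp only [sm_eq, true_and]; split_ifs <;> omega
  have e5 : ∀ x x' y : ℤ, sm a r ((x, y), (x', y)) = 0 := fun x x' y => by
    simp only [sm_eq]; split_ifs <;> omega
  simp only [Jv, Fin.sum_univ_two, nE, dE, θ_apply, ev, rf2_apply, Matrix.cons_val_zero,
    Matrix.cons_val_one, Prod.mk_sub_mk, Prod.mk_add_mk, sub_zero, add_zero, e1, e2, e3, e4, e5]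
  push_cast
  ring

theorem Yv_θ (a : ℤ) (r : ℕ) {u : Pt → ℝ} (hu : ∀ z, u (rf2 (-1) z) = u z) (s : Cfg Pt) :
    Yv (sm a r) u (θ s) = -Yv (sm a r) u s := by
  rw [Yv, Yv, ← finsum_neg_distrib, ← finsum_comp_equiv (rf2 (-1)) (f := fun z => -(u z * _))]
  exact finsum_congr fun z => by rw [Jv_θ, hu, mul_neg]

theorem uc_even (x : ℤ) (ρ : ℕ) (z : Pt) : uc (x, 0) ρ 0 (rf2 (-1) z) = uc (x, 0) ρ 0 z := by
  have e : (((-1 - z.2 : ℤ) : ℝ) - (0 : ℤ) + 1 / 2) = -((z.2 : ℝ) - (0 : ℤ) + 1 / 2) := by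
    push_cast; ring
  simp only [uc, rf2_apply, e, Pot.cut1_neg]
  rfl

theorem e_eq (V : Vp) : ∃ i, V.e = eV i := by
  unfold Vp.e; split_ifs <;> exact ⟨_, rfl⟩

theorem p_eq (V : Vp) : ∃ x, V.p = (x, 0) := by
  unfold Vp.p; split_ifs <;> exact ⟨_, rfl⟩

theorem cal_zero (h : Λ.Ok) (b : ℝ) (V : Vp) (ρ R : ℕ) : lf V (Λ.D (faces R)) ρ (Dv b V) 0 = 0 := by
  obtain ⟨i, hi⟩ := e_eq V
  obtain ⟨x, hx⟩ := p_eq V
  have h1 : ∀ s, Dv b V (θ s) = Dv b V s := fun s => by simp only [Dv, hi, nE_θ]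
  have h2 := Yv_θ V.a V.r (uc_even x ρ)
  have h3 := ex_θ h V.a V.r R (Yv (sm V.a V.r) (uc (x, 0) ρ 0))
  have h4 := ex_θ h V.a V.r R fun s => Dv b V s * Yv (sm V.a V.r) (uc (x, 0) ρ 0) s
  simp only [h1, h2, mul_neg, Ex_neg] at h3 h4
  rw [lf, Cv, hx, Vp.σ, show Ex _ (Yv _ _) = 0 by linarith, show Ex _ _ = 0 by linarith]
  ring

/-! ## the calibration in the limit -/

theorem Jv_single (σ : Pt × Pt → ℤ) (i : ℤ) (z : Pt) (s : Cfg Pt) :
    Jv σ z s = Jv (σ + Pi.single (eV i) 1) z s -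
      ((if z = (i, 0) then 1 else 0) - if z = (i, -1) then 1 else 0) := by
  obtain ⟨x, y⟩ := z
  have e1 : ((x - 1, y), (x, y)) ≠ eV i := by simp only [eV, ne_eq, Prod.mk.injEq]; omega
  have e2 : ((x, y), (x + 1, y)) ≠ eV i := by simp only [eV, ne_eq, Prod.mk.injEq]; omega
  have e3 : ((x, y - 1), (x, y)) = eV i ↔ (x, y) = (i, 0) := by
    simp only [eV, Prod.mk.injEq]; omega
  have e4 : ((x, y), (x, y + 1)) = eV i ↔ (x, y) = (i, -1) := by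
    simp only [eV, Prod.mk.injEq]; omega
  simp only [Jv, Fin.sum_univ_two, nE, ev, Matrix.cons_val_zero, Matrix.cons_val_one,
    Prod.mk_sub_mk, Prod.mk_add_mk, sub_zero, add_zero, Pi.add_apply, Pi.single_apply, if_neg e1,
    if_neg e2, e3, e4]
  push_cast
  ring

/-- the mean of `J` in the limit -/
def jI (Λ : Lat) (σ : Pt × Pt → ℤ) (z : Pt) : ℝ := exI Λ σ (Jv σ z)

theorem jI_sh (h : Λ.Ok) (hσ : FinS σ) (t z : Pt) : jI Λ (shS t σ) (z + t) = jI Λ σ z := by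
  rw [jI, jI, ← exI_trl h hσ (lo_Jv σ z) t]
  congr 1
  funext s
  simp only [trl, Jv, nE_trl, sub_add_eq_add_sub, add_right_comm z _ t]

theorem cal_mv (h : Λ.Ok) (hσ : FinS σ) {i : ℤ} (he : (eV i).2 - (eV i).1 ∈ Λ.Jp) {S : Finset Pt}
    {u : Pt → ℝ} (hu : Sup S u) :
    cvI Λ σ (mv Λ σ (eV i)) (Yv σ u) / exI Λ σ (mv Λ σ (eV i)) =
      ∑ z ∈ S, u z * jI Λ (σ + Pi.single (eV i) 1) z - (u (i, 0) - u (i, -1)) - exI Λ σ (Yv σ u) := by
  have h1 := hσ.add (finS_single (eV i) 1)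
  have h2 := (div_pos (ratI_pos h h1) (ratI_pos h hσ)).ne'
  have h3 : ∀ w, ∑ z ∈ S, u z * (if z = w then (1 : ℝ) else 0) = u w := fun w => by
    simp only [mul_ite, mul_one, mul_zero, sum_ite_eq']
    split_ifs with hw
    exacts [rfl, (hu w hw).symm]
  rw [cvI, exI_mv_mul h hσ he (lo_Yv hu σ), exI_mv h hσ he, ← mul_sub, mul_div_cancel_left₀ _ h2]
  congr 1
  rw [Yv_eq hu, exI_sum h h1 S fun z _ => (lo_Jv σ z).const_mul _, ← h3 (i, 0), ← h3 (i, -1),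
    ← sum_sub_distrib, ← sum_sub_distrib]
  refine sum_congr rfl fun z _ => ?_
  rw [exI_const_mul h h1 (lo_Jv σ z), funext (Jv_single σ i z),
    exI_sub h h1 (lo_Jv _ z) (Lo.const _), exI_const h h1, jI]
  ring

/-- the pair prolonged at the other end -/
def xt (V : Vp) : Vp := ⟨if V.sd then V.a else V.a - 1, V.r + 1, V.sd⟩

/-- the translation that exchanges the two prolongations -/
def tv (V : Vp) : Pt := (if V.sd then -1 else 1, 0)

theorem ext_p (V : Vp) : (xt V).p = V.p := by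
  obtain ⟨a, r, _ | _⟩ := V <;> simp [xt, Vp.p]

theorem ext_σ (V : Vp) : V.σ + Pi.single V.sw.e 1 = (xt V).σ := by
  obtain ⟨a, r, _ | _⟩ := V
  exacts [sm_left a r, sm_right a r]

theorem ext_σ' (V : Vp) : V.σ + Pi.single V.e 1 = shS (tv V) (xt V).σ := by
  obtain ⟨a, r, _ | _⟩ := V
  · exact (sm_right a r).trans (by simp [xt, tv, Vp.σ, shS_sm])
  · exact (sm_left a r).trans (by simp [xt, tv, Vp.σ, shS_sm, sub_eq_add_neg])

theorem sum_sh {S T : Finset Pt} {u : Pt → ℝ} (hu : Sup S u) (t : Pt) (hT : ∀ z, z + t ∈ S → z ∈ T)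
    (j : Pt → ℝ) : ∑ z ∈ S, u z * j z = ∑ z ∈ T, u (z + t) * j (z + t) := by
  refine Eq.trans ?_ (sum_map T (Equiv.addRight t).toEmbedding fun z => u z * j z)
  refine sum_subset (fun z hz => mem_map_equiv.2 (hT _ (by simpa using hz))) fun z _ hz => ?_
  rw [hu z hz, zero_mul]

theorem mem_ds {z p : Pt} {c : ℕ} : z ∈ bl p c ↔ ds z p ≤ c := by
  rw [mem_bl, ds]; omega

theorem cal_lim {b : ℝ} (hb : 0 < b) (V : Vp) {ρ : ℕ} (hρ : 4 ≤ ρ) (hr : 16 * ρ ≤ V.r) {u : Pt → ℝ}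
    (hu : Sup (bl V.p (2 * ρ)) u) (h1 : ∀ z, ds z V.p < ρ → u z = z.2 + 1 / 2) :
    cvI (xyL b) V.σ (Dv b V) (Yv V.σ u) / exI (xyL b) V.σ (Dv b V) + 1 -
      cvI (xyL b) V.σ (Dv b V.sw) (Yv V.σ u) / exI (xyL b) V.σ (Dv b V.sw) =
      ∑ z ∈ bl V.p (2 * ρ + 1), (u (z + tv V) - u z) * jI (xyL b) (xt V).σ z := by
  have h := xyL_ok hb
  obtain ⟨i, hi, i1, i2⟩ : ∃ i, V.e = eV i ∧ ds (i, 0) V.p < ρ ∧ ds (i, -1) V.p < ρ := by
    obtain ⟨a, r, _ | _⟩ := V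
    · exact ⟨a + r, rfl, by simp [ds, Vp.p]; omega, by simp [ds, Vp.p]; omega⟩
    · exact ⟨a - 1, rfl, by simp [ds, Vp.p]; omega, by simp [ds, Vp.p]; omega⟩
  obtain ⟨k, hk, k1, k2⟩ : ∃ i, V.sw.e = eV i ∧ 2 * ρ < ds (i, 0) V.p ∧ 2 * ρ < ds (i, -1) V.p := by
    obtain ⟨a, r, _ | _⟩ := V <;> simp only at hr
    · exact ⟨a - 1, rfl, by simp [ds, Vp.p]; omega, by simp [ds, Vp.p]; omega⟩
    · exact ⟨a + r, rfl, by simp [ds, Vp.p]; omega, by simp [ds, Vp.p]; omega⟩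
  have e1 : Dv b V = mv (xyL b) V.σ (eV i) := hi ▸ rfl
  have e2 : Dv b V.sw = mv (xyL b) V.σ (eV k) := hk ▸ rfl
  have hT : ∀ z, z + tv V ∈ bl V.p (2 * ρ) → z ∈ bl V.p (2 * ρ + 1) := fun z hz => by
    rw [mem_bl] at hz ⊢
    simp only [tv, Prod.fst_add, Prod.snd_add] at hz
    split_ifs at hz <;> omega
  have hσ : FinS V.σ := finS_sm _ _
  rw [e1, e2, cal_mv h hσ (eV_Jp b i) hu, cal_mv h hσ (eV_Jp b k) hu, ← hi, ← hk, h1 _ i1, h1 _ i2, hu _ fun hh => (mem_ds.1 hh).not_gt k1,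
    hu _ fun hh => (mem_ds.1 hh).not_gt k2]
  rw [ext_σ, ext_σ', sum_sh hu (tv V) hT, sum_sh hu 0 (T := bl V.p (2 * ρ + 1))
    fun z hz => bl_mono _ (Nat.le_succ _) (by simpa using hz)]
  simp only [jI_sh (σ := (xt V).σ) h (finS_sm _ _), add_zero, sub_mul, sum_sub_distrib]
  push_cast
  ring

theorem lo_Dv {b : ℝ} (hb : 0 < b) (V : Vp) : Lo (Dv b V) := lo_mv hb V.σ V.e

theorem exI_Dv {b : ℝ} (hb : 0 < b) (V : Vp) : exI (xyL b) V.σ (Dv b V) ≠ 0 := by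
  obtain ⟨i, hi⟩ := e_eq V
  have hσ : FinS V.σ := finS_sm _ _
  rw [show Dv b V = mv (xyL b) V.σ (eV i) from hi ▸ rfl, exI_mv (xyL_ok hb) hσ (eV_Jp b i)]
  exact (div_pos (ratI_pos (xyL_ok hb) (hσ.add (finS_single _ 1))) (ratI_pos (xyL_ok hb) hσ)).ne'

end C48

open C48 Inf48

theorem calStmt (hC : CmStmt) (hU : UcStmt) : CalStmt := fun P hP => by
  obtain ⟨C, r₁, hC⟩ := hC P hP 2
  obtain ⟨K, hU⟩ := hU
  have h : P.L.Ok := hP.crit.1
  have hb : 0 < P.b := h.2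
  refine ⟨25 * (K * |C|) + 1, max r₁ 4, fun V ρ hρ hr => ?_⟩
  obtain ⟨h1, h4⟩ := max_le_iff.1 hρ
  obtain ⟨hS, -, hu, hK, -⟩ := hU V.p ρ 1 h4
  obtain ⟨R, hC⟩ := hC (xt V) ρ h1
  obtain ⟨x, hx⟩ := p_eq V
  have hσ : FinS V.σ := finS_sm _ _
  have ρ4 : (4 : ℝ) ≤ ρ := by exact_mod_cast h4
  have hL : 0 < Real.log ρ ^ (-1 - P.δ) := Real.rpow_pos_of_pos (Real.log_pos (by linarith)) _
  have K0 : 0 ≤ K := (abs_nonneg _).trans ((hK 0).2 0).1
  have hu' : ∀ z, ds z V.p < ρ → uc V.p ρ 1 z = z.2 + 1 / 2 := fun z hz => by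
    rw [hu z hz, hx]; simp [co]
  have hlim := (((tendsto_cvI h hσ (lo_Dv hb V) (lo_Yv hS V.σ)).div (tendsto_exI h hσ (lo_Dv hb V))
    (exI_Dv hb V)).add_const 1).sub ((tendsto_cvI h hσ (lo_Dv hb V.sw) (lo_Yv hS V.σ)).div
      (tendsto_exI h hσ (lo_Dv hb V.sw)) (exI_Dv hb V.sw))
  have hj : ∀ z ∈ bl V.p (2 * ρ + 1), |(uc V.p ρ 1 (z + tv V) - uc V.p ρ 1 z) * jI P.L (xt V).σ z| ≤
      K * (|C| * Real.log ρ ^ (-1 - P.δ) / (ρ : ℝ) ^ 2) := fun z hz => by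
    by_cases hz' : ds z V.p + 1 < ρ
    · have h5 : ds (z + tv V) V.p < ρ := by
        simp only [ds, tv, Prod.fst_add, Prod.snd_add] at hz' ⊢
        split_ifs <;> omega
      rw [hu' _ h5, hu' z (by omega)]
      simp only [tv, Prod.snd_add, add_zero, sub_self, zero_mul, abs_zero]
      positivity
    · rw [abs_mul]
      refine mul_le_mul ?_ ?_ (abs_nonneg _) K0
      · unfold tv
        split_ifs
        · have h5 := ((hK (z + (-1, 0))).2 0).1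
          rwa [df, show z + (-1, 0) + ev 0 = z by ext <;> simp [ev], abs_sub_comm] at h5
        · exact ((hK z).2 0).1
      · have h5 := mem_ds.1 hz
        have h6 : ρ ≤ 2 * (xt V).d z := by
          obtain ⟨a, r, _ | _⟩ := V <;> simp [Vp.d, Vp.q, Vp.sw, Vp.p, xt, ds] at hz' h5 hr ⊢ <;> omega
        refine le_of_tendsto (tendsto_exI h (finS_sm _ _ : FinS (xt V).σ) (lo_Jv _ z)).abs
          ((eventually_ge_atTop (bl V.p R)).mono fun D hD => ?_)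
        refine (hC (P.L.D D) z (by simp only [xt]; omega) ?_ (by rw [ext_p]; simp only [xt]; omega)
          h6).trans ?_
        · rw [ext_p]
          exact ⟨h.ctr_D D, h.anch_D D, hD, Lat.near_D hD⟩
        · gcongr
          exact le_abs_self C
  have hlt : |∑ z ∈ bl V.p (2 * ρ + 1), (uc V.p ρ 1 (z + tv V) - uc V.p ρ 1 z) * jI P.L (xt V).σ z| <
      (25 * (K * |C|) + 1) * Real.log ρ ^ (-1 - P.δ) := by
    refine ((abs_sum_le_sum_abs _ _).trans (sum_le_card_nsmul _ _ _ hj)).trans_lt ?_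
    have h5 : (2 * (2 * (ρ : ℝ) + 1) + 1) ^ 2 / (ρ : ℝ) ^ 2 ≤ 25 := by
      rw [div_le_iff₀ (by positivity)]; nlinarith
    have h6 := mul_le_mul_of_nonneg_right h5 (show 0 ≤ K * |C| * Real.log ρ ^ (-1 - P.δ) by positivity)
    rw [card_bl, nsmul_eq_mul]
    push_cast
    calc _ = _ := by ring
      _ ≤ _ := h6
      _ < _ := by linarith
  rw [← show _ = ∑ z ∈ _, _ * jI P.L _ z from cal_lim hb V h4 hr hS hu'] at hlt
  exact ((hlim.abs.comp tendsto_faces).eventually (gt_mem_nhds hlt)).mono fun R hR =>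
    ⟨cal_zero h P.b V ρ R, hR.le⟩

end Crest.Agent.T145.Vx
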