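import Crest.Agent.T145.VxDip_34
import Crest.Agent.T145.PotAn_44
import Crest.Agent.T145.Route_51
import Crest.Agent.T145.VxDef_35

-- ▼ part T145/VxDipB_34
section

/-!
# Row 145, S0198 (helper34): swap symmetric test functions, flows of smooth charges

* `cw j s = D₂⁻ (Ψ_j χ_s)` equals `x_j` near `0`, and `cf j s = D₁⁻ (cw j s)` is swap symmetric;
* `gd u`: the gradient flow, `A0 u = dv (gd u)`; `f2_bl`, `f2_an`: flows of neutral charges.
-/

set_option autoImplicit false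

namespace Crest.Agent.T145.Vx34

open Finset Pot Xi

/-- backward difference -/
def db (y : Pt) (u : Pt → ℝ) (z : Pt) : ℝ := u z - u (z - y)





/-- the symmetric primitives of the coordinates -/
noncomputable def Ps (j : Fin 2) (z : Pt) : ℝ :=
  ![co 0 z * co 1 z, (co 0 z * co 0 z + co 0 z + (co 1 z * co 1 z + co 1 z)) / 2] j

/-- the test function `D₂⁻ (Ψ_j χ_s)` -/
noncomputable def cw (j : Fin 2) (s : ℝ) : Pt → ℝ := db (0, 1) fun z => Ps j z * Xi.chi s z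

/-- its backward difference in the first direction -/
noncomputable def cf (j : Fin 2) (s : ℝ) : Pt → ℝ := db (1, 0) (cw j s)















/-! ## flows -/

/-- the gradient flow -/
def gd (u : Pt → ℝ) (e : Pt × Pt) : ℝ := u e.2 - u e.1








end Crest.Agent.T145.Vx34
end

-- ▼ part T145/VxDp_34

/-!
# Row 145, S0198 (helper34): `UcStmt`, `DipStmt`
-/

set_option autoImplicit false

namespace Crest.Agent.T145.Vx

open Finset Pot Xi Vx34

namespace D34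

theorem mem_ds {z w : Pt} {n : ℕ} : z ∈ bl w n ↔ ds z w ≤ n := by
  rw [mem_bl, ds]; omega

theorem ds_comm (z w : Pt) : ds z w = ds w z := by rw [ds, ds]; omega

theorem ds_tri (z w c : Pt) : ds z c ≤ ds z w + ds w c := by rw [ds, ds, ds]; omega

theorem mem_sub {z p : Pt} {n : ℕ} : z - p ∈ bl 0 n ↔ z ∈ bl p n := by
  simp only [mem_bl_abs, Prod.fst_sub, Prod.snd_sub, Prod.fst_zero, Prod.snd_zero, sub_zero]

theorem eu_le_ds (z w : Pt) : eu (z - w) ≤ 2 * ds z w := eu_le_of_bl (mem_ds.2 le_rfl)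

theorem ds_le_eu (z w : Pt) : (ds z w : ℝ) ≤ eu (z - w) := by
  rcases Nat.eq_zero_or_pos (ds z w) with h | h
  · rw [h]; simpa using eu_nonneg _
  · have := le_eu_of_not_bl (z := w) (y := z) (r := ds z w - 1) fun h' => by
      rw [mem_ds] at h'; omega
    rwa [Nat.cast_sub h, Nat.cast_one, sub_add_cancel] at this

theorem sum_sub (p : Pt) (n : ℕ) (f : Pt → ℝ) : ∑ z ∈ bl p n, f (z - p) = ∑ z ∈ bl 0 n, f z :=
  sum_bij' (fun z _ => z - p) (fun z _ => z + p) (fun _ h => mem_sub.2 h)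
    (fun z h => mem_sub.1 (by simpa using h)) (fun _ _ => by simp) (fun _ _ => by simp) fun _ _ => rfl

theorem ev_nn (i : Fin 2) : ev i ∈ nn := by fin_cases i <;> decide


theorem co_ev (i j : Fin 2) : co j (ev i) = if i = j then 1 else 0 := by
  fin_cases i <;> fin_cases j <;> simp [co, ev]

theorem al_pos (p : Pt) {ρ : ℕ} (h : 1 ≤ ρ) (z : Pt) : 0 < al p ρ z := by
  have : (1 : ℝ) ≤ ρ := by exact_mod_cast h
  rw [al]; positivity

theorem inv_le_al (p : Pt) {ρ : ℕ} (h : 1 ≤ ρ) (z : Pt) : 1 / (ρ + eu (z - p)) ≤ al p ρ z := by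
  have : (1 : ℝ) ≤ ρ := by exact_mod_cast h
  rw [al]; gcongr; exact ds_le_eu z p

theorem dip_mono {p : Pt} {ρ : ℕ} {A A' : ℝ} {u : Pt → ℝ} (h : Vx.Dip p ρ A u) (hρ : 1 ≤ ρ) (hA : A ≤ A') :
    Vx.Dip p ρ A' u := by
  have h1 := al_pos p hρ
  refine ⟨fun z => (h.b0 z).trans ?_, fun z w => (h.b1 z w).trans ?_, fun i j z => (h.b2 i j z).trans ?_⟩
  · have := h1 z; gcongr
  · have := h1 z; have := h1 w; gcongr
  · gcongr

/-- the first two bounds of the dipole class from an envelope -/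
theorem dip_of {p : Pt} {ρ k : ℕ} {K : ℝ} {u : Pt → ℝ} (hρ : 1 ≤ ρ) (hk : 1 ≤ k) (h : Env k 1 p ρ K u)
    (h2 : ∀ i j z, |df j (df i u) z| ≤ 34 * K * al p ρ z ^ 2 / ρ) : Vx.Dip p ρ (34 * K) u := by
  have h0 : (0 : ℝ) < ρ := by exact_mod_cast hρ
  have hK := h.nonneg h0
  have h1 := al_pos p hρ
  have h3 := inv_le_al p hρ
  refine ⟨fun z => (h.zero z).trans ?_, fun z w => (h.lip hk h0 z w).trans ?_, h2⟩
  · rw [pow_one, div_eq_mul_one_div]
    have := h1 z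
    exact mul_le_mul (by linarith) (h3 z) (one_div_pos.2 (sc_pos h0 _)).le (by positivity)
  · have a1 := one_div_pos.2 (sc_pos h0 (z - p))
    have a2 := one_div_pos.2 (sc_pos h0 (w - p))
    have a3 := h1 z
    calc _ = 17 * K * eu (z - w) * (1 / (ρ + eu (z - p))) * (1 / (ρ + eu (w - p))) := by
          rw [mul_assoc _ (1 / _), one_div_mul_one_div, mul_one_div]
      _ ≤ 17 * K * (2 * ds z w) * al p ρ z * al p ρ w := by
          gcongr
          exacts [eu_le_ds z w, h3 z, h3 w]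
      _ = _ := by ring

theorem dip_of_env {p : Pt} {ρ : ℕ} {K : ℝ} {u : Pt → ℝ} (hρ : 1 ≤ ρ) (h : Env 2 1 p ρ K u) :
    Vx.Dip p ρ (34 * K) u := dip_of hρ one_le_two h fun i j z => by
  have h0 : (0 : ℝ) < ρ := by exact_mod_cast hρ
  have hK := h.nonneg h0
  have a1 := sc_pos h0 (z - p)
  have a2 := eu_nonneg (z - p)
  refine (h.two le_rfl (ev_nn j) (ev_nn i) z).trans ?_
  calc _ = K * (1 / (ρ + eu (z - p))) ^ 2 / (ρ + eu (z - p)) := by field_simp
    _ ≤ 34 * K * al p ρ z ^ 2 / ρ := by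
        gcongr
        exacts [by linarith, inv_le_al p hρ z, by linarith]

/-! ### the calibration functions -/

theorem sm_cut1 (k : ℕ) : ∃ C : ℝ, 0 ≤ C ∧ ∀ (a b d : ℝ) (i : Fin 2), a < b →
    Sm k Set.univ C (b - a) fun w => cut1 a b (co i w + d) := by
  obtain ⟨K, hK⟩ := exists_bound_smoothTransition k
  have hK0 : 0 ≤ K := (norm_nonneg _).trans (hK 0 (Nat.zero_le _) 0)
  refine ⟨2 ^ k * K * K, by positivity, fun a b d i hab => ?_⟩
  have hℓ : 0 < b - a := sub_pos.2 hab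
  have key : ∀ (p : Pt →+ ℝ), (∀ y ∈ nn, |p y| ≤ 1) → ∀ d : ℝ,
      Sm k Set.univ K (b - a) fun w => Real.smoothTransition ((d + p w) / (b - a)) := fun p hp d => by
    have := sm_of_contDiff ((b - a)⁻¹ • p) hℓ (fun y hy => by
      rw [AddMonoidHom.smul_apply, norm_smul, Real.norm_of_nonneg (inv_pos.2 hℓ).le]
      exact mul_le_of_le_one_right (inv_pos.2 hℓ).le (hp y hy)) (k := k) (F := Real.smoothTransition)
      (d / (b - a)) (S := Set.univ) (K := K) fun z _ q _ =>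
        ⟨Real.smoothTransition.contDiffAt, fun j hj => hK j hj q⟩
    refine this.congr fun _ _ w _ => ?_
    rw [AddMonoidHom.smul_apply, smul_eq_mul, add_div, div_eq_inv_mul (p w)]
  let p : Pt →+ ℝ := AddMonoidHom.mk' (co i) (co_add i)
  have hp : ∀ y ∈ nn, |p y| ≤ 1 := fun y hy => (abs_co_le i y).trans (eu_nn hy).le
  refine ((key (-p) (fun y hy => by simpa using hp y hy) (b - d)).mul_univ hℓ
    (key p hp (b + d))).congr fun _ _ w _ => ?_
  simp only [cut1, AddMonoidHom.neg_apply, p, AddMonoidHom.mk'_apply]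
  congr 3 <;> ring

/-- the cut-off of `uc` -/
noncomputable def zc (ρ : ℕ) (z : Pt) : ℝ := cut1 ρ (2 * ρ) (co 0 z + 0) * cut1 ρ (2 * ρ) (co 1 z + 1 / 2)

theorem uc_eq (p : Pt) (ρ : ℕ) (i : Fin 2) (z : Pt) :
    uc p ρ i z = (co i (z - p) + ![0, 1 / 2] i) * zc ρ (z - p) := by
  simp [uc, zc, co]

theorem zc_out {ρ : ℕ} (h : 1 ≤ ρ) {z : Pt} (hz : z ∉ bl 0 (2 * ρ)) : zc ρ z = 0 := by
  have h0 : (0 : ℝ) < ρ := by exact_mod_cast h
  rw [mem_bl] at hz
  simp only [Prod.fst_zero, Prod.snd_zero] at hz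
  by_cases h1 : 2 * (ρ : ℤ) ≤ |z.1|
  · rw [zc, cut1_zero (by linarith) (by simp only [co, add_zero, Matrix.cons_val_zero]; exact_mod_cast h1), zero_mul]
  · rw [zc, cut1_zero (a := ρ) (t := co 1 z + 1 / 2) (by linarith), mul_zero]
    have h2 : 2 * (ρ : ℤ) ≤ z.2 ∨ z.2 + 1 ≤ -(2 * ρ) := by
      rw [not_le, abs_lt] at h1; push_cast at hz; omega
    rw [le_abs]
    refine h2.imp (fun h2 => ?_) fun h2 => ?_
    · have : 2 * (ρ : ℝ) ≤ z.2 := by exact_mod_cast h2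
      simp only [co, Matrix.cons_val_one, Matrix.cons_val_zero]; linarith
    · have : (z.2 : ℝ) + 1 ≤ -(2 * ρ) := by exact_mod_cast h2
      simp only [co, Matrix.cons_val_one, Matrix.cons_val_zero]; linarith

theorem zc_in {ρ : ℕ} {z : Pt} (hz : ds z 0 < ρ) : zc ρ z = 1 := by
  have h0 : (0 : ℝ) < ρ := by exact_mod_cast Nat.zero_lt_of_lt hz
  have h1 : (ds z 0 : ℝ) + 1 ≤ ρ := by exact_mod_cast hz
  have h2 := mem_bl_abs.1 (mem_ds.2 (le_refl (ds z 0)))
  simp only [Prod.fst_zero, Prod.snd_zero, sub_zero] at h2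
  have h3 : |(z.1 : ℝ)| ≤ ds z 0 := by exact_mod_cast h2.1
  have h4 : |(z.2 : ℝ)| ≤ ds z 0 := by exact_mod_cast h2.2
  rw [zc, cut1_one (by linarith), cut1_one (by linarith), one_mul]
  · simp only [co, Matrix.cons_val_one, Matrix.cons_val_zero]
    rw [abs_le] at h4 ⊢; constructor <;> linarith [h4.1, h4.2]
  · simp only [co, Matrix.cons_val_zero, add_zero]; linarith

theorem sup_uc (p : Pt) {ρ : ℕ} (h : 1 ≤ ρ) (i : Fin 2) : Pot.Sup (bl p (2 * ρ)) (uc p ρ i) :=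
  fun z hz => by rw [uc_eq, zc_out h fun h' => hz (mem_sub.1 h'), mul_zero]

theorem uc_in {p z : Pt} {ρ : ℕ} (i : Fin 2) (hz : ds z p < ρ) :
    uc p ρ i z = co i (z - p) + ![0, 1 / 2] i := by
  rw [uc_eq, zc_in, mul_one]
  simpa [ds] using hz

theorem sm_uc (k : ℕ) : ∃ C : ℝ, 0 ≤ C ∧ ∀ (p : Pt) (ρ : ℕ) (i : Fin 2), 1 ≤ ρ → k ≤ ρ →
    Sm k Set.univ (C * ρ) ρ (uc p ρ i) := by
  obtain ⟨C, h0, hC⟩ := sm_cut1 k
  refine ⟨2 ^ k * 9 * (2 ^ k * C * C), by positivity, fun p ρ i h1 hk => ?_⟩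
  have hs : (1 : ℝ) ≤ ρ := by exact_mod_cast h1
  have hk' : (k : ℝ) ≤ ρ := by exact_mod_cast hk
  have hs0 : (0 : ℝ) < ρ := by linarith
  have a1 : Sm k Set.univ (2 ^ k * C * C) ρ (zc ρ) := by
    have b1 := hC ρ (2 * ρ) 0 0 (by linarith)
    have b2 := hC ρ (2 * ρ) (1 / 2) 1 (by linarith)
    rw [show 2 * (ρ : ℝ) - ρ = ρ by ring] at b1 b2
    exact b1.mul_univ hs0 b2
  have a2 : Sm k {z | eu z ≤ 8 * ρ} (9 * ρ) ρ fun z => co i z + ![0, 1 / 2] i :=
    ((sm_co k i hs0 (M := 8) (by norm_num)).add (Sm.const k _ hs0 (![0, 1 / 2] i))).mono le_rfl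
      Set.Subset.rfl (by fin_cases i <;> norm_num <;> linarith) hs0
  have ha : Sm k {z | eu z ≤ 6 * ρ} (2 ^ k * (9 * ρ) * (2 ^ k * C * C)) ρ
      fun z => (co i z + ![0, 1 / 2] i) * zc ρ z :=
    a2.mul hs0 (a1.mono le_rfl (Set.subset_univ _) le_rfl hs0) fun z hz w hw => by
      have := (eu_near hw).1
      simp only [Set.mem_ofPred_eq] at hz ⊢
      linarith
  have hb : Sm k {z | 6 * ρ < eu z} (2 ^ k * (9 * ρ) * (2 ^ k * C * C)) ρ
      fun z => (co i z + ![0, 1 / 2] i) * zc ρ z :=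
    (Sm.zero' k _ (by positivity) hs0).congr fun z hz w hw => by
      rw [zc_out h1, mul_zero]
      intro h
      have := eu_le_of_bl h
      rw [sub_zero] at this
      push_cast at this
      linarith [(eu_near hw).2, show 6 * ρ < eu z from hz]
  have hc := ((Sm.union ha hb).mono (S' := Set.univ) le_rfl
    (fun z _ => (le_or_gt (eu z) (6 * ρ)).imp id id) le_rfl hs0).shift (S' := Set.univ) (-p)
    fun _ _ => trivial
  exact (hc.mono le_rfl Set.Subset.rfl (le_of_eq (by ring)) hs0).congr fun z _ w _ => by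
    rw [uc_eq, sub_eq_add_neg]

theorem A0_uc_in {p z : Pt} {ρ : ℕ} (i : Fin 2) (hz : ds z p + 1 < ρ) : A0 (uc p ρ i) z = 0 := by
  rw [A0_congr (v := fun w => co i (w - p) + ![0, 1 / 2] i) fun w hw => uc_in i (by
    have := ds_tri w z p; have := mem_ds.1 hw; omega), A0_add_const, A0_shift, A0_co]

/-! ### the dipoles -/

theorem env_dp8 : ∃ C : ℝ, 0 ≤ C ∧ ∀ ρ : ℝ, 8 ≤ ρ → ∀ e ∈ nn, Env 2 1 0 ρ C (dp ρ e) := by
  obtain ⟨C1, h1, hC1⟩ := env_dpk 2
  obtain ⟨C2, h2, hC2⟩ := env_chi 2 0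
  refine ⟨3 ^ (1 + 2) * (2 ^ (2 * 2 + 0 + 1) * (|1| + C2 * 1) * (8 ^ (1 + 2) * C1)),
    by positivity, fun ρ hρ e he => ?_⟩
  have hk' : (0 : ℝ) < 8 := by positivity
  have a1 := (hC1 e he).up one_pos (M := 8) (by norm_num) hk' (by norm_num)
  have a2 := (Env.const 2 0 hk' 1).sub (hC2 ρ 8 0 0 hk' hρ (by norm_num; linarith) (by simp; linarith))
  rw [pow_zero] at a2
  have a3 := a2.mul a1 hk' (by norm_num)
  simp only [Pi.sub_apply, sub_zero, zero_add] at a3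
  exact Env.far a3 hk' (by linarith) (by norm_num; linarith) fun w hw =>
    dp_of_eu (by linarith) e (by simpa using hw)

theorem abs_A0_dp8 : ∃ C : ℝ, 0 ≤ C ∧ ∀ ρ : ℝ, 8 ≤ ρ → ∀ e ∈ nn, ∀ z, |A0 (dp ρ e) z| ≤ C / ρ ^ 3 := by
  obtain ⟨C, h1, hC⟩ := env_dp8
  refine ⟨2 ^ (1 + 3) * C, by positivity, fun ρ hρ e he z => ?_⟩
  refine ((hC ρ hρ e he).abs_A0 le_rfl (by linarith) z).trans ?_
  have := eu_nonneg (z - 0)
  gcongr
  linarith

/-- the charge of a dipole of radius `s` at `p` -/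
theorem chg_dp {C s A : ℝ} (hs : 0 < s) {e : Pt} (he : e ∈ nn) (hC : ∀ z, |A0 (dp s e) z| ≤ C)
    (p : Pt) {D Λc n : ℕ} (h1 : (D : ℝ) ≤ s) (h2 : 2 * s ≤ n + 1) (h3 : n + 1 ≤ Λc * D)
    (h4 : C ≤ A / D) : Chg p D Λc A fun z => A0 (dp s e) (z - p) := by
  refine ⟨fun z hz => ⟨?_, ?_⟩, ?_, fun z => (hC _).trans h4⟩
  · by_contra h
    have : ((ds z p : ℕ) : ℝ) + 1 ≤ D := by exact_mod_cast not_le.1 h
    exact hz (A0_dp_in hs e (n := ds z p) (by linarith) (mem_sub.2 (mem_ds.2 le_rfl)))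
  · by_contra h
    exact hz (sup_A0_dp hs he h2 _ (by rw [mem_sub, mem_ds]; omega))
  · rw [sum_sub p _ (A0 (dp s e))]; exact sum_A0_dp hs he h2 h3

theorem Chg.neg {p : Pt} {D Λc : ℕ} {A : ℝ} {g : Pt → ℝ} (h : Chg p D Λc A g) : Chg p D Λc A (-g) :=
  ⟨fun z hz => h.1 z (neg_ne_zero.1 hz), by simp [h.2.1], fun z => by simpa using h.2.2 z⟩

theorem A0_ud (p : Pt) (ρ S : ℕ) (i : Fin 2) :
    A0 (ud p ρ S i) - fd p ρ i = -fun z => A0 (dp S (ev i)) (z - p) := by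
  funext z
  have : A0 (ud p ρ S i) z = A0 (du ((ρ : ℝ) / 4) S (ev i)) (z - p) := A0_shift _ p z
  simp only [Pi.sub_apply, Pi.neg_apply, this, A0_du, fd]
  ring

/-- the pairing of a dipole at `q` with the potential of a dipole at `p` -/
theorem pair_fd {p q : Pt} {ρ S : ℕ} (hρ : 32 ≤ ρ) (h1 : 2 * ρ ≤ ds p q) (h2 : ds p q + ρ ≤ S) (i j : Fin 2) :
    ∑ z ∈ bl q ρ, fd q ρ j z * ud p ρ S i z = difs [ev j, ev i] pk (-(p - q) - ev j) := by
  have h0 : (32 : ℝ) ≤ ρ := by exact_mod_cast hρ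
  have hn : 2 * ((ρ : ℝ) / 4) ≤ ((ρ - 1 : ℕ) : ℝ) + 1 := by
    rw [Nat.cast_sub (by omega)]; push_cast; linarith
  rw [← pair_dp_dp (ρ := (ρ : ℝ) / 4) (ρ' := (ρ : ℝ) / 4) (by linarith) (by linarith) (ev_nn j) (ev_nn i)
    hn hn (N := ρ) (by omega) (x := p - q) (by rw [mem_sub, mem_ds]; omega), ← sum_sub q]
  refine sum_congr rfl fun z hz => ?_
  have h3 : (0 : ℝ) < S := by exact_mod_cast (by omega : 0 < S)
  rw [fd, ud, du_in h3 _ le_rfl (mem_sub.2 (mem_ds.2 (by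
    have := ds_tri z q p; have := mem_ds.1 hz; rw [ds_comm q p] at *; omega))), sub_sub_sub_cancel_right]

end D34

open D34

theorem ucStmt : UcStmt := by
  obtain ⟨C, h0, hC⟩ := sm_uc 2
  refine ⟨34 * (9 * C), fun p ρ i hρ => ?_⟩
  have h1 := hC p ρ i (by omega) (by omega)
  have h4 : (4 : ℝ) ≤ ρ := by exact_mod_cast hρ
  have hρ0 : (0 : ℝ) < ρ := by linarith
  have hs := sup_uc p (show 1 ≤ ρ by omega) i
  have h2 : ∀ z j k, |df k (df j (uc p ρ i)) z| ≤ C / ρ := fun z j k =>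
    (h1.two le_rfl (ev_nn k) (ev_nn j) trivial).trans_eq (by field_simp)
  refine ⟨hs, ⟨fun z hz => ⟨?_, ?_⟩, sum_A0 (by omega) hs, fun z => ?_⟩, fun z hz => uc_in i hz,
    fun z => ⟨(h1.zero trivial).trans (by gcongr; linarith), fun j => ⟨?_, fun k => ?_⟩⟩,
    fun q ρ₁ r a1 a2 a3 a4 => ?_⟩
  · by_contra h; exact hz (A0_uc_in i (by omega))
  · by_contra h; exact hz (sup_A0 hs z (by rw [mem_ds]; omega))
  · rw [A0_apply, abs_neg, Nat.cast_sub (by omega), Nat.cast_one]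
    refine (h1.abs_lap fun _ _ => trivial).trans ?_
    rw [show 2 * (C * ρ / ρ ^ 2) = 2 * C / ρ by field_simp]
    gcongr <;> linarith
  · exact (h1.one one_le_two (ev_nn j) trivial).trans (by rw [mul_div_cancel_right₀ _ hρ0.ne']; linarith)
  · exact (h2 z j k).trans (by gcongr; linarith)
  · have b1 : (1 : ℝ) ≤ ρ₁ := by exact_mod_cast a1
    have b2 : (ρ₁ : ℝ) ≤ ρ := by exact_mod_cast a2
    have b3 : 8 * (ρ : ℝ) ≤ r := by exact_mod_cast a3
    have b4 : (ds p q : ℝ) ≤ r := by exact_mod_cast a4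
    have hr : (0 : ℝ) < r := by linarith
    have c1 : Sm 1 Set.univ (C * r) r (uc p ρ i) := fun ys hy hy' z _ => by
      refine (h1 ys (by omega) hy' z trivial).trans ?_
      rcases ys with _ | ⟨y, _ | ⟨y', ys⟩⟩
      · simp only [List.length_nil, pow_zero, div_one]; gcongr; linarith
      · simp only [List.length_singleton, pow_one]
        rw [mul_div_cancel_right₀ _ hρ0.ne', mul_div_cancel_right₀ _ hr.ne']
      · simp at hy
    have c2 := env_of_sm 1 (c := q) (ρ := ρ₁) c1 hr (by linarith) (M := 3) (by norm_num) fun z hz => by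
      have d1 := eu_le_of_bl (by_contra fun h => hz (hs z h) : z ∈ bl p (2 * ρ))
      have d2 := eu_tri z p q
      have d3 := eu_le_ds p q
      push_cast at d1 ⊢
      linarith
    rw [show (3 : ℝ) ^ (1 + 1) * r ^ 1 * (C * r) = 9 * C * r ^ 2 by ring] at c2
    rw [mul_assoc]
    refine dip_of a1 le_rfl c2 fun j k z => ?_
    by_cases hz : ds z p ≤ 2 * ρ + 2
    · refine (h2 z j k).trans ?_
      have d1 : (ds z q : ℝ) ≤ 2 * ρ + 2 + r := by
        exact_mod_cast (ds_tri z p q).trans (add_le_add hz a4)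
      have d2 : 1 / (2 * r) ≤ al q ρ₁ z := by
        rw [al]; gcongr; linarith
      calc C / ρ ≤ 34 * (9 * C * r ^ 2) * (1 / (2 * r)) ^ 2 / ρ := by
            gcongr; field_simp; nlinarith
        _ ≤ _ := by gcongr
    · have := difs_eq_zero (u := uc p ρ i) (z := z) (k := 2) (fun w hw => hs w fun h => by
        rw [mem_ds] at hw h
        have := ds_tri z w p; rw [ds_comm z w] at this; omega) (ys := [ev k, ev j]) le_rfl
        (by simp [ev_nn])
      rw [show df k (df j (uc p ρ i)) z = 0 from this, abs_zero]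
      positivity

theorem dipStmt : DipStmt := by
  obtain ⟨C1, h1, hC1⟩ := env_dp8
  obtain ⟨C2, h2, hC2⟩ := abs_A0_dp8
  obtain ⟨C3, h3, hC3⟩ := pk_dd_le
  obtain ⟨C4, h4, hC4⟩ := pk_dd
  refine ⟨34 * (4 ^ 3 * (C1 + C1)) + 64 * C2 + 4 * C3 + 8 * C4 + 1, fun p ρ S i hρ hS => ?_⟩
  have a1 : (32 : ℝ) ≤ ρ := by exact_mod_cast hρ
  have a2 : 4 * (ρ : ℝ) ≤ S := by exact_mod_cast hS
  have a3 : (0 : ℝ) < (ρ : ℝ) / 4 := by linarith
  have a4 : ((ρ / 8 : ℕ) : ℝ) ≤ (ρ : ℝ) / 8 := Nat.cast_div_le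
  have a5 : (0 : ℝ) < (ρ / 8 : ℕ) := by exact_mod_cast (by omega : 0 < ρ / 8)
  have a6 : 2 * ((ρ : ℝ) / 4) ≤ ((ρ - 8 : ℕ) : ℝ) + 1 := by
    rw [Nat.cast_sub (by omega)]; push_cast; linarith
  have a7 : ((S - 1 : ℕ) : ℝ) = S - 1 := by rw [Nat.cast_sub (by omega), Nat.cast_one]
  have a8 : 2 * (S : ℝ) ≤ ((2 * S : ℕ) : ℝ) + 1 := by push_cast; linarith
  have he := ev_nn i
  have hE : Env 2 1 p ((ρ : ℝ) / 4) (C1 + C1) (ud p ρ S i) :=
    ((hC1 _ (by linarith) _ he).sub ((hC1 S (by linarith) _ he).down a3 (by linarith))).shift0 p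
  have hf : Chg p (ρ / 8) 8 ((34 * (4 ^ 3 * (C1 + C1)) + 64 * C2 + 4 * C3 + 8 * C4 + 1) / (ρ : ℝ) ^ 2)
      (fd p ρ i) := chg_dp a3 he (hC2 _ (by linarith) _ he) p (by linarith) a6 (by omega) (by
    rw [show C2 / ((ρ : ℝ) / 4) ^ 3 = 64 * C2 / ρ ^ 2 / ρ by field_simp; norm_num]
    gcongr ?_ / _ / ?_
    · have : 0 ≤ 34 * (4 ^ 3 * (C1 + C1)) := by positivity
      linarith
    · linarith)
  have hg : Chg p (S - 1) 3 ((34 * (4 ^ 3 * (C1 + C1)) + 64 * C2 + 4 * C3 + 8 * C4 + 1) / (S : ℝ) ^ 2)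
      (A0 (ud p ρ S i) - fd p ρ i) := by
    rw [A0_ud]
    refine D34.Chg.neg (chg_dp (by linarith) he (hC2 _ (by linarith) _ he) p (by linarith) a8 (by omega) ?_)
    rw [show C2 / (S : ℝ) ^ 3 = C2 / S ^ 2 / S by field_simp, a7]
    gcongr
    · linarith
    · have : 0 ≤ 34 * (4 ^ 3 * (C1 + C1)) := by positivity
      linarith
    · linarith
  refine ⟨hf, fun z hz => ?_, fun z hz => ?_, fun ρ₁ b1 b2 => ?_, hg, fun j => ?_,
    fun q r b1 b2 b3 b4 => ⟨fun z hz => ⟨?_, fun j k => ?_⟩, fun j => ?_, ?_⟩⟩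
  · by_contra h
    have := (hf.1 z h).2
    exact hz (mem_ds.2 (by omega))
  · exact sup_du a3 (by linarith) _ a8 _ fun h => hz (mem_sub.1 h)
  · have b3 : (0 : ℝ) < ρ₁ := by exact_mod_cast b1
    refine dip_mono (dip_of_env b1 ((hE.up a3 (M := 4) (by norm_num) (ρ' := ρ) (by linarith)
      (by linarith)).down b3 (by exact_mod_cast b2))) b1 ?_
    norm_num only
    linarith
  · have := pair_dp_harm a3 he a6 (N := ρ) (by omega) (w := fun z => co j (z - -p)) fun z _ => by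
      rw [A0_shift, A0_co]
    rw [← sum_sub p] at this
    simp only [sub_neg_eq_add, sub_add_cancel] at this
    rw [← co_ev, show co j (ev i) = co j (0 + p) - co j (-ev i + p) by
      rw [eq_sub_iff_add_eq, ← co_add]; congr 1; abel]
    exact this
  · have c1 := ds_tri p z q
    have c2 := ds_tri z q p
    rw [ds_comm p z] at c1
    rw [ds_comm q p] at c2
    have c3 : fd p ρ i z = 0 := by_contra fun h => by have := (hf.1 z h).2; omega
    have c4 : (A0 (ud p ρ S i) - fd p ρ i) z = 0 := by_contra fun h => by have := (hg.1 z h).1; omega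
    rwa [Pi.sub_apply, c3, sub_zero] at c4
  · have c1 := ds_tri p z q
    rw [ds_comm p z] at c1
    have c2 : (r : ℝ) ≤ 2 * ds z p := by exact_mod_cast (by omega : r ≤ 2 * ds z p)
    have c3 : (0 : ℝ) < r := by exact_mod_cast (by omega : 0 < r)
    have c4 := ds_le_eu z p
    refine (hE.two le_rfl (ev_nn k) (ev_nn j) z).trans ?_
    calc _ ≤ (C1 + C1) / (r / 2) ^ (1 + 2) := by gcongr; linarith
      _ = 8 * (C1 + C1) / r ^ 3 := by field_simp; ring
      _ ≤ _ := by gcongr ?_ / _; linarith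
  · rw [pair_fd hρ (by omega) (by omega)]
    refine (hC3 _ (ev_nn j) _ he _).trans ?_
    have c1 := eu_add_le (-(p - q) - ev j) (ev j)
    rw [sub_add_cancel, eu_neg, eu_nn (ev_nn j)] at c1
    have c2 := ds_le_eu p q
    have c3 : (ds p q : ℝ) = r := by exact_mod_cast b2
    have c4 : (256 : ℝ) ≤ r := by exact_mod_cast (by omega : 256 ≤ r)
    calc _ ≤ C3 / (r / 2) ^ 2 := by gcongr; linarith
      _ = 4 * C3 / r ^ 2 := by field_simp; norm_num
      _ ≤ _ := by gcongr ?_ / _; nlinarith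
  · rw [pair_fd hρ (by omega) (by omega)]
    have c1 : -(p - q) - ev 1 = (q.1 - p.1, -1) := by ext <;> simp [ev, b1]
    have c2 : (ds p q : ℤ) = |q.1 - p.1| := by rw [ds, b1, ← Int.natCast_natAbs]; omega
    have c3 : (ds p q : ℝ) = |((q.1 - p.1 : ℤ) : ℝ)| := by exact_mod_cast c2
    have c4 := hC4 (q.1 - p.1) fun h => by rw [h, abs_zero] at c2; omega
    have c6 : (256 : ℝ) ≤ r := by exact_mod_cast (by omega : 256 ≤ r)
    rw [← sq_abs ((q.1 - p.1 : ℤ) : ℝ), ← c3, b2] at c4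
    rw [c1, show ev 1 = (0, 1) from rfl]
    set x := difs [(0, 1), (0, 1)] pk (q.1 - p.1, -1)
    have hpi := Real.pi_pos
    rw [show (r : ℝ) ^ 2 * x - 1 / (2 * Real.pi) = r ^ 2 * (x - 1 / (2 * Real.pi * (r : ℝ) ^ 2)) by
      field_simp, abs_mul, abs_of_nonneg (sq_nonneg (r : ℝ))]
    calc _ ≤ (r : ℝ) ^ 2 * (C4 / r ^ 3) := by gcongr
      _ = C4 / r := by field_simp
      _ ≤ _ := by
        gcongr
        have : 0 ≤ 34 * (4 ^ 3 * (C1 + C1)) := by positivity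
        nlinarith

end Crest.Agent.T145.Vx
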