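import Crest.Agent.T145.KrO_85

/-!
# Row 145: the slit vortex, the loop bound, removal of the inner twist (helper85)
-/

set_option autoImplicit false

namespace Crest.Agent.T145.Pot.V85

open Finset H59 Kw56 K85

/-! ## the vortex function -/









variable {q w b h : ℕ}





theorem edge_cases {e : Pt × Pt} (he : e.2 - e.1 ∈ nL.Jp) :
    (e.2.1 = e.1.1 + 1 ∧ e.2.2 = e.1.2) ∨ (e.2.1 = e.1.1 ∧ e.2.2 = e.1.2 + 1) := by
  simp only [nL_Jp, mem_insert, mem_singleton, Prod.ext_iff, Prod.fst_sub, Prod.snd_sub] at he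
  omega




/-! ## the loop bound -/

theorem loop {p q : ℕ} (hpq : p < q) (u : Pt → ℝ) (k : ℝ) {σ : Pt × Pt → ℝ}
    (hσ : ∀ e ∈ nL.edI (an 0 p q), σ e = if e.1.2 = -1 ∧ e.2.2 = 0 ∧ 0 < e.1.1 then 1 else 0) :
    (((q : ℝ) - p) * k) ^ 2 ≤
      128 * (2 * q + 1 : ℝ) ^ 2 * ∑ e ∈ nL.edI (an 0 p q), (u e.2 - u e.1 + σ e * k) ^ 2 := by
  obtain ⟨w, rfl⟩ := Nat.exists_eq_add_of_le hpq.le
  set n := 2 * (p + w) + 1 with hn
  set S := an 0 p (p + w) with hS
  set T := rc (-(p + w : ℕ), p + 1) n w with hT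
  set B := rc (-(p + w : ℕ), -(p + w : ℕ)) n w with hB
  set L := rc (-(p + w : ℕ), -(p + w : ℕ)) w n with hL
  set R := rc (p + 1, -(p + w : ℕ)) w n with hR
  set U : Pt → ℝ := fun x => u x + if 0 ≤ x.2 then k else 0 with hU
  set En := ∑ e ∈ nL.edI S, (u e.2 - u e.1 + σ e * k) ^ 2 with hEn
  have hE : 0 ≤ En := sum_nonneg fun _ _ => sq_nonneg _
  have hn' : (n : ℝ) = 2 * (p + w : ℕ) + 1 := by rw [hn]; push_cast; ring
  have hwn : (w : ℝ) ≤ n := by exact_mod_cast (by omega : w ≤ n)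
  rw [← hn']
  set P := 2 * (n : ℝ) ^ 2 * En with hP
  have key : ∀ (v : Pt → ℝ) (a : Pt) (n₁ n₂ : ℕ), (n₁ : ℝ) ≤ n → (n₂ : ℝ) ≤ n → rc a n₁ n₂ ⊆ S →
      (∀ e ∈ nL.edI (rc a n₁ n₂), v e.2 - v e.1 = u e.2 - u e.1 +
        (if e.1.2 = -1 ∧ e.2.2 = 0 ∧ 0 < e.1.1 then 1 else 0) * k) →
      ∑ x ∈ rc a n₁ n₂, (v x - av (rc a n₁ n₂) v) ^ 2 ≤ P := fun v a n₁ n₂ h1 h2 h3 h4 =>
    (poin_rc a n₁ n₂ v).trans (mul_le_mul (by
      have := pow_le_pow_left₀ n₁.cast_nonneg h1 2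
      have := pow_le_pow_left₀ n₂.cast_nonneg h2 2
      linarith) (by
        rw [eN, edF_self, sum_congr rfl fun e he => by rw [h4 e he, ← hσ e (Lat.edI_mono h3 he)]]
        exact sum_le_sum_of_subset_of_nonneg (Lat.edI_mono h3) fun _ _ _ => sq_nonneg _)
      (Po44.eN_nonneg _ _ _) (by positivity))
  have kT := key u _ _ _ le_rfl hwn (show T ⊆ S from fun x hx => by
    rw [hT, mem_rc] at hx; rw [hS, an, mem_sdiff, mem_bl, mem_bl]; push_cast at *; simp; omega)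
    fun e he => by
      rw [Lat.mem_edI, mem_rc, mem_rc] at he; rw [if_neg (by push_cast at *; omega)]; simp
  have kB := key u _ _ _ le_rfl hwn (show B ⊆ S from fun x hx => by
    rw [hB, mem_rc] at hx; rw [hS, an, mem_sdiff, mem_bl, mem_bl]; push_cast at *; simp; omega)
    fun e he => by
      rw [Lat.mem_edI, mem_rc, mem_rc] at he; rw [if_neg (by push_cast at *; omega)]; simp
  have kL := key u _ _ _ hwn le_rfl (show L ⊆ S from fun x hx => by
    rw [hL, mem_rc] at hx; rw [hS, an, mem_sdiff, mem_bl, mem_bl]; push_cast at *; simp; omega)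
    fun e he => by
      rw [Lat.mem_edI, mem_rc, mem_rc] at he; rw [if_neg (by push_cast at *; omega)]; simp
  have kR := key U _ _ _ hwn le_rfl (show R ⊆ S from fun x hx => by
    rw [hR, mem_rc] at hx; rw [hS, an, mem_sdiff, mem_bl, mem_bl]; push_cast at *; simp; omega)
    fun e he => by
      rw [Lat.mem_edI, mem_rc, mem_rc] at he
      have hc := edge_cases he.1
      simp only [hU]
      split_ifs <;> first | ring1 | (exfalso; push_cast at *; omega)
  rw [← hT] at kT; rw [← hB] at kB; rw [← hL] at kL; rw [← hR] at kR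
  have c1 := chain (X := T) (Y := L) (Q := rc (-(p + w : ℕ), p + 1) w w) (fun x hx => by
    rw [hT, mem_rc] at *; push_cast at *; omega) (fun x hx => by
    rw [hL, mem_rc] at *; push_cast at *; omega) kT kL
  have c2 := chain (X := B) (Y := L) (Q := rc (-(p + w : ℕ), -(p + w : ℕ)) w w)
    (fun x hx => by rw [hB, mem_rc] at *; push_cast at *; omega)
    (fun x hx => by rw [hL, mem_rc] at *; push_cast at *; omega) kB kL
  have c3 := chain (X := R) (Y := T) (Q := rc (p + 1, p + 1) w w) (c' := av T u + k) (fun x hx => by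
    rw [hR, mem_rc] at *; push_cast at *; omega) (fun x hx => by
    rw [hT, mem_rc] at *; push_cast at *; omega) kR ((sum_congr rfl fun x hx => by
      rw [hT, mem_rc] at hx; simp only [hU]; rw [if_pos (by push_cast at *; omega)]; ring).trans_le kT)
  have c4 := chain (X := R) (Y := B) (Q := rc (p + 1, -(p + w : ℕ)) w w) (c' := av B u) (fun x hx => by
    rw [hR, mem_rc] at *; push_cast at *; omega) (fun x hx => by
    rw [hB, mem_rc] at *; push_cast at *; omega) kR ((sum_congr rfl fun x hx => by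
      rw [hB, mem_rc] at hx; simp only [hU]; rw [if_neg (by push_cast at *; omega)]; ring).trans_le kB)
  rw [card_rc] at c1 c2 c3 c4
  push_cast at c1 c2 c3 c4 ⊢
  have c5 : k ^ 2 ≤ 4 * ((av T u - av L u) ^ 2 + (av B u - av L u) ^ 2 + (av R U - (av T u + k)) ^ 2 +
      (av R U - av B u) ^ 2) := by
    generalize av T u = a₁, av L u = a₂, av B u = a₃, av R U = a₄
    nlinarith [sq_nonneg ((a₂ - a₁) - (a₃ - a₂)), sq_nonneg ((a₂ - a₁) - (a₁ + k - a₄)),
      sq_nonneg ((a₂ - a₁) - (a₄ - a₃)), sq_nonneg ((a₃ - a₂) - (a₁ + k - a₄)),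
      sq_nonneg ((a₃ - a₂) - (a₄ - a₃)), sq_nonneg ((a₁ + k - a₄) - (a₄ - a₃))]
  have c6 := mul_le_mul_of_nonneg_left c5 (show (0 : ℝ) ≤ w * w by positivity)
  rw [add_sub_cancel_left]
  nlinarith

/-! ## removal of the inner twist -/

/-- the slit geometry outside `bl 0 q`: seam `s₁` on the columns `(0, a)`, no crossing edge on `[a, b)`,
`s₂ = 0` on the columns left of `b` -/
structure Sg (E : Finset (Pt × Pt)) (s₁ s₂ : Pt × Pt → ℝ) (q a b : ℕ) : Prop where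
  nn : ∀ e ∈ E, e.2 - e.1 ∈ nL.Jp
  s1 : ∀ e ∈ E, (q : ℤ) < ds 0 e.2 → s₁ e = if e.1.2 = -1 ∧ e.2.2 = 0 ∧ 0 < e.1.1 ∧ e.1.1 < a then 1 else 0
  slit : ∀ e ∈ E, e.1.2 = -1 → e.2.2 = 0 → e.1.1 < a ∨ (b : ℤ) ≤ e.1.1
  s2 : ∀ e ∈ E, e.1.1 < b → s₂ e = 0
  ab : a ≤ b

variable {E : Finset (Pt × Pt)} {s₁ s₂ : Pt × Pt → ℝ} {a : ℕ}






/-! ## the inner half -/

/-- the charge induced on `bl z r` by a function that vanishes there and is harmonic around it -/
theorem ind_eq {z : Pt} {r R : ℕ} (hr : r ≤ R) {ψ : Pt → ℝ} (h0 : ∀ x ∈ bl z r, ψ x = 0)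
    (h1 : ∀ x ∈ an z r R, lap ψ x = 0) (h2 : ∑ x ∈ bl z r, lap ψ x = 0) (u : Pt → ℝ) :
    ∑ x ∈ bl z r, u x * lap ψ x = Yb z r R u (Mh z R ψ) := by
  have hC := co_eD nL_ok (bl z R)
  have hK := bl_mono z hr
  have e1 : exo (bl z r) (bl z R) (eD nL (bl z R)) ψ = ψ :=
    (hC.sd _).hx_unique (fun x _ => by
      by_cases hx : x ∈ bl z r
      · rw [off_of_mem hx, h0 x hx]
      · rw [off_of_not hx]) ((hm_eD nL_ok sdiff_subset).2 h1)
  have e2 : ∀ u : Pt → ℝ, ∑ x ∈ bl z r, u x * lap ψ x =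
      cap (bl z r) (bl z R) (eD nL (bl z R)) * Hh z r R u * Hh z r R (Mh z R ψ) + Yb z r R u (Mh z R ψ) :=
    fun u => by
      rw [← cross hr, e1, hC.symm, ← ip_op _ _ _ (hC.ex_sup hK u), ip, ← sum_sdiff hK,
        sum_eq_zero (s := _ \ _) fun x hx => by
          rw [op_eD nL_ok (mem_sdiff.1 hx).1, show lapJ nL.J ψ x = 0 from h1 x hx, neg_zero, zero_mul],
        zero_add, ← sum_neg_distrib]
      exact sum_congr rfl fun x hx => by
        rw [op_eD nL_ok (hK hx), show lapJ nL.J ψ x = lap ψ x from rfl, hC.ex_on u hx]; ring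
  have e3 := e2 fun _ => 1
  have e4 := Yb_shift_left (z := z) hr (fun _ => 0) (Mh z R ψ) 1
  have e5 := Yb_smul_left (z := z) (r := r) (R := R) 0 0 (Mh z R ψ)
  simp only [one_mul, zero_add, zero_smul, zero_mul] at e3 e4 e5
  rw [h2, Hh_const hr, mul_one, e4, show (fun _ => 0 : Pt → ℝ) = 0 from rfl, e5, add_zero] at e3
  rw [e2, mul_right_comm, ← e3, zero_mul, zero_add]

end Crest.Agent.T145.Pot.V85
namespace Crest.Agent.T145.Pot.V85.Sg
end Crest.Agent.T145.Pot.V85.Sg
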