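import Crest.Agent.T145.KvDef_8
import Crest.Agent.T145.KrBar_90
import Crest.Agent.T145.KvV_85
import Crest.Agent.T145.KsT_68
import Crest.Agent.T145.CorB_59
import Crest.Agent.T145.VxBas_30
import Crest.Agent.T145.VxDef_35
import Crest.Agent.T145.FlRate_98
import Crest.Agent.T145.DfSemi_51
import Crest.Agent.T145.FlBare_80
import Crest.Agent.T145.FlBas_4
import Crest.Agent.T145.VxBc_27

-- ▼ part T145/KvBar_61
section

/-!
# Row 145, module Kv: the law of the data on the extended lattice, `BarStmt` (helper61)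
-/

set_option autoImplicit false

namespace Crest.Agent.T145.Kv

open Finset Real KrA Kr.B90

namespace B61

theorem resH_ins {U O : Finset Pt} {k : Pt} (h : U ⊆ O) (hk : k ∉ O) (s : Cfg Pt) (i : ℤ) :
    resH (insert k U) (s + cst O i) = resH (insert k U) s + cst U i := by
  ext x
  simp only [resH_apply, Finsupp.add_apply, cst_apply, mem_insert]
  by_cases h1 : x ∈ U
  · simp [h1, h h1]
  · by_cases h2 : x = k
    · subst h2; simp [h1, hk]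
    · simp [h1, h2]

theorem dH_cst {V : Gv} {W : ℝ} (h : V.Ok W) (hg : V.Geo) (s : Cfg Pt) (i : ℤ) :
    V.dH (s + cst V.G.Om i) = ((V.dH s).1 + cst V.G.In i, (V.dH s).2 + cst V.G.Ou i) :=
  Prod.ext (resH_ins (In_sub h.g) hg.k_off.1 s i) (resH_ins (Ou_sub h.g) hg.k_off.2.1 s i)

/-- the floating extended weight -/
theorem flt {Λ : Lat} {V : Gv} {W α : ℝ} {A B : Act (Cfg Pt)} (hV : V.Ok W) (hg : V.Geo) (ex : V.Ext Λ)
    (hI : V.IsI A α) (hO : V.IsO B α) :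
    Flt A B (V.rho Λ) V.dH (fun i => Equiv.addRight (cst V.G.Om i)) (Equiv.neg _) ∧
      Zs (fun s => tw (A.H (V.dH s).1) * V.rho Λ s) = V.Z Λ ∧
      ∀ (F : Cfg Pt → ℝ) (C : ℝ), (∀ s, |F s| ≤ C) → (∀ s i, F (s + cst V.G.Om i) = F s) →
        Ex (fun s => tw (A.H (V.dH s).1) * V.rho Λ s) F = V.EX Λ F := by
  have ds : ∀ i s, V.dH (s + cst V.G.Om i) = (A.s i (V.dH s).1, B.s i (V.dH s).2) := fun i s => by
    rw [hI.1, hO.1, dH_cst hV hg]
  obtain ⟨f1, f2, f3⟩ := ex.float (fun s => tw (A.H (V.dH s).1)) (fun _ => tw_nonneg _) fun s => by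
    simpa only [ds, A.H_s] using hasSum_tw (A.H (V.dH s).1)
  exact ⟨⟨ex.rsd.nonneg, f1, fun i s => ex.shift s i, ds, ex.rsd.even, fun s => by
    rw [hI.2.1, hO.2.1]; exact Prod.ext (map_neg (resH V.In) s) (map_neg (resH V.Ou) s)⟩, f2, f3⟩

end B61

open B61 in
theorem barStmt (hG : GeoStmt) (hA : AlgStmt) (hE : ExtStmt) : BarStmt := by
  intro Λ V W g α A B hΛ hJ hV hI hO
  have al := hA V W hV
  have ex := hE Λ V W hΛ hJ hV
  obtain ⟨h, f2, f3⟩ := flt hV (hG V W hV) ex hI hO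
  have ds : ∀ i s, V.dH (s + cst V.G.Om i) = (A.s i (V.dH s).1, B.s i (V.dH s).2) := h.ds
  exact ⟨h.pre f2 (fun i a b => by rw [hI.1, al.y_in]) (fun i a b => by rw [hO.1, al.y_out]) fun a b => by
    rw [hI.2.1, hO.2.1, (al.y_neg _ _).1, (al.y_neg _ _).2, neg_neg], ex.cen.wt.pos,
    fun Ψ C h1 h2 => (h.tsum f2 h1).trans (f3 _ C (fun _ => h1 _) fun s i => by rw [ds, h2]),
    fun Φ C h1 h2 h3 => (h.br f2 h1 h3).trans (f3 _ C (fun _ => h1 _ _) fun s i => by rw [ds, h2, h3])⟩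

end Crest.Agent.T145.Kv
end

-- ▼ part T145/KvZk_62
section

/-!
# Row 145, module Kv (helper62): the weight of the sector, `ZkStmt`
-/

set_option autoImplicit false

namespace Crest.Agent.T145.Kv

open Finset
open Kr (Gm cu)
open Vd (ray)

namespace Zk62

variable {V : Gv} {W : ℝ}

/-- a coset weighs at most the subgroup -/
theorem coset {L Q : Type} [AddCommGroup L] [AddCommGroup Q] [IsAddTorsionFree L] {ρ : L → ℝ}
    (h : Cen ρ) (φ : L →+ Q) (q : Q) : Pr ρ (fun s => φ s = q) ≤ Pr ρ fun s => φ s = 0 := by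
  have h1 := (Rsd63.rsd_comp h.toRSD (AddMonoidHom.fst L Q)).abs_ex_le
    (pd_ind (φ.comp (AddMonoidHom.fst L Q) - AddMonoidHom.snd L Q)) (q := q) (f := 0) h.wt
    (by rw [tilt_zero]; exact h.wt)
  rw [tilt_zero] at h1
  simp only [AddMonoidHom.sub_apply, AddMonoidHom.comp_apply, AddMonoidHom.coe_fst,
    AddMonoidHom.coe_snd, sub_eq_zero] at h1
  exact (le_abs_self _).trans h1

theorem eT_eq (ed : Finset (Pt × Pt)) (u : Pt → ℝ) :
    V.eT ed u u = ∑ e ∈ ed, (u e.2 - u e.1 + V.s1 e * u V.k1 + V.s2 e * u V.k2) ^ 2 := by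
  rw [Gv.eT, Pot.sqF_apply]
  exact sum_congr rfl fun e _ => by simp [Gv.Gk, Pot.dr, pow_two]

/-- the loop bound in an annulus that does not meet the slit -/
theorem loop {p q : ℕ} (hp : 1 ≤ p) (hpq : p < q) (h3 : 2 * q + 1 ≤ 6 * (q - p)) (hc : V.G.c ≤ p)
    (hq : q ≤ V.G.R₂) (u : Pt → ℝ) (k : ℝ)
    (h : ∀ e : Pt × Pt, e.1 ∈ Nc.an 0 p q → ray 0 e = V.s1 e + V.s2 e ∧
      V.s1 e * u V.k1 + V.s2 e * u V.k2 = ray 0 e * k) : k ^ 2 ≤ 5000 * V.eT V.EO u u := by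
  have h1 := Pot.V85.loop hpq u k (σ := fun e => ray 0 e) fun e he => by
    obtain ⟨a, b, -⟩ := Lat.mem_edI.1 he
    have c := Pot.V85.edge_cases a
    simp only [Pot.an, mem_sdiff, mem_bl, Prod.fst_zero, Prod.snd_zero] at b
    simp only [ray, Prod.fst_zero, Prod.snd_zero]
    split_ifs <;> first | omega | simp
  have h2 : ∑ e ∈ Pot.nL.edI (Pot.an 0 p q), (u e.2 - u e.1 + ray 0 e * k) ^ 2 ≤ V.eT V.EO u u := by
    rw [eT_eq]
    refine le_trans (le_of_eq (sum_congr rfl fun e he => ?_))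
      (sum_le_sum_of_subset_of_nonneg (s := Pot.nL.edI (Pot.an 0 p q)) (fun e he => mem_filter.2
        ⟨Lat.edI_mono (sdiff_subset_sdiff (bl_mono 0 hq) (bl_mono 0 hc)) he,
          (h e (Lat.mem_edI.1 he).2.1).1⟩) fun _ _ _ => sq_nonneg _)
    rw [add_assoc _ (_ * u V.k1), (h e (Lat.mem_edI.1 he).2.1).2]
  have h4 : (2 * q + 1 : ℝ) ≤ 6 * (q - p) := by
    have := (Nat.cast_le (α := ℝ)).2 h3
    push_cast [Nat.cast_sub hpq.le] at this
    exact this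
  have h5 : (0 : ℝ) < q - p := sub_pos.2 (by exact_mod_cast hpq)
  have h0 := (sum_nonneg fun e _ => sq_nonneg _).trans h2
  have h6 : (2 * q + 1 : ℝ) ^ 2 ≤ (6 * (q - p)) ^ 2 := by gcongr
  generalize V.eT V.EO u u = T at *
  refine le_of_mul_le_mul_left ?_ (pow_pos h5 2)
  calc _ = ((q - p : ℝ) * k) ^ 2 := by ring
    _ ≤ 128 * (6 * (q - p : ℝ)) ^ 2 * T := h1.trans (by gcongr)
    _ ≤ _ := by nlinarith [mul_nonneg (pow_pos h5 2).le h0]

theorem k1_le (h : V.Ok W) (g : V.Geo) (u : Pt → ℝ) : u V.k1 ^ 2 ≤ 5000 * V.eT V.EO u u := by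
  have := h.g.hc; have := h.g.hr; have := h.g.out; have := g.r_le; have := g.rho_le; have := g.ω_le
  refine loop (p := V.G.r / 2) (q := V.G.r) (by omega) (by omega) (by omega) (by omega) (by omega) u _
    fun e he => ?_
  simp only [Nc.an, mem_sdiff, mem_bl, Prod.fst_zero, Prod.snd_zero] at he
  simp only [Gv.s1, Gv.s2]
  rw [if_pos (by omega), if_neg (by omega)]
  simp

theorem k2_le (h : V.Ok W) (g : V.Geo) (u : Pt → ℝ) : u V.k2 ^ 2 ≤ 5000 * V.eT V.EO u u := by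
  have := h.g.hc; have := h.g.hr; have := h.g.out; have := g.r_le; have := g.rho_le; have := g.ω_le
  refine loop (p := V.G.R) (q := 2 * V.G.R) (by omega) (by omega) (by omega) (by omega) (by omega) u _
    fun e he => ?_
  simp only [Nc.an, mem_sdiff, mem_bl, Prod.fst_zero, Prod.snd_zero] at he
  simp only [Gv.s1, Gv.s2]
  by_cases k : 0 ≤ e.1.1 ∧ e.1.2 = -1
  · rw [if_neg (by omega), if_pos (by omega)]
    simp
  · have : ray 0 e = 0 := if_neg (by simp only [Prod.fst_zero, Prod.snd_zero]; omega)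
    simp [this]

/-- cutting the slit increases the weight of the twist -/
theorem cut {Λ : Lat} (hΛ : Λ.Ok) (hJ : Λ.J = nn) (h : V.Ok W) (g : V.Geo) (x : V.Ext Λ) :
    TV Λ V.G ≤ Vd.rat (V.sl Λ) (ray 0) := by
  have := h.g.hc; have := h.g.hr; have := h.g.out; have := g.r_le; have := g.rho_le
  have lt : V.G.c < V.G.R₂ := by omega
  have c : (fr Λ V.G).Ctr := Ks68.fr_ctr (hΛ.ctr_N _).1 _
  have a : (fr Λ V.G).Anch :=
    Ks68.fr_anch ((Nc.Geo.inL_N subset_rfl).cn (Nc.Geo.cnL_an hΛ 0 lt)) (Nc.Geo.an_nonempty 0 lt)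
  have hE : ∀ e ∈ V.EO, e ∈ Λ.edI V.G.Om := fun e he => by
    have := Lat.mem_edI.1 (mem_filter.1 he).1
    rw [Lat.mem_edI, Lat.Jp, hJ]
    exact this
  have d : ∀ i ∈ ({()} : Finset Unit), ∀ j ∈ ({()} : Finset Unit), i ≠ j → Disjoint V.G.Om V.G.Om :=
    fun _ _ _ _ k => absurd rfl k
  have k := Sl46.cut_proj c a x.sl.2 (prjH {()} (fun _ => V.G.Om) fun _ => V.rt)
    (fun e he => mem_filter.2 ⟨hE e he, (Lat.mem_edI.1 (hE e he)).2⟩) (fun _ _ => rfl) (fun _ _ _ => rfl)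
    (fun s _ => ⟨fun y hy => by
      by_cases k : y ∈ V.G.Om
      · obtain rfl : y = V.rt := by_contra fun k' => hy (mem_erase.2 ⟨k', k⟩)
        rw [prjH_apply, prj_of_mem _ d s (mem_singleton_self ()) k, sub_self]
      · rw [prjH_apply]; exact prj_of_notMem _ s fun _ _ => k, fun e he => by
      have := (Lat.mem_edI.1 (hE e he)).2
      simp only [dE, prjH_apply, prj_of_mem _ d s (mem_singleton_self ()) this.1,
        prj_of_mem _ d s (mem_singleton_self ()) this.2]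
      ring⟩) (ray 0) 0
  rw [AddMonoidHom.zero_comp, tilt_zero, tilt_zero] at k
  rw [TV, Vd.rat, Vd.rat, div_le_div_iff₀ (Md.ctr_wt c a 0).pos (Md.ctr_wt x.sl.1 x.sl.2 0).pos]
  exact k

end Zk62

open Zk62 in
theorem zkStmt (hG : GeoStmt) (hD : DualStmt) (hM : MomStmt) (hE : ExtStmt) : ZkStmt := fun F hJ => by
  obtain ⟨C, hC, hM⟩ := hM F 1 hJ
  obtain ⟨N, hN⟩ := exists_nat_ge (2 * C * 5000 * 2)
  refine ⟨1 / 2 / (2 * N + 1) ^ 2, by positivity, fun Λ hΛ V W h => ?_⟩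
  have g := hG V W h
  have x := hE Λ V W hΛ.ok (hΛ.1.trans hJ) h
  have c := cut hΛ.ok (hΛ.1.trans hJ) h g x
  have p : 0 < TV Λ V.G := Ks68.TT_pos hΛ.ok _ _
  refine ⟨?_, c, p, Ks68.TT_le_one hΛ.ok _ _⟩
  have w := x.cen.wt
  let k : Bool → Pt := fun b => if b then V.k1 else V.k2
  have f := fun b => (hD V V.EO 5000).1 (LinearMap.proj (k b))
  have m := (hM Λ hΛ V W h Bool univ _ 5000 (by norm_num) fun b _ => (f b).2 (by norm_num) fun u => by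
    cases b
    exacts [k2_le h g u, k1_le h g u]).2 (2 * C) (by positivity)
  simp only [fun b => (f b).1] at m
  simp only [Fintype.sum_bool, k, LinearMap.proj_apply, cu, card_univ, Fintype.card_bool,
    if_true, Bool.false_eq_true, if_false, pow_one] at m
  let φ : Cfg Pt →+ ℤ × ℤ := (Finsupp.applyAddHom V.k1).prod (Finsupp.applyAddHom V.k2)
  have m1 := w.pr_exists_le (Icc (-N : ℤ) N ×ˢ Icc (-N : ℤ) N) fun q s => φ s = q
  have m2 := sum_le_card_nsmul (Icc (-N : ℤ) N ×ˢ Icc (-N : ℤ) N) _ _ fun q _ => coset x.cen φ q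
  have m3 : Pr (V.rw Λ) (fun s => φ s = 0) = V.Pk Λ 0 := Pr_congr fun s _ => Prod.ext_iff
  have m4 := w.pr_mono (p := fun s => ¬ 2 * C * 5000 * (2 : ℕ) < (s V.k1 : ℝ) ^ 2 + (s V.k2 : ℝ) ^ 2)
    (q := fun s => ∃ q ∈ Icc (-N : ℤ) N ×ˢ Icc (-N : ℤ) N, φ s = q) fun s _ hs => by
      have hs : s V.k1 ^ 2 + s V.k2 ^ 2 ≤ N := by exact_mod_cast (not_lt.1 hs).trans hN
      refine ⟨_, mem_product.2 ⟨mem_Icc.2 ?_, mem_Icc.2 ?_⟩, rfl⟩
      · change -(N : ℤ) ≤ s V.k1 ∧ s V.k1 ≤ N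
        constructor <;> nlinarith [sq_nonneg (s V.k2), sq_nonneg (2 * s V.k1 + 1),
          sq_nonneg (2 * s V.k1 - 1), Int.le_self_sq (s V.k1), Int.le_self_sq (-s V.k1)]
      · change -(N : ℤ) ≤ s V.k2 ∧ s V.k2 ≤ N
        constructor <;> nlinarith [sq_nonneg (s V.k1), Int.le_self_sq (s V.k2), Int.le_self_sq (-s V.k2)]
  rw [w.pr_not] at m4
  rw [m3, card_product, Int.card_Icc, show ((N : ℤ) + 1 - -N).toNat = 2 * N + 1 by omega,
    nsmul_eq_mul] at m2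
  have m5 : 1 / 2 / (2 * N + 1 : ℝ) ^ 2 ≤ V.Pk Λ 0 := by
    rw [div_le_iff₀ (by positivity)]
    have : C / (2 * C) = 1 / 2 := by field_simp
    have m6 := m4.trans (m1.trans m2)
    push_cast at m6 m
    linarith
  rw [x.rat]
  exact mul_le_mul m5 c p.le ((by positivity : (0 : ℝ) ≤ _).trans m5)

end Crest.Agent.T145.Kv
end

-- ▼ part T145/VxCm_48
section

/-!
# Row 145 (helper48): the twisted mean of `J` (`Vx.CmStmt`)
-/

set_option autoImplicit false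

open Finset

noncomputable section

namespace Crest.Agent.T145.Vx

open Nc (Amb Nm St)

namespace M48

theorem ins_Jz (z : Pt) : Ins z 1 (Jz z) :=
  ⟨fun s s' k hs => by
    simp only [Jz]
    rw [hs z (self_mem_bl _ _), hs (z + (1, 0)) (by simp [B30.mem_bl_ds, ds]),
      hs (z + (-1, 0)) (by simp [B30.mem_bl_ds, ds]), hs (z + (0, 1)) (by simp [B30.mem_bl_ds, ds]),
      hs (z + (0, -1)) (by simp [B30.mem_bl_ds, ds])]
    push_cast
    ring,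
  (((((Tame.ev z).const_mul 4).sub (Tame.ev _)).sub (Tame.ev _)).sub (Tame.ev _)).sub (Tame.ev _)⟩

theorem ins_sin {ρ : ℕ} {ξ : Pt → ℝ} (h0 : Sup (bl 0 ρ) ξ) (h1 : ∑ x ∈ bl 0 ρ, ξ x = 1) (z : Pt) :
    Ins z ρ fun s => Real.sin (2 * Real.pi * pr (fun x => ξ (x - z)) s) := by
  have h2 : ∀ x, x ∉ bl z ρ → ξ (x - z) = 0 := fun x hx => h0 _ fun h => hx (by
    rw [B30.mem_bl_ds] at h ⊢
    rwa [B30.ds_sub] at h)
  have h3 : ∑ x ∈ bl z ρ, ξ (x - z) = 1 := by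
    rw [← h1]
    exact sum_equiv (Equiv.subRight z) (fun x => by
      simp only [B30.mem_bl_ds, Equiv.subRight_apply, B30.ds_sub]) fun _ _ => rfl
  refine ⟨fun s s' k hs => ?_, Tame.bdd fun _ => Real.abs_sin_le_one _⟩
  have h4 : ∑ x ∈ bl z ρ, ξ (x - z) * (s' x : ℝ) = ∑ x ∈ bl z ρ, ξ (x - z) * (s x : ℝ) + k := by
    rw [← one_mul (k : ℝ), ← h3, sum_mul, ← sum_add_distrib]
    exact sum_congr rfl fun x hx => by rw [hs x hx]; push_cast; ring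
  simp only [pr_of_fsupp _ _ h2]
  rw [h4, mul_add, mul_comm (2 * Real.pi) (k : ℝ), Real.sin_add_int_mul_two_pi]

theorem ins_shift {z : Pt} {r : ℕ} {G : Cfg Pt → ℝ} (h : Ins z r G) (g : Cfg Pt) :
    Ins z r fun s => G (s + g) :=
  ⟨fun s s' k hs => h.1 _ _ k fun x hx => by simp only [Finsupp.add_apply, hs x hx]; ring,
    h.2.shift g⟩

theorem Jv_gauge {b : ℝ} {σ : Pt × Pt → ℤ} {z : Pt} {c : ℕ} (hc : 1 ≤ c) {g : Cfg Pt}
    (hg : ∀ e ∈ (xyL b).edI (bl z c), σ e = dE e g) (s : Cfg Pt) : Jv σ z s = Jz z (s + g) := by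
  have hJ : (xyL b).Jp = {(1, 0), (0, 1)} := by
    change nn.filter posD = _
    decide
  have h : ∀ x y : Pt, y - x = (1, 0) ∨ y - x = (0, 1) → ds x z ≤ 1 → ds y z ≤ 1 →
      σ (x, y) = g y - g x := fun x y h1 h2 h3 => hg (x, y) (Lat.mem_edI.2
    ⟨by simpa [hJ] using h1, B30.mem_bl_ds.2 (h2.trans hc), B30.mem_bl_ds.2 (h3.trans hc)⟩)
  have e1 : z - (1, 0) = z + (-1, 0) := by ext <;> simp [sub_eq_add_neg]
  have e2 : z - (0, 1) = z + (0, -1) := by ext <;> simp [sub_eq_add_neg]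
  simp only [Jv, Jz, Fin.sum_univ_two, nE, dE, ev, Matrix.cons_val_zero, Matrix.cons_val_one, e1, e2,
    Finsupp.add_apply]
  rw [h (z + (-1, 0)) z (by simp) (by simp [ds]) (by simp [ds]),
    h z (z + (1, 0)) (by simp) (by simp [ds]) (by simp [ds]),
    h (z + (0, -1)) z (by simp) (by simp [ds]) (by simp [ds]),
    h z (z + (0, 1)) (by simp) (by simp [ds]) (by simp [ds])]
  push_cast
  ring

/-- the charged mean in a sector is bounded by the centred one -/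
theorem abs_ex_sin {m : Mdl Pt} (hc : m.Ctr) (ha : m.Anch) (σ : Pt × Pt → ℤ) (f : Cfg Pt →+ ℝ)
    (g : Cfg Pt) : |Ex (m.Ws 0 σ) fun s => Real.sin (2 * Real.pi * f (s + g))| ≤
      Ph (m.W 0) ((2 * Real.pi) • f) := by
  have h1 := RSD.abs_ex_cos_le (Md.ctr_rsd_seam hc) (fun q => Md.ctr_ses hc ha 0 q)
    ((hc.cen ha).pos0.trans_eq (congrFun (m.W_eq_Ws 0) 0)) (q := σ) (Md.ctr_wts hc ha 0 σ).pos 0
    ((2 * Real.pi) • f) (2 * Real.pi * f g - Real.pi / 2)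
  rw [tilt_zero] at h1
  rw [Mdl.W_eq_Ws]
  refine le_of_eq_of_le (congrArg _ (congrArg _ (funext fun s => ?_))) h1
  rw [← add_sub_assoc, Real.cos_sub_pi_div_two, map_add, mul_add]
  rfl

theorem num {δ : ℝ} (h0 : 0 < δ) (h1 : δ ≤ 1 / 4) {Q D ρ : ℝ} (hQ : 1 ≤ Q) (hD : Q ^ 2 < D)
    (hρ : D ≤ Q * ρ) : Real.log ρ ^ (-1 - δ) / ρ ^ 2 ≤ 4 * Q ^ 2 * (Real.log D ^ (-1 - δ) / D ^ 2) := by
  have D1 : 1 < D := by nlinarith
  have ρ0 : 0 < ρ := by nlinarith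
  have hL := Real.log_pos D1
  have h2 : Real.log D / 2 ≤ Real.log ρ := by
    have h3 := Real.log_le_log (by positivity) hD.le
    have h4 := Real.log_le_log (by positivity) hρ
    rw [Real.log_pow] at h3
    rw [Real.log_mul (by positivity) ρ0.ne'] at h4
    push_cast at h3
    linarith
  have h3 : Real.log ρ ^ (-1 - δ) ≤ 4 * Real.log D ^ (-1 - δ) := by
    refine (Real.rpow_le_rpow_of_nonpos (by positivity) h2 (by linarith)).trans ?_
    rw [Real.div_rpow hL.le zero_le_two, div_eq_mul_inv, mul_comm, ← Real.rpow_neg zero_le_two]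
    refine mul_le_mul_of_nonneg_right ?_ (by positivity)
    exact (Real.rpow_le_rpow_of_exponent_le one_le_two (show _ ≤ (2 : ℝ) by linarith)).trans_eq
      (by norm_num)
  have h4 : 1 / ρ ^ 2 ≤ Q ^ 2 / D ^ 2 := by
    rw [div_le_div_iff₀ (by positivity) (by positivity), one_mul, ← mul_pow]
    gcongr
  calc _ = Real.log ρ ^ (-1 - δ) * (1 / ρ ^ 2) := by ring
    _ ≤ 4 * Real.log D ^ (-1 - δ) * (Q ^ 2 / D ^ 2) := by gcongr
    _ = _ := by ring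

end M48

open M48 B30

theorem cmStmt (hT : TrStmt) (hG : GgStmt) (hC : CovStmt) : CmStmt := fun P hP Λc => by
  obtain ⟨C, hC⟩ := hC P hP 1
  set Q : ℕ := 8 * ((Λc + 1) * P.W₀) with hQ
  have W4 := hP.W2
  have r16 := hP.r2
  have Q1 : 4 * P.W₀ ≤ Q := by nlinarith
  refine ⟨(|C| + 1) * P.K * (4 * (2 * Q) ^ 2), Q * P.r₀ + (2 * Q) ^ 2 + 1, fun V D hD => ?_⟩
  set ρ := D / Q with hρ
  have ρ0 : P.r₀ ≤ ρ := (Nat.le_div_iff_mul_le (by omega)).2 (by nlinarith)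
  have ρ1 : Q * ρ ≤ D := Nat.mul_div_le D Q
  have ρ2 : D ≤ 2 * Q * ρ := by
    have := Nat.lt_mul_div_succ D (show 0 < Q by omega)
    nlinarith
  obtain ⟨a, ξ, R, ξ0, ξ1, h3⟩ := hP.f3 ρ ρ0
  refine ⟨5 * V.r + R + P.W₀ * ρ, fun m z hr hm hz hd => ?_⟩
  have d8 : 8 * (P.W₀ * ρ) ≤ V.d z := by
    refine Nat.le_of_mul_le_mul_left ?_ (Nat.succ_pos Λc)
    calc _ = Q * ρ := by rw [hQ]; simp only [Nat.succ_eq_add_one]; ring
      _ ≤ Λc * V.d z := ρ1.trans hd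
      _ ≤ _ := Nat.mul_le_mul_right _ (Nat.le_succ _)
  have c1 := succ_le hP (show 1 ≤ ρ by omega)
  have r4 : 4 * (P.W₀ * P.r₀) ≤ V.r := by nlinarith
  obtain ⟨g, g1, -, g2⟩ := hG P.b V z (P.W₀ * ρ) (b_pos hP) (by omega)
  obtain ⟨n1, n2⟩ := h3 z
  have iS := ins_le (ins_sin ξ0 ξ1 z) (Nat.le_succ ρ)
  have iG := ins_sub (ins_le (ins_Jz z) (show 1 ≤ ρ + 1 by omega)) (ins_smul iS a)
  set G := fun s => Jz z s - a * Real.sin (2 * Real.pi * pr (fun x => ξ (x - z)) s) with hGd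
  have iG' := ins_shift iG g
  have iT := ins_tr hP hT iG' V.σ
  have am : ∀ c, c ≤ R + P.W₀ * ρ → Amb P.L m (bl z c) := fun c hc => amb_mono hm (bl_sub (by omega))
  have e1 : P.L.tr V.σ z ρ (fun s => G (s + g)) = fun s => St P.L z ρ G (s + g) :=
    (g2 _ le_rfl G).2 ρ c1 iG
  have e2 : St P.L z ρ G = P.L.tr 0 z ρ G := funext fun s => by rw [St, Mdl.W_eq_Ws]; rfl
  have e3 : P.N V z ρ (P.L.tr V.σ z ρ fun s => G (s + g)) = Nm P.L z (P.W₀ * ρ) (St P.L z ρ G) := by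
    rw [e1]
    exact (g2 _ le_rfl fun s => |St P.L z ρ G s|).1 (ins_abs (ins_le (e2 ▸ ins_tr hP hT iG 0) c1))
  have b1 := ((hC V m P.r₀ P.r₀ _ _ le_rfl r4 le_rfl r4 (amb_mono hm (bl_mono _ (by omega)))
    (ins_const _ _ 0) (ins_const _ _ 0)).2.2 z ρ _ ρ0 (by omega) (am _ (by omega)) iT).1
  have N0 := N_nonneg hP V z ρ (P.L.tr V.σ z ρ fun s => G (s + g))
  have b2 : |Ex (m.Ws 0 V.σ) fun s => G (s + g)| ≤
      |C| * (P.K * Real.log ρ ^ (-1 - P.δ) / (ρ : ℝ) ^ 2) := by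
    rw [← ex_tr hP hT iG' V.σ (am ρ (by omega))]
    refine ((abs_Ex_le (amb_wt hm _).nonneg (amb_ig hm _ iT.2)).trans b1).trans ?_
    exact mul_le_mul (le_abs_self C) (e3.trans_le (n1 _ le_rfl)) N0 (abs_nonneg C)
  have b3 := (mul_le_mul_of_nonneg_left (abs_ex_sin hm.ctr hm.anch V.σ (pr fun x => ξ (x - z)) g)
    (abs_nonneg a)).trans (n2 m (am R (by omega)))
  have e4 : Jv V.σ z = fun s => G (s + g) +
      a * Real.sin (2 * Real.pi * pr (fun x => ξ (x - z)) (s + g)) := funext fun s => by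
    rw [Jv_gauge (by omega) g1, hGd, sub_add_cancel]
  rw [e4, Ex_add (amb_ig hm _ iG'.2) (amb_ig hm _ (ins_shift (ins_smul iS a) g).2), Ex_const_mul]
  rw [← abs_mul] at b3
  have b4 := num hP.δ0 hP.δ1 (Q := 2 * Q) (D := D) (ρ := ρ) (by exact_mod_cast (by omega : 1 ≤ 2 * Q))
    (by exact_mod_cast (by omega : (2 * Q) ^ 2 < D)) (by exact_mod_cast ρ2)
  have K0 : 0 ≤ (|C| + 1) * P.K := mul_nonneg (by positivity) (zero_le_one.trans hP.K1)
  calc _ ≤ _ := abs_add_le _ _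
    _ ≤ _ := add_le_add b2 b3
    _ = (|C| + 1) * P.K * (Real.log ρ ^ (-1 - P.δ) / (ρ : ℝ) ^ 2) := by ring
    _ ≤ _ := mul_le_mul_of_nonneg_left b4 K0
    _ = _ := by ring

end Crest.Agent.T145.Vx
end
end

-- ▼ part T145/VxCov_30
section

/-!
# Row 145, twisted module: covariances and means of cells (helper30)
-/

set_option autoImplicit false

namespace Crest.Agent.T145.Vx

open Finset B30
open Nc (an Amb)

namespace Cov30

/-- a core scale adapted to two distances -/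
theorem pick {W r₀ r Λc a b : ℕ} (hW : 1 ≤ W) (h0 : 1 ≤ r₀) (hr : 4 * (W * r₀) ≤ r)
    (ha : 4 * (W * r₀) ≤ a) (hb : 4 * (W * r₀) ≤ b) (hab : min a r ≤ Λc * min b r)
    (hba : min b r ≤ Λc * min a r) {Λ' : ℕ} (hΛ : (Λc + 1) * (4 * W) ≤ Λ') :
    ∃ ρ, r₀ ≤ ρ ∧ 4 * (W * ρ) ≤ r ∧ (2 * (W * ρ) ≤ a ∧ (r ≤ 2 * a ∨ a ≤ Λ' * ρ)) ∧
      2 * (W * ρ) ≤ b ∧ (r ≤ 2 * b ∨ b ≤ Λ' * ρ) := by
  set M := min (min a b) (r / 2) with hM
  have h2W : 0 < 2 * W := by omega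
  have e1 : 2 * (W * (M / (2 * W))) ≤ M := by
    rw [← mul_assoc]; exact Nat.mul_div_le M (2 * W)
  have e0 : r₀ ≤ M / (2 * W) := (Nat.le_div_iff_mul_le h2W).2 (by
    rw [mul_comm, mul_assoc]; omega)
  have e2 : M < 2 * W * (M / (2 * W) + 1) := Nat.lt_mul_div_succ M h2W
  set ρ := M / (2 * W)
  have e3 : M ≤ 4 * W * ρ := by nlinarith
  have e4 : (Λc + 1) * M ≤ Λ' * ρ :=
    (Nat.mul_le_mul_left _ e3).trans (by rw [← mul_assoc]; exact Nat.mul_le_mul_right _ hΛ)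
  have key : ∀ x y : ℕ, M = min (min x y) (r / 2) → min x r ≤ Λc * min y r → r ≤ 2 * x ∨ x ≤ Λ' * ρ := by
    intro x y h1 h2
    by_cases hx : r ≤ 2 * x
    · exact Or.inl hx
    right
    refine le_trans ?_ e4
    rw [add_mul, one_mul]
    by_cases hy : x ≤ y
    · omega
    · rw [min_eq_left (by omega), min_eq_left (by omega)] at h2
      rw [show M = y by omega]; omega
  exact ⟨ρ, e0, by omega, ⟨by omega, key a b hM hab⟩, by omega, key b a (by omega) hba⟩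

end Cov30

open Cov30

theorem covStmt (hT : TrStmt) (hD : DomStmt) : CovStmt := fun P hP Λc => by
  obtain ⟨C₀, hC⟩ := hD P hP ((max Λc 1 + 1) * (4 * P.W₀))
  have hW := hP.W2
  have hr₀ := hP.r2
  obtain ⟨C, C0, CC⟩ : ∃ C : ℝ, 0 ≤ C ∧ C₀ ≤ C := ⟨max C₀ 0, le_max_right _ _, le_max_left _ _⟩
  -- domination with a nonnegative constant
  have dom : ∀ (V : Vp) (m : Mdl Pt) (ρp ρq : ℕ) (I : Finset (Fin 2)) (z : Fin 2 → Pt) (ρ : Fin 2 → ℕ)
      (F F' : Cfg Pt → ℝ) (G : Fin 2 → Cfg Pt → ℝ),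
      Adm P ((max Λc 1 + 1) * (4 * P.W₀)) V ρp ρq I z ρ → Amb P.L m (bl V.p (4 * V.r)) →
      (∀ i ∈ I, Amb P.L m (bl (z i) (P.W₀ * ρ i)) ∧ Ins (z i) (ρ i + 1) (G i)) →
      Ins V.p (ρp + 1) F → Ins V.q (ρq + 1) F' →
      Ex (m.Ws 0 V.σ) (fun s => |F s * F' s * ∏ i ∈ I, G i s|) ≤
        C * P.N V V.p ρp F * P.N V V.q ρq F' * ∏ i ∈ I, P.N V (z i) (ρ i) (G i) := by
    intro V m ρp ρq I z ρ F F' G h1 h2 h3 h4 h5
    refine (hC V m ρp ρq I z ρ F F' G h1 h2 h3 h4 h5).trans ?_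
    have a := N_nonneg hP V V.p ρp F
    have b := N_nonneg hP V V.q ρq F'
    have c : 0 ≤ ∏ i ∈ I, P.N V (z i) (ρ i) (G i) := prod_nonneg fun i _ => N_nonneg hP _ _ _ _
    exact mul_le_mul_of_nonneg_right (mul_le_mul_of_nonneg_right
      (mul_le_mul_of_nonneg_right CC a) b) c
  refine ⟨2 * C + C * C, fun V m ρp ρq F F' p0 p1 q0 q1 hm hF hF' => ?_⟩
  have hw := amb_wt hm V.σ
  have hs := amb_se hm V.σ
  have l1 := four_le (ρ := ρp) hP
  have l2 := four_le (ρ := ρq) hP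
  have l0 : P.W₀ * P.r₀ ≤ P.W₀ * ρp := Nat.mul_le_mul_left _ p0
  have hpq := ds_pq V
  have hmp : Amb P.L m (bl V.p ρp) := amb_mono hm (bl_mono _ (by omega))
  have hmq : Amb P.L m (bl V.q ρq) := amb_mono hm (bl_sub (by rw [ds_qp]; omega))
  obtain ⟨A, hA⟩ : ∃ A : Cfg Pt → ℝ,
    A = fun s => P.L.tr V.σ V.p ρp F s - P.L.exN V.σ V.p (P.W₀ * ρp) F := ⟨_, rfl⟩
  obtain ⟨B, hB⟩ : ∃ B : Cfg Pt → ℝ,
    B = fun s => P.L.tr V.σ V.q ρq F' s - P.L.exN V.σ V.q (P.W₀ * ρq) F' := ⟨_, rfl⟩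
  have iA : Ins V.p (ρp + 1) A := hA ▸ ins_sub_const (ins_tr hP hT hF _) _
  have iB : Ins V.q (ρq + 1) B := hB ▸ ins_sub_const (ins_tr hP hT hF' _) _
  have nA : P.N V V.p ρp A = P.ν V ρp F := by rw [hA, ν_eq]
  have nB : P.N V V.q ρq B = P.ν V.sw ρq F' := by rw [hB, ν_sw_eq]
  have νA := ν_nonneg hP V ρp F
  have νB := ν_nonneg hP V.sw ρq F'
  have adm0 : Adm P ((max Λc 1 + 1) * (4 * P.W₀)) V ρp ρq ∅ 0 0 :=
    ⟨p0, p1, q0, q1, by simp, by simp, by simp, by simp⟩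
  have dAB := dom V m ρp ρq ∅ 0 0 A B 0 adm0 hm (by simp) iA iB
  have dA := dom V m ρp ρq ∅ 0 0 A (fun _ => 1) 0 adm0 hm (by simp) iA (ins_const _ _ 1)
  have dB := dom V m ρp ρq ∅ 0 0 (fun _ => 1) B 0 adm0 hm (by simp) (ins_const _ _ 1) iB
  simp only [prod_empty, mul_one, one_mul, N_one hP, nA, nB] at dAB dA dB
  have eA : 0 ≤ Ex (m.Ws 0 V.σ) fun s => |A s| := Ex_nonneg hw.nonneg fun _ _ => abs_nonneg _
  refine ⟨?_, ?_, fun z ρ G z0 z1 hz hG => ?_⟩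
  · have e : (fun s => |P.L.tr V.σ V.p ρp F s - Ex (m.Ws 0 V.σ) F|) =
        fun s => |A s - Ex (m.Ws 0 V.σ) A| := by
      funext s
      rw [hA, hw.ex_sub_const (hs.ig (tame_tr hP hT hF _)), ex_tr hP hT hF _ hmp]
      simp only [sub_sub_sub_cancel_right]
    rw [e]
    have h1 := abs_Ex_le hw.nonneg (hs.ig iA.2)
    have h2 : Ex (m.Ws 0 V.σ) (fun s => |A s - Ex (m.Ws 0 V.σ) A|) ≤
        Ex (m.Ws 0 V.σ) fun s => |A s| + |Ex (m.Ws 0 V.σ) A| :=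
      Ex_mono hw.nonneg (hs.ig (iA.2.sub (Tame.const _)).abs) (hs.ig (iA.2.abs.add (Tame.const _)))
        fun s => abs_sub _ _
    rw [hw.ex_add_const (hs.ig iA.2.abs)] at h2
    nlinarith only [h1, h2, dA, νA, mul_nonneg (mul_nonneg C0 C0) νA]
  · have o1 : Out (bl V.p ρp) F' := ins_out hF' (by rw [ds_qp]; omega)
    have o2 : Out (bl V.q ρq) (P.L.tr V.σ V.p ρp F) := ins_out (ins_tr hP hT hF _) (by omega)
    rw [← cv_tr hP hT hF _ o1 hF'.2 hmp, Cv_comm, ← cv_tr hP hT hF' _ o2 (tame_tr hP hT hF _) hmq,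
      Cv_comm, ← cv_sub_const hw hs (tame_tr hP hT hF _) (tame_tr hP hT hF' _)
        (P.L.exN V.σ V.p (P.W₀ * ρp) F) (P.L.exN V.σ V.q (P.W₀ * ρq) F'), ← hA, ← hB]
    refine (abs_cv_le hw hs iA.2 iB.2).trans ?_
    have h1 := mul_le_mul dA dB (Ex_nonneg hw.nonneg fun _ _ => abs_nonneg _) (mul_nonneg C0 νA)
    nlinarith only [h1, dAB, mul_nonneg (mul_nonneg C0 νA) νB]
  have l3 : P.W₀ * P.r₀ ≤ P.W₀ * ρ := Nat.mul_le_mul_left _ z0
  have l4 := four_le (ρ := ρ) hP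
  have zp := d_le_p V z
  have zq := d_le_q V z
  have one : ∀ a : ℕ, min a V.r ≤ max Λc 1 * min a V.r := fun a =>
    Nat.le_mul_of_pos_left _ (by omega)
  have nG := N_nonneg hP V z ρ G
  obtain ⟨σp, s0, s1, s2, -⟩ := pick (W := P.W₀) (r₀ := P.r₀) (r := V.r) (a := ds z V.p) (b := ds z V.p) (by omega)
    (by omega) (by omega) (by omega) (by omega) (one _) (one _) le_rfl
  obtain ⟨σq, t0, t1, t2, -⟩ := pick (W := P.W₀) (r₀ := P.r₀) (r := V.r) (a := ds z V.q) (b := ds z V.q) (by omega)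
    (by omega) (by omega) (by omega) (by omega) (one _) (one _) le_rfl
  have dG := dom V m σp σq {0} (fun _ => z) (fun _ => ρ) (fun _ => 1) (fun _ => 1) (fun _ => G)
    ⟨s0, s1, t0, t1, fun _ _ => ⟨z0, z1⟩, fun _ _ => s2, fun _ _ => t2, by simp⟩ hm
    (fun _ _ => ⟨hz, hG⟩) (ins_const _ _ 1) (ins_const _ _ 1)
  simp only [prod_singleton, mul_one, one_mul, N_one hP] at dG
  refine ⟨by nlinarith only [dG, mul_nonneg C0 nG, mul_nonneg (mul_nonneg C0 C0) nG],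
    fun h1 h2 => ?_, fun w ρ' G' w0 w1 hw' hG' hzw hc => ?_⟩
  · have h3 : Λc * ρp ≤ (max Λc 1 + 1) * (4 * P.W₀) * ρp := Nat.mul_le_mul_right _
      (le_trans (by omega) (Nat.le_mul_of_pos_right _ (by omega)))
    have dAG := dom V m ρp σq {0} (fun _ => z) (fun _ => ρ) A (fun _ => 1) (fun _ => G)
      ⟨p0, p1, t0, t1, fun _ _ => ⟨z0, z1⟩, fun _ _ => ⟨h1, h2.imp_right fun h => h.trans h3⟩,
        fun _ _ => t2, by simp⟩ hm (fun _ _ => ⟨hz, hG⟩) iA (ins_const _ _ 1)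
    simp only [prod_singleton, mul_one, N_one hP, nA] at dAG
    have o1 : Out (bl V.p ρp) G := ins_out hG (by omega)
    rw [← cv_tr hP hT hF _ o1 hG.2 hmp, ← cv_sub_const hw hs (tame_tr hP hT hF _) hG.2
      (P.L.exN V.σ V.p (P.W₀ * ρp) F) 0, ← hA]
    simp only [sub_zero]
    refine (abs_cv_le hw hs iA.2 hG.2).trans ?_
    have h4 := mul_le_mul dA dG (Ex_nonneg hw.nonneg fun _ _ => abs_nonneg _) (mul_nonneg C0 νA)
    nlinarith only [h4, dAG, mul_nonneg (mul_nonneg C0 νA) nG]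
  · have l5 : P.W₀ * P.r₀ ≤ P.W₀ * ρ' := Nat.mul_le_mul_left _ w0
    have wp := d_le_p V w
    have wq := d_le_q V w
    have up : ∀ a b : ℕ, a ≤ Λc * b → a ≤ max Λc 1 * b := fun a b h =>
      h.trans (Nat.mul_le_mul_right _ (le_max_left _ _))
    obtain ⟨τp, a0, a1, a2, a3⟩ := pick (W := P.W₀) (r₀ := P.r₀) (r := V.r) (a := ds z V.p) (b := ds w V.p)
      (by omega) (by omega) (by omega) (by omega) (by omega) (up _ _ (hc _ (Or.inl rfl)).1)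
      (up _ _ (hc _ (Or.inl rfl)).2) le_rfl
    obtain ⟨τq, b0, b1, b2, b3⟩ := pick (W := P.W₀) (r₀ := P.r₀) (r := V.r) (a := ds z V.q) (b := ds w V.q)
      (by omega) (by omega) (by omega) (by omega) (by omega) (up _ _ (hc _ (Or.inr rfl)).1)
      (up _ _ (hc _ (Or.inr rfl)).2) le_rfl
    have dGG := dom V m τp τq univ ![z, w] ![ρ, ρ'] (fun _ => 1) (fun _ => 1) ![G, G']
      ⟨a0, a1, b0, b1, fun i _ => by fin_cases i; exacts [⟨z0, z1⟩, ⟨w0, w1⟩],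
        fun i _ => by fin_cases i; exacts [a2, a3], fun i _ => by fin_cases i; exacts [b2, b3],
        fun i _ j _ hij => by
          fin_cases i <;> fin_cases j
          · exact absurd rfl hij
          · exact hzw
          · rw [add_comm, ds_comm]; exact hzw
          · exact absurd rfl hij⟩ hm
      (fun i _ => by fin_cases i; exacts [⟨hz, hG⟩, ⟨hw', hG'⟩]) (ins_const _ _ 1) (ins_const _ _ 1)
    simp only [Fin.prod_univ_two, Matrix.cons_val_zero, Matrix.cons_val_one, mul_one, one_mul,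
      N_one hP] at dGG
    have nG' := N_nonneg hP V w ρ' G'
    nlinarith only [dGG, mul_nonneg (mul_nonneg C0 nG) nG', mul_nonneg (mul_nonneg (mul_nonneg C0 C0) nG) nG']

end Crest.Agent.T145.Vx
end

-- ▼ part T145/VxJf_41
section

/-!
# Row 145, twisted module: the two-point function of `J` (`JfarStmt`, `JnearStmt`) (helper41)
-/

set_option autoImplicit false

namespace Crest.Agent.T145.Vx

open Finset Filter Topology
open Nc (an Amb Nm St Gd)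

namespace J41

/-! ## geometry -/

theorem ds_comm (x y : Pt) : ds x y = ds y x := by simp only [ds]; omega

theorem ds_tri (x y z : Pt) : ds x z ≤ ds x y + ds y z := by simp only [ds]; omega

theorem ds_pos {x y : Pt} (h : x ≠ y) : 1 ≤ ds x y := by
  by_contra h1
  refine h (Prod.ext ?_ ?_) <;> (simp only [ds] at h1; omega)

theorem bl_sub {x y : Pt} {k n : ℕ} (h : ds x y + k ≤ n) : bl x k ⊆ bl y n := fun v hv => by
  rw [mem_bl] at hv ⊢; simp only [ds] at h; omega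

theorem disj {x y : Pt} {a b : ℕ} (h : a + b < ds x y) : Disjoint (bl x a) (bl y b) :=
  disjoint_left.2 fun v h1 h2 => by rw [mem_bl] at h1 h2; simp only [ds] at h; omega

theorem sw_q (V : Vp) : V.sw.q = V.p := by
  simp [Vp.q, Vp.sw, Vp.p]

theorem sw_d (V : Vp) (z : Pt) : V.sw.d z = V.d z := by
  rw [Vp.d, Vp.d, sw_q, min_comm]; rfl

theorem sw_nb (V : Vp) (z : Pt) (l : ℕ) : nb V.sw z l = nb V z l := by
  rw [nb, nb, sw_d]; rfl

theorem ds_pq (V : Vp) : ds V.p V.q = V.r := by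
  obtain ⟨a, r, sd⟩ := V
  cases sd <;> simp [Vp.q, Vp.sw, Vp.p, ds]

theorem d_lip (V : Vp) (z w : Pt) : V.d z ≤ V.d w + ds z w := by
  have h1 := ds_tri z w V.p
  have h2 := ds_tri z w V.q
  simp only [Vp.d]; omega

theorem amb {Λ : Lat} {m : Mdl Pt} {x y : Pt} {k n : ℕ} (hm : Amb Λ m (bl y n)) (h : ds x y + k ≤ n) :
    Amb Λ m (bl x k) := FlF4.amb_mono hm (bl_sub h)

/-! ## the majorant `nb` -/

theorem nb_pos (V : Vp) (z : Pt) (l : ℕ) : 0 < nb V z l := by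
  unfold nb
  split_ifs with h
  · positivity
  · have : (0 : ℝ) < ((min l V.r : ℕ) : ℝ) := by exact_mod_cast (by omega : 0 < min l V.r)
    positivity

theorem two_pow {a b X : ℝ} (ha : 0 < a) (hb : 0 < b) (h1 : a ≤ X) (h2 : b ≤ X) :
    1 / X ^ 2 ≤ a ^ (-(21 / 20 : ℝ)) * b ^ (-(19 / 20 : ℝ)) := by
  have hX : 0 < X := ha.trans_le h1
  have e : 1 / X ^ 2 = X ^ (-(21 / 20 : ℝ)) * X ^ (-(19 / 20 : ℝ)) := by
    rw [← Real.rpow_add hX, show (-(21 / 20 : ℝ) + -(19 / 20)) = -((2 : ℕ) : ℝ) by norm_num,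
      Real.rpow_neg hX.le, Real.rpow_natCast, one_div]
  rw [e]
  exact mul_le_mul (Real.rpow_le_rpow_of_nonpos ha h1 (by norm_num))
    (Real.rpow_le_rpow_of_nonpos hb h2 (by norm_num)) (by positivity) (by positivity)

theorem two_pow' {a b X : ℝ} (hX : 0 < X) (h1 : X ≤ a) (h2 : X ≤ b) :
    a ^ (-(21 / 20 : ℝ)) * b ^ (-(19 / 20 : ℝ)) ≤ 1 / X ^ 2 := by
  have e : 1 / X ^ 2 = X ^ (-(21 / 20 : ℝ)) * X ^ (-(19 / 20 : ℝ)) := by
    rw [← Real.rpow_add hX, show (-(21 / 20 : ℝ) + -(19 / 20)) = -((2 : ℕ) : ℝ) by norm_num,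
      Real.rpow_neg hX.le, Real.rpow_natCast, one_div]
  have hb : 0 < b := hX.trans_le h2
  rw [e]
  exact mul_le_mul (Real.rpow_le_rpow_of_nonpos hX h1 (by norm_num))
    (Real.rpow_le_rpow_of_nonpos hX h2 (by norm_num)) (by positivity) (by positivity)

theorem nb_ge (V : Vp) (z : Pt) {l X : ℕ} (h1 : 1 + min (V.d z) l ≤ X)
    (h2 : V.d z < min l V.r → min l V.r ≤ X) : 1 / (X : ℝ) ^ 2 ≤ nb V z l := by
  unfold nb
  split_ifs with h
  · have : (1 + (min (V.d z) l : ℕ) : ℝ) ≤ X := by exact_mod_cast h1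
    exact one_div_le_one_div_of_le (by positivity) (pow_le_pow_left₀ (by positivity) this 2)
  · refine two_pow (by positivity) ?_ ?_ ?_
    · exact_mod_cast (by omega : 0 < min l V.r)
    · exact_mod_cast (by omega : 1 + V.d z ≤ X)
    · exact_mod_cast h2 (by omega)

theorem rp_le {a b K : ℝ} (hb : 0 < b) (hK : 1 ≤ K) (h : b ≤ K * a) :
    a ^ (-(19 / 20 : ℝ)) ≤ K * b ^ (-(19 / 20 : ℝ)) := by
  have hK0 : 0 < K := one_pos.trans_le hK
  have h1 : a ^ (-(19 / 20 : ℝ)) ≤ (b / K) ^ (-(19 / 20 : ℝ)) :=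
    Real.rpow_le_rpow_of_nonpos (by positivity) (by rw [div_le_iff₀ hK0]; linarith) (by norm_num)
  refine h1.trans ?_
  rw [Real.div_rpow hb.le hK0.le, Real.rpow_neg hK0.le, div_inv_eq_mul, mul_comm]
  refine mul_le_mul_of_nonneg_right ?_ (by positivity)
  calc K ^ (19 / 20 : ℝ) ≤ K ^ (1 : ℝ) := Real.rpow_le_rpow_of_exponent_le hK (by norm_num)
    _ = K := Real.rpow_one K

theorem nb_le (V : Vp) (z : Pt) {l₁ l₂ : ℕ} (h : l₂ ≤ 2 * l₁) : nb V z l₁ ≤ 4 * nb V z l₂ := by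
  by_cases h1 : min l₁ V.r ≤ V.d z
  · have h2 := nb_ge V z (l := l₂) (X := 2 * (1 + min (V.d z) l₁)) (by omega) (by omega)
    rw [nb, if_pos h1]
    refine le_trans (le_of_eq ?_) (mul_le_mul_of_nonneg_left h2 (by norm_num))
    push_cast
    field_simp
    norm_num
  · rw [nb, if_neg h1]
    by_cases h2 : min l₂ V.r ≤ V.d z
    · rw [nb, if_pos h2]
      have h3 := two_pow' (a := 1 + (V.d z : ℝ)) (b := ((min l₁ V.r : ℕ) : ℝ))
        (X := 1 + ((min (V.d z) l₂ : ℕ) : ℝ)) (by positivity)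
        (by exact_mod_cast (by omega : 1 + min (V.d z) l₂ ≤ 1 + V.d z))
        (by exact_mod_cast (by omega : 1 + min (V.d z) l₂ ≤ min l₁ V.r))
      have h4 : (0 : ℝ) ≤ 1 / (1 + ((min (V.d z) l₂ : ℕ) : ℝ)) ^ 2 := by positivity
      linarith
    · rw [nb, if_neg h2, mul_left_comm]
      refine mul_le_mul_of_nonneg_left (rp_le ?_ (by norm_num) ?_) (by positivity)
      · exact_mod_cast (by omega : 0 < min l₂ V.r)
      · exact_mod_cast (by omega : min l₂ V.r ≤ 4 * min l₁ V.r)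

theorem nb_free (V : Vp) (z : Pt) {l : ℕ} (hl : 1 ≤ l) (h : l ≤ V.d z) : nb V z l ≤ 1 / (l : ℝ) ^ 2 := by
  have hl' : (0 : ℝ) < l := by exact_mod_cast hl
  rw [nb, if_pos (by omega), min_eq_right h]
  exact one_div_le_one_div_of_le (by positivity) (pow_le_pow_left₀ hl'.le (by linarith) 2)

theorem log_le {l ρ K : ℕ} (h1 : l ≤ K * ρ) (h2 : K + 2 ≤ ρ) :
    Real.log (2 + (l : ℕ)) ≤ 2 * Real.log ρ := by
  have h3 : 2 + l ≤ ρ ^ 2 := by nlinarith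
  have h4 : (2 + (l : ℝ)) ≤ (ρ : ℝ) ^ 2 := by exact_mod_cast h3
  refine (Real.log_le_log (by positivity) h4).trans_eq ?_
  rw [Real.log_pow]; norm_num

theorem one_le_log {x : ℝ} (h : 3 ≤ x) : 1 ≤ Real.log x := by
  rw [Real.le_log_iff_exp_le (by linarith)]
  exact (Real.exp_one_lt_d9.le.trans (by norm_num)).trans h

theorem div_lt (d k : ℕ) (hk : 0 < k) (h : k ≤ d) : 1 + d ≤ 2 * k * (d / k) := by
  have h1 := Nat.div_add_mod d k
  have h2 := Nat.mod_lt d hk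
  have h3 : 1 ≤ d / k := (Nat.one_le_div_iff hk).2 h
  have h4 : k ≤ k * (d / k) := Nat.le_mul_of_pos_right _ h3
  have h5 : 2 * k * (d / k) = 2 * (k * (d / k)) := by ring
  omega

/-! ## the centred sector -/

variable {P : Par}

theorem lok (h : P.Ok) : P.L.Ok := h.crit.1

theorem rg1 (P : Par) : P.L.rg = 1 := xyL_rg _

/-- the family with one member -/
def fam (h : P.Ok) : Fa := ⟨nn, true, P.b, P.b, admissible_nn, h.crit.1.2⟩

theorem mem_fam (h : P.Ok) : (fam h).Mem P.L := ⟨rfl, rfl, le_rfl, le_rfl⟩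

theorem gs (h : P.Ok) (L : ℕ) : Fl.Gs ⟨fam h, P.W₀, P.r₀, 1⟩ P.L L := ⟨mem_fam h, h.W2, h.gd L⟩

theorem ex_abs_mul {α : Type*} {W F G : α → ℝ} {C : ℝ} (h0 : ∀ a, 0 ≤ W a)
    (hF : Ig W fun a => F a ^ 2) (hG : Ig W fun a => G a ^ 2) (h1 : Ex W (fun a => F a ^ 2) ≤ C)
    (h2 : Ex W (fun a => G a ^ 2) ≤ C) : Ex W (fun a => |F a * G a|) ≤ C := by
  have h3 := Ex_mono h0 ((Ig.mul_of_sq h0 hF hG).abs h0) ((hF.add hG).const_mul (1 / 2)) fun a => by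
    rw [abs_le]; constructor <;> nlinarith [sq_nonneg (F a + G a), sq_nonneg (F a - G a)]
  rw [Ex_const_mul, Ex_add hF hG] at h3
  linarith

theorem bare (h : P.Ok) : ∃ C : ℝ, 0 ≤ C ∧
    (∀ (m : Mdl Pt) (z : Pt), Amb P.L m (bl z 1) → Ex (m.W 0) (fun s => Jz z s ^ 2) ≤ C) ∧
    ∀ (z w : Pt) (n c : ℕ), w ∈ bl z n → n + 1 ≤ c → Nc.EN P.L z c (fun s => Jz w s ^ 2) ≤ C := by
  obtain ⟨C, hC, hb⟩ := Fl.bareStmt (fam h)
  have e : ∀ (z w : Pt) (n : ℕ), w ∈ bl z n → Fl.E0 (bl z n) (Pot.dl w) = 4 := fun z w n hw => by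
    rw [Fl.E0, show ∑ x ∈ bl z n, Pot.dl w x * A0 (Pot.dl w) x = _ from Pot.ip_dl hw _]
    simp [A0, Prod.ext_iff]
  refine ⟨C * 4, by positivity, fun m z hm => ?_, fun z w n c hw hc => ?_⟩
  · have := ((hb P.L (mem_fam h) z 0 (Pot.dl z) (Pot.sup_dl (self_mem_bl _ _))).2.1 m hm).1
    simp only [← Xi.Jz_eq_pr] at this
    rwa [e z z 0 (self_mem_bl _ _)] at this
  · have := ((hb P.L (mem_fam h) z n (Pot.dl w) (Pot.sup_dl hw)).2.2 c hc).1
    simp only [← Xi.Jz_eq_pr] at this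
    rwa [e z w n hw] at this

theorem mem_ds {x z : Pt} {r : ℕ} (h : ds x z ≤ r) : x ∈ bl z r :=
  bl_sub (k := 0) h (self_mem_bl _ _)

theorem div_log {C : ℝ} (hC : 0 ≤ C) {ρ : ℕ} (h : 16 ≤ ρ) :
    C / ((ρ : ℝ) ^ 2 * Real.log ρ) ≤ C / (ρ : ℝ) ^ 2 := by
  have h1 : (16 : ℝ) ≤ ρ := by exact_mod_cast h
  have h2 := one_le_log (x := ρ) (by linarith)
  exact div_le_div_of_nonneg_left hC (by positivity) (le_mul_of_one_le_right (by positivity) h2)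

/-- the centred two-point function and its norm -/
theorem cpair (h : P.Ok) : ∃ C : ℝ, 0 ≤ C ∧ ∀ z w : Pt, z ≠ w →
    (∀ m : Mdl Pt, Amb P.L m (bl z (ds z w)) → Amb P.L m (bl w (ds z w)) →
      |Ex (m.W 0) (fun s => Jz z s * Jz w s)| ≤ C / (ds z w : ℝ) ^ 4) ∧
    ∀ a : ℕ, P.r₀ ≤ a → 2 * ds z w ≤ a →
      Fl.nu P.L P.W₀ z a (fun s => Jz z s * Jz w s) ≤ C / (ds z w : ℝ) ^ 4 := by
  obtain ⟨B, hB, b1, b2⟩ := bare h
  have hK := h.K1
  have hW := h.W2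
  have hr := h.r2
  have ok := lok h
  obtain ⟨k, hk⟩ : ∃ k, k = 2 * P.W₀ + 1 := ⟨_, rfl⟩
  refine ⟨4 * P.K ^ 2 * (2 * k) ^ 4 + B * (k * P.r₀) ^ 4, by positivity, fun z w hzw => ?_⟩
  have hl := ds_pos hzw
  have hl' : (1 : ℝ) ≤ ds z w := by exact_mod_cast hl
  by_cases hc : k * P.r₀ ≤ ds z w
  · obtain ⟨ρ, hρ⟩ : ∃ ρ, ρ = ds z w / k := ⟨_, rfl⟩
    have h1 : P.r₀ ≤ ρ := hρ ▸ (Nat.le_div_iff_mul_le (by omega)).2 (by rwa [mul_comm])
    have h2 : k * ρ ≤ ds z w := hρ ▸ Nat.mul_div_le _ _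
    have h3 : 1 + ds z w ≤ 2 * k * ρ :=
      hρ ▸ div_lt _ _ (by omega) (le_trans (Nat.le_mul_of_pos_right _ (by omega)) hc)
    have h4 : k * ρ = P.W₀ * ρ + P.W₀ * ρ + ρ := by rw [hk]; ring
    have hf := Df.fusStmt P.L ok P.W₀ P.r₀ ρ (h.gd ρ) z w ρ ρ (Jz z) (Jz w) h1 le_rfl h1 le_rfl
      (Fl.ins_Jz z (by omega)) (Fl.ins_Jz w (by omega)) (disj (by omega))
    have n1 : ∀ x, Df.nu P.L P.W₀ x ρ (Jz x) ≤ P.K / (ρ : ℝ) ^ 2 := fun x =>
      (h.f1 ρ h1 x _ le_rfl).trans (div_log (by linarith) (by omega))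
    have n0 : ∀ x, 0 ≤ Df.nu P.L P.W₀ x ρ (Jz x) := fun x => FlF4.nu_nonneg ok _ _ _ _
    have hρ0 : (0 : ℝ) < ρ := by exact_mod_cast (by omega : 0 < ρ)
    have key : 4 * Df.nu P.L P.W₀ z ρ (Jz z) * Df.nu P.L P.W₀ w ρ (Jz w) ≤
        (4 * P.K ^ 2 * (2 * k) ^ 4 + B * (k * P.r₀) ^ 4) / (ds z w : ℝ) ^ 4 := by
      have h5 : (ds z w : ℝ) ≤ 2 * k * ρ := by exact_mod_cast (by omega : ds z w ≤ 2 * k * ρ)
      have h6 : (ds z w : ℝ) ^ 4 ≤ (2 * k * ρ) ^ 4 := pow_le_pow_left₀ (by positivity) h5 4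
      calc _ ≤ 4 * (P.K / (ρ : ℝ) ^ 2) * (P.K / (ρ : ℝ) ^ 2) := by
            have := n0 z; have := n0 w; have := n1 z; have := n1 w
            gcongr
        _ = 4 * P.K ^ 2 * (2 * k) ^ 4 / (2 * k * ρ) ^ 4 := by
            have : (k : ℝ) ≠ 0 := by exact_mod_cast (by omega : k ≠ 0)
            field_simp
        _ ≤ 4 * P.K ^ 2 * (2 * k) ^ 4 / (ds z w : ℝ) ^ 4 := by gcongr
        _ ≤ _ := by gcongr; exact le_add_of_nonneg_right (by positivity)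
    refine ⟨fun m h5 h6 => ((hf.1 m (FlF4.amb_mono h5 (bl_mono _ (by omega)))
      (FlF4.amb_mono h6 (bl_mono _ (by omega)))).1).trans key, fun a _ ha => le_trans ?_ key⟩
    exact hf.2 z a (bl_mono _ (by omega)) (bl_sub (by rw [ds_comm]; omega))
  · have key : B ≤ (4 * P.K ^ 2 * (2 * k) ^ 4 + B * (k * P.r₀) ^ 4) / (ds z w : ℝ) ^ 4 := by
      have h5 : (ds z w : ℝ) ≤ k * P.r₀ := by exact_mod_cast (by omega : ds z w ≤ k * P.r₀)
      have h6 : (ds z w : ℝ) ^ 4 ≤ (k * P.r₀) ^ 4 := pow_le_pow_left₀ (by positivity) h5 4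
      rw [le_div_iff₀ (by positivity)]
      have := mul_le_mul_of_nonneg_left h6 hB
      have : 0 ≤ 4 * P.K ^ 2 * (2 * k) ^ 4 := by positivity
      linarith
    refine ⟨fun m h5 h6 => le_trans ?_ key, fun a h0 ha => le_trans ?_ key⟩
    · have hc := h5.ctr.cen h5.anch
      exact (abs_Ex_le hc.nonneg (hc.ig ((Fl.tame_Jz z).mul (Fl.tame_Jz w)))).trans
        (ex_abs_mul hc.nonneg (hc.ig ((Fl.tame_Jz z).pow 2)) (hc.ig ((Fl.tame_Jz w).pow 2))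
          (b1 m z (FlF4.amb_mono h5 (bl_mono _ hl))) (b1 m w (FlF4.amb_mono h6 (bl_mono _ hl))))
    · have h4 : 4 * a ≤ P.W₀ * a := Nat.mul_le_mul_right _ hW
      have hi : Ins z (P.W₀ * a) fun s => Jz z s * Jz w s :=
        (Fl.ins_Jz z (by omega)).mul ((Fl.ins_Jz w le_rfl).of_subset (bl_sub (by rw [ds_comm]; omega)))
      refine (FlF4.nu_le_Nm ok (by rw [rg1]; omega) hi.1 (FlF4.In_tame ok _ _ hi.2)).trans ?_
      have hn := ok.ctr_Nr (bl z (P.W₀ * a)) z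
      exact ex_abs_mul (Md.W_nonneg hn.1 (Md.ctr_nn hn) 0) (FlF4.In_tame ok _ _ ((Fl.tame_Jz z).pow 2))
        (FlF4.In_tame ok _ _ ((Fl.tame_Jz w).pow 2)) (b2 z z 0 _ (self_mem_bl _ _) (by omega))
        (b2 z w (ds z w) _ (mem_ds (ds_comm _ _).le) (by omega))

/-! ## the twisted sector -/

theorem N_nonneg (h : P.Ok) (V : Vp) (z : Pt) (ρ : ℕ) (F : Cfg Pt → ℝ) : 0 ≤ P.N V z ρ F :=
  have hn := (lok h).ctr_Nr (bl z (P.W₀ * ρ)) z
  Ex_nonneg (Md.Ws_nonneg hn.1 (Md.ctr_nn hn) 0 _) fun _ _ => abs_nonneg _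

theorem tr_pack (hT : TrStmt) (h : P.Ok) (σ : Pt × Pt → ℤ) {z : Pt} {ρ : ℕ} {F : Cfg Pt → ℝ}
    (hF : Ins z (ρ + 1) F) : Ins z (ρ + 1) (P.L.tr σ z ρ F) ∧ ∀ (G : Cfg Pt → ℝ) (m : Mdl Pt),
      Out (bl z ρ) G → Tame G → Amb P.L m (bl z ρ) →
      Ex (m.Ws 0 σ) (fun s => F s * G s) = Ex (m.Ws 0 σ) fun s => P.L.tr σ z ρ F s * G s := by
  have := hT P.b σ z ρ F h.crit.1.2 hF
  exact ⟨⟨this.2.1.mono sdiff_subset, this.1⟩, fun G m h1 h2 h3 => (this.2.2.2 G h1 h2).2.2 m h3⟩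

theorem tr_mean (hT : TrStmt) (h : P.Ok) (σ : Pt × Pt → ℤ) {z : Pt} {ρ : ℕ} {F : Cfg Pt → ℝ}
    (hF : Ins z (ρ + 1) F) {m : Mdl Pt} (hm : Amb P.L m (bl z ρ)) :
    Ex (m.Ws 0 σ) F = Ex (m.Ws 0 σ) (P.L.tr σ z ρ F) := by
  simpa using (tr_pack hT h σ hF).2 (fun _ => 1) m (Out.const _ _) (Tame.const _) hm

theorem ins_Jv (hY : YStmt) (σ : Pt × Pt → ℤ) (z : Pt) : Ins z 1 (Jv σ z) :=
  ((hY σ ∅ 0 fun _ _ => rfl).2.2.2.2 z).1

/-- a free cell: the `L¹` norm in the ambient model -/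
theorem cell (hC : CovStmt) (h : P.Ok) (Λc : ℕ) : ∃ C : ℝ, 0 ≤ C ∧ ∀ (V : Vp) (m : Mdl Pt),
    4 * (P.W₀ * P.r₀) ≤ V.r → Amb P.L m (bl V.p (4 * V.r)) →
    ∀ (z : Pt) (ρ : ℕ) (G : Cfg Pt → ℝ), P.r₀ ≤ ρ → 4 * (P.W₀ * ρ) ≤ V.d z →
      Amb P.L m (bl z (P.W₀ * ρ)) → Ins z (ρ + 1) G →
      |Ex (m.Ws 0 V.σ) G| ≤ C * P.N V z ρ G ∧
      ∀ (w : Pt) (ρ' : ℕ) (G' : Cfg Pt → ℝ), P.r₀ ≤ ρ' → 4 * (P.W₀ * ρ') ≤ V.d w →
        Amb P.L m (bl w (P.W₀ * ρ')) → Ins w (ρ' + 1) G' → P.W₀ * ρ + P.W₀ * ρ' < ds z w →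
        (∀ c : Pt, c = V.p ∨ c = V.q → min (ds z c) V.r ≤ Λc * min (ds w c) V.r ∧
          min (ds w c) V.r ≤ Λc * min (ds z c) V.r) →
        |Ex (m.Ws 0 V.σ) fun s => G s * G' s| ≤ C * P.N V z ρ G * P.N V w ρ' G' := by
  obtain ⟨C, hC⟩ := hC P h Λc
  refine ⟨|C|, abs_nonneg _, fun V m hr hm z ρ G h1 h2 h3 h4 => ?_⟩
  have k := (hC V m P.r₀ P.r₀ (fun _ => 0) (fun _ => 0) le_rfl hr le_rfl hr hm (Ins.const _ _ _)
    (Ins.const _ _ _)).2.2 z ρ G h1 h2 h3 h4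
  have hw := Md.ctr_wts hm.ctr hm.anch 0 V.σ
  have hs := Md.ctr_ses hm.ctr hm.anch 0 V.σ
  have n0 := N_nonneg h V z ρ G
  have hC' := le_abs_self C
  refine ⟨(abs_Ex_le hw.nonneg (hs.ig h4.2)).trans (k.1.trans (by gcongr)),
    fun w ρ' G' h5 h6 h7 h8 h9 h10 => ?_⟩
  have n1 := N_nonneg h V w ρ' G'
  exact (abs_Ex_le hw.nonneg (hs.ig (h4.2.mul h8.2))).trans
    ((k.2.2 w ρ' G' h5 h6 h7 h8 h9 h10).trans (by gcongr))

/-- free currents -/
theorem free (hT : TrStmt) (hC : CovStmt) (hJ : JnStmt) (hY : YStmt) (h : P.Ok) (Λc : ℕ) :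
    ∃ C : ℝ, 0 ≤ C ∧ ∀ (V : Vp) (m : Mdl Pt), 4 * (P.W₀ * P.r₀) ≤ V.r → Amb P.L m (bl V.p (4 * V.r)) →
    ∀ (z : Pt) (ρ : ℕ), P.r₀ ≤ ρ → 4 * (P.W₀ * ρ) ≤ V.d z → Amb P.L m (bl z (P.W₀ * ρ)) →
      |Ex (m.Ws 0 V.σ) (Jv V.σ z)| ≤ C * (1 / ((ρ : ℝ) ^ 2 * Real.log ρ)) ∧
      ∀ (w : Pt) (ρ' : ℕ), P.r₀ ≤ ρ' → 4 * (P.W₀ * ρ') ≤ V.d w →
        Amb P.L m (bl w (P.W₀ * ρ')) → P.W₀ * ρ + P.W₀ * ρ' < ds z w →
        (∀ c : Pt, c = V.p ∨ c = V.q → min (ds z c) V.r ≤ Λc * min (ds w c) V.r ∧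
          min (ds w c) V.r ≤ Λc * min (ds z c) V.r) →
        |Ex (m.Ws 0 V.σ) fun s => Jv V.σ z s * Jv V.σ w s| ≤
          C * (1 / ((ρ : ℝ) ^ 2 * Real.log ρ)) * (1 / ((ρ' : ℝ) ^ 2 * Real.log ρ')) := by
  obtain ⟨C, hC0, hC⟩ := cell hC h Λc
  obtain ⟨D, hD⟩ := hJ P h
  have hW := h.W2
  have hr := h.r2
  have pos : ∀ ρ : ℕ, P.r₀ ≤ ρ → 0 < 1 / ((ρ : ℝ) ^ 2 * Real.log ρ) := fun ρ h1 => by
    have h2 : (16 : ℝ) ≤ ρ := by exact_mod_cast hr.trans h1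
    have := one_le_log (x := ρ) (by linarith)
    positivity
  have nJ : ∀ (V : Vp) (z : Pt) (ρ : ℕ), P.r₀ ≤ ρ → 4 * (P.W₀ * ρ) ≤ V.d z →
      P.N V z ρ (P.L.tr V.σ z ρ (Jv V.σ z)) ≤ (|D| + 1) * (1 / ((ρ : ℝ) ^ 2 * Real.log ρ)) := by
    intro V z ρ h1 h2
    have h3 : 4 * ρ ≤ P.W₀ * ρ := Nat.mul_le_mul_right _ hW
    refine ((hD V z ρ h1).1 (by omega)).trans ?_
    rw [div_eq_mul_one_div]
    exact mul_le_mul_of_nonneg_right (by linarith [le_abs_self D]) (pos ρ h1).le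
  have D1 : 1 ≤ |D| + 1 := by linarith [abs_nonneg D]
  refine ⟨C * (|D| + 1) ^ 2, by positivity, fun V m h1 hm z ρ h2 h3 h4 => ?_⟩
  have e3 : 4 * ρ ≤ P.W₀ * ρ := Nat.mul_le_mul_right _ hW
  have iz : Ins z (ρ + 1) (Jv V.σ z) := (ins_Jv hY _ z).mono (by omega)
  have az : Amb P.L m (bl z ρ) := FlF4.amb_mono h4 (bl_mono _ (by omega))
  have tz := tr_pack hT h V.σ iz
  have k := hC V m h1 hm z ρ _ h2 h3 h4 tz.1
  have p1 := pos ρ h2
  have n1 := nJ V z ρ h2 h3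
  refine ⟨?_, fun w ρ' h5 h6 h7 h8 h9 => ?_⟩
  · rw [tr_mean hT h V.σ iz az]
    refine k.1.trans ((mul_le_mul_of_nonneg_left n1 hC0).trans ?_)
    rw [← mul_assoc]
    gcongr
    nlinarith
  · have e4 : 4 * ρ' ≤ P.W₀ * ρ' := Nat.mul_le_mul_right _ hW
    have iw : Ins w (ρ' + 1) (Jv V.σ w) := (ins_Jv hY _ w).mono (by omega)
    have aw : Amb P.L m (bl w ρ') := FlF4.amb_mono h7 (bl_mono _ (by omega))
    have tw := tr_pack hT h V.σ iw
    have p2 := pos ρ' h5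
    have n2 := nJ V w ρ' h5 h6
    have n3 := N_nonneg h V w ρ' (P.L.tr V.σ w ρ' (Jv V.σ w))
    rw [tz.2 _ m ((ins_Jv hY _ w).out (disj (by rw [ds_comm]; omega))) iw.2 az]
    simp only [mul_comm (P.L.tr V.σ z ρ (Jv V.σ z) _)]
    rw [tw.2 _ m (tz.1.out (disj (by omega))) tz.1.2 aw]
    simp only [mul_comm (P.L.tr V.σ w ρ' (Jv V.σ w) _)]
    refine (k.2 w ρ' _ h5 h6 h7 tw.1 h8 h9).trans ?_
    calc _ ≤ C * ((|D| + 1) * (1 / ((ρ : ℝ) ^ 2 * Real.log ρ))) *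
          ((|D| + 1) * (1 / ((ρ' : ℝ) ^ 2 * Real.log ρ'))) := by gcongr
      _ = _ := by ring

/-- the microscopic bound -/
theorem micro (hM : MicStmt) (hY : YStmt) (h : P.Ok) : ∃ (C : ℝ) (r₁ : ℕ), 0 ≤ C ∧
    ∀ (V : Vp) (m : Mdl Pt), r₁ ≤ V.r → Amb P.L m (bl V.p (4 * V.r)) → ∀ z w : Pt,
      Amb P.L m (bl z (P.W₀ * P.r₀)) → Amb P.L m (bl w (P.W₀ * P.r₀)) →
      |Cv (m.Ws 0 V.σ) (Jv V.σ z) (Jv V.σ w)| ≤ C := by
  obtain ⟨c₀, C, r₁, -, hC⟩ := (hM P h).2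
  refine ⟨2 * |C|, r₁, by positivity, fun V m h1 hm z w hz hw => ?_⟩
  have hW := Md.ctr_wts hm.ctr hm.anch 0 V.σ
  have hs := Md.ctr_ses hm.ctr hm.anch 0 V.σ
  have k := (hC V m h1 hm).2.2
  have iz := hs.ig ((ins_Jv hY V.σ z).2.pow 2)
  have iw := hs.ig ((ins_Jv hY V.σ w).2.pow 2)
  have a1 := (abs_Ex_le hW.nonneg (hs.ig ((ins_Jv hY V.σ z).2.mul (ins_Jv hY V.σ w).2))).trans
    (ex_abs_mul hW.nonneg iz iw (k z hz) (k w hw))
  have a2 := (hW.ex_sq_le iz).trans (k z hz)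
  have a3 := (hW.ex_sq_le iw).trans (k w hw)
  have a4 := le_abs_self C
  rw [Cv]
  rw [abs_le] at a1 ⊢
  constructor <;>
    nlinarith [a1.1, a1.2, sq_nonneg (Ex (m.Ws 0 V.σ) (Jv V.σ z) + Ex (m.Ws 0 V.σ) (Jv V.σ w)),
      sq_nonneg (Ex (m.Ws 0 V.σ) (Jv V.σ z) - Ex (m.Ws 0 V.σ) (Jv V.σ w))]

/-- the majorant of the two-point function -/
noncomputable def Bd (V : Vp) (z w : Pt) : ℝ :=
  nb V z (ds z w) * nb V w (ds z w) / Real.log (2 + (min (ds z w) V.r : ℕ)) ^ 2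

theorem Bd_comm (V : Vp) (z w : Pt) : Bd V z w = Bd V w z := by
  rw [Bd, Bd, ds_comm w z, mul_comm]

theorem Bd_sw (V : Vp) (z w : Pt) : Bd V.sw z w = Bd V z w := by
  rw [Bd, Bd, sw_nb, sw_nb]; rfl

theorem Bd_nonneg (V : Vp) (z w : Pt) : 0 ≤ Bd V z w := by
  have := nb_pos V z (ds z w)
  have := nb_pos V w (ds z w)
  rw [Bd]; positivity

theorem lg_ge {l : ℕ} (h : 1 ≤ l) : 1 ≤ Real.log (2 + (l : ℕ)) :=
  one_le_log (by have : (1 : ℝ) ≤ l := by exact_mod_cast h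
                 linarith)

/-- `z` close to the core -/
theorem core (hJ : JnStmt) (hF : FjStmt) (hY : YStmt) (h : P.Ok) : ∃ (C : ℝ) (L₀ : ℕ), 0 ≤ C ∧
    ∀ (V : Vp) (m : Mdl Pt) (z w : Pt), L₀ ≤ min (ds z w) V.r →
      16 * P.W₀ * ds z V.p ≤ min (ds z w) V.r → Amb P.L m (bl V.p (5 * V.r)) →
      Amb P.L m (bl w (ds w V.p)) → |Cv (m.Ws 0 V.σ) (Jv V.σ z) (Jv V.σ w)| ≤ C * Bd V z w := by
  obtain ⟨C, r₁, hC⟩ := hF P h (16 * P.W₀)
  obtain ⟨D, hD⟩ := hJ P h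
  have hW := h.W2
  have hr := h.r2
  refine ⟨|C| * |D| * (8 * P.W₀ : ℕ) * 16, 4 * P.W₀ * (r₁ + P.r₀ + 8 * P.W₀ + 2), by positivity,
    fun V m z w h1 h2 hm hw => ?_⟩
  rw [Bd]
  have t1 := ds_tri z V.p w
  have t2 := ds_tri w z V.p
  have t3 := ds_tri V.p z V.q
  rw [ds_comm V.p w] at t1
  rw [ds_comm w z] at t2
  rw [ds_pq, ds_comm V.p z] at t3
  obtain ⟨ρ, hρ⟩ : ∃ ρ, ρ = min (ds z w) V.r / (4 * P.W₀) := ⟨_, rfl⟩
  have a1 : r₁ + P.r₀ + 8 * P.W₀ + 2 ≤ ρ :=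
    hρ ▸ (Nat.le_div_iff_mul_le (by omega)).2 (by rwa [mul_comm])
  have a2 : 4 * P.W₀ * ρ ≤ min (ds z w) V.r := hρ ▸ Nat.mul_div_le _ _
  have a3 : 1 + min (ds z w) V.r ≤ 2 * (4 * P.W₀) * ρ :=
    hρ ▸ div_lt _ _ (by omega) (le_trans (Nat.le_mul_of_pos_right _ (by omega)) h1)
  have a4 : 64 * ds z V.p ≤ 16 * P.W₀ * ds z V.p := Nat.mul_le_mul_right _ (by omega)
  have a5 : 2 * ds z V.p ≤ ρ := by
    refine (Nat.lt_of_mul_lt_mul_left (a := 8 * P.W₀) ?_).le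
    rw [show 8 * P.W₀ * (2 * ds z V.p) = 16 * P.W₀ * ds z V.p by ring,
      show 8 * P.W₀ * ρ = 2 * (4 * P.W₀) * ρ by ring]
    omega
  rw [show 4 * P.W₀ * ρ = 4 * (P.W₀ * ρ) by ring] at a2
  rw [show 2 * (4 * P.W₀) * ρ = 8 * (P.W₀ * ρ) by ring] at a3
  have k1 := hC V m ρ (Jv V.σ z) w (by omega) (by omega)
    ((ins_Jv hY _ z).of_subset (bl_sub (by omega))) hm hw (by omega)
    (by rw [show 16 * P.W₀ * ρ = 16 * (P.W₀ * ρ) by ring]; omega)
  have k2 := (hD V z ρ (by omega)).2 (by omega) a5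
  have e1 : V.d z = ds z V.p := by rw [Vp.d]; omega
  have e2 : nb V z (ds z w) = (1 + (ds z V.p : ℝ)) ^ (-(21 / 20 : ℝ)) *
      ((min (ds z w) V.r : ℕ) : ℝ) ^ (-(19 / 20 : ℝ)) := by
    rw [nb, if_neg (by omega), e1]
  have k3 := rp_le (a := ρ) (b := ((min (ds z w) V.r : ℕ) : ℝ)) (K := (8 * P.W₀ : ℕ))
    (by exact_mod_cast (by omega : 0 < min (ds z w) V.r)) (by exact_mod_cast (by omega : 1 ≤ 8 * P.W₀))
    (by exact_mod_cast (by rw [mul_assoc]; omega : min (ds z w) V.r ≤ 8 * P.W₀ * ρ))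
  have k4 := nb_le V w (l₁ := ds w V.p) (l₂ := ds z w) (by omega)
  have k5 := log_le (l := min (ds z w) V.r) (ρ := ρ) (K := 8 * P.W₀) (by rw [mul_assoc]; omega) (by omega)
  have k6 := lg_ge (l := min (ds z w) V.r) (by omega)
  have k7 : 0 ≤ P.ν V ρ (Jv V.σ z) := N_nonneg h _ _ _ _
  have k8 := nb_pos V w (ds w V.p)
  have k9 := nb_pos V z (ds z w)
  have k9' := nb_pos V w (ds z w)
  generalize Real.log (2 + (min (ds z w) V.r : ℕ)) = t at *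
  have hl : t / 2 ≤ Real.log ρ := by linarith
  have ht : 0 < t / 2 := by linarith
  have k10 : P.ν V ρ (Jv V.σ z) ≤ |D| * (8 * P.W₀ : ℕ) * nb V z (ds z w) / (t / 2) := by
    refine k2.trans ?_
    rw [e2]
    calc _ ≤ |D| * (1 + (ds z V.p : ℝ)) ^ (-(21 / 20 : ℝ)) * ((8 * P.W₀ : ℕ) *
          ((min (ds z w) V.r : ℕ) : ℝ) ^ (-(19 / 20 : ℝ))) / (t / 2) := by
          have := le_abs_self D
          gcongr
      _ = _ := by ring
  refine k1.trans ?_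
  calc _ ≤ |C| * (|D| * (8 * P.W₀ : ℕ) * nb V z (ds z w) / (t / 2)) * (4 * nb V w (ds z w)) / (t / 2) := by
        have := le_abs_self C
        gcongr
    _ = _ := by field_simp; ring

theorem lam {a b l r Λ : ℕ} (h1 : a ≤ b + l) (h2 : min l r ≤ Λ * b) : min a r ≤ (Λ + 1) * min b r := by
  rcases le_total b r with h | h
  · rw [min_eq_left h, add_mul]; omega
  · rw [min_eq_right h, add_mul]; omega

theorem u_le (V : Vp) (z : Pt) {l ρ K : ℕ} (h1 : 1 + min (V.d z) l ≤ K * ρ) (h2 : min l V.r ≤ K * ρ)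
    (h3 : K + 2 ≤ ρ) (h4 : 1 ≤ min l V.r) : 1 / ((ρ : ℝ) ^ 2 * Real.log ρ) ≤
      2 * (K : ℝ) ^ 2 * nb V z l / Real.log (2 + (min l V.r : ℕ)) := by
  have k1 := nb_ge V z h1 fun _ => h2
  have k2 := log_le h2 h3
  have k3 := lg_ge h4
  have hK : (0 : ℝ) < K := by
    exact_mod_cast Nat.pos_of_ne_zero fun e => by rw [e] at h1; omega
  have hρ : (0 : ℝ) < ρ := by exact_mod_cast (by omega : 0 < ρ)
  generalize Real.log (2 + (min l V.r : ℕ)) = t at *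
  calc _ ≤ 1 / ((ρ : ℝ) ^ 2 * (t / 2)) := by gcongr; linarith
    _ = 2 * (K : ℝ) ^ 2 * (1 / ((K * ρ : ℕ) : ℝ) ^ 2) / t := by push_cast; field_simp
    _ ≤ _ := by gcongr

/-- both points far from the cores -/
theorem both (hT : TrStmt) (hC : CovStmt) (hJ : JnStmt) (hY : YStmt) (h : P.Ok) :
    ∃ (C : ℝ) (L₀ : ℕ), 0 ≤ C ∧ ∀ (V : Vp) (m : Mdl Pt) (z w : Pt), L₀ ≤ min (ds z w) V.r →
      min (ds z w) V.r ≤ 16 * P.W₀ * V.d z → min (ds z w) V.r ≤ 16 * P.W₀ * V.d w →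
      Amb P.L m (bl V.p (4 * V.r)) → Amb P.L m (bl z (V.d z)) → Amb P.L m (bl w (V.d w)) →
      |Cv (m.Ws 0 V.σ) (Jv V.σ z) (Jv V.σ w)| ≤ C * Bd V z w := by
  obtain ⟨C, hC0, hC⟩ := free hT hC hJ hY h (16 * P.W₀ + 1)
  have hW := h.W2
  have hr := h.r2
  obtain ⟨K, hK⟩ : ∃ K, K = 16 * P.W₀ * (2 * (4 * P.W₀)) := ⟨_, rfl⟩
  refine ⟨(C + C ^ 2) * (2 * (K : ℝ) ^ 2) ^ 2, 16 * P.W₀ * (4 * P.W₀ * (P.r₀ + K + 2)), by positivity,
    fun V m z w h1 h2 h3 hm hz hw => ?_⟩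
  have h0 : 1 ≤ min (ds z w) V.r := le_trans (Nat.succ_le_of_lt (by positivity)) h1
  have sc : ∀ x : Pt, min (ds z w) V.r ≤ 16 * P.W₀ * V.d x → ∃ ρ, P.r₀ ≤ ρ ∧
      4 * (P.W₀ * ρ) ≤ min (V.d x) (ds z w) ∧ 1 / ((ρ : ℝ) ^ 2 * Real.log ρ) ≤
        2 * (K : ℝ) ^ 2 * nb V x (ds z w) / Real.log (2 + (min (ds z w) V.r : ℕ)) := by
    intro x hx
    obtain ⟨a, ha⟩ : ∃ a, a = min (V.d x) (ds z w) := ⟨_, rfl⟩
    have a0 : min (ds z w) V.r ≤ 16 * P.W₀ * a := by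
      rw [ha]
      rcases le_total (V.d x) (ds z w) with e | e
      · rwa [min_eq_left e]
      · rw [min_eq_right e]
        exact (min_le_left _ _).trans (Nat.le_mul_of_pos_left _ (by omega))
    have a1 : 4 * P.W₀ * (P.r₀ + K + 2) ≤ a := Nat.le_of_mul_le_mul_left (h1.trans a0) (by omega)
    have a2 : P.r₀ + K + 2 ≤ a / (4 * P.W₀) := (Nat.le_div_iff_mul_le (by omega)).2 (by rwa [mul_comm])
    have a3 : 1 + a ≤ 2 * (4 * P.W₀) * (a / (4 * P.W₀)) :=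
      div_lt _ _ (by omega) (le_trans (Nat.le_mul_of_pos_right _ (by omega)) a1)
    have a4 : 16 * P.W₀ * (1 + a) ≤ K * (a / (4 * P.W₀)) := by
      rw [hK, mul_assoc (16 * P.W₀)]; exact Nat.mul_le_mul_left _ a3
    have a5 : 1 + a ≤ 16 * P.W₀ * (1 + a) := Nat.le_mul_of_pos_left _ (by omega)
    rw [mul_add] at a4 a5
    refine ⟨a / (4 * P.W₀), by omega, ?_, u_le V x (by omega) (by omega) (by omega) h0⟩
    rw [← ha, ← mul_assoc]; exact Nat.mul_div_le _ _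
  obtain ⟨ρ, b1, b2, b3⟩ := sc z h2
  obtain ⟨ρ', c1, c2, c3⟩ := sc w h3
  have hV : 4 * (P.W₀ * P.r₀) ≤ V.r := by
    refine le_trans ?_ (h1.trans (min_le_right _ _))
    rw [← mul_assoc]
    exact (Nat.mul_le_mul_left _ (by omega)).trans (Nat.le_mul_of_pos_left _ (by omega))
  have az : Amb P.L m (bl z (P.W₀ * ρ)) := FlF4.amb_mono hz (bl_mono _ (by omega))
  have aw : Amb P.L m (bl w (P.W₀ * ρ')) := FlF4.amb_mono hw (bl_mono _ (by omega))
  have k1 := hC V m hV hm z ρ b1 (by omega) az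
  have k2 := (hC V m hV hm w ρ' c1 (by omega) aw).1
  have dc : ∀ (x c : Pt), c = V.p ∨ c = V.q → 16 * P.W₀ * V.d x ≤ 16 * P.W₀ * ds x c := by
    rintro x c (rfl | rfl)
    exacts [Nat.mul_le_mul_left _ (min_le_left _ _), Nat.mul_le_mul_left _ (min_le_right _ _)]
  have k3 := k1.2 w ρ' c1 (by omega) aw (by omega) fun c hc =>
    ⟨lam (l := ds z w) (by have := ds_tri z w c; omega) (h3.trans (dc w c hc)),
      lam (l := ds z w) (by have := ds_tri w z c; rw [ds_comm w z] at this; omega) (h2.trans (dc z c hc))⟩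
  have k4 := k1.1
  have k5 := lg_ge h0
  have p1 := nb_pos V z (ds z w)
  have p2 := nb_pos V w (ds z w)
  rw [Cv, Bd]
  generalize Real.log (2 + (min (ds z w) V.r : ℕ)) = t at *
  have q1 : 0 ≤ 1 / ((ρ' : ℝ) ^ 2 * Real.log ρ') := by
    have := Real.log_natCast_nonneg ρ'; positivity
  generalize 1 / ((ρ : ℝ) ^ 2 * Real.log ρ) = u at *
  generalize 1 / ((ρ' : ℝ) ^ 2 * Real.log ρ') = u' at *
  refine (abs_sub _ _).trans ?_
  rw [abs_mul]
  calc _ ≤ C * (2 * (K : ℝ) ^ 2 * nb V z (ds z w) / t) * (2 * (K : ℝ) ^ 2 * nb V w (ds z w) / t) +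
        C * (2 * (K : ℝ) ^ 2 * nb V z (ds z w) / t) * (C * (2 * (K : ℝ) ^ 2 * nb V w (ds z w) / t)) := by
        refine add_le_add (k3.trans (by gcongr)) ?_
        exact mul_le_mul (k4.trans (by gcongr)) (k2.trans (by gcongr)) (abs_nonneg _) (by positivity)
    _ = _ := by field_simp

/-- all pairs -/
theorem far (hT : TrStmt) (hC : CovStmt) (hM : MicStmt) (hJ : JnStmt) (hF : FjStmt) (hY : YStmt)
    (h : P.Ok) : ∃ (C : ℝ) (r₁ : ℕ), 0 ≤ C ∧ ∀ (V : Vp) (m : Mdl Pt) (R : ℕ) (z w : Pt), r₁ ≤ V.r →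
      V.r ≤ R → Amb P.L m (bl V.p (8 * R)) → ds z V.p ≤ 2 * R → ds w V.p ≤ 2 * R → z ≠ w →
      |Cv (m.Ws 0 V.σ) (Jv V.σ z) (Jv V.σ w)| ≤ C * Bd V z w := by
  obtain ⟨C₁, r₁, p1, k1⟩ := micro hM hY h
  obtain ⟨C₂, L₂, p2, k2⟩ := core hJ hF hY h
  obtain ⟨C₃, L₃, p3, k3⟩ := both hT hC hJ hY h
  obtain ⟨L, hL⟩ : ∃ L, L = L₂ + L₃ + 1 := ⟨_, rfl⟩
  have p4 : 0 ≤ C₁ * (L : ℝ) ^ 4 * Real.log (2 + (L : ℕ)) ^ 2 := by positivity
  refine ⟨C₁ * (L : ℝ) ^ 4 * Real.log (2 + (L : ℕ)) ^ 2 + C₂ + C₃, r₁ + P.W₀ * P.r₀ + L,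
    by positivity, fun V m R z w h1 h2 hm hz hw hzw => ?_⟩
  have hl := ds_pos hzw
  have B0 := Bd_nonneg V z w
  have hW := h.W2
  have hr := h.r2
  have e0 : 4 * P.r₀ ≤ P.W₀ * P.r₀ := Nat.mul_le_mul_right _ hW
  have up : ∀ {x C : ℝ}, x ≤ C * Bd V z w → C ≤ C₁ * (L : ℝ) ^ 4 * Real.log (2 + (L : ℕ)) ^ 2 + C₂ + C₃ →
      x ≤ (C₁ * (L : ℝ) ^ 4 * Real.log (2 + (L : ℕ)) ^ 2 + C₂ + C₃) * Bd V z w :=
    fun a b => a.trans (mul_le_mul_of_nonneg_right b B0)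
  have pp : ds V.p V.p = 0 := by simp [ds]
  have m4 : Amb P.L m (bl V.p (4 * V.r)) := amb hm (by omega)
  have dp : ∀ x, V.d x ≤ ds x V.p := fun x => min_le_left _ _
  by_cases c0 : min (ds z w) V.r < L
  · refine up (C := C₁ * (L : ℝ) ^ 4 * Real.log (2 + (L : ℕ)) ^ 2)
      ((k1 V m (by omega) m4 z w (amb hm (by omega)) (amb hm (by omega))).trans ?_) (by linarith)
    have n1 := nb_ge V z (l := ds z w) (X := L) (by omega) (by omega)
    have n2 := nb_ge V w (l := ds z w) (X := L) (by omega) (by omega)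
    have n3 := lg_ge (l := min (ds z w) V.r) (by omega)
    have n4 : Real.log (2 + (min (ds z w) V.r : ℕ)) ≤ Real.log (2 + (L : ℕ)) :=
      Real.log_le_log (by positivity) (by have : ((min (ds z w) V.r : ℕ) : ℝ) ≤ L := by exact_mod_cast c0.le
                                          linarith)
    have hL0 : (0 : ℝ) < L := by exact_mod_cast (by omega : 0 < L)
    have := nb_pos V z (ds z w)
    have := nb_pos V w (ds z w)
    rw [Bd]
    generalize Real.log (2 + (min (ds z w) V.r : ℕ)) = t at *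
    generalize Real.log (2 + (L : ℕ)) = T at *
    have hT : 0 < T := by linarith
    calc C₁ = C₁ * (L : ℝ) ^ 4 * T ^ 2 * (1 / (L : ℝ) ^ 2 * (1 / (L : ℝ) ^ 2) / T ^ 2) := by field_simp
      _ ≤ _ := by gcongr
  have qp : ds V.q V.p = V.r := by rw [ds_comm, ds_pq]
  have cr : ∀ x y : Pt, ds x y = ds z w → ds y V.p ≤ 2 * R → 16 * P.W₀ * V.d x ≤ min (ds z w) V.r →
      |Cv (m.Ws 0 V.σ) (Jv V.σ x) (Jv V.σ y)| ≤ C₂ * Bd V x y := by
    intro x y e hy hx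
    rw [← e] at hx c0
    rcases le_total (ds x V.p) (ds x V.q) with c | c
    · rw [Vp.d, min_eq_left c] at hx
      exact k2 V m x y (by omega) hx (amb hm (by omega)) (amb hm (by omega))
    · rw [Vp.d, min_eq_right c] at hx
      have t := ds_tri y V.p V.q
      rw [ds_pq] at t
      rw [← Bd_sw]
      exact k2 V.sw m x y (show _ ≤ min _ V.r by omega) hx
        (amb (x := V.q) (k := 5 * V.r) hm (by omega)) (amb (k := ds y V.q) hm (by omega))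
  by_cases c1 : 16 * P.W₀ * V.d z ≤ min (ds z w) V.r
  · exact up (cr z w rfl hw c1) (by linarith)
  by_cases c2 : 16 * P.W₀ * V.d w ≤ min (ds z w) V.r
  · rw [Cv_comm]
    exact up ((cr w z (ds_comm _ _) hz c2).trans_eq (by rw [Bd_comm])) (by linarith)
  exact up (k3 V m z w (by omega) (by omega) (by omega) m4 (amb hm (by have := dp z; omega))
    (amb hm (by have := dp w; omega))) (by linarith)

/-! ## close pairs -/

theorem Jv_gauge (hY : YStmt) {b : ℝ} {σ : Pt × Pt → ℤ} {z x : Pt} {c : ℕ} {g : Cfg Pt}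
    (hg : ∀ e ∈ (xyL b).edI (bl z c), σ e = dE e g) (hx : ds x z + 1 ≤ c) (s : Cfg Pt) :
    Jv σ x s = Jz x (s + g) := by
  rw [← ((hY 0 ∅ 0 fun _ _ => rfl).2.2.2.2 x).2]
  have e : ∀ e ∈ (xyL b).edI (bl z c), nE σ e s = nE 0 e (s + g) := fun e he => by
    simp only [nE, hg e he, dE, Finsupp.add_apply, Pi.zero_apply]; ring
  refine sum_congr rfl fun i _ => ?_
  simp only [ds] at hx
  rw [e, e] <;> rw [Lat.mem_edI, xyL_Jp, mem_bl, mem_bl] <;> fin_cases i <;> simp [ev] <;> omega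

theorem ins_St (hT : TrStmt) (h : P.Ok) {z : Pt} {ρ : ℕ} {F : Cfg Pt → ℝ} (hF : Ins z (ρ + 1) F) :
    Ins z (ρ + 1) (St P.L z ρ F) := by
  have e : P.L.tr 0 z ρ F = St P.L z ρ F := funext fun s => by
    rw [Lat.tr, St, show (P.L.D (bl z ρ)).Ws s 0 = (P.L.D (bl z ρ)).W s from
      funext fun t => by simp [Mdl.Ws, Mdl.W]]
  exact e ▸ (tr_pack hT h 0 hF).1

/-- the product `J_z J_w` far from the cores -/
theorem prod_near (hT : TrStmt) (hG : GgStmt) (hC : CovStmt) (hY : YStmt) (h : P.Ok) :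
    ∃ C : ℝ, 0 ≤ C ∧ ∀ (V : Vp) (m : Mdl Pt) (z w : Pt) (a ρ : ℕ), 4 * (P.W₀ * P.r₀) ≤ V.r →
      Amb P.L m (bl V.p (4 * V.r)) → Amb P.L m (bl z (P.W₀ * ρ)) → z ≠ w → P.r₀ ≤ a → 2 * ds z w ≤ a →
      a ≤ ρ → 4 * (P.W₀ * ρ) ≤ V.d z →
      |Ex (m.Ws 0 V.σ) (fun s => Jv V.σ z s * Jv V.σ w s) - Ex (m.W 0) fun s => Jz z s * Jz w s| ≤
        C * ((a : ℝ) / ρ) ^ Fl.cw P.W₀ / (ds z w : ℝ) ^ 4 := by
  obtain ⟨C₁, p1, k1⟩ := cell hC h 0
  obtain ⟨C₂, p2, k2⟩ := Fl.rateStmt P.W₀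
  obtain ⟨C₃, p3, k3⟩ := cpair h
  have hW := h.W2
  have hr := h.r2
  refine ⟨C₁ * C₂ * C₃, by positivity, fun V m z w a ρ h1 hm hz hzw h2 h3 h4 h5 => ?_⟩
  have hl := ds_pos hzw
  have e0 : 4 * ρ ≤ P.W₀ * ρ := Nat.mul_le_mul_right _ hW
  obtain ⟨g, g1, -, g2⟩ := hG P.b V z (P.W₀ * ρ) h.crit.1.2 (by omega)
  obtain ⟨μ, hμ⟩ : ∃ μ, μ = Ex (m.W 0) fun s => Jz z s * Jz w s := ⟨_, rfl⟩
  have iH : Ins z a fun s => Jz z s * Jz w s :=
    (Fl.ins_Jz z (by omega)).mul ((Fl.ins_Jz w le_rfl).of_subset (bl_sub (by rw [ds_comm]; omega)))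
  have iH' : Ins z (ρ + 1) fun s => Jz z s * Jz w s - μ := (iH.mono (by omega)).sub_const μ
  have iV : Ins z (ρ + 1) fun s => Jv V.σ z s * Jv V.σ w s - μ :=
    (((ins_Jv hY _ z).mono (by omega)).mul ((ins_Jv hY _ w).of_subset
      (bl_sub (by rw [ds_comm]; omega)))).sub_const μ
  have eV : (fun s => Jv V.σ z s * Jv V.σ w s - μ) =
      fun s => (fun s => Jz z s * Jz w s - μ) (s + g) := funext fun s => by
    rw [Jv_gauge hY g1 (x := z) (by simp only [ds]; omega),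
      Jv_gauge hY g1 (x := w) (by rw [ds_comm]; omega)]
  have hw := Md.ctr_wts hm.ctr hm.anch 0 V.σ
  have hs := Md.ctr_ses hm.ctr hm.anch 0 V.σ
  have r1 := k2 ⟨fam h, P.W₀, P.r₀, 1⟩ P.L (P.W₀ * ρ) rfl (gs h _) m z a ρ _ h2 h4 le_rfl hz iH
  have r2 := (k3 z w hzw).2 a h2 h3
  have r3 := (k1 V m h1 hm z ρ _ (by omega) h5 hz (tr_pack hT h V.σ iV).1).1
  have r4 : P.N V z ρ (P.L.tr V.σ z ρ fun s => Jv V.σ z s * Jv V.σ w s - μ) =
      Fl.nu P.L P.W₀ z ρ fun s => Jz z s * Jz w s - μ := by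
    rw [eV, Par.L, (g2 _ le_rfl _).2 ρ (by omega) iH']
    exact (g2 _ le_rfl _).1 ((ins_St hT h iH').abs.mono (by omega))
  rw [← hμ] at r1 ⊢
  rw [← hw.ex_sub_const (hs.ig ((ins_Jv hY V.σ z).2.mul (ins_Jv hY V.σ w).2)),
    tr_mean hT h V.σ iV (FlF4.amb_mono hz (bl_mono _ (by omega)))]
  refine r3.trans ?_
  rw [r4]
  calc _ ≤ C₁ * (C₂ * ((a : ℝ) / ρ) ^ Fl.cw P.W₀ * (C₃ / (ds z w : ℝ) ^ 4)) := by
        refine mul_le_mul_of_nonneg_left (r1.trans ?_) p1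
        gcongr
    _ = _ := by ring

theorem Bd_le (V : Vp) {z w : Pt} (hl : 1 ≤ ds z w) (hr : 1 ≤ V.r) (hd : 2 * ds z w ≤ V.d z) :
    Bd V z w ≤ 1 / (ds z w : ℝ) ^ 4 := by
  have h1 := nb_free V z hl (by omega)
  have h2 := nb_free V w hl (by have := d_lip V z w; omega)
  have h3 := lg_ge (l := min (ds z w) V.r) (by omega)
  have := nb_pos V z (ds z w)
  have := nb_pos V w (ds z w)
  have hl' : (0 : ℝ) < ds z w := by exact_mod_cast hl
  rw [Bd]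
  generalize Real.log (2 + (min (ds z w) V.r : ℕ)) = t at *
  calc _ ≤ 1 / (ds z w : ℝ) ^ 2 * (1 / (ds z w : ℝ) ^ 2) / 1 ^ 2 := by gcongr
    _ = _ := by field_simp

end J41

open J41

theorem jfarStmt (hT : TrStmt) (hC : CovStmt) (hM : MicStmt) (hJ : JnStmt) (hF : FjStmt) (hY : YStmt) :
    JfarStmt := by
  intro P h
  obtain ⟨C₁, r₁, p1, k1⟩ := far hT hC hM hJ hF hY h
  obtain ⟨C₂, p2, k2⟩ := cpair h
  refine ⟨C₁ + C₂, r₁, fun V m R z w h1 h2 hm hz hw hzw => ⟨?_, ?_⟩⟩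
  · refine (k1 V m R z w h1 h2 hm (by omega) (by omega) hzw).trans ?_
    rw [mul_assoc, mul_div_assoc]
    exact mul_le_mul_of_nonneg_right (by linarith) (Bd_nonneg V z w)
  · have t := ds_tri z V.p w
    rw [ds_comm V.p w] at t
    refine ((k2 z w hzw).1 m (amb hm (by omega)) (amb hm (by omega))).trans ?_
    gcongr
    linarith

theorem jnearStmt (hT : TrStmt) (hG : GgStmt) (hC : CovStmt) (hM : MicStmt) (hJ : JnStmt) (hF : FjStmt)
    (hY : YStmt) : JnearStmt := by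
  intro P h
  obtain ⟨C₁, r₁, p1, k1⟩ := far hT hC hM hJ hF hY h
  obtain ⟨C₂, p2, k2⟩ := cpair h
  obtain ⟨C₃, p3, k3⟩ := prod_near hT hG hC hY h
  obtain ⟨C₄, p4, k4⟩ := free hT hC hJ hY h 0
  have hW := h.W2
  have hr := h.r2
  obtain ⟨K, hK⟩ : ∃ K, K = 16 * P.W₀ * P.r₀ := ⟨_, rfl⟩
  have c0 := Fl.cw_pos (w := P.W₀) (by omega)
  have c1 : Fl.cw P.W₀ ≤ 1 := (Fl.cw_le' hW).trans (by norm_num)
  refine ⟨(C₁ + C₂) * K + (C₃ * K + C₄ ^ 2 * (16 * P.W₀) ^ 4), Fl.cw P.W₀, r₁ + 4 * (P.W₀ * P.r₀), c0, c1,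
    fun V m R z w h1 h2 hm hz hzw hd => ?_⟩
  have hl := ds_pos hzw
  have dp : V.d z ≤ ds z V.p := min_le_left _ _
  have t := ds_tri w z V.p
  rw [ds_comm w z] at t
  have e0 : 4 * P.r₀ ≤ P.W₀ * P.r₀ := Nat.mul_le_mul_right _ hW
  have pp : ds V.p V.p = 0 := by simp [ds]
  have m4 : Amb P.L m (bl V.p (4 * V.r)) := amb hm (by omega)
  have hl' : (0 : ℝ) < ds z w := by exact_mod_cast hl
  have hD : (0 : ℝ) < V.d z := by exact_mod_cast (by omega : 0 < V.d z)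
  have hK1 : (1 : ℝ) ≤ K := by
    exact_mod_cast hK ▸ Nat.succ_le_of_lt (by positivity : 0 < 16 * P.W₀ * P.r₀)
  obtain ⟨M, hM⟩ : ∃ M, M = max (ds z w) P.r₀ := ⟨_, rfl⟩
  have hM' : M ≤ P.r₀ * ds z w := by
    have := Nat.le_mul_of_pos_left (ds z w) (show 0 < P.r₀ by omega)
    have := Nat.le_mul_of_pos_right P.r₀ hl
    omega
  obtain ⟨x, hx⟩ : ∃ x : ℝ, x = (ds z w : ℝ) / V.d z := ⟨_, rfl⟩
  have x0 : 0 < x := by rw [hx]; positivity
  have x1 : x ≤ 1 := by rw [hx, div_le_one hD]; exact_mod_cast (by omega : ds z w ≤ V.d z)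
  have x2 : x ≤ x ^ Fl.cw P.W₀ := by
    simpa using Real.rpow_le_rpow_of_exponent_ge x0 x1 c1
  have x3 : 0 < x ^ Fl.cw P.W₀ := by positivity
  rw [← hx]
  by_cases c : V.d z < 16 * P.W₀ * M
  · have a1 : V.d z ≤ K * ds z w := by
      rw [hK, mul_assoc]; exact c.le.trans (Nat.mul_le_mul_left _ hM')
    have a2 : 1 ≤ K * x := by
      rw [hx, ← mul_div_assoc, le_div_iff₀ hD, one_mul]; exact_mod_cast a1
    have a3 := (k1 V m R z w (by omega) h2 hm (by omega) (by omega) hzw).trans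
      (mul_le_mul_of_nonneg_left (Bd_le V hl (by omega) hd) p1)
    have a4 := (k2 z w hzw).1 m (amb hm (by omega)) (amb hm (by omega))
    calc _ ≤ C₁ * (1 / (ds z w : ℝ) ^ 4) + C₂ / (ds z w : ℝ) ^ 4 :=
          (abs_sub _ _).trans (add_le_add a3 a4)
      _ = (C₁ + C₂) / (ds z w : ℝ) ^ 4 * 1 := by ring
      _ ≤ (C₁ + C₂) / (ds z w : ℝ) ^ 4 * (K * x ^ Fl.cw P.W₀) := by
          gcongr
          exact a2.trans (by gcongr)
      _ = (C₁ + C₂) * K / (ds z w : ℝ) ^ 4 * x ^ Fl.cw P.W₀ := by ring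
      _ ≤ _ := by gcongr; exact le_add_of_nonneg_right (by positivity)
  · rw [not_lt] at c
    have c' : 16 * P.W₀ ≤ V.d z := (Nat.le_mul_of_pos_right _ (by omega)).trans c
    obtain ⟨ρ, hρ⟩ : ∃ ρ, ρ = V.d z / (4 * P.W₀) := ⟨_, rfl⟩
    have a1 : 4 * M ≤ ρ := hρ ▸ (Nat.le_div_iff_mul_le (by omega)).2 (le_of_eq_of_le (by ring) c)
    have a2 : 4 * (P.W₀ * ρ) ≤ V.d z := by rw [hρ, ← mul_assoc]; exact Nat.mul_div_le _ _
    have a3 : 1 + V.d z ≤ 2 * (4 * P.W₀) * ρ := hρ ▸ div_lt _ _ (by omega) (by omega)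
    obtain ⟨ρ', hρ'⟩ : ∃ ρ', ρ' = V.d z / (8 * P.W₀) := ⟨_, rfl⟩
    have b1 : 2 * M ≤ ρ' := hρ' ▸ (Nat.le_div_iff_mul_le (by omega)).2 (le_of_eq_of_le (by ring) c)
    have b2 : 8 * (P.W₀ * ρ') ≤ V.d z := by rw [hρ', ← mul_assoc]; exact Nat.mul_div_le _ _
    have b3 : 1 + V.d z ≤ 2 * (8 * P.W₀) * ρ' := hρ' ▸ div_lt _ _ (by omega) (by omega)
    have dl := d_lip V z w
    have q1 := k3 V m z w (2 * M) ρ (by omega) m4 (amb hm (by omega)) hzw (by omega) (by omega)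
      (by omega) a2
    have q2 := (k4 V m (by omega) m4 z ρ' (by omega) (by omega) (amb hm (by omega))).1
    have q3 := (k4 V m (by omega) m4 w ρ' (by omega) (by omega) (amb hm (by omega))).1
    have q4 := div_log zero_le_one (ρ := ρ') (by omega)
    have hρ0 : (0 : ℝ) < ρ := by exact_mod_cast (by omega : 0 < ρ)
    have hρ1 : (0 : ℝ) < ρ' := by exact_mod_cast (by omega : 0 < ρ')
    have y1 : ((2 * M : ℕ) : ℝ) / ρ ≤ K * x := by
      rw [hx, ← mul_div_assoc, div_le_div_iff₀ hρ0 hD]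
      have : 2 * M * V.d z ≤ K * ds z w * ρ :=
        calc _ ≤ 2 * (P.r₀ * ds z w) * (2 * (4 * P.W₀) * ρ) := Nat.mul_le_mul (by omega) (by omega)
          _ = _ := by rw [hK]; ring
      exact_mod_cast this
    have y2 : (((2 * M : ℕ) : ℝ) / ρ) ^ Fl.cw P.W₀ ≤ K * x ^ Fl.cw P.W₀ := by
      refine (Real.rpow_le_rpow (by positivity) y1 c0.le).trans ?_
      rw [Real.mul_rpow (by positivity) x0.le]
      gcongr
      simpa using Real.rpow_le_rpow_of_exponent_le hK1 c1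
    have y3 : 1 / (ρ' : ℝ) ^ 2 * (1 / (ρ' : ℝ) ^ 2) ≤
        (16 * P.W₀) ^ 4 * x ^ Fl.cw P.W₀ / (ds z w : ℝ) ^ 4 := by
      have y4 : (V.d z : ℝ) ≤ 16 * P.W₀ * ρ' := by
        exact_mod_cast (by rw [show 16 * P.W₀ * ρ' = 2 * (8 * P.W₀) * ρ' by ring]; omega :
          V.d z ≤ 16 * P.W₀ * ρ')
      have y5 : x ^ 4 ≤ x ^ Fl.cw P.W₀ := (pow_le_of_le_one x0.le x1 (by omega)).trans x2
      have hW0 : (0 : ℝ) < P.W₀ := by exact_mod_cast (by omega : 0 < P.W₀)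
      calc _ = (16 * (P.W₀ : ℝ)) ^ 4 / (16 * P.W₀ * ρ') ^ 4 := by field_simp
        _ ≤ (16 * (P.W₀ : ℝ)) ^ 4 / (V.d z : ℝ) ^ 4 := by gcongr
        _ = (16 * (P.W₀ : ℝ)) ^ 4 * x ^ 4 / (ds z w : ℝ) ^ 4 := by rw [hx]; field_simp
        _ ≤ _ := by gcongr
    rw [Cv, sub_right_comm]
    refine (abs_sub _ _).trans ?_
    rw [abs_mul]
    calc _ ≤ C₃ * (K * x ^ Fl.cw P.W₀) / (ds z w : ℝ) ^ 4 +
          C₄ * (1 / (ρ' : ℝ) ^ 2) * (C₄ * (1 / (ρ' : ℝ) ^ 2)) := by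
          refine add_le_add (q1.trans (by gcongr)) ?_
          exact mul_le_mul (q2.trans (by gcongr)) (q3.trans (by gcongr)) (abs_nonneg _) (by positivity)
      _ = C₃ * (K * x ^ Fl.cw P.W₀) / (ds z w : ℝ) ^ 4 +
          C₄ ^ 2 * (1 / (ρ' : ℝ) ^ 2 * (1 / (ρ' : ℝ) ^ 2)) := by ring
      _ ≤ C₃ * (K * x ^ Fl.cw P.W₀) / (ds z w : ℝ) ^ 4 +
          C₄ ^ 2 * ((16 * P.W₀) ^ 4 * x ^ Fl.cw P.W₀ / (ds z w : ℝ) ^ 4) := by gcongr
      _ = (C₃ * K + C₄ ^ 2 * (16 * P.W₀) ^ 4) / (ds z w : ℝ) ^ 4 * x ^ Fl.cw P.W₀ := by ring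
      _ ≤ _ := by
          have : 0 ≤ (C₁ + C₂) * K := by positivity
          exact mul_le_mul_of_nonneg_right (div_le_div_of_nonneg_right (by linarith) (by positivity)) x3.le

end Crest.Agent.T145.Vx
end

-- ▼ part T145/VxBs_27
section

/-!
# Row 145, twisted module: lattice sums for Lemma B (helper27)
-/

set_option autoImplicit false

namespace Crest.Agent.T145.Vb27

open Finset Pot

/-- radial sums -/
theorem sum_rad (z : Pt) (f : Pt → ℝ) (g : ℕ → ℝ) (n : ℕ) (h : ∀ x ∈ bl z n, f x ≤ g (sn (x - z))) :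
    ∑ x ∈ bl z n, f x ≤ g 0 + ∑ k ∈ range n, 8 * ((k : ℝ) + 1) * g (k + 1) := by
  have h0 : bl z 0 = {z} := by ext y; rw [mem_bl, mem_singleton, Prod.ext_iff]; omega
  rw [← sum_sdiff (bl_mono z n.zero_le), range_eq_Ico, add_comm]
  refine add_le_add ?_ (sum_shell z f (fun k => g (k + 1)) 0 n fun k _ hk x h1 h2 => ?_)
  · rw [h0, sum_singleton]
    simpa [sn] using h z (self_mem_bl z n)
  · have := h x (bl_mono z hk h1)
    rw [mem_bl_sn] at h1 h2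
    rwa [show sn (x - z) = k + 1 by omega] at this

theorem sum_inv_range (ρ : ℕ) (hρ : 1 ≤ ρ) (n : ℕ) :
    ∑ k ∈ range n, ((ρ : ℝ) + k + 1)⁻¹ ≤ Real.log (((ρ : ℝ) + n) / ρ) := by
  have := sum_inv_le ρ hρ (ρ + n) (by omega)
  rw [sum_Ico_eq_sum_range, Nat.add_sub_cancel_left] at this
  push_cast at this
  exact this

/-- `∑ 1 / (ρ + |x|)²` -/
theorem sum_rho (z : Pt) {ρ : ℕ} (hρ : 1 ≤ ρ) (n : ℕ) :
    ∑ x ∈ bl z n, (((ρ : ℝ) + sn (x - z)) ^ 2)⁻¹ ≤ 1 + 8 * Real.log (((ρ : ℝ) + n) / ρ) := by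
  have r1 : (1 : ℝ) ≤ ρ := by exact_mod_cast hρ
  refine (sum_rad z _ (fun k => (((ρ : ℝ) + k) ^ 2)⁻¹) n fun _ _ => le_rfl).trans (add_le_add ?_ ?_)
  · exact inv_le_one_of_one_le₀ (by simp; nlinarith)
  · refine le_trans ?_ (mul_le_mul_of_nonneg_left (sum_inv_range ρ hρ n) (by norm_num))
    rw [mul_sum]
    refine sum_le_sum fun k _ => ?_
    push_cast
    rw [← add_assoc, mul_assoc]
    refine mul_le_mul_of_nonneg_left ?_ (by norm_num)
    rw [← div_eq_mul_inv, div_le_iff₀ (by positivity), pow_two, inv_mul_cancel_left₀ (by positivity)]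
    linarith

/-- `∑ |x|² / (1 + |x|)⁴` -/
theorem sum_n2 (l : ℕ) : ∑ x ∈ bl 0 l, n2 x / ((sn x : ℝ) + 1) ^ 4 ≤ 4 + 32 * Real.log (1 + l) := by
  have := sum_rho 0 le_rfl l
  simp only [Nat.cast_one, div_one, sub_zero] at this
  refine le_trans ?_ ((mul_le_mul_of_nonneg_left this (by norm_num : (0 : ℝ) ≤ 4)).trans (le_of_eq (by ring)))
  rw [mul_sum]
  refine sum_le_sum fun x _ => ?_
  have a := eu_le_sn x
  have b := eu_nonneg x
  rw [n2_eq, div_le_iff₀ (by positivity), add_comm (1 : ℝ)]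
  have : (4 : ℝ) * (((sn x : ℝ) + 1) ^ 2)⁻¹ * ((sn x : ℝ) + 1) ^ 4 = 4 * ((sn x : ℝ) + 1) ^ 2 := by
    field_simp
  rw [this]
  nlinarith

theorem sum_sqrt (ρ : ℝ) (hρ : 0 < ρ) : ∀ n : ℕ,
    ∑ k ∈ range n, (√((k : ℝ) + 1) * (ρ + k + 1))⁻¹ ≤ 4 / √ρ - 4 / (√ρ + √n)
  | 0 => by simp
  | n + 1 => by
    rw [sum_range_succ]
    have ih := sum_sqrt ρ hρ n
    have a0 := Real.sqrt_pos.2 hρ
    have a1 := Real.sq_sqrt hρ.le
    have b0 := Real.sqrt_nonneg (n : ℝ)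
    have b1 := Real.sq_sqrt (Nat.cast_nonneg (α := ℝ) n)
    have c0 : 0 < √((n : ℝ) + 1) := Real.sqrt_pos.2 (by positivity)
    have c1 : √((n : ℝ) + 1) ^ 2 = n + 1 := Real.sq_sqrt (by positivity)
    have bc : √(n : ℝ) ≤ √((n : ℝ) + 1) := Real.sqrt_le_sqrt (by linarith)
    push_cast
    set p := √ρ
    set q := √(n : ℝ)
    set q' := √((n : ℝ) + 1)
    have key : (q' * (ρ + n + 1))⁻¹ ≤ 4 / (p + q) - 4 / (p + q') := by
      rw [div_sub_div _ _ (by positivity) (by positivity), inv_eq_one_div,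
        div_le_div_iff₀ (by positivity) (by positivity)]
      have e1 : ρ + n + 1 = p ^ 2 + q' ^ 2 := by linarith
      have e2 : (q' - q) * (q' + q) = 1 := by nlinarith
      have e3 : 1 ≤ 2 * q' * (q' - q) := by nlinarith
      have e4 : (p + q) * (p + q') ≤ 2 * (p ^ 2 + q' ^ 2) := by nlinarith [sq_nonneg (p - q')]
      rw [e1]
      nlinarith [mul_le_mul_of_nonneg_left e3 (by positivity : 0 ≤ 2 * (p ^ 2 + q' ^ 2))]
    linarith

/-- `∑ (1 + |x|)^(-3/2) / (ρ + |x|)` -/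
theorem sum_core (z : Pt) {ρ : ℝ} (hρ : 1 ≤ ρ) (n : ℕ) : ∑ x ∈ bl z n,
    √((sn (x - z) : ℝ) + 1) / (((sn (x - z) : ℝ) + 1) ^ 2 * (ρ + sn (x - z))) ≤ 33 / √ρ := by
  have a0 : 0 < √ρ := Real.sqrt_pos.2 (by linarith)
  refine (sum_rad z _ (fun k => √((k : ℝ) + 1) / (((k : ℝ) + 1) ^ 2 * (ρ + k))) n
    fun _ _ => le_rfl).trans ?_
  have h1 : √(((0 : ℕ) : ℝ) + 1) / ((((0 : ℕ) : ℝ) + 1) ^ 2 * (ρ + (0 : ℕ))) ≤ 1 / √ρ := by
    simp only [Nat.cast_zero, zero_add, Real.sqrt_one, one_pow, add_zero, one_mul]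
    exact one_div_le_one_div_of_le a0 (Real.sqrt_le_iff.2 ⟨by linarith, by nlinarith⟩)
  have h2 : ∑ k ∈ range n, 8 * ((k : ℝ) + 1) * (√(((k + 1 : ℕ) : ℝ) + 1) /
      ((((k + 1 : ℕ) : ℝ) + 1) ^ 2 * (ρ + (k + 1 : ℕ)))) ≤
      8 * ∑ k ∈ range n, (√((k : ℝ) + 1) * (ρ + k + 1))⁻¹ := by
    rw [mul_sum]
    refine sum_le_sum fun k _ => ?_
    push_cast
    have c0 : 0 < √((k : ℝ) + 1) := Real.sqrt_pos.2 (by positivity)
    have d0 : 0 < √((k : ℝ) + 1 + 1) := Real.sqrt_pos.2 (by positivity)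
    have c1 : √((k : ℝ) + 1) * √((k : ℝ) + 1 + 1) ≤ k + 1 + 1 := by
      rw [← Real.sqrt_mul (by positivity)]
      exact Real.sqrt_le_iff.2 ⟨by positivity, by nlinarith⟩
    rw [mul_assoc, ← add_assoc ρ]
    refine mul_le_mul_of_nonneg_left ?_ (by norm_num)
    rw [← mul_div_assoc, inv_eq_one_div, div_le_div_iff₀ (by positivity) (by positivity)]
    have : 0 ≤ (ρ + k + 1) := by positivity
    have e : ((k : ℝ) + 1) * (√((k : ℝ) + 1) * √((k : ℝ) + 1 + 1)) ≤ (k + 1 + 1) ^ 2 := by nlinarith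
    nlinarith [mul_le_mul_of_nonneg_right e this]
  have h3 := sum_sqrt ρ (by linarith) n
  have h4 : 0 ≤ 4 / (√ρ + √n) := by positivity
  have : 33 / √ρ = 1 / √ρ + 8 * (4 / √ρ) := by ring
  linarith



end Crest.Agent.T145.Vb27
end

-- ▼ part T145/VxBd_27
section

/-!
# Row 145, twisted module: Lemma B from bounds on the kernel (helper27)
-/

set_option autoImplicit false

namespace Crest.Agent.T145.Vb27

open Finset Pot

/-- (B1), symmetric sets of pairs -/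
theorem pairs2 (D : Finset Pt) (p : Pt → Pt → Prop) [∀ z w, Decidable (p z w)] (f : Pt → Pt → ℝ)
    (B ψ ω ω' : Pt → ℝ) (κ y L : ℝ) (hp : ∀ z w, p z w → p w z) (hκ : 0 ≤ κ) (hy : 0 ≤ y)
    (hB : ∀ z, 0 ≤ B z) (hψ : ∀ z, 0 ≤ ψ z) (hω : ∀ z, 0 ≤ ω z) (hω' : ∀ z, 0 ≤ ω' z)
    (hL : ∀ z ∈ D, ∑ w ∈ D.filter (p z), (eu (w - z) ^ 2)⁻¹ ≤ L)
    (h : ∀ z ∈ D, ∀ w ∈ D, p z w → |f z w| ≤ κ * (B z * B w *
      (y ^ 2 * (eu (w - z) ^ 2)⁻¹ + y * (ψ z + ψ w) + (ω z * ω' w + ω' z * ω w)))) :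
    ∑ z ∈ D, ∑ w ∈ D.filter (p z), |f z w| ≤ κ * (y ^ 2 * L * ∑ z ∈ D, B z ^ 2 +
      2 * y * (∑ z ∈ D, B z * ψ z) * ∑ z ∈ D, B z +
      2 * (∑ z ∈ D, B z * ω z) * ∑ z ∈ D, B z * ω' z) := by
  have a1 : ∑ z ∈ D, ∑ w ∈ D.filter (p z), B z ^ 2 * (eu (w - z) ^ 2)⁻¹ ≤ L * ∑ z ∈ D, B z ^ 2 := by
    rw [mul_sum]
    refine sum_le_sum fun z hz => ?_
    rw [← mul_sum, mul_comm]
    exact mul_le_mul_of_nonneg_right (hL z hz) (sq_nonneg _)
  have a2 : ∑ z ∈ D, ∑ w ∈ D.filter (p z), B w ^ 2 * (eu (w - z) ^ 2)⁻¹ =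
      ∑ z ∈ D, ∑ w ∈ D.filter (p z), B z ^ 2 * (eu (w - z) ^ 2)⁻¹ := by
    simp only [sum_filter]
    rw [sum_comm]
    refine sum_congr rfl fun z _ => sum_congr rfl fun w _ => ?_
    rw [eu_sub_comm z w]
    exact if_congr ⟨hp _ _, hp _ _⟩ rfl rfl
  have a3 : ∑ z ∈ D, ∑ w ∈ D.filter (p z), (y * (B z * ψ z * B w) + y * (B z * (B w * ψ w)) +
      (B z * ω z * (B w * ω' w) + B z * ω' z * (B w * ω w))) ≤
      2 * y * (∑ z ∈ D, B z * ψ z) * ∑ z ∈ D, B z + 2 * (∑ z ∈ D, B z * ω z) * ∑ z ∈ D, B z * ω' z := by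
    refine (sum_le_sum fun z _ => sum_le_sum_of_subset_of_nonneg (filter_subset _ D) fun w _ _ => by
      have := hB z; have := hB w; have := hψ z; have := hψ w; have := hω z; have := hω w
      have := hω' z; have := hω' w; positivity).trans (le_of_eq ?_)
    simp only [sum_add_distrib, ← mul_sum, ← sum_mul]
    ring
  have a4 : ∑ z ∈ D, ∑ w ∈ D.filter (p z), |f z w| ≤ ∑ z ∈ D, ∑ w ∈ D.filter (p z),
      κ * (y ^ 2 / 2 * (B z ^ 2 * (eu (w - z) ^ 2)⁻¹) + y ^ 2 / 2 * (B w ^ 2 * (eu (w - z) ^ 2)⁻¹) +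
        (y * (B z * ψ z * B w) + y * (B z * (B w * ψ w)) +
          (B z * ω z * (B w * ω' w) + B z * ω' z * (B w * ω w)))) :=
    sum_le_sum fun z hz => sum_le_sum fun w hw => by
      refine (h z hz w (mem_filter.1 hw).1 (mem_filter.1 hw).2).trans
        (mul_le_mul_of_nonneg_left ?_ hκ)
      have : 0 ≤ y ^ 2 * (eu (w - z) ^ 2)⁻¹ * (B z - B w) ^ 2 := by positivity
      nlinarith
  have a5 : y ^ 2 / 2 * ∑ z ∈ D, ∑ w ∈ D.filter (p z), B z ^ 2 * (eu (w - z) ^ 2)⁻¹ +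
      y ^ 2 / 2 * ∑ z ∈ D, ∑ w ∈ D.filter (p z), B w ^ 2 * (eu (w - z) ^ 2)⁻¹ ≤
      y ^ 2 * L * ∑ z ∈ D, B z ^ 2 := by
    rw [a2]; nlinarith [mul_le_mul_of_nonneg_left a1 (sq_nonneg y)]
  refine a4.trans (le_trans (le_of_eq ?_) (mul_le_mul_of_nonneg_left
    ((add_le_add a5 a3).trans (le_of_eq (by ring))) hκ))
  simp only [mul_sum, ← sum_add_distrib]

/-- distance to the nearer core -/
def dd (a b z : Pt) : ℕ := min (sn (z - a)) (sn (z - b))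

/-- the gain of the contraction from scale `s` to scale `t` -/
noncomputable def mn (s : ℕ) (t : ℝ) : ℝ := min 1 √(((s : ℝ) + 1) / t)




/-- profile around one core -/
noncomputable def ps (p : Pt) (t : ℝ) (z : Pt) : ℝ := mn (sn (z - p)) t / ((sn (z - p) : ℝ) + 1) ^ 2


/-- the same inside the half distance -/
noncomputable def pw (p : Pt) (r : ℕ) (z : Pt) : ℝ := if 2 * sn (z - p) ≤ r then ps p (r / 2) z else 0


theorem dd_cases (a b z : Pt) : dd a b z = sn (z - a) ∨ dd a b z = sn (z - b) := min_choice _ _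




/-- crude profile -/
noncomputable def qq (a b z : Pt) : ℝ := (((sn (z - a) : ℝ) + 1) ^ 2)⁻¹ + (((sn (z - b) : ℝ) + 1) ^ 2)⁻¹

theorem qq_nonneg (a b z : Pt) : 0 ≤ qq a b z := by unfold qq; positivity

theorem sum_one (p : Pt) {D : Finset Pt} {n : ℕ} (h : D ⊆ bl p n) {T : ℝ} (hT : 1 + Real.log (1 + n) ≤ T) :
    ∑ z ∈ D, (((sn (z - p) : ℝ) + 1) ^ 2)⁻¹ ≤ 8 * T := by
  have := sum_rho p le_rfl n
  simp only [Nat.cast_one, div_one, add_comm (1 : ℝ) (sn _)] at this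
  exact (sum_le_sum_of_subset_of_nonneg h fun _ _ _ => by positivity).trans (by linarith)

theorem min_le_qq (a b z : Pt) (ℓ : ℕ) :
    ((((min ℓ (dd a b z) : ℕ) : ℝ) + 1) ^ 2)⁻¹ ≤ (((ℓ : ℝ) + 1) ^ 2)⁻¹ + qq a b z := by
  have h1 : 0 ≤ (((ℓ : ℝ) + 1) ^ 2)⁻¹ := by positivity
  have h2 : 0 ≤ (((sn (z - a) : ℝ) + 1) ^ 2)⁻¹ := by positivity
  have h3 : 0 ≤ (((sn (z - b) : ℝ) + 1) ^ 2)⁻¹ := by positivity
  unfold qq
  rcases min_choice ℓ (dd a b z) with k | k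
  · rw [k]; linarith
  · rcases dd_cases a b z with k' | k' <;> rw [k, k'] <;> linarith

theorem log_mono {m n : ℕ} (h : m ≤ n) : Real.log (1 + m) ≤ Real.log (1 + n) :=
  Real.log_le_log (by positivity) (by exact_mod_cast Nat.add_le_add_left h 1)

/-- near pairs close to a core -/
theorem bad {a b : Pt} {l l₁ : ℕ} {c : Pt → Pt → ℝ} {K T : ℝ} (hl : 1 ≤ l) (hl₁ : l ≤ l₁) (hK : 0 ≤ K)
    (hT : 1 + Real.log (1 + (sn (b - a) + 2 * l₁ : ℕ)) ≤ T)
    (h : ∀ z w, dd a b z ≤ l₁ → w ∈ bl z l → w ≠ z → |c z w| ≤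
      K * ((((min (sn (w - z)) (dd a b z) : ℕ) : ℝ) + 1) ^ 2)⁻¹ *
        ((((min (sn (w - z)) (dd a b w) : ℕ) : ℝ) + 1) ^ 2)⁻¹) :
    ∑ z ∈ bl a l₁ ∪ bl b l₁, ∑ x ∈ bl 0 l, |c z (z + x)| * n2 x ≤ 40000 * K * T ^ 2 * (l₁ : ℝ) ^ 2 := by
  classical
  set D := bl a (l₁ + l) ∪ bl b (l₁ + l)
  have Da : D ⊆ bl a (sn (b - a) + 2 * l₁) := union_subset (bl_mono a (by omega)) (bl_sub (by omega))
  have Db : D ⊆ bl b (sn (b - a) + 2 * l₁) :=
    union_subset (bl_sub (by rw [sn_comm]; omega)) (bl_mono b (by omega))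
  have T1 : 1 ≤ T := by
    have := Real.log_nonneg (x := 1 + (sn (b - a) + 2 * l₁ : ℕ)) (le_add_of_nonneg_right (by positivity))
    linarith
  have hq : ∑ z ∈ D, qq a b z ≤ 16 * T := by
    simp only [qq, sum_add_distrib]; linarith [sum_one a Da hT, sum_one b Db hT]
  have l1 : (1 : ℝ) ≤ l := by exact_mod_cast hl
  have l2 : (l : ℝ) ≤ l₁ := by exact_mod_cast hl₁
  have hD : (D.card : ℝ) ≤ 50 * (l₁ : ℝ) ^ 2 := by
    have : D.card ≤ (2 * (l₁ + l) + 1) ^ 2 + (2 * (l₁ + l) + 1) ^ 2 :=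
      (card_union_le _ _).trans (by rw [card_bl, card_bl])
    have h2 : (D.card : ℝ) ≤ (2 * (l₁ + l) + 1) ^ 2 + (2 * (l₁ + l) + 1) ^ 2 := by exact_mod_cast this
    nlinarith
  have key := pairs2 D (fun z w => w ∈ bl z l ∧ w ≠ z)
    (fun z w => if dd a b z ≤ l₁ then |c z w| * n2 (w - z) else 0) (fun _ => 1) (qq a b)
    (fun z => 2 * l * qq a b z) (fun z => 2 * l * qq a b z) K 4 (32 * T)
    (fun z w h => ⟨mem_bl_comm.1 h.1, h.2.symm⟩) hK (by norm_num) (fun _ => zero_le_one) (qq_nonneg a b)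
    (fun z => by have := qq_nonneg a b z; positivity) (fun z => by have := qq_nonneg a b z; positivity)
    (fun z _ => by
      have := sum_one z (D := D.filter fun w => w ∈ bl z l ∧ w ≠ z) (n := l)
        (fun w hw => (mem_filter.1 hw).2.1) (T := T) (by linarith [log_mono (by omega :
          l ≤ sn (b - a) + 2 * l₁)])
      refine le_trans (sum_le_sum fun w hw => ?_) ((le_of_eq (mul_sum _ _ 4).symm).trans (by linarith))
      have e1 := sn_le_eu (w - z)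
      have e2 := one_le_eu (sub_ne_zero.2 (mem_filter.1 hw).2.2)
      rw [← div_eq_mul_inv, inv_eq_one_div, div_le_div_iff₀ (by positivity) (by positivity)]
      nlinarith [Nat.cast_nonneg (α := ℝ) (sn (w - z))])
    (fun z _ w _ hp => by
      have q1 := qq_nonneg a b z
      have q2 := qq_nonneg a b w
      split_ifs with hz
      swap
      · rw [abs_zero]; positivity
      have e0 := one_le_eu (sub_ne_zero.2 hp.2)
      have e1 := eu_le_sn (w - z)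
      have e2 : (sn (w - z) : ℝ) ≤ l := by exact_mod_cast mem_bl_sn.1 hp.1
      set t := (((sn (w - z) : ℝ) + 1) ^ 2)⁻¹
      have t0 : 0 ≤ t := by positivity
      have t1 : eu (w - z) ^ 2 * t ≤ 4 := by
        rw [← div_eq_mul_inv, div_le_iff₀ (by positivity)]; nlinarith
      have t2 : eu (w - z) ^ 2 * (t * t) ≤ 4 ^ 2 * (eu (w - z) ^ 2)⁻¹ := by
        rw [← div_eq_mul_inv (4 ^ 2 : ℝ), le_div_iff₀ (by positivity)]
        linarith [mul_le_mul t1 t1 (by positivity) (by norm_num)]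
      have t3 : eu (w - z) ^ 2 ≤ 4 * (l : ℝ) ^ 2 := by nlinarith
      have a1 := (h z w hz hp.1 hp.2).trans (mul_le_mul (mul_le_mul_of_nonneg_left
        (min_le_qq a b z _) hK) (min_le_qq a b w _) (by positivity) (by positivity))
      rw [abs_of_nonneg (mul_nonneg (abs_nonneg _) (n2_nonneg _)), n2_eq]
      refine (mul_le_mul_of_nonneg_right a1 (sq_nonneg _)).trans ?_
      rw [mul_assoc, mul_assoc]
      refine mul_le_mul_of_nonneg_left ?_ hK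
      have b1 := mul_le_mul_of_nonneg_right t1 q1
      have b2 := mul_le_mul_of_nonneg_right t1 q2
      have b3 := mul_le_mul_of_nonneg_right t3 (mul_nonneg q1 q2)
      have b4 : 0 ≤ (l : ℝ) ^ 2 * (qq a b z * qq a b w) := by positivity
      linarith)
  have k1 : ∑ z ∈ bl a l₁ ∪ bl b l₁, ∑ x ∈ bl 0 l, |c z (z + x)| * n2 x ≤ ∑ z ∈ D,
      ∑ w ∈ D.filter (fun w => w ∈ bl z l ∧ w ≠ z),
        |if dd a b z ≤ l₁ then |c z w| * n2 (w - z) else 0| := by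
    refine le_trans (sum_le_sum fun z hz => ?_) (sum_le_sum_of_subset_of_nonneg
      (union_subset_union (bl_mono a (by omega)) (bl_mono b (by omega))) fun _ _ _ =>
        sum_nonneg fun _ _ => abs_nonneg _)
    have hz' : dd a b z ≤ l₁ ∧ bl z l ⊆ D := by
      rcases mem_union.1 hz with k | k <;> rw [mem_bl_sn] at k
      · exact ⟨(min_le_left _ _).trans k, (bl_sub (by omega)).trans subset_union_left⟩
      · exact ⟨(min_le_right _ _).trans k, (bl_sub (by omega)).trans subset_union_right⟩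
    have e := sum_bl_shift z l fun w => |c z w| * n2 (w - z)
    simp only [add_sub_cancel_left] at e
    rw [← e, ← sum_subset (s₁ := D.filter fun w => w ∈ bl z l ∧ w ≠ z)
      (fun w hw => (mem_filter.1 hw).2.1) fun w hw hw' => by
        have : w = z := by_contra fun k => hw' (mem_filter.2 ⟨hz'.2 hw, hw, k⟩)
        simp [this, n2]]
    exact sum_le_sum fun w _ => by rw [if_pos hz'.1]; exact le_abs_self _
  refine (k1.trans key).trans ?_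
  simp only [one_pow, one_mul, sum_const, nsmul_eq_mul, mul_one, ← mul_sum]
  have q0 : 0 ≤ ∑ z ∈ D, qq a b z := sum_nonneg fun z _ => qq_nonneg a b z
  set Q := ∑ z ∈ D, qq a b z
  have T2 : T ≤ T ^ 2 := by nlinarith
  have c1 : T * D.card ≤ T ^ 2 * (50 * (l₁ : ℝ) ^ 2) := mul_le_mul T2 hD (by positivity) (by positivity)
  have c2 : Q * D.card ≤ 16 * T ^ 2 * (50 * (l₁ : ℝ) ^ 2) :=
    mul_le_mul (by linarith) hD (by positivity) (by positivity)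
  have c3 : l * Q ≤ l₁ * (16 * T) := mul_le_mul l2 hq q0 (by positivity)
  have c4 := mul_le_mul c3 c3 (by positivity) (by positivity)
  rw [show 40000 * K * T ^ 2 * (l₁ : ℝ) ^ 2 = K * (40000 * (T ^ 2 * (l₁ : ℝ) ^ 2)) by ring]
  refine mul_le_mul_of_nonneg_left ?_ hK
  have : 0 ≤ T ^ 2 * (l₁ : ℝ) ^ 2 := by positivity
  linarith


end Crest.Agent.T145.Vb27
end

-- ▼ part T145/VxLa_27
section

/-!
# Row 145, twisted module: Lemma B, far pairs (helper27)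
-/

set_option autoImplicit false

namespace Crest.Agent.T145.Vx.Lb27

open Finset Vb27 Pot

theorem ds_eq (z w : Pt) : ds z w = sn (z - w) := rfl

theorem d_eq (V : Vp) (z : Pt) : V.d z = dd V.p V.q z := rfl

theorem sn_qp (V : Vp) : sn (V.q - V.p) = V.r := by
  rcases V with ⟨a, r, _ | _⟩ <;> simp [Vp.q, Vp.p, Vp.sw, sn]

theorem ds_comm (z w : Pt) : ds z w = ds w z := sn_comm z w

theorem ds_tri (x y z : Pt) : ds x z ≤ ds x y + ds y z := sn_tri x y z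

theorem ds_pq (V : Vp) : ds V.p V.q = V.r := by rw [ds_comm, ds_eq, sn_qp]

/-- the envelope -/
noncomputable def BB (V : Vp) (ρ : ℕ) (z : Pt) : ℝ := al V.p ρ z * al V.q ρ z

theorem al_nonneg (p : Pt) (ρ : ℕ) (z : Pt) : 0 ≤ al p ρ z := by unfold al; positivity

theorem BB_nonneg (V : Vp) (ρ : ℕ) (z : Pt) : 0 ≤ BB V ρ z := mul_nonneg (al_nonneg _ _ _) (al_nonneg _ _ _)

theorem BB_le1 {V : Vp} {ρ : ℕ} (hρ : 1 ≤ ρ) (z : Pt) : BB V ρ z ≤ (((ρ : ℝ) + V.d z) ^ 2)⁻¹ := by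
  have r0 : (0 : ℝ) < ρ := by exact_mod_cast hρ
  have a : (V.d z : ℝ) ≤ ds z V.p := by exact_mod_cast min_le_left _ _
  have b : (V.d z : ℝ) ≤ ds z V.q := by exact_mod_cast min_le_right _ _
  rw [BB, al, al, one_div_mul_one_div, one_div, pow_two]
  exact inv_anti₀ (by positivity) (mul_le_mul (by linarith) (by linarith) (by positivity) (by positivity))

theorem BB_le2 {V : Vp} {ρ : ℕ} (hρ : 1 ≤ ρ) (hr : 1 ≤ V.r) (z : Pt) :
    BB V ρ z ≤ 2 / V.r * ((ρ : ℝ) + V.d z)⁻¹ := by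
  have r0 : (0 : ℝ) < ρ := by exact_mod_cast hρ
  have r1 : (0 : ℝ) < V.r := by exact_mod_cast hr
  have t := ds_tri V.p z V.q
  rw [ds_pq, ds_comm V.p z] at t
  have t' : (V.r : ℝ) ≤ ds z V.p + ds z V.q := by exact_mod_cast t
  rw [BB, al, al, one_div_mul_one_div, ← div_eq_mul_inv, div_div,
    div_le_div_iff₀ (by positivity) (by positivity), Vp.d]
  rcases le_total (ds z V.p) (ds z V.q) with k | k
  · have k' : (ds z V.p : ℝ) ≤ ds z V.q := by exact_mod_cast k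
    rw [min_eq_left k]
    nlinarith [mul_le_mul_of_nonneg_left (by linarith : (V.r : ℝ) ≤ 2 * (ρ + ds z V.q))
      (by positivity : 0 ≤ (ρ : ℝ) + ds z V.p)]
  · have k' : (ds z V.q : ℝ) ≤ ds z V.p := by exact_mod_cast k
    rw [min_eq_right k]
    nlinarith [mul_le_mul_of_nonneg_left (by linarith : (V.r : ℝ) ≤ 2 * (ρ + ds z V.p))
      (by positivity : 0 ≤ (ρ : ℝ) + ds z V.q)]

theorem sum_d {V : Vp} {D : Finset Pt} {n : ℕ} (hp : D ⊆ bl V.p n) (hq : D ⊆ bl V.q n) (f : ℕ → ℝ)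
    (hf : ∀ k, 0 ≤ f k) {X : ℝ} (h : ∀ c, ∑ z ∈ bl c n, f (sn (z - c)) ≤ X) :
    ∑ z ∈ D, f (V.d z) ≤ 2 * X := by
  have k : ∀ c, D ⊆ bl c n → ∑ z ∈ D, f (sn (z - c)) ≤ X := fun c hc =>
    (sum_le_sum_of_subset_of_nonneg hc fun _ _ _ => hf _).trans (h c)
  refine le_trans (sum_le_sum fun z _ => ?_) ((le_of_eq sum_add_distrib).trans
    ((add_le_add (k _ hp) (k _ hq)).trans (by linarith)))
  have := hf (sn (z - V.p)); have := hf (sn (z - V.q))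
  rcases dd_cases V.p V.q z with k | k <;> rw [d_eq, k] <;> linarith

/-- `∑ 1 / ((ρ + |x|) (1 + |x|))` -/
theorem sum_mix (z : Pt) {ρ : ℕ} (hρ : 1 ≤ ρ) (n : ℕ) :
    ∑ x ∈ bl z n, ((ρ : ℝ) + sn (x - z))⁻¹ * (1 + (sn (x - z) : ℝ))⁻¹ ≤
      1 + 8 * Real.log (((ρ : ℝ) + n) / ρ) := by
  have r1 : (1 : ℝ) ≤ ρ := by exact_mod_cast hρ
  refine (sum_rad z _ (fun k => ((ρ : ℝ) + k)⁻¹ * (1 + (k : ℝ))⁻¹) n fun _ _ => le_rfl).trans
    (add_le_add ?_ ?_)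
  · simpa using inv_le_one_of_one_le₀ r1
  · refine le_trans ?_ (mul_le_mul_of_nonneg_left (sum_inv_range ρ hρ n) (by norm_num))
    rw [mul_sum]
    refine sum_le_sum fun k _ => ?_
    push_cast
    rw [← add_assoc, mul_assoc, mul_left_comm ((k : ℝ) + 1)]
    refine mul_le_mul_of_nonneg_left (mul_le_of_le_one_right (by positivity) ?_) (by norm_num)
    rw [← div_eq_mul_inv, div_le_one (by positivity)]
    linarith

/-- profile at a core -/
noncomputable def ph (k : ℕ) : ℝ := (1 + (k : ℝ)) ^ (-(21 / 20 : ℝ))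

/-- profile of the partner -/
noncomputable def om (r k : ℕ) : ℝ := (1 + ((min k r : ℕ) : ℝ)) ^ (-(19 / 20 : ℝ))

theorem ph_nonneg (k : ℕ) : 0 ≤ ph k := Real.rpow_nonneg (by positivity) _

theorem om_nonneg (r k : ℕ) : 0 ≤ om r k := Real.rpow_nonneg (by positivity) _

theorem rp_anti {x y e : ℝ} (hx : 0 < x) (h : x ≤ y) (he : 0 ≤ e) : y ^ (-e) ≤ x ^ (-e) :=
  Real.rpow_le_rpow_of_nonpos hx h (by linarith)

theorem rp_two {x y : ℝ} (hx : 0 < x) (h : x ≤ 2 * y) :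
    y ^ (-(19 / 20 : ℝ)) ≤ 2 * x ^ (-(19 / 20 : ℝ)) := by
  refine (rp_anti (x := x / 2) (by positivity) (by linarith) (by norm_num)).trans ?_
  rw [Real.div_rpow hx.le (by norm_num), Real.rpow_neg (by norm_num : (0 : ℝ) ≤ 2), div_inv_eq_mul,
    mul_comm]
  refine mul_le_mul_of_nonneg_right ?_ (Real.rpow_nonneg hx.le _)
  simpa using Real.rpow_le_rpow_of_exponent_le (by norm_num : (1 : ℝ) ≤ 2) (by norm_num : (19 / 20 : ℝ) ≤ 1)

theorem sq_split {x : ℝ} (hx : 0 < x) : (x ^ 2)⁻¹ = x ^ (-(21 / 20 : ℝ)) * x ^ (-(19 / 20 : ℝ)) := by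
  rw [← Real.rpow_add hx, show -(21 / 20 : ℝ) + -(19 / 20) = -((2 : ℕ) : ℝ) by norm_num,
    Real.rpow_neg hx.le, Real.rpow_natCast]

theorem nb_nonneg (V : Vp) (z : Pt) (l : ℕ) : 0 ≤ nb V z l := by
  unfold nb; split_ifs <;> positivity

theorem nb_le (V : Vp) (z : Pt) (l : ℕ) : nb V z l ≤ ((((min l (V.d z) : ℕ) : ℝ) + 1) ^ 2)⁻¹ := by
  unfold nb
  split_ifs with h
  · rw [min_comm, add_comm, one_div]
  · rw [min_eq_right (by omega : V.d z ≤ l), sq_split (by positivity), add_comm (1 : ℝ)]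
    refine mul_le_mul_of_nonneg_left (rp_anti (by positivity) ?_ (by norm_num)) (by positivity)
    exact_mod_cast (by omega : V.d z + 1 ≤ min l V.r)

theorem nb_far {V : Vp} {z : Pt} {l : ℕ} (hl : 1 ≤ l) (h : l ≤ 4 * V.d z) :
    (l : ℝ) ^ 2 * nb V z l ≤ 16 := by
  have l0 : (0 : ℝ) < l := by exact_mod_cast hl
  have e : (l : ℝ) ≤ 4 * (((min l (V.d z) : ℕ) : ℝ) + 1) := by
    exact_mod_cast (by omega : l ≤ 4 * (min l (V.d z) + 1))
  refine (mul_le_mul_of_nonneg_left (nb_le V z l) (by positivity)).trans ?_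
  rw [← div_eq_mul_inv, div_le_iff₀ (by positivity)]
  nlinarith

theorem nb_core {V : Vp} {z : Pt} {l k : ℕ} (hr : 1 ≤ V.r) (h : V.d z < l) (hk : k ≤ V.d z + l) :
    nb V z l ≤ 2 * (ph (V.d z) * om V.r k) := by
  have p0 := ph_nonneg (V.d z)
  have o0 := om_nonneg V.r k
  unfold nb
  split_ifs with h1
  · rw [min_eq_left h.le, one_div, sq_split (by positivity)]
    refine le_trans (mul_le_mul_of_nonneg_left (rp_anti (x := 1 + ((min k V.r : ℕ) : ℝ)) (by positivity) ?_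
      (by norm_num)) p0) (by rw [← om, ← ph]; nlinarith [mul_nonneg p0 o0])
    exact_mod_cast (by omega : 1 + min k V.r ≤ 1 + V.d z)
  · rw [mul_left_comm]
    refine mul_le_mul_of_nonneg_left (rp_two (by positivity) ?_) p0
    exact_mod_cast (by omega : 1 + min k V.r ≤ 2 * min l V.r)

theorem d_lip (V : Vp) (z w : Pt) : V.d w ≤ V.d z + ds z w := by
  have a := ds_tri w z V.p
  have b := ds_tri w z V.q
  rw [ds_comm w z] at a b
  unfold Vp.d; omega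

theorem d_two {V : Vp} {z w : Pt} (h1 : 4 * V.d z < ds z w) (h2 : 4 * V.d w < ds z w) :
    ds z w ≤ 2 * V.r ∧ V.r ≤ 2 * ds z w := by
  have a1 := ds_tri z V.p w
  have a2 := ds_tri z V.q w
  have a3 := ds_tri V.p V.q w
  have a4 := ds_tri V.q V.p w
  have a5 := ds_tri V.p z V.q
  have a6 := ds_tri z w V.q
  have a7 := ds_tri V.p w V.q
  have a8 := ds_tri w z V.q
  have := ds_comm V.q V.p; have := ds_pq V; have := ds_comm V.p w; have := ds_comm V.q w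
  have := ds_comm V.p z; have := ds_comm w z
  unfold Vp.d at h1 h2; omega

theorem far_nb {V : Vp} {z w : Pt} (hr : 1 ≤ V.r) (hl : 1 ≤ ds z w) :
    (ds z w : ℝ) ^ 2 * (nb V z (ds z w) * nb V w (ds z w)) ≤ 32 ^ 2 * (eu (w - z) ^ 2)⁻¹ +
      (ph (V.d z) * (32 * om V.r (V.d w) + 8 * ((V.r : ℝ) ^ (1 / 20 : ℝ)) ^ 2 * ph (V.d w)) +
        (32 * om V.r (V.d z) + 8 * ((V.r : ℝ) ^ (1 / 20 : ℝ)) ^ 2 * ph (V.d z)) * ph (V.d w)) := by
  set l := ds z w with hl'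
  have l0 : (0 : ℝ) < l := by exact_mod_cast hl
  have r0 : (0 : ℝ) < V.r := by exact_mod_cast hr
  have p1 := ph_nonneg (V.d z); have p2 := ph_nonneg (V.d w)
  have o1 := om_nonneg V.r (V.d z); have o2 := om_nonneg V.r (V.d w)
  have n1 := nb_nonneg V z l; have n2 := nb_nonneg V w l
  have e0 : 0 ≤ (eu (w - z) ^ 2)⁻¹ := by positivity
  have q1 := mul_nonneg p1 o2; have q2 := mul_nonneg o1 p2
  have q3 := mul_nonneg (sq_nonneg ((V.r : ℝ) ^ (1 / 20 : ℝ))) (mul_nonneg p1 p2)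
  by_cases h1 : l ≤ 4 * V.d z <;> by_cases h2 : l ≤ 4 * V.d w
  · have a := mul_le_mul (nb_far hl h1) (nb_far hl h2) (by positivity) (by norm_num)
    have e1 : eu (w - z) ≤ 2 * l := by rw [hl', ds_comm]; exact eu_le_sn _
    have e2 : (l : ℝ) ≤ eu (w - z) := by rw [hl', ds_comm]; exact sn_le_eu (w - z)
    have : (l : ℝ) ^ 2 * (nb V z l * nb V w l) ≤ 32 ^ 2 * (eu (w - z) ^ 2)⁻¹ := by
      rw [← div_eq_mul_inv, le_div_iff₀ (by have := l0.trans_le e2; positivity)]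
      nlinarith [mul_le_mul_of_nonneg_left (by nlinarith : eu (w - z) ^ 2 ≤ 4 * (l : ℝ) ^ 2)
        (by positivity : 0 ≤ (l : ℝ) ^ 2 * (nb V z l * nb V w l))]
    nlinarith
  · have a := nb_core (k := V.d z) hr (by omega : V.d w < l) (by rw [hl', ds_comm]; exact d_lip V w z)
    have b := mul_le_mul (nb_far hl h1) a n2 (by norm_num)
    nlinarith
  · have a := nb_core (k := V.d w) hr (by omega : V.d z < l) (d_lip V z w)
    have b := mul_le_mul (nb_far hl h2) a n1 (by norm_num)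
    nlinarith
  · obtain ⟨g1, g2⟩ := d_two (V := V) (z := z) (w := w) (by omega) (by omega)
    have k : ∀ x, ¬ l ≤ 4 * V.d x → nb V x l ≤ ph (V.d x) * (2 * (V.r : ℝ) ^ (-(19 / 20 : ℝ))) :=
      fun x hx => by
        rw [nb, if_neg (by omega)]
        refine mul_le_mul_of_nonneg_left (rp_two r0 ?_) (ph_nonneg _)
        exact_mod_cast (by omega : V.r ≤ 2 * min l V.r)
    have a := mul_le_mul (k z h1) (k w h2) n2 (by positivity)
    have g3 : (l : ℝ) ^ 2 ≤ 4 * (V.r : ℝ) ^ 2 := by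
      have : (l : ℝ) ≤ 2 * V.r := by exact_mod_cast g1
      nlinarith
    have e : (V.r : ℝ) * (V.r : ℝ) ^ (-(19 / 20 : ℝ)) = (V.r : ℝ) ^ (1 / 20 : ℝ) := by
      rw [← Real.rpow_one_add' r0.le (by norm_num)]; norm_num
    have b := mul_le_mul g3 a (by positivity) (by positivity)
    rw [← e] at q3 ⊢
    nlinarith

section sums
variable {V : Vp} {D : Finset Pt} {ρ n : ℕ} {T : ℝ} (hρ : 1 ≤ ρ) (hr : ρ ≤ V.r) (hp : D ⊆ bl V.p n)
  (hq : D ⊆ bl V.q n) (hT : 1 + Real.log (((ρ : ℝ) + n) / ρ) ≤ T)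
include hρ hp hq hT

omit hp hq in
theorem one_le_T : 1 ≤ T := by
  have r0 : (0 : ℝ) < ρ := by exact_mod_cast hρ
  have := Real.log_nonneg (x := ((ρ : ℝ) + n) / ρ) ((one_le_div r0).2 (by simp))
  linarith

theorem sum_a : ∑ z ∈ D, (((ρ : ℝ) + V.d z) ^ 2)⁻¹ ≤ 16 * T :=
  (sum_d hp hq (fun k => (((ρ : ℝ) + k) ^ 2)⁻¹) (fun _ => by positivity)
    fun c => sum_rho c hρ n).trans (by linarith)

theorem sum_b : ∑ z ∈ D, ((ρ : ℝ) + V.d z)⁻¹ * (1 + (V.d z : ℝ))⁻¹ ≤ 16 * T :=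
  (sum_d hp hq (fun k => ((ρ : ℝ) + k)⁻¹ * (1 + (k : ℝ))⁻¹) (fun _ => by positivity)
    fun c => sum_mix c hρ n).trans (by linarith)

include hr

theorem sum_BB2 : ∑ z ∈ D, BB V ρ z ^ 2 ≤ 64 * T / (V.r : ℝ) ^ 2 := by
  refine le_trans (sum_le_sum fun z _ => ?_) ((le_of_eq (mul_sum _ _ ((2 / (V.r : ℝ)) ^ 2)).symm).trans
    ((mul_le_mul_of_nonneg_left (sum_a hρ hp hq hT) (by positivity)).trans (le_of_eq (by ring))))
  rw [← inv_pow, ← mul_pow]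
  exact pow_le_pow_left₀ (BB_nonneg _ _ _) (BB_le2 hρ (hρ.trans hr) z) 2

theorem sum_ph : ∑ z ∈ D, BB V ρ z * ph (V.d z) ≤ 164 * T * (ρ : ℝ) ^ (-(1 / 20 : ℝ)) / V.r := by
  have r1 : (1 : ℝ) ≤ ρ := by exact_mod_cast hρ
  have a0 : 0 < √(ρ : ℝ) := Real.sqrt_pos.2 (by linarith)
  have T1 := one_le_T hρ hT
  have s1 := sum_d hp hq (fun k => √((k : ℝ) + 1) / (((k : ℝ) + 1) ^ 2 * (ρ + k))) (fun _ => by positivity)
    fun c => sum_core c r1 n
  have s2 := add_le_add (sum_b hρ hp hq hT) (mul_le_mul_of_nonneg_left s1 a0.le)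
  rw [mul_sum, ← sum_add_distrib, show √(ρ : ℝ) * (2 * (33 / √ρ)) = 66 by field_simp; ring] at s2
  have b0 : 0 ≤ (ρ : ℝ) ^ (-(1 / 20 : ℝ)) := by positivity
  refine le_trans (sum_le_sum fun z _ => ?_) ((le_of_eq (mul_sum _ _
    (2 / (V.r : ℝ) * (ρ : ℝ) ^ (-(1 / 20 : ℝ)))).symm).trans ((mul_le_mul_of_nonneg_left
      (s2.trans (by linarith : _ ≤ 82 * T)) (by positivity)).trans (le_of_eq (by ring))))
  refine (mul_le_mul_of_nonneg_right (BB_le2 hρ (hρ.trans hr) z) (ph_nonneg _)).trans ?_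
  rw [mul_assoc, mul_assoc]
  refine mul_le_mul_of_nonneg_left ?_ (by positivity)
  set x : ℝ := (V.d z : ℝ) + 1 with hx
  have x0 : 0 < x := by positivity
  have c0 : 0 < √x := Real.sqrt_pos.2 x0
  have e1 : ph (V.d z) = x⁻¹ * x ^ (-(1 / 20 : ℝ)) := by
    rw [ph, add_comm, ← hx, ← Real.rpow_neg_one, ← Real.rpow_add x0]; norm_num
  have e2 : x ^ (-(1 / 20 : ℝ)) ≤ (ρ : ℝ) ^ (-(1 / 20 : ℝ)) * (1 + √ρ / √x) := by
    rcases le_total (ρ : ℝ) x with k | k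
    · exact (rp_anti (by linarith) k (by norm_num)).trans
        (le_mul_of_one_le_right b0 (le_add_of_nonneg_right (by positivity)))
    · have : x ^ (-(1 / 20 : ℝ)) = (ρ : ℝ) ^ (-(1 / 20 : ℝ)) * ((ρ : ℝ) / x) ^ (1 / 20 : ℝ) := by
        rw [Real.div_rpow (by positivity) x0.le, Real.rpow_neg x0.le, Real.rpow_neg (by positivity)]
        have : 0 < (ρ : ℝ) ^ (1 / 20 : ℝ) := by positivity
        field_simp
      rw [this]
      refine mul_le_mul_of_nonneg_left (le_trans ?_ (le_add_of_nonneg_left zero_le_one)) b0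
      rw [← Real.sqrt_div (by positivity), Real.sqrt_eq_rpow]
      exact Real.rpow_le_rpow_of_exponent_le ((one_le_div x0).2 k) (by norm_num)
  rw [e1]
  refine (mul_le_mul_of_nonneg_left (mul_le_mul_of_nonneg_left e2 (by positivity)) (by positivity)).trans
    (le_of_eq ?_)
  rw [add_comm (1 : ℝ) (V.d z), ← hx]
  have e3 : x = √x * √x := (Real.mul_self_sqrt x0.le).symm
  generalize √x = y at *
  rw [e3]
  field_simp

theorem sum_om : ∑ z ∈ D, BB V ρ z * om V.r (V.d z) ≤ 64 * T * (V.r : ℝ) ^ (1 / 20 : ℝ) / V.r := by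
  have r1 : (1 : ℝ) ≤ ρ := by exact_mod_cast hρ
  have r2 : (1 : ℝ) ≤ V.r := by exact_mod_cast hρ.trans hr
  have a0 : 0 ≤ (V.r : ℝ) ^ (1 / 20 : ℝ) := by positivity
  refine le_trans (sum_le_sum fun z _ => ?_) ((le_of_eq (mul_sum _ _
    (4 * (V.r : ℝ) ^ (1 / 20 : ℝ) / V.r)).symm).trans ((mul_le_mul_of_nonneg_left
      (sum_b hρ hp hq hT) (by positivity)).trans (le_of_eq (by ring))))
  have sp : ∀ x : ℝ, 0 < x → x ^ (-(19 / 20 : ℝ)) = x ^ (1 / 20 : ℝ) * x⁻¹ := fun x hx => by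
    rw [← Real.rpow_neg_one, ← Real.rpow_add hx]; norm_num
  rcases le_total (V.d z) V.r with k | k
  · have k' : (V.d z : ℝ) ≤ V.r := by exact_mod_cast k
    have e : (1 + (V.d z : ℝ)) ^ (1 / 20 : ℝ) ≤ 2 * (V.r : ℝ) ^ (1 / 20 : ℝ) := by
      refine (Real.rpow_le_rpow (by positivity) (by linarith : _ ≤ 2 * (V.r : ℝ)) (by norm_num)).trans ?_
      rw [Real.mul_rpow (by norm_num) (by positivity)]
      refine mul_le_mul_of_nonneg_right ?_ a0
      simpa using Real.rpow_le_rpow_of_exponent_le (by norm_num : (1 : ℝ) ≤ 2)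
        (by norm_num : (1 / 20 : ℝ) ≤ 1)
    rw [om, min_eq_left k, sp _ (by positivity)]
    exact (mul_le_mul (BB_le2 hρ (hρ.trans hr) z) (mul_le_mul_of_nonneg_right e (by positivity))
      (by positivity) (by positivity)).trans (le_of_eq (by ring))
  · have e : om V.r (V.d z) ≤ (V.r : ℝ) ^ (1 / 20 : ℝ) * (V.r : ℝ)⁻¹ := by
      rw [om, min_eq_right k, ← sp _ (by linarith)]
      exact rp_anti (by linarith) (by linarith) (by norm_num)
    have e2 : (((ρ : ℝ) + V.d z) ^ 2)⁻¹ ≤ ((ρ : ℝ) + V.d z)⁻¹ * (1 + (V.d z : ℝ))⁻¹ := by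
      rw [pow_two, mul_inv]
      exact mul_le_mul_of_nonneg_left (inv_anti₀ (by positivity) (by linarith)) (by positivity)
    refine (mul_le_mul ((BB_le1 hρ z).trans e2) e (om_nonneg _ _) (by positivity)).trans ?_
    rw [mul_comm]
    refine mul_le_mul_of_nonneg_right ?_ (by positivity)
    rw [div_eq_mul_inv]
    exact mul_le_mul_of_nonneg_right (by linarith) (by positivity)

end sums

theorem A_nonneg {p : Pt} {ρ : ℕ} {A : ℝ} {u : Pt → ℝ} (hρ : 1 ≤ ρ) (h : Dip p ρ A u) : 0 ≤ A := by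
  have r0 : (0 : ℝ) < ρ := by exact_mod_cast hρ
  have : 0 < al p ρ p := by unfold al; positivity
  exact nonneg_of_mul_nonneg_left ((abs_nonneg _).trans (h.b0 p)) this

theorem abs_Ph {V : Vp} {ρ : ℕ} {A A' : ℝ} {u u' : Pt → ℝ} (hu : Dip V.p ρ A u) (hu' : Dip V.q ρ A' u')
    (z w : Pt) : |Vb27.Ph u u' z w| ≤ A * A' * (BB V ρ z * BB V ρ w * (ds z w : ℝ) ^ 2) := by
  rw [Vb27.Ph, abs_mul]
  refine (mul_le_mul (hu.b1 z w) (hu'.b1 z w) (abs_nonneg _) ((abs_nonneg _).trans (hu.b1 z w))).trans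
    (le_of_eq ?_)
  unfold BB; ring

/-- far pairs -/
theorem farE {V : Vp} {ρ l N : ℕ} {A A' Y T : ℝ} {u u' χ : Pt → ℝ} {c : Pt → Pt → ℝ} (hl : 1 ≤ l)
    (hρ : l ≤ ρ) (hr : ρ ≤ V.r) (hN : l ≤ N) (hY : 0 ≤ Y) (hu : Dip V.p ρ A u) (hu' : Dip V.q ρ A' u')
    (hχ : ∀ z, |χ z| ≤ 1) (hT : 1 + Real.log (2 * (N + V.r : ℕ) / l) ≤ T)
    (h : ∀ z ∈ bl V.p N, ∀ w ∈ bl V.p N, l < ds z w →
      |c z w| ≤ Y * (nb V z (ds z w) * nb V w (ds z w))) :
    |∑ z ∈ bl V.p N, ∑ w ∈ bl V.p N \ bl z l, χ z * χ w * Vb27.Ph u u' z w * c z w| ≤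
      2 * 10 ^ 6 * (A * A') * Y * T ^ 2 * ((V.r : ℝ) / ρ) ^ (1 / 10 : ℝ) / (V.r : ℝ) ^ 2 := by
  classical
  have l0 : (1 : ℝ) ≤ l := by exact_mod_cast hl
  have l1 : (l : ℝ) ≤ ρ := by exact_mod_cast hρ
  have l2 : (ρ : ℝ) ≤ V.r := by exact_mod_cast hr
  have l3 : (l : ℝ) ≤ N := by exact_mod_cast hN
  have ρ1 := hl.trans hρ
  have kk : 0 ≤ A * A' := mul_nonneg (A_nonneg ρ1 hu) (A_nonneg ρ1 hu')
  have lg : ∀ x : ℝ, 0 < x → x ≤ 2 * (N + V.r : ℕ) / l → 1 + Real.log x ≤ T := fun x h0 h1 => by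
    linarith [Real.log_le_log h0 h1]
  have n0 : ((N + V.r : ℕ) : ℝ) = N + V.r := by push_cast; rfl
  have Da : bl V.p N ⊆ bl V.p (N + V.r) := bl_mono _ (by omega)
  have Db : bl V.p N ⊆ bl V.q (N + V.r) := bl_sub (by rw [sn_comm, sn_qp])
  have hT' := lg (((ρ : ℝ) + (N + V.r : ℕ)) / ρ) (by have : (0 : ℝ) < ρ := by linarith
                                                     positivity) (by
    rw [n0]; exact div_le_div₀ (by positivity) (by linarith) (by linarith) l1)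
  have T1 := one_le_T ρ1 hT'
  set a := (V.r : ℝ) ^ (1 / 20 : ℝ) with ha
  set b := (ρ : ℝ) ^ (-(1 / 20 : ℝ)) with hb
  have a0 : 0 ≤ a := by positivity
  have b0 : 0 ≤ b := by positivity
  have ab : a * b = ((V.r : ℝ) / ρ) ^ (1 / 20 : ℝ) := by
    rw [Real.div_rpow (by positivity) (by positivity), hb, Real.rpow_neg (by positivity)]; rfl
  have ab1 : 1 ≤ a * b := by
    rw [ab]; exact Real.one_le_rpow ((one_le_div (by linarith)).2 l2) (by norm_num)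
  have ab2 : ((V.r : ℝ) / ρ) ^ (1 / 10 : ℝ) = (a * b) ^ 2 := by
    rw [ab, ← Real.rpow_natCast, ← Real.rpow_mul (by positivity)]; norm_num
  have key := pairs2 (bl V.p N) (fun z w => w ∉ bl z l)
    (fun z w => χ z * χ w * Vb27.Ph u u' z w * c z w) (BB V ρ) (fun _ => 0) (fun z => ph (V.d z))
    (fun z => 32 * om V.r (V.d z) + 8 * a ^ 2 * ph (V.d z)) (A * A' * Y) 32 (8 * T)
    (fun z w h1 h2 => h1 (mem_bl_comm.1 h2)) (by positivity) (by norm_num) (BB_nonneg V ρ)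
    (fun _ => le_rfl) (fun z => ph_nonneg _)
    (fun z => by have := om_nonneg V.r (V.d z); have := ph_nonneg (V.d z); positivity)
    (fun z hz => by
      refine (sum_le_sum_of_subset_of_nonneg (t := bl z (2 * N) \ bl z l) (fun w hw => mem_sdiff.2
        ⟨bl_sub (by rw [sn_comm]; have := mem_bl_sn.1 hz; omega) (mem_filter.1 hw).1,
          (mem_filter.1 hw).2⟩) fun _ _ _ => by positivity).trans
        ((sum_inv_sq z hl (by omega)).trans ?_)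
      have := lg (((2 * N : ℕ) : ℝ) / l) (by push_cast; exact div_pos (by linarith) (by linarith))
        (by rw [n0]; push_cast; gcongr; linarith)
      linarith)
    (fun z hz w hw hp => by
      have hp' : l < ds z w := by rw [mem_bl_sn, sn_comm, ← ds_eq] at hp; omega
      have a1 := far_nb (V := V) (z := z) (w := w) (by omega) (by omega)
      have a2 := abs_Ph hu hu' z w
      have a3 := mul_le_mul a2 (h z hz w hw hp') (abs_nonneg _) ((abs_nonneg _).trans a2)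
      have a4 : |χ z| * |χ w| ≤ 1 := mul_le_one₀ (hχ z) (abs_nonneg _) (hχ w)
      have b1 := mul_nonneg (BB_nonneg V ρ z) (BB_nonneg V ρ w)
      rw [mul_assoc, abs_mul, abs_mul, abs_mul]
      refine (mul_le_of_le_one_left (by positivity) a4).trans (a3.trans ?_)
      refine le_trans (le_of_eq (by ring)) ((mul_le_mul_of_nonneg_left (mul_le_mul_of_nonneg_left a1 b1)
        (mul_nonneg kk hY)).trans (le_of_eq (by ring))))
  refine (abs_sum_le_sum_abs _ _).trans ((sum_le_sum fun z _ => (abs_sum_le_sum_abs _ _).trans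
    (le_of_eq (by rw [sdiff_eq_filter]))).trans (key.trans ?_))
  have s2 := sum_BB2 ρ1 hr Da Db hT'
  have s3 := sum_ph ρ1 hr Da Db hT'
  have s4 := sum_om ρ1 hr Da Db hT'
  have s5 : ∑ z ∈ bl V.p N, BB V ρ z * (32 * om V.r (V.d z) + 8 * a ^ 2 * ph (V.d z)) ≤
      32 * (64 * T * a / V.r) + 8 * a ^ 2 * (164 * T * b / V.r) := by
    refine le_trans (le_of_eq ?_) (add_le_add (mul_le_mul_of_nonneg_left s4 (by norm_num))
      (mul_le_mul_of_nonneg_left s3 (by positivity)))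
    rw [mul_sum, mul_sum, ← sum_add_distrib]
    exact sum_congr rfl fun _ _ => by ring
  have s6 := mul_le_mul s3 s5 (sum_nonneg fun z _ => mul_nonneg (BB_nonneg _ _ _) (by
    have := om_nonneg V.r (V.d z); have := ph_nonneg (V.d z); positivity)) (by positivity)
  have s7 := mul_le_mul_of_nonneg_left s2 (by positivity : 0 ≤ 32 ^ 2 * (8 * T))
  have t0 : 0 ≤ T ^ 2 / (V.r : ℝ) ^ 2 := by positivity
  have t1 := mul_le_mul_of_nonneg_left (by nlinarith : 1 ≤ (a * b) ^ 2) t0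
  have t2 := mul_le_mul_of_nonneg_left (by nlinarith : a * b ≤ (a * b) ^ 2) t0
  rw [ab2, show 2 * 10 ^ 6 * (A * A') * Y * T ^ 2 * (a * b) ^ 2 / (V.r : ℝ) ^ 2 =
    A * A' * Y * (2 * 10 ^ 6 * (T ^ 2 / (V.r : ℝ) ^ 2 * (a * b) ^ 2)) by ring]
  refine mul_le_mul_of_nonneg_left ?_ (by positivity)
  simp only [mul_zero, sum_const_zero, zero_mul, add_zero]
  have e1 : 32 ^ 2 * (8 * T) * (64 * T / (V.r : ℝ) ^ 2) = 524288 * (T ^ 2 / (V.r : ℝ) ^ 2 * 1) := by ring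
  have e2 : 164 * T * b / V.r * (32 * (64 * T * a / V.r) + 8 * a ^ 2 * (164 * T * b / V.r)) =
      335872 * (T ^ 2 / (V.r : ℝ) ^ 2 * (a * b)) + 215168 * (T ^ 2 / (V.r : ℝ) ^ 2 * (a * b) ^ 2) := by ring
  have t3 : 0 ≤ T ^ 2 / (V.r : ℝ) ^ 2 * (a * b) ^ 2 := by positivity
  rw [e1] at s7
  rw [e2] at s6
  linarith

end Crest.Agent.T145.Vx.Lb27
end

-- ▼ part T145/VxLb_27
section

/-!
# Row 145, twisted module: the deterministic Lemma B with a site dependent kernel (helper27)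
-/

set_option autoImplicit false

namespace Crest.Agent.T145.Vx.Lb27

open Finset Vb27 Pot

/-- size of the gradient -/
noncomputable def G1 (u : Pt → ℝ) (z : Pt) : ℝ := |df 0 u z| + |df 1 u z|

/-- the second moments of `k` are `-2 g δ` up to `2 η` -/
def Mom (k : Pt → ℝ) (l : ℕ) (g η : ℝ) : Prop := ∀ i j : Fin 2,
  |-(1 / 2) * ∑ x ∈ bl 0 l, k x * (co i x * co j x) - (if i = j then g else 0)| ≤ η

theorem near2 {u u' : Pt → ℝ} {K L K' L' g η : ℝ} (hu : Sm2 u K L) (hu' : Sm2 u' K' L') {k : Pt → ℝ}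
    {l : ℕ} (hk : Mom k l g η) (z : Pt) :
    |∑ x ∈ bl 0 l, Vb27.Ph u u' z (z + x) * k x + 2 * g * gg u u' z| ≤
      8 * l * (K / L ^ 2 * (K' / L') + K / L * (K' / L' ^ 2)) * ∑ x ∈ bl 0 l, |k x| * n2 x +
        2 * η * (G1 u z * G1 u' z) := by
  have e1 : |∑ x ∈ bl 0 l, Vb27.Ph u u' z (z + x) * k x - ∑ x ∈ bl 0 l,
      (df 0 u z * x.1 + df 1 u z * x.2) * (df 0 u' z * x.1 + df 1 u' z * x.2) * k x| ≤
      8 * l * (K / L ^ 2 * (K' / L') + K / L * (K' / L' ^ 2)) * ∑ x ∈ bl 0 l, |k x| * n2 x := by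
    rw [← sum_sub_distrib, mul_sum]
    refine (abs_sum_le_sum_abs _ _).trans (sum_le_sum fun x hx => ?_)
    obtain ⟨a1, a2, -⟩ := tay hu z hx
    obtain ⟨b1, -, b3⟩ := tay hu' z hx
    set p := df 0 u z * x.1 + df 1 u z * x.2
    set p' := df 0 u' z * x.1 + df 1 u' z * x.2
    have e2 : Vb27.Ph u u' z (z + x) * k x - p * p' * k x =
        ((u (z + x) - u z - p) * (u' (z + x) - u' z) + p * (u' (z + x) - u' z - p')) * k x := by
      unfold Vb27.Ph; ring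
    rw [e2, abs_mul, n2_eq]
    have c1 := mul_le_mul a1 b3 (abs_nonneg _) ((abs_nonneg _).trans a1)
    have c2 := mul_le_mul a2 b1 (abs_nonneg _) ((abs_nonneg _).trans a2)
    have c3 := abs_add_le ((u (z + x) - u z - p) * (u' (z + x) - u' z)) (p * (u' (z + x) - u' z - p'))
    rw [abs_mul, abs_mul] at c3
    refine (mul_le_mul_of_nonneg_right (c3.trans (add_le_add c1 c2)) (abs_nonneg _)).trans (le_of_eq ?_)
    ring
  set m : Fin 2 → Fin 2 → ℝ := fun i j =>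
    -(1 / 2) * ∑ x ∈ bl 0 l, k x * (co i x * co j x) - (if i = j then g else 0) with hm
  have e2 : ∑ x ∈ bl 0 l, (df 0 u z * x.1 + df 1 u z * x.2) * (df 0 u' z * x.1 + df 1 u' z * x.2) * k x +
      2 * g * gg u u' z = -2 * (df 0 u z * df 0 u' z * m 0 0 + df 0 u z * df 1 u' z * m 0 1 +
        df 1 u z * df 0 u' z * m 1 0 + df 1 u z * df 1 u' z * m 1 1) := by
    have : ∀ x : Pt, (df 0 u z * x.1 + df 1 u z * x.2) * (df 0 u' z * x.1 + df 1 u' z * x.2) * k x =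
        df 0 u z * df 0 u' z * (k x * (co 0 x * co 0 x)) + df 0 u z * df 1 u' z * (k x * (co 0 x * co 1 x)) +
          df 1 u z * df 0 u' z * (k x * (co 1 x * co 0 x)) +
            df 1 u z * df 1 u' z * (k x * (co 1 x * co 1 x)) := fun x => by simp [co]; ring
    simp only [this, sum_add_distrib, ← mul_sum, gg, hm]
    simp; ring
  have t : ∀ i j, |df i u z * df j u' z * m i j| ≤ |df i u z| * |df j u' z| * η := fun i j => by
    rw [abs_mul, abs_mul]; exact mul_le_mul_of_nonneg_left (hk i j) (by positivity)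
  obtain ⟨a1, a2⟩ := abs_le.1 e1
  obtain ⟨b1, b2⟩ := abs_le.1 (t 0 0)
  obtain ⟨c1, c2⟩ := abs_le.1 (t 0 1)
  obtain ⟨d1, d2⟩ := abs_le.1 (t 1 0)
  obtain ⟨f1, f2⟩ := abs_le.1 (t 1 1)
  rw [abs_le, G1, G1]
  constructor <;> linarith

theorem master2 {D S : Finset Pt} {l : ℕ} {χ u u' : Pt → ℝ} {c k : Pt → Pt → ℝ}
    {K L K' L' E₀ E₁ g η H : ℝ} (hc : ∀ z w, c z w = c w z) (hSD : S ⊆ D)
    (hS : ∀ z ∈ S, ∀ w ∈ bl z l, w ∈ D ∧ χ w = 1)
    (hS' : ∀ z ∈ D, z ∉ S → ∀ w ∈ bl z l, Vb27.Ph u u' z w = 0) (hu : Sm2 u K L) (hu' : Sm2 u' K' L')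
    (hk : ∀ z ∈ S, Mom (k z) l g η) (hH : ∀ z ∈ S, ∑ x ∈ bl 0 l, |k z x| * n2 x ≤ H)
    (h0 : |∑ z ∈ D, ∑ w ∈ D \ bl z l, χ z * χ w * Vb27.Ph u u' z w * c z w| ≤ E₀)
    (hE : ∑ z ∈ S, ∑ x ∈ bl 0 l, |c z (z + x) - k z x| * n2 x ≤ E₁) :
    |∑ z ∈ D, ∑ w ∈ D, χ z * u z * (χ w * u' w) * c z w - g * ∑ z ∈ S, gg u u' z| ≤
      |∑ z ∈ D, ∑ w ∈ D, χ z * u z * u' z * χ w * c z w| + E₀ / 2 + 2 * (K / L * (K' / L')) * E₁ +
        4 * l * (K / L ^ 2 * (K' / L') + K / L * (K' / L' ^ 2)) * S.card * H +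
          η * ∑ z ∈ S, G1 u z * G1 u' z := by
  have e1 : ∑ z ∈ D, ∑ w ∈ D, χ z * χ w * Vb27.Ph u u' z w * c z w =
      ∑ z ∈ D, ∑ w ∈ D \ bl z l, χ z * χ w * Vb27.Ph u u' z w * c z w +
        ∑ z ∈ S, ∑ x ∈ bl 0 l, Vb27.Ph u u' z (z + x) * c z (z + x) := by
    have a1 : ∀ z ∈ D, ∑ w ∈ D, χ z * χ w * Vb27.Ph u u' z w * c z w =
        ∑ w ∈ D \ bl z l, χ z * χ w * Vb27.Ph u u' z w * c z w +
          ∑ w ∈ D ∩ bl z l, χ z * χ w * Vb27.Ph u u' z w * c z w := fun z _ => by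
      rw [← sum_sdiff (inter_subset_left (s₁ := D) (s₂ := bl z l)), sdiff_inter_self_left]
    rw [sum_congr rfl a1, sum_add_distrib]
    congr 1
    rw [← sum_subset hSD fun z hz hz' => sum_eq_zero fun w hw => by
      rw [hS' z hz hz' w (mem_inter.1 hw).2]; ring]
    refine sum_congr rfl fun z hz => ?_
    rw [inter_eq_right.2 fun w hw => (hS z hz w hw).1,
      ← sum_bl_shift z l fun w => Vb27.Ph u u' z w * c z w]
    exact sum_congr rfl fun w hw => by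
      rw [(hS z hz w hw).2, (hS z hz z (self_mem_bl z l)).2]; ring
  have k1 : 0 ≤ K / L := (abs_nonneg _).trans (hu.1 0 0)
  have k1' : 0 ≤ K' / L' := (abs_nonneg _).trans (hu'.1 0 0)
  have k2 : 0 ≤ K / L ^ 2 := (abs_nonneg _).trans (hu.2 0 0 0)
  have k2' : 0 ≤ K' / L' ^ 2 := (abs_nonneg _).trans (hu'.2 0 0 0)
  have e2 : |∑ z ∈ S, ∑ x ∈ bl 0 l, Vb27.Ph u u' z (z + x) * c z (z + x) -
      ∑ z ∈ S, ∑ x ∈ bl 0 l, Vb27.Ph u u' z (z + x) * k z x| ≤ 4 * (K / L * (K' / L')) * E₁ := by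
    refine le_trans ?_ (mul_le_mul_of_nonneg_left hE (by positivity))
    rw [← sum_sub_distrib, mul_sum]
    refine (abs_sum_le_sum_abs _ _).trans (sum_le_sum fun z _ => ?_)
    rw [← sum_sub_distrib, mul_sum]
    refine (abs_sum_le_sum_abs _ _).trans (sum_le_sum fun x _ => ?_)
    rw [← mul_sub, abs_mul]
    refine (mul_le_mul_of_nonneg_right (abs_Ph_le hu hu' z x) (abs_nonneg _)).trans (le_of_eq ?_)
    ring
  have e3 : |∑ z ∈ S, ∑ x ∈ bl 0 l, Vb27.Ph u u' z (z + x) * k z x + 2 * g * ∑ z ∈ S, gg u u' z| ≤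
      S.card * (8 * l * (K / L ^ 2 * (K' / L') + K / L * (K' / L' ^ 2)) * H) +
        2 * η * ∑ z ∈ S, G1 u z * G1 u' z := by
    rw [mul_sum, ← sum_add_distrib, ← nsmul_eq_mul, ← sum_const, mul_sum, ← sum_add_distrib]
    exact (abs_sum_le_sum_abs _ _).trans (sum_le_sum fun z hz => (near2 hu hu' (hk z hz) z).trans
      (add_le_add (mul_le_mul_of_nonneg_left (hH z hz) (by positivity)) le_rfl))
  have e4 := alg D χ u u' c hc
  rw [e1] at e4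
  obtain ⟨a1, a2⟩ := abs_le.1 h0
  obtain ⟨b1, b2⟩ := abs_le.1 e2
  obtain ⟨c1, c2⟩ := abs_le.1 e3
  have d1 := le_abs_self (∑ z ∈ D, ∑ w ∈ D, χ z * u z * u' z * χ w * c z w)
  have d2 := neg_abs_le (∑ z ∈ D, ∑ w ∈ D, χ z * u z * u' z * χ w * c z w)
  rw [abs_le]
  constructor <;> linarith

/-- all near pairs -/
theorem nearE2 {V : Vp} {l l₁ : ℕ} {c k : Pt → Pt → ℝ} {K K₁ ε T : ℝ} {S : Finset Pt}
    (hl : 1 ≤ l) (hl₁ : l ≤ l₁) (hK : 0 ≤ K) (hK₁ : 0 ≤ K₁) (hε : 0 ≤ ε)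
    (hT : 1 + Real.log (1 + (V.r + 2 * l₁ : ℕ)) ≤ T)
    (h : ∀ z w, V.d z ≤ l₁ → w ∈ bl z l → w ≠ z → |c z w| ≤ K * (nb V z (ds z w) * nb V w (ds z w)))
    (hB : bl V.p l₁ ∪ bl V.q l₁ ⊆ S)
    (hk : ∀ z ∈ S, ∀ x ∈ bl 0 l, x ≠ 0 → |k z x| ≤ K₁ / (sn x : ℝ) ^ 4)
    (hg : ∀ z ∈ S, l₁ < V.d z → ∀ x ∈ bl 0 l, x ≠ 0 → |c z (z + x) - k z x| ≤ ε / (sn x : ℝ) ^ 4) :
    (∀ z ∈ S, ∑ x ∈ bl 0 l, |k z x| * n2 x ≤ 512 * K₁ * T) ∧
    ∑ z ∈ S, ∑ x ∈ bl 0 l, |c z (z + x) - k z x| * n2 x ≤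
      512 * ε * T * S.card + (40000 * K * T ^ 2 + 9216 * K₁ * T) * (l₁ : ℝ) ^ 2 := by
  classical
  have s1 : ∑ x ∈ bl 0 l, n2 x / ((sn x : ℝ) + 1) ^ 4 ≤ 32 * T :=
    (sum_n2 l).trans (by linarith [log_mono (by omega : l ≤ V.r + 2 * l₁)])
  have s2 : ∀ (f : Pt → ℝ) (e : ℝ), 0 ≤ e → (∀ x ∈ bl 0 l, x ≠ 0 → |f x| ≤ e / (sn x : ℝ) ^ 4) →
      ∑ x ∈ bl 0 l, |f x| * n2 x ≤ 512 * e * T := fun f e he hf => by
    refine le_trans (sum_le_sum fun x hx => ?_) ((le_of_eq (mul_sum _ _ (16 * e)).symm).trans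
      ((mul_le_mul_of_nonneg_left s1 (by positivity)).trans (le_of_eq (by ring))))
    by_cases h0 : x = 0
    · simp [h0, n2]
    have x1 : (1 : ℝ) ≤ sn x := by
      exact_mod_cast (by rw [Prod.ext_iff] at h0; simp at h0; unfold sn; omega : 1 ≤ sn x)
    refine (mul_le_mul_of_nonneg_right ((hf x hx h0).trans (?_ : _ ≤ 16 * e / ((sn x : ℝ) + 1) ^ 4))
      (n2_nonneg x)).trans (le_of_eq (by ring))
    rw [div_le_div_iff₀ (by positivity) (by positivity)]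
    have := pow_le_pow_left₀ (by positivity) (by linarith : (sn x : ℝ) + 1 ≤ 2 * sn x) 4
    nlinarith [mul_le_mul_of_nonneg_left this he]
  have T0 : 0 ≤ T := by
    linarith [(sum_nonneg fun x _ => div_nonneg (n2_nonneg x) (by positivity)).trans s1]
  refine ⟨fun z hz => s2 _ K₁ hK₁ (hk z hz), ?_⟩
  set Bd := bl V.p l₁ ∪ bl V.q l₁
  rw [← sum_filter_add_sum_filter_not S (fun z => l₁ < V.d z)]
  refine add_le_add ?_ ?_
  · refine (sum_le_card_nsmul _ _ _ fun z hz =>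
      s2 _ ε hε (hg z (mem_filter.1 hz).1 (mem_filter.1 hz).2)).trans ?_
    rw [nsmul_eq_mul, mul_comm]
    exact mul_le_mul_of_nonneg_left (by exact_mod_cast card_filter_le _ _) (by positivity)
  · have sub : S.filter (fun z => ¬ l₁ < V.d z) ⊆ Bd := fun z hz => by
      have := (mem_filter.1 hz).2
      rw [mem_union, mem_bl_sn, mem_bl_sn]
      rw [d_eq] at this
      rcases dd_cases V.p V.q z with k | k <;> omega
    have l1 : (1 : ℝ) ≤ l₁ := by exact_mod_cast hl.trans hl₁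
    have cB : (Bd.card : ℝ) ≤ 18 * (l₁ : ℝ) ^ 2 := by
      have : Bd.card ≤ (2 * l₁ + 1) ^ 2 + (2 * l₁ + 1) ^ 2 :=
        (card_union_le _ _).trans (by rw [card_bl, card_bl])
      have h2 : (Bd.card : ℝ) ≤ (2 * l₁ + 1) ^ 2 + (2 * l₁ + 1) ^ 2 := by exact_mod_cast this
      nlinarith
    have b1 := bad (a := V.p) (b := V.q) (c := c) (T := T) hl hl₁ hK (by rw [sn_qp]; exact hT) fun z w h1 h2 h3 => by
      refine (h z w h1 h2 h3).trans ?_
      rw [mul_assoc, sn_comm]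
      exact mul_le_mul_of_nonneg_left (mul_le_mul (nb_le V z _) (nb_le V w _) (nb_nonneg _ _ _)
        (by positivity)) hK
    have b2 : ∑ z ∈ Bd, ∑ x ∈ bl 0 l, |k z x| * n2 x ≤ 18 * (l₁ : ℝ) ^ 2 * (512 * K₁ * T) := by
      refine (sum_le_card_nsmul _ _ _ fun z hz => s2 _ K₁ hK₁ (hk z (hB hz))).trans ?_
      rw [nsmul_eq_mul]
      exact mul_le_mul_of_nonneg_right cB (by positivity)
    refine (sum_le_sum_of_subset_of_nonneg sub fun _ _ _ => sum_nonneg fun x _ =>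
      mul_nonneg (abs_nonneg _) (n2_nonneg x)).trans (le_trans ?_ ((add_le_add b1 b2).trans
        (le_of_eq (by ring))))
    rw [← sum_add_distrib]
    refine sum_le_sum fun z _ => ?_
    rw [← sum_add_distrib]
    exact sum_le_sum fun x _ => by
      rw [← add_mul]; exact mul_le_mul_of_nonneg_right (abs_sub _ _) (n2_nonneg x)

theorem al_le {p : Pt} {ρ : ℕ} (hρ : 1 ≤ ρ) (z : Pt) : al p ρ z ≤ 1 / ρ :=
  one_div_le_one_div_of_le (by exact_mod_cast hρ) (le_add_of_nonneg_right (by positivity))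

theorem ds_ev (z : Pt) (i : Fin 2) : ds (z + ev i) z = 1 := by
  fin_cases i <;> simp [ds, ev]

theorem df_le {p : Pt} {ρ : ℕ} {A : ℝ} {u : Pt → ℝ} (h : Dip p ρ A u) (i : Fin 2) (z : Pt) :
    |df i u z| ≤ A * (al p ρ (z + ev i) * al p ρ z) := by
  have := h.b1 (z + ev i) z
  rwa [ds_ev, Nat.cast_one, mul_one, mul_assoc] at this

theorem sm2 {p : Pt} {ρ : ℕ} {A : ℝ} {u : Pt → ℝ} (hρ : 1 ≤ ρ) (h : Dip p ρ A u) : Sm2 u (A / ρ) ρ := by
  have a0 := A_nonneg hρ h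
  refine ⟨fun i x => (df_le h i x).trans ((mul_le_mul_of_nonneg_left (mul_le_mul (al_le hρ _)
    (al_le hρ _) (al_nonneg _ _ _) (by positivity)) a0).trans (le_of_eq (by ring))),
    fun i j x => (h.b2 i j x).trans ((div_le_div_of_nonneg_right (mul_le_mul_of_nonneg_left
      (pow_le_pow_left₀ (al_nonneg _ _ _) (al_le hρ _) 2) a0) (by positivity)).trans
        (le_of_eq (by ring)))⟩

theorem G1_le {p : Pt} {ρ : ℕ} {A : ℝ} {u : Pt → ℝ} (hρ : 1 ≤ ρ) (h : Dip p ρ A u) (z : Pt) :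
    G1 u z ≤ 4 * A * al p ρ z ^ 2 := by
  have r1 : (1 : ℝ) ≤ ρ := by exact_mod_cast hρ
  have k : ∀ i, |df i u z| ≤ A * (2 * al p ρ z * al p ρ z) := fun i => by
    refine (df_le h i z).trans (mul_le_mul_of_nonneg_left (mul_le_mul_of_nonneg_right ?_
      (al_nonneg _ _ _)) (A_nonneg hρ h))
    have t := ds_tri z (z + ev i) p
    rw [ds_comm z (z + ev i), ds_ev] at t
    have t' : (ds z p : ℝ) ≤ 1 + ds (z + ev i) p := by exact_mod_cast t
    rw [al, al, mul_one_div, div_le_div_iff₀ (by positivity) (by positivity)]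
    linarith [Nat.cast_nonneg (α := ℝ) (ds (z + ev i) p)]
  unfold G1; linarith [k 0, k 1]

theorem en_eq {p : Pt} {M n : ℕ} {u : Pt → ℝ} (h : M + 1 ≤ n) (su : Sup (bl p M) u) (u' : Pt → ℝ) :
    En u u' = ∑ z ∈ bl p n, gg u u' z := by
  rw [En, finsum_eq_sum_of_support_subset (s := bl p n)]
  · exact sum_congr rfl fun z _ => by rw [Fin.sum_univ_two, gg]
  · intro z hz
    by_contra hn
    have k : ∀ i, df i u z = 0 := fun i => by
      have t := ds_tri z (z + ev i) p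
      rw [ds_comm z (z + ev i), ds_ev] at t
      have hn' : ¬ ds z p ≤ n := fun e => hn (mem_coe.2 (mem_bl_sn.2 e))
      rw [df, su z fun e => hn' ((mem_bl_sn.1 e).trans (by omega)),
        su _ fun e => hn' (by have : ds (z + ev i) p ≤ M := mem_bl_sn.1 e; omega), sub_zero]
    exact hz (by simp [k])

/-- **Lemma B from the bounds on the kernel** -/
theorem det2 {V : Vp} {ρ l l₁ M N : ℕ} {A A' Y T T' K K₁ ε g η : ℝ} {u u' χ : Pt → ℝ}
    {c k : Pt → Pt → ℝ} (hc : ∀ z w, c z w = c w z) (hl : 1 ≤ l) (hρ : l ≤ ρ) (hl₁ : l ≤ l₁)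
    (hr : ρ ≤ V.r) (hM : V.r + l₁ ≤ M) (hN : M + 2 * l ≤ N) (hY : 0 ≤ Y) (hK : 0 ≤ K) (hK₁ : 0 ≤ K₁)
    (hε : 0 ≤ ε) (hu : Dip V.p ρ A u) (hu' : Dip V.q ρ A' u') (su : Sup (bl V.p M) u)
    (su' : Sup (bl V.p M) u') (hχ : ∀ z, |χ z| ≤ 1) (χ1 : ∀ z ∈ bl V.p (M + 2 * l), χ z = 1)
    (hT : 1 + Real.log (2 * (N + V.r : ℕ) / l) ≤ T) (hT' : 1 + Real.log (1 + (V.r + 2 * l₁ : ℕ)) ≤ T')
    (far : ∀ z ∈ bl V.p N, ∀ w ∈ bl V.p N, l < ds z w →
      |c z w| ≤ Y * (nb V z (ds z w) * nb V w (ds z w)))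
    (cru : ∀ z w, V.d z ≤ l₁ → w ∈ bl z l → w ≠ z → |c z w| ≤ K * (nb V z (ds z w) * nb V w (ds z w)))
    (hk : ∀ z ∈ bl V.p (M + l), ∀ x ∈ bl 0 l, x ≠ 0 → |k z x| ≤ K₁ / (sn x : ℝ) ^ 4)
    (good : ∀ z ∈ bl V.p (M + l), l₁ < V.d z → ∀ x ∈ bl 0 l, x ≠ 0 →
      |c z (z + x) - k z x| ≤ ε / (sn x : ℝ) ^ 4)
    (mom : ∀ z ∈ bl V.p (M + l), Mom (k z) l g η) :
    |∑ z ∈ bl V.p N, ∑ w ∈ bl V.p N, u z * u' w * c z w - g * En u u'| ≤
      |∑ z ∈ bl V.p N, ∑ w ∈ bl V.p N, u z * u' z * χ w * c z w| + A * A' *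
        ((10 ^ 6 * Y * T ^ 2 * ((V.r : ℝ) / ρ) ^ (1 / 10 : ℝ) + 1024 * η * T) / (V.r : ℝ) ^ 2 +
          (1024 * ε * T' * (2 * (M + l) + 1) ^ 2 + (80000 * K * T' ^ 2 + 18432 * K₁ * T') * (l₁ : ℝ) ^ 2) /
            (ρ : ℝ) ^ 4 + 4096 * K₁ * T' * l * (2 * (M + l) + 1) ^ 2 / (ρ : ℝ) ^ 5) := by
  have ρ1 := hl.trans hρ
  have r0 : (0 : ℝ) < ρ := by exact_mod_cast ρ1
  have f := farE hl hρ hr (by omega) hY hu hu' hχ hT far
  obtain ⟨n1, n2'⟩ := nearE2 hl hl₁ hK hK₁ hε hT' cru (union_subset (bl_mono _ (by omega))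
    (bl_sub (by rw [sn_qp]; omega))) hk good
  have m := master2 (D := bl V.p N) (S := bl V.p (M + l)) hc (bl_mono _ (by omega)) (fun z hz w hw => by
      have : w ∈ bl V.p (M + 2 * l) := bl_subset_bl hz (by omega) hw
      exact ⟨bl_mono _ hN this, χ1 w this⟩)
    (fun z _ hz w hw => by
      have h1 : z ∉ bl V.p M := fun h => hz (bl_mono _ (by omega) h)
      have h2 : w ∉ bl V.p M := fun h => hz (bl_subset_bl h (by omega) (mem_bl_comm.1 hw))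
      rw [Vb27.Ph, su z h1, su w h2, sub_self, zero_mul])
    (sm2 ρ1 hu) (sm2 ρ1 hu') mom n1 f n2'
  have one : ∀ {v : Pt → ℝ}, Sup (bl V.p M) v → ∀ z, χ z * v z = v z := fun hv z => by
    by_cases h : z ∈ bl V.p M
    · rw [χ1 z (bl_mono _ (by omega) h), one_mul]
    · rw [hv z h, mul_zero]
  simp only [one su, one su'] at m
  rw [← en_eq (by omega : M + 1 ≤ M + l) su u', card_bl] at m
  refine m.trans ?_
  have a0 := A_nonneg ρ1 hu
  have a0' := A_nonneg ρ1 hu'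
  have η0 : 0 ≤ η := (abs_nonneg _).trans (mom V.p (self_mem_bl _ _) 0 0)
  have s : ∑ z ∈ bl V.p (M + l), G1 u z * G1 u' z ≤ 16 * (A * A') * (64 * T / (V.r : ℝ) ^ 2) := by
    have l0 : (0 : ℝ) < l := by exact_mod_cast hl
    have l1 : (l : ℝ) ≤ ρ := by exact_mod_cast hρ
    have l2 : ρ + (N + V.r) ≤ 2 * (N + V.r) := by omega
    have := sum_BB2 (D := bl V.p (M + l)) (n := N + V.r) (T := T) ρ1 hr (bl_mono _ (by omega))
      (bl_sub (by rw [sn_comm, sn_qp]; omega)) (le_trans (add_le_add le_rfl (Real.log_le_log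
        (by positivity) (div_le_div₀ (by positivity) (by exact_mod_cast l2) l0 l1))) hT)
    refine le_trans ?_ (mul_le_mul_of_nonneg_left this (by positivity))
    rw [mul_sum]
    exact sum_le_sum fun z _ => (mul_le_mul (G1_le ρ1 hu z) (G1_le ρ1 hu' z) (by unfold G1; positivity)
      (by positivity)).trans (le_of_eq (by unfold BB; ring))
  have s' := mul_le_mul_of_nonneg_left s η0
  push_cast
  refine le_trans (add_le_add le_rfl s') (le_of_eq ?_)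
  field_simp
  ring

end Crest.Agent.T145.Vx.Lb27
end

-- ▼ part T145/VxLc_27

/-!
# Row 145, twisted module: Lemma B (helper27)
-/

set_option autoImplicit false

namespace Crest.Agent.T145.Vx.Lb27

open Finset Filter Vb27 Pot Nc

theorem ev_log (n : ℕ) : ∀ᶠ r : ℕ in atTop,
    2 ≤ Real.log r ∧ 4 * ⌈Real.log r⌉₊ ^ n ≤ r := by
  have h1 := (Real.isLittleO_pow_log_id_atTop (n := n)).bound (c := 1 / (4 * 2 ^ n)) (by positivity)
  have h2 := Real.tendsto_log_atTop.eventually_ge_atTop 2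
  filter_upwards [tendsto_natCast_atTop_atTop.eventually (h1.and h2)] with r hr
  obtain ⟨a, b⟩ := hr
  refine ⟨b, ?_⟩
  have c : (⌈Real.log r⌉₊ : ℝ) ≤ 2 * Real.log r := by
    linarith [Nat.ceil_lt_add_one (by linarith : 0 ≤ Real.log r)]
  have d := pow_le_pow_left₀ (by positivity) c n
  rw [Real.norm_of_nonneg (by positivity), id, Real.norm_of_nonneg (by positivity), one_div_mul_eq_div,
    le_div_iff₀ (by positivity)] at a
  rw [mul_pow] at d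
  exact_mod_cast (by linarith : (4 : ℝ) * (⌈Real.log r⌉₊ : ℝ) ^ n ≤ r)

theorem cv_YY (hY : YStmt) {W : Cfg Pt → ℝ} (hW : SE W) (σ : Pt × Pt → ℤ) {D : Finset Pt} {u : Pt → ℝ}
    (hu : Sup D u) {G : Cfg Pt → ℝ} (hG : Tame G) :
    Cv W (Yv σ u) G = ∑ z ∈ D, u z * Cv W (Jv σ z) G := by
  obtain ⟨h1, -, -, -, h5⟩ := hY σ D u hu
  have t : ∀ z, Tame fun s => u z * Jv σ z s := fun z => (h5 z).1.2.const_mul _
  rw [show Yv σ u = fun s => ∑ z ∈ D, u z * Jv σ z s from funext h1,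
    Cv_sum_left D (fun z _ => hW.ig (t z)) fun z _ => hW.ig ((t z).mul hG)]
  exact sum_congr rfl fun z _ => Cv_const_mul_left _ _ _ _

theorem cv_JY (hY : YStmt) {W : Cfg Pt → ℝ} (hW : SE W) (σ : Pt × Pt → ℤ) {D : Finset Pt} {u : Pt → ℝ}
    (hu : Sup D u) (z : Pt) : Cv W (Jv σ z) (Yv σ u) = ∑ w ∈ D, u w * Cv W (Jv σ z) (Jv σ w) := by
  rw [Cv_comm, cv_YY hY hW σ hu ((hY σ D u hu).2.2.2.2 z).1.2]
  exact sum_congr rfl fun w _ => by rw [Cv_comm]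

set_option maxHeartbeats 1000000 in
/-- the error bracket -/
theorem arith {r ρ t τ l l₁ M K T T' K₂ η δ : ℝ} (ht : 2 ≤ t) (hτ : t ≤ τ) (hr : 0 < r) (hρ : r ≤ ρ * t ^ 3)
    (hK : 0 ≤ K) (hδ : 0 < δ) (hδ' : δ ≤ 1 / 4) (T0 : 0 ≤ T) (hT : T ≤ K₂ * t ^ (δ / 2)) (T0' : 0 ≤ T')
    (hT' : T' ≤ 3 * τ) (hη : η ≤ 4 * K * t ^ (-1 - 2 * δ) + T / t ^ 2) (l0 : 0 ≤ l) (hl : l * τ ^ 48 ≤ r)
    (l1 : 0 ≤ l₁) (hl₁ : l₁ * τ ^ 8 ≤ r) (M0 : 0 ≤ M) (hM : M ≤ 11 * r * τ ^ 8) :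
    1 / ρ ^ 2 * (K / τ ^ 40) * (16 * T') +
      ((10 ^ 6 * (4 * K / t ^ 2) * T ^ 2 * (r / ρ) ^ (1 / 10 : ℝ) + 1024 * η * T) / r ^ 2 +
        (1024 * (K / τ ^ 40) * T' * M ^ 2 + (80000 * K * T' ^ 2 + 18432 * K * T') * l₁ ^ 2) / ρ ^ 4 +
          4096 * K * T' * l * M ^ 2 / ρ ^ 5) ≤
      (10 ^ 7 * K * (1 + K₂ ^ 2) + 1024 * K₂ ^ 2) * t ^ (-1 - δ) / r ^ 2 := by
  have t0 : 0 < t := by linarith
  have τ1 : 1 ≤ τ := by linarith
  have ρ0 : 0 < ρ := by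
    by_contra h
    nlinarith [mul_nonneg (neg_nonneg.2 (not_lt.1 h)) (by positivity : 0 ≤ t ^ 3)]
  set x := r / ρ with hx
  have x0 : 0 ≤ x := by positivity
  have x1 : x ≤ t ^ 3 := by rw [hx, div_le_iff₀ ρ0]; linarith
  have x2 : x ≤ τ ^ 3 := x1.trans (pow_le_pow_left₀ t0.le hτ 3)
  set e := t ^ (-1 - δ) with he
  have e0 : 0 < e := by positivity
  have rp : ∀ a b : ℝ, a ≤ b → t ^ a ≤ t ^ b := fun a b h =>
    Real.rpow_le_rpow_of_exponent_le (by linarith) h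
  have t2 : t ^ (-2 : ℝ) = 1 / t ^ 2 := by rw [Real.rpow_neg t0.le, one_div]; norm_num
  have e1 : 1 / τ ^ 2 ≤ e := le_trans (by gcongr) (t2.symm.trans_le (rp (-2) (-1 - δ) (by linarith)))
  have TT : T ^ 2 ≤ K₂ ^ 2 * t ^ δ := by
    refine (pow_le_pow_left₀ T0 hT 2).trans (le_of_eq ?_)
    rw [mul_pow, ← Real.rpow_natCast (t ^ _), ← Real.rpow_mul t0.le]; norm_num
  have K0 : 0 ≤ K₂ := nonneg_of_mul_nonneg_left (T0.trans hT) (by positivity)
  have a1 : 1 / t ^ 2 * T ^ 2 * x ^ (1 / 10 : ℝ) ≤ K₂ ^ 2 * e := by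
    have b : x ^ (1 / 10 : ℝ) ≤ t ^ (3 / 10 : ℝ) := by
      refine (Real.rpow_le_rpow x0 x1 (by norm_num)).trans (le_of_eq ?_)
      rw [← Real.rpow_natCast, ← Real.rpow_mul t0.le]; norm_num
    refine (mul_le_mul (mul_le_mul_of_nonneg_left TT (by positivity)) b (by positivity)
      (by positivity)).trans ?_
    rw [← t2, mul_left_comm, mul_assoc, ← Real.rpow_add t0, ← Real.rpow_add t0]
    exact mul_le_mul_of_nonneg_left (rp _ _ (by linarith)) (by positivity)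
  have a2 : t ^ (-1 - 2 * δ) * T ≤ K₂ * e := by
    refine (mul_le_mul_of_nonneg_left hT (by positivity)).trans ?_
    rw [mul_left_comm, ← Real.rpow_add t0]
    exact mul_le_mul_of_nonneg_left (rp _ _ (by linarith)) K0
  have a3 : 1 / t ^ 2 * T ^ 2 ≤ K₂ ^ 2 * e := by
    refine (mul_le_mul_of_nonneg_left TT (by positivity)).trans ?_
    rw [← t2, mul_left_comm, ← Real.rpow_add t0]
    exact mul_le_mul_of_nonneg_left (rp _ _ (by linarith)) (by positivity)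
  have a4 : η * T ≤ 4 * K * (K₂ * e) + K₂ ^ 2 * e := by
    refine (mul_le_mul_of_nonneg_right hη T0).trans (le_trans (le_of_eq (by ring))
      (add_le_add (mul_le_mul_of_nonneg_left a2 (by positivity)) a3))
  have τ0 : 0 < τ := by linarith
  have pw : ∀ a b : ℕ, a + 2 ≤ b → τ ^ a / τ ^ b ≤ e := fun a b h => by
    refine le_trans ?_ e1
    rw [div_le_div_iff₀ (by positivity) (by positivity), ← pow_add, one_mul]
    exact pow_le_pow_right₀ τ1 h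
  have m1 : M / r ≤ 11 * τ ^ 8 := by rw [div_le_iff₀ hr]; linarith
  have m2 : l₁ / r ≤ 1 / τ ^ 8 := by rw [div_le_div_iff₀ hr (by positivity)]; linarith
  have m3 : l / r ≤ 1 / τ ^ 48 := by rw [div_le_div_iff₀ hr (by positivity)]; linarith
  have b1 : x ^ 2 * T' / τ ^ 40 ≤ 3 * e :=
    le_trans (by gcongr) ((le_of_eq (by ring : (τ ^ 3) ^ 2 * (3 * τ) / τ ^ 40 = 3 * (τ ^ 7 / τ ^ 40))).trans
      (by linarith [pw 7 40 (by norm_num)]))
  have b2 : x ^ 4 * T' * (M / r) ^ 2 / τ ^ 40 ≤ 363 * e :=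
    le_trans (by gcongr) ((le_of_eq (by ring : (τ ^ 3) ^ 4 * (3 * τ) * (11 * τ ^ 8) ^ 2 / τ ^ 40 =
      363 * (τ ^ 29 / τ ^ 40))).trans (by linarith [pw 29 40 (by norm_num)]))
  have b3 : x ^ 4 * T' ^ 2 * (l₁ / r) ^ 2 ≤ 9 * e :=
    le_trans (by gcongr) ((le_of_eq (by ring : (τ ^ 3) ^ 4 * (3 * τ) ^ 2 * (1 / τ ^ 8) ^ 2 =
      9 * (τ ^ 14 / τ ^ 16))).trans (by linarith [pw 14 16 (by norm_num)]))
  have b4 : x ^ 4 * T' * (l₁ / r) ^ 2 ≤ 3 * e :=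
    le_trans (by gcongr) ((le_of_eq (by ring : (τ ^ 3) ^ 4 * (3 * τ) * (1 / τ ^ 8) ^ 2 =
      3 * (τ ^ 13 / τ ^ 16))).trans (by linarith [pw 13 16 (by norm_num)]))
  have b5 : x ^ 5 * T' * (l / r) * (M / r) ^ 2 ≤ 363 * e :=
    le_trans (by gcongr) ((le_of_eq (by ring : (τ ^ 3) ^ 5 * (3 * τ) * (1 / τ ^ 48) * (11 * τ ^ 8) ^ 2 =
      363 * (τ ^ 32 / τ ^ 48))).trans (by linarith [pw 32 48 (by norm_num)]))
  have fin : 1 / ρ ^ 2 * (K / τ ^ 40) * (16 * T') +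
      ((10 ^ 6 * (4 * K / t ^ 2) * T ^ 2 * x ^ (1 / 10 : ℝ) + 1024 * η * T) / r ^ 2 +
        (1024 * (K / τ ^ 40) * T' * M ^ 2 + (80000 * K * T' ^ 2 + 18432 * K * T') * l₁ ^ 2) / ρ ^ 4 +
          4096 * K * T' * l * M ^ 2 / ρ ^ 5) = (K * (16 * (x ^ 2 * T' / τ ^ 40) +
      4 * 10 ^ 6 * (1 / t ^ 2 * T ^ 2 * x ^ (1 / 10 : ℝ)) + 1024 * (x ^ 4 * T' * (M / r) ^ 2 / τ ^ 40) +
        80000 * (x ^ 4 * T' ^ 2 * (l₁ / r) ^ 2) + 18432 * (x ^ 4 * T' * (l₁ / r) ^ 2) +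
          4096 * (x ^ 5 * T' * (l / r) * (M / r) ^ 2)) + 1024 * (η * T)) / r ^ 2 := by
    generalize x ^ (1 / 10 : ℝ) = y
    rw [hx]; field_simp; ring
  rw [fin]
  refine div_le_div_of_nonneg_right ?_ (by positivity)
  have c1 : 0 ≤ (K₂ - 1) ^ 2 * e := by positivity
  have c2 : 0 ≤ K₂ ^ 2 * e := by positivity
  have c3 := mul_le_mul_of_nonneg_left (show 16 * (x ^ 2 * T' / τ ^ 40) +
      4 * 10 ^ 6 * (1 / t ^ 2 * T ^ 2 * x ^ (1 / 10 : ℝ)) + 1024 * (x ^ 4 * T' * (M / r) ^ 2 / τ ^ 40) +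
        80000 * (x ^ 4 * T' ^ 2 * (l₁ / r) ^ 2) + 18432 * (x ^ 4 * T' * (l₁ / r) ^ 2) +
          4096 * (x ^ 5 * T' * (l / r) * (M / r) ^ 2) + 4096 * (K₂ * e) ≤ 10 ^ 7 * (1 + K₂ ^ 2) * e by
    nlinarith) hK
  linarith

theorem gc_sub {l r : ℕ} {t : ℝ} (ht : t = Real.log r) (h2 : 2 ≤ t) (h1 : t / 2 ≤ Real.log l)
    (h3 : Real.log l ≤ t) : |gc l - gc r| ≤ (t - Real.log l) / t ^ 2 := by
  have l0 : 0 < Real.log l := by linarith
  have t0 : 0 < t := by linarith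
  have p := Real.pi_gt_three
  have e : gc l - gc r = (t - Real.log l) / (Real.pi * Real.log l * t) := by
    rw [gc, gc, ← ht]; field_simp; ring
  rw [e, abs_of_nonneg (div_nonneg (by linarith) (by positivity))]
  refine div_le_div_of_nonneg_left (by linarith) (by positivity) ?_
  rw [pow_two]
  exact mul_le_mul_of_nonneg_right (by nlinarith) t0.le

set_option maxHeartbeats 2000000 in
theorem lbStmt (hY : YStmt) (hJf : JfarStmt) (hJn : JnearStmt) (hI : IsoStmt) (hF : FarStmt) :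
    LbStmt := by
  intro P hP
  obtain ⟨C₁, r₁, h1⟩ := hJf P hP
  obtain ⟨C₂, c₂, r₂, c20, -, h2⟩ := hJn P hP
  obtain ⟨C₃, h3⟩ := hI P hP
  obtain ⟨C₄, c₄, r₄, Λ₀, c40, -, Λ1, h4⟩ := hF P hP
  set K := |C₁| + |C₂| + |C₃| + |C₄| with hK
  have k1 : C₁ ≤ K := by linarith [le_abs_self C₁, abs_nonneg C₂, abs_nonneg C₃, abs_nonneg C₄]
  have k2 : C₂ ≤ K := by linarith [le_abs_self C₂, abs_nonneg C₁, abs_nonneg C₃, abs_nonneg C₄]
  have k3 : C₃ ≤ K := by linarith [le_abs_self C₃, abs_nonneg C₁, abs_nonneg C₂, abs_nonneg C₄]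
  have k4 : C₄ ≤ K := by linarith [le_abs_self C₄, abs_nonneg C₁, abs_nonneg C₂, abs_nonneg C₃]
  have K0 : 0 ≤ K := by positivity
  clear_value K
  obtain ⟨p, p1, p2, p4⟩ : ∃ p : ℕ, 40 ≤ p ∧ 40 ≤ p * c₂ ∧ 40 ≤ p * c₄ := by
    refine ⟨40 + ⌈40 / c₂⌉₊ + ⌈40 / c₄⌉₊, by omega, ?_, ?_⟩ <;> rw [← div_le_iff₀ (by assumption)] <;>
      push_cast
    · linarith [Nat.le_ceil (40 / c₂), Nat.cast_nonneg (α := ℝ) ⌈40 / c₄⌉₊]
    · linarith [Nat.le_ceil (40 / c₄), Nat.cast_nonneg (α := ℝ) ⌈40 / c₂⌉₊]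
  obtain ⟨r₅, h5⟩ := eventually_atTop.1 (ev_log (2 * (p + 8)))
  have δ0 := hP.δ0
  have δ1 := hP.δ1
  have Λr : (1 : ℝ) ≤ Λ₀ := by exact_mod_cast Λ1
  set K₂ := 1 + Real.log (36 * Λ₀) + (2 * (p + 8) : ℕ) * (4 / P.δ) with hK₂
  refine ⟨10 ^ 7 * K * (1 + K₂ ^ 2) + 1024 * K₂ ^ 2, r₁ + r₂ + r₄ + r₅ + P.r₀ ^ 2, fun V hV => ?_⟩
  obtain ⟨t2, hτ⟩ := h5 V.r (by omega)
  have ht : V.t = Real.log V.r := rfl
  rw [← ht] at t2 hτ
  set τ := ⌈V.t⌉₊ with hτ'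
  have τ1 : V.t ≤ τ := Nat.le_ceil _
  have τ2 : (τ : ℝ) ≤ 2 * V.t := by linarith [Nat.ceil_lt_add_one (by linarith : 0 ≤ V.t)]
  have τ3 : 2 ≤ τ := by exact_mod_cast t2.trans τ1
  have τ4 : (2 : ℝ) ≤ τ := by exact_mod_cast τ3
  clear_value τ
  have pw : ∀ a b : ℕ, a ≤ b → τ ^ a ≤ τ ^ b := fun a b h => Nat.pow_le_pow_right (by omega) h
  set X := τ ^ (p + 8) with hX
  have X1 : τ ^ (2 * (p + 8)) = X * X := by rw [hX]; ring
  have X2 : X = τ ^ p * τ ^ 8 := pow_add _ _ _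
  have y1 : 1 ≤ τ ^ 8 := Nat.one_le_pow _ _ (by omega)
  have y2 : 2 ≤ τ ^ p := τ3.trans (by simpa using pw 1 p (by omega))
  have X3 : 2 * τ ^ 8 ≤ X := by rw [X2]; exact Nat.mul_le_mul_right _ y2
  rw [X1] at hτ
  set l := V.r / X with hl
  have l1 : X * l ≤ V.r := Nat.mul_div_le _ _
  have l2 : V.r < X * (l + 1) := Nat.lt_mul_div_succ _ (by omega)
  have l3 : 4 * X ≤ l := (Nat.le_div_iff_mul_le (by omega)).2 (by rw [mul_assoc]; exact hτ)
  have l4 : V.r ≤ 2 * (X * l) := by nlinarith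
  have l5 : V.r ≤ l * l := by nlinarith
  have l6 : P.r₀ ≤ l := by
    by_contra h
    have : l * l < P.r₀ ^ 2 := by rw [pow_two]; exact Nat.mul_self_lt_mul_self (by omega)
    omega
  clear_value l
  set l₁ := τ ^ p * l with hl₁
  have l7 : l₁ * τ ^ 8 ≤ V.r := by rw [hl₁, mul_right_comm, ← X2]; exact l1
  have l8 : 2 * l ≤ l₁ := Nat.mul_le_mul_right _ y2
  have l9 : l₁ ≤ V.r := (Nat.le_mul_of_pos_right _ y1).trans l7
  set M := 4 * (V.r * τ ^ 8) with hM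
  have M1 : V.r ≤ V.r * τ ^ 8 := Nat.le_mul_of_pos_right _ y1
  set S' := Λ₀ * (τ ^ p * M) with hS'
  have S1 : 2 * M ≤ τ ^ p * M := Nat.mul_le_mul_right _ y2
  have S2 : τ ^ p * M ≤ S' := Nat.le_mul_of_pos_left _ Λ1
  have S3 : Λ₀ * M ≤ S' := Nat.mul_le_mul_left _ (by omega)
  obtain ⟨R₃, h3⟩ := h3 l l6
  refine ⟨8 * (2 * S') + R₃, fun m ρ S A A' u u' hm hρ hr hS su su' hu hu' => ?_⟩
  have r0 : (0 : ℝ) < V.r := by exact_mod_cast (by omega : 0 < V.r)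
  have l0 : (0 : ℝ) < l := by exact_mod_cast (by omega : 0 < l)
  have t3 : V.t ^ 3 ≤ X := by
    exact_mod_cast (pow_le_pow_left₀ (by linarith) τ1 3).trans (by exact_mod_cast pw 3 _ (by omega))
  have lρ : l ≤ ρ := by
    have a : (X : ℝ) * l ≤ V.r := by exact_mod_cast l1
    have b : (0 : ℝ) < X := by exact_mod_cast (by omega : 0 < X)
    have : (l : ℝ) ≤ ρ := le_of_mul_le_mul_left
      (a.trans (hρ.trans ((mul_le_mul_of_nonneg_left t3 (by positivity)).trans (mul_comm _ _).le))) b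
    exact_mod_cast this
  have SM : S ≤ M := by
    have : (S : ℝ) ≤ V.r * (τ : ℝ) ^ 8 := hS.trans (by gcongr)
    have : S ≤ V.r * τ ^ 8 := by exact_mod_cast this
    omega
  have ρ1 : 1 ≤ ρ := by omega
  have hW := B30.amb_se hm V.σ
  have hm8 := B30.amb_mono hm (bl_mono _ (by omega : 8 * (2 * S') ≤ _))
  have lg1 : V.t / 2 ≤ Real.log l := by
    have : V.t ≤ Real.log (l * l) := Real.log_le_log r0 (by exact_mod_cast l5)
    rw [Real.log_mul l0.ne' l0.ne'] at this; linarith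
  have lg2 : Real.log l ≤ V.t := Real.log_le_log l0 (by exact_mod_cast (by omega : l ≤ V.r))
  have nn : ∀ z w, 0 ≤ nb V z (ds z w) * nb V w (ds z w) := fun z w =>
    mul_nonneg (nb_nonneg _ _ _) (nb_nonneg _ _ _)
  have jf : ∀ z w, ds z V.p ≤ 2 * S' → ds w V.p ≤ 2 * S' → z ≠ w → ∀ y : ℝ, 0 < y →
      y ≤ Real.log (2 + (min (ds z w) V.r : ℕ)) → |Cv (m.Ws 0 V.σ) (Jv V.σ z) (Jv V.σ w)| ≤
        K / y ^ 2 * (nb V z (ds z w) * nb V w (ds z w)) := fun z w a b c y y0 y1 => by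
    refine (h1 V m _ z w (by omega) (by omega) hm8 a b c).1.trans ?_
    rw [mul_assoc, div_mul_eq_mul_div]
    exact div_le_div₀ (mul_nonneg K0 (nn z w)) (mul_le_mul_of_nonneg_right k1 (nn z w)) (by positivity)
      (pow_le_pow_left₀ y0.le y1 2)
  have dx : ∀ z x : Pt, ds z (z + x) = sn x := fun z x => by rw [ds_comm, ds_eq, add_sub_cancel_left]
  have dp : ∀ z ∈ bl V.p (M + l), ∀ x ∈ bl 0 l, ds z V.p ≤ 2 * S' ∧ ds (z + x) V.p ≤ 2 * S' ∧ sn x ≤ l :=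
    fun z hz x hx => by
      have a := ds_tri (z + x) z V.p
      have b : ds z V.p ≤ M + l := mem_bl_sn.1 hz
      have c := mem_bl_sn.1 hx
      rw [sub_zero] at c
      rw [ds_comm (z + x) z, dx] at a
      omega
  have sm : ∀ (x c : ℝ), 0 ≤ x → x ≤ 1 / (τ : ℝ) ^ p → 0 < c → 40 ≤ p * c → x ^ c ≤ 1 / (τ : ℝ) ^ 40 :=
    fun x c a b d e => by
      refine (Real.rpow_le_rpow a b d.le).trans ?_
      rw [Real.div_rpow zero_le_one (by positivity), Real.one_rpow, ← Real.rpow_natCast,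
        ← Real.rpow_mul (by positivity), ← Real.rpow_natCast]
      exact one_div_le_one_div_of_le (by positivity)
        (Real.rpow_le_rpow_of_exponent_le (by linarith) (by exact_mod_cast e))
  have S0 : (0 : ℝ) < S' := by exact_mod_cast (by omega : 0 < S')
  set T := 1 + Real.log (2 * (2 * S' + V.r : ℕ) / l) with hT
  set T' := 1 + Real.log (1 + (M + V.r : ℕ)) with hT'
  have T1 : V.t - Real.log l ≤ T - 1 := by
    rw [ht, ← Real.log_div r0.ne' l0.ne', hT, add_sub_cancel_left]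
    refine Real.log_le_log (by positivity) (div_le_div_of_nonneg_right ?_ l0.le)
    exact_mod_cast (by omega : V.r ≤ 2 * (2 * S' + V.r))
  have key := det2 (V := V) (ρ := ρ) (l := l) (l₁ := l₁) (M := M) (N := 2 * S') (A := A) (A' := A')
    (Y := 4 * K / V.t ^ 2) (T := T) (T' := T') (K := K) (K₁ := K) (ε := K / (τ : ℝ) ^ 40) (g := gc V.r)
    (η := 4 * K * V.t ^ (-1 - 2 * P.δ) + T / V.t ^ 2) (χ := cut V.p S' (2 * S'))
    (c := fun z w => Cv (m.Ws 0 V.σ) (Jv V.σ z) (Jv V.σ w))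
    (k := fun z x => Ex (m.W 0) fun s => Jz z s * Jz (z + x) s) (fun _ _ => Cv_comm _ _ _)
    (by omega) lρ (by omega) hr (by omega) (by omega) (by positivity) K0 K0 (by positivity) hu hu'
    (fun z hz => su z fun h => hz (bl_mono _ SM h)) (fun z hz => su' z fun h => hz (bl_mono _ SM h))
    (abs_cut_le _ _ _) (fun z hz => cut_one (by linarith) (by exact_mod_cast (by omega)) hz) le_rfl
    (add_le_add le_rfl (log_mono (by omega)))
    (fun z hz w hw h => (jf z w (mem_bl_sn.1 hz) (mem_bl_sn.1 hw) (by rintro rfl; simp [ds] at h)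
      (V.t / 2) (by linarith) (lg1.trans (Real.log_le_log l0 (by
        exact_mod_cast (by omega : l ≤ 2 + min (ds z w) V.r))))).trans (le_of_eq (by field_simp; ring)))
    (fun z w a b c => by
      have e1 := ds_tri w z V.p
      have e2 := ds_tri z V.q V.p
      have e3 : ds w z ≤ l := mem_bl_sn.1 b
      have e4 := B30.one_le_ds c.symm
      rw [B30.ds_qp] at e2
      have e5 : ds z V.p ≤ V.r + l₁ := by unfold Vp.d at a; omega
      simpa using jf z w (by omega) (by omega) c.symm 1 one_pos (by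
        rw [Real.le_log_iff_exp_le (by positivity)]
        have : (1 : ℝ) ≤ (min (ds z w) V.r : ℕ) := by exact_mod_cast (by omega : 1 ≤ min (ds z w) V.r)
        linarith [Real.exp_one_lt_d9]))
    (fun z hz x hx x0 => by
      obtain ⟨a, b, -⟩ := dp z hz x hx
      have := (h1 V m _ z (z + x) (by omega) (by omega) hm8 a b (by simpa using x0)).2
      rw [dx] at this
      exact this.trans (div_le_div_of_nonneg_right k1 (by positivity)))
    (fun z hz hd x hx x0 => by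
      obtain ⟨a, -, b⟩ := dp z hz x hx
      have := h2 V m _ z (z + x) (by omega) (by omega) hm8 a (by simpa using x0) (by rw [dx]; omega)
      rw [dx] at this
      have d0 : (0 : ℝ) < V.d z := by exact_mod_cast (by omega : 0 < V.d z)
      have e := sm ((sn x : ℝ) / V.d z) c₂ (by positivity) (by
        rw [div_le_div_iff₀ d0 (by positivity), one_mul, mul_comm]
        exact_mod_cast (Nat.mul_le_mul_left _ b).trans hd.le) c20 p2
      exact this.trans ((mul_le_mul (div_le_div_of_nonneg_right k2 (by positivity)) e (by positivity)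
        (by positivity)).trans (le_of_eq (by ring))))
    (fun z hz i j => by
      have a := h3 m z (B30.amb_mono hm (bl_sub (by have := mem_bl_sn.1 hz; omega))) i j
      have b : C₃ * Real.log l ^ (-1 - 2 * P.δ) ≤ 4 * K * V.t ^ (-1 - 2 * P.δ) := by
        have e : Real.log l ^ (-1 - 2 * P.δ) ≤ 4 * V.t ^ (-1 - 2 * P.δ) := by
          refine (Real.rpow_le_rpow_of_nonpos (by linarith) lg1 (by linarith)).trans ?_
          rw [Real.div_rpow (by linarith) (by norm_num), div_eq_mul_inv, ← Real.rpow_neg (by norm_num),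
            mul_comm]
          refine mul_le_mul_of_nonneg_right ?_ (Real.rpow_nonneg (by linarith) _)
          exact (Real.rpow_le_rpow_of_exponent_le (by norm_num) (by linarith : _ ≤ (2 : ℝ))).trans
            (by norm_num)
        exact (mul_le_mul k3 e (Real.rpow_nonneg (by linarith) _) K0).trans (le_of_eq (by ring))
      have c := (gc_sub ht t2 lg1 lg2).trans (div_le_div_of_nonneg_right (by linarith : _ ≤ T)
        (by positivity))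
      have c0 := (abs_nonneg _).trans c
      obtain ⟨a1, a2⟩ := abs_le.1 a
      obtain ⟨c1, c2⟩ := abs_le.1 c
      rw [abs_le]
      split_ifs at a1 a2 ⊢ <;> constructor <;> linarith)
  have MN : bl V.p S ⊆ bl V.p (2 * S') := bl_mono _ (by omega)
  have su2 : Sup (bl V.p (2 * S')) u := fun z hz => su z fun h => hz (MN h)
  have su2' : Sup (bl V.p (2 * S')) u' := fun z hz => su' z fun h => hz (MN h)
  have sχ : Sup (bl V.p (2 * S')) (cut V.p S' (2 * S')) :=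
    sup_cut _ (by linarith) (by push_cast; linarith)
  have e1 : Cv (m.Ws 0 V.σ) (Yv V.σ u) (Yv V.σ u') = ∑ z ∈ bl V.p (2 * S'), ∑ w ∈ bl V.p (2 * S'),
      u z * u' w * Cv (m.Ws 0 V.σ) (Jv V.σ z) (Jv V.σ w) := by
    rw [cv_YY hY hW _ su2 (hY _ _ _ su2').2.2.2.1]
    exact sum_congr rfl fun z _ => by rw [cv_JY hY hW _ su2', mul_sum]; simp only [mul_assoc]
  have a0 := mul_nonneg (A_nonneg ρ1 hu) (A_nonneg ρ1 hu')
  have T0' : 0 ≤ T' := add_nonneg zero_le_one (Real.log_nonneg (le_add_of_nonneg_right (by positivity)))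
  have e2 : |∑ z ∈ bl V.p (2 * S'), ∑ w ∈ bl V.p (2 * S'), u z * u' z * cut V.p S' (2 * S') w *
      Cv (m.Ws 0 V.σ) (Jv V.σ z) (Jv V.σ w)| ≤
      A * A' * (1 / (ρ : ℝ) ^ 2 * (K / (τ : ℝ) ^ 40) * (16 * T')) := by
    have s := sum_a (V := V) (D := bl V.p M) (ρ := 1) (n := M + V.r) (T := T') le_rfl
      (bl_mono _ (by omega)) (bl_sub (by rw [sn_comm, sn_qp])) (by simp [hT'])
    rw [← sum_subset (bl_mono V.p (by omega : M ≤ 2 * S')) fun z _ hz => by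
      simp [su z fun h => hz (bl_mono _ SM h)], ← mul_assoc (A * A')]
    refine (abs_sum_le_sum_abs _ _).trans (le_trans ?_ (mul_le_mul_of_nonneg_left s (by positivity)))
    rw [mul_sum]
    refine sum_le_sum fun z hz => ?_
    have hz' : ds z V.p ≤ M := mem_bl_sn.1 hz
    have f := (h4 V m M S' (by omega) (by omega) S3 (B30.amb_mono hm (bl_mono _ (by omega)))).1 z hz'
    have e := sm ((M : ℝ) / S') c₄ (by positivity) (by
      rw [div_le_div_iff₀ S0 (by positivity), one_mul, mul_comm]; exact_mod_cast S2) c40 p4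
    have g := nb_le V z M
    rw [min_eq_right ((B30.d_le_p V z).trans hz'), add_comm] at g
    have f2 := f.trans (mul_le_mul (mul_le_mul k4 e (by positivity) K0) g (nb_nonneg _ _ _) (by positivity))
    have b1 := (hu.b0 z).trans (mul_le_mul_of_nonneg_left (al_le ρ1 z) (A_nonneg ρ1 hu))
    have b2 := (hu'.b0 z).trans (mul_le_mul_of_nonneg_left (al_le ρ1 z) (A_nonneg ρ1 hu'))
    simp only [mul_assoc (u z * u' z), ← mul_sum]
    rw [← cv_JY hY hW _ sχ, abs_mul, abs_mul]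
    refine (mul_le_mul (mul_le_mul b1 b2 (abs_nonneg _) ((abs_nonneg _).trans b1)) f2 (abs_nonneg _)
      (mul_nonneg ((abs_nonneg _).trans b1) ((abs_nonneg _).trans b2))).trans (le_of_eq ?_)
    push_cast; ring
  have T2 : T ≤ K₂ * V.t ^ (P.δ / 2) := by
    have o : 1 ≤ V.t ^ (P.δ / 2) := Real.one_le_rpow (by linarith) (by positivity)
    have a : Real.log (2 * (2 * S' + V.r : ℕ) / l) ≤ Real.log (36 * Λ₀ * (τ : ℝ) ^ (2 * (p + 8))) := by
      refine Real.log_le_log (div_pos (by push_cast; positivity) l0) ?_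
      rw [div_le_iff₀ l0]
      have b1 : S' = 4 * (Λ₀ * X * V.r) := by rw [hS', hM, X2]; ring
      have b2 : 1 * V.r ≤ Λ₀ * X * V.r := Nat.mul_le_mul_right _ (Nat.mul_pos Λ1 (by omega))
      have b3 : Λ₀ * X * V.r ≤ Λ₀ * X * (2 * (X * l)) := Nat.mul_le_mul_left _ l4
      have b4 : 36 * Λ₀ * τ ^ (2 * (p + 8)) * l = 18 * (Λ₀ * X * (2 * (X * l))) := by rw [X1]; ring
      exact_mod_cast (by omega : 2 * (2 * S' + V.r) ≤ 36 * Λ₀ * τ ^ (2 * (p + 8)) * l)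
    rw [Real.log_mul (by positivity) (by positivity), Real.log_pow] at a
    have b : Real.log τ ≤ 4 / P.δ * V.t ^ (P.δ / 2) := by
      refine (Real.log_le_log (by linarith) τ2).trans ((Real.log_le_rpow_div (by linarith)
        (by positivity : 0 < P.δ / 2)).trans ?_)
      rw [Real.mul_rpow (by norm_num) (by linarith)]
      have : (2 : ℝ) ^ (P.δ / 2) ≤ 2 := by
        simpa using Real.rpow_le_rpow_of_exponent_le (by norm_num : (1 : ℝ) ≤ 2)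
          (by linarith : P.δ / 2 ≤ 1)
      refine (div_le_div_of_nonneg_right (mul_le_mul_of_nonneg_right this (by linarith))
        (by positivity)).trans (le_of_eq (by field_simp; ring))
    have c := mul_le_mul_of_nonneg_left b (Nat.cast_nonneg (α := ℝ) (2 * (p + 8)))
    have d := mul_le_mul_of_nonneg_left o (add_nonneg zero_le_one
      (Real.log_nonneg (by linarith : (1 : ℝ) ≤ 36 * Λ₀)))
    rw [hK₂, hT]
    linarith
  have T3 : T' ≤ 3 * τ := by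
    have a : 1 + (M + V.r) ≤ V.r * V.r := by
      have : 2 * τ ^ 8 * 2 ≤ X * X := Nat.mul_le_mul X3 (by omega)
      have : V.r * (16 * τ ^ 8) ≤ V.r * V.r := Nat.mul_le_mul_left _ (by omega)
      have : V.r * (16 * τ ^ 8) = 16 * (V.r * τ ^ 8) := by ring
      omega
    have b : Real.log (1 + (M + V.r : ℕ)) ≤ Real.log (V.r * V.r) :=
      Real.log_le_log (by positivity) (by exact_mod_cast a)
    rw [Real.log_mul r0.ne' r0.ne', ← ht] at b
    linarith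
  have fin := arith (M := 2 * ((M : ℝ) + l) + 1) t2 τ1 r0 hρ K0 δ0 δ1 (by linarith) T2 T0' T3 le_rfl l0.le
    (by exact_mod_cast (Nat.mul_le_mul_left l (pw 48 _ (by omega))).trans ((mul_comm _ _).le.trans l1))
    (Nat.cast_nonneg l₁) (by exact_mod_cast l7) (by positivity) (by
      rw [mul_assoc]
      exact_mod_cast (by omega : 2 * (M + l) + 1 ≤ 11 * (V.r * τ ^ 8)))
  rw [e1]
  refine key.trans ((add_le_add e2 le_rfl).trans ?_)
  rw [← mul_add]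
  exact (mul_le_mul_of_nonneg_left fin a0).trans (le_of_eq (by ring))

end Crest.Agent.T145.Vx.Lb27
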