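import Crest.Agent.T145.NcD1_43
import Crest.Agent.T145.NcIo_98_Mg
import Crest.Agent.T145.Slit_46

/-!
# Row 145 (helper68): (D1) in a twisted sector, unnormalised form, any seam
-/

set_option autoImplicit false

namespace Crest.Agent.T145.Ks68

open Finset Nc Cut7

/-- cutting along a projection -/
theorem cut_gen {L L' Q : Type} [AddCommGroup L] [AddCommGroup L'] [AddCommGroup Q]
    [IsAddTorsionFree L'] (π : L →+ L') {ρ : Q → L' → ℝ} {H W : Q → L → ℝ}
    (hρ : RSD fun p : L' × Q => ρ p.2 p.1) (hH : PD fun p : L × Q => H p.2 p.1)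
    (hS : ∀ q t, Summable fun s => ind (π s = t) * H q s) (hW : ∀ q s, W q s = H q s * ρ q (π s))
    (hs : ∀ q, Summable (W q)) (hρs : ∀ q, Summable (ρ q)) (q : Q) :
    Zs (W q) * Zs (ρ 0) ≤ Zs (ρ q) * Zs (W 0) := by
  let H' : L × (L' × Q) → ℝ := fun p => ind (π p.1 = p.2.1) * H p.2.2 p.1
  have hP : PD H' := by
    have a1 := pd_ind (π.comp (AddMonoidHom.fst L (L' × Q)) -
      (AddMonoidHom.fst L' Q).comp (AddMonoidHom.snd L (L' × Q)))
    have a2 := hH.comp ((AddMonoidHom.fst L (L' × Q)).prod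
      ((AddMonoidHom.snd L' Q).comp (AddMonoidHom.snd L (L' × Q))))
    convert a1.mul a2 using 2 with p
    exact congrArg (· * H p.2.2 p.1) (ind_congr (by simp [sub_eq_zero]))
  have h3 := Sl46.bp2 (G := fun q => push (H q) π) hρ (hP.mg fun p => hS p.2 p.1) q 0 (hρs 0)
    (by simpa [tilt] using hρs q)
  have e : ∀ q, ∑' t, ρ q t * push (H q) π t = Zs (W q) := fun q => by
    simpa only [mul_one, Zs] using
      (Cut7.dens_hasSum π (hW q) (F := fun _ => 1) (Ig.const (hs q) 1)).tsum_eq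
  simp only [tilt, AddMonoidHom.zero_apply, Real.exp_zero, mul_one, e] at h3
  simpa only [Zs, tilt, AddMonoidHom.zero_apply, Real.exp_zero, mul_one] using h3

/-- cutting along a projection, with data -/
theorem cut_dat {L L' Q R : Type} [AddCommGroup L] [AddCommGroup L'] [AddCommGroup Q]
    [AddCommGroup R] [IsAddTorsionFree L'] (π : L →+ L') (φ : L' →+ R) {ρ : Q → L' → ℝ}
    {H W : Q → L → ℝ} (hρ : RSD fun p : L' × Q => ρ p.2 p.1) (hH : PD fun p : L × Q => H p.2 p.1)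
    (hS : ∀ q t, Summable fun s => ind (π s = t) * H q s) (hW : ∀ q s, W q s = H q s * ρ q (π s))
    (W0 : ∀ q s, 0 ≤ W q s) (hs : ∀ q, Summable (W q)) (hρs : ∀ q, Summable (ρ q)) (hp : 0 < ρ 0 0)
    (q : Q) {F : L' → ℝ} (F0 : ∀ t, 0 ≤ F t) (hF : ∀ s t, φ s = φ t → F s = F t) (hi : Ig (ρ q) F) :
    Ig (W q) (fun s => F (π s)) ∧
      (∑' s, W q s * F (π s)) * (∑' t, ρ 0 t * ind (φ t = 0)) ≤
        (∑' t, ρ q t * F t) * ∑' s, W 0 s * ind (φ (π s) = 0) := by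
  classical
  have ρ0 : ∀ q t, 0 ≤ ρ q t := fun q t => hρ.nonneg (t, q)
  set A := ∑' t, ρ 0 t * ind (φ t = 0) with hA
  set B := ∑' s, W 0 s * ind (φ (π s) = 0) with hB
  have key : ∀ d : R, push (W q) (fun s => φ (π s)) d * A ≤ push (ρ q) φ d * B := fun d => by
    have h := cut_gen π (Q := Q × R) (ρ := fun p t => ind (φ t = p.2) * ρ p.1 t)
      (H := fun p s => ind (φ (π s) = p.2) * H p.1 s) (W := fun p s => ind (φ (π s) = p.2) * W p.1 s)
      (by
        have a1 := Md.rsd_ind (φ.comp (AddMonoidHom.fst L' (Q × R)) -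
          (AddMonoidHom.snd Q R).comp (AddMonoidHom.snd L' (Q × R)))
        have a2 := Md.rsd_comp hρ ((AddMonoidHom.fst L' (Q × R)).prod
          ((AddMonoidHom.fst Q R).comp (AddMonoidHom.snd L' (Q × R))))
        simpa [sub_eq_zero] using Md.rsd_mul a1 a2)
      (by
        have a1 := pd_ind ((φ.comp π).comp (AddMonoidHom.fst L (Q × R)) -
          (AddMonoidHom.snd Q R).comp (AddMonoidHom.snd L (Q × R)))
        have a2 := hH.comp ((AddMonoidHom.fst L (Q × R)).prod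
          ((AddMonoidHom.fst Q R).comp (AddMonoidHom.snd L (Q × R))))
        simpa [sub_eq_zero] using a1.mul a2)
      (fun p t => (Md.summable_ind_mul (fun s => φ (π s) = p.2) (hS p.1 t)).congr
        fun s => mul_left_comm _ _ _)
      (fun p s => by
        by_cases h : φ (π s) = p.2
        · simp only [ind_pos h, one_mul, hW]
        · simp only [ind_neg h, zero_mul])
      (fun p => Md.summable_ind_mul _ (hs _)) (fun p => Md.summable_ind_mul _ (hρs _)) (q, d)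
    simp only [Zs, Prod.fst_zero, Prod.snd_zero] at h
    simpa only [push, hA, hB, mul_comm (ind _)] using h
  have A0 : 0 < A := by
    refine Summable.tsum_pos ((Md.summable_ind_mul (fun t => φ t = 0) (hρs 0)).congr
      fun t => mul_comm _ _) (fun t => mul_nonneg (ρ0 _ _) (ind_nonneg _)) 0 ?_
    rwa [ind_pos (map_zero φ), mul_one]
  let F' : R → ℝ := fun d => if h : ∃ s, φ s = d then F h.choose else 0
  have e : ∀ s, F' (φ s) = F s := fun s => by
    have h : ∃ t, φ t = φ s := ⟨s, rfl⟩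
    simp only [F', dif_pos h]; exact hF _ _ h.choose_spec
  have F'0 : ∀ d, 0 ≤ F' d := fun d => by simp only [F']; split_ifs; exacts [F0 _, le_rfl]
  have i1 : Ig (ρ q) fun t => F' (φ t) := by simpa only [e] using hi
  have hle : ∀ d, push (W q) (fun s => φ (π s)) d * F' d * A ≤ push (ρ q) φ d * F' d * B := fun d => by
    have := mul_le_mul_of_nonneg_right (key d) (F'0 d)
    linarith
  have s1 : Summable fun d => push (W q) (fun s => φ (π s)) d * F' d * A :=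
    (i1.push.mul_right B).of_nonneg_of_le
      (fun d => mul_nonneg (mul_nonneg (push_nonneg (W0 q) _ _) (F'0 d)) A0.le) hle
  have i2 : Ig (W q) fun s => F' (φ (π s)) :=
    Ig.of_push (W0 q) (hs q) ((summable_mul_right_iff A0.ne').1 s1)
  have t1 := tsum_push i1
  have t2 := tsum_push i2
  simp only [e] at t1 t2 i2
  refine ⟨i2, ?_⟩
  rw [← t1, ← t2, ← tsum_mul_right, ← tsum_mul_right]
  exact s1.tsum_le_tsum hle (i1.push.mul_right B)

section defs
variable {V : Type} [DecidableEq V]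

/-- the model with the seam put into the kernels: `(tw m σ).W = m.Ws · σ` -/
def tw (m : Mdl V) (σ : V × V → ℤ) : Mdl V := { m with w := fun e k => m.w e (k + σ e) }

omit [DecidableEq V] in
theorem tw_W (m : Mdl V) (σ : V × V → ℤ) (η : Cfg V) : (tw m σ).W η = m.Ws η σ := rfl

omit [DecidableEq V] in
theorem tw_pos {m : Mdl V} (h : m.Fm) (σ : V × V → ℤ) : ∀ e ∈ (tw m σ).ed, ∀ k, 0 < (tw m σ).w e k :=
  fun e he _ => (h e he).pos _

omit [DecidableEq V] in
theorem tw_ne {m : Mdl V} (h : m.Fm) (σ : V × V → ℤ) : ∀ e ∈ (tw m σ).ed, ∀ k, (tw m σ).w e k ≠ 0 :=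
  fun e he k => (tw_pos h σ e he k).ne'

/-- unnormalised mean `Z (σ; F) / Z (0)` -/
noncomputable def zx (m : Mdl V) (σ : V × V → ℤ) (F : Cfg V → ℝ) : ℝ :=
  (∑' s, m.Ws 0 σ s * F s) / Zs (m.W 0)

/-- `Z (σ) / Z (0)` (`= Vd.rat`) -/
noncomputable def zr (m : Mdl V) (σ : V × V → ℤ) : ℝ := Zs (m.Ws 0 σ) / Zs (m.W 0)

/-- the free model on `U`, rooted somewhere -/
noncomputable def fr (m : Mdl V) (U : Finset V) : Mdl V := pn m U (rs U)

/-- its weight in the sector `σ` -/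
noncomputable def rWs (m : Mdl V) (U : Finset V) (σ : V × V → ℤ) : Cfg V → ℝ := (fr m U).Ws 0 σ

theorem pn_tw (m : Mdl V) (σ : V × V → ℤ) (U S : Finset V) : pn (tw m σ) U S = tw (pn m U S) σ := rfl
theorem hole_tw (m : Mdl V) (σ : V × V → ℤ) (N : Finset V) : hole (tw m σ) N = tw (hole m N) σ := rfl
theorem loc_tw (m : Mdl V) (σ : V × V → ℤ) (N : Finset V) : (tw m σ).loc N = tw (m.loc N) σ := rfl
omit [DecidableEq V] in
theorem free_tw (m : Mdl V) (σ : V × V → ℤ) (N : Finset V) : (tw m σ).free N = tw (m.free N) σ := rfl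
theorem fr_W (m : Mdl V) (U : Finset V) : (fr m U).W 0 = rW m U := rfl

variable {m : Mdl V} {σ : V × V → ℤ} {U : Finset V}

omit [DecidableEq V] in
theorem zx_one (m : Mdl V) (σ : V × V → ℤ) : zx m σ (fun _ => 1) = zr m σ := by
  simp only [zx, zr, mul_one, Zs]

omit [DecidableEq V] in
theorem zx_eq (h : Wt (m.Ws 0 σ)) (F : Cfg V → ℝ) : zx m σ F = zr m σ * Ex (m.Ws 0 σ) F := by
  rw [zx, zr, h.tsum_eq]; ring


theorem zr_pos (hc : m.Ctr) (ha : m.Anch) (σ : V × V → ℤ) : 0 < zr m σ :=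
  div_pos (Md.ctr_wts hc ha 0 σ).pos (Md.ctr_wt hc ha 0).pos

theorem zx_nonneg (hc : m.Ctr) (σ : V × V → ℤ) {F : Cfg V → ℝ} (h : ∀ s, 0 ≤ F s) : 0 ≤ zx m σ F :=
  div_nonneg (tsum_nonneg fun s => mul_nonneg (Md.Ws_nonneg hc.1 hc.nn _ _ _) (h s))
    (Zs_nonneg (Md.W_nonneg hc.1 hc.nn _))

theorem fr_ctr (h : m.Fm) (U : Finset V) : (fr m U).Ctr := pn_ctr h _ _

theorem fr_anch (hU : Cn m U) (hn : U.Nonempty) : (fr m U).Anch := by
  obtain ⟨r, hr, e⟩ := rs_spec hn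
  rw [fr, e]; exact pn_anch hU hr (mem_singleton_self r)

theorem wt_rWs (h : m.Fm) (hU : Cn m U) (hn : U.Nonempty) (σ : V × V → ℤ) : Wt (rWs m U σ) :=
  Md.ctr_wts (fr_ctr h U) (fr_anch hU hn) 0 σ

/-- the root is irrelevant -/
theorem root_tw {r : V} (hr : r ∈ U) {F : Cfg V → ℝ} (hF : DepG U F) :
    (Ig (rWs m U σ) F ↔ Ig ((pn m U {r}).Ws 0 σ) F) ∧
      ∑' s, rWs m U σ s * F s = ∑' s, (pn m U {r}).Ws 0 σ s * F s := by
  refine ⟨(root_all (m := tw m σ) hr (hF.shift Subset.rfl)).2.1, ?_⟩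
  obtain ⟨r₀, h0, e⟩ := rs_spec ⟨r, hr⟩
  have h := Md.W_root (pn (tw m σ) U ∅) h0 hr (fun e he => (mem_pn_ed.1 he).2) fun _ _ => rfl
  rw [pn_root, pn_root] at h
  rw [← (Md.rtE h0 hr).tsum_eq fun s => (pn m U {r}).Ws 0 σ s * F s, rWs, fr, e]
  refine tsum_congr fun s => ?_
  rw [show F (Md.rtE h0 hr s) = F s from hF.shift Subset.rfl s _]
  exact congrArg (· * F s) (h s).symm

theorem zs_root {r : V} (hr : r ∈ U) : Zs (rW m U) = Zs ((pn m U {r}).W 0) :=
  (root_all (F := fun _ => 0) hr fun _ _ => rfl).1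

theorem zx_root {r : V} (hr : r ∈ U) {F : Cfg V → ℝ} (hF : DepG U F) :
    zx (fr m U) σ F = zx (pn m U {r}) σ F := by
  rw [zx, zx, fr_W, zs_root hr, ← (root_tw hr hF).2]; rfl

theorem zr_root {r : V} (hr : r ∈ U) : zr (fr m U) σ = zr (pn m U {r}) σ := by
  rw [← zx_one, ← zx_one, zx_root hr (DepG.const _ _)]

end defs

section raw
variable {V ι R : Type} [DecidableEq V] [AddCommGroup R] {m : Mdl V} {I : Finset ι}
  {N C : ι → Finset V}

/-- the cut model: rooted boxes and the rest -/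
noncomputable def cm (m : Mdl V) (I : Finset ι) (N : ι → Finset V) (r : ι → V) : Mdl V :=
  sb m ((I.biUnion fun i => (N i).erase (r i)) ∪ m.A \ I.biUnion N)
    ((I.biUnion fun i => inn (N i) m.ed) ∪ (hole m (I.biUnion N)).ed)

/-- product formula for the boxes and the rest (any kernels) -/
theorem prod_rest (m : Mdl V) {r : ι → V} (hB : ∀ i ∈ I, ∀ j ∈ I, i ≠ j → Disjoint (N i) (N j))
    (hs : ∀ i ∈ I, ∀ x ∈ N i, ∀ k, m.site x k = 1) {F : ι → Cfg V → ℝ} {G : Cfg V → ℝ}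
    (hF : ∀ i ∈ I, Dep (N i) (F i)) (hI : ∀ i ∈ I, Ig ((pn m (N i) {r i}).W 0) (F i))
    (hG : Out (I.biUnion N) G) (iG : Ig ((hole m (I.biUnion N)).W 0) G) :
    HasSum (fun s => (cm m I N r).W 0 s * ((∏ i ∈ I, F i s) * G s))
      ((∏ i ∈ I, ∑' s, (pn m (N i) {r i}).W 0 s * F i s) *
        ∑' s, (hole m (I.biUnion N)).W 0 s * G s) := by
  have e1 : ∀ i ∈ I, (sb m ((N i).erase (r i)) (inn (N i) m.ed)).W 0 = (pn m (N i) {r i}).W 0 :=
    fun i hi => congrFun (Mdl.W_ext (m := sb m ((N i).erase (r i)) (inn (N i) m.ed))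
      (m' := pn m (N i) {r i}) (sdiff_singleton_eq_erase _ _).symm rfl (fun _ _ => rfl)
      fun x hx k => hs i hi x (mem_of_mem_erase hx) k) 0
  have hd : Ind I (fun i => (N i).erase (r i)) fun i => inn (N i) m.ed :=
    Ind.of_blocks hB (fun _ _ => erase_subset _ _) fun _ _ _ he => (mem_filter.1 he).2
  have sub : (I.biUnion fun i => (N i).erase (r i)) ⊆ I.biUnion N :=
    biUnion_mono fun _ _ => erase_subset _ _
  have h1 := prod_hasSum m 0 hd (F := F) fun i hi => by rw [e1 i hi]; exact hI i hi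
  rw [prod_congr rfl fun i hi => by rw [e1 i hi]] at h1
  have h2 := two_hasSum m 0 (A₁ := I.biUnion fun i => (N i).erase (r i)) (A₂ := m.A \ I.biUnion N)
    (E₁ := I.biUnion fun i => inn (N i) m.ed) (E₂ := (hole m (I.biUnion N)).ed)
    (disjoint_sdiff.mono_left sub)
    (disjoint_left.2 fun e he he' => by
      obtain ⟨i, hi, he⟩ := mem_biUnion.1 he
      exact (mem_hole_ed.1 he').2.1 (mem_biUnion.2 ⟨i, hi, (mem_filter.1 he).2.1⟩))
    (fun e he => by
      obtain ⟨i, hi, he⟩ := mem_biUnion.1 he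
      exact ⟨fun h => (mem_sdiff.1 h).2 (mem_biUnion.2 ⟨i, hi, (mem_filter.1 he).2.1⟩),
        fun h => (mem_sdiff.1 h).2 (mem_biUnion.2 ⟨i, hi, (mem_filter.1 he).2.2⟩)⟩)
    (fun e he => ⟨fun h => (mem_hole_ed.1 he).2.1 (sub h), fun h => (mem_hole_ed.1 he).2.2 (sub h)⟩)
    h1.summable iG
  rw [h1.tsum_eq] at h2
  refine h2.congr_fun fun s => ?_
  change _ = (cm m I N r).W 0 s * _
  by_cases hW : (cm m I N r).W 0 s = 0
  · rw [hW, zero_mul, zero_mul]
  have off := Md.W_off hW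
  congr 2
  · refine prod_congr rfl fun i hi => hF i hi _ _ fun x hx => ?_
    rw [pw_pw_sub (subset_biUnion_of_mem (fun i => (N i).erase (r i)) hi)]
    by_cases h : x ∈ (N i).erase (r i)
    · exact (pw_of_mem _ _ h).symm
    · rw [pw_of_notMem _ _ h]
      refine off x fun h' => (mem_union.1 h').elim (fun h' => ?_)
        fun h' => (mem_sdiff.1 h').2 (mem_biUnion.2 ⟨i, hi, hx⟩)
      obtain ⟨j, hj, h'⟩ := mem_biUnion.1 h'
      by_cases hij : i = j
      · exact h (hij ▸ h')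
      · exact disjoint_left.1 (hB i hi j hj hij) hx (mem_of_mem_erase h')
  · refine hG _ _ fun x hx => ?_
    by_cases h : x ∈ m.A \ I.biUnion N
    · exact (pw_of_mem _ _ h).symm
    · rw [pw_of_notMem _ _ h]
      exact off x fun h' => (mem_union.1 h').elim (fun h' => hx (sub h')) h

/-- the projection to the cut model -/
noncomputable def pc (I : Finset ι) (N : ι → Finset V) (r : ι → V) : Cfg V →+ Cfg V :=
  Cut7.prjH I N r + Finsupp.filterAddHom (· ∉ I.biUnion N)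

variable {r : ι → V}

theorem cm_tw (σ : V × V → ℤ) : cm (tw m σ) I N r = tw (cm m I N r) σ := rfl

theorem pc_in (hB : ∀ i ∈ I, ∀ j ∈ I, i ≠ j → Disjoint (N i) (N j)) (s : Cfg V) {i : ι} (hi : i ∈ I)
    {x : V} (hx : x ∈ N i) : pc I N r s x = s x - s (r i) := by
  change prj I N r s x + s.filter (· ∉ I.biUnion N) x = _
  rw [Cut7.prj_mem hB hi hx, Finsupp.filter_apply,
    if_neg (not_not.2 (mem_biUnion.2 ⟨i, hi, hx⟩)), add_zero]

theorem pc_out (s : Cfg V) {x : V} (hx : x ∉ I.biUnion N) : pc I N r s x = s x := by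
  change prj I N r s x + s.filter (· ∉ I.biUnion N) x = _
  rw [Cut7.prj_not fun i hi h => hx (mem_biUnion.2 ⟨i, hi, h⟩), Finsupp.filter_apply, if_pos hx,
    zero_add]

theorem cm_ed : (cm m I N r).ed ⊆ m.ed :=
  union_subset (biUnion_subset.2 fun _ _ => filter_subset _ _) (filter_subset _ _)

theorem cm_A (h : I.biUnion N ⊆ m.A) : (cm m I N r).A ⊆ m.A :=
  union_subset ((biUnion_mono fun _ _ => erase_subset _ _).trans h) sdiff_subset

theorem cm_anch (hB : ∀ i ∈ I, ∀ j ∈ I, i ≠ j → Disjoint (N i) (N j)) (hr : ∀ i ∈ I, r i ∈ N i)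
    (hN : ∀ i ∈ I, Cn m (N i)) (hh : (hole m (I.biUnion N)).Anch) : (cm m I N r).Anch := fun x hx => by
  have sub : (I.biUnion fun i => (N i).erase (r i)) ⊆ I.biUnion N :=
    biUnion_mono fun _ _ => erase_subset _ _
  rcases mem_union.1 hx with hx | hx
  · obtain ⟨i, hi, hx⟩ := mem_biUnion.1 hx
    refine ⟨r i, Md.conn_mono ((subset_biUnion_of_mem (fun i => inn (N i) m.ed) hi).trans
      subset_union_left) (hN i hi x (mem_of_mem_erase hx) _ (hr i hi)), Or.inl fun h => ?_⟩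
    rcases mem_union.1 h with h | h
    · obtain ⟨j, hj, h⟩ := mem_biUnion.1 h
      by_cases hij : i = j
      · exact notMem_erase _ _ (hij ▸ h)
      · exact disjoint_left.1 (hB i hi j hj hij) (hr i hi) (mem_of_mem_erase h)
    · exact (mem_sdiff.1 h).2 (mem_biUnion.2 ⟨i, hi, hr i hi⟩)
  · obtain ⟨y, h1, h2⟩ := hh x hx
    have hy : y ∉ I.biUnion N := Md.conn_ind (ω := (hole m (I.biUnion N)).ed)
      (P := fun z => z ∉ I.biUnion N)
      (fun e he => iff_of_true (mem_hole_ed.1 he).2.1 (mem_hole_ed.1 he).2.2) h1 (mem_sdiff.1 hx).2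
    exact ⟨y, Md.conn_mono subset_union_right h1,
      h2.imp_left fun h2 h => (mem_union.1 h).elim (fun h => hy (sub h)) h2⟩

theorem cm_prod (hB : ∀ i ∈ I, ∀ j ∈ I, i ≠ j → Disjoint (N i) (N j)) (q : V × V → ℤ) (s : Cfg V) :
    ∏ e ∈ (cm m I N r).ed, m.w e (dE e (pc I N r s) + q e) =
      ∏ e ∈ (cm m I N r).ed, m.w e (dE e s + q e) :=
  prod_congr rfl fun e he => by
    rcases mem_union.1 he with he | he
    · obtain ⟨i, hi, he⟩ := mem_biUnion.1 he
      rw [dE, dE, pc_in hB s hi (mem_filter.1 he).2.1, pc_in hB s hi (mem_filter.1 he).2.2,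
        sub_sub_sub_cancel_right]
    · rw [Md.dE_congr (pc_out s (mem_hole_ed.1 he).2.1) (pc_out s (mem_hole_ed.1 he).2.2)]

theorem cm_W (hB : ∀ i ∈ I, ∀ j ∈ I, i ≠ j → Disjoint (N i) (N j)) (hcl : Cl m (I.biUnion N))
    (q : V × V → ℤ) (s : Cfg V) : m.Ws 0 q s =
      (ind (∀ x, x ∉ m.A → s x = 0) * ∏ e ∈ m.ed \ (cm m I N r).ed, m.w e (dE e s + q e)) *
        (cm m I N r).Ws 0 q (pc I N r s) := by
  by_cases h : ∀ x, x ∉ m.A → s x = 0
  swap
  · simp only [Mdl.Ws, Finsupp.coe_zero, Pi.zero_apply, ind_neg h, zero_mul]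
  have hoff : ∀ x, x ∉ (cm m I N r).A → pc I N r s x = (0 : Cfg V) x := fun x hx => by
    by_cases h1 : x ∈ I.biUnion N
    · obtain ⟨i, hi, h1⟩ := mem_biUnion.1 h1
      have : x = r i := by_contra fun k =>
        hx (mem_union_left _ (mem_biUnion.2 ⟨i, hi, mem_erase.2 ⟨k, h1⟩⟩))
      rw [pc_in hB s hi h1, this, sub_self]; rfl
    · rw [pc_out s h1]
      exact h x fun k => hx (mem_union_right _ (mem_sdiff.2 ⟨k, h1⟩))
  have e2 : ∏ x ∈ (cm m I N r).A, m.site x (pc I N r s x) = ∏ x ∈ m.A, m.site x (s x) := by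
    rw [← prod_sdiff (cm_A (r := r) hcl.1), prod_eq_one (s := m.A \ (cm m I N r).A) fun x hx =>
      hcl.2 x (by_contra fun k => (mem_sdiff.1 hx).2
        (mem_union_right _ (mem_sdiff.2 ⟨(mem_sdiff.1 hx).1, k⟩))) _, one_mul]
    refine prod_congr rfl fun x _ => ?_
    by_cases k : x ∈ I.biUnion N
    · rw [hcl.2 x k, hcl.2 x k]
    · rw [pc_out s k]
  have e3 : (cm m I N r).Ws 0 q (pc I N r s) =
      (∏ e ∈ (cm m I N r).ed, m.w e (dE e s + q e)) * ∏ x ∈ m.A, m.site x (s x) := by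
    rw [← cm_prod hB, ← e2, Mdl.Ws, ind_pos hoff, one_mul]
    rfl
  rw [e3]
  simp only [Mdl.Ws, Finsupp.coe_zero, Pi.zero_apply]
  rw [← prod_sdiff (cm_ed (m := m) (I := I) (N := N) (r := r))]; ring

theorem raw0 {R' : Type} [AddCommGroup R'] (hc : m.Ctr) (ha : m.Anch)
    (hB : ∀ i ∈ I, ∀ j ∈ I, i ≠ j → Disjoint (N i) (N j)) (hcl : Cl m (I.biUnion N))
    (a' : (cm m I N r).Anch) (φ : Cfg V →+ R') (σ : V × V → ℤ) {F : Cfg V → ℝ} (F0 : ∀ t, 0 ≤ F t)
    (hF : ∀ s t, φ s = φ t → F s = F t) (hi : Ig ((cm m I N r).Ws 0 σ) F) :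
    Ig (m.Ws 0 σ) (fun s => F (pc I N r s)) ∧
      (∑' s, m.Ws 0 σ s * F (pc I N r s)) * (∑' t, (cm m I N r).W 0 t * ind (φ t = 0)) ≤
        (∑' t, (cm m I N r).Ws 0 σ t * F t) * ∑' s, m.W 0 s * ind (φ (pc I N r s) = 0) := by
  have hE := cm_ed (m := m) (I := I) (N := N) (r := r)
  have c' : (cm m I N r).Ctr := (hc.free (cm_A hcl.1)).keep hE
  have h := cut_dat (pc I N r) φ (ρ := fun q => (cm m I N r).Ws 0 q) (W := fun q => m.Ws 0 q)
    (H := fun q s => ind (∀ x, x ∉ m.A → s x = 0) *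
      ∏ e ∈ m.ed \ (cm m I N r).ed, m.w e (dE e s + q e)) (Md.ctr_rsd_seam c')
    (((Md.pd_off m.A).comp (AddMonoidHom.fst (Cfg V) (V × V → ℤ))).mul
      (Sl46.pd_seam hc.1 sdiff_subset)) (fun q t => ?_) (cm_W hB hcl)
    (fun q => Md.Ws_nonneg hc.1 hc.nn 0 q) (fun q => (Md.ctr_wts hc ha 0 q).summ)
    (fun q => (Md.ctr_wts c' a' 0 q).summ) (by rw [← Mdl.W_eq_Ws]; exact (c'.cen a').pos0) σ F0 hF hi
  · simpa only [← Mdl.W_eq_Ws] using h
  have p0 : 0 < ∏ e ∈ (cm m I N r).ed, m.w e (dE e t + q e) :=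
    prod_pos fun e he => (hc.1 e (hE he)).pos _
  refine ((Md.ctr_wts (hc.free hcl.1) (ha.free hcl.1) t q).summ.mul_right
    (∏ e ∈ (cm m I N r).ed, m.w e (dE e t + q e))⁻¹).of_nonneg_of_le (fun s => mul_nonneg (ind_nonneg _)
      (mul_nonneg (ind_nonneg _) (prod_nonneg fun e he => ((hc.1 e (sdiff_subset he)).pos _).le)))
    fun s => ?_
  by_cases h : pc I N r s = t
  · have e : (m.free (I.biUnion N)).Ws t q s = ∏ e ∈ m.ed, m.w e (dE e s + q e) := by
      rw [Mdl.Ws, ind_pos (p := ∀ x, x ∉ (m.free (I.biUnion N)).A → s x = t x)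
        fun x hx => by rw [← h, pc_out s hx], one_mul,
        prod_eq_one (s := (m.free (I.biUnion N)).A)
          (f := fun x => (m.free (I.biUnion N)).site x (s x)) fun x hx => hcl.2 x hx _, mul_one]
      rfl
    rw [ind_pos h, one_mul, le_mul_inv_iff₀ p0, e, ← h, cm_prod hB, mul_assoc, prod_sdiff hE]
    exact mul_le_of_le_one_left (prod_nonneg fun e he => ((hc.1 e he).pos _).le) (ind_le_one _)
  · rw [ind_neg h, zero_mul]
    exact mul_nonneg (Md.Ws_nonneg (hc.free hcl.1).1 (hc.free hcl.1).nn _ _ _) (inv_pos.2 p0).le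

/-- (D1) in the sector `σ`: clean boxes, the rest with the data `ψ`; the constant is a centred flat ratio -/
theorem raw (hc : m.Ctr) (ha : m.Anch) (hB : ∀ i ∈ I, ∀ j ∈ I, i ≠ j → Disjoint (N i) (N j))
    (hN : ∀ i ∈ I, Cn m (N i) ∧ (N i).Nonempty ∧ Cl m (N i) ∧ C i ⊆ N i)
    (hh : (hole m (I.biUnion N)).Anch) (ψ : Cfg V →+ R) (hψ : Out (I.biUnion N) ψ) (σ : V × V → ℤ)
    {F : ι → Cfg V → ℝ}
    (hF : ∀ i ∈ I, DepG (C i) (F i) ∧ (∀ s, 0 ≤ F i s) ∧ Ig (rWs m (N i) σ) (F i))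
    {G : Cfg V → ℝ} (G0 : ∀ s, 0 ≤ G s) (hG : ∀ s t, ψ s = ψ t → G s = G t)
    (iG : Ig ((hole m (I.biUnion N)).Ws 0 σ) G) :
    Ig (m.Ws 0 σ) (fun s => (∏ i ∈ I, F i s) * G s) ∧
      zx m σ (fun s => (∏ i ∈ I, F i s) * G s) * ((∏ i ∈ I, Pr (rW m (N i)) (Fl (C i))) *
          Pr ((hole m (I.biUnion N)).W 0) fun s => ψ s = 0) ≤
        (∏ i ∈ I, zx (fr m (N i)) σ (F i)) * zx (hole m (I.biUnion N)) σ G *
          Ex (m.W 0) fun s => (∏ i ∈ I, ind (Fl (C i) s)) * ind (ψ s = 0) := by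
  rcases I.eq_empty_or_nonempty with rfl | ⟨i₀, hi₀⟩
  · have e : hole m ((∅ : Finset ι).biUnion N) = m := by
      simp only [biUnion_empty, hole, sdiff_empty, notMem_empty, not_false_eq_true, and_self,
        filter_true]
    rw [e] at iG ⊢
    simp only [prod_empty, one_mul]
    exact ⟨iG, le_rfl⟩
  have : Nonempty V := ⟨(hN i₀ hi₀).2.1.choose⟩
  choose! r hr using fun i hi => (hN i hi).2.1
  have hcl : Cl m (I.biUnion N) := ⟨biUnion_subset.2 fun i hi => (hN i hi).2.2.1.1, fun x hx k => by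
    obtain ⟨i, hi, hx⟩ := mem_biUnion.1 hx
    exact (hN i hi).2.2.1.2 x hx k⟩
  let φ : Cfg V →+ (I → V × V → ℤ) × R := (AddMonoidHom.pi fun i : I => flH (C i.1)).prod ψ
  have hφ : ∀ s t, φ s = φ t ↔ (∀ i ∈ I, flH (C i) s = flH (C i) t) ∧ ψ s = ψ t := fun s t =>
    ⟨fun k => ⟨fun i hi => congrFun (congrArg Prod.fst k) ⟨i, hi⟩, congrArg Prod.snd k⟩,
      fun k => Prod.ext (funext fun i => k.1 i.1 i.2) k.2⟩
  have hφ0 : ∀ s, ind (φ s = 0) = (∏ i ∈ I, ind (Fl (C i) s)) * ind (ψ s = 0) := fun s => by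
    rw [← ind_forall, ← ind_and, ← map_zero φ]
    exact ind_congr ((hφ s 0).trans (by simp only [map_zero, fl_iff]))
  have hpr : ∀ (K : ι → Cfg V → ℝ), (∀ i ∈ I, DepG (C i) (K i)) → ∀ s,
      ∏ i ∈ I, K i (pc I N r s) = ∏ i ∈ I, K i s := fun K hK s => prod_congr rfl fun i hi =>
    (hK i hi s _ (-s (r i)) fun x hx => by rw [pc_in hB s hi ((hN i hi).2.2.2 hx)]; ring).symm
  have hψπ : ∀ s, ψ (pc I N r s) = ψ s := fun s => hψ _ _ fun _ => pc_out s
  have hs1 : ∀ i ∈ I, ∀ x ∈ N i, ∀ k, m.site x k = 1 := fun i hi => (hN i hi).2.2.1.2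
  have dF : ∀ i ∈ I, DepG (N i) (F i) := fun i hi => (hF i hi).1.mono (hN i hi).2.2.2
  have dL : ∀ i ∈ I, DepG (N i) fun s => ind (Fl (C i) s) := fun i hi =>
    (depG_fl _).mono (hN i hi).2.2.2
  have oG : Out (I.biUnion N) G := fun s t h => hG s t (hψ s t h)
  have wi : ∀ i ∈ I, Wt ((pn m (N i) {r i}).W 0) := fun i hi =>
    pn_wt hc.1 (hN i hi).1 (hr i hi) (mem_singleton_self _) 0
  have wh := Md.ctr_wt (hole_ctr hc (I.biUnion N)) hh 0
  have w0 := Md.ctr_wt hc ha 0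
  have p1 := prod_rest (tw m σ) (r := r) (F := F) (G := G) hB hs1 (fun i hi => (dF i hi).dep)
    (fun i hi => by rw [pn_tw, tw_W]; exact (root_tw (hr i hi) (dF i hi)).1.1 (hF i hi).2.2) oG
    (by rw [hole_tw, tw_W]; exact iG)
  simp only [cm_tw, pn_tw, hole_tw, tw_W] at p1
  have p2 := prod_rest m (r := r) hB hs1 (F := fun i s => ind (Fl (C i) s)) (G := fun s => ind (ψ s = 0))
    (fun i hi => (dL i hi).dep) (fun i hi => (wi i hi).ig_ind _) (hψ.comp fun a => ind (a = 0))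
    (wh.ig_ind _)
  obtain ⟨k1, k2⟩ := raw0 hc ha hB hcl (cm_anch hB hr (fun i hi => (hN i hi).1) hh) φ σ
    (F := fun s => (∏ i ∈ I, F i s) * G s)
    (fun t => mul_nonneg (prod_nonneg fun i hi => (hF i hi).2.1 t) (G0 t))
    (fun s t k => by
      rw [hG s t ((hφ s t).1 k).2,
        prod_congr rfl fun i hi => depG_of_flH (hF i hi).1 (((hφ s t).1 k).1 i hi)])
    p1.summable
  have eG : ∀ s, G (pc I N r s) = G s := fun s => hG _ _ (hψπ s)
  simp only [hpr F fun i hi => (hF i hi).1, eG, hφ0, hψπ,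
    hpr (fun i s => ind (Fl (C i) s)) fun i _ => depG_fl _] at k1 k2
  refine ⟨k1, ?_⟩
  rw [p2.tsum_eq, p1.tsum_eq,
    w0.tsum_eq fun s => (∏ i ∈ I, ind (Fl (C i) s)) * ind (ψ s = 0)] at k2
  have z1 : ∏ i ∈ I, Pr (rW m (N i)) (Fl (C i)) =
      (∏ i ∈ I, ∑' s, (pn m (N i) {r i}).W 0 s * ind (Fl (C i) s)) /
        ∏ i ∈ I, Zs ((pn m (N i) {r i}).W 0) := by
    rw [← prod_div_distrib]
    exact prod_congr rfl fun i hi => pr_root (hr i hi) (hN i hi).2.2.2
  have z2 : ∏ i ∈ I, zx (fr m (N i)) σ (F i) =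
      (∏ i ∈ I, ∑' s, (pn m (N i) {r i}).Ws 0 σ s * F i s) /
        ∏ i ∈ I, Zs ((pn m (N i) {r i}).W 0) := by
    rw [← prod_div_distrib]
    exact prod_congr rfl fun i hi => zx_root (hr i hi) (dF i hi)
  have P0 : 0 < ∏ i ∈ I, Zs ((pn m (N i) {r i}).W 0) := prod_pos fun i hi => (wi i hi).pos
  have P1 := wh.pos
  have P2 := w0.pos
  rw [z1, z2, zx, zx, Pr, Ex_def ((hole m (I.biUnion N)).W 0)]
  generalize (∏ i ∈ I, Zs ((pn m (N i) {r i}).W 0)) = a at *
  generalize Zs ((hole m (I.biUnion N)).W 0) = b at *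
  generalize Zs (m.W 0) = c at *
  rw [div_mul_div_comm, div_mul_div_comm, div_mul_div_comm,
    div_mul_eq_mul_div, div_le_div_iff₀ (by positivity) (by positivity)]
  refine (mul_le_mul_of_nonneg_right k2 (by positivity)).trans_eq ?_
  ring

end raw

end Crest.Agent.T145.Ks68
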