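import Crest.Agent.T145.VxVb_34_Mg
import Crest.Agent.T145.VxBas_30
import Crest.Agent.T145.VxJn_93
import Crest.Agent.T145.FlFus_4
import Crest.Agent.T145.FlBare_80
import Crest.Agent.T145.FlBas_4
import Crest.Agent.T145.VxDef_35
import Crest.Agent.T145.Route_51
import Crest.Agent.T145.VxDp_34
import Crest.Agent.T145.MdlC_73
import Crest.Agent.T145.CE_56
import Crest.Agent.T145.KsA_68
import Crest.Agent.T145.NcGeo_51
import Crest.Agent.T145.NcLat_37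

-- ▼ part T145/VxDom_89
section

/-!
# Row 145 (helper89): `DomStmt`, `Dom1Stmt`
-/

set_option autoImplicit false

namespace Crest.Agent.T145.Vx

open Finset Nc Nc.Geo B30
open Ks68 (zr zx)

namespace D89

variable {P : Par} {V : Vp} {m : Mdl Pt} {c c' R M ρ : ℕ} {F : Cfg Pt → ℝ} {z : Pt}

theorem uu_pos (hP : P.Ok) (V : Vp) (c : ℕ) : 0 < uu P.b V c :=
  zr_fr_pos (σ := V.σ) (lok hP) (cnL_bl (lok hP) V.p c) ⟨_, self_mem_bl _ _⟩


theorem tt_empty (hP : P.Ok) (V : Vp) (h : R ≤ c) : tt P.b V c R = 1 := by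
  have e : an V.p c R = ∅ := sdiff_eq_empty_iff_subset.2 (bl_mono _ h)
  rw [tt, e]
  exact zr_empty (P.L.N ∅) V.σ (fm_N (lok hP) _)

theorem tt_nonneg (hP : P.Ok) (V : Vp) (c R : ℕ) : 0 ≤ tt P.b V c R := by
  rcases lt_or_ge c R with h | h
  · exact (zr_fr_pos (σ := V.σ) (lok hP) (cnL_an (lok hP) V.p h) (an_nonempty _ h)).le
  · rw [tt_empty hP V h]; exact zero_le_one

/-- `u` loses at most a power over a bounded ratio of scales -/
theorem uu_up (hP : P.Ok) (h0 : P.r₀ ≤ c) (h1 : c ≤ R) (h2 : 2 * R ≤ V.r) (hM : R ≤ M * c) :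
    uu P.b V c ≤ P.K ^ 2 * (M : ℝ) ^ P.n * uu P.b V R := by
  have c0 : 0 < c := by have := hP.r2; omega
  have M1 : 1 ≤ M := Nat.pos_of_ne_zero fun k => by rw [k, zero_mul] at hM; omega
  have M1' : (1 : ℝ) ≤ M := by exact_mod_cast M1
  have K1 := hP.K1
  have u0 := uu_pos hP V c
  rcases h1.eq_or_lt with rfl | h1
  · exact le_mul_of_one_le_left u0.le (one_le_mul_of_one_le_of_one_le (one_le_pow₀ K1) (one_le_pow₀ M1'))
  obtain ⟨k1, k2⟩ := hP.k1 V c R h0 h1 h2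
  have R0 : (0 : ℝ) < R := by exact_mod_cast c0.trans h1
  have e : 1 ≤ (M : ℝ) ^ P.n * ((c : ℝ) / R) ^ P.n := by
    rw [← mul_pow]
    refine one_le_pow₀ ?_
    rw [← mul_div_assoc, le_div_iff₀ R0, one_mul]
    exact_mod_cast hM
  have M0 : 0 ≤ (M : ℝ) ^ P.n := by positivity
  calc uu P.b V c ≤ uu P.b V c * ((M : ℝ) ^ P.n * ((c : ℝ) / R) ^ P.n) :=
        le_mul_of_one_le_right u0.le e
    _ ≤ uu P.b V c * ((M : ℝ) ^ P.n * (P.K * tt P.b V c R)) :=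
        mul_le_mul_of_nonneg_left (mul_le_mul_of_nonneg_left k2 M0) u0.le
    _ = (M : ℝ) ^ P.n * P.K * (uu P.b V c * tt P.b V c R) := by ring
    _ ≤ (M : ℝ) ^ P.n * P.K * (P.K * uu P.b V R) :=
        mul_le_mul_of_nonneg_left k1 (mul_nonneg M0 (zero_le_one.trans K1))
    _ = _ := by ring

/-- quasi-multiplicativity with a gap -/
theorem uu_tt (hP : P.Ok) (h0 : P.r₀ ≤ c) (h1 : c ≤ R) (h2 : 2 * R ≤ V.r) (hc : c ≤ c')
    (hM : c' ≤ M * c) :
    uu P.b V c * tt P.b V c' R ≤ P.K ^ 3 * (M : ℝ) ^ P.n * uu P.b V R := by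
  have K1 := hP.K1
  have A0 : 0 ≤ P.K ^ 2 * (M : ℝ) ^ P.n := by positivity
  rcases lt_or_ge c' R with h | h
  · calc uu P.b V c * tt P.b V c' R
        ≤ P.K ^ 2 * (M : ℝ) ^ P.n * uu P.b V c' * tt P.b V c' R :=
          mul_le_mul_of_nonneg_right (uu_up hP h0 hc (by omega) hM) (tt_nonneg hP V _ _)
      _ = P.K ^ 2 * (M : ℝ) ^ P.n * (uu P.b V c' * tt P.b V c' R) := by ring
      _ ≤ P.K ^ 2 * (M : ℝ) ^ P.n * (P.K * uu P.b V R) :=
          mul_le_mul_of_nonneg_left (hP.k1 V c' R (h0.trans hc) h h2).1 A0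
      _ = _ := by ring
  · rw [tt_empty hP V h, mul_one]
    refine (uu_up hP h0 h1 h2 (h.trans hM)).trans ?_
    calc _ = 1 * (P.K ^ 2 * (M : ℝ) ^ P.n * uu P.b V R) := by ring
      _ ≤ P.K * (P.K ^ 2 * (M : ℝ) ^ P.n * uu P.b V R) :=
          mul_le_mul_of_nonneg_right K1 (mul_nonneg A0 (uu_pos hP V R).le)
      _ = _ := by ring

theorem gam_le (hP : P.Ok) (h : P.r₀ ≤ ρ) : gam P.L ρ (P.W₀ * ρ) ≤ 2 :=
  ((hP.gd ρ).2.2 ρ h le_rfl).trans (by norm_num)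

theorem room (hP : P.Ok) (h : P.r₀ ≤ ρ) : ρ + 2 * P.L.rg ≤ P.W₀ * ρ := by
  have := four_le hP (ρ := ρ); have := hP.r2; rw [L_rg]; omega

/-- a free cell -/
theorem fam_free (hP : P.Ok) (hF : m.Fm) (h0 : P.r₀ ≤ ρ) (h : Lh P.L m ∅ z (P.W₀ * ρ - P.L.rg))
    (hI : Ins z (ρ + 1) F) (V : Vp) :
    Fam m V.σ (bl z (P.W₀ * ρ)) (fun s => |F s|) (2 * P.N V z ρ F) :=
  fam_cell' (lok hP) hF h (room hP h0) hI (gam_le hP h0)

/-- the core cell together with the annulus between `c'` and `R` -/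
theorem fam_core (hP : P.Ok) (hF : m.Fm) (h0 : P.r₀ ≤ ρ) (h1 : P.W₀ * ρ ≤ R) (h2 : 2 * R ≤ V.r)
    (hc : P.W₀ * ρ ≤ c') (hM : c' ≤ M * (P.W₀ * ρ)) (h : Lh P.L m ∅ V.p (P.W₀ * ρ - P.L.rg))
    (h' : InL P.L m (an V.p c' R)) (hI : Ins V.p (ρ + 1) F) :
    Fam m V.σ (bl V.p (P.W₀ * ρ) ∪ an V.p c' R) (fun s => |F s|)
      (2 * (P.K ^ 3 * (M : ℝ) ^ P.n) * uu P.b V R * P.N V V.p ρ F) := by
  have k := (fam_cell (σ := V.σ) (lok hP) hF h (room hP h0) hI).mul (fam_an (lok hP) hF h') hF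
    (disjoint_bl_an _ _ hc)
  refine (k.congr fun s => (mul_one _).symm).mono Subset.rfl ?_
  have n0 := N_nonneg hP V V.p ρ F
  have r0 : P.r₀ ≤ P.W₀ * ρ := by have := four_le hP (ρ := ρ); omega
  calc _ = gam P.L ρ (P.W₀ * ρ) * (uu P.b V (P.W₀ * ρ) * tt P.b V c' R * P.N V V.p ρ F) := by
        change _ * (uu P.b V (P.W₀ * ρ) * P.N V V.p ρ F) * tt P.b V c' R = _
        ring
    _ ≤ 2 * (P.K ^ 3 * (M : ℝ) ^ P.n * uu P.b V R * P.N V V.p ρ F) :=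
        mul_le_mul (gam_le hP h0) (mul_le_mul_of_nonneg_right (uu_tt hP r0 h1 h2 hc hM) n0)
          (mul_nonneg (mul_nonneg (uu_pos hP V _).le (tt_nonneg hP V _ _)) n0) zero_le_two
    _ = _ := by ring

theorem cell_disj {p : Pt} {a : ℕ} (h0 : 0 < c) (h1 : 4 * a ≤ ds z p) (h2 : 2 * c ≤ ds z p)
    (h3 : 2 * R ≤ ds z p ∨ 2 * ds z p ≤ c') : Disjoint (bl p c ∪ an p c' R) (bl z a) := by
  refine disjoint_left.2 fun x hx hx' => ?_
  have t1 := ds_tri z x p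
  have t2 := ds_tri x z p
  rw [mem_bl_ds] at hx'
  rw [ds_comm z x] at t1
  rcases mem_union.1 hx with hx | hx
  · rw [mem_bl_ds] at hx; omega
  · rw [mem_an_ds] at hx; omega

theorem far_le (hP : P.Ok) (Λc ρ : ℕ) : 2 * (Λc * ρ) ≤ (Λc + 1) * (P.W₀ * ρ) := by
  have h := four_le hP (ρ := ρ)
  calc 2 * (Λc * ρ) ≤ Λc * (4 * ρ) := by rw [Nat.mul_left_comm Λc 4 ρ]; omega
    _ ≤ (Λc + 1) * (P.W₀ * ρ) := Nat.mul_le_mul (Nat.le_succ _) h

theorem le_far (Λc c : ℕ) : c ≤ (Λc + 1) * c := Nat.le_mul_of_pos_left _ (Nat.succ_pos _)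

theorem core_sub (p : Pt) (h : c ≤ R) (c' : ℕ) : bl p c ∪ an p c' R ⊆ bl p R :=
  union_subset (bl_mono _ h) (an_sub _ _ _)

end D89

open D89

theorem domStmt : DomStmt := by
  intro P hP Λc
  obtain ⟨A, hA⟩ : ∃ A : ℝ, A = P.K ^ 3 * ((Λc + 1 : ℕ) : ℝ) ^ P.n := ⟨_, rfl⟩
  have K1 := hP.K1
  have A0 : 0 ≤ A := by rw [hA]; positivity
  refine ⟨16 * A ^ 2 * P.K, fun V m ρp ρq I z ρ F F' G h hm hG hF hF' => ?_⟩
  have r2 := hP.r2
  have p0 := h.p0
  have q0 := h.q0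
  have p1 := h.p1
  have q1 := h.q1
  have p4 := four_le hP (ρ := ρp)
  have q4 := four_le hP (ρ := ρq)
  have hf := hm.ctr.1
  have rg := L_rg P
  have ap : Amb P.L m (bl V.p (V.r / 4)) := B30.amb_mono hm (bl_mono _ (by omega))
  have aq : Amb P.L m (bl V.q (V.r / 4)) := B30.amb_mono hm (bl_sub (by rw [ds_qp]; omega))
  have fp := fam_core (V := V) (R := V.r / 4) (M := Λc + 1) hP hf p0 (by omega) (by omega)
    (le_far Λc _) le_rfl (lh_of_amb (B30.amb_mono ap (bl_mono _ (by omega))) (by omega))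
    ((inL_near ap.near).mono (an_sub _ _ _)) hF
  have fq := fam_core (V := V.sw) (R := V.r / 4) (M := Λc + 1) hP hf q0 (by omega)
    (by rw [sw_r]; omega) (le_far Λc _) le_rfl
    (lh_of_amb (B30.amb_mono aq (bl_mono _ (by omega))) (by omega))
    ((inL_near aq.near).mono (an_sub _ _ _)) hF'
  rw [sw_σ, sw_p, N_sw] at fq
  have fi := D89.Fam.prod (σ := V.σ) hf I (N := fun i => bl (z i) (P.W₀ * ρ i)) (G := fun i s => |G i s|)
    (b := fun i => 2 * P.N V (z i) (ρ i) (G i)) (fun i hi j hj hij => bl_disj (h.dj i hi j hj hij))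
    fun i hi => fam_free hP hf (h.fr i hi).1 (lh_of_amb (hG i hi).1 (by
      have := four_le hP (ρ := ρ i); have := (h.fr i hi).1; omega)) (hG i hi).2 V
  have fa := (fp.mul fq hf ((bl_disj (r := V.r / 4) (r' := V.r / 4) (by rw [ds_pq]; omega)).mono
    (core_sub _ (by omega) _) (core_sub _ (by omega) _))).mul fi hf (by
      refine (disjoint_biUnion_right _ _ _).2 fun i hi => disjoint_union_left.2 ⟨?_, ?_⟩
      · have := far_le hP Λc ρp
        exact cell_disj (by omega) ((h.fr i hi).2.trans (d_le_p V _)) (h.dp i hi).1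
          ((h.dp i hi).2.imp (by omega) (by omega))
      · have := far_le hP Λc ρq
        exact cell_disj (by omega) ((h.fr i hi).2.trans (d_le_q V _)) (h.dq i hi).1
          ((h.dq i hi).2.imp (by omega) (by omega)))
  have k := (fa.congr (F' := fun s => |F s * F' s * ∏ i ∈ I, G i s|) fun s => by
    rw [abs_mul, abs_mul, abs_prod]).ex hm.ctr hm.anch
  rw [← hA, prod_mul_distrib, prod_const] at k
  have k2 : uu P.b V (V.r / 4) * uu P.b V.sw (V.r / 4) ≤ P.K * zr m V.σ := hP.k2 V m (by omega) hm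
  have z0 := Ks68.zr_pos hm.ctr hm.anch V.σ
  have n1 := N_nonneg hP V V.p ρp F
  have n2 := N_nonneg hP V V.q ρq F'
  have n3 : 0 ≤ ∏ i ∈ I, P.N V (z i) (ρ i) (G i) := prod_nonneg fun i _ => N_nonneg hP V _ _ _
  have c4 : (2 : ℝ) ^ I.card ≤ 4 :=
    (pow_le_pow_right₀ one_le_two (show I.card ≤ 2 from card_le_univ I)).trans (by norm_num)
  generalize P.N V V.p ρp F = a at *
  generalize P.N V V.q ρq F' = b at *
  generalize ∏ i ∈ I, P.N V (z i) (ρ i) (G i) = d at *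
  have u0 := mul_pos (uu_pos hP V (V.r / 4)) (uu_pos hP V.sw (V.r / 4))
  refine le_of_mul_le_mul_left (k.trans ?_) z0
  calc _ = 4 * A ^ 2 * a * b * d * (2 ^ I.card *
        (uu P.b V (V.r / 4) * uu P.b V.sw (V.r / 4))) := by ring
    _ ≤ 4 * A ^ 2 * a * b * d * (4 * (P.K * zr m V.σ)) :=
        mul_le_mul_of_nonneg_left (mul_le_mul c4 k2 u0.le (by norm_num)) (by positivity)
    _ = _ := by ring

theorem dom1Stmt : Dom1Stmt := by
  intro P hP Λc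
  obtain ⟨A, hA⟩ : ∃ A : ℝ, A = P.K ^ 3 * ((Λc + 1 : ℕ) : ℝ) ^ P.n := ⟨_, rfl⟩
  have K1 := hP.K1
  have A0 : 0 ≤ A := by rw [hA]; positivity
  refine ⟨4 * A, fun V ρp R F p0 p1 hR hF => ?_⟩
  have r2 := hP.r2
  have p4 := four_le hP (ρ := ρp)
  have rg := L_rg P
  have hL := lok hP
  obtain ⟨x, hx⟩ : ∃ x : Pt, ds x V.p = R := ⟨V.p + ((R : ℤ), 0), by rw [ds_add]; simp [ds]⟩
  have xm : x ∈ bl V.p R := mem_bl_ds.2 hx.le
  have cn := cnL_bl hL V.p R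
  have hc := ctr_Nr hL (bl V.p R) x
  have ha := anch_Nr cn xm
  have u0 := uu_pos hP V R
  have fin : ∀ {U : Finset Pt} {H : Cfg Pt → ℝ} {β : ℝ}, DepG (bl V.p R) H →
      D89.Fam (pn (P.L.N (bl V.p R)) (bl V.p R) {x}) V.σ U (fun s => |H s|) (uu P.b V R * β) →
      P.L.nrm V.σ V.p R H ≤ β := fun {U H β} dH f => by
    have k := f.ex hc ha
    rw [← Ks68.zr_root xm, pn_Nr, ex_Nr hL cn xm (self_mem_bl _ _)
      fun s s' k hk => congrArg abs (dH s s' k hk)] at k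
    exact le_of_mul_le_mul_left k u0
  have fp := fam_core (V := V) (R := R) (M := Λc + 1) hP hc.1 p0 p1 hR (le_far Λc _) le_rfl
    (lh_free (by omega) (bl_mono _ p1) (by rw [mem_bl_ds]; omega))
    ((inL_N (an_sub _ _ _)).pn (an_sub _ _ _) _) hF
  rw [← hA] at fp
  have dF : DepG (bl V.p R) F := (ins_le hF (by omega)).1
  have n1 := N_nonneg hP V V.p ρp F
  refine ⟨fin dF (fp.mono Subset.rfl ?_), fun z ρ G h0 h1 h2 h3 h4 hG => ?_⟩
  · calc _ = uu P.b V R * (2 * A * P.N V V.p ρp F) := by ring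
      _ ≤ _ := mul_le_mul_of_nonneg_left (mul_le_mul_of_nonneg_right (by linarith) n1) u0.le
  have r4 := four_le hP (ρ := ρ)
  have fz := fam_free hP hc.1 h0 (lh_free (by omega) (bl_sub h4) (by
    have := ds_tri x z V.p
    rw [mem_bl_ds]; omega)) hG V
  have := far_le hP Λc ρp
  have fa := fp.mul fz hc.1 (cell_disj (by omega) h1 h2 (Or.inr (by omega)))
  refine fin (ins_mul (ins_le hF (by omega)) (ins_mono hG (by omega))).1
    ((fa.congr fun s => abs_mul _ _).mono Subset.rfl (le_of_eq ?_))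
  ring

end Crest.Agent.T145.Vx
end

-- ▼ part T145/VxFar_30
section

/-!
# Row 145, twisted module: `FarStmt` (helper30)

The seam is a bounded region observable `tw`; the covariance clause of `Nc.DecStmt` applies to `F * tw`.
-/

set_option autoImplicit false

namespace Crest.Agent.T145.Vx

open Finset Nc B30
open Nc.Geo (inL_near cnL_bl)
open Ks68 (zr zx)
open Pot (cut)

namespace Far30

variable {Λ : Lat} {m : Mdl Pt} {U : Finset Pt} {σ : Pt × Pt → ℤ} {F G : Cfg Pt → ℝ}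

/-- the seam as an observable -/
noncomputable def tw (Λ : Lat) (σ : Pt × Pt → ℤ) (U : Finset Pt) (s : Cfg Pt) : ℝ :=
  ∏ e ∈ Λ.edI U, Λ.w (dE e s + σ e) / Λ.w (dE e s)

theorem depG_tw (Λ : Lat) (σ : Pt × Pt → ℤ) (U : Finset Pt) : DepG U (tw Λ σ U) :=
  DepG.prod fun e he => (DepG.dE (Lat.mem_edI.1 he).2.1 (Lat.mem_edI.1 he).2.2).comp
    fun k => Λ.w (k + σ e) / Λ.w k

theorem Ws_tw (hm : Λ.Amb m U) (hσ : ∀ e, σ e ≠ 0 → e ∈ Λ.edI U) (s : Cfg Pt) :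
    m.Ws 0 σ s = m.W 0 s * tw Λ σ U s := by
  have e : ∏ e ∈ m.ed, m.w e (dE e s + σ e) = (∏ e ∈ m.ed, m.w e (dE e s)) * tw Λ σ U s := by
    rw [← prod_sdiff hm.2.2.1, ← prod_sdiff hm.2.2.1, mul_assoc, tw, ← prod_mul_distrib]
    congr 1
    · refine prod_congr rfl fun e he => ?_
      rw [by_contra fun h : ¬ σ e = 0 => (mem_sdiff.1 he).2 (hσ e h), add_zero]
    · refine prod_congr rfl fun e he => ?_
      have h := ((hm.1.1 e (hm.2.2.1 he)).pos (dE e s)).ne'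
      rw [hm.2.2.2 e he] at h ⊢
      rw [mul_div_cancel₀ _ h]
  rw [Mdl.Ws, Mdl.W, e]; ring

theorem tw_nonneg (hm : Λ.Amb m U) (σ : Pt × Pt → ℤ) (s : Cfg Pt) : 0 ≤ tw Λ σ U s :=
  prod_nonneg fun e he => by
    have h := (hm.1.1 e (hm.2.2.1 he)).pos
    rw [hm.2.2.2 e he] at h
    exact (div_pos (h _) (h _)).le

theorem ig_tw (hm : Λ.Amb m U) (hσ : ∀ e, σ e ≠ 0 → e ∈ Λ.edI U) (hF : Tame F) :
    Ig (m.W 0) fun s => F s * tw Λ σ U s := by
  have h := (Md.ctr_ses hm.1 hm.2.1 0 σ).ig hF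
  unfold Ig at h ⊢
  exact h.congr fun s => by rw [Ws_tw hm hσ]; ring

theorem ex_tw (hm : Λ.Amb m U) (hσ : ∀ e, σ e ≠ 0 → e ∈ Λ.edI U) (F : Cfg Pt → ℝ) :
    Ex (m.W 0) (fun s => F s * tw Λ σ U s) = zr m σ * Ex (m.Ws 0 σ) F := by
  rw [← Ks68.zx_eq (Md.ctr_wts hm.1 hm.2.1 0 σ), zx, Ex]
  congr 1
  exact tsum_congr fun s => by rw [Ws_tw hm hσ]; ring

theorem lat_mono {U' : Finset Pt} (h : Λ.Amb m U) (hU : U' ⊆ U) : Λ.Amb m U' :=
  ⟨h.1, h.2.1, (Lat.edI_mono hU).trans h.2.2.1, fun e he => h.2.2.2 e (Lat.edI_mono hU he)⟩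

theorem cv_tw (hm : Λ.Amb m U) (hσ : ∀ e, σ e ≠ 0 → e ∈ Λ.edI U) (hF : Tame F) (hG : Tame G) :
    Cv (m.W 0) (fun s => (F s - Ex (m.Ws 0 σ) F) * tw Λ σ U s) G = zr m σ * Cv (m.Ws 0 σ) F G := by
  have hw := Md.ctr_wts hm.1 hm.2.1 0 σ
  have hs := Md.ctr_ses hm.1 hm.2.1 0 σ
  rw [← cv_sub_const hw hs hF hG (Ex (m.Ws 0 σ) F) 0, Cv, Cv, ex_tw hm hσ,
    hw.ex_sub_const (hs.ig hF), sub_self, mul_zero, zero_mul, zero_mul, sub_zero, sub_zero,
    ← ex_tw hm hσ]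
  simp only [sub_zero, mul_right_comm]

theorem seam_mem (hΛ : Λ.Ok) (V : Vp) {c : ℕ} (hc : V.r + 1 ≤ c) (e : Pt × Pt) (he : V.σ e ≠ 0) :
    e ∈ Λ.edI (bl V.p c) := by
  obtain ⟨a, r, sd⟩ := V
  obtain ⟨⟨x, y⟩, ⟨x', y'⟩⟩ := e
  simp only [Vp.σ, sm, Vd.ray] at he hc
  have h : y = -1 ∧ y' = 0 ∧ x = x' ∧ a ≤ x ∧ x < a + r := by split_ifs at he <;> omega
  obtain ⟨rfl, rfl, rfl, h1, h2⟩ := h
  refine Lat.mem_edI.2 ⟨by simpa using hΛ.e2, ?_, ?_⟩ <;>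
    cases sd <;> simp only [Vp.p, mem_bl] <;> simp <;> omega

variable {P : Par}

/-- cutting out the two core balls -/
theorem zr_le (hP : P.Ok) (V : Vp) (hr : 1 ≤ V.r) (hm : Amb P.L m (bl V.p (2 * V.r))) :
    zr m V.σ ≤ uu P.b V (V.r / 4) * uu P.b V.sw (V.r / 4) := by
  have hL := lok hP
  have one : ∀ {z : Pt} {c : ℕ}, Amb P.L m (bl z c) → D89.Fam m V.σ (bl z c) (fun _ => 1)
      (zr (Ks68.fr (P.L.N (bl z c)) (bl z c)) V.σ) := fun {z c} h => by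
    rw [← D89.zr_inL (inL_near h.near)]
    exact D89.Fam.blk hm.ctr.1 ((inL_near h.near).cn (cnL_bl hL z c)) ⟨z, self_mem_bl _ _⟩
  have k := ((one (amb_mono hm (bl_mono _ (show V.r / 4 ≤ _ by omega)))).mul
    (one (amb_mono hm (bl_sub (z := V.q) (r := V.r / 4) (by rw [ds_qp]; omega)))) hm.ctr.1
    (bl_disj (by rw [ds_pq]; omega))).le hm.ctr hm.anch
  simp only [mul_one, Ks68.zx_one] at k
  exact k.2

/-- the far observable is a neutral charge of bounded energy on the shell -/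
theorem bare (hΛ : Λ.Ok) : ∃ E : ℝ, 0 ≤ E ∧ ∀ (m : Mdl Pt) (p : Pt) (c S : ℕ), c < S →
    Λ.Amb m (an p c (2 * S + 1)) →
    Ex (m.W 0) (fun s => |pr (A0 (cut p S (2 * S))) s|) ≤ E := by
  obtain ⟨C, C0, hC⟩ := Pot.sm_cut 1
  have τ0 := hΛ.pos
  refine ⟨1 + Λ.τ * (150 * C ^ 2), by positivity, fun m p c S hc hm => ?_⟩
  have S1 : (1 : ℝ) ≤ S := by exact_mod_cast (show 1 ≤ S by omega)
  have ab : (S : ℝ) < 2 * S := by linarith
  have su : Pot.Sup (bl p (2 * S)) (cut p S (2 * S)) := Pot.sup_cut p ab (by push_cast; linarith)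
  have gb : Fl.B80.Gb (an p c (2 * S + 1)) (cut p S (2 * S)) := fun i x hx => by
    have h1 := Fl.B80.gb_bl su i x hx
    have h2 : ¬ (x ∈ bl p S ∧ x + ev i ∈ bl p S) := fun h =>
      hx (by rw [df, Pot.cut_one ab le_rfl h.1, Pot.cut_one ab le_rfl h.2, sub_self])
    refine ⟨mem_sdiff.2 ⟨h1.1, fun hc => h2 ?_⟩, mem_sdiff.2 ⟨h1.2, fun hc => h2 ?_⟩⟩ <;>
      fin_cases i <;> simp only [mem_bl, ev, Prod.fst_add, Prod.snd_add] at hc ⊢ <;>
      simp at hc ⊢ <;> omega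
  have mo := Fl.B80.mo_of hΛ hm.1 hm.2.1 hm.2.2.1 hm.2.2.2
    (Fl.B80.up hΛ subset_rfl (Fl.B80.f2_gb su gb) _)
  have e0 := Fl.B80.E0_le su (k := C / S) fun e he x _ => by
    have := (hC p S (2 * S) ab).one le_rfl he (Set.mem_univ x)
    rwa [show (2 * S - S : ℝ) = S by ring] at this
  have e1 : Fl.E0 (bl p (2 * S)) (cut p S (2 * S)) ≤ 150 * C ^ 2 := by
    refine e0.trans ?_
    rw [card_bl, div_pow, ← mul_div_assoc, div_mul_eq_mul_div, div_le_iff₀ (by positivity)]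
    push_cast
    have : (2 * (2 * S) + 1 : ℝ) ^ 2 ≤ 25 * S ^ 2 := by nlinarith
    nlinarith [mul_le_mul_of_nonneg_left this (sq_nonneg C)]
  have hw := mo.cen.wt
  have t := Fl.tame_pr (A0 (cut p S (2 * S)))
  have h1 : Ex (m.W 0) (fun s => |pr (A0 (cut p S (2 * S))) s|) ≤
      Ex (m.W 0) fun s => pr (A0 (cut p S (2 * S))) s ^ 2 + 1 :=
    Ex_mono hw.nonneg (mo.cen.ig t.abs) (mo.cen.ig ((t.pow 2).add (Tame.const 1))) fun s => by
      nlinarith [sq_nonneg (|pr (A0 (cut p S (2 * S))) s| - 1), sq_abs (pr (A0 (cut p S (2 * S))) s)]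
  rw [hw.ex_add_const (mo.cen.ig (t.pow 2))] at h1
  have h2 := mo.two.trans (mul_le_mul_of_nonneg_left e1 τ0.le)
  linarith

theorem out_A0 (p : Pt) {c S : ℕ} (hc : c < S) : Out (bl p c) fun s => pr (A0 (cut p S (2 * S))) s := by
  have S1 : (1 : ℝ) ≤ S := by exact_mod_cast (show 1 ≤ S by omega)
  have ab : (S : ℝ) < 2 * S := by linarith
  refine Fl.out_pr fun y hy => ?_
  have h : ∀ v : Pt, ds v 0 ≤ 1 → cut p S (2 * S) (y + v) = 1 := fun v hv =>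
    Pot.cut_one ab le_rfl (by
      have := ds_tri (y + v) y p
      rw [ds_add] at this
      rw [mem_bl_ds] at hy ⊢; omega)
  have h0 := h 0 (by decide)
  rw [add_zero] at h0
  rw [A0, h0, h _ (by decide), h _ (by decide), h _ (by decide), h _ (by decide)]; norm_num

theorem cv_Y (hY : YStmt) (hm : Amb Λ m U) (hF : Tame F) (σ : Pt × Pt → ℤ) (p : Pt) {S : ℕ}
    (hS : 1 ≤ S) : Cv (m.Ws 0 σ) F (Yv σ (cut p S (2 * S))) =
      Cv (m.Ws 0 σ) F fun s => pr (A0 (cut p S (2 * S))) s := by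
  have S1 : (1 : ℝ) ≤ S := by exact_mod_cast hS
  have h := hY σ (bl p (2 * S)) _ (Pot.sup_cut p (a := S) (b := 2 * S) (by linarith)
    (by push_cast; linarith))
  rw [← cv_sub_const (amb_wt hm σ) (amb_se hm σ) hF h.2.2.2.1 0
    (∑ᶠ z, ∑ i, df i (cut p S (2 * S)) z * σ (z, z + ev i))]
  simp only [sub_zero, h.2.1, add_sub_cancel_right]

theorem num {M S S' : ℕ} (hM : 2 ≤ M) (hS : 0 < S) (h : 4 * M * S ≤ S') :
    ∃ n : ℕ, 2 * (M ^ (n + 1) * (2 * S)) ≤ S' ∧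
      (1 / 2 : ℝ) ^ n ≤ 16 * ((S : ℝ) / S') ^ (Real.log 2 / Real.log M) := by
  have h1 : M ≤ S' / (4 * S) := (Nat.le_div_iff_mul_le (by omega)).2 (by linarith)
  have h2 := Nat.pow_log_le_self M (show S' / (4 * S) ≠ 0 by omega)
  have h3 := Nat.lt_pow_succ_log_self (b := M) (by omega) (S' / (4 * S))
  have h4 := Nat.log_pos (b := M) (by omega) h1
  obtain ⟨n, hn⟩ : ∃ n, Nat.log M (S' / (4 * S)) = n + 1 := ⟨_, (Nat.succ_pred_eq_of_pos h4).symm⟩
  rw [hn] at h2 h3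
  rw [Nat.le_div_iff_mul_le (by omega)] at h2
  rw [Nat.div_lt_iff_lt_mul (by omega)] at h3
  refine ⟨n, by linarith, ?_⟩
  have M2 : (2 : ℝ) ≤ M := by exact_mod_cast hM
  have l2 := Real.log_pos (show (1 : ℝ) < 2 by norm_num)
  have lM := Real.log_le_log (by norm_num) M2
  have c0 : 0 ≤ Real.log 2 / Real.log M := div_nonneg l2.le (by linarith)
  have c1 : Real.log 2 / Real.log M ≤ 1 := (div_le_one (by linarith)).2 lM
  have S0 : (0 : ℝ) < S := by exact_mod_cast hS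
  have S1 : (0 : ℝ) < S' := by
    have : 0 < M ^ (n + 1) * (4 * S) := by positivity
    exact_mod_cast (show 0 < S' by omega)
  have e : (M : ℝ) ^ (Real.log 2 / Real.log M) = 2 := by
    rw [Real.rpow_def_of_pos (by linarith), mul_div_cancel₀ _ (by linarith), Real.exp_log two_pos]
  have k1 : (1 / 4 : ℝ) * (1 / M) ^ (n + 2) ≤ (S : ℝ) / S' := by
    have : (S' : ℝ) ≤ M ^ (n + 2) * (4 * S) := by exact_mod_cast h3.le
    rw [le_div_iff₀ S1, one_div_pow, one_div_mul_one_div, one_div, inv_mul_le_iff₀ (by positivity)]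
    linarith
  have k2 := Real.rpow_le_rpow (by positivity) k1 c0
  rw [Real.mul_rpow (by norm_num) (by positivity), ← Real.rpow_pow_comm (by positivity),
    Real.div_rpow zero_le_one (by positivity), Real.div_rpow zero_le_one (by positivity), e,
    Real.one_rpow] at k2
  have k3 : (4 : ℝ) ^ (Real.log 2 / Real.log M) ≤ 4 := Real.rpow_le_self_of_one_le (by norm_num) c1
  have k4 : (1 / 4 : ℝ) ≤ 1 / 4 ^ (Real.log 2 / Real.log M) :=
    one_div_le_one_div_of_le (by positivity) k3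
  have k5 := mul_le_mul_of_nonneg_right k4 (show (0 : ℝ) ≤ (1 / 2) ^ (n + 2) by positivity)
  rw [pow_add] at k5 k2
  linarith

/-- the contraction for any insertion of the ball of radius `2 S` -/
theorem gen (hP : P.Ok) : ∃ (C c : ℝ) (Λ₀ : ℕ), 0 ≤ C ∧ 0 < c ∧ c ≤ 1 ∧ 4 ≤ Λ₀ ∧
    ∀ (V : Vp) (m : Mdl Pt) (S S' : ℕ) (F : Cfg Pt → ℝ) (β : ℝ), 8 * P.r₀ ≤ V.r → 4 * V.r ≤ S →
      Λ₀ * S ≤ S' → Amb P.L m (bl V.p (8 * S')) → Ins V.p (2 * S) F →
      (∀ m', Amb P.L m' (bl V.p (4 * S)) → Ex (m'.Ws 0 V.σ) (fun s => |F s|) ≤ β) →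
      |Cv (m.Ws 0 V.σ) F fun s => pr (A0 (cut V.p S' (2 * S'))) s| ≤ C * ((S : ℝ) / S') ^ c * β := by
  have hL := lok hP
  obtain ⟨E, E0, hE⟩ := bare hL
  have hW := hP.W2
  have hr := hP.r2
  have K0 : 0 ≤ P.K := zero_le_one.trans hP.K1
  have rg := L_rg P
  obtain ⟨M, hM⟩ : ∃ M, M = 4 * P.W₀ ^ 4 := ⟨_, rfl⟩
  have W2 : P.W₀ * P.W₀ ≤ M := by
    rw [hM, ← pow_two]
    have := Nat.pow_le_pow_right (show 0 < P.W₀ by omega) (show 2 ≤ 4 by norm_num)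
    omega
  have W4 : 4 * 4 ≤ P.W₀ * P.W₀ := Nat.mul_le_mul hW hW
  have M2 : (2 : ℝ) ≤ M := by exact_mod_cast (show 2 ≤ M by omega)
  have l2 := Real.log_pos (show (1 : ℝ) < 2 by norm_num)
  have lM := Real.log_le_log (by norm_num) M2
  refine ⟨6400 * P.K * E, Real.log 2 / Real.log M, 4 * M, by positivity, div_pos l2 (by linarith),
    (div_le_one (by linarith)).2 lM, by omega, fun V m S S' F β h0 h1 h2 hm hF hβ => ?_⟩
  obtain ⟨n, n1, n2⟩ := num (M := M) (S := S) (by omega) (by omega) h2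
  obtain ⟨a, ha⟩ : ∃ a, a = M ^ n * (2 * S) := ⟨_, rfl⟩
  have a1 : 2 * S ≤ a := ha ▸ Nat.le_mul_of_pos_left _ (pow_pos (by omega) n)
  have a2 : M ^ (n + 1) * (2 * S) = M * a := by rw [ha]; ring
  have a3 : P.W₀ * (P.W₀ * a) ≤ M * a := by rw [← mul_assoc]; exact Nat.mul_le_mul_right _ W2
  have a4 := four_le hP (ρ := a)
  have a5 := four_le hP (ρ := P.W₀ * a)
  have a6 := four_le hP (ρ := 2 * S)
  rw [a2] at n1
  have hσ := seam_mem hL V (c := 2 * S) (by omega)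
  have lm : P.L.Amb m (bl V.p (2 * S)) := FlF4.amb_lat (amb_mono hm (bl_mono _ (by omega)))
  have lb : P.L.Amb (FlF4.bx P.L V.p (P.W₀ * (2 * S))) (bl V.p (2 * S)) :=
    lat_mono (FlF4.lat_bx hL _ _) (bl_mono _ (by omega))
  have ab : Amb P.L (FlF4.bx P.L V.p (P.W₀ * (2 * S))) (bl V.p (4 * S)) := FlF4.amb_bx hL (by omega)
  obtain ⟨e, he⟩ : ∃ e, e = Ex (m.Ws 0 V.σ) F := ⟨_, rfl⟩
  have tF : Tame fun s => F s - e := hF.2.sub (Tame.const e)
  have dH : DepG (bl V.p (2 * S)) fun s => (F s - e) * tw P.L V.σ (bl V.p (2 * S)) s :=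
    (hF.1.sub (DepG.const _ e)).mul (depG_tw _ _ _)
  have dH' := dH.mono (bl_mono V.p (show 2 * S ≤ P.W₀ * (2 * S) by omega))
  have am : Amb P.L m (bl V.p (M * a + P.L.rg)) := amb_mono hm (bl_mono _ (by omega))
  obtain ⟨hc, hh⟩ := FlF4.hole_ca hL (c := P.W₀ * a) (by omega) (by omega) am
  have tG := Fl.tame_pr (A0 (cut V.p S' (2 * S')))
  have k := (FlF4.dec P.L hL (1 / 400) P.W₀ P.r₀ (M * a) (by norm_num) (by norm_num) (hP.gd _) V.p
    (2 * S) n (M * a) _ (by omega) (by rw [← hM, a2]) (by rw [← hM, a2]) dH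
    ((FlF4.In_bx dH').2 (ig_tw lb hσ tF)) m am).2.2.2 (P.W₀ * a) _ (by rw [← hM, ha]) a3 (by omega)
    (out_A0 V.p (S := S') (by omega)) ((hc.cen hh).ig tG)
  have k1 := hE (hole m (bl V.p (P.W₀ * a))) V.p (P.W₀ * a) S' (by omega)
    (FlF4.lat_hole hc hh (FlF4.amb_lat (amb_mono hm ((an_sub _ _ _).trans (bl_mono _ (by omega)))))
      (an_disj _ _ _).symm)
  have e1 : |e| ≤ β := he ▸ (abs_Ex_le (amb_wt hm _).nonneg (amb_ig hm _ hF.2)).trans
    (hβ m (amb_mono hm (bl_mono _ (by omega))))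
  have k2 : Nm P.L V.p (P.W₀ * (2 * S)) (fun s => (F s - e) * tw P.L V.σ (bl V.p (2 * S)) s) ≤
      P.K * zr m V.σ * (2 * β) := by
    rw [FlF4.Nm_bx dH']
    simp only [abs_mul, abs_of_nonneg (tw_nonneg lm _ _)]
    rw [ex_tw lb hσ]
    have hw := amb_wt ab V.σ
    have h3 : Ex ((FlF4.bx P.L V.p (P.W₀ * (2 * S))).Ws 0 V.σ) (fun s => |F s - e|) ≤
        Ex ((FlF4.bx P.L V.p (P.W₀ * (2 * S))).Ws 0 V.σ) fun s => |F s| + |e| :=
      Ex_mono hw.nonneg (amb_ig ab _ tF.abs) (amb_ig ab _ (hF.2.abs.add (Tame.const _)))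
        fun s => abs_sub _ _
    rw [hw.ex_add_const (amb_ig ab _ hF.2.abs)] at h3
    have h4 := hβ _ ab
    exact mul_le_mul ((zr_le hP V (by omega) (amb_mono ab (bl_mono _ (by omega)))).trans
      (hP.k2 V m h0 (amb_mono hm (bl_mono _ (by omega))))) (by linarith)
      (Ex_nonneg hw.nonneg fun _ _ => abs_nonneg _)
      (mul_nonneg K0 (Ks68.zr_pos hm.ctr hm.anch _).le)
  have z0 := Ks68.zr_pos hm.ctr hm.anch V.σ
  have β0 := (abs_nonneg e).trans e1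
  rw [he, cv_tw lm hσ hF.2 tG, abs_mul, abs_of_pos z0, ← he,
    show (200 * (1 / 400) : ℝ) = 1 / 2 by norm_num] at k
  refine le_of_mul_le_mul_left (k.trans ?_) z0
  calc _ ≤ 200 * (16 * ((S : ℝ) / S') ^ (Real.log 2 / Real.log M)) * (P.K * zr m V.σ * (2 * β)) * E :=
        mul_le_mul (mul_le_mul (mul_le_mul_of_nonneg_left n2 (by norm_num)) k2
          (Lat.nrm_zero P.L _ _ _ ▸ nrm_nonneg hL _ _ _ _) (by positivity)) k1
          (Ex_nonneg (hc.cen hh).wt.nonneg fun _ _ => abs_nonneg _) (by positivity)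
    _ = _ := by ring

end Far30

open Far30

theorem farStmt (hT : TrStmt) (hY : YStmt) (hD : DomStmt) (hC : CovStmt) (hJ : JnStmt) : FarStmt := by
  intro P hP
  obtain ⟨A, c, Λ₀, A0', c0, c1, L4, hA⟩ := gen hP
  obtain ⟨C₁, h1⟩ := hD P hP 0
  obtain ⟨C₂, h2⟩ := hC P hP 0
  obtain ⟨C₃, h3⟩ := hJ P hP
  have hW := hP.W2
  have hr := hP.r2
  have W4 : (4 : ℝ) ≤ P.W₀ := by exact_mod_cast hW
  have r4 := four_le hP (ρ := P.r₀)
  have r5 := four_le hP (ρ := P.W₀ * P.r₀)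
  -- an insertion at either core
  have core : ∀ (V V' : Vp) (m : Mdl Pt) (S S' ρ : ℕ) (F : Cfg Pt → ℝ), V'.σ = V.σ → V'.r = V.r →
      ds V'.p V.p ≤ V.r → 4 * V.r ≤ S → Λ₀ * S ≤ S' → Amb P.L m (bl V.p (8 * S')) → P.r₀ ≤ ρ →
      4 * (P.W₀ * ρ) ≤ V.r → Ins V'.p (ρ + 1) F →
      |Cv (m.Ws 0 V.σ) F (Yv V.σ (cut V.p S' (2 * S')))| ≤
        A * ((S : ℝ) / S') ^ c * (|C₁| * P.ν V' ρ F) := by
    intro V V' m S S' ρ F e1 e2 e3 hS hS' hm p0 p1 hF
    have l1 := four_le hP (ρ := ρ)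
    have l2 : 4 * S ≤ Λ₀ * S := Nat.mul_le_mul_right _ L4
    have tt := tame_tr hP hT hF V.σ
    have tG := Fl.tame_pr (A0 (cut V.p S' (2 * S')))
    have i0 := ins_sub_const (ins_tr hP hT hF V.σ) (P.L.exN V.σ V'.p (P.W₀ * ρ) F)
    rw [cv_Y hY hm hF.2 _ _ (by omega), ← cv_tr hP hT hF V.σ
      ((out_A0 V.p (c := 2 * S) (S := S') (by omega)).mono (bl_sub (by omega))) tG
      (amb_mono hm (bl_sub (by omega))), ← cv_sub_const (amb_wt hm _) (amb_se hm _) tt tG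
      (P.L.exN V.σ V'.p (P.W₀ * ρ) F) 0]
    simp only [sub_zero]
    refine hA V m S S' _ _ (by omega) hS hS' hm (ins_mono i0 (by omega)) fun m' hm' => ?_
    have k := h1 V' m' ρ ρ ∅ 0 0 _ (fun _ => 1) 0 ⟨p0, by omega, p0, by omega, by simp, by simp,
      by simp, by simp⟩ (amb_mono hm' (bl_sub (by omega))) (by simp) i0 (ins_const _ _ 1)
    simp only [prod_empty, mul_one, N_one hP] at k
    rw [← e1] at k ⊢
    exact k.trans (mul_le_mul_of_nonneg_right (le_abs_self _) (ν_nonneg hP V' ρ F))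
  obtain ⟨B, hB⟩ : ∃ B : ℝ, B = |C₁| + (|C₁| + |C₂|) * |C₃| * (8 * P.W₀) ^ 3 := ⟨_, rfl⟩
  have W8 : (1 : ℝ) ≤ 8 * P.W₀ := by linarith
  have B0 : 0 ≤ (|C₁| + |C₂|) * |C₃| * (8 * P.W₀) ^ 3 := by positivity
  refine ⟨A * B, c, 32 * (P.W₀ * (P.W₀ * P.r₀)), Λ₀, c0, c1, by omega,
    fun V m S S' h0 hS hS' hm => ?_⟩
  have q0 : 0 ≤ A * ((S : ℝ) / S') ^ c := by positivity
  have l2 : 4 * S ≤ Λ₀ * S := Nat.mul_le_mul_right _ L4
  have fin : ∀ {x y t : ℝ}, x ≤ A * ((S : ℝ) / S') ^ c * y → y ≤ B * t →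
      x ≤ A * B * ((S : ℝ) / S') ^ c * t := fun {x y t} a b =>
    (a.trans (mul_le_mul_of_nonneg_left b q0)).trans_eq (by ring)
  refine ⟨fun z hz => ?_, fun ρ F p0 p1 hF => fin (core V V m S S' ρ F rfl rfl
    (by rw [ds_self]; omega) hS hS' hm p0 p1 hF) (mul_le_mul_of_nonneg_right (by linarith)
      (ν_nonneg hP V ρ F))⟩
  have iJ := ((hY V.σ ∅ 0 fun _ _ => rfl).2.2.2.2 z).1
  have zp := d_le_p V z
  have x0 : (0 : ℝ) < 1 + V.d z := by positivity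
  have r0 : (0 : ℝ) < V.r := by exact_mod_cast (show 0 < V.r by omega)
  obtain ⟨g1, g2, g3⟩ := J93.geo (d := V.r) hW hr (by rw [mul_assoc]; omega)
  obtain ⟨ρ, hρ⟩ : ∃ ρ, ρ = V.r / (4 * P.W₀) := ⟨_, rfl⟩
  rw [← hρ] at g1 g2 g3
  have l3 := four_le hP (ρ := ρ)
  rcases le_or_gt (2 * V.d z) ρ with hd | hd
  · -- close to a core
    obtain ⟨V', e1, e2, e3, e4⟩ : ∃ V' : Vp, V'.σ = V.σ ∧ V'.r = V.r ∧ ds V'.p V.p ≤ V.r ∧
        ds z V'.p = V.d z := by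
      rcases le_total (ds z V.p) (ds z V.q) with h | h
      · exact ⟨V, rfl, rfl, by rw [ds_self]; omega, (min_eq_left h).symm⟩
      · exact ⟨V.sw, rfl, rfl, (ds_qp V).le, (min_eq_right h).symm⟩
    refine fin (core V V' m S S' ρ _ e1 e2 e3 hS hS' hm g1 g2 (ins_mono iJ (by omega))) ?_
    have k := (h3 V' z ρ g1).2 (by omega) (by omega)
    rw [e1, e4] at k
    rw [nb, min_eq_right (show V.r ≤ S by omega), if_neg (by omega)]
    have lρ := J93.one_le_log (hr.trans g1)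
    have ρ0 : (0 : ℝ) < ρ := by exact_mod_cast (show 0 < ρ by omega)
    have k1 := J93.rp_le r0 ρ0 W8 (by exact_mod_cast (show V.r ≤ 8 * P.W₀ * ρ by omega))
    have u0 : 0 ≤ (1 + (V.d z : ℝ)) ^ (-(21 / 20 : ℝ)) := by positivity
    have v0 : 0 ≤ (V.r : ℝ) ^ (-(19 / 20 : ℝ)) := by positivity
    have w0 : 0 ≤ (ρ : ℝ) ^ (-(19 / 20 : ℝ)) := by positivity
    generalize (1 + (V.d z : ℝ)) ^ (-(21 / 20 : ℝ)) = u at *
    generalize (V.r : ℝ) ^ (-(19 / 20 : ℝ)) = v at *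
    generalize (ρ : ℝ) ^ (-(19 / 20 : ℝ)) = w at *
    have k2 : C₃ * u * w / Real.log ρ ≤ |C₃| * u * (8 * P.W₀ * v) :=
      calc _ ≤ |C₃| * u * w / Real.log ρ := div_le_div_of_nonneg_right (mul_le_mul_of_nonneg_right
            (mul_le_mul_of_nonneg_right (le_abs_self _) u0) w0) (by linarith)
        _ ≤ |C₃| * u * w := div_le_self (by positivity) lρ
        _ ≤ _ := mul_le_mul_of_nonneg_left k1 (by positivity)
    have k3 : |C₁| * |C₃| * (8 * P.W₀) ≤ B := by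
      have := mul_le_mul (mul_le_mul_of_nonneg_right (le_add_of_nonneg_right (abs_nonneg C₂) :
        |C₁| ≤ _) (abs_nonneg C₃)) (le_self_pow₀ W8 three_ne_zero) (by linarith) (by positivity)
      linarith [abs_nonneg C₁]
    calc _ ≤ |C₁| * (|C₃| * u * (8 * P.W₀ * v)) :=
          mul_le_mul_of_nonneg_left (k.trans k2) (abs_nonneg _)
      _ = |C₁| * |C₃| * (8 * P.W₀) * (u * v) := by ring
      _ ≤ _ := mul_le_mul_of_nonneg_right k3 (by positivity)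
  -- a free cell
  have d1 : V.r < 8 * P.W₀ * V.d z := by
    rw [hρ, Nat.div_lt_iff_lt_mul (by omega)] at hd; linarith
  have d2 : 4 * P.W₀ * P.r₀ ≤ V.d z := by
    refine Nat.le_of_mul_le_mul_left (c := 8 * P.W₀) ?_ (by omega)
    calc _ = 32 * (P.W₀ * (P.W₀ * P.r₀)) := by ring
      _ ≤ _ := by omega
  obtain ⟨f1, f2, f3⟩ := J93.geo hW hr d2
  obtain ⟨a, ha⟩ : ∃ a, a = V.d z / (4 * P.W₀) := ⟨_, rfl⟩
  rw [← ha] at f1 f2 f3
  have l4 := four_le hP (ρ := a)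
  have iJ' : Ins z (a + 1) (Jv V.σ z) := ins_le iJ (by omega)
  have iG := ins_tr hP hT iJ' V.σ
  rw [cv_Y hY hm iJ.2 _ _ (by omega), ← cv_tr hP hT iJ' V.σ
    ((out_A0 V.p (c := 2 * S) (S := S') (by omega)).mono (bl_sub (by omega))) (Fl.tame_pr _)
    (amb_mono hm (bl_sub (by omega)))]
  have n0 := N_nonneg hP V z a (P.L.tr V.σ z a (Jv V.σ z))
  refine fin (hA V m S S' _ (|C₂| * P.N V z a (P.L.tr V.σ z a (Jv V.σ z))) (by omega) hS hS' hm
    (ins_mono iG (by omega)) fun m' hm' => ?_) ?_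
  · exact ((h2 V m' P.r₀ P.r₀ _ _ le_rfl (by omega) le_rfl (by omega)
      (amb_mono hm' (bl_mono _ (by omega))) (ins_const _ _ 1) (ins_const _ _ 1)).2.2 z a _ f1 f2
      (amb_mono hm' (bl_sub (by omega))) iG).1.trans (mul_le_mul_of_nonneg_right (le_abs_self _) n0)
  have k := (h3 V z a f1).1 (by omega)
  have la := J93.one_le_log (hr.trans f1)
  have a0 : (0 : ℝ) < a := by exact_mod_cast (show 0 < a by omega)
  have f4 : 1 + (V.d z : ℝ) ≤ 8 * P.W₀ * a := by exact_mod_cast (show 1 + V.d z ≤ 8 * P.W₀ * a by omega)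
  have k1 : C₃ / ((a : ℝ) ^ 2 * Real.log a) ≤ |C₃| * (8 * P.W₀) ^ 2 * (1 / (1 + (V.d z : ℝ)) ^ 2) := by
    refine (div_le_div₀ (abs_nonneg _) (le_abs_self _) (show (0 : ℝ) < a ^ 2 by positivity)
      (le_mul_of_one_le_right (by positivity) la)).trans ?_
    rw [mul_one_div, div_le_div_iff₀ (by positivity) (by positivity), mul_assoc, ← mul_pow]
    exact mul_le_mul_of_nonneg_left (pow_le_pow_left₀ x0.le f4 2) (abs_nonneg _)
  have k2 : 1 / (1 + (V.d z : ℝ)) ^ 2 ≤ 8 * P.W₀ * nb V z S := by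
    rw [nb, min_eq_right (show V.r ≤ S by omega), min_eq_left (zp.trans hz)]
    split_ifs
    · exact le_mul_of_one_le_left (by positivity) W8
    · rw [J93.sq_split x0, mul_left_comm]
      refine mul_le_mul_of_nonneg_left (J93.rp_le r0 x0 W8 ?_) (by positivity)
      have : (V.r : ℝ) ≤ 8 * P.W₀ * V.d z := by exact_mod_cast d1.le
      linarith
  have nb0 : 0 ≤ nb V z S := by rw [nb]; split_ifs <;> positivity
  have k3 : |C₂| * |C₃| * (8 * P.W₀) ^ 3 ≤ B := by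
    have := mul_le_mul_of_nonneg_right (mul_le_mul_of_nonneg_right
      (le_add_of_nonneg_left (abs_nonneg C₁) : |C₂| ≤ _) (abs_nonneg C₃))
      (show (0 : ℝ) ≤ (8 * P.W₀) ^ 3 by positivity)
    linarith [abs_nonneg C₁]
  calc _ ≤ |C₂| * (|C₃| * (8 * P.W₀) ^ 2 * (8 * P.W₀ * nb V z S)) :=
        mul_le_mul_of_nonneg_left ((k.trans k1).trans (mul_le_mul_of_nonneg_left k2 (by positivity)))
          (abs_nonneg _)
    _ = |C₂| * |C₃| * (8 * P.W₀) ^ 3 * nb V z S := by ring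
    _ ≤ _ := mul_le_mul_of_nonneg_right k3 nb0

end Crest.Agent.T145.Vx
end

-- ▼ part T145/VxRoute_51
section

/-!
# Row 145, module Vx (helper51): routing a neutral charge inside a square shell
-/

set_option autoImplicit false

namespace Crest.Agent.T145.Vx

open Finset
open Nc (an)

namespace R51

theorem nn_ok : nnL.Ok := ⟨admissible_nn, one_pos⟩

theorem mem_bl_ds {z p : Pt} {n : ℕ} : z ∈ bl p n ↔ ds z p ≤ n := by
  rw [mem_bl, ds]; omega

/-- a bounded neutral charge in a rectangle -/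
theorem rect {a : Pt} {n₁ n₂ N : ℕ} (h0 : 1 ≤ n₁) (h1 : n₁ ≤ N) (h2 : n₂ ≤ N) {f : Pt → ℝ} {M : ℝ}
    (hs : Sup (rc a n₁ n₂) f) (hf : ∑ x ∈ rc a n₁ n₂, f x = 0) (hM : ∀ x, |f x| ≤ M) :
    Fs (nnL.edI (rc a n₁ n₂)) f (3 * N * M) := by
  have hM0 : 0 ≤ M := (abs_nonneg _).trans (hM 0)
  have c1 : (1 : ℝ) ≤ n₁ := by exact_mod_cast h0
  have c2 : (n₁ : ℝ) ≤ N := by exact_mod_cast h1
  have c3 : (n₂ : ℝ) ≤ N := by exact_mod_cast h2
  refine (nn_ok.r1_rows hs hf (c := n₁ * M) fun t => ?_).mono ?_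
  · refine (sum_le_card_nsmul _ _ M fun x _ => hM x).trans ?_
    rw [nsmul_eq_mul]
    exact mul_le_mul_of_nonneg_right (by exact_mod_cast card_row_le a n₁ n₂ t) hM0
  · have e : (n₁ : ℝ) * M * (2 + (n₂ : ℝ) / n₁) = (2 * n₁ + n₂) * M := by field_simp
    rw [e]; exact mul_le_mul_of_nonneg_right (by linarith) hM0

/-- the uniform density on a square -/
noncomputable def un (a : Pt) (n : ℕ) (x : Pt) : ℝ := if x ∈ rc a n n then 1 / (n : ℝ) ^ 2 else 0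

theorem abs_un (a : Pt) (n : ℕ) (x : Pt) : |un a n x| ≤ 1 / (n : ℝ) ^ 2 := by
  unfold un; split_ifs
  · exact (abs_of_nonneg (by positivity)).le
  · rw [abs_zero]; positivity

theorem sup_un {a : Pt} {n : ℕ} {B : Finset Pt} (h : rc a n n ⊆ B) : Sup B (un a n) :=
  fun _ hx => if_neg fun hx' => hx (h hx')

theorem sum_un {a : Pt} {n : ℕ} (hn : 1 ≤ n) {B : Finset Pt} (h : rc a n n ⊆ B) : ∑ x ∈ B, un a n x = 1 := by
  have c : (n : ℝ) ≠ 0 := by positivity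
  rw [← sum_subset h fun x _ hx => sup_un subset_rfl x hx, 
    sum_congr rfl fun x hx => show un a n x = 1 / (n : ℝ) ^ 2 from if_pos hx, sum_const, card_rc, nsmul_eq_mul]
  push_cast; field_simp

/-- one link of the chain: the part of `g` in `S`, an incoming and an outgoing density -/
theorem link {a c c' : Pt} {n₁ n₂ N n : ℕ} (h0 : 1 ≤ n₁) (h1 : n₁ ≤ N) (h2 : n₂ ≤ N) (hn : 1 ≤ n)
    (hc : rc c n n ⊆ rc a n₁ n₂) (hc' : rc c' n n ⊆ rc a n₁ n₂) {f : Pt → ℝ} {M K μ μ' : ℝ}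
    (hs : Sup (rc a n₁ n₂) f) (hf : ∑ x ∈ rc a n₁ n₂, f x + μ = μ') (hM : ∀ x, |f x| ≤ M)
    (hμ : |μ| ≤ K * (n : ℝ) ^ 2) (hμ' : |μ'| ≤ K * (n : ℝ) ^ 2) :
    Fs (nnL.edI (rc a n₁ n₂)) (f + μ • un c n - μ' • un c' n) (3 * N * (M + 2 * K)) := by
  have c0 : (0 : ℝ) < n := by exact_mod_cast hn
  have key : ∀ {t : ℝ} (d x : Pt), |t| ≤ K * (n : ℝ) ^ 2 → |t * un d n x| ≤ K := fun d x ht => by
    rw [abs_mul]
    refine (mul_le_mul ht (abs_un d n x) (abs_nonneg _) ((abs_nonneg _).trans ht)).trans_eq ?_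
    field_simp
  refine rect h0 h1 h2 (fun x hx => ?_) ?_ fun x => ?_
  · simp [hs x hx, sup_un hc x hx, sup_un hc' x hx]
  · simp only [Pi.sub_apply, Pi.add_apply, Pi.smul_apply, smul_eq_mul, sum_sub_distrib, sum_add_distrib,
      ← mul_sum, sum_un hn hc, sum_un hn hc']
    linarith
  · simp only [Pi.sub_apply, Pi.add_apply, Pi.smul_apply, smul_eq_mul]
    have := abs_sub (f x + μ * un c n x) (μ' * un c' n x)
    have := abs_add_le (f x) (μ * un c n x)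
    linarith [hM x, key c x hμ, key c' x hμ']

/-- the part of `g` where `P` holds -/
noncomputable def pt (P : Pt → Prop) [DecidablePred P] (g : Pt → ℝ) (x : Pt) : ℝ := if P x then g x else 0

end R51

open R51

theorem routeStmt : RouteStmt := by
  intro Λc hΛ
  refine ⟨4 * (3 * (3 * Λc) * (1 + 2 * (27 * (Λc : ℝ) ^ 2))), fun p D A g hD h => ?_⟩
  obtain ⟨hs, h0, hb⟩ := h
  have cD : (2 : ℝ) ≤ D := by exact_mod_cast hD
  have cΛ : (2 : ℝ) ≤ Λc := by exact_mod_cast hΛ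
  have hA : 0 ≤ A / D := (abs_nonneg _).trans (hb 0)
  obtain ⟨R, hR⟩ : ∃ R, R = Λc * D := ⟨_, rfl⟩
  have hR2 : 2 * D ≤ R := hR ▸ Nat.mul_le_mul_right _ hΛ
  have cR : (R : ℝ) = Λc * D := by rw [hR]; push_cast; rfl
  rw [← hR] at hs h0 ⊢
  -- the four strips
  obtain ⟨w, hw⟩ : ∃ w, w + D = R + 1 := ⟨R + 1 - D, by omega⟩
  set a : Pt := (p.1 - R, p.2 - R)
  set aR : Pt := (p.1 + D, p.2 - R)
  set aT : Pt := (p.1 - R, p.2 + D)
  set cTR : Pt := (p.1 + D, p.2 + D)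
  let gT := pt (fun x => p.2 + D ≤ x.2) g
  let gB := pt (fun x => x.2 + D ≤ p.2) g
  let gR := pt (fun x => ¬ p.2 + D ≤ x.2 ∧ ¬ x.2 + D ≤ p.2 ∧ p.1 ≤ x.1) g
  let gL := pt (fun x => ¬ p.2 + D ≤ x.2 ∧ ¬ x.2 + D ≤ p.2 ∧ ¬ p.1 ≤ x.1) g
  have eg : ∀ x, g x = gR x + gT x + gL x + gB x := fun x => by
    simp only [gT, gB, gR, gL, pt]
    split_ifs <;> first | (exfalso; omega) | simp
  have bd : ∀ (P : Pt → Prop) [DecidablePred P] (x : Pt), |pt P g x| ≤ A / D := fun P _ x => by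
    unfold pt; split_ifs
    exacts [hb x, by rwa [abs_zero]]
  have sp : ∀ (P : Pt → Prop) [DecidablePred P] (B : Finset Pt),
      (∀ x, P x → D ≤ ds x p → ds x p ≤ R → x ∈ B) → Sup B (pt P g) := fun P _ B hB x hx => by
    unfold pt; split_ifs with h1
    · by_contra h2; exact hx (hB x h1 (hs x h2).1 (hs x h2).2)
    · rfl
  have sR : Sup (rc aR w (2 * R + 1)) gR := sp _ _ fun x h1 h2 h3 => by
    rw [ds] at h2 h3; rw [mem_rc]; simp only [aR]; omega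
  have sT : Sup (rc aT (2 * R + 1) w) gT := sp _ _ fun x h1 h2 h3 => by
    rw [ds] at h2 h3; rw [mem_rc]; simp only [aT]; omega
  have sL : Sup (rc a w (2 * R + 1)) gL := sp _ _ fun x h1 h2 h3 => by
    rw [ds] at h2 h3; rw [mem_rc]; simp only [a]; omega
  have sB : Sup (rc a (2 * R + 1) w) gB := sp _ _ fun x h1 h2 h3 => by
    rw [ds] at h2 h3; rw [mem_rc]; simp only [a]; omega
  have an_of : ∀ x : Pt, D ≤ ds x p → ds x p ≤ R → x ∈ an p (D - 1) R := fun x h1 h2 =>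
    mem_sdiff.2 ⟨mem_bl_ds.2 h2, fun h3 => by have := mem_bl_ds.1 h3; omega⟩
  have iR : rc aR w (2 * R + 1) ⊆ an p (D - 1) R := fun x hx => by
    rw [mem_rc] at hx; simp only [aR] at hx; refine an_of x ?_ ?_ <;> rw [ds] <;> omega
  have iT : rc aT (2 * R + 1) w ⊆ an p (D - 1) R := fun x hx => by
    rw [mem_rc] at hx; simp only [aT] at hx; refine an_of x ?_ ?_ <;> rw [ds] <;> omega
  have iL : rc a w (2 * R + 1) ⊆ an p (D - 1) R := fun x hx => by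
    rw [mem_rc] at hx; simp only [a] at hx; refine an_of x ?_ ?_ <;> rw [ds] <;> omega
  have iB : rc a (2 * R + 1) w ⊆ an p (D - 1) R := fun x hx => by
    rw [mem_rc] at hx; simp only [a] at hx; refine an_of x ?_ ?_ <;> rw [ds] <;> omega
  -- masses
  have ms : ∀ {f : Pt → ℝ} {B : Finset Pt}, Sup B f → B ⊆ an p (D - 1) R →
      ∑ x ∈ B, f x = ∑ x ∈ bl p R, f x := fun hf hB =>
    sum_subset (hB.trans sdiff_subset) fun x _ hx => hf x hx
  have mb : ∀ (P : Pt → Prop) [DecidablePred P],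
      |∑ x ∈ bl p R, pt P g x| ≤ 9 * (Λc : ℝ) ^ 2 * (A / D) * (D : ℝ) ^ 2 := fun P _ => by
    refine (abs_sum_le_sum_abs _ _).trans ((sum_le_card_nsmul _ _ _ fun x _ => bd P x).trans ?_)
    rw [nsmul_eq_mul, card_bl]
    push_cast
    rw [cR, mul_right_comm]
    refine mul_le_mul_of_nonneg_right ?_ hA
    have : 2 * ((Λc : ℝ) * D) + 1 ≤ 3 * (Λc * D) := by nlinarith
    calc (2 * ((Λc : ℝ) * D) + 1) ^ 2 ≤ (3 * (Λc * D)) ^ 2 := by gcongr
      _ = _ := by ring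
  set mR := ∑ x ∈ bl p R, gR x
  set mT := ∑ x ∈ bl p R, gT x
  set mL := ∑ x ∈ bl p R, gL x
  set mB := ∑ x ∈ bl p R, gB x
  have tot : mR + mT + mL + mB = 0 := by
    rw [← h0, sum_congr rfl fun x _ => eg x]; simp only [sum_add_distrib]; rfl
  set K : ℝ := 27 * (Λc : ℝ) ^ 2 * (A / D)
  have hK : 0 ≤ 9 * (Λc : ℝ) ^ 2 * (A / D) * (D : ℝ) ^ 2 := by positivity
  have eK : K * (D : ℝ) ^ 2 = 3 * (9 * (Λc : ℝ) ^ 2 * (A / D) * (D : ℝ) ^ 2) := by ring
  have b0 : |(0 : ℝ)| ≤ K * (D : ℝ) ^ 2 := by rw [abs_zero, eK]; linarith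
  have bR : |mR| ≤ _ := mb _
  have bT : |mT| ≤ _ := mb _
  have bL : |mL| ≤ _ := mb _
  have b1 : |mR| ≤ K * (D : ℝ) ^ 2 := by rw [eK]; linarith
  have b2 : |mR + mT| ≤ K * (D : ℝ) ^ 2 := by rw [eK]; linarith [abs_add_le mR mT]
  have b3 : |mR + mT + mL| ≤ K * (D : ℝ) ^ 2 := by
    rw [eK]; linarith [abs_add_le mR mT, abs_add_le (mR + mT) mL]
  have sub : ∀ {c b : Pt} {n₁ n₂ : ℕ}, b.1 ≤ c.1 → c.1 + D ≤ b.1 + n₁ → b.2 ≤ c.2 → c.2 + D ≤ b.2 + n₂ →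
      rc c D D ⊆ rc b n₁ n₂ := fun h1 h2 h3 h4 x hx => by rw [mem_rc] at hx ⊢; omega
  have q1 : rc cTR D D ⊆ rc aR w (2 * R + 1) := by
    refine sub ?_ ?_ ?_ ?_ <;> simp only [cTR, aR] <;> omega
  have q2 : rc cTR D D ⊆ rc aT (2 * R + 1) w := by
    refine sub ?_ ?_ ?_ ?_ <;> simp only [cTR, aT] <;> omega
  have q3 : rc aT D D ⊆ rc aT (2 * R + 1) w := by refine sub ?_ ?_ ?_ ?_ <;> omega
  have q4 : rc aT D D ⊆ rc a w (2 * R + 1) := by
    refine sub ?_ ?_ ?_ ?_ <;> simp only [a, aT] <;> omega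
  have q5 : rc a D D ⊆ rc a w (2 * R + 1) := by refine sub ?_ ?_ ?_ ?_ <;> omega
  have q6 : rc a D D ⊆ rc a (2 * R + 1) w := by refine sub ?_ ?_ ?_ ?_ <;> omega
  have w0 : 1 ≤ w := by omega
  have w1 : w ≤ 2 * R + 1 := by omega
  have D1 : 1 ≤ D := by omega
  have f1 := link w0 w1 le_rfl D1 q1 q1 sR (μ := 0) (μ' := mR) (by rw [ms sR iR, add_zero]) (bd _) b0 b1
  have f2 := link (by omega) le_rfl w1 D1 q2 q3 sT (μ := mR) (μ' := mR + mT)
    (by rw [ms sT iT, add_comm]) (bd _) b1 b2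
  have f3 := link w0 w1 le_rfl D1 q4 q5 sL (μ := mR + mT) (μ' := mR + mT + mL)
    (by rw [ms sL iL, add_comm]) (bd _) b2 b3
  have f4 := link (by omega) le_rfl w1 D1 q6 q6 sB (μ := mR + mT + mL) (μ' := 0)
    (by rw [ms sB iB, add_comm, tot]) (bd _) b3 b0
  have hc : 0 ≤ 3 * ((2 * R + 1 : ℕ) : ℝ) * (A / D + 2 * K) := by positivity
  refine (((((f1.subset (Lat.edI_mono iR) hc).add (f2.subset (Lat.edI_mono iT) hc)).add
    (f3.subset (Lat.edI_mono iL) hc)).add (f4.subset (Lat.edI_mono iB) hc)).congr ?_).mono ?_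
  · funext x
    simp only [Pi.sub_apply, Pi.add_apply, Pi.smul_apply, smul_eq_mul]
    rw [eg x]; ring
  · have e : A = A / D * D := by field_simp
    have h1 : ((2 * R + 1 : ℕ) : ℝ) ≤ 3 * Λc * D := by push_cast; rw [cR]; nlinarith
    have h2 : 0 ≤ A / D + 2 * K := by positivity
    have h3 := mul_le_mul_of_nonneg_right h1 h2
    rw [e]
    simp only [K] at h3 ⊢
    rw [← e]
    generalize A / D = t at *
    subst e
    nlinarith

end Crest.Agent.T145.Vx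
end

-- ▼ part T145/VxLin_51
section

/-!
# Row 145, module Vx (helper51): linear observables on one shell

The flow of the charge is cut into a bounded number of free cells; in a cell the seam is a gauge.
-/

set_option autoImplicit false

namespace Crest.Agent.T145.Vx

open Finset
open Nc (an Amb)

namespace L51

open R51

theorem lok {P : Par} (hP : P.Ok) : P.L.Ok := hP.crit.1

/-- centre of the cell of `x` -/
def ct (p : Pt) (k : ℕ) (x : Pt) : Pt := (p.1 + k * ((x.1 - p.1) / k), p.2 + k * ((x.2 - p.2) / k))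

theorem mem_ct (p : Pt) {k : ℕ} (hk : 1 ≤ k) (x : Pt) : x ∈ bl (ct p k x) k := by
  have k0 : (0 : ℤ) < k := by exact_mod_cast hk
  have a1 := Int.mul_ediv_add_emod (x.1 - p.1) k
  have a2 := Int.emod_nonneg (x.1 - p.1) k0.ne'
  have a3 := Int.emod_lt_of_pos (x.1 - p.1) k0
  have b1 := Int.mul_ediv_add_emod (x.2 - p.2) k
  have b2 := Int.emod_nonneg (x.2 - p.2) k0.ne'
  have b3 := Int.emod_lt_of_pos (x.2 - p.2) k0
  rw [mem_bl]; simp only [ct]
  generalize (k : ℤ) * ((x.1 - p.1) / k) = u at *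
  generalize (k : ℤ) * ((x.2 - p.2) / k) = v at *
  omega

theorem card_ct (p : Pt) {k M R : ℕ} (hk : 1 ≤ k) (h : R ≤ M * k) {α : Type} (E : Finset α) (x : α → Pt)
    (hx : ∀ e ∈ E, x e ∈ bl p R) : (E.image fun e => ct p k (x e)).card ≤ (2 * M + 1) ^ 2 := by
  have k0 : (0 : ℤ) < k := by exact_mod_cast hk
  have h' : (R : ℤ) ≤ M * k := by exact_mod_cast h
  rw [← card_bl 0 M]
  refine (card_le_card (t := (bl 0 M).image fun j : Pt => ((p.1 + k * j.1, p.2 + k * j.2) : Pt))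
    fun z hz => ?_).trans card_image_le
  obtain ⟨e, he, rfl⟩ := mem_image.1 hz
  have := mem_bl.1 (hx e he)
  have key : ∀ t : ℤ, -(R : ℤ) ≤ t → t ≤ R → -(M : ℤ) ≤ t / k ∧ t / k ≤ M := fun t h1 h2 =>
    ⟨Int.le_ediv_of_mul_le k0 (by linarith), Int.ediv_le_of_le_mul k0 (by linarith)⟩
  have k1 := key ((x e).1 - p.1) (by omega) (by omega)
  have k2 := key ((x e).2 - p.2) (by omega) (by omega)
  refine mem_image.2 ⟨(((x e).1 - p.1) / k, ((x e).2 - p.2) / k), ?_, rfl⟩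
  rw [mem_bl]; simp only [Prod.fst_zero, Prod.snd_zero]; omega

theorem ds_pq (V : Vp) : ds V.p V.q = V.r := by
  obtain ⟨a, r, sd⟩ := V
  cases sd <;> simp [Vp.p, Vp.q, Vp.sw, ds]

theorem ds_tri (x y z : Pt) : ds x z ≤ ds x y + ds y z := by simp only [ds]; omega
theorem ds_comm (x y : Pt) : ds x y = ds y x := by simp only [ds]; omega

/-- a gauge invariant linear functional in a free cell -/
theorem cell (hG : GgStmt) {P : Par} (hP : P.Ok) (V : Vp) {z : Pt} {k : ℕ} (hk : 1 ≤ k)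
    (hd : P.W₀ * k < V.d z) {T : Finset (Pt × Pt)} (hT : T ⊆ P.L.edI (bl z (k + 1))) {φ : Pt × Pt → ℝ}
    {a : ℝ} (ha : 0 ≤ a) (hφ : ∑ e ∈ T, φ e ^ 2 ≤ a ^ 2) :
    Ins z (k + 1) (fun s => ∑ e ∈ T, φ e * nE V.σ e s) ∧
      P.N V z k (fun s => ∑ e ∈ T, φ e * nE V.σ e s) ≤ FlF4.cB P.b 2 * a ∧
      P.N V z k (fun s => (∑ e ∈ T, φ e * nE V.σ e s) ^ 2) ≤ (FlF4.cB P.b 2 * a) ^ 2 := by
  have hΛ := lok hP
  have hW : 4 * k ≤ P.W₀ * k := Nat.mul_le_mul_right _ hP.W2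
  obtain ⟨gg, h1, -, h2⟩ := hG P.b V z _ hΛ.pos hd
  have hT' : T ⊆ P.L.edI (bl z (P.W₀ * k)) := hT.trans (Lat.edI_mono (bl_mono z (by omega)))
  have e : ∀ s, ∑ e ∈ T, φ e * (nE V.σ e s : ℝ) = pr (dv T φ) (s + gg) := fun s => by
    rw [pr_dv]
    exact sum_congr rfl fun e he => by
      rw [nE, h1 e (hT' he)]; simp only [dE, Finsupp.add_apply]; push_cast; ring
  have f2 : F2 (P.L.edI (bl z (P.W₀ * k))) (dv T φ) (a ^ 2) := F2.subset ⟨φ, rfl, hφ⟩ hT'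
  have hD := FlF4.depG_flow f2
  have bd : ∀ j : ℕ, P.L.exN V.σ z (P.W₀ * k) (fun s => |pr (dv T φ) (s + gg)| ^ j) ≤
      FlF4.cB P.b j * a ^ j := fun j => by
    have hD' : DepG (bl z (P.W₀ * k)) fun s => |pr (dv T φ) s| ^ j := hD.comp fun t => |t| ^ j
    refine ((h2 _ le_rfl _).1 ⟨hD', (Tame.hom _).abs.pow j⟩).trans_le ?_
    rw [show xyL P.b = P.L from rfl, FlF4.EN_bx hD']
    exact (FlF4.bd_pow hΛ ha f2 j _ (FlF4.lat_bx hΛ z _)).2
  have c1 : 1 ≤ FlF4.cB P.b 2 := FlF4.one_le_cB hΛ.pos.le 2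
  refine ⟨⟨DepG.sum fun e he => (DepG.const _ _).mul ?_, Tame.sum T fun e _ =>
    (((Tame.dE e).add (Tame.const (V.σ e))).congr fun s => by rw [nE]; push_cast; rfl).const_mul _⟩, ?_, ?_⟩
  · have := Lat.mem_edI.1 (hT he)
    exact (DepG.dE this.2.1 this.2.2).comp fun t => ((t + V.σ e : ℤ) : ℝ)
  · have := bd 1
    simp only [pow_one] at this
    simp only [Par.N, Lat.nrm, e]
    exact this.trans (mul_le_mul_of_nonneg_right (FlF4.cB_mono le_rfl one_le_two) ha)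
  · have := bd 2
    simp only [Par.N, Lat.nrm, e, abs_pow]
    refine this.trans ?_
    rw [mul_pow]
    exact mul_le_mul_of_nonneg_right (by nlinarith) (sq_nonneg a)

/-- the decomposition into cells -/
theorem cells (hR : RouteStmt) (hG : GgStmt) {P : Par} (hP : P.Ok) {Λc : ℕ} (hΛc : 2 ≤ Λc) :
    ∃ C n₀ : ℝ, 0 ≤ C ∧ 0 ≤ n₀ ∧ ∀ (V : Vp) (D k : ℕ) (A : ℝ) (g : Pt → ℝ), P.r₀ ≤ k → 16 * (P.W₀ * k) ≤ D →
      D ≤ 32 * (P.W₀ * k) → Chg V.p D Λc A g → 4 * (Λc * D) ≤ V.r ∨ 4 * V.r ≤ D →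
      ∃ (I : Finset Pt) (Y : Pt → Cfg Pt → ℝ) (c : ℝ), (I.card : ℝ) ≤ n₀ ∧
        (∀ s, ∑ z ∈ I, Y z s = pr g s + c) ∧ ∀ z ∈ I, D ≤ ds z V.p + k ∧ ds z V.p ≤ Λc * D + k ∧
          4 * (P.W₀ * k) ≤ V.d z ∧ Ins z (k + 1) (Y z) ∧ P.N V z k (Y z) ≤ C * A * D ∧
          P.N V z k (fun s => Y z s ^ 2) ≤ (C * A * D) ^ 2 := by
  obtain ⟨C, hC⟩ := hR Λc hΛc
  have c1 : 1 ≤ FlF4.cB P.b 2 := FlF4.one_le_cB (lok hP).pos.le 2
  refine ⟨FlF4.cB P.b 2 * (nnL.Jp.card * |C|), ((2 * (Λc * (32 * P.W₀)) + 1) ^ 2 : ℕ), by positivity,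
    by positivity, fun V D k A g hk h1 h2 hg hV => ?_⟩
  have r2 := hP.r2
  have hW : 4 * k ≤ P.W₀ * k := Nat.mul_le_mul_right _ hP.W2
  have hD : 2 * D ≤ Λc * D := Nat.mul_le_mul_right _ hΛc
  have cD : (0 : ℝ) < D := by exact_mod_cast (by omega : 0 < D)
  have hA : 0 ≤ A := by
    have := (abs_nonneg _).trans (hg.2.2 0)
    rwa [le_div_iff₀ cD, zero_mul] at this
  obtain ⟨φ, e1, e2⟩ := hC V.p D A g (by omega) hg
  set E := nnL.edI (an V.p (D - 1) (Λc * D))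
  have hE : ∀ e ∈ E, D ≤ ds e.1 V.p ∧ ds e.1 V.p ≤ Λc * D := fun e he => by
    have := mem_sdiff.1 (Lat.mem_edI.1 he).2.1
    rw [mem_bl_ds, mem_bl_ds] at this; omega
  refine ⟨E.image fun e => ct V.p k e.1,
    fun z s => ∑ e ∈ E.filter fun e => ct V.p k e.1 = z, φ e * nE V.σ e s, ∑ e ∈ E, φ e * V.σ e,
    ?_, fun s => ?_, fun z hz => ?_⟩
  · exact_mod_cast card_ct V.p (by omega) (R := Λc * D) (by
      rw [mul_assoc, mul_assoc]; exact Nat.mul_le_mul_left _ h2) E _ fun e he => mem_bl_ds.2 (hE e he).2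
  · rw [sum_fiberwise_of_maps_to fun e he => mem_image_of_mem _ he, e1, pr_dv, ← sum_add_distrib]
    exact sum_congr rfl fun e _ => by rw [nE]; push_cast; ring
  obtain ⟨e₀, he₀, hz₀⟩ := mem_image.1 hz
  have m0 := mem_ct V.p (by omega : 1 ≤ k) e₀.1
  rw [hz₀, mem_bl_ds] at m0
  have d1 := ds_tri e₀.1 z V.p
  have d2 := ds_tri z e₀.1 V.p
  have d3 := ds_comm z e₀.1
  have d4 := hE e₀ he₀
  have d5 := ds_tri V.p z V.q
  have d6 := ds_tri z V.q V.p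
  have d7 := ds_comm V.p z
  have d8 := ds_comm V.q V.p
  have d9 := ds_pq V
  have hd : 4 * (P.W₀ * k) ≤ V.d z := by rw [Vp.d]; omega
  have hT : (E.filter fun e => ct V.p k e.1 = z) ⊆ P.L.edI (bl z (k + 1)) := fun e he => by
    obtain ⟨a1, a2⟩ := mem_filter.1 he
    have a3 : e.2 - e.1 ∈ P.L.Jp := (Lat.mem_edI.1 a1).1
    have a4 := Nc.Geo.near_bl a3 (Or.inl (a2 ▸ mem_ct V.p (by omega : 1 ≤ k) e.1))
    rw [show P.L.rg = 1 from xyL_rg _] at a4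
    exact Lat.mem_edI.2 ⟨a3, a4⟩
  have hφ : ∑ e ∈ E.filter fun e => ct V.p k e.1 = z, φ e ^ 2 ≤ (nnL.Jp.card * |C| * A * D) ^ 2 := by
    refine (sum_le_card_nsmul _ _ ((|C| * A) ^ 2) fun e he => ?_).trans ?_
    · rw [← sq_abs]
      exact pow_le_pow_left₀ (abs_nonneg _) ((e2 e (mem_filter.1 he).1).trans
        (mul_le_mul_of_nonneg_right (le_abs_self C) hA)) 2
    · have b1 := (card_le_card hT).trans (card_edI_le P.L _)
      rw [card_bl, show P.L.Jp = nnL.Jp from rfl] at b1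
      have b2 : (2 * (k + 1) + 1) ^ 2 * nnL.Jp.card ≤ (nnL.Jp.card * D) ^ 2 := by
        rw [mul_pow, mul_comm]
        exact Nat.mul_le_mul (Nat.le_self_pow two_ne_zero _) (Nat.pow_le_pow_left (by omega) 2)
      have b3 : (((E.filter fun e => ct V.p k e.1 = z).card : ℕ) : ℝ) ≤ (nnL.Jp.card * D) ^ 2 := by
        exact_mod_cast b1.trans b2
      rw [nsmul_eq_mul]
      exact (mul_le_mul_of_nonneg_right b3 (sq_nonneg _)).trans_eq (by ring)
  have := cell hG hP V (by omega) (by omega : P.W₀ * k < V.d z) hT (by positivity) hφ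
  exact ⟨by omega, by omega, hd, this.1, this.2.1.trans_eq (by ring), this.2.2.trans_eq (by ring)⟩

theorem N_nonneg {P : Par} (hP : P.Ok) (V : Vp) (z : Pt) (k : ℕ) (F : Cfg Pt → ℝ) : 0 ≤ P.N V z k F :=
  Ex_nonneg (Md.ctr_wts ((lok hP).ctr_Nr _ _) ((lok hP).anch_Nr_rect fun _ hx =>
    rect_bl hx (self_mem_bl _ _)) 0 _).nonneg fun _ _ => abs_nonneg _

theorem le_abs_mul {x C n B : ℝ} (h : x ≤ C * n) (h0 : 0 ≤ n) (hn : n ≤ B) : x ≤ |C| * B :=
  h.trans (mul_le_mul (le_abs_self C) hn h0 (abs_nonneg C))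

end L51

open L51 R51

theorem linStmt (hR : RouteStmt) (hG : GgStmt) (hT : TrStmt) (hC : CovStmt) (hD : Dom1Stmt) :
    LinStmt := by
  intro P hP Λc hΛc
  have hΛ := lok hP
  obtain ⟨C₀, n₀, c0, n0, h0⟩ := cells hR hG hP hΛc
  obtain ⟨C₁, h1⟩ := hC P hP (2 * Λc * (Λc * (Λc * P.W₀)))
  obtain ⟨C₂, h2⟩ := hD P hP (2 * Λc * (32 * P.W₀))
  refine ⟨n₀ * (1 + |C₁| + 2 * |C₂|) * C₀, 16 * P.W₀ * P.r₀, fun V D A g hD1 hr hg hV => ?_⟩
  have r2 := hP.r2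
  have W2 := hP.W2
  obtain ⟨k, hk⟩ : ∃ k, k = D / (16 * P.W₀) := ⟨_, rfl⟩
  have k0 : P.r₀ ≤ k := hk ▸ (Nat.le_div_iff_mul_le (by omega)).2 (by rwa [mul_comm])
  have k1 : 16 * (P.W₀ * k) ≤ D := by rw [← mul_assoc, hk]; exact Nat.mul_div_le _ _
  have k2 : D ≤ 32 * (P.W₀ * k) := by
    have a1 : D < 16 * P.W₀ * (k + 1) := hk ▸ Nat.lt_mul_div_succ _ (by omega)
    have a2 : 16 * P.W₀ * (k + 1) ≤ 16 * P.W₀ * (2 * k) := Nat.mul_le_mul_left _ (by omega)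
    have a3 : 16 * P.W₀ * (2 * k) = 32 * (P.W₀ * k) := by ring
    omega
  have hW : 4 * k ≤ P.W₀ * k := Nat.mul_le_mul_right _ W2
  have hD2 : 2 * D ≤ Λc * D := Nat.mul_le_mul_right _ hΛc
  have hr' : 4 * (P.W₀ * P.r₀) ≤ V.r := by rw [mul_assoc] at hr; omega
  have cD : (0 : ℝ) < D := by exact_mod_cast (by omega : 0 < D)
  have hA : 0 ≤ A := by
    have := (abs_nonneg _).trans (hg.2.2 0)
    rwa [le_div_iff₀ cD, zero_mul] at this
  obtain ⟨I, Y, c, hI, eY, hY⟩ := h0 V D k A g k0 k1 k2 hg hV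
  obtain ⟨B, hB⟩ : ∃ B, B = C₀ * A * D := ⟨_, rfl⟩
  rw [← hB] at hY
  have B0 : 0 ≤ B := by rw [hB]; positivity
  have eg : (fun s => pr g s) = fun s => ∑ z ∈ I, Y z s - c := funext fun s => by rw [eY]; ring
  have tY : Tame fun s => ∑ z ∈ I, Y z s := Tame.sum I fun z hz => (hY z hz).2.2.2.1.2
  have sm : ∀ {f : Pt → ℝ} {t : ℝ}, 0 ≤ t → (∀ z ∈ I, f z ≤ t) → ∑ z ∈ I, f z ≤ n₀ * t := fun ht h =>
    (sum_le_card_nsmul _ _ _ h).trans (by rw [nsmul_eq_mul]; exact mul_le_mul_of_nonneg_right hI ht)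
  have one : ∀ (x : Pt) (n : ℕ), Ins x n fun _ => (1 : ℝ) := fun _ _ => ⟨DepG.const _ _, Tame.const _⟩
  have a1 := abs_nonneg C₁
  have a2 := abs_nonneg C₂
  refine ⟨fun m hm hm' => ?_, fun ρ hρ1 hρ2 hρ3 => ?_⟩
  · have hw := Md.ctr_wts hm.ctr hm.anch 0 V.σ
    have hs := Md.ctr_ses hm.ctr hm.anch 0 V.σ
    have hz : ∀ z ∈ I, Amb P.L m (bl z (2 * (P.W₀ * k))) := fun z hz =>
      FlF4.amb_mono hm' (bl_subset_bl (mem_bl_ds.2 (hY z hz).2.1) (by omega))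
    have hz' : ∀ z ∈ I, Amb P.L m (bl z (P.W₀ * k)) := fun z h =>
      FlF4.amb_mono (hz z h) (bl_mono z (by omega))
    refine ⟨?_, fun ρ F hρ0 hρ1 hρ2 hρ3 hF => ?_⟩
    · have t1 : Tame fun s => pr g s := Tame.hom _
      rw [Vr, hw.cv_eq (hs.ig t1) (hs.ig t1) (hs.ig (t1.mul t1)) (-c) (-c)]
      simp only [sub_neg_eq_add, ← eY]
      refine (sub_le_self _ (mul_self_nonneg _)).trans ?_
      have tq : ∀ z ∈ I, Tame fun s => Y z s ^ 2 := fun z hz => (hY z hz).2.2.2.1.2.pow 2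
      refine (Ex_mono hw.nonneg (hs.ig (tY.mul tY)) ((hs.ig (Tame.sum I tq)).const_mul n₀) fun s => ?_).trans ?_
      · rw [← pow_two]
        exact sq_sum_le_card_mul_sum_sq.trans
          (mul_le_mul_of_nonneg_right hI (sum_nonneg fun _ _ => sq_nonneg _))
      rw [Ex_const_mul, Ex_sum I fun z hz => hs.ig (tq z hz)]
      have := sm (f := fun z => Ex (m.Ws 0 V.σ) fun s => Y z s ^ 2) (t := |C₁| * B ^ 2) (by positivity)
        fun z hz => by
          obtain ⟨-, -, b3, b4, -, b6⟩ := hY z hz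
          have := ((h1 V m P.r₀ P.r₀ _ _ le_rfl hr' le_rfl hr' hm (one _ _) (one _ _)).2.2 z k
            (fun s => Y z s ^ 2) k0 b3 (by first | exact hz' z hz | exact ‹∀ z ∈ I, _› z hz)
            ⟨b4.1.comp fun t => t ^ 2, tq z hz⟩).1
          simp only [abs_pow, sq_abs] at this
          exact le_abs_mul this (N_nonneg hP _ _ _ _) b6
      refine (mul_le_mul_of_nonneg_left this n0).trans ?_
      have e : (n₀ * (1 + |C₁| + 2 * |C₂|) * C₀ * A * D) ^ 2 =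
          n₀ * (n₀ * ((1 + |C₁| + 2 * |C₂|) ^ 2 * B ^ 2)) := by rw [hB]; ring
      rw [e]
      gcongr
      nlinarith
    · have e : Cv (m.Ws 0 V.σ) F (fun s => pr g s) = ∑ z ∈ I, Cv (m.Ws 0 V.σ) F (Y z) := by
        have t1 : Tame fun s => pr g s := Tame.hom _
        rw [sum_congr rfl fun z _ => Cv_comm _ F (Y z), ← Cv_sum_left I
          (fun z hz => hs.ig (hY z hz).2.2.2.1.2) (fun z hz => hs.ig ((hY z hz).2.2.2.1.2.mul hF.2)),
          Cv_comm]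
        simp only [eY]
        rw [Cv_add_left (hs.ig t1) (hw.ig_const c) (hs.ig (t1.mul hF.2)) (hs.ig (hF.2.const_mul c)),
          hw.cv_const_left, add_zero]
      have ν0 : 0 ≤ P.ν V ρ F := N_nonneg hP _ _ _ _
      change |Cv (m.Ws 0 V.σ) F fun s => pr g s| ≤ _
      rw [e]
      refine (abs_sum_le_sum_abs _ _).trans ((sm (t := |C₁| * P.ν V ρ F * B) (by positivity)
        fun z hz => ?_).trans ?_)
      · obtain ⟨b1, b2, b3, b4, b5, -⟩ := hY z hz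
        have := ((h1 V m ρ P.r₀ F _ hρ0 hρ2 le_rfl hr' hm hF (one _ _)).2.2 z k (Y z) k0 b3
          (by first | exact hz' z hz | exact ‹∀ z ∈ I, _› z hz) b4).2.1 (by omega)
          (hρ3.elim (fun h => Or.inr (by
            have := Nat.mul_le_mul_left (2 * Λc) h
            have e1 : 2 * Λc * (Λc * (Λc * P.W₀)) * ρ = 2 * Λc * (Λc * (Λc * (P.W₀ * ρ))) := by ring
            have e2 : 2 * Λc * D = 2 * (Λc * D) := by ring
            omega)) fun h => Or.inl (by omega))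
        exact this.trans (mul_le_mul (mul_le_mul_of_nonneg_right (le_abs_self _) ν0) b5
          (N_nonneg hP _ _ _ _) (by positivity))
      · have e : n₀ * (1 + |C₁| + 2 * |C₂|) * C₀ * P.ν V ρ F * (A * D) =
            n₀ * ((1 + |C₁| + 2 * |C₂|) * P.ν V ρ F * B) := by rw [hB]; ring
        rw [e]
        gcongr
        linarith
  · have hW' : 4 * ρ ≤ P.W₀ * ρ := Nat.mul_le_mul_right _ W2
    have wN : ∀ n, Wt ((P.L.Nr (bl V.p n) V.p).Ws 0 V.σ) ∧ SE ((P.L.Nr (bl V.p n) V.p).Ws 0 V.σ) :=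
      fun n => have ha := hΛ.anch_Nr_rect (B := bl V.p n) fun _ hx => rect_bl hx (self_mem_bl _ _)
        ⟨Md.ctr_wts (hΛ.ctr_Nr _ _) ha 0 _, Md.ctr_ses (hΛ.ctr_Nr _ _) ha 0 _⟩
    obtain ⟨hw, hs⟩ := wN (P.W₀ * ρ)
    have iY : Ins V.p (ρ + 1) fun s => ∑ z ∈ I, Y z s := by
      refine ⟨?_, tY⟩
      simp only [eY]
      refine ((DepG.pr (fun x hx => ?_) hg.2.1).mono (bl_mono _ (by omega))).add (DepG.const _ _)
      by_contra h
      exact hx (mem_bl_ds.2 (hg.1 x h).2)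
    obtain ⟨t1, -, t3, -⟩ := hT P.b V.σ V.p ρ _ hΛ.pos iY
    have t4 := t3 V.p (P.W₀ * ρ) (bl_mono _ (by omega))
    have e : (fun s => P.L.tr V.σ V.p ρ (pr g) s - P.L.exN V.σ V.p (P.W₀ * ρ) (pr g)) = fun s =>
        P.L.tr V.σ V.p ρ (fun s => ∑ z ∈ I, Y z s) s -
          P.L.exN V.σ V.p (P.W₀ * ρ) fun s => ∑ z ∈ I, Y z s := funext fun s => by
      have t0 : Tame fun s => pr g s := Tame.hom _
      simp only [eY, Lat.tr, Lat.exN]
      rw [hw.ex_add_const (hs.ig t0), (Md.ctr_wts (hΛ.ctr_D _) (hΛ.anch_D _) s _).ex_add_const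
        ((Md.ctr_ses (hΛ.ctr_D _) (hΛ.anch_D _) s _).ig t0)]
      ring
    have n1 : P.L.nrm V.σ V.p (P.W₀ * ρ) (fun s => ∑ z ∈ I, Y z s) ≤ n₀ * (|C₂| * B) := by
      refine (Ex_mono hw.nonneg (hs.ig tY.abs) (hs.ig (Tame.sum I fun z hz => (hY z hz).2.2.2.1.2.abs))
        fun s => abs_sum_le_sum_abs _ _).trans ?_
      rw [Ex_sum I fun z hz => hs.ig (hY z hz).2.2.2.1.2.abs]
      refine sm (by positivity) fun z hz => ?_
      obtain ⟨b1, b2, b3, b4, b5, -⟩ := hY z hz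
      have := (h2 V k (P.W₀ * ρ) _ k0 (Nat.mul_le_mul_left _ (by omega)) hρ3 (one _ _)).2 z k (Y z) k0
        (by omega) (by omega) (by
          have := Nat.mul_le_mul_left (2 * Λc) k2
          have e1 : 2 * Λc * (32 * P.W₀) * k = 2 * Λc * (32 * (P.W₀ * k)) := by ring
          have e2 : 2 * Λc * D = 2 * (Λc * D) := by ring
          omega) (by omega) b4
      have e1 : P.N V V.p k (fun _ => 1) = 1 := by
        simp only [Par.N, Lat.nrm, Lat.exN, abs_one]; exact (wN _).1.ex_const 1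
      simp only [one_mul, e1, mul_one] at this
      exact le_abs_mul this (N_nonneg hP _ _ _ _) b5
    have n2 : |P.L.exN V.σ V.p (P.W₀ * ρ) fun s => ∑ z ∈ I, Y z s| ≤ n₀ * (|C₂| * B) :=
      (abs_Ex_le hw.nonneg (hs.ig tY)).trans n1
    rw [Par.ν, e]
    refine (Ex_mono hw.nonneg (hs.ig (Tame.sub t1 (Tame.const _)).abs)
      (hs.ig ((Tame.abs t1).add (Tame.const _))) fun s => abs_sub _ _).trans ?_
    rw [hw.ex_add_const (hs.ig (Tame.abs t1))]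
    refine (add_le_add (t4.trans n1) n2).trans ?_
    have e : n₀ * (1 + |C₁| + 2 * |C₂|) * C₀ * A * D = n₀ * ((1 + |C₁| + 2 * |C₂|) * B) := by
      rw [hB]; ring
    rw [e, ← mul_add, ← add_mul]
    exact mul_le_mul_of_nonneg_left (mul_le_mul_of_nonneg_right (by linarith [abs_nonneg C₁]) B0) n0

end Crest.Agent.T145.Vx
end

-- ▼ part T145/VxLv_34
section

/-!
# Row 145, S0198 (helper34): `LvStmt`, the covariances of the dipoles from Lemma B
-/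

set_option autoImplicit false

namespace Crest.Agent.T145.Vx

open Finset Filter D34
open Nc (Amb)

namespace L34

theorem ev_big (B : ℝ) : ∃ r₁ : ℕ, ∀ r : ℕ, r₁ ≤ r → B ≤ Real.log r ∧ B * Real.log r ^ 3 ≤ r := by
  have h1 : Tendsto (fun r : ℕ => Real.log r) atTop atTop :=
    Real.tendsto_log_atTop.comp tendsto_natCast_atTop_atTop
  have h2 := (tendsto_natCast_atTop_atTop (R := ℝ)).eventually
    ((Real.isLittleO_pow_log_id_atTop (n := 3)).bound (c := 1 / (|B| + 1)) (by positivity))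
  obtain ⟨r₁, h⟩ := eventually_atTop.1 ((h1.eventually_ge_atTop B).and h2)
  refine ⟨r₁, fun r hr => ⟨(h r hr).1, ?_⟩⟩
  have h3 := (h r hr).2
  have h4 : 0 ≤ Real.log r ^ 3 := pow_nonneg (Real.log_natCast_nonneg r) 3
  rw [Real.norm_of_nonneg h4, id, Real.norm_of_nonneg (Nat.cast_nonneg r), one_div_mul_eq_div,
    le_div_iff₀ (by positivity)] at h3
  nlinarith [le_abs_self B]

variable {W : Cfg Pt → ℝ}

theorem abs_vr_le (hW : Wt W) (hS : SE W) {f g : Cfg Pt →+ ℝ} {a b : ℝ} (ha : 0 ≤ a) (hb : 0 ≤ b)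
    (h1 : Vr W f f ≤ a ^ 2) (h2 : Vr W g g ≤ b ^ 2) : |Vr W f g| ≤ a * b := by
  refine abs_le_of_sq_le_sq ?_ (mul_nonneg ha hb)
  rw [mul_pow]
  exact (hW.Vr_sq_le hS f g).trans (mul_le_mul h1 h2 (hW.Vr_nonneg hS g) (sq_nonneg _))

theorem cv_Y (hY : YStmt) (hW : Wt W) (hS : SE W) (σ : Pt × Pt → ℤ) {S : Finset Pt} {u : Pt → ℝ}
    (hu : Sup S u) {F : Cfg Pt → ℝ} (hF : Tame F) : Cv W F (Yv σ u) = Cv W F (pr (A0 u)) := by
  have h := B30.cv_sub_const hW hS hF (Tame.hom (pr (A0 u))) 0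
    (-∑ᶠ z, ∑ i, df i u z * σ (z, z + ev i))
  simp only [sub_zero, sub_neg_eq_add, ← (hY σ S u hu).2.1] at h
  exact h

theorem cv_YY (hY : YStmt) (hW : Wt W) (hS : SE W) (σ : Pt × Pt → ℤ) {S T : Finset Pt} {u v : Pt → ℝ}
    (hu : Sup S u) (hv : Sup T v) : Cv W (Yv σ u) (Yv σ v) = Vr W (pr (A0 u)) (pr (A0 v)) := by
  rw [cv_Y hY hW hS σ hv (hY σ S u hu).2.2.2.1, Cv_comm, cv_Y hY hW hS σ hu (Tame.hom _), Cv_comm]
  rfl

theorem En_comm (u v : Pt → ℝ) : En u v = En v u := by simp only [En, mul_comm]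

theorem sq_le_of {C A D a : ℝ} (hA : 0 ≤ A) (hD : 0 ≤ D) (h : |C| * (A * D) ≤ a) :
    (C * A * D) ^ 2 ≤ a ^ 2 := by
  rw [← sq_abs, abs_mul, abs_mul, abs_of_nonneg hA, abs_of_nonneg hD, mul_assoc]
  exact pow_le_pow_left₀ (by positivity) h 2

theorem gc_le {r : ℕ} (h : 1 ≤ Real.log r) : |gc r| ≤ 1 := by
  have h1 := Real.pi_gt_three
  rw [gc, abs_of_nonneg (by positivity)]
  have h2 : 1 / (Real.pi * Real.log r) ≤ 1 / Real.pi := by gcongr; nlinarith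
  have h3 : 2 / Real.pi + 1 / Real.pi ≤ 1 := by rw [← add_div, div_le_one (by linarith)]; linarith
  linarith

/-- the far charge against the potential of the other dipole -/
theorem far_pair {p q : Pt} {ρ S r : ℕ} {C : ℝ} {g u : Pt → ℝ} (hC : 0 ≤ C) (hr : ds p q = r)
    (hS : 2 * r + 2 ≤ S) (hg : Chg q (S - 1) 3 (C / (S : ℝ) ^ 2) g) (hu : Dip p ρ C u) :
    |∑ z ∈ bl p (2 * S), g z * u z| ≤ 100 * C ^ 2 / (S : ℝ) ^ 2 := by
  have h1 : (2 : ℝ) ≤ S := by exact_mod_cast (by omega : 2 ≤ S)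
  have h2 : ∀ z, |g z * u z| ≤ C / (S : ℝ) ^ 2 / (S / 2) * (C * (1 / (S / 2))) := fun z => by
    by_cases hz : g z = 0
    · rw [hz, zero_mul, abs_zero]; positivity
    have h3 := (hg.1 z hz).1
    have h4 := ds_tri z p q
    have h5 : (S : ℝ) ≤ 2 * ds z p := by exact_mod_cast (by omega : S ≤ 2 * ds z p)
    rw [abs_mul]
    refine mul_le_mul ((hg.2.2 z).trans ?_) ((hu.b0 z).trans ?_) (abs_nonneg _) (by positivity)
    · rw [Nat.cast_sub (by omega), Nat.cast_one]; gcongr; linarith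
    · have : (0 : ℝ) ≤ ρ := Nat.cast_nonneg ρ
      rw [al]; gcongr; linarith
  refine (abs_sum_le_sum_abs _ _).trans ((sum_le_sum fun z _ => h2 z).trans ?_)
  rw [sum_const, card_bl, nsmul_eq_mul]
  push_cast
  calc _ ≤ (5 * (S : ℝ)) ^ 2 * (C / (S : ℝ) ^ 2 / (S / 2) * (C * (1 / (S / 2)))) := by gcongr; linarith
    _ = _ := by field_simp; ring

end L34

open L34

set_option maxHeartbeats 1600000 in
theorem lvStmt (hB : LbStmt) (hL : LinStmt) (hY : YStmt) : LvStmt := by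
  intro P hP
  obtain ⟨CB, r1, hB⟩ := hB P hP
  obtain ⟨C3, r3, h3⟩ := hL P hP 3 (by norm_num)
  obtain ⟨C8, r8, h8⟩ := hL P hP 8 (by norm_num)
  obtain ⟨CU, hU⟩ := ucStmt
  obtain ⟨CD, hD⟩ := dipStmt
  have hCU : 0 ≤ CU := (abs_nonneg _).trans (((hU 0 4 0 le_rfl).2.2.2.1 0).2 0).1
  have hCD : 0 ≤ CD := by
    have := (abs_nonneg _).trans ((hD 0 32 128 0 le_rfl le_rfl).1.2.2 0)
    norm_num at this
    linarith
  obtain ⟨r0, hr0⟩ := ev_big (8 * (r3 + r8 + 5 : ℕ))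
  set a := (|C3| + |C8|) * (CD + CU) with ha
  have ha0 : 0 ≤ a := by positivity
  set K := |CB| * (CD + CU) ^ 2 + 3 * a ^ 2 + 100 * CD ^ 2 with hK
  have hK0 : 0 ≤ K := by positivity
  refine ⟨K + CD, max r0 (max r1 (max r3 r8)), fun V hV => ?_⟩
  simp only [max_le_iff] at hV
  obtain ⟨R, hR⟩ := hB V hV.2.1
  obtain ⟨t1, t2⟩ := hr0 V.r hV.1
  change _ ≤ V.t at t1
  change _ * V.t ^ 3 ≤ _ at t2
  set r := V.r with hr
  set t := V.t with ht
  have t4 : (40 : ℝ) ≤ 8 * (r3 + r8 + 5 : ℕ) := by exact_mod_cast (by omega : 40 ≤ 8 * (r3 + r8 + 5))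
  have t3 : (40 : ℝ) ≤ t := t4.trans t1
  have t0 : 0 < t := by linarith
  set S := ⌈(r : ℝ) * t ^ 5⌉₊ with hS
  refine ⟨R + r + 6 * S, fun m ρ hm hρ i j => ?_⟩
  set W := m.Ws 0 V.σ with hW'
  have hW : Wt W := B30.amb_wt hm _
  have hE : SE W := B30.amb_se hm _
  set τ := t ^ (-1 - P.δ) with hτ
  have τ0 : 0 < τ := Real.rpow_pos_of_pos t0 _
  have τ1 : τ ≤ 1 := Real.rpow_le_one_of_one_le_of_nonpos (by linarith) (by linarith [hP.δ0])
  have τ2 : 1 / t ^ 2 ≤ τ := by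
    rw [one_div, ← Real.rpow_natCast, ← Real.rpow_neg t0.le]
    exact Real.rpow_le_rpow_of_exponent_le (by linarith) (by push_cast; linarith [hP.δ1])
  have ρ1 : 8 * (r3 + r8 + 5) ≤ ρ := by
    have := le_of_mul_le_mul_right (t2.trans hρ) (by positivity)
    exact_mod_cast this
  have ρ0 : (0 : ℝ) < ρ := by exact_mod_cast (by omega : 0 < ρ)
  have r0' : (1 : ℝ) ≤ r := le_trans (by
    have := one_le_pow₀ (n := 3) (show 1 ≤ t by linarith)
    nlinarith) t2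
  have s1 : (r : ℝ) * t ^ 5 ≤ S := Nat.le_ceil _
  have s2 : (S : ℝ) ≤ r * t ^ 5 + 1 := (Nat.ceil_lt_add_one (by positivity)).le
  have t5 : (40 : ℝ) ≤ t ^ 5 := t3.trans (le_self_pow₀ (by linarith) (by norm_num))
  have s3 : 40 * r ≤ S := by exact_mod_cast (show (40 : ℝ) * r ≤ S by nlinarith)
  have s0 : (0 : ℝ) < S := by nlinarith
  have s4 : ((2 * S + r : ℕ) : ℝ) ≤ r * t ^ 8 := by
    have : (4 : ℝ) ≤ t ^ 3 := le_trans (by linarith) (le_self_pow₀ (a := t) (by linarith) (by norm_num))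
    have h1 : (r : ℝ) * t ^ 5 * 4 ≤ r * t ^ 5 * t ^ 3 := by gcongr
    push_cast; nlinarith
  have hg : |gc r| ≤ 1 := gc_le (show 1 ≤ t by linarith)
  have hpq := B30.ds_pq V
  have hqp := B30.ds_qp V
  have hm' := B30.amb_mono hm (bl_mono _ (show R ≤ R + r + 6 * S by omega))
  suffices H : 8 * ρ ≤ r → (∀ ρ', ρ < ρ' → 16 * ρ' ≤ r →
      |lf V m ρ' (pr (fd V.p ρ i)) j - if i = j then gc r else 0| ≤ K * τ ∧
      |lf V m ρ' (pr (fd V.q ρ i)) j| ≤ K * τ) ∧ ∀ i j,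
      |(r : ℝ) ^ 2 * Vr W (pr (fd V.p ρ i)) (pr (fd V.q ρ j)) -
        gc r * ((r : ℝ) ^ 2 * ∑ z ∈ bl V.q ρ, fd V.q ρ j z * ud V.p ρ S i z)| ≤ K * τ by
    have e1 : K * τ ≤ (K + CD) * τ := by gcongr; linarith
    refine ⟨fun ρ' b1 b2 => ((H (by omega)).1 ρ' b1 b2).imp (·.trans e1) (·.trans e1), fun b1 => ?_⟩
    have b2 : 8 * ρ ≤ r := by exact_mod_cast (show (8 : ℝ) * ρ ≤ r by nlinarith)
    have b3 := fun i => (hD V.p ρ S i (by omega) (by omega)).2.2.2.2.2.2 V.q r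
      (by rw [B30.p_snd, B30.q_snd]) hpq b2 (by omega)
    have b4 := (b3 i).2.1 j
    have b5 := (b3 i).2.2
    have b6 := (H b2).2
    constructor
    · have b7 : |gc r * ((r : ℝ) ^ 2 * ∑ z ∈ bl V.q ρ, fd V.q ρ j z * ud V.p ρ S i z)| ≤ CD := by
        rw [abs_mul, abs_mul, abs_of_nonneg (sq_nonneg (r : ℝ))]
        calc _ ≤ 1 * ((r : ℝ) ^ 2 * (CD / (r : ℝ) ^ 2)) := by gcongr
          _ = CD := by field_simp
      have := abs_add_le _ _ |>.trans (add_le_add (b6 i j) b7)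
      rw [sub_add_cancel] at this
      nlinarith
    · have b7 : |gc r * ((r : ℝ) ^ 2 * ∑ z ∈ bl V.q ρ, fd V.q ρ 1 z * ud V.p ρ S 1 z -
          1 / (2 * Real.pi))| ≤ CD * τ := by
        rw [abs_mul]
        calc _ ≤ 1 * (CD * ρ / r) := by gcongr
          _ ≤ CD * (1 / t ^ 2) := by
            rw [one_mul, mul_div_assoc]; gcongr CD * ?_
            rw [div_le_div_iff₀ (by linarith) (by positivity)]; linarith
          _ ≤ _ := by gcongr
      have := abs_add_le _ _ |>.trans (add_le_add (b6 1 1) b7)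
      rw [add_mul]
      refine le_trans (le_of_eq ?_) this
      congr 1; ring
  intro ρ8
  have hd := fun (p : Pt) i => hD p ρ S i (by omega) (by omega)
  have aU : ∀ U : Vp, U = V ∨ U = V.sw → ∀ n, n ≤ 6 * S → Amb P.L m (bl U.p n) := by
    rintro U (rfl | rfl) n hn
    · exact B30.amb_mono hm (bl_mono _ (by omega))
    · exact B30.amb_mono hm (B30.bl_sub (by rw [B30.sw_p, hqp]; omega))
  have vf : ∀ U : Vp, U = V ∨ U = V.sw → ∀ i,
      Vr W (pr (fd U.p ρ i)) (pr (fd U.p ρ i)) ≤ (a / ρ) ^ 2 ∧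
      Vr W (pr (A0 (ud U.p ρ S i) - fd U.p ρ i)) (pr (A0 (ud U.p ρ S i) - fd U.p ρ i)) ≤ (a / S) ^ 2 := by
    intro U hU' i
    have u1 : U.r = r := by rcases hU' with rfl | rfl <;> rfl
    have u2 : U.σ = V.σ := by rcases hU' with rfl | rfl <;> rfl
    have c1 := ((h8 U _ _ _ (by omega) (by omega) (hd U.p i).1 (.inl (by omega))).1 m
      (aU U hU' _ (by omega)) (aU U hU' _ (by omega))).1
    have c2 := ((h3 U _ _ _ (by omega) (by omega) (hd U.p i).2.2.2.2.1 (.inr (by omega))).1 m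
      (aU U hU' _ (by omega)) (aU U hU' _ (by omega))).1
    rw [u2] at c1 c2
    refine ⟨c1.trans (sq_le_of (by positivity) (by positivity) ?_),
      c2.trans (sq_le_of (by positivity) (by positivity) ?_)⟩
    · have : ((ρ / 8 : ℕ) : ℝ) ≤ ρ := by exact_mod_cast Nat.div_le_self _ _
      calc _ ≤ (|C3| + |C8|) * ((CD + CU) / (ρ : ℝ) ^ 2 * ρ) := by
            gcongr <;> linarith [abs_nonneg C3]
        _ = _ := by rw [ha]; field_simp
    · have : ((S - 1 : ℕ) : ℝ) ≤ S := by exact_mod_cast Nat.sub_le _ _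
      calc _ ≤ (|C3| + |C8|) * ((CD + CU) / (S : ℝ) ^ 2 * S) := by
            gcongr <;> linarith [abs_nonneg C8]
        _ = _ := by rw [ha]; field_simp
  have vp := vf V (.inl rfl)
  have vq := vf V.sw (.inr rfl)
  rw [B30.sw_p] at vq
  have sp : ∀ i, Sup (bl V.p (2 * S + r)) (ud V.p ρ S i) := fun i z hz =>
    (hd V.p i).2.2.1 z fun h => hz (bl_mono _ (by omega) h)
  have sq' : ∀ i, Sup (bl V.p (2 * S + r)) (ud V.q ρ S i) := fun i z hz =>
    (hd V.q i).2.2.1 z fun h => hz (B30.bl_sub (by omega) h)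
  have dd := fun (p : Pt) i => (hd p i).2.2.2.1 ρ (by omega) le_rfl
  have lb := fun A A' u u' => hR m ρ (2 * S + r) A A' u u' hm' hρ (by omega) s4
  have q1 : (r : ℝ) / S ≤ 1 / t ^ 5 := by rw [div_le_div_iff₀ s0 (by positivity)]; linarith
  have q2 : 1 / t ^ 5 ≤ τ := le_trans (by gcongr <;> linarith) τ2
  have kB : ∀ x y : ℝ, 0 ≤ x → 0 ≤ y → x ≤ CD + CU → y ≤ CD + CU →
      CB * x * y * τ ≤ |CB| * (CD + CU) ^ 2 * τ := fun x y h1 h2 h3 h4 => by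
    gcongr ?_ * _
    rw [pow_two, ← mul_assoc]
    gcongr
    exact le_abs_self _
  refine ⟨fun ρ' b1 b2 => ?_, fun i j => ?_⟩
  · have hu := hU V.p ρ' j (by omega)
    have su : Sup (bl V.p (2 * S + r)) (uc V.p ρ' j) := fun z hz =>
      hu.1 z fun h => hz (bl_mono _ (by omega) h)
    have vu : Vr W (pr (A0 (uc V.p ρ' j))) (pr (A0 (uc V.p ρ' j))) ≤ (a * r) ^ 2 := by
      refine ((h3 V _ _ _ (by omega) (by omega) hu.2.1 (.inl (by omega))).1 m
        (aU V (.inl rfl) _ (by omega)) (aU V (.inl rfl) _ (by omega))).1.trans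
        (sq_le_of hCU (by positivity) ?_)
      have : ((ρ' - 1 : ℕ) : ℝ) ≤ r := by exact_mod_cast (by omega : ρ' - 1 ≤ r)
      rw [ha, mul_assoc]
      gcongr <;> linarith [abs_nonneg C8]
    have e1 : ∀ p : Pt, lf V m ρ' (pr (fd p ρ i)) j =
        Vr W (pr (A0 (ud p ρ S i))) (pr (A0 (uc V.p ρ' j))) -
          Vr W (pr (A0 (ud p ρ S i) - fd p ρ i)) (pr (A0 (uc V.p ρ' j))) := fun p => by
      rw [lf, cv_Y hY hW hE _ su (Tame.hom _), pr_sub, hE.Vr_sub_left, sub_sub_cancel]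
      rfl
    have e2 : a / S * (a * r) ≤ a ^ 2 * τ := by
      calc _ = a ^ 2 * (r / S) := by ring
        _ ≤ _ := by gcongr; exact q1.trans q2
    have e3 : |CB| * (CD + CU) ^ 2 * τ + a ^ 2 * τ ≤ K * τ := by
      rw [← add_mul]; gcongr; nlinarith [sq_nonneg a, sq_nonneg CD]
    constructor
    · have c1 := lb _ _ _ _ (sp i) su (dd V.p i) (hu.2.2.2.2 V.q ρ r (by omega) b1.le (by omega) hpq.le)
      have c2 : En (ud V.p ρ S i) (uc V.p ρ' j) = if i = j then 1 else 0 := by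
        rw [(hY V.σ _ _ (sp i)).2.2.1 _ _ hu.1, ← (hd V.p i).2.2.2.2.2.1 j]
        have c3 : ∑ z ∈ bl V.p ρ, fd V.p ρ i z = 0 := by
          rw [← (hd V.p i).1.2.1]
          exact (sum_subset (bl_mono _ (by omega)) fun z _ hz => by_contra fun h =>
            hz (mem_ds.2 ((hd V.p i).1.1 z h).2)).symm
        calc _ = ∑ z ∈ bl V.p (2 * ρ'), fd V.p ρ i z * uc V.p ρ' j z := sum_congr rfl fun z hz => by
              have c4 : (A0 (ud V.p ρ S i) - fd V.p ρ i) z = 0 := by_contra fun h => by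
                have := ((hd V.p i).2.2.2.2.1.1 z h).1; rw [mem_ds] at hz; omega
              rw [sub_eq_zero.1 c4]
          _ = ∑ z ∈ bl V.p ρ, fd V.p ρ i z * uc V.p ρ' j z :=
              (sum_subset (bl_mono _ (by omega)) fun z _ hz => by rw [(hd V.p i).2.1 z hz, zero_mul]).symm
          _ = ∑ z ∈ bl V.p ρ, (fd V.p ρ i z * co j z + fd V.p ρ i z * (![0, 1 / 2] j - co j V.p)) :=
              sum_congr rfl fun z hz => by
                have c5 := Vx34.co_add j (z - V.p) V.p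
                rw [sub_add_cancel] at c5
                rw [hu.2.2.1 z (by rw [mem_ds] at hz; omega), c5]; ring
          _ = _ := by rw [sum_add_distrib, ← sum_mul, c3, zero_mul, add_zero]
      rw [cv_YY hY hW hE _ (sp i) su, c2, mul_ite, mul_one, mul_zero] at c1
      have c3 := abs_vr_le hW hE (by positivity) (by positivity) (vp i).2 vu
      have c4 : CB * CD * (CU * (r : ℝ) ^ 2) * τ / (r : ℝ) ^ 2 = CB * CD * CU * τ := by field_simp
      rw [e1, sub_right_comm]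
      exact (abs_sub _ _).trans ((add_le_add ((c1.trans_eq c4).trans
        (kB _ _ hCD hCU (by linarith) (by linarith))) (c3.trans e2)).trans e3)
    · have c1 := lb _ _ _ _ su (sq' i)
        (hu.2.2.2.2 V.p ρ r (by omega) b1.le (by omega) (by rw [B30.ds_self]; omega)) (dd V.q i)
      have c2 : En (uc V.p ρ' j) (ud V.q ρ S i) = 0 := by
        rw [En_comm, (hY V.σ _ _ (sq' i)).2.2.1 _ _ hu.1]
        refine sum_eq_zero fun z hz => ?_
        rw [(((hd V.q i).2.2.2.2.2.2 V.p r (by rw [B30.p_snd, B30.q_snd]) hqp ρ8 (by omega)).1 z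
          (by rw [mem_ds] at hz; omega)).1, zero_mul]
      rw [cv_YY hY hW hE _ su (sq' i), c2, mul_zero, sub_zero, Vr_comm] at c1
      have c3 := abs_vr_le hW hE (by positivity) (by positivity) (vq i).2 vu
      have c4 : CB * (CU * (r : ℝ) ^ 2) * CD * τ / (r : ℝ) ^ 2 = CB * CU * CD * τ := by field_simp
      rw [e1]
      exact (abs_sub _ _).trans ((add_le_add ((c1.trans_eq c4).trans
        (kB _ _ hCU hCD (by linarith) (by linarith))) (c3.trans e2)).trans e3)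
  · have c1 := lb _ _ _ _ (sp i) (sq' j) (dd V.p i) (dd V.q j)
    set fp := fd V.p ρ i
    set fq := fd V.q ρ j
    set gp := A0 (ud V.p ρ S i) - fp with hgp
    set gq := A0 (ud V.q ρ S j) - fq with hgq
    have c2 : En (ud V.p ρ S i) (ud V.q ρ S j) = ∑ z ∈ bl V.q ρ, fq z * ud V.p ρ S i z +
        ∑ z ∈ bl V.p (2 * S), gq z * ud V.p ρ S i z := by
      rw [En_comm, (hY V.σ _ _ (sq' j)).2.2.1 _ _ (hd V.p i).2.2.1,
        sum_subset (B30.bl_sub (z := V.q) (r := ρ) (w := V.p) (r' := 2 * S) (by omega)) fun z _ hz =>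
          mul_eq_zero_of_left ((hd V.q j).2.1 z hz) _, ← sum_add_distrib]
      exact sum_congr rfl fun z _ => by rw [hgq, Pi.sub_apply]; ring
    have c3 := far_pair hCD hpq (by omega) (hd V.q j).2.2.2.2.1 (dd V.p i)
    rw [cv_YY hY hW hE _ (sp i) (sq' j), c2, show A0 (ud V.p ρ S i) = fp + gp by rw [hgp]; abel,
      show A0 (ud V.q ρ S j) = fq + gq by rw [hgq]; abel, pr_add, pr_add, hE.Vr_add_left,
      hE.Vr_add_right, hE.Vr_add_right] at c1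
    have c4 := abs_vr_le hW hE (by positivity) (by positivity) (vp i).1 (vq j).2
    have c5 := abs_vr_le hW hE (by positivity) (by positivity) (vp i).2 (vq j).1
    have c6 := abs_vr_le hW hE (by positivity) (by positivity) (vp i).2 (vq j).2
    have c7 : |gc r * ∑ z ∈ bl V.p (2 * S), gq z * ud V.p ρ S i z| ≤ 1 * (100 * CD ^ 2 / (S : ℝ) ^ 2) := by
      rw [abs_mul]; gcongr
    have d1 : (r : ℝ) / ρ * (r / S) ≤ τ := by
      calc _ ≤ t ^ 3 * (1 / t ^ 5) := by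
            gcongr; rw [div_le_iff₀ ρ0]; linarith
        _ = 1 / t ^ 2 := by field_simp
        _ ≤ _ := τ2
    have d2 : (r : ℝ) / S * (r / S) ≤ τ := by
      calc _ ≤ 1 * τ := by
            gcongr
            · exact (q1.trans q2).trans τ1
            · exact q1.trans q2
        _ = _ := one_mul _
    have d3 := kB _ _ hCD hCD (by linarith) (by linarith)
    have r2 : (0 : ℝ) < (r : ℝ) ^ 2 := by positivity
    rw [mul_left_comm, ← mul_sub, abs_mul, abs_of_pos r2, ← le_div_iff₀' r2]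
    have d4 : a / ρ * (a / S) ≤ a ^ 2 * τ / (r : ℝ) ^ 2 := by
      rw [le_div_iff₀ r2]
      calc _ = a ^ 2 * (r / ρ * (r / S)) := by ring
        _ ≤ _ := by gcongr
    have d5 : a / S * (a / S) ≤ a ^ 2 * τ / (r : ℝ) ^ 2 := by
      rw [le_div_iff₀ r2]
      calc _ = a ^ 2 * (r / S * (r / S)) := by ring
        _ ≤ _ := by gcongr
    have d6 : 1 * (100 * CD ^ 2 / (S : ℝ) ^ 2) ≤ 100 * CD ^ 2 * τ / (r : ℝ) ^ 2 := by
      rw [le_div_iff₀ r2]
      calc _ = 100 * CD ^ 2 * (r / S * (r / S)) := by ring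
        _ ≤ _ := by gcongr
    have d7 : CB * CD * CD * τ / (r : ℝ) ^ 2 ≤ |CB| * (CD + CU) ^ 2 * τ / (r : ℝ) ^ 2 := by gcongr
    have d8 : K * τ / (r : ℝ) ^ 2 = |CB| * (CD + CU) ^ 2 * τ / (r : ℝ) ^ 2 +
      3 * (a ^ 2 * τ / (r : ℝ) ^ 2) + 100 * CD ^ 2 * τ / (r : ℝ) ^ 2 := by rw [hK]; ring
    rw [mul_comm (a / S)] at c5
    rw [mul_add] at c1
    rw [d8]
    rw [abs_le] at c1 c4 c5 c6 c7 ⊢
    constructor <;> linarith [c1.1, c1.2, c4.1, c4.2, c5.1, c5.2, c6.1, c6.2, c7.1, c7.2]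

end Crest.Agent.T145.Vx
end

-- ▼ part T145/VxLy_62
section

/-!
# Row 145, module Vx (helper62): the Lasota-Yorke inequality `LyStmt`
-/

set_option autoImplicit false

namespace Crest.Agent.T145.Vx

open Finset
open Nc (Amb)

namespace Ly62

/-- the abstract Lasota-Yorke argument in rank two -/
theorem core {E : Type*} (I : E → Prop) (cb : ℝ → E → ℝ → E → E) (n₀ n₁ : E → ℝ)
    (a l : E → Fin 2 → ℝ) (V : Fin 2 → E) {w ε C g : ℝ} (hw : 1 ≤ w) (hε : 0 ≤ ε) (hε1 : ε ≤ 1)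
    (hC : 1 ≤ C) (hg : 1 / 2 ≤ g) (hs : 16 * C ^ 2 * ε ≤ 1)
    (hI : ∀ x F y G, I F → I G → I (cb x F y G))
    (ha : ∀ x F y G, I F → I G → a (cb x F y G) = x • a F + y • a G)
    (hl : ∀ x F y G, I F → I G → l (cb x F y G) = x • l F + y • l G)
    (h0 : ∀ F, I F → 0 ≤ n₀ F)
    (t0 : ∀ x F y G, I F → I G → n₀ (cb x F y G) ≤ |x| * n₀ F + |y| * n₀ G)
    (t1 : ∀ F G, I F → I G → n₁ F ≤ n₁ (cb 1 F (-1) G) + n₁ G)
    (a1 : ∀ F, I F → ∀ i, |a F i| ≤ w * n₀ F)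
    (a2 : ∀ F, I F → n₁ F ≤ ∑ i, |a F i| + ε * n₀ F)
    (l1 : ∀ F, I F → ∀ i, |l F i| ≤ C * n₁ F)
    (vI : ∀ i, I (V i)) (v0 : ∀ i, n₀ (V i) ≤ C)
    (lv : ∀ i j, |l (V i) j - if i = j then g else 0| ≤ 1 / 8) {F : E} (hF : I F) :
    n₁ F ≤ 12 * C * w * ∑ i, |l F i| + 2000 * C ^ 4 * w ^ 2 * ε * n₀ F := by
  simp only [Fin.sum_univ_two] at a2 ⊢
  set G : (Fin 2 → ℝ) → E := fun b => cb (b 0) (V 0) (b 1) (V 1) with hG
  have gI : ∀ b, I (G b) := fun b => hI _ _ _ _ (vI 0) (vI 1)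
  have g0 : ∀ b, n₀ (G b) ≤ C * (|b 0| + |b 1|) := fun b =>
    (t0 _ _ _ _ (vI 0) (vI 1)).trans (by
      nlinarith [mul_le_mul_of_nonneg_left (v0 0) (abs_nonneg (b 0)),
        mul_le_mul_of_nonneg_left (v0 1) (abs_nonneg (b 1))])
  have gl : ∀ b, (|b 0| + |b 1|) / 4 ≤ |l (G b) 0| + |l (G b) 1| := fun b => by
    have e := hl (b 0) _ (b 1) _ (vI 0) (vI 1)
    have k00 := lv 0 0
    have k01 := lv 0 1
    have k10 := lv 1 0
    have k11 := lv 1 1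
    simp only [if_true, Fin.zero_eq_one_iff, Fin.one_eq_zero_iff, OfNat.ofNat_ne_one, if_false,
      sub_zero] at k00 k01 k10 k11
    have e0 : b 0 * g = l (G b) 0 - b 0 * (l (V 0) 0 - g) - b 1 * l (V 1) 0 := by
      simp only [hG, e, Pi.add_apply, Pi.smul_apply, smul_eq_mul]; ring
    have e1 : b 1 * g = l (G b) 1 - b 1 * (l (V 1) 1 - g) - b 0 * l (V 0) 1 := by
      simp only [hG, e, Pi.add_apply, Pi.smul_apply, smul_eq_mul]; ring
    have key : ∀ x y z u v : ℝ, x * g = z - x * u - y * v → |u| ≤ 1 / 8 → |v| ≤ 1 / 8 →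
        |x| / 2 ≤ |z| + |x| / 8 + |y| / 8 := fun x y z u v h hu hv => by
      have h1 : |x * g| ≤ |z| + |x * u| + |y * v| := by
        rw [h]; exact (abs_sub _ _).trans (by gcongr; exact abs_sub _ _)
      rw [abs_mul, abs_mul, abs_mul, abs_of_pos (by linarith : 0 < g)] at h1
      nlinarith [abs_nonneg x, abs_nonneg y, mul_le_mul_of_nonneg_left hu (abs_nonneg x),
        mul_le_mul_of_nonneg_left hv (abs_nonneg y), mul_le_mul_of_nonneg_left hg (abs_nonneg x)]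
    linarith [key _ _ _ _ _ e0 k00 k10, key _ _ _ _ _ e1 k11 k01]
  have ga : ∀ b, |b 0| + |b 1| ≤ 16 * C * (|a (G b) 0| + |a (G b) 1|) := fun b => by
    have h1 := gl b
    have h2 := l1 _ (gI b) 0
    have h3 := l1 _ (gI b) 1
    have h4 := mul_le_mul_of_nonneg_left ((a2 _ (gI b)).trans
      (add_le_add_right (mul_le_mul_of_nonneg_left (g0 b) hε) _)) (by linarith : 0 ≤ C)
    have h5 := mul_le_mul_of_nonneg_right hs (by positivity : 0 ≤ |b 0| + |b 1|)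
    nlinarith
  let T : (Fin 2 → ℝ) →ₗ[ℝ] (Fin 2 → ℝ) :=
    (LinearMap.proj 0).smulRight (a (V 0)) + (LinearMap.proj 1).smulRight (a (V 1))
  have hT : ∀ b, T b = a (G b) := fun b => (ha _ _ _ _ (vI 0) (vI 1)).symm
  have hinj : Function.Injective T := (injective_iff_map_eq_zero T).2 fun b hb => by
    have h1 := ga b
    rw [← hT, hb] at h1
    simp only [Pi.zero_apply, abs_zero, add_zero, mul_zero] at h1
    funext i
    fin_cases i
    · exact abs_nonpos_iff.1 (by linarith [abs_nonneg (b 1)] : |b 0| ≤ 0)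
    · exact abs_nonpos_iff.1 (by linarith [abs_nonneg (b 0)] : |b 1| ≤ 0)
  obtain ⟨b, hb⟩ := LinearMap.injective_iff_surjective.1 hinj (a F)
  rw [hT] at hb
  have n0 := h0 F hF
  have rI := hI 1 F (-1) _ hF (gI b)
  set B := |b 0| + |b 1| with hB
  have B0 : 0 ≤ B := by positivity
  have b1 : B ≤ 32 * C * w * n₀ F := by
    have h1 := ga b
    rw [hb] at h1
    nlinarith [mul_le_mul_of_nonneg_left (add_le_add (a1 F hF 0) (a1 F hF 1)) (by linarith : 0 ≤ 16 * C)]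
  have r1 : n₁ (cb 1 F (-1) (G b)) ≤ 33 * C ^ 2 * w * (ε * n₀ F) := by
    have h1 := a2 _ rI
    rw [ha _ _ _ _ hF (gI b), hb] at h1
    have h2 := t0 1 F (-1) _ hF (gI b)
    simp only [one_smul, neg_smul, add_neg_cancel, Pi.zero_apply, abs_zero, zero_add, abs_one, abs_neg,
      one_mul] at h1 h2
    have h3 : n₀ (cb 1 F (-1) (G b)) ≤ 33 * C ^ 2 * w * n₀ F := by
      have h4 := mul_le_mul_of_nonneg_left b1 (by linarith : 0 ≤ C)
      have h5 : 1 * n₀ F ≤ C ^ 2 * w * n₀ F :=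
        mul_le_mul_of_nonneg_right (one_le_mul_of_one_le_of_one_le (one_le_pow₀ hC) hw) n0
      nlinarith [g0 b]
    nlinarith [mul_le_mul_of_nonneg_left h3 hε]
  have b2 : B ≤ 4 * (|l F 0| + |l F 1|) + 8 * C * n₁ (cb 1 F (-1) (G b)) := by
    have e := hl 1 F (-1) _ hF (gI b)
    have k : ∀ i, |l (G b) i| ≤ |l F i| + C * n₁ (cb 1 F (-1) (G b)) := fun i => by
      have h1 : l (G b) i = l F i - l (cb 1 F (-1) (G b)) i := by simp [e]
      rw [h1]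
      exact (abs_sub _ _).trans (add_le_add_right (l1 _ rI i) _)
    linarith [gl b, k 0, k 1]
  have g1 : n₁ (G b) ≤ 3 * C * w * B := by
    have h1 := a2 _ (gI b)
    have h2 := mul_le_mul_of_nonneg_left (g0 b) (by linarith : 0 ≤ w)
    have h3 : ε * n₀ (G b) ≤ w * n₀ (G b) := mul_le_mul_of_nonneg_right (by linarith) (h0 _ (gI b))
    nlinarith [a1 _ (gI b) 0, a1 _ (gI b) 1]
  have X0 : 0 ≤ ε * n₀ F := mul_nonneg hε n0
  have h1 := mul_le_mul_of_nonneg_left b2 (by positivity : 0 ≤ 3 * C * w)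
  have h2 := mul_le_mul_of_nonneg_left r1 (by positivity : 0 ≤ 24 * C ^ 2 * w)
  have h3 : 1 * (C ^ 2 * w * (ε * n₀ F)) ≤ C ^ 2 * w * (C ^ 2 * w * (ε * n₀ F)) :=
    mul_le_mul_of_nonneg_right (one_le_mul_of_one_le_of_one_le (one_le_pow₀ hC) hw) (by positivity)
  have h4 : 0 ≤ C ^ 2 * w * (C ^ 2 * w * (ε * n₀ F)) := by positivity
  nlinarith [t1 F _ hF (gI b)]

theorem big (M : ℕ) : ∃ r₁ : ℕ, ∀ r : ℕ, r₁ ≤ r → (M : ℝ) ≤ Real.log r ∧
    ∀ ρ : ℕ, (r : ℝ) ≤ ρ * Real.log r ^ 3 → M ≤ ρ := by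
  have h1 := (Real.isLittleO_pow_log_id_atTop (n := 3)).bound (c := 1 / (M + 1)) (by positivity)
  have h2 := Real.tendsto_log_atTop.eventually_ge_atTop (M : ℝ)
  obtain ⟨r₁, h⟩ := Filter.eventually_atTop.1
    (tendsto_natCast_atTop_atTop.eventually (h1.and (h2.and (Filter.eventually_gt_atTop (0 : ℝ)))))
  refine ⟨r₁, fun r hr => ⟨(h r hr).2.1, fun ρ hρ => ?_⟩⟩
  obtain ⟨k1, -, k3⟩ := h r hr
  rw [Real.norm_eq_abs, id, Real.norm_eq_abs, abs_of_pos k3] at k1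
  have k4 := hρ.trans (mul_le_mul_of_nonneg_left ((le_abs_self _).trans k1) (Nat.cast_nonneg ρ))
  rw [← mul_assoc, le_mul_iff_one_le_left k3, mul_one_div, one_le_div (by positivity)] at k4
  exact_mod_cast (by linarith : (M : ℝ) ≤ ρ)

theorem exW (M : ℝ) (W₁ : ℕ) : ∃ (W : ℕ) (w : ℝ), W₁ ≤ W ∧ M ≤ w ∧ 1 ≤ w ∧ (W : ℝ) = w ^ 16 ∧
    (W : ℝ) ^ ((1 / 16 : ℝ) - 1) = 1 / w ^ 15 ∧ (W : ℝ) ^ ((1 / 16 : ℝ) - 2) = 1 / w ^ 31 ∧
    (W : ℝ) ^ (-(3 / 4 : ℝ)) = 1 / w ^ 12 := by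
  obtain ⟨n, hn⟩ := exists_nat_ge (max M (W₁ + 1))
  have h1 : W₁ + 1 ≤ n := by exact_mod_cast (le_max_right _ _).trans hn
  have k : ∀ (x : ℝ) (j : ℕ), (16 : ℕ) * x = -(j : ℝ) → ((n ^ 16 : ℕ) : ℝ) ^ x = 1 / (n : ℝ) ^ j :=
    fun x j h => by
      rw [Nat.cast_pow, ← Real.rpow_natCast, ← Real.rpow_mul (Nat.cast_nonneg n), h,
        Real.rpow_neg (Nat.cast_nonneg n), Real.rpow_natCast, one_div]
  exact ⟨n ^ 16, n, (by omega : W₁ ≤ n).trans (Nat.le_self_pow (by norm_num) n),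
    (le_max_left _ _).trans hn, by exact_mod_cast (by omega : 1 ≤ n), Nat.cast_pow _ _,
    k _ _ (by norm_num), k _ _ (by norm_num), k _ _ (by norm_num)⟩

variable {P : Par} {V : Vp} {ρ : ℕ} {F G H W : Cfg Pt → ℝ}

theorem wN (hP : P.Ok) (V : Vp) (c : ℕ) : Wt ((P.L.Nr (bl V.p c) V.p).Ws 0 V.σ) ∧
    SE ((P.L.Nr (bl V.p c) V.p).Ws 0 V.σ) :=
  ⟨Md.ctr_wts (hP.crit.1.ctr_Nr _ _) (hP.crit.1.anch_Nr_bl (self_mem_bl _ _)) _ _,
    Md.ctr_ses (hP.crit.1.ctr_Nr _ _) (hP.crit.1.anch_Nr_bl (self_mem_bl _ _)) _ _⟩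

theorem nu0 (hP : P.Ok) (V : Vp) (ρ : ℕ) (F : Cfg Pt → ℝ) : 0 ≤ P.ν V ρ F :=
  Ex_nonneg (wN hP V _).1.nonneg fun _ _ => abs_nonneg _

theorem ex_lin (hW : SE W) (hF : Tame F) (hG : Tame G) (x y : ℝ) :
    Ex W (fun s => x * F s + y * G s) = x * Ex W F + y * Ex W G := by
  rw [Ex_add (hW.ig (hF.const_mul x)) (hW.ig (hG.const_mul y)), Ex_const_mul, Ex_const_mul]

theorem nu_lin (hT : TrStmt) (hP : P.Ok) (hF : Ins V.p (ρ + 1) F) (hG : Ins V.p (ρ + 1) G) (x y : ℝ) :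
    P.ν V ρ (fun s => x * F s + y * G s) ≤ |x| * P.ν V ρ F + |y| * P.ν V ρ G := by
  obtain ⟨hw, hs⟩ := wN hP V (P.W₀ * ρ)
  have tF : Tame (P.L.tr V.σ V.p ρ F) := (hT P.b V.σ V.p ρ F hP.crit.1.2 hF).1
  have tG : Tame (P.L.tr V.σ V.p ρ G) := (hT P.b V.σ V.p ρ G hP.crit.1.2 hG).1
  have e1 : ∀ s, P.L.tr V.σ V.p ρ (fun s => x * F s + y * G s) s =
      x * P.L.tr V.σ V.p ρ F s + y * P.L.tr V.σ V.p ρ G s := fun s =>
    ex_lin (Md.ctr_ses (hP.crit.1.ctr_D _) (hP.crit.1.anch_D _) _ _) hF.2 hG.2 x y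
  have e2 : P.L.exN V.σ V.p (P.W₀ * ρ) (fun s => x * F s + y * G s) =
      x * P.L.exN V.σ V.p (P.W₀ * ρ) F + y * P.L.exN V.σ V.p (P.W₀ * ρ) G := ex_lin hs hF.2 hG.2 x y
  unfold Par.ν Par.N Lat.nrm
  simp only [e1, e2]
  generalize P.L.exN V.σ V.p (P.W₀ * ρ) F = c
  generalize P.L.exN V.σ V.p (P.W₀ * ρ) G = d
  have a1 := (tF.sub (Tame.const c)).abs
  have a2 := (tG.sub (Tame.const d)).abs
  refine le_of_le_of_eq (Ex_mono hw.nonneg (hs.ig (((tF.const_mul x).add (tG.const_mul y)).sub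
    (Tame.const _)).abs) (hs.ig ((a1.const_mul |x|).add (a2.const_mul |y|))) fun s => ?_)
    (ex_lin hs a1 a2 _ _)
  rw [← abs_mul, ← abs_mul]
  exact (le_of_eq (by congr 1; ring)).trans (abs_add_le _ _)

theorem cv_lin (hW : SE W) (hF : Tame F) (hG : Tame G) (hH : Tame H) (x y : ℝ) :
    Cv W (fun s => x * F s + y * G s) H = x * Cv W F H + y * Cv W G H := by
  rw [Cv_add_left (hW.ig (hF.const_mul x)) (hW.ig (hG.const_mul y)) (hW.ig ((hF.const_mul x).mul hH))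
    (hW.ig ((hG.const_mul y).mul hH)), Cv_const_mul_left, Cv_const_mul_left]

theorem cv_const (h : Wt W) (hW : SE W) (hF : Tame F) (hH : Tame H) (c : ℝ) :
    Cv W F (fun s => H s + c) = Cv W F H := by
  rw [Cv_comm, Cv_add_left (hW.ig hH) (h.ig_const c) (hW.ig (hH.mul hF))
    (hW.ig ((Tame.const c).mul hF)), h.cv_const_left, add_zero, Cv_comm]

theorem ins_mono {z : Pt} {r r' : ℕ} (h : Ins z r F) (hr : r ≤ r') : Ins z r' F :=
  ⟨h.1.mono (bl_mono z hr), h.2⟩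

theorem ins_chg {p : Pt} {D Λc : ℕ} {A : ℝ} {g : Pt → ℝ} (h : Chg p D Λc A g) :
    Ins p (Λc * D) (pr g) :=
  ⟨DepG.pr (fun x hx => by
    by_contra k
    have := (h.1 x k).2
    generalize Λc * D = n at *
    exact hx (by rw [mem_bl]; unfold ds at this; omega)) h.2.1, Tame.hom _⟩

theorem amb_le {m : Mdl Pt} {z : Pt} {R R' : ℕ} (h : Amb P.L m (bl z R)) (hR : R' ≤ R) :
    Amb P.L m (bl z R') :=
  ⟨h.ctr, h.anch, (bl_mono z hR).trans h.sub, h.near.mono (bl_mono z hR)⟩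

theorem gc_ge (r : ℕ) : 1 / 2 ≤ gc r := by
  have h1 : 0 ≤ 1 / (Real.pi * Real.log r) := by have := Real.log_natCast_nonneg r; positivity
  have h2 : 1 / 2 ≤ 2 / Real.pi := by
    rw [div_le_div_iff₀ (by norm_num) Real.pi_pos]; linarith [Real.pi_le_four]
  unfold gc; linarith

theorem small {C t δ : ℝ} (hδ : 0 < δ) (h1 : 1 ≤ t) (h : 8 * |C| ≤ t) : C * t ^ (-1 - δ) ≤ 1 / 8 := by
  have h2 : t ^ (-1 - δ) ≤ t ^ (-1 : ℝ) := Real.rpow_le_rpow_of_exponent_le h1 (by linarith)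
  rw [Real.rpow_neg_one] at h2
  have h3 : |C| * t⁻¹ ≤ 1 / 8 := by
    rw [← div_eq_mul_inv, div_le_iff₀ (by linarith)]; linarith
  exact (mul_le_mul (le_abs_self C) h2 (by positivity) (abs_nonneg C)).trans h3

end Ly62

open Ly62 in
theorem lyStmt (hT : TrStmt) (hY : YStmt) (hU : UcStmt) (hD : DipStmt) (hL : LinStmt) (hV : LvStmt)
    (hS : TsStmt) : LyStmt := fun P hP => by
  obtain ⟨Cu, hU⟩ := hU
  obtain ⟨Cd, hD⟩ := hD
  obtain ⟨C3, r3, h3⟩ := hL P hP 3 (by norm_num)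
  obtain ⟨C8, r8, h8⟩ := hL P hP 8 (by norm_num)
  obtain ⟨Cv, rv, hV⟩ := hV P hP
  obtain ⟨W₁, hS⟩ := hS P hP (1 / 16) (by norm_num)
  obtain ⟨C, hC, c3, c8⟩ : ∃ C : ℝ, 1 ≤ C ∧ |C3| * |Cu| * (8 * P.W₀) ≤ C ∧ |C8| * |Cd| ≤ C :=
    ⟨max 1 (max _ _), le_max_left _ _, le_max_of_le_right (le_max_left _ _),
      le_max_of_le_right (le_max_right _ _)⟩
  obtain ⟨W, w, hW, hM, hw, e16, e15, e31, e12⟩ := exW (2000 * C ^ 4) (max 16 W₁)
  have W16 : 16 ≤ W := (le_max_left _ _).trans hW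
  obtain ⟨rs, hS⟩ := hS W ((le_max_right _ _).trans hW)
  obtain ⟨r₁, hb⟩ := big (8 * (r3 + r8 + rs + P.r₀ + ⌈|Cv|⌉₊ + 4))
  refine ⟨W, W16, 12 * C * w, max r₁ rv, fun V hr => ?_⟩
  obtain ⟨R, hV⟩ := hV V ((le_max_right _ _).trans hr)
  obtain ⟨t1, hb⟩ := hb V.r ((le_max_left _ _).trans hr)
  refine ⟨max R (4 * V.r), fun m ρ F hm h1 h2 hF => ?_⟩
  have ρ1 := hb ρ h1
  have m4 := amb_le hm (le_max_right _ _)
  have hw0 := hP.W2
  have k1 : 16 * ρ ≤ W * ρ := Nat.mul_le_mul_right _ W16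
  have k2 : 4 * (W * ρ) ≤ P.W₀ * (W * ρ) := Nat.mul_le_mul_right _ hw0
  have k3 : P.W₀ * ρ ≤ P.W₀ * (W * ρ) := Nat.mul_le_mul_left _ (by omega)
  obtain ⟨a, ha, hA⟩ := hS V ρ (by omega) (by omega)
  have mw := Md.ctr_wts hm.ctr hm.anch 0 V.σ
  have ms := Md.ctr_ses hm.ctr hm.anch 0 V.σ
  have up : ∀ {F}, Ins V.p (ρ + 1) F → Ins V.p (W * ρ + 1) F := fun h => ins_mono h (by omega)
  have hu := fun i => hU V.p (8 * (P.W₀ * (W * ρ))) i (by omega)
  have hy := fun i => hY V.σ _ _ (hu i).1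
  have hd := fun i => (hD V.p ρ (4 * ρ) i (by omega) le_rfl).1
  have w0 : 0 < w := by linarith
  have ρ0 : (0 : ℝ) < ρ := by exact_mod_cast (by omega : 0 < ρ)
  have C2 : 1 ≤ C ^ 2 := one_le_pow₀ hC
  have ε1 : w * (1 / w ^ 15) ≤ 1 := by
    rw [mul_one_div, div_le_one (by positivity)]; exact le_self_pow₀ hw (by norm_num)
  have ε0 : 0 ≤ 1 / w ^ 15 := by positivity
  have ε2 : 1 / w ^ 15 ≤ 1 := (le_mul_of_one_le_left ε0 hw).trans ε1
  have ε3 : 16 * C ^ 2 * (1 / w ^ 15) ≤ 1 := (mul_le_mul_of_nonneg_right (by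
    linarith [mul_le_mul_of_nonneg_left C2 (by positivity : 0 ≤ C ^ 2)]) ε0).trans ε1
  have key := core (Ins V.p (ρ + 1)) (fun x F y G s => x * F s + y * G s)
    (fun F => ρ * P.ν V ρ F) (fun F => (W * ρ : ℕ) * P.ν V (W * ρ) F)
    (fun F => ((W * ρ : ℕ) : ℝ) • a F) (lf V m (8 * (P.W₀ * (W * ρ)))) (fun i => pr (fd V.p ρ i))
    (w := w) (ε := 1 / w ^ 15) (C := C) (g := gc V.r) hw ε0 ε2 hC (gc_ge _) ε3
    (fun x F y G hF hG => ⟨hF.1.comp₂ hG.1 fun a b => x * a + y * b,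
      (hF.2.const_mul x).add (hG.2.const_mul y)⟩)
    (fun x F y G hF hG => by rw [ha F G x y hF hG, smul_add, smul_comm _ x, smul_comm _ y])
    (fun x F y G hF hG => funext fun i => cv_lin ms hF.2 hG.2 (hy i).2.2.2.1 x y)
    (fun F _ => mul_nonneg ρ0.le (nu0 hP _ _ _))
    (fun x F y G hF hG => by
      linarith [mul_le_mul_of_nonneg_left (nu_lin hT hP hF hG x y) ρ0.le])
    (fun F G hF hG => by
      have h := nu_lin hT hP (F := fun s => 1 * F s + -1 * G s)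
        (up ⟨hF.1.comp₂ hG.1 fun a b => 1 * a + -1 * b, (hF.2.const_mul 1).add (hG.2.const_mul (-1))⟩)
        (up hG) 1 1
      rw [show (fun s => 1 * (1 * F s + -1 * G s) + 1 * G s) = F from funext fun s => by ring,
        abs_one, one_mul, one_mul] at h
      rw [← mul_add]
      exact mul_le_mul_of_nonneg_left h (Nat.cast_nonneg _))
    (fun F hF i => by
      have h := mul_le_mul_of_nonneg_left ((hA F hF).1 i) (Nat.cast_nonneg (α := ℝ) (W * ρ))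
      rw [Pi.smul_apply, smul_eq_mul, abs_mul, Nat.abs_cast]
      refine h.trans (le_of_eq ?_)
      rw [e15, Nat.cast_mul, e16]; field_simp)
    (fun F hF => by
      have h := mul_le_mul_of_nonneg_left (hA F hF).2 (Nat.cast_nonneg (α := ℝ) (W * ρ))
      simp only [Pi.smul_apply, smul_eq_mul, abs_mul, Nat.abs_cast, ← mul_sum]
      refine h.trans (le_of_eq ?_)
      rw [e31, Nat.cast_mul, e16]; field_simp)
    (fun F hF i => by
      have h := ((h3 V _ _ _ (by omega) (by omega) (hu i).2.1 (Or.inl (by omega))).1 m m4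
        (amb_le m4 (by omega))).2 (W * ρ) F (by omega) (by omega) (by omega) (Or.inl (by omega)) (up hF)
      unfold lf
      rw [funext (hy i).2.1, cv_const mw ms hF.2 (Tame.hom _)]
      have n0 := nu0 hP V (W * ρ) F
      have d : ((8 * (P.W₀ * (W * ρ)) - 1 : ℕ) : ℝ) ≤ 8 * P.W₀ * (W * ρ : ℕ) := by
        exact_mod_cast (by rw [mul_assoc]; omega : 8 * (P.W₀ * (W * ρ)) - 1 ≤ 8 * P.W₀ * (W * ρ))
      refine h.trans ((le_abs_self _).trans ?_)
      rw [abs_mul, abs_mul, abs_mul, Nat.abs_cast, abs_of_nonneg n0]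
      calc _ ≤ |C3| * P.ν V (W * ρ) F * (|Cu| * (8 * P.W₀ * (W * ρ : ℕ))) := by gcongr
        _ = |C3| * |Cu| * (8 * P.W₀) * ((W * ρ : ℕ) * P.ν V (W * ρ) F) := by ring
        _ ≤ _ := by gcongr)
    (fun i => ins_mono (ins_chg (hd i)) (by omega))
    (fun i => by
      have h := (h8 V _ _ _ (by omega) (by omega) (hd i) (Or.inl (by omega))).2 ρ (by omega) (by omega)
        (by omega)
      have d : ((ρ / 8 : ℕ) : ℝ) ≤ ρ := by exact_mod_cast Nat.div_le_self _ _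
      refine (mul_le_mul_of_nonneg_left (h.trans (le_abs_self _)) ρ0.le).trans (le_trans ?_ c8)
      rw [abs_mul, abs_mul, abs_div, Nat.abs_cast, abs_of_nonneg (by positivity : (0 : ℝ) ≤ ρ ^ 2)]
      calc _ ≤ ρ * (|C8| * (|Cd| / ρ ^ 2) * ρ) := by gcongr
        _ = _ := by field_simp)
    (fun i j => by
      have h := ((hV m ρ (amb_le hm (le_max_left _ _)) h1 i j).1 (8 * (P.W₀ * (W * ρ))) (by omega)
        (by omega)).1
      have c := Nat.le_ceil |Cv|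
      push_cast at t1
      exact h.trans (small hP.δ0 (by unfold Vp.t; linarith [abs_nonneg Cv])
        (by unfold Vp.t; linarith))) hF
  refine key.trans (add_le_add_right (mul_le_mul_of_nonneg_right ?_
    (mul_nonneg ρ0.le (nu0 hP _ _ _))) _)
  rw [e12]
  calc _ ≤ w * w ^ 2 * (1 / w ^ 15) := by gcongr
    _ = _ := by field_simp

end Crest.Agent.T145.Vx
end

-- ▼ part T145/VxMic_22
section

/-!
# Row 145, twisted module (helper22): `Vx.micStmt`, the microscopic bounds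
-/

set_option autoImplicit false

namespace Crest.Agent.T145.Vx

open Finset
open Nc (an Amb)
open Vd (rat)
open B30

namespace M22

variable {b k : ℝ} {σ : Pt × Pt → ℤ} {z w : Pt} {c : ℕ} {e : Pt × Pt}

theorem rat_fr (b : ℝ) {U : Finset Pt} {x : Pt} (hx : x ∈ U) (σ : Pt × Pt → ℤ) :
    rat (fr b U) σ = rat ((xyL b).Nr U x) σ := by
  have h := Nc.Geo.inL_N (Λ := xyL b) (Subset.refl U)
  have e : rat (fr b U) σ = Ks68.zr (Ks68.fr ((xyL b).N U) U) σ := rfl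
  rw [e, Ks68.zr_root hx, Ks68.zr, h.pn_W, h.pn_Ws, sdiff_singleton_eq_erase]
  rfl

/-- the constant of the second moment of one current -/
noncomputable def Q (b k : ℝ) : ℝ := 3 * (2 + b - Real.log k) ^ 2

theorem Q_nonneg (b k : ℝ) : 0 ≤ Q b k := by unfold Q; positivity

theorem tame_n (σ : Pt × Pt → ℤ) (e : Pt × Pt) : Tame fun s => (nE σ e s : ℝ) := Inf48.tame_nE σ e

theorem depG_n (σ : Pt × Pt → ℤ) {B : Finset Pt} (h1 : e.1 ∈ B) (h2 : e.2 ∈ B) {β : Type}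
    (g : ℤ → β) : DepG B fun s => g (nE σ e s) := (DepG.dE h1 h2).comp fun j => g (j + σ e)

/-- second moment of one current in a free box -/
theorem ex_sq (hb : 0 < b) (hk : 0 < k) (hr : k ≤ rat (fr b (bl z c)) σ)
    (he : e ∈ (xyL b).edI (bl z c)) :
    (xyL b).exN σ z c (fun s => (nE σ e s : ℝ) ^ 2) ≤ Q b k := by
  have hΛ := xyL_ok hb
  have hc := hΛ.ctr_Nr (bl z c) z
  have ha := hΛ.anch_Nr_bl (self_mem_bl z c)
  rw [rat_fr b (self_mem_bl z c)] at hr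
  have h1 := Vx34.ex_Yf_sq (T := {e}) hb hc ha (fun _ _ => rfl) (singleton_subset_iff.2 he) σ
    fun _ => 1
  simp only [Inf48.Yf, sum_singleton, one_mul, one_pow, mul_one] at h1
  refine h1.trans ?_
  have h2 := Real.log_le_log hk hr
  have h3 := Real.log_nonpos (Vd.rat_pos hc ha σ).le (Vd.rat_le_one hc ha σ)
  unfold Q
  gcongr
  linarith

theorem Jv_eq (σ : Pt × Pt → ℤ) (z : Pt) (s : Cfg Pt) : Jv σ z s =
    (nE σ (z - ev 0, z) s - nE σ (z, z + ev 0) s) + (nE σ (z - ev 1, z) s - nE σ (z, z + ev 1) s) := by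
  rw [Jv, Fin.sum_univ_two]

theorem tame_Jv (σ : Pt × Pt → ℤ) (z : Pt) : Tame (Jv σ z) :=
  Tame.sum univ fun _ _ => (tame_n σ _).sub (tame_n σ _)

theorem mem_sub (h : ds w z < c) (i : Fin 2) : w - ev i ∈ bl z c ∧ w ∈ bl z c ∧ w + ev i ∈ bl z c := by
  simp only [ds, max_lt_iff] at h
  fin_cases i <;> simp [mem_bl, ev] <;> omega

theorem ins_Jv (σ : Pt × Pt → ℤ) (h : ds w z < c) : Ins z c (Jv σ w) :=
  ⟨DepG.sum fun i _ => (depG_n σ (mem_sub h i).1 (mem_sub h i).2.1 fun j => (j : ℝ)).sub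
    (depG_n σ (mem_sub h i).2.1 (mem_sub h i).2.2 fun j => (j : ℝ)), tame_Jv σ w⟩

theorem ev_mem (b : ℝ) (i : Fin 2) : ev i ∈ (xyL b).Jp := by
  have : (xyL b).Jp = Pot.nL.Jp := rfl
  rw [this, Vd.mem_Jp]
  fin_cases i <;> simp [ev]

theorem ex_J (hb : 0 < b) (hk : 0 < k) (hr : k ≤ rat (fr b (bl z c)) σ) (h : ds w z < c) :
    (xyL b).exN σ z c (fun s => Jv σ w s ^ 2) ≤ 16 * Q b k := by
  have hΛ := xyL_ok hb
  have a : ∀ i, (xyL b).exN σ z c (fun s => (nE σ (w - ev i, w) s : ℝ) ^ 2) ≤ Q b k := fun i =>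
    ex_sq hb hk hr (Lat.mem_edI.2 ⟨by simpa using ev_mem b i, (mem_sub h i).1, (mem_sub h i).2.1⟩)
  have a' : ∀ i, (xyL b).exN σ z c (fun s => (nE σ (w, w + ev i) s : ℝ) ^ 2) ≤ Q b k := fun i =>
    ex_sq hb hk hr (Lat.mem_edI.2 ⟨by simpa using ev_mem b i, (mem_sub h i).2.1, (mem_sub h i).2.2⟩)
  have t : ∀ e, Tame fun s => (nE σ e s : ℝ) ^ 2 := fun e => (tame_n σ e).pow 2
  have h1 := exN_mono (σ := σ) (z := z) (R := c) hΛ ((tame_Jv σ w).pow 2)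
    ((((t (w - ev 0, w)).add (t (w, w + ev 0))).add ((t (w - ev 1, w)).add (t (w, w + ev 1)))).const_mul 4)
    fun s => by
      rw [Jv_eq]
      generalize (nE σ (w - ev 0, w) s : ℝ) = x
      generalize (nE σ (w, w + ev 0) s : ℝ) = y
      generalize (nE σ (w - ev 1, w) s : ℝ) = u
      generalize (nE σ (w, w + ev 1) s : ℝ) = v
      nlinarith [sq_nonneg (x + y), sq_nonneg (x - u), sq_nonneg (x + v), sq_nonneg (y + u),
        sq_nonneg (y - v), sq_nonneg (u + v)]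
  rw [exN_smul, exN_add hΛ ((t _).add (t _)) ((t _).add (t _)), exN_add hΛ (t _) (t _),
    exN_add hΛ (t _) (t _)] at h1
  linarith [a 0, a 1, a' 0, a' 1]

/-- the inverse of the micro move -/
noncomputable def Di (b : ℝ) (V : Vp) (s : Cfg Pt) : ℝ :=
  bes b (nE V.σ V.e s) / bes b (nE V.σ V.e s + 1)

theorem bes_pos (hb : 0 < b) (j : ℤ) : 0 < bes b j := (xyL_ok hb).fam.pos j

theorem Dv_pos (hb : 0 < b) (V : Vp) (s : Cfg Pt) : 0 < Dv b V s := div_pos (bes_pos hb _) (bes_pos hb _)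

theorem Di_pos (hb : 0 < b) (V : Vp) (s : Cfg Pt) : 0 < Di b V s := div_pos (bes_pos hb _) (bes_pos hb _)

theorem Dv_mul_Di (hb : 0 < b) (V : Vp) (s : Cfg Pt) : Dv b V s * Di b V s = 1 := by
  have h1 := bes_pos hb (nE V.σ V.e s)
  have h2 := bes_pos hb (nE V.σ V.e s + 1)
  rw [Dv, Di]
  field_simp

theorem abs_le_sq (x : ℝ) : |x| ≤ 1 + x ^ 2 ∧ |x + 1| ≤ 2 + x ^ 2 := by
  constructor <;> rw [abs_le] <;> constructor <;> nlinarith [sq_nonneg (x - 1), sq_nonneg (x + 1)]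

theorem Dv_le (hb : 0 < b) (V : Vp) (s : Cfg Pt) :
    |Dv b V s| ≤ (1 + 4 / b) + 2 / b * (nE V.σ V.e s : ℝ) ^ 2 := by
  rw [abs_of_pos (Dv_pos hb V s)]
  have h1 := Inf48.bes_succ_le hb (nE V.σ V.e s)
  have h2 := mul_le_mul_of_nonneg_left (abs_le_sq (nE V.σ V.e s : ℝ)).1 (by positivity : 0 ≤ 2 / b)
  have h3 : 0 ≤ 2 / b := by positivity
  have h4 : 4 / b = 2 * (2 / b) := by ring
  rw [Dv]
  linarith

theorem Di_le (hb : 0 < b) (V : Vp) (s : Cfg Pt) :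
    |Di b V s| ≤ (1 + 4 / b) + 2 / b * (nE V.σ V.e s : ℝ) ^ 2 := by
  rw [abs_of_pos (Di_pos hb V s)]
  have h1 := Inf48.bes_succ_le hb (-(nE V.σ V.e s + 1))
  have e1 : bes b (-(nE V.σ V.e s + 1) + 1) = bes b (nE V.σ V.e s) := by
    rw [show -(nE V.σ V.e s + 1) + 1 = -nE V.σ V.e s by ring]
    exact Xy48.besI_neg _ _
  have e2 : bes b (-(nE V.σ V.e s + 1)) = bes b (nE V.σ V.e s + 1) := Xy48.besI_neg _ _
  rw [e1, e2] at h1
  push_cast at h1
  rw [abs_neg] at h1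
  have h2 := mul_le_mul_of_nonneg_left (abs_le_sq (nE V.σ V.e s : ℝ)).2 (by positivity : 0 ≤ 2 / b)
  have h4 : 4 / b = 2 * (2 / b) := by ring
  rw [Di]
  linarith

theorem tame_maj (b : ℝ) (V : Vp) :
    Tame fun s => (1 + 4 / b) + 2 / b * (nE V.σ V.e s : ℝ) ^ 2 :=
  (Tame.const _).add (((tame_n _ _).pow 2).const_mul _)

theorem e_mem (b : ℝ) (V : Vp) (hc : 1 ≤ c) : V.e ∈ (xyL b).edI (bl V.p c) := by
  have : (xyL b).Jp = Pot.nL.Jp := rfl
  rw [Lat.mem_edI, this, Vd.mem_Jp]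
  obtain ⟨a, r, sd⟩ := V
  cases sd <;> simp [Vp.e, Vp.p, mem_bl] <;> omega

theorem ins_Dv (hb : 0 < b) (V : Vp) (hc : 1 ≤ c) : Ins V.p c (Dv b V) :=
  ⟨depG_n V.σ (Lat.mem_edI.1 (e_mem b V hc)).2.1 (Lat.mem_edI.1 (e_mem b V hc)).2.2
    fun j => bes b (j + 1) / bes b j, (tame_maj b V).of_le (Dv_le hb V)⟩

theorem ins_Di (hb : 0 < b) (V : Vp) (hc : 1 ≤ c) : Ins V.p c (Di b V) :=
  ⟨depG_n V.σ (Lat.mem_edI.1 (e_mem b V hc)).2.1 (Lat.mem_edI.1 (e_mem b V hc)).2.2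
    fun j => bes b j / bes b (j + 1), (tame_maj b V).of_le (Di_le hb V)⟩

theorem nrm_maj (hb : 0 < b) (hk : 0 < k) {V : Vp} (hr : k ≤ uu b V c) (hc : 1 ≤ c) {F : Cfg Pt → ℝ}
    (hF : ∀ s, |F s| ≤ (1 + 4 / b) + 2 / b * (nE V.σ V.e s : ℝ) ^ 2) :
    (xyL b).nrm V.σ V.p c F ≤ (1 + 4 / b) + 2 / b * Q b k := by
  have hΛ := xyL_ok hb
  refine (nrm_le_exN hΛ (tame_maj b V) hF).trans ?_
  rw [exN_add hΛ (Tame.const _) (((tame_n _ _).pow 2).const_mul _), exN_const hΛ, exN_smul]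
  have := ex_sq hb hk hr (e_mem b V hc)
  gcongr

theorem nrm_JJ (hb : 0 < b) (hk : 0 < k) {x : Pt} (hr : k ≤ rat (fr b (bl x c)) σ) (hz : ds z x < c)
    (hw : ds w x < c) : (xyL b).nrm σ x c (fun s => Jv σ z s * Jv σ w s) ≤ 16 * Q b k := by
  refine (nrm_mul_le (xyL_ok hb) (tame_Jv σ z) (tame_Jv σ w)).trans ?_
  have h0 : 0 ≤ 16 * Q b k := by have := Q_nonneg b k; positivity
  refine (mul_le_mul (Real.sqrt_le_sqrt (ex_J hb hk hr hz)) (Real.sqrt_le_sqrt (ex_J hb hk hr hw))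
    (Real.sqrt_nonneg _) (Real.sqrt_nonneg _)).trans_eq (Real.mul_self_sqrt h0)

theorem nrm_J (hb : 0 < b) (hk : 0 < k) {x : Pt} (hr : k ≤ rat (fr b (bl x c)) σ) (hz : ds z x < c) :
    (xyL b).nrm σ x c (Jv σ z) ≤ 1 + 16 * Q b k := by
  have hΛ := xyL_ok hb
  refine (nrm_le_exN hΛ ((Tame.const 1).add ((tame_Jv σ z).pow 2)) fun s => (abs_le_sq _).1).trans ?_
  rw [exN_add hΛ (Tame.const _) ((tame_Jv σ z).pow 2), exN_const hΛ]
  linarith [ex_J hb hk hr hz]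

theorem nrm_J2 (hb : 0 < b) (hk : 0 < k) {x : Pt} (hr : k ≤ rat (fr b (bl x c)) σ) (hz : ds z x < c) :
    (xyL b).nrm σ x c (fun s => Jv σ z s ^ 2) ≤ 16 * Q b k := by
  simpa only [pow_two] using nrm_JJ hb hk hr hz hz

/-- the scale of the cell of a core, seen from a point at the distance `D` -/
theorem exists_scale {W r₀ r D : ℕ} (hW : 1 ≤ W) (h0 : 1 ≤ r₀) (hr : 4 * (W * r₀) ≤ r)
    (hD : 2 * (W * r₀) ≤ D) :
    ∃ ρ, r₀ ≤ ρ ∧ 4 * (W * ρ) ≤ r ∧ 2 * (W * ρ) ≤ D ∧ (r ≤ 2 * D ∨ D ≤ 4 * W * ρ) := by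
  rcases le_or_gt r (2 * D) with h | h
  · exact ⟨r₀, le_rfl, hr, hD, .inl h⟩
  have h1 : r₀ ≤ D / (2 * W) := (Nat.le_div_iff_mul_le (by omega)).2 (by nlinarith)
  have h2 := Nat.div_mul_le_self D (2 * W)
  have h3 := Nat.lt_div_mul_add (a := D) (show 0 < 2 * W by omega)
  refine ⟨D / (2 * W), h1, by nlinarith, by nlinarith, .inr (by nlinarith)⟩

variable {P : Par}

/-- domination of one insertion at the core `p` -/
theorem dom_p (hD : DomStmt) (hP : P.Ok) : ∃ C : ℝ, 0 ≤ C ∧ ∀ (V : Vp) (m : Mdl Pt) (ρ : ℕ)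
    (F : Cfg Pt → ℝ), P.r₀ ≤ ρ → 4 * (P.W₀ * ρ) ≤ V.r → Amb P.L m (bl V.p (4 * V.r)) →
      (Ins V.p (ρ + 1) F → Ex (m.Ws 0 V.σ) (fun s => |F s|) ≤ C * P.N V V.p ρ F) ∧
      (Ins V.q (ρ + 1) F → Ex (m.Ws 0 V.σ) (fun s => |F s|) ≤ C * P.N V V.q ρ F) := by
  obtain ⟨C, H⟩ := hD P hP 0
  refine ⟨max C 0, le_max_right _ _, fun V m ρ F h0 h1 hm => ?_⟩
  have ha : Adm P 0 V ρ ρ ∅ (fun _ => 0) fun _ => 0 :=
    ⟨h0, h1, h0, h1, by simp, by simp, by simp, by simp⟩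
  refine ⟨fun hF => ?_, fun hF => ?_⟩
  · have := H V m ρ ρ ∅ _ _ F (fun _ => 1) (fun _ _ => 1) ha hm (by simp) hF (ins_const _ _ _)
    simp only [prod_empty, mul_one, N_one hP] at this
    exact this.trans (mul_le_mul_of_nonneg_right (le_max_left _ _) (N_nonneg hP _ _ _ _))
  · have := H V m ρ ρ ∅ _ _ (fun _ => 1) F (fun _ _ => 1) ha hm (by simp) (ins_const _ _ _) hF
    simp only [prod_empty, mul_one, one_mul, N_one hP] at this
    exact this.trans (mul_le_mul_of_nonneg_right (le_max_left _ _) (N_nonneg hP _ _ _ _))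

/-- domination of one insertion in a free cell of the smallest scale -/
theorem dom_f (hD : DomStmt) (hP : P.Ok) : ∃ C : ℝ, 0 ≤ C ∧ ∀ (V : Vp) (m : Mdl Pt) (z : Pt)
    (G : Cfg Pt → ℝ), 4 * (P.W₀ * P.r₀) ≤ V.r → 4 * (P.W₀ * P.r₀) ≤ V.d z →
      Amb P.L m (bl V.p (4 * V.r)) → Amb P.L m (bl z (P.W₀ * P.r₀)) → Ins z (P.r₀ + 1) G →
      Ex (m.Ws 0 V.σ) (fun s => |G s|) ≤ C * P.N V z P.r₀ G := by
  obtain ⟨C, H⟩ := hD P hP (4 * P.W₀)
  refine ⟨max C 0, le_max_right _ _, fun V m z G h1 hz hm hm' hG => ?_⟩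
  have hW := hP.W2
  have hr := hP.r2
  have dp := d_le_p V z
  have dq := d_le_q V z
  obtain ⟨ρp, p0, p1, p2, p3⟩ := exists_scale (W := P.W₀) (r₀ := P.r₀) (D := ds z V.p) (by omega)
    (by omega) h1 (by omega)
  obtain ⟨ρq, q0, q1, q2, q3⟩ := exists_scale (W := P.W₀) (r₀ := P.r₀) (D := ds z V.q) (by omega)
    (by omega) h1 (by omega)
  have ha : Adm P (4 * P.W₀) V ρp ρq {0} (fun _ => z) fun _ => P.r₀ :=
    ⟨p0, p1, q0, q1, fun _ _ => ⟨le_rfl, hz⟩, fun _ _ => ⟨p2, p3⟩, fun _ _ => ⟨q2, q3⟩,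
      fun i hi j hj hij => absurd ((mem_singleton.1 hi).trans (mem_singleton.1 hj).symm) hij⟩
  have := H V m ρp ρq {0} _ _ (fun _ => 1) (fun _ => 1) (fun _ => G) ha hm (fun _ _ => ⟨hm', hG⟩)
    (ins_const _ _ _) (ins_const _ _ _)
  simp only [prod_singleton, mul_one, one_mul, N_one hP] at this
  exact this.trans (mul_le_mul_of_nonneg_right (le_max_left _ _) (N_nonneg hP _ _ _ _))

end M22

open M22

theorem micStmt (hD : DomStmt) (hG : GgStmt) : MicStmt := fun P hP => by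
  have hb := b_pos hP
  have hW := hP.W2
  have hr := hP.r2
  refine ⟨fun c => ?_, ?_⟩
  · obtain ⟨k, hk, H⟩ := hP.k0 c
    have q := Q_nonneg P.b k
    have q' : 0 ≤ (1 + 4 / P.b) + 2 / P.b * Q P.b k := by positivity
    refine ⟨1 + 16 * Q P.b k + ((1 + 4 / P.b) + 2 / P.b * Q P.b k), fun V z w hc hz hw h2 => ?_⟩
    have h1 := nrm_JJ hb hk (H V hc) hz hw
    have h3 := nrm_J hb hk (H V hc) hz
    have h4 := nrm_maj hb hk (H V hc) (by omega) (Dv_le hb V)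
    exact ⟨le_trans h1 (by linarith), le_trans h3 (by linarith), le_trans h4 (by linarith)⟩
  obtain ⟨C₁, c1, H1⟩ := dom_p hD hP
  obtain ⟨C₂, c2, H2⟩ := dom_f hD hP
  set ρ := 4 * (P.W₀ * P.r₀) with hρ
  have ρ0 : P.r₀ ≤ ρ := by nlinarith
  have ρ1 : ρ ≤ P.W₀ * ρ := by nlinarith
  obtain ⟨k, hk, H⟩ := hP.k0 (P.W₀ * ρ)
  have q := Q_nonneg P.b k
  have q1 := Q_nonneg P.b 1
  set A := C₁ * ((1 + 4 / P.b) + 2 / P.b * Q P.b k) + 1 with hA
  have A0 : 0 < A := by positivity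
  refine ⟨1 / A, A + C₁ * (16 * Q P.b k) + C₂ * (16 * Q P.b 1), 4 * (P.W₀ * ρ), by positivity,
    fun V m hV hm => ?_⟩
  have hWt := amb_wt hm V.σ
  have a1 : 0 ≤ C₁ * (16 * Q P.b k) := by positivity
  have a2 : 0 ≤ C₂ * (16 * Q P.b 1) := by positivity
  have iD := ins_Dv (c := ρ + 1) hb V (by omega)
  have iI := ins_Di (c := ρ + 1) hb V (by omega)
  have hD1 := ((H1 V m ρ _ ρ0 hV hm).1 iD).trans (mul_le_mul_of_nonneg_left
    (nrm_maj hb hk (H V (by omega)) (by omega) (Dv_le hb V)) c1)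
  have hD2 := ((H1 V m ρ _ ρ0 hV hm).1 iI).trans (mul_le_mul_of_nonneg_left
    (nrm_maj hb hk (H V (by omega)) (by omega) (Di_le hb V)) c1)
  simp only [abs_of_pos (Dv_pos hb V _)] at hD1
  simp only [abs_of_pos (Di_pos hb V _)] at hD2
  refine ⟨?_, by linarith, fun z hz => ?_⟩
  · have h1 := Ex_mono hWt.nonneg (hWt.ig_const 2)
      (((amb_ig hm V.σ iD.2).const_mul A).add ((amb_ig hm V.σ iI.2).const_mul (1 / A))) fun s => by
        have h2 := Dv_mul_Di hb V s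
        have h3 := Dv_pos hb V s
        have h4 : 1 / A * Di P.b V s = 1 / (A * Dv P.b V s) := by
          field_simp
          linarith
        have h5 : 0 < A * Dv P.b V s := by positivity
        rw [h4, ← sub_le_iff_le_add', le_div_iff₀ h5]
        nlinarith [sq_nonneg (A * Dv P.b V s - 1)]
    rw [hWt.ex_const, Ex_add ((amb_ig hm V.σ iD.2).const_mul A) ((amb_ig hm V.σ iI.2).const_mul _),
      Ex_const_mul, Ex_const_mul] at h1
    have h2 : 1 / A * Ex (m.Ws 0 V.σ) (Di P.b V) ≤ 1 := by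
      rw [one_div, inv_mul_le_iff₀ A0]
      linarith
    rw [div_le_iff₀ A0]
    linarith
  have e : (fun s => Jv V.σ z s ^ 2) = fun s => |Jv V.σ z s ^ 2| :=
    funext fun s => (abs_of_nonneg (sq_nonneg _)).symm
  have iJ : ∀ (x : Pt) (c : ℕ), ds z x < c → Ins x c fun s => Jv V.σ z s ^ 2 := fun x c h =>
    ⟨(ins_Jv V.σ h).1.comp (· ^ 2), (tame_Jv _ _).pow 2⟩
  rw [e]
  rcases le_or_gt ρ (V.d z) with h | h
  · obtain ⟨g, -, h1, -⟩ := hG P.b V z (P.W₀ * P.r₀) hb (by nlinarith)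
    have h2 := (H2 V m z _ (by omega) h hm hz (iJ z _ (by rw [ds_self]; omega))).trans
      (mul_le_mul_of_nonneg_left (nrm_J2 hb one_pos h1.ge (by rw [ds_self]; nlinarith)) c2)
    linarith
  rcases min_lt_iff.1 h with h | h
  · have h2 := ((H1 V m ρ _ ρ0 hV hm).1 (iJ _ _ (by omega))).trans
      (mul_le_mul_of_nonneg_left (nrm_J2 hb hk (H V (by omega)) (by omega)) c1)
    linarith
  · have h2 := ((H1 V m ρ _ ρ0 hV hm).2 (iJ _ _ (by omega))).trans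
      (mul_le_mul_of_nonneg_left (nrm_J2 hb hk (H V.sw (by rw [sw_r]; omega)) (by omega)) c1)
    linarith

end Crest.Agent.T145.Vx
end

-- ▼ part T145/VxPur_3

/-!
# Row 145, twisted module: transport of the left functionals and purification (helper3)

`tpStmt : FjStmt → YStmt → UcStmt → TpStmt`, `purStmt : TpStmt → PurStmt`.
-/

set_option autoImplicit false

namespace Crest.Agent.T145.Vx

open Finset Filter Topology
open Nc (Amb)

namespace Pur3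

theorem mem_bl_ds {z p : Pt} {n : ℕ} : z ∈ bl p n ↔ ds z p ≤ n := by
  rw [mem_bl, ds]; omega

theorem ds_far (V : Vp) (z : Pt) : V.r ≤ ds z V.p + ds z V.q := by
  obtain ⟨a, r, sd⟩ := V
  cases sd <;> simp only [ds, Vp.p, Vp.q, Vp.sw] <;> simp <;> omega

theorem nb_near (V : Vp) {z : Pt} (h : 2 * ds z V.p ≤ V.r) :
    nb V z (ds z V.p) = 1 / (1 + (ds z V.p : ℝ)) ^ 2 := by
  have h1 := ds_far V z
  have hd : V.d z = ds z V.p := by rw [Vp.d]; omega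
  rw [nb, hd, if_pos (min_le_left _ _), min_self]

theorem nu_nonneg {P : Par} (hP : P.Ok) (V : Vp) (ρ : ℕ) (F : Cfg Pt → ℝ) : 0 ≤ P.ν V ρ F :=
  Ex_nonneg (Md.ctr_wts (hP.crit.1.ctr_Nr _ _) (hP.crit.1.anch_Nr_bl (self_mem_bl _ _)) 0 _).nonneg
    fun _ _ => abs_nonneg _

theorem cv_Y (hY : YStmt) {m : Mdl Pt} (hc : m.Ctr) (ha : m.Anch) (σ : Pt × Pt → ℤ)
    {F : Cfg Pt → ℝ} (hF : Tame F) {S : Finset Pt} {u : Pt → ℝ} (hu : Sup S u) :
    Cv (m.Ws 0 σ) F (Yv σ u) = ∑ z ∈ S, u z * Cv (m.Ws 0 σ) F (Jv σ z) := by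
  obtain ⟨h1, -, -, -, h5⟩ := hY σ S u hu
  have hs := Md.ctr_ses hc ha 0 σ
  rw [funext h1, Cv_comm, Cv_sum_left S (fun z _ => hs.ig ((h5 z).1.2.const_mul _))
    fun z _ => hs.ig (((h5 z).1.2.const_mul _).mul hF)]
  exact sum_congr rfl fun z _ => by rw [Cv_const_mul_left, Cv_comm]

/-- the closed recursion: Lasota-Yorke upwards, transport downwards -/
theorem rec (n : ℕ) (x l : ℕ → ℝ) {C θ η τ : ℝ} (hx : ∀ k, 0 ≤ x k) (hl : l n = 0) (hC : 0 ≤ C)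
    (hη : 0 ≤ η) (θ0 : 0 ≤ θ) (θ1 : θ ≤ 1 / 2) (τ1 : τ ≤ 1) (hτ : 4 * (C * η * n) ≤ τ)
    (up : ∀ k < n, x (k + 1) ≤ C * l (k + 1) + θ * x k)
    (dn : ∀ k < n, l k ≤ l (k + 1) + η * x k) : ∀ k ≤ n, x k ≤ x 0 * (τ + θ ^ k) := by
  obtain ⟨k₀, hk₀, hM⟩ := exists_max_image (range (n + 1)) x ⟨0, by simp⟩
  set M := x k₀
  have M0 : 0 ≤ M := hx _
  have hM' : ∀ k ≤ n, x k ≤ M := fun k hk => hM k (by simp; omega)
  have h1 : ∀ j k : ℕ, k + j = n → l k ≤ η * M * j := by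
    intro j
    induction j with
    | zero => intro k hk; obtain rfl : k = n := hk; simp [hl]
    | succ j ih =>
      intro k hk
      have a := ih (k + 1) (by omega)
      have b := dn k (by omega)
      have c := mul_le_mul_of_nonneg_left (hM' k (by omega)) hη
      push_cast; linarith
  have h2 : ∀ k ≤ n, C * l k ≤ C * η * n * M := fun k hk => by
    have a := h1 (n - k) k (by omega)
    have b : ((n - k : ℕ) : ℝ) ≤ n := by exact_mod_cast Nat.sub_le n k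
    have c := mul_le_mul_of_nonneg_left (a.trans (mul_le_mul_of_nonneg_left b (mul_nonneg hη M0))) hC
    linarith
  have E0 : 0 ≤ C * η * n * M := by positivity
  have h3 : ∀ k ≤ n, x k ≤ θ ^ k * x 0 + 2 * (C * η * n * M) := by
    intro k
    induction k with
    | zero => intro _; simp only [pow_zero]; linarith
    | succ k ih =>
      intro hk
      have a := mul_le_mul_of_nonneg_left (ih (by omega)) θ0
      have b := up k (by omega)
      have c := h2 (k + 1) hk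
      have d := mul_le_mul_of_nonneg_right θ1 E0
      rw [pow_succ]; nlinarith
  have t1 : 4 * (C * η * n * M) ≤ τ * M := by
    have := mul_le_mul_of_nonneg_right hτ M0; linarith
  have τ0 : 0 ≤ τ := le_trans (by positivity) hτ
  have h4 : M ≤ 2 * x 0 := by
    have a := h3 k₀ (by simp at hk₀; omega)
    have b := mul_le_mul_of_nonneg_right (pow_le_one₀ (n := k₀) θ0 (θ1.trans (by norm_num))) (hx 0)
    have c := mul_le_mul_of_nonneg_right τ1 M0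
    linarith
  intro k hk
  have a := h3 k hk
  have b := mul_le_mul_of_nonneg_left h4 τ0
  linarith

theorem th_le {W : ℕ} (hW : 16 ≤ W) : (W : ℝ) ^ (-(3 / 4 : ℝ)) ≤ 1 / 2 := by
  have h16 : (16 : ℝ) ≤ W := by exact_mod_cast hW
  calc (W : ℝ) ^ (-(3 / 4 : ℝ)) ≤ (16 : ℝ) ^ (-(3 / 4 : ℝ)) :=
        Real.rpow_le_rpow_of_nonpos (by norm_num) h16 (by norm_num)
    _ ≤ (16 : ℝ) ^ (-(1 / 4 : ℝ)) := Real.rpow_le_rpow_of_exponent_le (by norm_num) (by norm_num)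
    _ = 1 / 2 := by
        rw [show (16 : ℝ) = 2 ^ (4 : ℝ) by norm_num, ← Real.rpow_mul (by norm_num)]; norm_num

/-- numerics of the window `r / t ^ 3 ≤ ρ ≤ W ^ n ρ ≤ r` -/
theorem win (B : ℝ) : ∃ r₁ : ℕ, ∀ r : ℕ, r₁ ≤ r → ∀ W ρ n : ℕ, 16 ≤ W →
    (r : ℝ) ≤ ρ * Real.log r ^ 3 → W ^ n * ρ ≤ r →
      1 ≤ Real.log r ∧ B ≤ ρ ∧ Real.log r / 2 ≤ Real.log ρ ∧
        B * n / Real.log r ≤ Real.log r ^ (-(3 / 4 : ℝ)) := by
  have hT : Tendsto (fun r : ℕ => Real.log r ^ (1 / 8 : ℝ)) atTop atTop :=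
    (tendsto_rpow_atTop (by norm_num)).comp (Real.tendsto_log_atTop.comp tendsto_natCast_atTop_atTop)
  obtain ⟨r₁, hr₁⟩ := eventually_atTop.1 ((hT.eventually_ge_atTop (2 + 24 * |B|)).and
    (eventually_ge_atTop 1))
  refine ⟨r₁, fun r hr W ρ n hW h1 h2 => ?_⟩
  obtain ⟨hs, r1⟩ := hr₁ r hr
  have r0 : (0 : ℝ) < r := by exact_mod_cast r1
  have t0 : 0 ≤ Real.log r := Real.log_natCast_nonneg r
  set t := Real.log r with ht
  set s := t ^ (1 / 8 : ℝ) with hsd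
  have B0 := abs_nonneg B
  have B1 := le_abs_self B
  have s2 : 2 ≤ s := by linarith
  have ts : t = s ^ 8 := by
    rw [hsd, ← Real.rpow_natCast, ← Real.rpow_mul t0]; norm_num
  have s7 : 128 ≤ s ^ 7 := le_trans (by norm_num) (pow_le_pow_left₀ (by norm_num) s2 7)
  have t8 : 128 * s ≤ t := by rw [ts, pow_succ]; nlinarith
  have tp : 0 < t := by linarith
  have lt : Real.log t ≤ 8 * s := by
    have := Real.log_le_rpow_div t0 (show (0 : ℝ) < 1 / 8 by norm_num); linarith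
  have ρ0 : (0 : ℝ) < ρ := by
    rcases Nat.eq_zero_or_pos ρ with h | h
    · rw [h] at h1; simp at h1; linarith
    · exact_mod_cast h
  have lρ : t / 2 ≤ Real.log ρ := by
    have := Real.log_le_log r0 h1
    rw [Real.log_mul ρ0.ne' (by positivity), Real.log_pow] at this
    push_cast at this; linarith
  have hn : (n : ℝ) ≤ 24 * s := by
    have W0 : (16 : ℝ) ≤ W := by exact_mod_cast hW
    have a : (W : ℝ) ^ n ≤ t ^ 3 := by
      have b : (W : ℝ) ^ n * ρ ≤ r := by exact_mod_cast h2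
      exact le_of_mul_le_mul_right (by linarith) ρ0
    have b := Real.log_le_log (by positivity) a
    rw [Real.log_pow, Real.log_pow] at b
    have c : 1 ≤ Real.log W := by
      rw [Real.le_log_iff_exp_le (by linarith)]; linarith [Real.exp_one_lt_three]
    have d := mul_le_mul_of_nonneg_left c (Nat.cast_nonneg (α := ℝ) n)
    push_cast at b; linarith
  refine ⟨by linarith, ?_, lρ, ?_⟩
  · have := Real.log_le_sub_one_of_pos ρ0; linarith
  · have e : t ^ (-(3 / 4 : ℝ)) = s ^ 2 / t := by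
      rw [hsd, ← Real.rpow_natCast, ← Real.rpow_mul t0, ← Real.rpow_sub_one tp.ne']; norm_num
    rw [e]
    refine div_le_div_of_nonneg_right ?_ t0
    have a : B * n ≤ |B| * (24 * s) := mul_le_mul B1 hn (Nat.cast_nonneg _) B0
    nlinarith

end Pur3

open Pur3

theorem tpStmt (hJ : FjStmt) (hY : YStmt) (hU : UcStmt) : TpStmt := by
  intro P hP W hW
  obtain ⟨C₁, hU⟩ := hU
  obtain ⟨C₂, r₁, hJ⟩ := hJ P hP (16 * (P.W₀ * W))
  refine ⟨50 * (8 * (P.W₀ * W) : ℕ) ^ 3 * |C₁| * |C₂|, max r₁ 2, fun V m ρ F hρ hr hm hF i => ?_⟩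
  have W4 := hP.W2
  have ρ2 : 2 ≤ ρ := le_of_max_le_right hρ
  have e0 : ρ ≤ P.W₀ * ρ := Nat.le_mul_of_pos_left _ (by omega)
  have e1 : P.W₀ * ρ ≤ P.W₀ * (W * ρ) := Nat.mul_le_mul_left _ (Nat.le_mul_of_pos_left _ hW)
  have e2 : 16 * (P.W₀ * W) * ρ = 16 * (P.W₀ * (W * ρ)) := by ring
  have e3 : 8 * (P.W₀ * (W * ρ)) = 8 * (P.W₀ * W) * ρ := by ring
  have a1 : 1 ≤ 8 * (P.W₀ * W) := by have := Nat.mul_pos (show 0 < P.W₀ by omega) hW; omega
  obtain ⟨s1, -, v1, b1, -⟩ := hU V.p (8 * (P.W₀ * (W * ρ))) i (by omega)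
  obtain ⟨s2, -, v2, b2, -⟩ := hU V.p (8 * (P.W₀ * ρ)) i (by omega)
  have s2' : Sup (bl V.p (2 * (8 * (P.W₀ * (W * ρ))))) (uc V.p (8 * (P.W₀ * ρ)) i) :=
    fun x hx => s2 x fun h => hx (bl_mono _ (by omega) h)
  have ν0 := nu_nonneg hP V ρ F
  have ρr : (2 : ℝ) ≤ ρ := by exact_mod_cast ρ2
  have l0 : 0 < Real.log ρ := Real.log_pos (by linarith)
  rw [lf, lf, cv_Y hY hm.ctr hm.anch _ hF.2 s1, cv_Y hY hm.ctr hm.anch _ hF.2 s2', ← sum_sub_distrib]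
  have key : ∀ z ∈ bl V.p (2 * (8 * (P.W₀ * (W * ρ)))),
      |uc V.p (8 * (P.W₀ * (W * ρ))) i z * Cv (m.Ws 0 V.σ) F (Jv V.σ z) -
        uc V.p (8 * (P.W₀ * ρ)) i z * Cv (m.Ws 0 V.σ) F (Jv V.σ z)| ≤
      2 * |C₁| * ((8 * (P.W₀ * W) : ℕ) * ρ) * (|C₂| * P.ν V ρ F * (1 / (ρ : ℝ) ^ 2) / Real.log ρ) := by
    intro z hz
    rw [mem_bl_ds] at hz
    rcases lt_or_ge (ds z V.p) (8 * (P.W₀ * ρ)) with h | h
    · rw [v1 z (by omega), v2 z h, sub_self, abs_zero]; positivity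
    have j := hJ V m ρ F z (le_of_max_le_left hρ) (by omega) hF hm
      (Nc.L37.Amb.mono' hm (bl_subset_bl (mem_bl_ds.2 le_rfl) (by omega))) (by omega)
      (Or.inr (by omega))
    rw [nb_near V (by omega)] at j
    rw [← sub_mul, abs_mul]
    refine mul_le_mul ?_ (j.trans ?_) (abs_nonneg _) (by positivity)
    · have c1 := (b1 z).1
      have c2 := (b2 z).1
      have d1 : ((8 * (P.W₀ * (W * ρ)) : ℕ) : ℝ) = (8 * (P.W₀ * W) : ℕ) * ρ := by
        rw [e3, Nat.cast_mul]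
      have d2 : ((8 * (P.W₀ * ρ) : ℕ) : ℝ) ≤ (8 * (P.W₀ * W) : ℕ) * ρ := by
        rw [← d1]; exact_mod_cast (by omega)
      rw [d1] at c1
      have f1 := mul_le_mul_of_nonneg_right (le_abs_self C₁)
        (show (0 : ℝ) ≤ (8 * (P.W₀ * W) : ℕ) * ρ by positivity)
      have f2 := mul_le_mul (le_abs_self C₁) d2 (Nat.cast_nonneg _) (abs_nonneg _)
      have := abs_sub (uc V.p (8 * (P.W₀ * (W * ρ))) i z) (uc V.p (8 * (P.W₀ * ρ)) i z)
      linarith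
    · have g : (ρ : ℝ) ≤ 1 + (ds z V.p : ℝ) := by exact_mod_cast (by omega)
      refine div_le_div_of_nonneg_right (mul_le_mul (mul_le_mul_of_nonneg_right (le_abs_self _) ν0)
        (one_div_le_one_div_of_le (by positivity) (pow_le_pow_left₀ (by positivity) g 2))
        (by positivity) (by positivity)) l0.le
  refine (abs_sum_le_sum_abs _ _).trans ((sum_le_card_nsmul _ _ _ key).trans ?_)
  rw [card_bl, nsmul_eq_mul, e3]
  set a : ℕ := 8 * (P.W₀ * W)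
  have hc : (((2 * (2 * (a * ρ)) + 1) ^ 2 : ℕ) : ℝ) ≤ (5 * (a * ρ)) ^ 2 := by
    have : 1 ≤ a * ρ := Nat.mul_pos a1 (by omega)
    exact_mod_cast Nat.pow_le_pow_left (by omega) 2
  refine (mul_le_mul_of_nonneg_right hc (by positivity)).trans (le_of_eq ?_)
  field_simp
  ring

theorem purStmt (hT : TpStmt) : PurStmt := by
  intro P hP W hW hL
  obtain ⟨C, r₁, hL⟩ := hL
  obtain ⟨D, r₂, hT⟩ := hT P hP W (by omega)
  obtain ⟨r₃, hw⟩ := win (16 * (|C| * |D|) + r₂ + 2)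
  refine ⟨max r₁ r₃, fun V hV => ?_⟩
  obtain ⟨R, hL⟩ := hL V (le_of_max_le_left hV)
  refine ⟨max R (5 * V.r), fun m ρ n F hm h1 h2 hF h0 => ?_⟩
  have W4 := hP.W2
  have e0 : W ^ n * ρ ≤ P.W₀ * (W ^ n * ρ) := Nat.le_mul_of_pos_left _ (by omega)
  obtain ⟨t1, hρ, lρ, hn⟩ := hw V.r (le_of_max_le_right hV) W ρ n hW h1 (by omega)
  change 1 ≤ V.t at t1
  change V.t / 2 ≤ _ at lρ
  change _ / V.t ≤ V.t ^ _ at hn
  have CD : 0 ≤ |C| * |D| := by positivity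
  have ρ2 : (r₂ : ℝ) + 2 ≤ ρ := by linarith
  have ρ2' : r₂ + 2 ≤ ρ := by exact_mod_cast ρ2
  have up1 : ∀ k, ρ ≤ W ^ k * ρ := fun k => Nat.le_mul_of_pos_left _ (by positivity)
  have es : ∀ k, W * (W ^ k * ρ) = W ^ (k + 1) * ρ := fun k => by ring
  have top : ∀ k < n, 128 * (P.W₀ * (W * (W ^ k * ρ))) ≤ V.r := fun k hk => by
    rw [es]
    exact le_trans (Nat.mul_le_mul_left _ (Nat.mul_le_mul_left _ (Nat.mul_le_mul_right _
      (Nat.pow_le_pow_right (by omega) hk)))) h2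
  have hFk : ∀ k, Ins V.p (W ^ k * ρ + 1) F := fun k => hF.mono (by have := up1 k; omega)
  have x0 : ∀ k, (0 : ℝ) ≤ (W ^ k * ρ : ℕ) * P.ν V (W ^ k * ρ) F := fun k =>
    mul_nonneg (Nat.cast_nonneg _) (nu_nonneg hP _ _ _)
  have W0 : (0 : ℝ) ≤ W := Nat.cast_nonneg _
  have main := rec n (fun k => (W ^ k * ρ : ℕ) * P.ν V (W ^ k * ρ) F)
    (fun k => ∑ i, |lf V m (8 * (P.W₀ * (W ^ k * ρ))) F i|) (C := |C|) (θ := (W : ℝ) ^ (-(3 / 4 : ℝ)))
    (η := 4 * |D| / V.t) (τ := V.t ^ (-(3 / 4 : ℝ))) x0 (by simp [h0]) (abs_nonneg _) (by positivity)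
    (Real.rpow_nonneg W0 _) (th_le hW) (Real.rpow_le_one_of_one_le_of_nonpos t1 (by norm_num))
    (le_trans (by
      rw [show 4 * (|C| * (4 * |D| / V.t) * n) = 16 * (|C| * |D|) * n / V.t by ring]
      exact div_le_div_of_nonneg_right (mul_le_mul_of_nonneg_right
        (by linarith [Nat.cast_nonneg (α := ℝ) r₂]) (Nat.cast_nonneg _)) (by linarith)) hn)
    (fun k hk => by
      have a := hL m (W ^ k * ρ) F (Nc.L37.Amb.mono' hm (bl_mono _ (le_max_left _ _)))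
        (h1.trans (mul_le_mul_of_nonneg_right (by exact_mod_cast up1 k) (by positivity))) (top k hk)
        (hFk k)
      rw [es] at a
      exact a.trans (add_le_add (mul_le_mul_of_nonneg_right (le_abs_self C)
        (sum_nonneg fun _ _ => abs_nonneg _)) le_rfl))
    (fun k hk => by
      have a := hT V m (W ^ k * ρ) F (by have := up1 k; omega) (top k hk)
        (Nc.L37.Amb.mono' hm (bl_mono _ (le_max_right _ _))) (hFk k)
      rw [es] at a
      have lk : V.t / 2 ≤ Real.log (W ^ k * ρ : ℕ) :=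
        lρ.trans (Real.log_le_log (by linarith [Nat.cast_nonneg (α := ℝ) r₂]) (by exact_mod_cast up1 k))
      have b : D * ((W ^ k * ρ : ℕ) * P.ν V (W ^ k * ρ) F) / Real.log (W ^ k * ρ : ℕ) ≤
          |D| * ((W ^ k * ρ : ℕ) * P.ν V (W ^ k * ρ) F) / (V.t / 2) :=
        div_le_div₀ (mul_nonneg (abs_nonneg _) (x0 k))
          (mul_le_mul_of_nonneg_right (le_abs_self D) (x0 k)) (by linarith) lk
      have c : ∀ i, |lf V m (8 * (P.W₀ * (W ^ k * ρ))) F i| ≤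
          |lf V m (8 * (P.W₀ * (W ^ (k + 1) * ρ))) F i| +
            |D| * ((W ^ k * ρ : ℕ) * P.ν V (W ^ k * ρ) F) / (V.t / 2) := fun i => by
        have := abs_sub_abs_le_abs_sub (lf V m (8 * (P.W₀ * (W ^ k * ρ))) F i)
          (lf V m (8 * (P.W₀ * (W ^ (k + 1) * ρ))) F i)
        rw [abs_sub_comm] at this
        linarith [a i]
      have d : 4 * |D| / V.t * ((W ^ k * ρ : ℕ) * P.ν V (W ^ k * ρ) F) =
          2 * (|D| * ((W ^ k * ρ : ℕ) * P.ν V (W ^ k * ρ) F) / (V.t / 2)) := by ring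
      simp only [Fin.sum_univ_two]
      linarith [c 0, c 1])
  intro k hk
  have := main k hk
  rw [Real.rpow_pow_comm W0, pow_zero, one_mul] at this
  exact this

end Crest.Agent.T145.Vx
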