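import Crest.Agent.T145.Sc_97
import Crest.Agent.T145.Slit_46
import Crest.Agent.T145.CE_56
import Crest.Agent.T145.ApiP_98
import Mathlib

-- ▼ part T145/VxInf_48
section

/-!
# Row 145 (helper48): the infinite-volume state in every seam sector

`exI Λ σ F`, `ratI Λ σ` are the limits of the Dirichlet expectations and of `Z(σ)/Z(0)` along `D ↑ ℤ²`.
-/

set_option autoImplicit false

open Finset Filter Topology

noncomputable section

namespace Crest.Agent.T145.Inf48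

/-- a seam of finite support -/
def FinS (σ : Pt × Pt → ℤ) : Prop := ∃ S : Finset (Pt × Pt), ∀ e, e ∉ S → σ e = 0

/-- a local shift invariant observable of exponential growth -/
def Lo (F : Cfg Pt → ℝ) : Prop := (∃ B, DepG B F) ∧ Tame F

/-- `Z(σ) / Z(0)` in the Dirichlet model on `D` -/
def ratD (Λ : Lat) (σ : Pt × Pt → ℤ) (D : Finset Pt) : ℝ :=
  Zs ((Λ.D D).Ws 0 σ) / Zs ((Λ.D D).W 0)

/-- its limit -/
def ratI (Λ : Lat) (σ : Pt × Pt → ℤ) : ℝ := limUnder atTop (ratD Λ σ)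

/-- the infinite-volume expectation in the sector `σ` -/
def exI (Λ : Lat) (σ : Pt × Pt → ℤ) (F : Cfg Pt → ℝ) : ℝ :=
  limUnder atTop fun D : Finset Pt => Ex ((Λ.D D).Ws 0 σ) F

theorem tend_of_mono {f : Finset Pt → ℝ} (D₀ : Finset Pt)
    (hm : ∀ D D', D₀ ⊆ D → D ⊆ D' → f D ≤ f D') {C : ℝ} (hb : ∀ D, D₀ ⊆ D → f D ≤ C) :
    ∃ l, Tendsto f atTop (𝓝 l) := by
  have h1 : Monotone fun D => f (D ∪ D₀) := fun D D' h =>
    hm _ _ subset_union_right (union_subset_union h subset_rfl)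
  refine ⟨_, (tendsto_atTop_ciSup h1 ⟨C, ?_⟩).congr' ((eventually_ge_atTop D₀).mono fun D hD => ?_)⟩
  · rintro _ ⟨D, rfl⟩
    exact hb _ subset_union_right
  · simp only [union_eq_left.2 hD]

/-- projection to the gradients on `B` -/
def pj (B : Finset Pt) (z : Pt) : Cfg Pt →+ Cfg Pt :=
  AddMonoidHom.mk' (fun s => s.filter (· ∈ B) - cst B (s z)) fun s t => by
    ext x
    simp only [Finsupp.sub_apply, Finsupp.add_apply, Finsupp.filter_apply, cst_apply]
    split_ifs <;> ring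

theorem pj_apply (B : Finset Pt) (z : Pt) (s : Cfg Pt) (x : Pt) :
    pj B z s x = if x ∈ B then s x - s z else 0 := by
  change (s.filter (· ∈ B) - cst B (s z)) x = _
  simp only [Finsupp.sub_apply, Finsupp.filter_apply, cst_apply]
  split_ifs <;> ring

variable {Λ : Lat} {B D D' : Finset Pt} {z : Pt} {σ σ' : Pt × Pt → ℤ} {F G : Cfg Pt → ℝ}

theorem dE_pj {e : Pt × Pt} (he : e ∈ Λ.edI B) (s : Cfg Pt) : dE e (pj B z s) = dE e s := by
  have h := Lat.mem_edI.1 he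
  simp only [dE, pj_apply, if_pos h.2.1, if_pos h.2.2]
  ring

theorem DepG_pj (hF : DepG B F) (z : Pt) (s : Cfg Pt) : F (pj B z s) = F s :=
  (hF s _ (-s z) fun x hx => by rw [pj_apply, if_pos hx]; ring).symm

/-- the weight outside `B` given the gradients in `B` -/
def rho (Λ : Lat) (B : Finset Pt) (z : Pt) (D : Finset Pt) (q : (Pt × Pt → ℤ) × Cfg Pt)
    (s : Cfg Pt) : ℝ :=
  ((Λ.D D).keep (Λ.edT D \ Λ.edI B)).Ws 0 q.1 s * ind (pj B z s - q.2 = 0)

/-- the weight inside `B` -/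
def cc (Λ : Lat) (B : Finset Pt) (σ : Pt × Pt → ℤ) (t : Cfg Pt) : ℝ :=
  ∏ e ∈ Λ.edI B, Λ.w (dE e t + σ e)

theorem cc_pos (h : Λ.Ok) (σ : Pt × Pt → ℤ) (t : Cfg Pt) : 0 < cc Λ B σ t :=
  prod_pos fun _ _ => h.fam.pos _

theorem key (hB : B ⊆ D) (σ : Pt × Pt → ℤ) (t s : Cfg Pt) :
    ind (pj B z s = t) * (Λ.D D).Ws 0 σ s = cc Λ B σ t * rho Λ B z D (σ, t) s := by
  have h1 : Λ.edI B ⊆ Λ.edT D := (Lat.edI_subset_edT B).trans (Lat.edT_mono hB)
  rw [rho, ind_congr sub_eq_zero, Sl46.Ws_keep (Λ.D D) (E := Λ.edT D \ Λ.edI B) sdiff_subset]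
  by_cases hs : pj B z s = t
  · have h2 : ∏ e ∈ (Λ.D D).ed \ (Λ.edT D \ Λ.edI B), (Λ.D D).w e (dE e s + σ e) = cc Λ B σ t := by
      rw [show (Λ.D D).ed = Λ.edT D from rfl, Finset.sdiff_sdiff_eq_self h1, ← hs]
      exact prod_congr rfl fun e he => by rw [dE_pj he]; rfl
    rw [h2]
    ring
  · simp [ind_neg hs]

theorem wts (h : Λ.Ok) (D : Finset Pt) (σ : Pt × Pt → ℤ) : Wt ((Λ.D D).Ws 0 σ) :=
  Md.ctr_wts (h.ctr_D D) (h.anch_D D) 0 σ

theorem ses (h : Λ.Ok) (D : Finset Pt) (σ : Pt × Pt → ℤ) : SE ((Λ.D D).Ws 0 σ) :=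
  Md.ctr_ses (h.ctr_D D) (h.anch_D D) 0 σ

theorem summable_rho (h : Λ.Ok) (hB : B ⊆ D) (q : (Pt × Pt → ℤ) × Cfg Pt) :
    Summable (rho Λ B z D q) := by
  have h1 := (summable_ind_mul (wts h D q.1).summ fun s => pj B z s = q.2).div_const (cc Λ B q.1 q.2)
  exact h1.congr fun s => by rw [key hB, mul_div_cancel_left₀ _ (cc_pos h _ _).ne']

theorem push_eq (hB : B ⊆ D) (σ : Pt × Pt → ℤ) (t : Cfg Pt) :
    push ((Λ.D D).Ws 0 σ) (pj B z) t = cc Λ B σ t * Zs (rho Λ B z D (σ, t)) := by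
  rw [push, Zs, ← tsum_mul_left]
  exact tsum_congr fun s => key hB σ t s

/-- the datum as a homomorphism -/
def dat (B : Finset Pt) (z : Pt) : Cfg Pt × ((Pt × Pt → ℤ) × Cfg Pt) →+ Cfg Pt :=
  (pj B z).comp (AddMonoidHom.fst _ _) - (AddMonoidHom.snd _ _).comp (AddMonoidHom.snd _ _)

/-- forget the datum -/
def fgt : Cfg Pt × ((Pt × Pt → ℤ) × Cfg Pt) →+ Cfg Pt × (Pt × Pt → ℤ) :=
  (AddMonoidHom.id _).prodMap (AddMonoidHom.fst _ _)

theorem rsd_rho (h : Λ.Ok) :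
    RSD fun p : Cfg Pt × ((Pt × Pt → ℤ) × Cfg Pt) => rho Λ B z D p.2 p.1 :=
  Md.rsd_mul (Md.rsd_comp (Md.ctr_rsd_seam (Sl46.ctr_keep (h.ctr_D D)
    (E := Λ.edT D \ Λ.edI B) sdiff_subset)) fgt) (Md.rsd_ind (dat B z))

theorem rho_nonneg (h : Λ.Ok) (q : (Pt × Pt → ℤ) × Cfg Pt) (s : Cfg Pt) : 0 ≤ rho Λ B z D q s :=
  (rsd_rho h).nonneg (s, q)

theorem pd_rho (h : Λ.Ok) :
    PD fun p : Cfg Pt × ((Pt × Pt → ℤ) × Cfg Pt) => rho Λ B z D p.2 p.1 := by
  have h1 := (((T145.pd_off D).comp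
    (AddMonoidHom.fst (Cfg Pt) ((Pt × Pt → ℤ) × Cfg Pt))).mul ((Sl46.pd_seam (h.ctr_D D).1
      (E := Λ.edT D \ Λ.edI B) sdiff_subset).comp fgt)).mul (pd_ind (dat B z))
  convert h1 using 2 with p
  simp only [rho, Mdl.Ws]
  rw [prod_eq_one (f := fun x => ((Λ.D D).keep _).site x (p.1 x)) fun _ _ => rfl, mul_one]
  rfl

theorem Z_nonneg (h : Λ.Ok) (q : (Pt × Pt → ℤ) × Cfg Pt) : 0 ≤ Zs (rho Λ B z D q) :=
  Zs_nonneg (rho_nonneg h q)

theorem Z_le (h : Λ.Ok) (hB : B ⊆ D) (q : (Pt × Pt → ℤ) × Cfg Pt) :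
    Zs (rho Λ B z D q) ≤ Zs (rho Λ B z D 0) :=
  ((pd_rho (z := z) (D := D) h).mg fun q => summable_rho h hB q).le q

theorem Z_pos (h : Λ.Ok) (hB : B ⊆ D) : 0 < Zs (rho Λ B z D 0) := by
  have h1 := le_push (wts h D 0).nonneg (wts h D 0).summ (pj B z) 0
  rw [map_zero, push_eq hB] at h1
  have h2 : 0 < (Λ.D D).Ws 0 0 0 :=
    Md.Ws_pos (h.ctr_D D).1 (fun _ _ => rfl) (fun _ _ => one_pos) 0
  exact (mul_pos_iff_of_pos_left (cc_pos h 0 0)).1 (h2.trans_le h1)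

theorem rho_res (hD : D ⊆ D') (hB : B ⊆ D) {q : (Pt × Pt → ℤ) × Cfg Pt}
    (hq : ∀ e ∈ Λ.edT D', e ∉ Λ.edT D → q.1 e = 0) (s : Cfg Pt) :
    rho Λ B z D' q s * ind (∀ x, x ∉ D → s x = 0) =
      Λ.w 0 ^ (Λ.edT D' \ Λ.edT D).card * rho Λ B z D q s := by
  by_cases hs : ∀ x, x ∉ D → s x = 0
  · have h1 : Λ.edI B ⊆ Λ.edT D := (Lat.edI_subset_edT B).trans (Lat.edT_mono hB)
    have h2 : Λ.edT D' \ Λ.edI B = (Λ.edT D' \ Λ.edT D) ∪ (Λ.edT D \ Λ.edI B) :=
      (sdiff_union_sdiff_cancel (Lat.edT_mono hD) h1).symm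
    have h3 : ∏ e ∈ Λ.edT D' \ Λ.edT D, Λ.w (dE e s + q.1 e) =
        Λ.w 0 ^ (Λ.edT D' \ Λ.edT D).card := by
      rw [← prod_const]
      refine prod_congr rfl fun e he => ?_
      have h4 := mem_sdiff.1 he
      have h5 := mt (fun h5 => Lat.mem_edT.2 ⟨(Lat.mem_edT.1 h4.1).1, h5⟩) h4.2
      rw [not_or] at h5
      rw [hq e h4.1 h4.2, dE, hs _ h5.1, hs _ h5.2]
      rfl
    have h4 : ∀ x, x ∉ D' → s x = 0 := fun x hx => hs x fun h => hx (hD h)
    change (ind (∀ x, x ∉ D' → s x = 0) * (∏ e ∈ Λ.edT D' \ Λ.edI B, Λ.w (dE e s + q.1 e)) *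
      ∏ _x ∈ D', (1 : ℝ)) * _ * _ = _ * ((ind (∀ x, x ∉ D → s x = 0) *
        (∏ e ∈ Λ.edT D \ Λ.edI B, Λ.w (dE e s + q.1 e)) * ∏ _x ∈ D, (1 : ℝ)) * _)
    rw [h2, prod_union (disjoint_sdiff_self_left.mono_right sdiff_subset), h3, ind_pos hs, ind_pos h4]
    simp only [prod_const_one]
    ring
  · have h1 : rho Λ B z D q s = 0 := by
      change (ind (∀ x, x ∉ D → s x = 0) * _ * _) * _ = 0
      rw [ind_neg hs, zero_mul, zero_mul, zero_mul]
    rw [ind_neg hs, h1, mul_zero, mul_zero]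

theorem Z_mono (h : Λ.Ok) (hD : D ⊆ D') (hB : B ⊆ D) {q : (Pt × Pt → ℤ) × Cfg Pt}
    (hq : ∀ e ∈ Λ.edT D', e ∉ Λ.edT D → q.1 e = 0) :
    Zs (rho Λ B z D q) / Zs (rho Λ B z D 0) ≤ Zs (rho Λ B z D' q) / Zs (rho Λ B z D' 0) := by
  have e : ∀ W : Cfg Pt → ℝ, tilt W 0 = W := fun W => funext fun s => by simp [tilt]
  have h0 : PD fun p : Cfg Pt × ((Pt × Pt → ℤ) × Cfg Pt) => ind (∀ x, x ∉ D → p.1 x = 0) :=
    (T145.pd_off D).comp (AddMonoidHom.fst (Cfg Pt) ((Pt × Pt → ℤ) × Cfg Pt))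
  have h1 := Sl46.bp2 (ρ := rho Λ B z D') (G := fun _ s => ind (∀ x, x ∉ D → s x = 0)) (rsd_rho h)
    h0 q 0 (summable_rho h (hB.trans hD) 0) (by rw [e]; exact summable_rho h (hB.trans hD) q)
  rw [e, tsum_congr (rho_res hD hB hq), tsum_congr (rho_res hD hB (q := 0) fun _ _ _ => rfl),
    tsum_mul_left, tsum_mul_left] at h1
  rw [div_le_div_iff₀ (Z_pos h hB) (Z_pos h (hB.trans hD))]
  refine le_of_mul_le_mul_left ?_ (pow_pos (h.fam.pos 0) (Λ.edT D' \ Λ.edT D).card)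
  rw [← mul_assoc, mul_left_comm]
  exact h1

theorem FinS.exists (hσ : FinS σ) (Λ : Lat) :
    ∃ D₀ : Finset Pt, ∀ D D', D₀ ⊆ D → ∀ e ∈ Λ.edT D', e ∉ Λ.edT D → σ e = 0 := by
  obtain ⟨S, hS⟩ := hσ
  exact ⟨S.image Prod.fst, fun D D' hD e he he' => hS e fun h =>
    he' (Lat.mem_edT.2 ⟨(Lat.mem_edT.1 he).1, Or.inl (hD (mem_image_of_mem _ h))⟩)⟩

theorem rho_empty (σ : Pt × Pt → ℤ) : rho Λ ∅ z D (σ, 0) = (Λ.D D).Ws 0 σ := by
  funext s
  have h1 := key (Λ := Λ) (z := z) (empty_subset D) σ 0 s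
  have h2 : Λ.edI ∅ = ∅ := eq_empty_of_forall_notMem fun e he => by simpa using Lat.mem_edI.1 he
  rw [cc, h2, prod_empty, one_mul, ind_pos (by ext x; simp [pj_apply]), one_mul] at h1
  exact h1.symm

theorem ratD_eq (σ : Pt × Pt → ℤ) (D : Finset Pt) :
    ratD Λ σ D = Zs (rho Λ ∅ 0 D (σ, 0)) / Zs (rho Λ ∅ 0 D 0) := by
  rw [ratD, rho_empty, Mdl.W_eq_Ws, show (0 : (Pt × Pt → ℤ) × Cfg Pt) = (0, 0) from rfl, rho_empty]

theorem ratD_pos (h : Λ.Ok) (σ : Pt × Pt → ℤ) (D : Finset Pt) : 0 < ratD Λ σ D :=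
  div_pos (wts h D σ).pos (h.wt_D D 0).pos

theorem ratD_le_one (h : Λ.Ok) (σ : Pt × Pt → ℤ) (D : Finset Pt) : ratD Λ σ D ≤ 1 := by
  rw [ratD_eq, div_le_one (Z_pos h (empty_subset D))]
  exact Z_le h (empty_subset D) _

theorem ratD_mono (h : Λ.Ok) (hD : D ⊆ D') (hσ : ∀ e ∈ Λ.edT D', e ∉ Λ.edT D → σ e = 0) :
    ratD Λ σ D ≤ ratD Λ σ D' := by
  rw [ratD_eq, ratD_eq]
  exact Z_mono h hD (empty_subset D) hσ

theorem tendsto_ratI (h : Λ.Ok) (hσ : FinS σ) : Tendsto (ratD Λ σ) atTop (𝓝 (ratI Λ σ)) := by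
  obtain ⟨D₀, h0⟩ := hσ.exists Λ
  exact tendsto_nhds_limUnder (tend_of_mono D₀ (fun D D' h1 h2 => ratD_mono h h2 (h0 D D' h1))
    fun D _ => ratD_le_one h σ D)

theorem ratD_le_ratI (h : Λ.Ok) (hσ : FinS σ) (hD : ∀ D', ∀ e ∈ Λ.edT D', e ∉ Λ.edT D → σ e = 0) :
    ratD Λ σ D ≤ ratI Λ σ :=
  ge_of_tendsto (tendsto_ratI h hσ) ((eventually_ge_atTop D).mono fun D' h1 => ratD_mono h h1 (hD D'))

theorem ratI_pos (h : Λ.Ok) (hσ : FinS σ) : 0 < ratI Λ σ := by
  obtain ⟨D₀, h0⟩ := hσ.exists Λ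
  exact (ratD_pos h σ D₀).trans_le (ratD_le_ratI h hσ fun D' => h0 D₀ D' subset_rfl)


/-- probability of the datum `t` -/
def pp (Λ : Lat) (B : Finset Pt) (z : Pt) (σ : Pt × Pt → ℤ) (D : Finset Pt) (t : Cfg Pt) : ℝ :=
  push ((Λ.D D).Ws 0 σ) (pj B z) t / Zs ((Λ.D D).Ws 0 σ)

theorem pp_eq (h : Λ.Ok) (hB : B ⊆ D) (t : Cfg Pt) : pp Λ B z σ D t =
    cc Λ B σ t / cc Λ B 0 0 * (Zs (rho Λ B z D (σ, t)) / Zs (rho Λ B z D 0)) *
      Ex ((Λ.D D).W 0) (fun s => ind (pj B z s = 0)) / ratD Λ σ D := by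
  have h1 := (wts h D 0).push_eq (pj B z) 0
  rw [push_eq hB, ← Mdl.W_eq_Ws, Pr] at h1
  have h2 := (h.wt_D D 0).ne
  have h3 := (wts h D σ).ne
  have h4 := (Z_pos (z := z) h hB).ne'
  have h5 := (cc_pos (B := B) h 0 0).ne'
  rw [pp, push_eq hB, ratD, ← mul_div_cancel_left₀ (Ex _ _) h2, ← h1]
  change _ = _ * _ * (_ * Zs (rho Λ B z D 0) / _) / _
  field_simp

theorem pp_le (h : Λ.Ok) (hB : B ⊆ D) (t : Cfg Pt) :
    pp Λ B z σ D t ≤ (Λ.Nr B z).Ws 0 σ t / cc Λ B 0 0 / ratD Λ σ D := by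
  by_cases ht : ∀ x, x ∉ B.erase z → t x = 0
  · have h1 : (Λ.Nr B z).Ws 0 σ t = cc Λ B σ t := by
      change ind (∀ x, x ∉ B.erase z → t x = 0) * cc Λ B σ t * ∏ _x ∈ B.erase z, (1 : ℝ) = _
      rw [ind_pos ht, prod_const_one, one_mul, mul_one]
    rw [pp_eq h hB, h1]
    refine div_le_div_of_nonneg_right ?_ (ratD_pos h σ D).le
    have h2 := div_pos (cc_pos (B := B) h σ t) (cc_pos (B := B) h 0 0)
    have h3 := div_le_one_of_le₀ (Z_le (z := z) h hB (σ, t)) (Z_nonneg h 0)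
    have h4 := div_nonneg (Z_nonneg (B := B) (z := z) (D := D) h (σ, t))
      (Z_nonneg (B := B) (z := z) (D := D) h 0)
    exact (mul_le_of_le_one_right (mul_nonneg h2.le h4) ((h.wt_D D 0).pr_le_one _)).trans
      (mul_le_of_le_one_right h2.le h3)
  · have h1 : push ((Λ.D D).Ws 0 σ) (pj B z) t = 0 := by
      refine (tsum_congr fun s => ?_).trans tsum_zero
      rw [ind_neg, zero_mul]
      rintro rfl
      refine ht fun x hx => ?_
      rw [pj_apply]
      split_ifs with h2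
      · rw [show x = z from by_contra fun h3 => hx (mem_erase.2 ⟨h3, h2⟩), sub_self]
      · rfl
    rw [pp, h1, zero_div]
    exact div_nonneg (div_nonneg (Md.Ws_nonneg (h.ctr_Nr B z).1 (Md.ctr_nn (h.ctr_Nr B z)) _ _ _)
      (cc_pos h _ _).le) (ratD_pos h σ D).le

theorem pp_nonneg (h : Λ.Ok) (t : Cfg Pt) : 0 ≤ pp Λ B z σ D t :=
  div_nonneg (push_nonneg (wts h D σ).nonneg _ _) (wts h D σ).pos.le

theorem ex_eq (h : Λ.Ok) (hF : DepG B F) :
    Ex ((Λ.D D).Ws 0 σ) F = ∑' t, pp Λ B z σ D t * F t := by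
  have h1 := (wts h D σ).ex_push (pj B z) F
  simp only [DepG_pj hF] at h1
  rw [← h1, Ex_def, Zs_push (wts h D σ).summ, ← tsum_div_const]
  exact tsum_congr fun t => by rw [pp]; ring

theorem tendsto_pp (h : Λ.Ok) (hσ : FinS σ) (t : Cfg Pt) :
    ∃ l, Tendsto (fun D => pp Λ B z σ D t) atTop (𝓝 l) := by
  obtain ⟨D₀, h0⟩ := hσ.exists Λ
  obtain ⟨a, ha⟩ := tend_of_mono (f := fun D => Zs (rho Λ B z D (σ, t)) / Zs (rho Λ B z D 0)) (D₀ ∪ B)
    (fun D D' h1 h2 => Z_mono h h2 (subset_union_right.trans h1)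
      (h0 D D' (subset_union_left.trans h1)))
    fun D h1 => div_le_one_of_le₀ (Z_le h (subset_union_right.trans h1) _) (Z_nonneg h 0)
  obtain ⟨p, hp⟩ := tend_of_mono (f := fun D => -Ex ((Λ.D D).W 0) fun s => ind (pj B z s = 0)) ∅
    (fun D D' _ h2 => neg_le_neg ((h.loc_D_D h2).2 _ (pd_ind (pj B z))))
    (C := 0) fun D _ => neg_nonpos.2 (Pr_nonneg (h.wt_D D 0).nonneg _)
  have h1 := ((ha.const_mul (cc Λ B σ t / cc Λ B 0 0)).mul hp.neg).div (tendsto_ratI h hσ)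
    (ratI_pos h hσ).ne'
  refine ⟨_, h1.congr' ((eventually_ge_atTop B).mono fun D hD => ?_)⟩
  simp only [Pi.div_apply, neg_neg]
  exact (pp_eq h hD t).symm

/-- existence of the infinite-volume limit -/
theorem tendsto_exI' (h : Λ.Ok) (hσ : FinS σ) (hF : DepG B F)
    (hI : Ig ((Λ.Nr B z).Ws 0 σ) F) :
    Tendsto (fun D => Ex ((Λ.D D).Ws 0 σ) F) atTop (𝓝 (exI Λ σ F)) := by
  refine tendsto_nhds_limUnder ?_
  obtain ⟨D₀, h0⟩ := hσ.exists Λ
  choose l hl using tendsto_pp (B := B) (z := z) h hσ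
  have h1 := (hI.abs (Md.Ws_nonneg (h.ctr_Nr B z).1 (Md.ctr_nn (h.ctr_Nr B z)) _ _))
  simp only [ex_eq (z := z) h hF]
  refine ⟨_, tendsto_tsum_of_dominated_convergence ((h1.div_const (cc Λ B 0 0)).div_const
    (ratD Λ σ D₀)) (fun t => (hl t).mul_const (F t))
    ((eventually_ge_atTop (D₀ ∪ B)).mono fun D hD t => ?_)⟩
  have h2 := (pp_le (σ := σ) (z := z) h (subset_union_right.trans hD) t).trans
    (div_le_div_of_nonneg_left (div_nonneg
      (Md.Ws_nonneg (h.ctr_Nr B z).1 (Md.ctr_nn (h.ctr_Nr B z)) _ _ _) (cc_pos h _ _).le)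
      (ratD_pos h σ D₀) (ratD_mono h (subset_union_left.trans hD) (h0 D₀ D subset_rfl)))
  rw [Real.norm_eq_abs, abs_mul, abs_of_nonneg (pp_nonneg h t)]
  exact (mul_le_mul_of_nonneg_right h2 (abs_nonneg _)).trans_eq (by ring)

theorem exists_bl (B : Finset Pt) : ∃ r, B ⊆ bl 0 r := by
  refine ⟨B.sup fun x => max x.1.natAbs x.2.natAbs, fun x hx => ?_⟩
  have h := le_sup (f := fun x : Pt => max x.1.natAbs x.2.natAbs) hx
  simp only [max_le_iff] at h
  rw [mem_bl]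
  simp only [Prod.fst_zero, Prod.snd_zero]
  omega

theorem tendsto_exI (h : Λ.Ok) (hσ : FinS σ) (hF : Lo F) :
    Tendsto (fun D => Ex ((Λ.D D).Ws 0 σ) F) atTop (𝓝 (exI Λ σ F)) := by
  obtain ⟨⟨B, hB⟩, hT⟩ := hF
  obtain ⟨r, hr⟩ := exists_bl B
  exact tendsto_exI' h hσ (hB.mono hr)
    ((Md.ctr_ses (h.ctr_Nr _ _) (h.anch_Nr_bl (self_mem_bl 0 r)) 0 σ).ig hT)

/-! ## the class `Lo` -/

theorem Lo.ig (h : Λ.Ok) (hF : Lo F) (D : Finset Pt) (σ : Pt × Pt → ℤ) : Ig ((Λ.D D).Ws 0 σ) F :=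
  (ses h D σ).ig hF.2


theorem Lo.ins (hF : Lo F) (z : Pt) : ∃ r, Ins z r F := by
  obtain ⟨⟨B, hB⟩, hT⟩ := hF
  obtain ⟨r, hr⟩ := exists_bl (insert z B)
  refine ⟨r + r, hB.mono fun x hx => ?_, hT⟩
  have h1 := mem_bl.1 (hr (mem_insert_of_mem hx))
  have h2 := mem_bl.1 (hr (mem_insert_self z B))
  simp only [Prod.fst_zero, Prod.snd_zero] at h1 h2
  rw [mem_bl]
  push_cast
  omega

theorem Lo.const (c : ℝ) : Lo fun _ => c := ⟨⟨∅, DepG.const _ _⟩, Tame.const c⟩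

theorem Lo.comp₂ (hF : Lo F) (hG : Lo G) (g : ℝ → ℝ → ℝ) (hT : Tame fun s => g (F s) (G s)) :
    Lo fun s => g (F s) (G s) :=
  let ⟨B, hB⟩ := hF.1
  let ⟨B', hB'⟩ := hG.1
  ⟨⟨B ∪ B', (hB.mono subset_union_left).comp₂ (hB'.mono subset_union_right) g⟩, hT⟩

theorem Lo.add (hF : Lo F) (hG : Lo G) : Lo fun s => F s + G s := hF.comp₂ hG _ (hF.2.add hG.2)
theorem Lo.sub (hF : Lo F) (hG : Lo G) : Lo fun s => F s - G s := hF.comp₂ hG _ (hF.2.sub hG.2)
theorem Lo.mul (hF : Lo F) (hG : Lo G) : Lo fun s => F s * G s := hF.comp₂ hG _ (hF.2.mul hG.2)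
theorem Lo.const_mul (hF : Lo F) (c : ℝ) : Lo fun s => c * F s := (Lo.const c).mul hF
theorem Lo.neg (hF : Lo F) : Lo fun s => -F s := hF.comp₂ hF (fun a _ => -a) hF.2.neg
theorem Lo.abs (hF : Lo F) : Lo fun s => |F s| := hF.comp₂ hF (fun a _ => |a|) hF.2.abs

theorem Lo.sum {ι : Type*} (T : Finset ι) {F : ι → Cfg Pt → ℝ} (h : ∀ i ∈ T, Lo (F i)) :
    Lo fun s => ∑ i ∈ T, F i s := by
  classical
  induction T using Finset.induction_on with
  | empty => simpa using Lo.const 0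
  | insert a T ha ih =>
    simp only [sum_insert ha]
    exact (h a (mem_insert_self _ _)).add (ih fun i hi => h i (mem_insert_of_mem hi))

theorem Lo.edge (e : Pt × Pt) (σ : Pt × Pt → ℤ) (g : ℤ → ℝ) (hT : Tame fun s => g (nE σ e s)) :
    Lo fun s => g (nE σ e s) :=
  ⟨⟨{e.1, e.2}, (DepG.dE (by simp) (by simp)).comp fun k => g (k + σ e)⟩, hT⟩

theorem Lo.pr {f : Pt → ℝ} (hf : ∀ x, x ∉ B → f x = 0) (h0 : ∑ x ∈ B, f x = 0) :
    Lo fun s => pr f s := ⟨⟨B, DepG.pr hf h0⟩, Tame.hom _⟩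

/-! ## calculus of `exI` -/

theorem exI_eq (h : Λ.Ok) (hσ : FinS σ) (hF : Lo F) {l : ℝ}
    (hl : Tendsto (fun D => Ex ((Λ.D D).Ws 0 σ) F) atTop (𝓝 l)) : exI Λ σ F = l :=
  tendsto_nhds_unique (tendsto_exI h hσ hF) hl

theorem exI_const (h : Λ.Ok) (hσ : FinS σ) (c : ℝ) : exI Λ σ (fun _ => c) = c :=
  exI_eq h hσ (Lo.const c) (by simpa only [(wts h _ σ).ex_const] using tendsto_const_nhds)


theorem exI_sub (h : Λ.Ok) (hσ : FinS σ) (hF : Lo F) (hG : Lo G) :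
    exI Λ σ (fun s => F s - G s) = exI Λ σ F - exI Λ σ G :=
  exI_eq h hσ (hF.sub hG) (by
    simpa only [Ex_sub (hF.ig h _ σ) (hG.ig h _ σ)] using
      (tendsto_exI h hσ hF).sub (tendsto_exI h hσ hG))

theorem exI_const_mul (h : Λ.Ok) (hσ : FinS σ) (hF : Lo F) (c : ℝ) :
    exI Λ σ (fun s => c * F s) = c * exI Λ σ F :=
  exI_eq h hσ (hF.const_mul c) (by
    simpa only [Ex_const_mul] using (tendsto_exI h hσ hF).const_mul c)


theorem exI_sum (h : Λ.Ok) (hσ : FinS σ) {ι : Type*} (T : Finset ι) {F : ι → Cfg Pt → ℝ}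
    (hF : ∀ i ∈ T, Lo (F i)) : exI Λ σ (fun s => ∑ i ∈ T, F i s) = ∑ i ∈ T, exI Λ σ (F i) :=
  exI_eq h hσ (Lo.sum T hF) (by
    simpa only [Ex_sum T fun i hi => (hF i hi).ig h _ σ] using
      tendsto_finsetSum T fun i hi => tendsto_exI h hσ (hF i hi))





theorem tendsto_faces : Tendsto faces atTop atTop := by
  refine tendsto_atTop_finset_of_monotone (fun a b hab x => ?_) fun x => ?_
  · simp only [faces, mem_sq]
    push_cast
    omega
  · obtain ⟨r, hr⟩ := exists_bl {x}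
    have h1 := mem_bl.1 (hr (mem_singleton_self _))
    simp only [Prod.fst_zero, Prod.snd_zero] at h1
    refine ⟨r + 1, ?_⟩
    simp only [faces, mem_sq]
    push_cast
    omega

/-! ## symmetries and gauge -/

theorem tendsto_map (φ : Pt ≃ Pt) :
    Tendsto (fun D : Finset Pt => D.map φ.toEmbedding) atTop atTop :=
  tendsto_atTop_finset_of_monotone (fun _ _ h => map_subset_map.2 h) fun x =>
    ⟨{φ.symm x}, by simp⟩

/-- `σ'` is the transport of `σ` along `φ` -/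
def Tr (φ : Pt ≃ Pt) (σ σ' : Pt × Pt → ℤ) : Prop :=
  ∀ e, σ' (ori φ e) = if ori φ e = (φ e.1, φ e.2) then σ e else -σ e

theorem Ws_sym (h : Λ.Ok) {φ : Pt ≃ Pt} (hφ : Λ.Sym φ) (hσ : Tr φ σ σ') (D : Finset Pt) (s : Cfg Pt) :
    (Λ.D (D.map φ.toEmbedding)).Ws 0 σ' (mapH φ s) = (Λ.D D).Ws 0 σ s := by
  have hI := hφ.iso_D h D
  have h1 := Md.iso_off hI 0 s
  rw [← mapH_eq, ← mapH_eq, map_zero] at h1
  simp only [Mdl.Ws]
  rw [ind_congr h1, hI.2.1, prod_map]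
  congr 1
  · congr 1
    refine prod_congr rfl fun e _ => ?_
    change Λ.w (dE (ori φ e) _ + σ' (ori φ e)) = Λ.w _
    rw [hσ]
    split_ifs with h2
    · rw [h2]; simp [dE]
    · rw [(ori_cases φ e).resolve_left h2, ← h.fam.even]
      congr 1
      simp only [dE, mapH_apply, Equiv.symm_apply_apply]
      ring
  · exact (prod_eq_one fun _ _ => rfl).trans (prod_eq_one fun _ _ => rfl).symm

theorem tsum_sym (h : Λ.Ok) {φ : Pt ≃ Pt} (hφ : Λ.Sym φ) (hσ : Tr φ σ σ') (D : Finset Pt)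
    (F : Cfg Pt → ℝ) : ∑' s, (Λ.D (D.map φ.toEmbedding)).Ws 0 σ' s * F s =
      ∑' s, (Λ.D D).Ws 0 σ s * F (mapH φ s) := by
  rw [← (Finsupp.domCongr φ).toEquiv.tsum_eq]
  exact tsum_congr fun s => congrArg (· * F (mapH φ s)) (Ws_sym h hφ hσ D s)

theorem Tr.finS {φ : Pt ≃ Pt} (hT : Tr φ σ σ') (hσ : FinS σ) : FinS σ' := by
  obtain ⟨S, hS⟩ := hσ
  refine ⟨S.map (ori φ).toEmbedding, fun e he => ?_⟩
  obtain ⟨e, rfl⟩ := (ori φ).surjective e
  rw [hT, hS e fun h => he (mem_map_of_mem _ h), neg_zero, ite_self]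

theorem tr_zero (φ : Pt ≃ Pt) : Tr φ 0 0 := fun e => by simp

theorem Lo.map (hF : Lo F) (φ : Pt ≃ Pt) : Lo fun s => F (mapH φ s) :=
  let ⟨B, hB⟩ := hF.1
  ⟨⟨B.map φ.symm.toEmbedding, fun _ _ k hs => hB _ _ k fun _ hx => hs _ (mem_map_of_mem _ hx)⟩,
    hF.2.comp _⟩

theorem exI_sym (h : Λ.Ok) {φ : Pt ≃ Pt} (hφ : Λ.Sym φ) (hT : Tr φ σ σ') (hσ : FinS σ) (hF : Lo F) :
    exI Λ σ (fun s => F (mapH φ s)) = exI Λ σ' F := by
  refine exI_eq h hσ (hF.map φ) (((tendsto_exI h (hT.finS hσ) hF).comp (tendsto_map φ)).congr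
    fun D => ?_)
  have h1 := tsum_sym h hφ hT D fun _ => 1
  simp only [mul_one] at h1
  simp only [Function.comp, Ex, tsum_sym h hφ hT, h1]

theorem ratI_sym (h : Λ.Ok) {φ : Pt ≃ Pt} (hφ : Λ.Sym φ) (hT : Tr φ σ σ') (hσ : FinS σ) :
    ratI Λ σ = ratI Λ σ' := by
  refine tendsto_nhds_unique (tendsto_ratI h hσ)
    (((tendsto_ratI h (hT.finS hσ)).comp (tendsto_map φ)).congr fun D => ?_)
  have h1 := tsum_sym h hφ hT D fun _ => 1
  have h2 := tsum_sym h hφ (tr_zero φ) D fun _ => 1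
  simp only [mul_one] at h1 h2
  simp only [Function.comp, ratD, Zs, Mdl.W_eq_Ws, h1, h2]

/-- the translate of a seam by `t` -/
def shS (t : Pt) (σ : Pt × Pt → ℤ) (e : Pt × Pt) : ℤ := σ (e.1 - t, e.2 - t)

theorem ori_add (t : Pt) (e : Pt × Pt) : ori (Equiv.addRight t) e = (e.1 + t, e.2 + t) :=
  if_pos (by simp)

theorem tr_shS (t : Pt) (σ : Pt × Pt → ℤ) : Tr (Equiv.addRight t) σ (shS t σ) := fun e => by
  simp [ori_add, shS]

theorem FinS.shS (hσ : FinS σ) (t : Pt) : FinS (shS t σ) := (tr_shS t σ).finS hσ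

theorem Lo.trl (hF : Lo F) (t : Pt) : Lo (trl t F) := hF.map _

theorem exI_trl (h : Λ.Ok) (hσ : FinS σ) (hF : Lo F) (t : Pt) :
    exI Λ (shS t σ) (trl t F) = exI Λ σ F := by
  rw [← exI_sym h (Λ.sym_add t) (tr_shS t σ) hσ (hF.trl t)]
  congr 1
  funext s
  rw [trl]
  congr 1
  ext x
  simp

theorem ratI_shS (h : Λ.Ok) (hσ : FinS σ) (t : Pt) : ratI Λ (shS t σ) = ratI Λ σ :=
  (ratI_sym h (Λ.sym_add t) (tr_shS t σ) hσ).symm

theorem nE_trl (t : Pt) (σ : Pt × Pt → ℤ) (e : Pt × Pt) (s : Cfg Pt) :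
    nE σ e (mapH (Equiv.subRight t) s) = nE (shS t σ) (e.1 + t, e.2 + t) s := by
  simp [nE, dE, shS]

theorem FinS.add (hσ : FinS σ) (hσ' : FinS σ') : FinS (σ + σ') :=
  let ⟨S, hS⟩ := hσ
  let ⟨S', hS'⟩ := hσ'
  ⟨S ∪ S', fun e he => by
    rw [mem_union, not_or] at he
    rw [Pi.add_apply, hS e he.1, hS' e he.2, add_zero]⟩

theorem FinS.neg (hσ : FinS σ) : FinS (-σ) :=
  let ⟨S, hS⟩ := hσ
  ⟨S, fun e he => by rw [Pi.neg_apply, hS e he, neg_zero]⟩


theorem finS_single (e : Pt × Pt) (k : ℤ) : FinS (Pi.single e k) :=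
  ⟨{e}, fun _ he => Pi.single_eq_of_ne (notMem_singleton.1 he) _⟩

theorem Ws_neg (h : Λ.Ok) (D : Finset Pt) (σ : Pt × Pt → ℤ) (s : Cfg Pt) :
    (Λ.D D).Ws 0 (-σ) (-s) = (Λ.D D).Ws 0 σ s :=
  (Md.ctr_rsd_seam (h.ctr_D D)).even (s, σ)







/-! ## change of the seam as an insertion -/

/-- the density of the sector `σ'` with respect to the sector `σ` (they agree off `S`) -/
def dens (Λ : Lat) (S : Finset (Pt × Pt)) (σ σ' : Pt × Pt → ℤ) (s : Cfg Pt) : ℝ :=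
  ∏ e ∈ S, Λ.w (nE σ' e s) / Λ.w (nE σ e s)

theorem Ws_dens (h : Λ.Ok) {S : Finset (Pt × Pt)} (hS : S ⊆ Λ.edT D) (hσ : ∀ e, e ∉ S → σ' e = σ e)
    (η s : Cfg Pt) : (Λ.D D).Ws η σ s * dens Λ S σ σ' s = (Λ.D D).Ws η σ' s := by
  have h1 : (∏ e ∈ Λ.edT D, Λ.w (dE e s + σ e)) * dens Λ S σ σ' s =
      ∏ e ∈ Λ.edT D, Λ.w (dE e s + σ' e) := by
    rw [← prod_sdiff hS, ← prod_sdiff hS, mul_assoc, dens, ← prod_mul_distrib]
    congr 1
    · exact prod_congr rfl fun e he => by rw [hσ e (mem_sdiff.1 he).2]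
    · exact prod_congr rfl fun e _ => mul_div_cancel₀ _ (h.fam.pos _).ne'
  change _ * (∏ e ∈ Λ.edT D, Λ.w (dE e s + σ e)) * _ * _ = _ * (∏ e ∈ Λ.edT D, Λ.w (dE e s + σ' e)) * _
  rw [← h1]
  ring

/-- `E_σ [dens · F] = (Z(σ') / Z(σ)) E_σ' [F]` (no growth condition on `dens` is needed) -/
theorem exI_dens (h : Λ.Ok) {S : Finset (Pt × Pt)} (hS : ∀ e ∈ S, e.2 - e.1 ∈ Λ.Jp)
    (hσσ : ∀ e, e ∉ S → σ' e = σ e) (hσ : FinS σ) (hσ' : FinS σ') (hF : Lo F) :
    Tendsto (fun D => Ex ((Λ.D D).Ws 0 σ) fun s => dens Λ S σ σ' s * F s) atTop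
        (𝓝 (ratI Λ σ' / ratI Λ σ * exI Λ σ' F)) ∧
      exI Λ σ (fun s => dens Λ S σ σ' s * F s) = ratI Λ σ' / ratI Λ σ * exI Λ σ' F := by
  have h1 : Tendsto (fun D => Ex ((Λ.D D).Ws 0 σ) fun s => dens Λ S σ σ' s * F s) atTop
      (𝓝 (ratI Λ σ' / ratI Λ σ * exI Λ σ' F)) := by
    refine (((tendsto_ratI h hσ').div (tendsto_ratI h hσ) (ratI_pos h hσ).ne').mul
      (tendsto_exI h hσ' hF)).congr' ((eventually_ge_atTop (S.image Prod.fst)).mono fun D hD => ?_)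
    have h2 : S ⊆ Λ.edT D := fun e he => Lat.mem_edT.2 ⟨hS e he, Or.inl (hD (mem_image_of_mem _ he))⟩
    have h3 := (h.wt_D D 0).ne
    have h4 := (wts h D σ).ne
    have h5 := (wts h D σ').ne
    simp only [Pi.div_apply, ratD, Ex_def, ← mul_assoc, Ws_dens h h2 hσσ]
    field_simp
  exact ⟨h1, h1.limUnder_eq⟩

end Crest.Agent.T145.Inf48
end
end

-- ▼ part T145/Vx1_35
section

/-!
# Row 145, S0198 (helper35): from second differences (cross ratios) to the asymptotics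

* `conv_of_dd` : `H r / r → 0`, dyadically summable second differences of ratio `1`, `2` and vanishing
  second differences of every ratio `j` imply that `H` converges;
* `asym_of_cross` : the form used for S0198.
-/

set_option autoImplicit false

open Filter Topology

namespace Crest.Agent.T145.Vx35

/-- second difference with base point `j t` and step `t` -/
def dd (H : ℕ → ℝ) (j t : ℕ) : ℝ := H ((j + 2) * t) - 2 * H ((j + 1) * t) + H (j * t)

theorem tendsto_pow_mul {t : ℕ} (ht : 1 ≤ t) : Tendsto (fun i : ℕ => 2 ^ i * t) atTop atTop := by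
  refine tendsto_atTop_mono (fun i => ?_) tendsto_id
  have h : i < 2 ^ i := Nat.lt_two_pow_self
  simp only [id]
  nlinarith

/-- the dyadic increment is bounded by the second differences above it -/
theorem incr_le (H e : ℕ → ℝ) (t0 : ℕ) (h0 : Tendsto (fun r : ℕ => H r / r) atTop (𝓝 0))
    (he : ∀ s t, t0 ≤ s → s ≤ t → e t ≤ e s)
    (h1 : ∀ t, t0 ≤ t → |dd H 1 t| ≤ e t ∧ |dd H 2 t| ≤ e t) (t : ℕ) (ht : t0 ≤ t) (ht1 : 1 ≤ t) :
    |H (2 * t) - H t| ≤ 3 * e t := by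
  set D : ℕ → ℝ := fun u => H (2 * u) - H u with hD
  have hrec : ∀ u, D (2 * u) = 2 * D u + (2 * dd H 1 u + dd H 2 u) := by
    intro u
    simp only [hD, dd]
    rw [show 2 * (2 * u) = (2 + 2) * u by ring, show (1 + 2) * u = (2 + 1) * u by ring,
      show (1 + 1) * u = 2 * u by ring, one_mul]
    ring
  have hstep : ∀ i : ℕ, |D t| ≤ |D (2 ^ i * t)| / 2 ^ i + 3 * e t * (1 - 1 / 2 ^ i) := by
    intro i
    induction i with
    | zero => simp
    | succ i ih =>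
      have hu : t ≤ 2 ^ i * t := Nat.le_mul_of_pos_left _ (by positivity)
      obtain ⟨a1, a2⟩ := h1 (2 ^ i * t) (ht.trans hu)
      have a3 := he t (2 ^ i * t) ht hu
      have a4 := hrec (2 ^ i * t)
      rw [show 2 * (2 ^ i * t) = 2 ^ (i + 1) * t by ring] at a4
      have a5 : |D (2 ^ i * t)| ≤ |D (2 ^ (i + 1) * t)| / 2 + 3 * e t / 2 := by
        rw [abs_le] at a1 a2 ⊢
        have b1 := le_abs_self (D (2 ^ (i + 1) * t))
        have b2 := neg_abs_le (D (2 ^ (i + 1) * t))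
        constructor <;> linarith [a1.1, a1.2, a2.1, a2.2]
      have hp : (0 : ℝ) < 2 ^ i := by positivity
      have a6 : |D (2 ^ i * t)| / 2 ^ i ≤
          (|D (2 ^ (i + 1) * t)| / 2 + 3 * e t / 2) / 2 ^ i := by gcongr
      refine ih.trans ((add_le_add_left a6 _).trans (le_of_eq ?_))
      rw [pow_succ (2 : ℝ) i]
      field_simp
      ring
  have hlim : Tendsto (fun i : ℕ => |D (2 ^ i * t)| / 2 ^ i + 3 * e t * (1 - 1 / 2 ^ i)) atTop
      (𝓝 (|(0 : ℝ) * (2 * t) - 0 * t| + 3 * e t * (1 - 0))) := by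
    refine Tendsto.add ?_ (Tendsto.const_mul _ (tendsto_const_nhds.sub ?_))
    · have c1 := (h0.comp (tendsto_pow_mul (t := 2 * t) (by omega))).mul_const (2 * t : ℝ)
      have c2 := (h0.comp (tendsto_pow_mul ht1)).mul_const (t : ℝ)
      refine ((c1.sub c2).abs).congr fun i => ?_
      have hp : (0 : ℝ) < 2 ^ i := by positivity
      have htp : (0 : ℝ) < t := by exact_mod_cast ht1
      simp only [hD, Function.comp]
      rw [show 2 * (2 ^ i * t) = 2 ^ i * (2 * t) by ring, ← abs_of_pos hp, ← abs_div]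
      congr 1
      push_cast
      field_simp
    · simpa [one_div, ← inv_pow] using
        tendsto_pow_atTop_nhds_zero_of_lt_one (r := (2 : ℝ)⁻¹) (by norm_num) (by norm_num)
  have := ge_of_tendsto' hlim hstep
  simpa using this

theorem conv_of_dd (H e : ℕ → ℝ) (t0 : ℕ) (h0 : Tendsto (fun r : ℕ => H r / r) atTop (𝓝 0))
    (he : ∀ s t, t0 ≤ s → s ≤ t → e t ≤ e s) (hs : Summable fun i : ℕ => e (2 ^ i))
    (h1 : ∀ t, t0 ≤ t → |dd H 1 t| ≤ e t ∧ |dd H 2 t| ≤ e t)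
    (h2 : ∀ j, 1 ≤ j → Tendsto (dd H j) atTop (𝓝 0)) : ∃ l, Tendsto H atTop (𝓝 l) := by
  have e0 : ∀ t, t0 ≤ t → 0 ≤ e t := fun t ht => (abs_nonneg _).trans (h1 t ht).1
  -- the increments along `2 ^ i * t`
  have hinc : ∀ t k i : ℕ, t0 ≤ 2 ^ k → 2 ^ k ≤ t →
      dist (H (2 ^ i * t)) (H (2 ^ (i + 1) * t)) ≤ 3 * e (2 ^ (i + k)) := by
    intro t k i hk ht
    have hp : 1 ≤ 2 ^ i := Nat.one_le_two_pow
    have hk1 : 1 ≤ 2 ^ k := Nat.one_le_two_pow
    have a1 : 2 ^ (i + k) ≤ 2 ^ i * t := by rw [pow_add]; exact Nat.mul_le_mul_left _ ht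
    have a2 : 2 ^ k ≤ 2 ^ (i + k) := by rw [pow_add]; exact Nat.le_mul_of_pos_left _ hp
    have a3 := incr_le H e t0 h0 he h1 (2 ^ i * t) (by omega) (by omega)
    rw [Real.dist_eq, abs_sub_comm, show 2 ^ (i + 1) * t = 2 * (2 ^ i * t) by ring]
    have a4 := he _ _ (hk.trans a2) a1
    linarith
  have hsk : ∀ k : ℕ, Summable fun i : ℕ => 3 * e (2 ^ (i + k)) := fun k =>
    ((summable_nat_add_iff (f := fun i : ℕ => e (2 ^ i)) k).2 hs).mul_left 3
  obtain ⟨k0, hk0⟩ : ∃ k0 : ℕ, t0 ≤ 2 ^ k0 := ⟨t0, Nat.lt_two_pow_self.le⟩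
  have hlim : ∀ t, 2 ^ k0 ≤ t → ∃ l, Tendsto (fun i : ℕ => H (2 ^ i * t)) atTop (𝓝 l) := by
    intro t ht
    exact cauchySeq_tendsto_of_complete
      (cauchySeq_of_dist_le_of_summable _ (fun i => hinc t k0 i hk0 ht) (hsk k0))
  choose! lam hlam using hlim
  -- the limit does not depend on `t`
  have hsucc : ∀ r, 2 ^ k0 ≤ r → lam (r + 1) = lam r := by
    intro r hr
    have hr1 : 1 ≤ r := Nat.one_le_two_pow.trans hr
    have hu : Tendsto (fun i : ℕ => 2 ^ i) atTop atTop := by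
      simpa using tendsto_pow_mul (le_refl 1)
    have hA : ∀ q : ℕ, Tendsto (fun i : ℕ => H (2 ^ i * (r + q + 1)) - H (2 ^ i * (r + q))) atTop
        (𝓝 (lam (r + 1) - lam r)) := by
      intro q
      induction q with
      | zero => exact (hlam (r + 1) (by omega)).sub (hlam r hr)
      | succ q ih =>
        have := ih.add ((h2 (r + q) (by omega)).comp hu)
        rw [add_zero] at this
        refine this.congr fun i => ?_
        simp only [Function.comp, dd]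
        rw [show (r + q + 2) * 2 ^ i = 2 ^ i * (r + (q + 1) + 1) by ring,
          show (r + q + 1) * 2 ^ i = 2 ^ i * (r + q + 1) by ring,
          show (r + q) * 2 ^ i = 2 ^ i * (r + q) by ring,
          show r + (q + 1) = r + q + 1 by ring]
        ring
    have hB : ∀ q : ℕ, lam (r + q) = lam r + q * (lam (r + 1) - lam r) := by
      intro q
      induction q with
      | zero => simp
      | succ q ih =>
        have b1 := (hlam (r + q + 1) (by omega)).sub (hlam (r + q) (by omega))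
        have b2 := tendsto_nhds_unique b1 (hA q)
        rw [← add_assoc]
        push_cast
        linarith
    have hC : lam (r + r) = lam r := by
      have b1 := hlam (r + r) (by omega)
      have b2 := (tendsto_add_atTop_iff_nat (f := fun i : ℕ => H (2 ^ i * r)) 1).2 (hlam r hr)
      refine tendsto_nhds_unique b1 (b2.congr fun i => ?_)
      congr 1
      ring
    have b3 := hB r
    rw [hC] at b3
    have b4 : (0 : ℝ) < r := by exact_mod_cast hr1
    have b5 : (r : ℝ) * (lam (r + 1) - lam r) = 0 := by linarith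
    rcases mul_eq_zero.1 b5 with b6 | b6
    · linarith
    · linarith
  have hconst : ∀ r, 2 ^ k0 ≤ r → lam r = lam (2 ^ k0) := by
    intro r hr
    induction r, hr using Nat.le_induction with
    | base => rfl
    | succ r hr ih => rw [hsucc r hr, ih]
  refine ⟨lam (2 ^ k0), Metric.tendsto_atTop.2 fun ε hε => ?_⟩
  have htail : Tendsto (fun k : ℕ => 3 * ∑' i : ℕ, e (2 ^ (i + k))) atTop (𝓝 (3 * 0)) :=
    (tendsto_sum_nat_add (fun i : ℕ => e (2 ^ i))).const_mul 3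
  rw [mul_zero] at htail
  obtain ⟨k, hk1, hk2⟩ := ((htail.eventually (gt_mem_nhds hε)).and (eventually_ge_atTop k0)).exists
  have hkk : 2 ^ k0 ≤ 2 ^ k := Nat.pow_le_pow_right (by norm_num) hk2
  refine ⟨2 ^ k, fun r hr => ?_⟩
  have b1 := dist_le_tsum_of_dist_le_of_tendsto₀ _ (fun i => hinc r k i (hk0.trans hkk) hr) (hsk k)
    (hlam r (hkk.trans hr))
  rw [tsum_mul_left, hconst r (hkk.trans hr)] at b1
  simp only [pow_zero, one_mul] at b1
  exact b1.trans_lt hk1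

theorem log_add_sub {u a : ℝ} (hu : 0 < u) (ha : 0 ≤ a) :
    |Real.log (u + a) - Real.log u - a / u| ≤ (a / u) ^ 2 := by
  have hx : 0 ≤ a / u := by positivity
  have h1 : Real.log (u + a) - Real.log u = Real.log (1 + a / u) := by
    rw [← Real.log_div (by positivity) hu.ne']
    congr 1
    field_simp
  rw [h1]
  have h2 := Real.log_le_sub_one_of_pos (show 0 < 1 + a / u by positivity)
  have h3 := Real.one_sub_inv_le_log_of_pos (show 0 < 1 + a / u by positivity)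
  have h4 : a / u - (a / u) ^ 2 ≤ 1 - (1 + a / u)⁻¹ := by
    set x := a / u
    have : 1 - (1 + x)⁻¹ = x / (1 + x) := by field_simp; ring
    rw [this, le_div_iff₀ (by positivity)]
    nlinarith [pow_nonneg hx 3]
  rw [abs_le]
  constructor <;> nlinarith [sq_nonneg (a / u)]

/-- the normalised logarithm -/
noncomputable def HH (C : ℕ → ℝ) (r : ℕ) : ℝ :=
  Real.log (C r) + Real.log r / 4 - Real.log (Real.log r) / 8

/-- the Gaussian cross ratio of the four points -/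
noncomputable def xr (j : ℕ) : ℝ := Real.log (((j : ℝ) + 2) * j / ((j : ℝ) + 1) ^ 2)

theorem dd_HH (C : ℕ → ℝ) {j t : ℕ} (hj : 1 ≤ j) (ht : 2 ≤ t) :
    |dd (HH C) j t - (dd (fun r => Real.log (C r)) j t + (1 / 4 - 1 / (8 * Real.log t)) * xr j)| ≤
      Real.log (j + 2) ^ 2 / Real.log t ^ 2 := by
  have hj' : (1 : ℝ) ≤ j := by exact_mod_cast hj
  have ht' : (2 : ℝ) ≤ t := by exact_mod_cast ht
  have hu : 0 < Real.log t := Real.log_pos (by linarith)
  set u := Real.log t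
  have l0 : Real.log ((j * t : ℕ) : ℝ) = u + Real.log j := by
    push_cast; rw [Real.log_mul (by positivity) (by positivity)]; ring
  have l1 : Real.log (((j + 1) * t : ℕ) : ℝ) = u + Real.log (j + 1) := by
    push_cast; rw [Real.log_mul (by positivity) (by positivity)]; ring
  have l2 : Real.log (((j + 2) * t : ℕ) : ℝ) = u + Real.log (j + 2) := by
    push_cast; rw [Real.log_mul (by positivity) (by positivity)]; ring
  have hx : xr j = Real.log (j + 2) - 2 * Real.log (j + 1) + Real.log j := by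
    unfold xr
    rw [Real.log_div (by positivity) (by positivity), Real.log_mul (by positivity) (by positivity),
      Real.log_pow]
    push_cast
    ring
  have p0 : 0 ≤ Real.log j := Real.log_nonneg hj'
  have p1 : Real.log j ≤ Real.log (j + 1) := Real.log_le_log (by linarith) (by linarith)
  have p2 : Real.log (j + 1) ≤ Real.log (j + 2) := Real.log_le_log (by linarith) (by linarith)
  have q0 := log_add_sub hu p0
  have q1 := log_add_sub hu (p0.trans p1)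
  have q2 := log_add_sub hu ((p0.trans p1).trans p2)
  have r0 : (Real.log j / u) ^ 2 ≤ (Real.log (j + 2) / u) ^ 2 := by gcongr; linarith
  have r1 : (Real.log (j + 1) / u) ^ 2 ≤ (Real.log (j + 2) / u) ^ 2 := by
    have := p0.trans p1
    gcongr
  simp only [dd, HH]
  rw [l0, l1, l2, hx, ← div_pow]
  have e1 : (1 / 4 - 1 / (8 * u)) * (Real.log (j + 2) - 2 * Real.log (j + 1) + Real.log j) =
      (Real.log (j + 2) - 2 * Real.log (j + 1) + Real.log j) / 4 -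
        (Real.log (j + 2) / u - 2 * (Real.log (j + 1) / u) + Real.log j / u) / 8 := by
    field_simp
  rw [e1]
  rw [abs_le] at q0 q1 q2 ⊢
  have := sq_nonneg (Real.log (j + 2) / u)
  constructor <;> linarith [q0.1, q0.2, q1.1, q1.2, q2.1, q2.2]

theorem tendsto_log_rpow {p : ℝ} (hp : 0 < p) :
    Tendsto (fun t : ℕ => Real.log t ^ (-p)) atTop (𝓝 0) :=
  (tendsto_rpow_neg_atTop hp).comp (Real.tendsto_log_atTop.comp tendsto_natCast_atTop_atTop)

theorem summable_log_rpow {p : ℝ} (hp : 1 < p) :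
    Summable fun i : ℕ => Real.log ((2 ^ i : ℕ) : ℝ) ^ (-p) := by
  have h := (Real.summable_nat_rpow.2 (show -p < -1 by linarith)).mul_right (Real.log 2 ^ (-p))
  refine h.congr fun i => ?_
  push_cast
  rw [Real.log_pow, Real.mul_rpow (Nat.cast_nonneg i) (Real.log_nonneg (by norm_num))]

/-- **cross ratios give the asymptotics of S0198** -/
theorem asym_of_cross (C : ℕ → ℝ) (δ : ℝ) (hδ : 0 < δ) (hpos : ∀ᶠ r in atTop, 0 < C r)
    (h0 : Tendsto (fun r : ℕ => -Real.log (C r) / r) atTop (𝓝 0))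
    (hX : ∀ j, 1 ≤ j → ∃ K : ℝ, ∀ᶠ t : ℕ in atTop,
      |dd (fun r => Real.log (C r)) j t + (1 / 4 - 1 / (8 * Real.log t)) * xr j| ≤
        K * Real.log t ^ (-(1 + δ))) :
    ∃ B : ℝ, 0 < B ∧ Tendsto (fun r : ℕ => C r * (r : ℝ) ^ ((1 : ℝ) / 4) /
      Real.log r ^ ((1 : ℝ) / 8)) atTop (𝓝 B) := by
  have hb : ∀ j, 1 ≤ j → ∃ K : ℝ, 0 ≤ K ∧ ∀ᶠ t : ℕ in atTop, |dd (HH C) j t| ≤
      K * (Real.log t ^ (-(1 + δ)) + Real.log t ^ (-(2 : ℝ))) := by
    intro j hj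
    obtain ⟨K, hK⟩ := hX j hj
    refine ⟨|K| + Real.log (j + 2) ^ 2, by positivity, ?_⟩
    filter_upwards [hK, eventually_ge_atTop 2] with t a1 a2
    have a3 := dd_HH C hj a2
    have ht' : (2 : ℝ) ≤ t := by exact_mod_cast a2
    have hu : 0 < Real.log t := Real.log_pos (by linarith)
    have a4 : Real.log t ^ (-(2 : ℝ)) = (Real.log t ^ 2)⁻¹ := by
      rw [Real.rpow_neg hu.le, Real.rpow_two]
    have a5 : 0 ≤ Real.log t ^ (-(1 + δ)) := Real.rpow_nonneg hu.le _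
    have a6 : 0 ≤ (Real.log t ^ 2)⁻¹ := by positivity
    have a7 : K * Real.log t ^ (-(1 + δ)) ≤ |K| * Real.log t ^ (-(1 + δ)) := by
      gcongr; exact le_abs_self K
    rw [a4]
    rw [div_eq_mul_inv (Real.log (j + 2) ^ 2)] at a3
    have a8 := mul_nonneg (abs_nonneg K) a6
    have a9 := mul_nonneg (sq_nonneg (Real.log (j + 2))) a5
    rw [abs_le] at a1 a3 ⊢
    constructor <;> nlinarith [a1.1, a1.2, a3.1, a3.2]
  have hz : Tendsto (fun t : ℕ => Real.log t ^ (-(1 + δ)) + Real.log t ^ (-(2 : ℝ))) atTop (𝓝 0) := by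
    simpa using (tendsto_log_rpow (show 0 < 1 + δ by linarith)).add
      (tendsto_log_rpow (show (0 : ℝ) < 2 by norm_num))
  obtain ⟨K1, hK1, b1⟩ := hb 1 le_rfl
  obtain ⟨K2, hK2, b2⟩ := hb 2 (by norm_num)
  obtain ⟨t0, ht0⟩ := eventually_atTop.1 (b1.and (b2.and (eventually_ge_atTop 2)))
  have hH0 : Tendsto (fun r : ℕ => HH C r / r) atTop (𝓝 0) := by
    have c1 : Tendsto (fun r : ℕ => Real.log r / r) atTop (𝓝 0) := by
      simpa [Function.comp_def] using (Real.isLittleO_log_id_atTop.tendsto_div_nhds_zero).comp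
        tendsto_natCast_atTop_atTop
    have c2 : Tendsto (fun r : ℕ => Real.log (Real.log r) / Real.log r) atTop (𝓝 0) := by
      simpa [Function.comp_def] using (Real.isLittleO_log_id_atTop.tendsto_div_nhds_zero).comp
        (Real.tendsto_log_atTop.comp tendsto_natCast_atTop_atTop)
    have c3 := ((h0.neg).add (c1.div_const 4)).sub ((c2.mul c1).div_const 8)
    simp only [neg_zero, zero_div, add_zero, mul_zero, sub_zero] at c3
    refine c3.congr' ?_
    filter_upwards [eventually_ge_atTop 2] with r hr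
    have hr' : (2 : ℝ) ≤ r := by exact_mod_cast hr
    have hu : 0 < Real.log r := Real.log_pos (by linarith)
    unfold HH
    field_simp
  obtain ⟨l, hl⟩ := conv_of_dd (HH C)
    (fun t => (K1 + K2) * (Real.log t ^ (-(1 + δ)) + Real.log t ^ (-(2 : ℝ)))) t0 hH0
    (fun s t hs hst => by
      have hs' : (2 : ℝ) ≤ s := by exact_mod_cast (ht0 s hs).2.2
      have hst' : (s : ℝ) ≤ t := by exact_mod_cast hst
      have hu : 0 < Real.log s := Real.log_pos (by linarith)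
      have hv : Real.log s ≤ Real.log t := Real.log_le_log (by linarith) hst'
      have d1 := Real.rpow_le_rpow_of_nonpos hu hv (show -(1 + δ) ≤ 0 by linarith)
      have d2 := Real.rpow_le_rpow_of_nonpos hu hv (show -(2 : ℝ) ≤ 0 by norm_num)
      have d3 : 0 ≤ K1 + K2 := by positivity
      exact mul_le_mul_of_nonneg_left (add_le_add d1 d2) d3)
    (((summable_log_rpow (show 1 < 1 + δ by linarith)).add
      (summable_log_rpow (show (1 : ℝ) < 2 by norm_num))).mul_left _)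
    (fun t ht => by
      obtain ⟨d1, d2, d3⟩ := ht0 t ht
      have ht' : (2 : ℝ) ≤ t := by exact_mod_cast d3
      have hu : 0 < Real.log t := Real.log_pos (by linarith)
      have d4 : 0 ≤ Real.log t ^ (-(1 + δ)) + Real.log t ^ (-(2 : ℝ)) :=
        add_nonneg (Real.rpow_nonneg hu.le _) (Real.rpow_nonneg hu.le _)
      constructor <;> nlinarith)
    (fun j hj => by
      obtain ⟨K, _, hK⟩ := hb j hj
      have d1 := hz.const_mul K
      rw [mul_zero] at d1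
      exact squeeze_zero_norm' hK d1)
  refine ⟨Real.exp l, Real.exp_pos l, ((Real.continuous_exp.tendsto l).comp hl).congr' ?_⟩
  filter_upwards [hpos, eventually_ge_atTop 2] with r a1 a2
  have hr' : (2 : ℝ) ≤ r := by exact_mod_cast a2
  have hu : 0 < Real.log r := Real.log_pos (by linarith)
  simp only [Function.comp, HH]
  rw [Real.exp_sub, Real.exp_add, Real.exp_log a1, Real.rpow_def_of_pos (by linarith),
    Real.rpow_def_of_pos hu]
  simp only [div_eq_mul_inv, one_mul]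

end Crest.Agent.T145.Vx35
end

-- ▼ part T145/VxSum_34

/-!
# Row 145, S0198 (helper34): from the MICRO cross ratios to the asymptotics

`d2 H r = H (r+2) - 2 H (r+1) + H r`; `asym_of_micro`: if `r² d2 (log C) r = 1/4 - 1/(8 log r) + O (log^{-1-δ} r)`
then the conclusion of S0198 holds.
-/

set_option autoImplicit false

open Filter Topology Finset

namespace Crest.Agent.T145.Vx34

open Vx35

/-- unit second difference -/
def d2 (H : ℕ → ℝ) (r : ℕ) : ℝ := H (r + 2) - 2 * H (r + 1) + H r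

theorem sum_d2 (H : ℕ → ℝ) (r t : ℕ) :
    ∑ b ∈ range t, d2 H (r + b) = (H (r + t + 1) - H (r + t)) - (H (r + 1) - H r) := by
  induction t with
  | zero => simp
  | succ t ih =>
    rw [sum_range_succ, ih]
    simp only [d2]
    rw [show r + (t + 1) + 1 = r + t + 2 by ring, show r + (t + 1) = r + t + 1 by ring]
    ring

theorem sum_sum_d2 (H : ℕ → ℝ) (r s t : ℕ) :
    ∑ a ∈ range s, ∑ b ∈ range t, d2 H (r + a + b) =
      H (r + s + t) - H (r + s) - H (r + t) + H r := by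
  induction s with
  | zero => simp
  | succ s ih =>
    rw [sum_range_succ, ih, sum_d2]
    rw [show r + (s + 1) + t = r + s + t + 1 by ring, show r + (s + 1) = r + s + 1 by ring]
    ring

theorem dd_eq_sum (H : ℕ → ℝ) (j t : ℕ) :
    dd H j t = ∑ a ∈ range t, ∑ b ∈ range t, d2 H (j * t + a + b) := by
  rw [sum_sum_d2, dd, show (j + 2) * t = j * t + t + t by ring, show (j + 1) * t = j * t + t by ring]
  ring

theorem xr_eq_dd {j t : ℕ} (hj : 1 ≤ j) (ht : 1 ≤ t) :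
    xr j = dd (fun r => Real.log r) j t := by
  have hj' : (1 : ℝ) ≤ j := by exact_mod_cast hj
  have ht' : (1 : ℝ) ≤ t := by exact_mod_cast ht
  simp only [xr, dd]
  push_cast
  rw [Real.log_div (by positivity) (by positivity), Real.log_mul (by positivity) (by positivity),
    Real.log_pow, Real.log_mul (by positivity) (by positivity),
    Real.log_mul (by positivity) (by positivity), Real.log_mul (by positivity) (by positivity)]
  push_cast
  ring

theorem d2_log {r : ℕ} (hr : 1 ≤ r) :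
    |d2 (fun r => Real.log r) r + 1 / (r : ℝ) ^ 2| ≤ 4 / (r : ℝ) ^ 3 := by
  have hr' : (1 : ℝ) ≤ r := by exact_mod_cast hr
  obtain ⟨x, hx⟩ : ∃ x : ℝ, x = r := ⟨_, rfl⟩
  have e : d2 (fun r => Real.log r) r = -Real.log (1 + 1 / (x * (x + 2))) := by
    simp only [d2]
    push_cast
    rw [← hx] at hr' ⊢
    rw [show 1 + 1 / (x * (x + 2)) = (x + 1) ^ 2 / (x * (x + 2)) by field_simp; ring,
      Real.log_div (by positivity) (by positivity), Real.log_mul (by positivity) (by positivity),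
      Real.log_pow]
    push_cast
    ring
  rw [← hx] at hr' ⊢
  have h := log_add_sub (u := 1) (a := 1 / (x * (x + 2))) one_pos (by positivity)
  rw [Real.log_one, sub_zero, div_one] at h
  have h1 : (1 / (x * (x + 2))) ^ 2 ≤ 1 / x ^ 3 := by
    rw [div_pow, one_pow]
    apply one_div_le_one_div_of_le (by positivity)
    nlinarith [mul_nonneg (pow_nonneg (show 0 ≤ x by linarith) 3) (show 0 ≤ x + 3 by linarith),
      pow_nonneg (show 0 ≤ x by linarith) 2]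
  have h2 : 1 / x ^ 2 - 1 / (x * (x + 2)) = 2 / (x ^ 2 * (x + 2)) := by field_simp; ring
  have h3 : 2 / (x ^ 2 * (x + 2)) ≤ 2 / x ^ 3 := by
    apply div_le_div_of_nonneg_left (by norm_num) (by positivity)
    nlinarith [pow_nonneg (show 0 ≤ x by linarith) 2]
  have h4 : 0 ≤ 2 / (x ^ 2 * (x + 2)) := by positivity
  have h5 : 4 / x ^ 3 = 4 * (1 / x ^ 3) := by ring
  have h6 : 2 / x ^ 3 = 2 * (1 / x ^ 3) := by ring
  have h7 : 0 ≤ 1 / x ^ 3 := by positivity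
  rw [e, abs_le] at *
  constructor <;> linarith [h.1, h.2]

theorem inv_le_log_rpow (p : ℝ) : ∀ᶠ t : ℕ in atTop, 1 / (t : ℝ) ≤ Real.log t ^ (-p) := by
  have h := (isLittleO_log_rpow_rpow_atTop p (show (0 : ℝ) < 1 by norm_num)).bound one_pos
  filter_upwards [tendsto_natCast_atTop_atTop.eventually h, eventually_ge_atTop 2] with t a1 a2
  have ht : (2 : ℝ) ≤ t := by exact_mod_cast a2
  have hu : 0 < Real.log t := Real.log_pos (by linarith)
  rw [Real.rpow_one, one_mul, Real.norm_of_nonneg (Real.rpow_nonneg hu.le _),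
    Real.norm_of_nonneg (by linarith)] at a1
  rw [Real.rpow_neg hu.le, one_div]
  exact inv_anti₀ (Real.rpow_pos_of_pos hu _) a1

/-- **micro cross ratios give the asymptotics of S0198** -/
theorem asym_of_micro (C : ℕ → ℝ) (δ K : ℝ) (hδ : 0 < δ) (hpos : ∀ᶠ r in atTop, 0 < C r)
    (h0 : Tendsto (fun r : ℕ => -Real.log (C r) / r) atTop (𝓝 0))
    (hX : ∀ᶠ r : ℕ in atTop,
      |(r : ℝ) ^ 2 * d2 (fun r => Real.log (C r)) r - (1 / 4 - 1 / (8 * Real.log r))| ≤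
        K * Real.log r ^ (-(1 + δ))) :
    ∃ B : ℝ, 0 < B ∧ Tendsto (fun r : ℕ => C r * (r : ℝ) ^ ((1 : ℝ) / 4) /
      Real.log r ^ ((1 : ℝ) / 8)) atTop (𝓝 B) := by
  obtain ⟨r0, hr0⟩ := eventually_atTop.1 hX
  set δ' := min δ 1 with hδ'
  have hδ'0 : 0 < δ' := lt_min hδ one_pos
  refine asym_of_cross C δ' hδ'0 hpos h0 fun j hj => ⟨|K| + Real.log (j + 2) + 4, ?_⟩
  filter_upwards [inv_le_log_rpow (1 + δ'), eventually_ge_atTop r0, eventually_ge_atTop 3] with t a1 a2 a3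
  have ht : (3 : ℝ) ≤ t := by exact_mod_cast a3
  have hj' : (1 : ℝ) ≤ j := by exact_mod_cast hj
  have hu : 1 ≤ Real.log t := by
    rw [Real.le_log_iff_exp_le (by linarith)]
    exact (Real.exp_one_lt_d9.le.trans (by norm_num)).trans ht
  set u := Real.log t with hudef
  set ε := u ^ (-(1 + δ')) with hε
  have hε0 : 0 ≤ ε := Real.rpow_nonneg (by linarith) _
  have hl0 : 0 ≤ Real.log ((j : ℝ) + 2) := Real.log_nonneg (by linarith)
  have key : ∀ a ∈ range t, ∀ b ∈ range t,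
      |d2 (fun r => Real.log (C r)) (j * t + a + b) +
        (1 / 4 - 1 / (8 * u)) * d2 (fun r => Real.log r) (j * t + a + b)| ≤
        (|K| + Real.log (j + 2) + 4) * ε / (t : ℝ) ^ 2 := by
    intro a ha b hb
    rw [mem_range] at ha hb
    set r := j * t + a + b with hr
    have hrt : t ≤ r := by
      have : t ≤ j * t := Nat.le_mul_of_pos_left _ hj
      omega
    have hrt' : (t : ℝ) ≤ r := by exact_mod_cast hrt
    have hr2 : (r : ℝ) ≤ (j + 2) * t := by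
      have : r ≤ (j + 2) * t := by rw [add_mul]; omega
      exact_mod_cast this
    have hv : u ≤ Real.log r := Real.log_le_log (by linarith) hrt'
    have hv2 : Real.log r ≤ Real.log (j + 2) + u := by
      rw [hudef, ← Real.log_mul (by positivity) (by positivity)]
      exact Real.log_le_log (by linarith) hr2
    set v := Real.log r with hvdef
    have b1 := hr0 r (a2.trans hrt)
    have b2 := d2_log (r := r) (by omega)
    have b3 : v ^ (-(1 + δ)) ≤ ε := by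
      refine (Real.rpow_le_rpow_of_nonpos (by linarith) hv (by linarith)).trans ?_
      exact Real.rpow_le_rpow_of_exponent_le hu (by linarith [min_le_left δ 1])
    have b4 : K * v ^ (-(1 + δ)) ≤ |K| * ε :=
      (mul_le_mul_of_nonneg_right (le_abs_self K) (Real.rpow_nonneg (by linarith) _)).trans
        (mul_le_mul_of_nonneg_left b3 (abs_nonneg K))
    have b5 : 1 / u ^ 2 ≤ ε := by
      have : u ^ (-(2 : ℝ)) ≤ ε :=
        Real.rpow_le_rpow_of_exponent_le hu (by linarith [min_le_right δ 1])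
      rwa [Real.rpow_neg (by linarith), Real.rpow_two, ← one_div] at this
    have b6 : |1 / (8 * u) - 1 / (8 * v)| ≤ Real.log (j + 2) * ε := by
      have e1 : 1 / (8 * u) - 1 / (8 * v) = (v - u) / (8 * (u * v)) := by
        have : u ≠ 0 := by linarith
        have : v ≠ 0 := by linarith
        field_simp
      have e2 : (v - u) / (8 * (u * v)) ≤ Real.log (j + 2) * (1 / u ^ 2) := by
        rw [mul_one_div]
        apply div_le_div₀ hl0 (by linarith) (by positivity)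
        nlinarith
      rw [e1, abs_of_nonneg (div_nonneg (by linarith) (by nlinarith))]
      exact e2.trans (mul_le_mul_of_nonneg_left b5 hl0)
    have b7 : |1 / 4 - 1 / (8 * u)| ≤ 1 := by
      have : 0 < 1 / (8 * u) := by positivity
      have : 1 / (8 * u) ≤ 1 := by
        rw [div_le_one (by positivity)]; linarith
      rw [abs_le]; constructor <;> linarith
    have hrp : (0 : ℝ) < r := by linarith
    set X := d2 (fun r => Real.log (C r)) r
    set Y := d2 (fun r => Real.log r) r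
    have e3 : X + (1 / 4 - 1 / (8 * u)) * Y =
        (((r : ℝ) ^ 2 * X - (1 / 4 - 1 / (8 * v))) + (1 / (8 * u) - 1 / (8 * v)) +
          (1 / 4 - 1 / (8 * u)) * ((r : ℝ) ^ 2 * (Y + 1 / (r : ℝ) ^ 2))) / (r : ℝ) ^ 2 := by
      field_simp
      ring
    have b8 : |(r : ℝ) ^ 2 * (Y + 1 / (r : ℝ) ^ 2)| ≤ 4 * ε := by
      rw [abs_mul, abs_of_pos (by positivity)]
      calc (r : ℝ) ^ 2 * |Y + 1 / (r : ℝ) ^ 2| ≤ (r : ℝ) ^ 2 * (4 / (r : ℝ) ^ 3) := by gcongr
        _ = 4 * (1 / (r : ℝ)) := by field_simp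
        _ ≤ 4 * (1 / (t : ℝ)) := by gcongr
        _ ≤ 4 * ε := by gcongr
    have b9 : |(1 / 4 - 1 / (8 * u)) * ((r : ℝ) ^ 2 * (Y + 1 / (r : ℝ) ^ 2))| ≤ 4 * ε := by
      rw [abs_mul]
      calc _ ≤ 1 * (4 * ε) := by gcongr
        _ = 4 * ε := one_mul _
    rw [e3, abs_div, abs_of_pos (show (0 : ℝ) < (r : ℝ) ^ 2 by positivity)]
    apply div_le_div₀ (by positivity) _ (by positivity) (by gcongr)
    refine (abs_add_le _ _).trans ((add_le_add_left (abs_add_le _ _) _).trans ?_)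
    have b10 : |(r : ℝ) ^ 2 * X - (1 / 4 - 1 / (8 * v))| ≤ |K| * ε := b1.trans b4
    nlinarith
  rw [xr_eq_dd hj (show 1 ≤ t by omega), dd_eq_sum, dd_eq_sum, mul_sum, ← sum_add_distrib]
  refine (abs_sum_le_sum_abs _ _).trans ?_
  have htp : (0 : ℝ) < t := by linarith
  calc _ ≤ ∑ _a ∈ range t, ∑ _b ∈ range t, (|K| + Real.log (j + 2) + 4) * ε / (t : ℝ) ^ 2 := by
        refine sum_le_sum fun a ha => ?_
        rw [mul_sum, ← sum_add_distrib]
        exact (abs_sum_le_sum_abs _ _).trans (sum_le_sum fun b hb => key a ha b hb)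
    _ = _ := by
        simp only [sum_const, card_range, nsmul_eq_mul]
        field_simp

end Crest.Agent.T145.Vx34
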