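import Crest.Agent.T145.KvDef_8
import Crest.Agent.T145.Soft_23
import Crest.Agent.T145.VxBc_27
import Crest.Agent.T145.VxDef_35
import Crest.Agent.T145.VxRwA_55
import Crest.Agent.T145.VxBas_30
import Crest.Agent.T145.VxSum_34_Mg
import Crest.Agent.T145.XyD_48
import Crest.Agent.T145.TopDef_76
import Crest.Agent.T145.EsK_28
import Crest.Agent.T145.KsT_68
import Crest.Agent.T145.NcT4Def_78
import Crest.Agent.T145.KsA_68
import Crest.Agent.T145.Fkg_86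
import Crest.Agent.T145.NcGeo_51
import Crest.Agent.T145.KsB_68
import Crest.Agent.T145.VxCal_48
import Crest.Agent.T145.NcLat_37

-- ▼ part T145/KvTop_77
section

/-!
# Row 145, module Kv: the output from the slit model and the removal of the slit (helper77)
-/

set_option autoImplicit false

namespace Crest.Agent.T145.Kv

open Finset Real Filter Topology

namespace T77

theorem abs_ex {α : Type} {W F : α → ℝ} {B : ℝ} (h0 : ∀ a, 0 ≤ W a) (B0 : 0 ≤ B) (hF : ∀ a, |F a| ≤ B) :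
    |Ex W F| ≤ B := by
  by_cases hs : Summable W
  · rw [Ex, abs_div, abs_of_nonneg (tsum_nonneg h0)]
    refine div_le_of_le_mul₀ (tsum_nonneg h0) B0 ?_
    rw [mul_comm B, ← tsum_mul_right]
    exact tsum_of_norm_bounded (f := fun a => W a * F a) (hs.mul_right B).hasSum fun a => by
      rw [Real.norm_eq_abs, abs_mul, abs_of_nonneg (h0 a)]
      exact mul_le_mul_of_nonneg_left (hF a) (h0 a)
  · rw [Ex, tsum_eq_zero_of_not_summable hs, div_zero, abs_zero]; exact B0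

theorem out_of {G : Kr.Gm} {E E' : (Cfg Pt → ℝ) → ℝ} {β γ η γ' η' τ : ℝ}
    (h : Out G E' β γ' (1 / 16) η') (β1 : β ≤ 1) (τ0 : 0 ≤ τ)
    (hE : ∀ Φ B, (∀ s, |Φ s| ≤ B) → |E Φ| ≤ B) (hE' : ∀ Φ B, (∀ s, |Φ s| ≤ B) → |E' Φ| ≤ B)
    (hp : ∀ Φ, (∀ s, 0 ≤ Φ s) → 0 ≤ E Φ)
    (hd : ∀ Φ B, DepG (G.In ∪ G.Ou) Φ → (∀ s, |Φ s| ≤ B) → |E Φ - E' Φ| ≤ τ * B)
    (h1 : γ' + 27 * τ ≤ γ) (h2 : η' + 4 * τ ≤ η) : Out G E β γ (1 / 8) η := by
  obtain ⟨y, d, hy, h⟩ := h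
  have mu : ∀ {F φ : Cfg Pt → ℝ} {A B : ℝ}, (∀ s, |F s| ≤ A) → (∀ s, |φ s| ≤ B) →
      ∀ s, |F s * φ s| ≤ A * B := fun hF hφ s => by
    rw [abs_mul]
    exact mul_le_mul (hF s) (hφ s) (abs_nonneg _) ((abs_nonneg _).trans (hF s))
  have pr : ∀ {a b a' b' A B t u : ℝ}, |a| ≤ A → |b'| ≤ B → |a - a'| ≤ t → |b - b'| ≤ u →
      |a * b - a' * b'| ≤ A * u + t * B := fun {a b a' b' A B t u} h1 h2 h3 h4 => by
    rw [show a * b - a' * b' = a * (b - b') + (a - a') * b' by ring]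
    refine (abs_add_le _ _).trans (add_le_add ?_ ?_) <;> rw [abs_mul]
    · exact mul_le_mul h1 h4 (abs_nonneg _) ((abs_nonneg _).trans h1)
    · exact mul_le_mul h3 h2 (abs_nonneg _) ((abs_nonneg _).trans h3)
  have two : ∀ {F φ : Cfg Pt → ℝ} {A B : ℝ}, DepG (G.In ∪ G.Ou) F → DepG (G.In ∪ G.Ou) φ →
      (∀ s, |F s| ≤ A) → (∀ s, |φ s| ≤ B) → |E F * E φ - E' F * E' φ| ≤ 2 * τ * (A * B) :=
    fun dF dφ hF hφ => (pr (hE _ _ hF) (hE' _ _ hφ) (hd _ _ dF hF) (hd _ _ dφ hφ)).trans_eq (by ring)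
  have cv : ∀ {F φ : Cfg Pt → ℝ} {A B : ℝ}, DepG (G.In ∪ G.Ou) F → DepG (G.In ∪ G.Ou) φ →
      (∀ s, |F s| ≤ A) → (∀ s, |φ s| ≤ B) → |cov E F φ - cov E' F φ| ≤ 3 * τ * (A * B) :=
    fun {F φ A B} dF dφ hF hφ => by
      have a1 := abs_le.1 (hd _ _ (dF.mul dφ) (mu hF hφ))
      have a2 := abs_le.1 (two dF dφ hF hφ)
      rw [cov, cov, abs_le]
      constructor <;> linarith [a1.1, a1.2, a2.1, a2.2]
  have cb : ∀ {E : (Cfg Pt → ℝ) → ℝ}, (∀ Φ B, (∀ s, |Φ s| ≤ B) → |E Φ| ≤ B) →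
      ∀ {F φ : Cfg Pt → ℝ} {A B : ℝ}, (∀ s, |F s| ≤ A) → (∀ s, |φ s| ≤ B) →
        |cov E F φ| ≤ 2 * (A * B) := fun hE F φ A B hF hφ => by
    refine (abs_sub _ _).trans ?_
    rw [abs_mul]
    linarith [hE _ _ (mu hF hφ), mul_le_mul (hE _ _ hF) (hE _ _ hφ) (abs_nonneg _)
      ((abs_nonneg _).trans (hF 0))]
  refine ⟨y, d, hy, fun F φ A B dF dφ hF hφ => ?_⟩
  obtain ⟨k1, k2⟩ := h F φ A B dF dφ hF hφ
  have dF' := dF.mono (subset_union_left (s₂ := G.Ou))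
  have dφ' := dφ.mono (subset_union_right (s₁ := G.In))
  have B0 : 0 ≤ B := (abs_nonneg _).trans (hφ 0)
  have AB : 0 ≤ A * B := mul_nonneg ((abs_nonneg _).trans (hF 0)) B0
  have c0 := abs_le.1 (cv dF' dφ' hF hφ)
  refine ⟨?_, fun F0 φ0 => ?_⟩
  · have c : ∀ i, |cov E F (y i) * cov E (d i) φ - cov E' F (y i) * cov E' (d i) φ| ≤
        12 * τ * (A * B) := fun i => by
      have d1 : ∀ s, |d i s| ≤ 1 := fun s => ((hy i).2.2.2 s).trans β1
      exact (pr (cb hE hF (hy i).2.1) (cb hE' d1 hφ)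
        (cv dF' ((hy i).1.mono subset_union_left) hF (hy i).2.1)
        (cv ((hy i).2.2.1.mono subset_union_right) dφ' d1 hφ)).trans_eq (by ring)
    have c1 := abs_le.1 (c 0)
    have c2 := abs_le.1 (c 1)
    have := mul_le_mul_of_nonneg_right h1 AB
    rw [Fin.sum_univ_two, abs_le] at *
    constructor <;> linarith [k1.1, k1.2, c0.1, c0.2, c1.1, c1.2, c2.1, c2.2]
  · have c1 := abs_le.1 (k2 F0 φ0)
    have c2 := abs_le.1 (two dF' dφ' hF hφ)
    have := mul_le_mul_of_nonneg_right h2 AB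
    have := mul_nonneg (hp F F0) (hp φ φ0)
    have := mul_nonneg τ0 AB
    rw [abs_le]
    constructor <;> linarith [c0.1, c0.2, c1.1, c1.2, c2.1, c2.2]

end T77

open T77 in
theorem kvStmt (hS : SectStmt) (hR : RmvStmt) : KvStmt := by
  intro F θ₀ ε N C hJ hθ hε hε4
  obtain ⟨W₁, hS⟩ := hS F θ₀ ε (N + 1) C hJ hθ hε hε4
  obtain ⟨C', c, c0, hR⟩ := hR F θ₀ hJ hθ
  obtain ⟨W₂, hW₂⟩ := eventually_atTop.1 ((eventually_ge_atTop W₁).and ((eventually_ge_atTop 2).and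
    ((tendsto_rpow_atTop (y := ε / 2) (by positivity)).eventually_ge_atTop 2)))
  refine ⟨W₂, fun W hW K hK => ?_⟩
  obtain ⟨w1, w2, w3⟩ := hW₂ W hW
  have W0 : 0 < W := by linarith
  have p : ∀ a : ℝ, 0 < W ^ a := fun a => rpow_pos_of_pos W0 a
  obtain ⟨τ, hτ⟩ : ∃ τ, τ = min (W ^ (-2 + 5 / 2 * ε) / 27) (W ^ (-(N : ℝ)) / 8) := ⟨_, rfl⟩
  have τ0 : 0 < τ := by rw [hτ]; exact lt_min (by linarith [p (-2 + 5 / 2 * ε)]) (by linarith [p (-(N : ℝ))])
  have τ1 : τ ≤ W ^ (-2 + 5 / 2 * ε) / 27 := hτ ▸ min_le_left _ _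
  have τ2 : τ ≤ W ^ (-(N : ℝ)) / 8 := hτ ▸ min_le_right _ _
  have t : Tendsto (fun j : ℕ => C' * (2 : ℝ) ^ (-(c * j))) atTop (𝓝 (C' * 0)) :=
    ((tendsto_rpow_atBot_of_base_gt_one 2 one_lt_two).comp (tendsto_neg_atTop_atBot.comp
      (tendsto_natCast_atTop_atTop.const_mul_atTop c0))).const_mul C'
  rw [mul_zero] at t
  obtain ⟨j, j4, hj⟩ := ((eventually_ge_atTop 4).and
    (t.eventually_le_const (mul_pos (p (-(C : ℝ))) τ0))).exists
  obtain ⟨δ₁, δ1, hS⟩ := hS W w1 K j hK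
  obtain ⟨δ₂, δ2, hR⟩ := hR W K j hK
  obtain ⟨δ, δ0, e1, e2, e3⟩ := exists_of_ev ((ev_le δ1).and ((ev_le δ2).and
    (ev_mul_le (K * (32 * 2 ^ (j + 4))) one_pos)))
  refine ⟨δ, δ0, fun Λ hΛ l L hw G hG hL hg hT => ?_⟩
  have hV : (⟨G, j⟩ : Gv).Ok W := ⟨hG, j4, by
    have h1 := (div_le_iff₀ hw.L_pos').1 hw.sep.inv_L_le
    have h2 : (32 * 2 ^ (j + 4) : ℝ) ≤ G.R := by
      have h3 : K * (32 * 2 ^ (j + 4)) ≤ L := by
        have a1 := mul_le_mul_of_nonneg_left h1 (by positivity : (0 : ℝ) ≤ K * (32 * 2 ^ (j + 4)))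
        have a2 := mul_le_mul_of_nonneg_right e3 hw.L_pos'.le
        linarith
      exact le_of_mul_le_mul_left (h3.trans hL.2) (by linarith)
    have h4 : 32 * 2 ^ (j + 4) ≤ G.R := by exact_mod_cast h2
    exact Nat.le_log_of_pow_le one_lt_two (show 2 ^ (j + 4) ≤ G.R / 32 by omega)⟩
  have w0 : ∀ k, 0 ≤ Λ.w k := fun k => hΛ.ok.fam.nonneg k
  have n1 : ∀ s, 0 ≤ (fr Λ G).Ws 0 (Vd.ray 0) s :=
    Mdl.Ws_nonneg (fun _ _ => w0) (fun _ _ _ => zero_le_one) _ _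
  have n2 : ∀ s, 0 ≤ ((⟨G, j⟩ : Gv).sl Λ).Ws 0 (Vd.ray 0) s :=
    Mdl.Ws_nonneg (fun _ _ => w0) (fun _ _ _ => zero_le_one) _ _
  have hO := hS Λ hΛ l L (hw.mono_d e1) ⟨G, j⟩ hV rfl hL hg hT
  have b1 : ∀ Φ B, (∀ s, |Φ s| ≤ B) → |EV Λ G Φ| ≤ B :=
    fun Φ B h => abs_ex n1 ((abs_nonneg _).trans (h 0)) h
  have b2 : ∀ Φ B, (∀ s, |Φ s| ≤ B) → |(⟨G, j⟩ : Gv).ES Λ Φ| ≤ B :=
    fun Φ B h => abs_ex n2 ((abs_nonneg _).trans (h 0)) h
  have b3 : ∀ Φ, (∀ s, 0 ≤ Φ s) → 0 ≤ EV Λ G Φ := fun Φ h => Ex_nonneg n1 fun s _ => h s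
  refine out_of hO (rpow_le_one_of_one_le_of_nonpos (by linarith) (by linarith)) τ0.le b1 b2 b3
    (fun Φ B d h => ?_) ?_ ?_
  · have h1 := hR Λ hΛ l L (hw.mono_d e2) ⟨G, j⟩ hV rfl hL Φ B d h
    have h2 := mul_le_mul_of_nonneg_right hj ((abs_nonneg _).trans (h 0))
    refine le_of_mul_le_mul_left ?_ (p (-(C : ℝ)))
    exact ((mul_le_mul_of_nonneg_right hT (abs_nonneg _)).trans h1).trans (h2.trans_eq (mul_assoc _ _ _))
  · have : W ^ (-2 + 3 * ε) = W ^ (-2 + 5 / 2 * ε) * W ^ (ε / 2) := by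
      rw [← rpow_add W0]; congr 1; ring
    linarith [mul_le_mul_of_nonneg_left w3 (p (-2 + 5 / 2 * ε)).le]
  · have : W ^ (-(N : ℝ)) = W ^ (-((N + 1 : ℕ) : ℝ)) * W := by
      rw [← rpow_add_one W0.ne']; congr 1; push_cast; ring
    linarith [mul_le_mul_of_nonneg_left w2 (p (-((N + 1 : ℕ) : ℝ))).le]

end Crest.Agent.T145.Kv
end

-- ▼ part T145/VxIso_27
section

/-!
# Row 145, twisted module: isotropy of the two-point function of `J` (helper27)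
-/

set_option autoImplicit false

namespace Crest.Agent.T145.Vx

open Finset Vb27 Nc FlF4

theorem Iso27.mom {Λ : Lat} (h : Λ.Ok) (R l : ℕ) (i j : Fin 2) :
    -(1 / 2) * ∑ x ∈ bl 0 l, kk Λ R x * (co i x * co j x) =
      if i = j then gJ ((Λ.D (bl 0 R)).W 0) 0 l else 0 := by
  obtain ⟨m1, m2, m3⟩ := moments (kk Λ R) l (kk_swap h R) (kk_neg h R)
  rw [gJ_kk]
  fin_cases i <;> fin_cases j <;> simp [co, ← pow_two, mul_comm (Prod.snd _ : ℤ).cast, m1, m2, m3] <;> ring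

theorem isoStmt : IsoStmt := by
  intro P hP
  refine ⟨P.K + 1, fun ρ hρ => ?_⟩
  have ok : P.L.Ok := hP.crit.1
  have r16 := hP.r2
  have w4 := hP.W2
  obtain ⟨R₂, h2⟩ := hP.f2 ρ hρ
  have η0 : 0 < Real.log ρ ^ (-1 - 2 * P.δ) :=
    Real.rpow_pos_of_pos (zero_lt_one.trans_le (one_le_log (by omega))) _
  set η := Real.log ρ ^ (-1 - 2 * P.δ)
  have hb := cB_pos P.L.τ 2
  have ρ0 : (0 : ℝ) < ρ := by exact_mod_cast (by omega : 0 < ρ)
  set B := cB P.L.τ 2 * 25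
  obtain ⟨n, hn⟩ := exists_pow_lt_of_lt_one (x := η / (20 * B * ((2 * ρ + 1) ^ 2 * (ρ : ℝ) ^ 2)))
    (y := 200 * (1 / 400)) (by positivity) (by norm_num)
  set R' := (4 * P.W₀ ^ 4) ^ (n + 1) * (ρ + 1)
  refine ⟨R' + P.L.rg + R₂, fun m z hm i j => ?_⟩
  set R := R' + P.L.rg + R₂
  have e1 : ∀ x ∈ bl 0 ρ, |Ex (m.W 0) (fun s => Jz z s * Jz (z + x) s) - kk P.L R x| ≤
      20 * (200 * (1 / 400)) ^ n * B := fun x hx => by
    have q : 1 * (ρ + 1) ≤ P.W₀ * (ρ + 1) := Nat.mul_le_mul_right _ (by omega)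
    have s1 : bl z 1 ⊆ bl z (ρ + 1) := bl_mono z (by omega)
    have s2 : bl (z + x) 1 ⊆ bl z (ρ + 1) := bl_sub (by
      have := mem_bl_sn.1 hx; rw [sub_zero] at this; rw [add_sub_cancel_left]; omega)
    have s3 : bl z (ρ + 1) ⊆ bl z (P.W₀ * (ρ + 1)) := bl_mono z (by omega)
    have dp := (Om.depG_JJ z (z + x)).mono (union_subset s1 s2)
    have a := (dec P.L ok (1 / 400) P.W₀ P.r₀ R' (by norm_num) (by norm_num) (hP.gd R') z (ρ + 1) n R' _
      (by omega) le_rfl le_rfl dp (In_tame ok _ _ ((Om.tame_Jz _).mul (Om.tame_Jz _))) m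
      (amb_mono hm (bl_mono z (by omega)))).2.1 _ (amb_mono (L37.amb_D ok (bl z R)) (bl_mono z (by omega)))
    rw [kk_trl ok, Nm_bx (dp.mono s3)] at a
    exact a.trans (mul_le_mul_of_nonneg_left (bd_JJ ok (s1.trans s3) (s2.trans s3) _ (lat_bx ok _ _)).2
      (by positivity))
  have e2 : |∑ x ∈ bl 0 ρ, Ex (m.W 0) (fun s => Jz z s * Jz (z + x) s) * (co i x * co j x) -
      ∑ x ∈ bl 0 ρ, kk P.L R x * (co i x * co j x)| ≤ η := by
    rw [← sum_sub_distrib]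
    refine (abs_sum_le_sum_abs _ _).trans ((sum_le_card_nsmul _ _
      (20 * (200 * (1 / 400)) ^ n * B * (ρ * ρ)) fun x hx => ?_).trans ?_)
    · have c : ∀ i, |co i x| ≤ ρ := fun i => by
        rw [mem_bl] at hx
        fin_cases i <;> simp [co] <;> rw [← Int.cast_abs] <;> exact_mod_cast (by simp at hx; rw [abs_le]; omega)
      rw [← sub_mul, abs_mul, abs_mul]
      exact mul_le_mul (e1 x hx) (mul_le_mul (c i) (c j) (abs_nonneg _) ρ0.le) (by positivity)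
        (by positivity)
    · rw [card_bl, nsmul_eq_mul]
      rw [lt_div_iff₀ (by positivity)] at hn
      push_cast
      linarith
  have e3 := h2 _ 0 (amb_mono (L37.amb_D ok (bl 0 R)) (bl_mono 0 (by omega)))
  have e4 := Iso27.mom ok R ρ i j
  have k1 := hP.K1
  have k0 : 0 ≤ P.K * η := by positivity
  obtain ⟨a1, a2⟩ := abs_le.1 e2
  obtain ⟨b1, b2⟩ := abs_le.1 e3
  rw [abs_le]
  split_ifs at e4 ⊢ <;> constructor <;> linarith

end Crest.Agent.T145.Vx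
end

-- ▼ part T145/VxRw_55
section

/-!
# Row 145, module Vx: `Vx.rwStmt` (helper55)
-/

set_option autoImplicit false

namespace Crest.Agent.T145.Vx

open Finset
open Nc (an Amb)
open Pot (cut)

namespace Rw55

theorem cvY (hY : YStmt) {W F : Cfg Pt → ℝ} (hS : SE W) (hF : Tame F) (σ : Pt × Pt → ℤ) {B : Finset Pt}
    {u : Pt → ℝ} (hu : Sup B u) : Cv W F (Yv σ u) = ∑ z ∈ B, u z * Cv W F (Jv σ z) := by
  obtain ⟨h1, -, -, -, h5⟩ := hY σ B u hu
  rw [funext h1, B30.cv_sum_right hS B (fun z _ => (h5 z).1.2.const_mul _) hF]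
  simp only [Cv_const_mul_right]

theorem cvP (hY : YStmt) {W F : Cfg Pt → ℝ} (hW : Wt W) (hS : SE W) (hF : Tame F) (σ : Pt × Pt → ℤ)
    {B : Finset Pt} {u : Pt → ℝ} (hu : Sup B u) : Cv W F (Yv σ u) = Cv W F (pr (A0 u)) := by
  have h0 : ∀ c : ℝ, Cv W F (fun _ => c) = 0 := fun c => (Cv_comm _ _ _).trans (hW.cv_const_left c F)
  rw [funext (hY σ B u hu).2.1, B30.cv_add_right hS (Tame.hom _) (Tame.const _) hF, h0, add_zero]

theorem pick (c W ρ n : ℕ) {d : ℕ} (h : c * ρ ≤ d) :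
    ∃ k ≤ n, c * (W ^ k * ρ) ≤ d ∧ (k = n ∨ d < c * (W ^ (k + 1) * ρ)) := by
  classical
  refine ⟨Nat.findGreatest (fun k => c * (W ^ k * ρ) ≤ d) n, Nat.findGreatest_le n,
    Nat.findGreatest_spec (P := fun k => c * (W ^ k * ρ) ≤ d) n.zero_le (by simpa using h), ?_⟩
  rcases (Nat.findGreatest_le (P := fun k => c * (W ^ k * ρ) ≤ d) n).eq_or_lt with e | e
  · exact .inl e
  · exact .inr (not_le.1 (Nat.findGreatest_is_greatest (P := fun k => c * (W ^ k * ρ) ≤ d)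
      (Nat.lt_succ_self _) e))

/-- the decomposition of `u` -/
theorem asm (V : Vp) {ρ D e b N : ℕ} {A τ G₁ G₂ E₁ E₂ O Cu : ℝ} {γ u χ : Pt → ℝ} (hρ : 1 ≤ ρ)
    (hD : 1 ≤ D) (hDe : 2 * D ≤ e) (her : 16 * e ≤ V.r) (heb : e ≤ b) (hτ : 0 ≤ τ) (hG₁ : 0 ≤ G₁)
    (hG₂ : 0 ≤ G₂) (hCu : 0 ≤ Cu) (hd : Dip V.q ρ A u) (hf : Flat V.p V.r A u) (hχ : ∀ z, |χ z| ≤ 1)
    (hχ1 : ∀ z, ds z V.p < e → χ z = 1)
    (u1 : ∀ i z, ds z V.p < e → uc V.p e i z = co i (z - V.p) + ![0, 1 / 2] i)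
    (u2 : ∀ i z, |uc V.p e i z| ≤ Cu * e)
    (s0 : ∀ i, ∑ z ∈ bl V.p b, uc V.p e i z * γ z = 0) (s1 : |∑ z ∈ bl V.p b, χ z * γ z| ≤ E₁)
    (s2 : |∑ z ∈ bl V.p b, rem u V.p z * cut V.p D (2 * D) z * γ z| ≤ E₂)
    (g1 : ∀ z, D < ds z V.p → ds z V.p < e →
      |γ z| ≤ G₁ * (2 * τ + if ds z V.p ≤ N then 1 else 0) / (ds z V.p : ℝ) ^ 3)
    (g2 : ∀ z ∈ an V.p (e - 1) b, |γ z| ≤ G₂ * nb V z (ds z V.p))
    (hO : ∑ z ∈ an V.p (e - 1) b, (al V.q ρ z + 1 / V.r) * nb V z (ds z V.p) ≤ O) :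
    |∑ z ∈ bl V.p b, u z * γ z| ≤ 2 * A / V.r * E₁ + E₂ +
      4 * (A / (V.r : ℝ) ^ 3) * G₁ * (16 * τ * V.r + 8 * N) + (2 + Cu) * A * G₂ * O := by
  have r0 : (0 : ℝ) < V.r := by exact_mod_cast (by omega : 0 < V.r)
  have r1 : (1 : ℝ) ≤ V.r := by exact_mod_cast (by omega : 1 ≤ V.r)
  have D0 : (0 : ℝ) < D := by exact_mod_cast hD
  have hab : (D : ℝ) < 2 * D := by linarith
  have al0 : ∀ z, 0 < al V.q ρ z := fun z => by
    have : (0 : ℝ) < ρ := by exact_mod_cast hρ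
    unfold al; positivity
  have A0' : 0 ≤ A := nonneg_of_mul_nonneg_left ((abs_nonneg _).trans (hd.b0 0)) (al0 0)
  have alr : ∀ z, ds z V.p ≤ 1 → al V.q ρ z ≤ 1 / V.r := fun z hz => by
    have := ds_tri V.p z V.q
    rw [ds_pq, ds_comm V.p] at this
    exact one_div_le_one_div_of_le r0 (by exact_mod_cast (by omega : V.r ≤ ρ + ds z V.q))
  have ci : ∀ i, |df i u V.p| ≤ A / (V.r : ℝ) ^ 2 := fun i => by
    have := hd.b1 (V.p + ev i) V.p
    rw [ds_ev, Nat.cast_one, mul_one, mul_assoc] at this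
    refine this.trans ((mul_le_mul_of_nonneg_left (mul_le_mul (alr _ (ds_ev _ _).le)
      (alr _ (by simp [ds_self])) (al0 _).le (by positivity)) A0').trans_eq (by ring))
  have rr : A / (V.r : ℝ) ^ 2 ≤ A / V.r := div_le_div_of_nonneg_left A0' r0 (by nlinarith)
  set c₀ := u V.p - df 1 u V.p / 2 with hc₀
  have c0 : |c₀| ≤ 2 * A / V.r := by
    have h1 := (hd.b0 V.p).trans (mul_le_mul_of_nonneg_left (alr _ (by simp [ds_self])) A0')
    have h2 := (ci 1).trans rr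
    rw [mul_one_div] at h1
    rw [mul_div_assoc, abs_le] at *
    constructor <;> linarith [h1.1, h1.2, h2.1, h2.2]
  set v : Pt → ℝ := fun z => u z - c₀ * χ z - ∑ i, df i u V.p * uc V.p e i z -
    rem u V.p z * cut V.p D (2 * D) z with hv
  have v1 : ∀ z, ds z V.p < e → v z = rem u V.p z * (1 - cut V.p D (2 * D) z) := fun z hz => by
    simp only [hv, hχ1 z hz, u1 _ z hz, hc₀, rem, Fin.sum_univ_two, Matrix.cons_val_zero,
      Matrix.cons_val_one]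
    ring
  have v3 : ∀ z, e ≤ ds z V.p → |v z| ≤ (2 + Cu) * A * (al V.q ρ z + 1 / V.r) := fun z hz => by
    have z0 : cut V.p D (2 * D) z = 0 :=
      Pot.cut_zero hab (R := 2 * D - 1) (by rw [Nat.cast_sub (by omega)]; push_cast; linarith)
        (by rw [mem_ds]; omega)
    have k : ∀ i, |df i u V.p * uc V.p e i z| ≤ Cu * A * (1 / V.r) / 2 := fun i => by
      have he : (16 : ℝ) * e ≤ V.r := by exact_mod_cast her
      rw [abs_mul]
      refine (mul_le_mul (ci i) (u2 i z) (abs_nonneg _) (by positivity)).trans ?_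
      rw [show A / (V.r : ℝ) ^ 2 * (Cu * e) = Cu * A * (1 / V.r) * (e / V.r) by ring, div_eq_mul_one_div _ 2]
      exact mul_le_mul_of_nonneg_left (by rw [div_le_iff₀ r0]; linarith) (by positivity)
    have k0 : |c₀ * χ z| ≤ 2 * A / V.r := by
      rw [abs_mul]; exact (mul_le_of_le_one_right (abs_nonneg _) (hχ z)).trans c0
    have h1 := hd.b0 z
    have h2 := mul_nonneg (mul_nonneg (by linarith : 0 ≤ 1 + Cu) A0') (al0 z).le
    have k1 := k 0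
    have k2 := k 1
    simp only [hv, z0, mul_zero, sub_zero, Fin.sum_univ_two]
    rw [show 2 * A / V.r = 2 * A * (1 / V.r) by ring] at k0
    rw [abs_le] at *
    constructor <;> linarith [h1.1, h1.2, k0.1, k0.2, k1.1, k1.2, k2.1, k2.2]
  have e1 : ∑ z ∈ bl V.p b, u z * γ z = c₀ * ∑ z ∈ bl V.p b, χ z * γ z +
      ∑ z ∈ bl V.p b, rem u V.p z * cut V.p D (2 * D) z * γ z + ∑ z ∈ bl V.p b, v z * γ z := by
    have h0 := congrArg (df 0 u V.p * ·) (s0 0)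
    have h1 := congrArg (df 1 u V.p * ·) (s0 1)
    simp only [mul_sum, mul_zero] at h0 h1
    rw [← add_zero (_ + _ + _), ← h0, ← add_zero (_ + _ + _ + _), ← h1]
    simp only [mul_sum, ← sum_add_distrib, hv, Fin.sum_univ_two]
    exact sum_congr rfl fun z _ => by ring
  have e2 : ∑ z ∈ bl V.p b, v z * γ z =
      ∑ z ∈ an V.p D (e - 1), v z * γ z + ∑ z ∈ an V.p (e - 1) b, v z * γ z := by
    rw [← sum_sdiff (bl_mono V.p (by omega : e - 1 ≤ b)), add_comm,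
      ← sum_sdiff (bl_mono V.p (by omega : D ≤ e - 1)), sum_eq_zero (s := bl V.p D) fun z hz => by
        rw [v1 z (by rw [mem_ds] at hz; omega), Pot.cut_one hab le_rfl hz, sub_self, mul_zero, zero_mul],
      add_zero]
    rfl
  have H0 : 0 ≤ 4 * (A / (V.r : ℝ) ^ 3) * G₁ := by positivity
  have i1 : |∑ z ∈ an V.p D (e - 1), v z * γ z| ≤
      4 * (A / (V.r : ℝ) ^ 3) * G₁ * (16 * τ * V.r + 8 * N) := by
    have k : ∀ z ∈ an V.p D (e - 1), |v z * γ z| ≤ 4 * (A / (V.r : ℝ) ^ 3) * G₁ *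
        (2 * τ * (1 / (ds z V.p : ℝ)) + if ds z V.p ≤ N then 1 / (ds z V.p : ℝ) else 0) := fun z hz => by
      obtain ⟨z1, z2⟩ := mem_an.1 hz
      have d0 : (0 : ℝ) < ds z V.p := by exact_mod_cast (by omega : 0 < ds z V.p)
      have h1 := (rem_le (R := V.r / 4) (fun y hy => (hf y hy).2) (z := z) (by omega)).2
      rw [abs_mul, v1 z (by omega), abs_mul]
      refine (mul_le_mul ((mul_le_of_le_one_right (abs_nonneg _) (Pot.abs_one_sub_cut_le _ _ _ _)).trans h1)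
        (g1 z z1 (by omega)) (abs_nonneg _) (by positivity)).trans_eq ?_
      split_ifs <;> (field_simp; try ring)
    refine (abs_sum_le_sum_abs _ _).trans ((sum_le_sum k).trans ?_)
    rw [← mul_sum, sum_add_distrib, ← mul_sum, ← sum_filter]
    refine mul_le_mul_of_nonneg_left (add_le_add ?_ ?_) H0
    · have h1 := sum_inv V.p D (e - 1)
      have h2 : ((e - 1 : ℕ) : ℝ) ≤ V.r := by exact_mod_cast (by omega)
      nlinarith
    · refine le_trans (sum_le_sum_of_subset_of_nonneg (fun z hz => ?_) fun _ _ _ => by positivity)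
        (sum_inv V.p 0 N)
      obtain ⟨h1, h2⟩ := mem_filter.1 hz
      exact mem_an.2 ⟨by have := mem_an.1 h1; omega, h2⟩
  have i2 : |∑ z ∈ an V.p (e - 1) b, v z * γ z| ≤ (2 + Cu) * A * G₂ * O := by
    refine (abs_sum_le_sum_abs _ _).trans (le_trans (sum_le_sum fun z hz => ?_)
      ((mul_sum _ _ _).symm.trans_le (mul_le_mul_of_nonneg_left hO (by positivity))))
    rw [abs_mul]
    have := al0 z
    exact (mul_le_mul (v3 z (by have := mem_an.1 hz; omega)) (g2 z hz) (abs_nonneg _)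
      (by positivity)).trans_eq (by ring)
  have i0 : |c₀ * ∑ z ∈ bl V.p b, χ z * γ z| ≤ 2 * A / V.r * E₁ := by
    rw [abs_mul]; exact mul_le_mul c0 s1 (abs_nonneg _) (by positivity)
  rw [e1, e2, abs_le] at *
  constructor <;> linarith [i0.1, i0.2, i1.1, i1.2, i2.1, i2.2, s2.1, s2.2]

theorem le_abs_mul {x C y : ℝ} (h : x ≤ C * y) (hy : 0 ≤ y) : x ≤ |C| * y :=
  h.trans (mul_le_mul_of_nonneg_right (le_abs_self C) hy)

/-- numerics of the scales -/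
theorem scales {r ρ T : ℕ} {t : ℝ} (ht : t = Real.log r) (hr : ⌈Real.exp (144 + 2 * T)⌉₊ ≤ r)
    (h : (r : ℝ) ≤ ρ * t ^ 3) : 144 + 2 * (T : ℝ) ≤ t ∧ t / 2 ≤ Real.log ρ ∧ T + 1 ≤ ρ ∧ T ≤ r := by
  have h1 : Real.exp (144 + 2 * T) ≤ r := Nat.ceil_le.1 hr
  have r0 : (0 : ℝ) < r := (Real.exp_pos _).trans_le h1
  have T0 : (0 : ℝ) ≤ T := T.cast_nonneg
  have h2 : 144 + 2 * (T : ℝ) ≤ t := ht ▸ (Real.le_log_iff_exp_le r0).2 h1
  have t0 : 0 < t := by linarith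
  have ρ0 : (0 : ℝ) < ρ := by
    by_contra hn
    have : (ρ : ℝ) = 0 := le_antisymm (not_lt.1 hn) ρ.cast_nonneg
    rw [this, zero_mul] at h
    linarith
  have h3 := Real.log_le_log r0 h
  rw [Real.log_mul ρ0.ne' (by positivity), Real.log_pow, ← ht] at h3
  have h4 : Real.log t ≤ 2 * √t := by
    have := Real.log_le_sub_one_of_pos (Real.sqrt_pos.2 t0)
    rw [Real.log_sqrt t0.le] at this
    linarith
  have h5 : 12 ≤ √t := Real.le_sqrt_of_sq_le (by linarith)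
  have h6 := Real.mul_self_sqrt t0.le
  have h7 : t / 2 ≤ Real.log ρ := by push_cast at h3; nlinarith
  have h8 := Real.log_le_sub_one_of_pos ρ0
  have h9 := Real.add_one_le_exp (144 + 2 * (T : ℝ))
  exact ⟨h2, h7, by exact_mod_cast (by linarith : (T : ℝ) + 1 ≤ ρ), by exact_mod_cast (by linarith : (T : ℝ) ≤ r)⟩

theorem pows {t : ℝ} (ht : 1 ≤ t) : ∃ s : ℝ, 1 ≤ s ∧ t = s ^ 4 ∧ t ^ (1 / 4 : ℝ) = s ∧
    t ^ (-(3 / 4 : ℝ)) = 1 / s ^ 3 ∧ t ^ (-(3 / 2 : ℝ)) = 1 / s ^ 6 ∧ Real.log t ≤ 4 * s := by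
  have t0 : 0 < t := by linarith
  have k : ∀ n : ℕ, (t ^ (1 / 4 : ℝ)) ^ n = t ^ ((n : ℝ) / 4) := fun n => by
    rw [← Real.rpow_natCast, ← Real.rpow_mul t0.le]; congr 1; ring
  refine ⟨t ^ (1 / 4 : ℝ), Real.one_le_rpow ht (by norm_num), by rw [k]; norm_num, rfl, ?_, ?_, ?_⟩
  · rw [k, Real.rpow_neg t0.le, one_div]; norm_num
  · rw [k, Real.rpow_neg t0.le, one_div]; norm_num
  · have := Real.log_le_sub_one_of_pos (Real.rpow_pos_of_pos t0 (1 / 4))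
    rw [Real.log_rpow t0] at this
    linarith

theorem far_pow {t c : ℝ} {Λ₀ r : ℕ} (ht : 1 ≤ t) (hc : 0 < c) (hΛ : 1 ≤ Λ₀) (hr : 1 ≤ r) :
    (((4 * r : ℕ) : ℝ) / (Λ₀ * ⌈t⌉₊ ^ ⌈1 / c⌉₊ * (4 * r) : ℕ)) ^ c ≤ 1 / t := by
  have t0 : 0 < t := by linarith
  have r0 : (0 : ℝ) < r := by exact_mod_cast hr
  have Λ1 : (1 : ℝ) ≤ Λ₀ := by exact_mod_cast hΛ
  have h1 : t ^ (1 / c) ≤ Λ₀ * (⌈t⌉₊ : ℝ) ^ ⌈1 / c⌉₊ := by
    refine (Real.rpow_le_rpow_of_exponent_le ht (Nat.le_ceil _)).trans ?_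
    rw [Real.rpow_natCast]
    exact (pow_le_pow_left₀ t0.le (Nat.le_ceil t) _).trans (le_mul_of_one_le_left (by positivity) Λ1)
  have h0 := Real.rpow_pos_of_pos t0 (1 / c)
  refine (Real.rpow_le_rpow (by positivity) (z := c) (y := (t ^ (1 / c))⁻¹) ?_ hc.le).trans_eq ?_
  · push_cast
    rw [mul_comm _ (4 * (r : ℝ)), ← div_div, div_self (by positivity), one_div]
    exact inv_anti₀ h0 h1
  · rw [Real.inv_rpow h0.le, ← Real.rpow_mul t0.le, one_div_mul_cancel hc.ne', Real.rpow_one, one_div]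

theorem log_b {t s M : ℝ} {Λ₀ K r S a : ℕ} (ht : 1 ≤ t) (hs : 1 ≤ s) (hl : Real.log t ≤ 4 * s) (hM : 1 ≤ M)
    (ha : 1 ≤ a) (hr : 1 ≤ r) (hΛ : 1 ≤ Λ₀) (har : (r : ℝ) ≤ M * a) (hS : (S : ℝ) ≤ r * t ^ 8) :
    Real.log (((S + 2 * (Λ₀ * ⌈t⌉₊ ^ K * (4 * r)) : ℕ) : ℝ) / a) ≤
      (M * (1 + 8 * Λ₀ * 2 ^ K) + 4 * (8 + K)) * s := by
  have t0 : 0 < t := by linarith
  have a0 : (0 : ℝ) < a := by exact_mod_cast ha
  have r0 : (0 : ℝ) < r := by exact_mod_cast hr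
  have Λ0 : (0 : ℝ) < Λ₀ := by exact_mod_cast hΛ
  have c0 : (0 : ℝ) < ⌈t⌉₊ := t0.trans_le (Nat.le_ceil t)
  have c1 : (⌈t⌉₊ : ℝ) ^ K ≤ 2 ^ K * t ^ (8 + K) := by
    refine (pow_le_pow_left₀ c0.le (by linarith [Nat.ceil_lt_add_one t0.le] : (⌈t⌉₊ : ℝ) ≤ 2 * t) K).trans ?_
    rw [mul_pow]
    exact mul_le_mul_of_nonneg_left (pow_le_pow_right₀ ht (by omega)) (by positivity)
  have c2 : t ^ 8 ≤ t ^ (8 + K) := pow_le_pow_right₀ ht (by omega)
  set Q := M * (1 + 8 * Λ₀ * 2 ^ K) with hQ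
  have Q0 : 0 < Q := by positivity
  have h1 : ((S + 2 * (Λ₀ * ⌈t⌉₊ ^ K * (4 * r)) : ℕ) : ℝ) / a ≤ Q * t ^ (8 + K) := by
    rw [div_le_iff₀ a0]
    push_cast
    have h2 := mul_le_mul_of_nonneg_left c1 (by positivity : (0 : ℝ) ≤ 8 * Λ₀ * r)
    have h3 := mul_le_mul_of_nonneg_left c2 r0.le
    have h4 := mul_le_mul_of_nonneg_right har
      (by positivity : (0 : ℝ) ≤ (1 + 8 * Λ₀ * 2 ^ K) * t ^ (8 + K))
    rw [hQ]
    linarith
  refine (Real.log_le_log (by push_cast; positivity) h1).trans ?_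
  rw [Real.log_mul Q0.ne' (by positivity), Real.log_pow]
  have h5 := Real.log_le_sub_one_of_pos Q0
  have h6 := mul_le_mul_of_nonneg_left hl (by positivity : (0 : ℝ) ≤ ((8 + K : ℕ) : ℝ))
  push_cast at h6 ⊢
  nlinarith

end Rw55

open Rw55

set_option maxHeartbeats 1000000 in
/-- RW -/
theorem rwStmt (hY : YStmt) (hU : UcStmt) (hL : LinStmt) (hJ : FjStmt) (hF : FarStmt) : RwStmt := by
  intro P hP W hW
  obtain ⟨K, hK, chg⟩ := chg_rem
  obtain ⟨Cu, hU⟩ := hU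
  obtain ⟨CL, rL, hL⟩ := hL P hP 3 (by norm_num)
  set Λ := 64 * (P.W₀ * W) with hΛ
  obtain ⟨CJ, rJ, hJ⟩ := hJ P hP Λ
  obtain ⟨CF, c, rF, Λ₀, c0, -, Λ1, hF⟩ := hF P hP
  have W4 := hP.W2
  set M : ℝ := 32 * W with hM
  set CO : ℝ := 64 * M * (M * (1 + 8 * Λ₀ * 2 ^ ⌈1 / c⌉₊) + 4 * (8 + ⌈1 / c⌉₊)) + 723 * M with hCO
  refine ⟨8 * |CF| * Λ + 32 * |CL| * K * P.W₀ ^ 2 + 8 * |CJ| * Λ * (16 + 8 * Λ) +
    8 * (2 + |Cu|) * |CJ| * Λ * CO, ⌈Real.exp (144 + 2 * ((Λ + rL + rJ + rF + P.r₀ : ℕ) : ℝ))⌉₊,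
    fun V hr => ?_⟩
  set S' := Λ₀ * ⌈V.t⌉₊ ^ ⌈1 / c⌉₊ * (4 * V.r) with hS'
  refine ⟨8 * S' + 2 * (⌈V.r * V.t ^ 8⌉₊ + 2 * S') + 5 * V.r,
    fun m ρ n S A μ F u hm h1 h2 h3 h4 hI h0 hν hS hu hd hf => ?_⟩
  obtain ⟨t1, t2, t3, t4⟩ := scales (t := V.t) rfl hr h1
  have tΛ : 2 * (Λ : ℝ) ≤ V.t := by push_cast at t1 ⊢; linarith [(by positivity : (0 : ℝ) ≤ rL + rJ + rF + P.r₀)]
  have t1' : 1 ≤ V.t := by linarith [(by positivity : (0 : ℝ) ≤ ((Λ + rL + rJ + rF + P.r₀ : ℕ) : ℝ))]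
  obtain ⟨s, s1, es, e1, e3, e6, hl⟩ := pows t1'
  have s0 : 0 < s := by linarith
  have t0 : 0 < V.t := by linarith
  have up : ∀ k, ρ ≤ W ^ k * ρ := fun k => Nat.le_mul_of_pos_left _ (by positivity)
  have le_n : ∀ k ≤ n, P.W₀ * (W ^ k * ρ) ≤ P.W₀ * (W ^ n * ρ) := fun k hk =>
    Nat.mul_le_mul_left _ (Nat.mul_le_mul_right _ (Nat.pow_le_pow_right (by omega) hk))
  set T := W ^ n * ρ with hT
  have hT' : P.W₀ * (W ^ (n + 1) * ρ) = P.W₀ * W * T := by rw [hT]; ring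
  have hρT := le_n 0 n.zero_le
  rw [pow_zero, one_mul] at hρT
  have ρW := B30.four_le hP (ρ := ρ)
  have hrT : V.r ≤ 2 * (Λ * T) := by rw [hT'] at h4; rw [hΛ]; linarith
  have r0 : (0 : ℝ) < V.r := by exact_mod_cast (by omega : 0 < V.r)
  have ρ0 : (0 : ℝ) < ρ := by exact_mod_cast (by omega : 0 < ρ)
  have T0 : (0 : ℝ) < T := ρ0.trans_le (by exact_mod_cast up n)
  have hS1 : 4 * V.r ≤ S' := Nat.le_mul_of_pos_left _
    (Nat.mul_pos Λ1 (Nat.pow_pos (Nat.ceil_pos.2 t0)))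
  have hS2 : S ≤ ⌈V.r * V.t ^ 8⌉₊ := by exact_mod_cast hS.trans (Nat.le_ceil _)
  have am : ∀ z a, ds z V.p + a ≤ 8 * S' + 2 * (⌈V.r * V.t ^ 8⌉₊ + 2 * S') + 5 * V.r →
      Amb P.L m (bl z a) := fun z a h => B30.amb_mono hm (B30.bl_sub h)
  have p0 := ds_self V.p
  have wt := B30.amb_wt hm V.σ
  have se := B30.amb_se hm V.σ
  have n0 := fun k => B30.ν_nonneg hP V k F
  have A0' : 0 ≤ A := nonneg_of_mul_nonneg_left ((abs_nonneg _).trans (hd.b0 0)) (by unfold al; positivity)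
  have hν0 := hν 0 n.zero_le
  rw [pow_zero, one_mul, pow_zero, Real.one_rpow, e3] at hν0
  have μ0 : 0 ≤ μ := nonneg_of_mul_nonneg_left ((mul_nonneg ρ0.le (n0 ρ)).trans hν0) (by positivity)
  have τ1 : 1 / s ^ 3 ≤ 1 := by rw [div_le_one (by positivity)]; exact one_le_pow₀ s1
  have big : ∀ k, V.t ≤ (W : ℝ) ^ k → ((W : ℝ) ^ k) ^ (-(3 / 4 : ℝ)) ≤ 1 / s ^ 3 := fun k hk =>
    e3 ▸ Real.rpow_le_rpow_of_nonpos t0 hk (by norm_num)
  -- the top norm
  have νT : P.ν V T F ≤ 4 * Λ * μ / (s ^ 3 * V.r) := by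
    have a1 : (V.r : ℝ) ≤ 2 * (Λ * T) := by exact_mod_cast hrT
    have a2 : V.t ≤ (W : ℝ) ^ n := by
      have a3 : (T : ℝ) = (W : ℝ) ^ n * ρ := by rw [hT]; push_cast; ring
      refine le_of_mul_le_mul_left (a := ρ * V.t) ?_ (by positivity)
      have := mul_le_mul_of_nonneg_right tΛ T0.le
      rw [a3] at this a1
      linarith
    have a4 := (hν n le_rfl).trans (mul_le_mul_of_nonneg_left (add_le_add e3.le (big n a2)) μ0)
    rw [le_div_iff₀ (by positivity)]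
    have a5 := mul_le_mul_of_nonneg_left a4 (by positivity : (0 : ℝ) ≤ 2 * Λ * s ^ 3)
    have a6 := mul_le_mul_of_nonneg_left a1 (mul_nonneg (n0 T) (by positivity : (0 : ℝ) ≤ s ^ 3))
    have a7 : 2 * Λ * s ^ 3 * (μ * (1 / s ^ 3 + 1 / s ^ 3)) = 4 * Λ * μ := by field_simp; ring
    linarith
  have nb0 : ∀ z l, 0 ≤ nb V z l := fun z l => by unfold nb; split_ifs <;> positivity
  have fj : ∀ k ≤ n, ∀ z, ds z V.p ≤ S + 2 * S' → 2 * (P.W₀ * (W ^ k * ρ)) ≤ ds z V.p →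
      V.r ≤ 2 * ds z V.p ∨ ds z V.p ≤ Λ * (W ^ k * ρ) → |Cv (m.Ws 0 V.σ) F (Jv V.σ z)| ≤
        2 * |CJ| / s ^ 4 * P.ν V (W ^ k * ρ) F * nb V z (ds z V.p) := fun k hk z z1 z2 z3 => by
    have a1 := up k
    have a2 := le_n k hk
    have a3 := hJ V m _ F z (by omega) (by omega) (B30.ins_le hI (by omega)) (am _ _ (by omega))
      (am _ _ (by omega)) z2 z3
    have a4 : V.t / 2 ≤ Real.log (W ^ k * ρ : ℕ) := t2.trans (Real.log_le_log ρ0 (by exact_mod_cast a1))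
    rw [mul_assoc, mul_div_assoc] at a3
    refine (le_abs_mul a3 (div_nonneg (mul_nonneg (n0 _) (nb0 _ _)) (by linarith))).trans
      ((mul_le_mul_of_nonneg_left (div_le_div_of_nonneg_left (mul_nonneg (n0 _) (nb0 _ _))
        (by linarith) a4) (abs_nonneg _)).trans_eq ?_)
    rw [es]
    field_simp
  have U := fun i => hU V.p (8 * (P.W₀ * T)) i (by omega)
  have tI := hI.2
  have D0 : (0 : ℝ) < (4 * (P.W₀ * ρ) : ℕ) := by exact_mod_cast (by omega : 0 < 4 * (P.W₀ * ρ))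
  have S0 : (0 : ℝ) < S' := by exact_mod_cast (by omega : 0 < S')
  have hM1 : 1 ≤ M := by
    have : (16 : ℝ) ≤ W := by exact_mod_cast hW
    linarith
  have har : (V.r : ℝ) ≤ M * (8 * (P.W₀ * T) - 1 : ℕ) := by
    have a1 : V.r ≤ 32 * W * (8 * (P.W₀ * T) - 1) := by
      have a2 : 4 * (P.W₀ * T) ≤ 8 * (P.W₀ * T) - 1 := by omega
      have a3 := Nat.mul_le_mul_left (32 * W) a2
      rw [hT'] at h4
      linarith
    rw [hM]
    exact_mod_cast a1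
  have main := asm V (ρ := ρ) (D := 4 * (P.W₀ * ρ)) (e := 8 * (P.W₀ * T)) (b := S + 2 * S')
    (N := ⌊Λ * V.r / s ^ 4⌋₊) (τ := 1 / s ^ 3) (G₁ := 2 * |CJ| / s ^ 4 * (μ * Λ))
    (G₂ := 2 * |CJ| / s ^ 4 * (4 * Λ * μ / (s ^ 3 * V.r))) (Cu := |Cu|)
    (E₁ := |CF| * (1 / s ^ 4 * (4 * Λ * μ / (s ^ 3 * V.r))))
    (E₂ := 32 * |CL| * K * P.W₀ ^ 2 * A * μ / (s ^ 6 * V.r ^ 2)) (O := CO * s / V.r)
    (γ := fun z => Cv (m.Ws 0 V.σ) F (Jv V.σ z)) (χ := cut V.p S' (2 * S')) (by omega) (by omega)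
    (by omega) (by omega) (by omega) (by positivity) (by positivity) (by positivity) (abs_nonneg _) hd hf
    (Pot.abs_cut_le _ _ _)
    (fun z hz => Pot.cut_one (by linarith) le_rfl (mem_ds.2 (by omega)))
    (fun i => (U i).2.2.1) (fun i z => le_abs_mul ((U i).2.2.2.1 z).1 (by positivity))
    (fun i => by
      rw [← cvY hY se tI V.σ fun z hz => (U i).1 z fun h => hz (bl_mono _ (by omega) h)]
      exact h0 i)
    (by
      rw [← cvY hY se tI V.σ fun z hz => Pot.sup_cut V.p (R := 2 * S') (by linarith)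
        (by push_cast; linarith) z fun h => hz (bl_mono _ (by omega) h)]
      have a1 := (hF V m (4 * V.r) S' (by omega) le_rfl (Nat.mul_le_mul_right _
        (Nat.le_mul_of_pos_right _ (Nat.pow_pos (Nat.ceil_pos.2 t0)))) (am _ _ (by omega))).2 T F
        ((by omega : P.r₀ ≤ ρ).trans (up n)) (by omega) (B30.ins_le hI (by have := up n; omega))
      rw [mul_assoc] at a1
      refine (le_abs_mul a1 (mul_nonneg (by positivity) (n0 T))).trans
        (mul_le_mul_of_nonneg_left (mul_le_mul ?_ νT (n0 T) (by positivity)) (abs_nonneg _))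
      rw [← es]
      exact far_pow t1' c0 Λ1 (by omega))
    (by
      have sp : Sup (bl V.p (S + 2 * S')) fun z =>
          rem u V.p z * cut V.p (4 * (P.W₀ * ρ) : ℕ) (2 * (4 * (P.W₀ * ρ) : ℕ)) z := fun z hz =>
        mul_eq_zero_of_right _ (Pot.cut_zero (R := 2 * (4 * (P.W₀ * ρ))) (by linarith)
          (by push_cast; linarith) fun h => hz (bl_mono _ (by omega) h))
      rw [← cvY hY se tI V.σ sp, cvP hY wt se tI V.σ sp]
      have a1 := ((hL V _ _ _ (by omega) (by omega) (chg u V.p (V.r / 4) (4 * (P.W₀ * ρ)) _ (by omega)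
        (by omega) hf) (.inl (by omega))).1 m (am _ _ (by omega)) (am _ _ (by omega))).2 ρ F (by omega)
        le_rfl (by omega) (.inl (by omega)) hI
      rw [mul_assoc] at a1
      refine (le_abs_mul a1 (mul_nonneg (n0 ρ) (by positivity))).trans ?_
      have a2 : ρ * P.ν V ρ F ≤ 2 * μ := hν0.trans (by nlinarith)
      have a3 : ρ * s ^ 6 ≤ V.r := by
        refine le_trans (mul_le_mul_of_nonneg_left ?_ ρ0.le) h2
        rw [es, ← pow_mul]
        exact pow_le_pow_right₀ s1 (by norm_num)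
      have a4 := mul_le_mul a2 a3 (by positivity) (by positivity)
      rw [le_div_iff₀ (by positivity)]
      refine le_of_eq_of_le ?_ ((mul_le_mul_of_nonneg_left a4
        (by positivity : 0 ≤ 16 * |CL| * K * P.W₀ ^ 2 * A / V.r)).trans_eq ?_)
      · push_cast
        field_simp
        ring
      · field_simp
        ring)
    (fun z z1 z2 => by
      obtain ⟨k, hk, k1, k2⟩ := pick (2 * P.W₀) W ρ n (d := ds z V.p) (by rw [mul_assoc]; omega)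
      rw [mul_assoc] at k1
      have k3 : ds z V.p ≤ Λ * (W ^ k * ρ) := by
        have : Λ * (W ^ k * ρ) = 64 * (P.W₀ * (W ^ (k + 1) * ρ)) := by rw [hΛ]; ring
        rcases k2 with rfl | k2
        · have := Nat.mul_le_mul_left P.W₀ (Nat.mul_le_mul_right ρ
            (Nat.pow_le_pow_right (by omega : 0 < W) k.le_succ))
          omega
        · rw [mul_assoc] at k2
          omega
      have d0 : (0 : ℝ) < ds z V.p := by exact_mod_cast (by omega : 0 < ds z V.p)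
      have k4 : (ds z V.p : ℝ) ≤ Λ * (W ^ k * ρ : ℕ) := by exact_mod_cast k3
      have k5 : nb V z (ds z V.p) ≤ 1 / (ds z V.p : ℝ) ^ 2 := by
        rw [nb, B30.d_eq_p V (by omega), if_pos (min_le_left _ _), min_self]
        exact one_div_le_one_div_of_le (by positivity) (pow_le_pow_left₀ d0.le (by linarith) 2)
      have k6 : ((W : ℝ) ^ k) ^ (-(3 / 4 : ℝ)) ≤
          1 / s ^ 3 + if ds z V.p ≤ ⌊Λ * V.r / s ^ 4⌋₊ then 1 else 0 := by
        split_ifs with hz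
        · exact le_add_of_nonneg_of_le (by positivity) (Real.rpow_le_one_of_one_le_of_nonpos
            (one_le_pow₀ (by exact_mod_cast (by omega : 1 ≤ W))) (by norm_num))
        · rw [add_zero]
          refine big k (le_of_not_gt fun hk' => hz (Nat.le_floor ?_))
          rw [← es, le_div_iff₀ t0]
          push_cast at k4
          have b1 := mul_le_mul_of_nonneg_right hk'.le (by positivity : (0 : ℝ) ≤ Λ * ρ * V.t)
          have b2 := mul_le_mul_of_nonneg_left h2 (by positivity : (0 : ℝ) ≤ Λ)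
          have b3 := mul_le_mul_of_nonneg_right k4 t0.le
          linarith
      have k7 : P.ν V (W ^ k * ρ) F ≤
          μ * Λ * (2 * (1 / s ^ 3) + if ds z V.p ≤ ⌊Λ * V.r / s ^ 4⌋₊ then 1 else 0) / ds z V.p := by
        have b1 := (hν k hk).trans (mul_le_mul_of_nonneg_left (add_le_add e3.le k6) μ0)
        have b2 := mul_le_mul_of_nonneg_left b1 (by positivity : (0 : ℝ) ≤ Λ)
        have b3 := mul_le_mul_of_nonneg_left k4 (n0 (W ^ k * ρ))
        rw [le_div_iff₀ d0]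
        linarith
      refine (fj k hk z (by omega) k1 (.inr k3)).trans ((mul_le_mul (mul_le_mul_of_nonneg_left k7
        (by positivity)) k5 (nb0 _ _) (by positivity)).trans_eq ?_)
      field_simp)
    (fun z hz => by
      obtain ⟨z1, z2⟩ := mem_an.1 hz
      exact (fj n le_rfl z z2 (by rw [← hT]; omega) (by rw [← hT]; omega)).trans (mul_le_mul_of_nonneg_right
        (mul_le_mul_of_nonneg_left νT (by positivity)) (nb0 _ _)))
    (by
      refine (outer V (by omega) (by omega) (by omega) (by omega) hM1 har t0 h1).trans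
        (div_le_div_of_nonneg_right ?_ r0.le)
      have := mul_le_mul_of_nonneg_left (log_b (K := ⌈1 / c⌉₊) t1' s1 hl hM1 (by omega) (by omega) Λ1 har hS)
        (by positivity : 0 ≤ 64 * M)
      rw [e1, hCO]
      linarith)
  rw [cvY hY se tI V.σ fun z hz => hu z fun h => hz (bl_mono _ (by omega : S ≤ S + 2 * S') h), e6]
  refine main.trans ?_
  have hN : (⌊Λ * V.r / s ^ 4⌋₊ : ℝ) ≤ Λ * (1 / s ^ 3) * V.r := by
    refine (Nat.floor_le (by positivity)).trans ?_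
    rw [div_le_iff₀ (by positivity), show Λ * (1 / s ^ 3) * V.r * s ^ 4 = Λ * V.r * s by field_simp]
    exact le_mul_of_one_le_right (by positivity) s1
  set Q := A * μ / (s ^ 6 * V.r ^ 2) with hQ
  have Q0 : 0 ≤ Q := by positivity
  have Q1 : Q / s ≤ Q := div_le_self Q0 s1
  have b1 := mul_le_mul_of_nonneg_left Q1 (by positivity : 0 ≤ 8 * |CF| * Λ)
  have b2 := mul_le_mul_of_nonneg_left Q1 (by positivity : 0 ≤ 8 * |CJ| * Λ * (16 + 8 * Λ))
  have b3 := mul_le_mul_of_nonneg_left hN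
    (by positivity : 0 ≤ 4 * (A / (V.r : ℝ) ^ 3) * (2 * |CJ| / s ^ 4 * (μ * Λ)) * 8)
  have c1 : 2 * A / V.r * (|CF| * (1 / s ^ 4 * (4 * Λ * μ / (s ^ 3 * V.r)))) = 8 * |CF| * Λ * (Q / s) := by
    rw [hQ]; field_simp; ring
  have c2 : 4 * (A / (V.r : ℝ) ^ 3) * (2 * |CJ| / s ^ 4 * (μ * Λ)) *
      (16 * (1 / s ^ 3) * V.r + 8 * (Λ * (1 / s ^ 3) * V.r)) = 8 * |CJ| * Λ * (16 + 8 * Λ) * (Q / s) := by
    rw [hQ]; field_simp; ring
  have c3 : (2 + |Cu|) * A * (2 * |CJ| / s ^ 4 * (4 * Λ * μ / (s ^ 3 * V.r))) * (CO * s / V.r) =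
      8 * (2 + |Cu|) * |CJ| * Λ * CO * Q := by
    rw [hQ]; field_simp; ring
  have c4 : ∀ C : ℝ, C * A * μ * (1 / s ^ 6) / V.r ^ 2 = C * Q := fun C => by rw [hQ]; field_simp
  have c5 : ∀ C : ℝ, C * A * μ / (s ^ 6 * V.r ^ 2) = C * Q := fun C => by rw [hQ]; ring
  rw [c1, c3, c4, c5]
  linarith

end Crest.Agent.T145.Vx
end

-- ▼ part T145/TwTop_63
section

/-!
# Row 145, twisted module (helper63): from the micro cross ratio in finite boxes to `Top.CritStmt`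
-/

set_option autoImplicit false

open Finset Filter Topology

noncomputable section

namespace Crest.Agent.T145.Tw

open Inf48

/-- the edge that extends the seam to the left -/
def eL : Pt × Pt := ((-1, -1), (-1, 0))

/-- the edge that extends `seam r` to the right -/
def eR (r : ℕ) : Pt × Pt := (((r : ℤ), -1), ((r : ℤ), 0))

/-- the insertion `w (k + 1) / w k` on the edge `e` -/
def Dm (Λ : Lat) (σ : Pt × Pt → ℤ) (e : Pt × Pt) (s : Cfg Pt) : ℝ :=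
  Λ.w (nE σ e s + 1) / Λ.w (nE σ e s)

/-- normalised covariance -/
def cvn (W F G : Cfg Pt → ℝ) : ℝ := Cv W F G / (Ex W F * Ex W G)

theorem finS_seam (r : ℕ) : FinS (seam r) :=
  ⟨(range r).image fun i : ℕ => (((i : ℤ), -1), ((i : ℤ), 0)), fun e he => by
    refine if_neg fun h => he ?_
    obtain ⟨⟨a, b⟩, ⟨c, d⟩⟩ := e
    obtain ⟨h1, h2, h3, h4, h5⟩ := h
    simp only at h1 h2 h3 h4 h5
    refine mem_image.2 ⟨a.toNat, mem_range.2 (by omega), ?_⟩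
    simp only [Prod.mk.injEq]
    omega⟩

theorem seam_R (r : ℕ) : seam r + Pi.single (eR r) 1 = seam (r + 1) := by
  funext e
  obtain ⟨⟨a, b⟩, ⟨c, d⟩⟩ := e
  simp only [Pi.add_apply, seam, Pi.single_apply, eR, Prod.mk.injEq]
  push_cast
  split_ifs <;> omega

theorem seam_L (r : ℕ) : seam r + Pi.single eL 1 = shS (-1, 0) (seam (r + 1)) := by
  funext e
  obtain ⟨⟨a, b⟩, ⟨c, d⟩⟩ := e
  simp only [Pi.add_apply, seam, Pi.single_apply, eL, shS, Prod.mk.injEq, Prod.fst_sub, Prod.snd_sub]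
  push_cast
  split_ifs <;> omega

theorem seam_LR (r : ℕ) :
    seam r + Pi.single eL 1 + Pi.single (eR r) 1 = shS (-1, 0) (seam (r + 2)) := by
  rw [add_right_comm, seam_R, seam_L]

variable {Λ : Lat} {D : Finset Pt} {σ : Pt × Pt → ℤ} {e e' : Pt × Pt}

theorem Ws_Dm (h : Λ.Ok) (he : e ∈ Λ.edT D) (σ : Pt × Pt → ℤ) (η s : Cfg Pt) :
    (Λ.D D).Ws η σ s * Dm Λ σ e s = (Λ.D D).Ws η (σ + Pi.single e 1) s := by
  rw [← Ws_dens h (S := {e}) (by simpa using he) (σ := σ) (σ' := σ + Pi.single e 1)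
    fun e' he' => by simp [Pi.single_eq_of_ne (notMem_singleton.1 he')]]
  simp [Inf48.dens, Dm, nE, add_assoc]

theorem Dm_add (hne : e ≠ e') (σ : Pt × Pt → ℤ) : Dm Λ (σ + Pi.single e' 1) e = Dm Λ σ e := by
  funext s
  simp [Dm, nE, Pi.single_eq_of_ne hne]

theorem ex_Dm (h : Λ.Ok) (he : e ∈ Λ.edT D) (σ : Pt × Pt → ℤ) :
    Ex ((Λ.D D).Ws 0 σ) (Dm Λ σ e) = ratD Λ (σ + Pi.single e 1) D / ratD Λ σ D := by
  have h3 := (h.wt_D D 0).ne
  have h4 := (wts h D σ).ne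
  simp only [ratD, Ex_def, Ws_Dm h he]
  field_simp
  rfl

theorem ex_Dm₂ (h : Λ.Ok) (he : e ∈ Λ.edT D) (he' : e' ∈ Λ.edT D) (hne : e ≠ e') (σ : Pt × Pt → ℤ) :
    Ex ((Λ.D D).Ws 0 σ) (fun s => Dm Λ σ e s * Dm Λ σ e' s) =
      ratD Λ (σ + Pi.single e 1 + Pi.single e' 1) D / ratD Λ σ D := by
  have h3 := (h.wt_D D 0).ne
  have h4 := (wts h D σ).ne
  simp only [ratD, Ex_def, ← mul_assoc, Ws_Dm h he]
  rw [← Dm_add hne.symm σ]
  simp only [Ws_Dm h he']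
  field_simp
  rfl

theorem cvn_Dm (h : Λ.Ok) (he : e ∈ Λ.edT D) (he' : e' ∈ Λ.edT D) (hne : e ≠ e') (σ : Pt × Pt → ℤ) :
    cvn ((Λ.D D).Ws 0 σ) (Dm Λ σ e) (Dm Λ σ e') =
      ratD Λ (σ + Pi.single e 1 + Pi.single e' 1) D * ratD Λ σ D /
        (ratD Λ (σ + Pi.single e 1) D * ratD Λ (σ + Pi.single e' 1) D) - 1 := by
  have h1 := (ratD_pos h σ D).ne'
  have h2 := (ratD_pos h (σ + Pi.single e 1) D).ne'
  have h3 := (ratD_pos h (σ + Pi.single e' 1) D).ne'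
  simp only [cvn, Cv, ex_Dm h he, ex_Dm h he', ex_Dm₂ h he he' hne]
  field_simp

theorem isC_eq {b : ℝ} (hb : 0 < b) {C : ℕ → ℝ} (hC : Top.IsC b C) (r : ℕ) :
    C r = ratI (xyL b) (seam r) := by
  refine tendsto_nhds_unique (hC r)
    (((tendsto_ratI (xyL_ok hb) (finS_seam r)).comp tendsto_faces).congr' ?_)
  filter_upwards [eventually_ge_atTop r] with R hR
  rw [Xy48.xyStmt b R r hb hR]
  rfl

theorem tendsto_cvn {b : ℝ} (hb : 0 < b) {C : ℕ → ℝ} (hC : Top.IsC b C) (r : ℕ) :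
    Tendsto (fun D => cvn (((xyL b).D D).Ws 0 (seam r)) (Dm (xyL b) (seam r) eL)
      (Dm (xyL b) (seam r) (eR r))) atTop (𝓝 (C (r + 2) * C r / (C (r + 1) * C (r + 1)) - 1)) := by
  have h := xyL_ok hb
  have hp := fun r => (ratI_pos h (finS_seam r)).ne'
  have t0 := tendsto_ratI h (finS_seam r)
  have t1 := tendsto_ratI h (finS_seam (r + 1))
  have t1' := tendsto_ratI h ((finS_seam (r + 1)).shS (-1, 0))
  have t2 := tendsto_ratI h ((finS_seam (r + 2)).shS (-1, 0))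
  rw [ratI_shS h (finS_seam _)] at t1' t2
  simp only [isC_eq hb hC]
  refine (((t2.mul t0).div (t1'.mul t1) (mul_ne_zero (hp _) (hp _))).sub_const 1).congr' ?_
  filter_upwards [eventually_ge_atTop ({eL.1, (eR r).1} : Finset Pt)] with D hD
  have m1 : eL ∈ (xyL b).edT D := Lat.mem_edT.2 ⟨show _ ∈ nn.filter posD by simp [eL, nn, posD], Or.inl (hD (by simp))⟩
  have m2 : eR r ∈ (xyL b).edT D := Lat.mem_edT.2 ⟨show _ ∈ nn.filter posD by simp [eR, nn, posD], Or.inl (hD (by simp))⟩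
  rw [cvn_Dm h m1 m2 (by simp [eL, eR]), seam_LR, seam_L, seam_R]
  rfl

/-- the micro estimate in finite Dirichlet domains -/
def MicroStmt : Prop := ∀ b : ℝ, (xyL b).Crit → ∃ K δ : ℝ, 0 < δ ∧ ∀ᶠ r : ℕ in atTop,
  ∃ᶠ D : Finset Pt in atTop,
    |(r : ℝ) ^ 2 * cvn (((xyL b).D D).Ws 0 (seam r)) (Dm (xyL b) (seam r) eL)
      (Dm (xyL b) (seam r) (eR r)) - (1 / 4 - 1 / (8 * Real.log r))| ≤ K * Real.log r ^ (-(1 + δ))

theorem log_near {x : ℝ} (hx : |x| ≤ 1 / 2) : |Real.log (1 + x) - x| ≤ 2 * x ^ 2 := by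
  have h := Real.abs_log_sub_add_sum_range_le (x := -x) (by rw [abs_neg]; linarith) 1
  simp only [range_one, sum_singleton, zero_add, pow_one, Nat.cast_zero, div_one, sub_neg_eq_add,
    abs_neg] at h
  rw [show Real.log (1 + x) - x = -x + Real.log (1 + x) by ring]
  refine h.trans ?_
  rw [div_le_iff₀ (by linarith), show |x| ^ (1 + 1) = x ^ 2 from sq_abs x]
  nlinarith [sq_nonneg x]

theorem critStmt (H : MicroStmt) : Top.CritStmt := fun b hb C hC hM => by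
  have hb0 : 0 < b := hb.1.2
  obtain ⟨K, δ, hδ, H⟩ := H b hb
  have hpos : ∀ r, 0 < C r := fun r => by
    rw [isC_eq hb0 hC]; exact ratI_pos (xyL_ok hb0) (finS_seam r)
  refine Vx34.asym_of_micro C (min δ 1) (|K| + 2 * (|K| + 1) ^ 2) (lt_min hδ one_pos)
    (Eventually.of_forall hpos) hM ?_
  filter_upwards [H, eventually_ge_atTop 3,
    (tendsto_natCast_atTop_atTop (R := ℝ)).eventually_ge_atTop (2 * (|K| + 1))] with r hr h3 hK
  have hr3 : (3 : ℝ) ≤ r := by exact_mod_cast h3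
  have hl : 1 ≤ Real.log r := by
    rw [Real.le_log_iff_exp_le (by linarith)]
    linarith [Real.exp_one_lt_d9]
  set x := C (r + 2) * C r / (C (r + 1) * C (r + 1)) - 1 with hx
  have h1 : |(r : ℝ) ^ 2 * x - (1 / 4 - 1 / (8 * Real.log r))| ≤ K * Real.log r ^ (-(1 + δ)) :=
    le_of_tendsto_of_frequently
      (((tendsto_cvn hb0 hC r).const_mul _).sub_const _).abs hr
  have h2 : Real.log r ^ (-(1 + δ)) ≤ Real.log r ^ (-(1 + min δ 1)) :=
    Real.rpow_le_rpow_of_exponent_le hl (by linarith [min_le_left δ 1])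
  have h4 : Real.log r ^ (-(1 + min δ 1)) ≤ 1 :=
    Real.rpow_le_one_of_one_le_of_nonpos hl (by linarith [lt_min hδ one_pos])
  have h0 : 0 < Real.log r ^ (-(1 + δ)) := Real.rpow_pos_of_pos (by linarith) _
  have h5 : K * Real.log r ^ (-(1 + δ)) ≤ |K| * Real.log r ^ (-(1 + min δ 1)) :=
    (mul_le_mul_of_nonneg_right (le_abs_self K) h0.le).trans
      (mul_le_mul_of_nonneg_left h2 (abs_nonneg K))
  have h6 : 0 < 1 / (8 * Real.log r) := by positivity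
  have h7 : 1 / (8 * Real.log r) ≤ 1 / 8 := by
    apply one_div_le_one_div_of_le <;> linarith
  have h8 : |(r : ℝ) ^ 2 * x| ≤ |K| + 1 := by
    have := mul_le_mul_of_nonneg_left h4 (abs_nonneg K)
    rw [abs_le] at h1 ⊢
    constructor <;> linarith [h1.1, h1.2]
  have hr2 : (0 : ℝ) < (r : ℝ) ^ 2 := by positivity
  have h9 : |x| ≤ (|K| + 1) / (r : ℝ) ^ 2 := by
    rw [le_div_iff₀ hr2, mul_comm]
    rwa [abs_mul, abs_of_pos hr2] at h8
  have h10 : |x| ≤ 1 / 2 := h9.trans (by rw [div_le_iff₀ hr2]; nlinarith)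
  have h11 : Vx34.d2 (fun r => Real.log (C r)) r = Real.log (1 + x) := by
    have a0 := (hpos r).ne'
    have a1 := (hpos (r + 1)).ne'
    have a2 := (hpos (r + 2)).ne'
    rw [hx, add_sub_cancel, Real.log_div (mul_ne_zero a2 a0) (mul_ne_zero a1 a1),
      Real.log_mul a2 a0, Real.log_mul a1 a1, Vx34.d2]
    ring
  have h12 : 1 / (r : ℝ) ^ 2 ≤ Real.log r ^ (-(1 + min δ 1)) := by
    refine le_trans ?_ (Real.rpow_le_rpow_of_exponent_le hl
      (show (-2 : ℝ) ≤ -(1 + min δ 1) by linarith [min_le_right δ 1]))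
    rw [Real.rpow_neg (by linarith), one_div, show (2 : ℝ) = (2 : ℕ) by norm_num, Real.rpow_natCast]
    exact inv_anti₀ (by positivity)
      (pow_le_pow_left₀ (by linarith) ((Real.log_le_sub_one_of_pos (by linarith)).trans (by linarith)) 2)
  have h13 : (r : ℝ) ^ 2 * (2 * x ^ 2) ≤ 2 * (|K| + 1) ^ 2 * (1 / (r : ℝ) ^ 2) := by
    have := pow_le_pow_left₀ (abs_nonneg _) h8 2
    rw [sq_abs] at this
    rw [mul_one_div, le_div_iff₀ hr2]
    nlinarith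
  have h14 := mul_le_mul_of_nonneg_left (log_near h10) hr2.le
  rw [← abs_of_pos hr2, ← abs_mul, abs_of_pos hr2] at h14
  have h15 := mul_le_mul_of_nonneg_left h12 (show 0 ≤ 2 * (|K| + 1) ^ 2 by positivity)
  rw [h11]
  rw [abs_le] at h1 h14 ⊢
  constructor <;> nlinarith [h1.1, h1.2, h14.1, h14.2]

end Crest.Agent.T145.Tw
end
end

-- ▼ part T145/VxTop_35
section

/-!
# Row 145, twisted module (helper35): `XStmt` gives `Tw.MicroStmt`
-/

set_option autoImplicit false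

namespace Crest.Agent.T145.Vx

open Finset Filter Topology

namespace Top35

theorem sig_eq (r : ℕ) : (Vp.mk 0 r true).σ = seam r := by
  funext e
  obtain ⟨⟨a, b⟩, ⟨c, d⟩⟩ := e
  simp only [Vp.σ, sm, Vd.ray, seam]
  split_ifs <;> omega

theorem dv_left (b : ℝ) (r : ℕ) : Dv b ⟨0, r, true⟩ = Tw.Dm (xyL b) (seam r) Tw.eL := by
  funext s
  simp only [Dv, sig_eq, Tw.Dm, Vp.e, Tw.eL, if_true]
  rfl

theorem dv_right (b : ℝ) (r : ℕ) :
    Dv b (Vp.sw ⟨0, r, true⟩) = Tw.Dm (xyL b) (seam r) (Tw.eR r) := by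
  funext s
  have h : (Vp.sw ⟨0, r, true⟩).σ = seam r := sig_eq r
  have h' : (Vp.sw ⟨0, r, true⟩).e = Tw.eR r := by simp [Vp.sw, Vp.e, Tw.eR]
  simp only [Dv, h, h', Tw.Dm]
  rfl

theorem num {t : ℝ} (ht : 1 ≤ t) :
    |1 / (2 * Real.pi * (2 / Real.pi + 1 / (Real.pi * t))) - (1 / 4 - 1 / (8 * t))| ≤ t ^ (-2 : ℝ) := by
  have hp := Real.pi_pos
  have t0 : 0 < t := by linarith
  have e1 : 2 * Real.pi * (2 / Real.pi + 1 / (Real.pi * t)) = (4 * t + 2) / t := by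
    field_simp; ring
  have e2 : 1 / ((4 * t + 2) / t) - (1 / 4 - 1 / (8 * t)) = 1 / (8 * t * (2 * t + 1)) := by
    field_simp; ring
  rw [e1, e2, abs_of_pos (by positivity), Real.rpow_neg t0.le, Real.rpow_two, one_div]
  exact inv_anti₀ (by positivity) (by nlinarith)

end Top35

open Top35 in
theorem microStmt (hP : ParStmt) (hX : XStmt) : Tw.MicroStmt := by
  intro b hb
  obtain ⟨P, rfl, hok⟩ := hP b hb
  obtain ⟨C, r₁, h⟩ := hX P hok
  refine ⟨C + 1, P.δ, hok.δ0, ?_⟩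
  filter_upwards [eventually_ge_atTop r₁, eventually_ge_atTop 3] with r hr h3
  have ht : 1 ≤ Real.log r := by
    rw [Real.le_log_iff_exp_le (by positivity)]
    exact Real.exp_one_lt_three.le.trans (by exact_mod_cast h3)
  refine Inf48.tendsto_faces.frequently (((h ⟨0, r, true⟩ hr).mono fun R hR => ?_).frequently)
  rw [dv_left, dv_right, sig_eq] at hR
  have h1 := num ht
  have h2 : Real.log r ^ (-2 : ℝ) ≤ Real.log r ^ (-(1 + P.δ)) :=
    Real.rpow_le_rpow_of_exponent_le ht (by linarith [hok.δ1])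
  have e : (-1 - P.δ) = -(1 + P.δ) := by ring
  simp only [Vp.t, e, gc] at hR
  have := abs_add_le _ _ |>.trans (add_le_add hR (h1.trans h2))
  rw [sub_add_sub_cancel] at this
  rw [add_mul, one_mul]
  exact this

end Crest.Agent.T145.Vx
end

-- ▼ part T145/VxKs_28
section

/-!
# Row 145, module Vx: `KsStmt`, `GdStmt`, `ParStmt` (helper28)
-/

set_option autoImplicit false

namespace Crest.Agent.T145.Vx

open Finset Filter
open Nc (an Amb Gd)

variable {b : ℝ} {c R : ℕ}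

/-- near a core the seam is a unit vortex -/
theorem vtx_p (b : ℝ) (V : Vp) (h : 2 * c ≤ V.r) {U : Finset Pt} (hU : U ⊆ bl V.p c) :
    Ks68.Vtx (xyL b) V.p U V.σ := by
  obtain ⟨a, r, sd⟩ := V
  have k : ∀ e ∈ (xyL b).edI U, e.1 ∈ U ∧ e.2 ∈ U ∧ _ := fun e he =>
    ⟨(Lat.mem_edI.1 he).2.1, (Lat.mem_edI.1 he).2.2, Es28.jp_nn rfl (Lat.mem_edI.1 he).1⟩
  cases sd
  · refine ⟨-1, cst (U.filter fun x => 0 ≤ x.2) 1, .inr rfl, fun e he => ?_⟩
    obtain ⟨h1, h2, h3⟩ := k e he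
    have h4 := mem_bl.1 (hU h1)
    have h5 := mem_bl.1 (hU h2)
    simp only [Vp.p, Vp.σ, sm, Vd.ray, dE, cst_apply, mem_filter, h1, h2, true_and,
      Bool.false_eq_true, if_false] at h h4 h5 ⊢
    split_ifs <;> omega
  · refine ⟨1, 0, .inl rfl, fun e he => ?_⟩
    obtain ⟨h1, h2, h3⟩ := k e he
    have h4 := mem_bl.1 (hU h1)
    have h5 := mem_bl.1 (hU h2)
    simp only [Vp.p, Vp.σ, sm, Vd.ray, dE, if_true, Finsupp.zero_apply] at h h4 h5 ⊢
    split_ifs <;> omega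

theorem uu_eq (hΛ : (xyL b).Ok) (V : Vp) (h : 2 * c ≤ V.r) : uu b V c = Ks68.uu (xyL b) c :=
  Ks68.zN_bl hΛ (vtx_p b V h subset_rfl)

theorem tt_eq (hΛ : (xyL b).Ok) (V : Vp) (h : 2 * R ≤ V.r) : tt b V c R = Ks68.TT (xyL b) c R :=
  Ks68.zN_an hΛ (vtx_p b V h sdiff_subset)

theorem sig_eq (V : Vp) (e : Pt × Pt) : V.σ e = Es28.sm (V.a, 0) V.r e := by
  simp only [Vp.σ, sm, Vd.ray, Es28.sm]
  split_ifs <;> omega

theorem crit_tI {Λ : Lat} (h : Λ.Crit) : 0 < Λ.tI := h.1.gI_pos_iff.1 (by rw [h.2.1]; positivity)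

/-- (H) at a stiff point -/
theorem hTT (hH : Es28.HKStmt) (hm : T1mStmt) {Λ : Lat} (h : Λ.Ok) (hJ : Λ.J = nn) (h0 : 0 < Λ.tI) :
    ∃ ρ₀ n : ℕ, ∀ c R : ℕ, ρ₀ ≤ c → c < R → ((c : ℝ) / R) ^ n ≤ 4 ^ n * Ks68.TT Λ c R := by
  obtain ⟨C, δ, hδ, H⟩ := hH (Λ.fa h) (Λ.tI / 2) (half_pos h0)
  obtain ⟨l, hl⟩ := ((hm.1 Λ h).2.2.2.2.2 h0 δ hδ).exists
  obtain ⟨k, -, H⟩ := H Λ (Lat.mem_fa h) hJ l
  refine ⟨⌈l / δ⌉₊, C, fun c R hc hR => ?_⟩
  obtain ⟨j, hw, hj⟩ := (hl.and (eventually_ge_atTop R)).exists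
  have k1 := (H _ hw 0 R (by have := j.lt_two_pow_self; omega)).1 c
    (by rw [← div_le_iff₀' hδ]; exact (Nat.le_ceil _).trans (by exact_mod_cast hc)) hR
  have r1 : (1 : ℝ) ≤ R := by exact_mod_cast (by omega : 1 ≤ R)
  refine le_trans ?_ (mul_le_mul_of_nonneg_left k1 (by positivity))
  rw [← mul_pow]
  refine pow_le_pow_left₀ (by positivity) ?_ _
  rw [← mul_div_assoc, div_le_div_iff₀ (by positivity) (by positivity)]
  nlinarith [(by positivity : (0 : ℝ) ≤ c)]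

theorem ksStmt_of (hQ : Ks68.QmStmt) (hH : Es28.HKStmt) (hm : T1mStmt) : KsStmt := fun b hb => by
  have h := hb.1
  obtain ⟨K, ρ₀, hK, q1, q2⟩ := hQ _ h rfl hb.2.1.ge
  obtain ⟨ρ₁, n, H⟩ := hTT hH hm h rfl (crit_tI hb)
  refine ⟨max K (4 ^ n), ρ₀ + ρ₁, n, le_max_of_le_left hK,
    fun c => ⟨_, Ks68.uu_pos h c, fun V hV => (uu_eq h V hV).ge⟩, fun V => ⟨fun c R h1 h2 h3 => ?_,
    fun m h1 h2 => ?_⟩⟩
  · rw [uu_eq h V h3, tt_eq h V h3, uu_eq h V (by omega : 2 * c ≤ V.r)]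
    exact ⟨(q1 c R (by omega) h2.le).trans
      (mul_le_mul_of_nonneg_right (le_max_left _ _) (Ks68.uu_pos h R).le),
      (H c R (by omega) h2).trans (mul_le_mul_of_nonneg_right (le_max_right _ _) (Ks68.TT_pos h c R).le)⟩
  · rw [uu_eq h V (by omega), uu_eq h V.sw (by change _ ≤ V.r; omega), ← pow_two]
    refine (q2 V.r (V.a, 0) m V.σ (by omega) ⟨h2.ctr, h2.anch, ?_, h2.near.mono ?_⟩
      fun e _ => sig_eq V e).trans (mul_le_mul_of_nonneg_right (le_max_left _ _)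
        (Ks68.zr_pos h2.ctr h2.anch _).le)
    all_goals
      first
      | refine Subset.trans (fun x hx => ?_) h2.sub
      | intro x hx
      simp only [mem_bl, Vp.p] at hx ⊢
      split_ifs <;> push_cast at hx ⊢ <;> omega

theorem ksStmt (hQ : Ks68.QmStmt) (hG : GffDStmt) (hm : T1mStmt) : KsStmt :=
  ksStmt_of hQ (Es28.hKStmt hG hm) hm

theorem gdStmt (hG : Nc.GdStmt) : GdStmt := fun b hb g hg => by
  have h := hb.1
  obtain ⟨W₁, r₀, _, -, H⟩ := hG ((xyL b).fa h) _ g (crit_tI hb) hg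
  have H := (H _ (Lat.mem_fa h)).2 le_rfl
  refine ⟨W₁, fun W hW => ⟨r₀, fun L => ⟨(H 0).1.trans hW, (H 0).2.1, fun r h1 h2 => ?_⟩⟩⟩
  have a := H L
  have : 2 * r ≤ W₁ * r := Nat.mul_le_mul_right _ a.1
  exact (((Nc.U.lgeo _ h).1 r (W₁ * r) r (W * r) le_rfl (Nat.mul_le_mul_right _ hW)
    (by have := a.2.1; omega)).2).trans (a.2.2 r h1 h2)

theorem up_K {x y K K' : ℝ} (h : x ≤ K * y) (h0 : 0 ≤ x) (h1 : 1 ≤ K) (h2 : K ≤ K') : x ≤ K' * y :=
  h.trans (mul_le_mul_of_nonneg_right h2 (nonneg_of_mul_nonneg_right (h0.trans h) (by linarith)))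

theorem parStmt (hG : GdStmt) (hC : CritXy) (hK : KsStmt) : ParStmt := fun b hb => by
  obtain ⟨W₁, hG⟩ := hG b hb (1 / 400) (by norm_num)
  obtain ⟨W₂, C, δ, hδ, hC⟩ := hC b hb
  obtain ⟨K, ρ₀, n, K1, k0, hK⟩ := hK b hb
  obtain ⟨r₁, hG⟩ := hG (W₁ + W₂ + 4) (by omega)
  obtain ⟨r₂, hC⟩ := eventually_atTop.1 hC
  have l1 : ∀ r : ℕ, 16 ≤ r → 1 ≤ Real.log r := fun r hr => by
    rw [Real.le_log_iff_exp_le (by positivity)]
    have : (16 : ℝ) ≤ r := by exact_mod_cast hr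
    linarith [Real.exp_one_lt_d9]
  have e : ∀ (r : ℕ) (x : ℝ), 16 ≤ r → x ≤ δ →
      C * Real.log r ^ (-1 - δ) ≤ max C K * Real.log r ^ (-1 - x) := fun r x hr hx =>
    (mul_le_mul_of_nonneg_right (le_max_left C K) (by have := l1 r hr; positivity)).trans
      (mul_le_mul_of_nonneg_left (Real.rpow_le_rpow_of_exponent_le (l1 r hr) (by linarith))
        (le_max_of_le_right (by linarith)))
  have d1 : min (δ / 2) (1 / 4) ≤ δ / 2 := min_le_left _ _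
  have w : ∀ {r c : ℕ}, (W₁ + W₂ + 4) * r ≤ c → W₂ * r ≤ c := fun h =>
    (Nat.mul_le_mul_right _ (by omega)).trans h
  refine ⟨⟨b, W₁ + W₂ + 4, r₁ + r₂ + ρ₀ + 16, n, max C K, min (δ / 2) (1 / 4)⟩, rfl, hb,
    by simp, by simp, le_max_of_le_right K1, lt_min (half_pos hδ) (by norm_num), min_le_right _ _,
    fun L => ⟨(hG L).1, (hG L).2.1.trans (by simp only; omega), fun r h1 h2 =>
      (hG L).2.2 r (by simp only at h1; omega) h2⟩, fun r hr z c hc => ?_, fun r hr => ?_,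
    fun r hr => ?_, k0, fun V c R h1 h2 h3 => ?_, fun V m h1 h2 => ?_⟩ <;>
    simp only at *
  · exact ((hC r (by omega)).1 z c (w hc)).trans (div_le_div_of_nonneg_right (le_max_left _ _)
      (by have := l1 r (by omega); positivity))
  · obtain ⟨R, H⟩ := (hC r (by omega)).2.1
    exact ⟨R, fun m z hm => (H m z hm).trans (e r _ (by omega) (by linarith))⟩
  · obtain ⟨a, ξ, R, a1, a2, H⟩ := (hC r (by omega)).2.2
    refine ⟨a, ξ, R, a1, a2, fun z => ⟨fun c hc => ((H z).1 c (w hc)).trans ?_, fun m hm =>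
      ((H z).2 m hm).trans ?_⟩⟩ <;>
    exact div_le_div_of_nonneg_right (e r _ (by omega) (by linarith)) (by positivity)
  · obtain ⟨a1, a2⟩ := (hK V).1 c R (by omega) h2 h3
    obtain ⟨k, kp, hk⟩ := k0 R
    exact ⟨a1.trans (mul_le_mul_of_nonneg_right (le_max_right _ _) (kp.le.trans (hk V h3))),
      up_K a2 (by positivity) K1 (le_max_right _ _)⟩
  · obtain ⟨k, kp, hk⟩ := k0 (V.r / 4)
    exact up_K ((hK V).2 m (by omega) h2) (mul_nonneg (kp.le.trans (hk V (by omega)))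
      (kp.le.trans (hk V.sw (by change _ ≤ V.r; omega)))) K1 (le_max_right _ _)

end Crest.Agent.T145.Vx
end

-- ▼ part T145/VxTr_12
section

/-!
# Row 145, module Vx: `trStmt`, `ggStmt`, `yStmt` (unconditional; helper12)
-/

set_option autoImplicit false

namespace Crest.Agent.T145.Vx

open Finset
open Nc (an Amb Nm St pn rs)
open Vd (rat ray)
open Ks68 (tw tw_ne tw_pos)

namespace Tr12

section gen
variable {V : Type} [DecidableEq V] {m : Mdl V} {B S : Finset V} {F : Cfg V → ℝ}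

/-- a tame function of finitely many heights is dominated by one-site exponentials -/
theorem dom_exp (hF : Tame F) (hD : Dep S F) (hS : S.Nonempty) : ∃ C a : ℝ, 0 ≤ C ∧ 0 ≤ a ∧
    ∀ t, |F t| ≤ C * ∑ x ∈ S, (Real.exp (a * t x) + Real.exp (-a * t x)) := by
  obtain ⟨C, T, hC, h⟩ := hF.exists_nonneg
  refine ⟨C * T.card, ∑ f ∈ T, ∑ x ∈ S, |f (Finsupp.single x 1)|, by positivity,
    sum_nonneg fun _ _ => sum_nonneg fun _ _ => abs_nonneg _, fun t => ?_⟩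
  set a : ℝ := ∑ f ∈ T, ∑ x ∈ S, |f (Finsupp.single x 1)| with ha
  obtain ⟨y, hy, hm⟩ := exists_max_image S (fun x => |(t x : ℝ)|) hS
  rw [hD t (∑ x ∈ S, t x • Finsupp.single x 1) fun x hx => by
    simp [Finsupp.finsetSum_apply, Finsupp.single_apply, hx]]
  refine (h _).trans ?_
  rw [mul_assoc, ← nsmul_eq_mul]
  refine mul_le_mul_of_nonneg_left (sum_le_card_nsmul _ _ _ fun f hf => ?_) hC
  have h1 : f (∑ x ∈ S, t x • Finsupp.single x 1) ≤ a * |(t y : ℝ)| := by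
    rw [map_sum]
    calc _ ≤ ∑ x ∈ S, |f (Finsupp.single x 1)| * |(t y : ℝ)| := sum_le_sum fun x hx => by
          rw [map_zsmul, zsmul_eq_mul, mul_comm]
          refine (le_abs_self _).trans ?_
          rw [abs_mul]
          exact mul_le_mul_of_nonneg_left (hm x hx) (abs_nonneg _)
      _ ≤ _ := by
          rw [← sum_mul]
          exact mul_le_mul_of_nonneg_right (single_le_sum
            (f := fun f : Cfg V →+ ℝ => ∑ x ∈ S, |f (Finsupp.single x 1)|)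
            (fun _ _ => sum_nonneg fun _ _ => abs_nonneg _) hf) (abs_nonneg _)
  refine (Real.exp_le_exp.2 h1).trans (le_trans ?_ (single_le_sum
    (f := fun x => Real.exp (a * t x) + Real.exp (-a * t x)) (fun _ _ => by positivity) hy))
  rcases abs_cases (t y : ℝ) with e | e <;> rw [e.1]
  · exact le_add_of_nonneg_right (Real.exp_pos _).le
  · rw [mul_neg, neg_mul]; exact le_add_of_nonneg_left (Real.exp_pos _).le

/-- a monotone covariant function is tame -/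
theorem tame_cov {Φ : Cfg V → ℝ} {a : ℝ} (hS : S.Nonempty) (h0 : ∀ s, 0 ≤ Φ s) (hD : Dep S Φ)
    (hm : Monotone Φ ∨ Antitone Φ) (hc : ∀ h : ℤ, Φ (cst S h) = Real.exp (a * h) * Φ 0) : Tame Φ := by
  refine (((Tame.sum S fun y _ => Tame.exp (a • evH y))).mul_const (Φ 0)).of_le fun s => ?_
  have key : ∃ y ∈ S, Φ s ≤ Φ (cst S (s y)) := by
    rw [hD s (pw S s 0) fun x hx => (pw_of_mem _ _ hx).symm]
    rcases hm with hm | hm
    · obtain ⟨y, hy, h⟩ := exists_max_image S (fun x => s x) hS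
      refine ⟨y, hy, hm fun x => ?_⟩
      by_cases hx : x ∈ S
      · rw [pw_of_mem _ _ hx, cst_of_mem _ hx]; exact h x hx
      · rw [pw_of_notMem _ _ hx, cst_of_notMem _ hx]; exact le_rfl
    · obtain ⟨y, hy, h⟩ := exists_min_image S (fun x => s x) hS
      refine ⟨y, hy, hm fun x => ?_⟩
      by_cases hx : x ∈ S
      · rw [pw_of_mem _ _ hx, cst_of_mem _ hx]; exact h x hx
      · rw [pw_of_notMem _ _ hx, cst_of_notMem _ hx]; exact le_rfl
  obtain ⟨y, hy, h⟩ := key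
  rw [abs_of_nonneg (h0 s)]
  refine h.trans ((hc _).trans_le (mul_le_mul_of_nonneg_right ?_ (h0 0)))
  exact single_le_sum (f := fun y => Real.exp ((a • evH y : Cfg V →+ ℝ) s))
    (fun _ _ => (Real.exp_pos _).le) hy

/-- conditional expectations of tame functions are tame (log-concave kernels, no site weights) -/
theorem tame_cE (lc : ∀ e ∈ m.ed, LC (m.w e)) (h1 : ∀ x ∈ B, ∀ k, m.site x k = 1)
    (hW : ∀ s, Wt ((m.free B).W s)) (hE : ∀ s, SE ((m.free B).W s)) (hS : S.Nonempty) (hB : B ⊆ S)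
    (hb : m.bd B ⊆ S) (hF : Tame F) (hD : Dep S F) : Tame (m.cE B F) := by
  have hw : ∀ e ∈ m.ed, ∀ k, m.w e k ≠ 0 := fun e he k => ((lc e he).1 k).ne'
  have tm : ∀ (a : ℝ) (x : V), Tame fun t : Cfg V => Real.exp (a * t x) := fun a x =>
    Tame.exp (a • evH x)
  have one : ∀ (a : ℝ), ∀ x ∈ S, Tame (m.cE B fun t => Real.exp (a * t x)) := by
    intro a x hx
    have hd : ∀ {s s' : Cfg V}, s ≤ s' → Dom ((m.free B).W s) ((m.free B).W s') := fun h =>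
      Mdl.dom_bc (m := m.free B) lc (fun y hy k => by rw [Mdl.free_site, h1 y hy]; exact zero_le_one)
        fun y _ => h y
    refine tame_cov (a := a) hS (fun s => Mdl.cE_nonneg (hW s).nonneg fun _ => (Real.exp_pos _).le)
      ((Mdl.cE_dep hw ((Dep.ev hx).comp fun k : ℤ => Real.exp (a * k))).mono
        (union_subset hb sdiff_subset)) ?_ fun h => ?_
    · rcases le_total 0 a with ha | ha
      · exact Or.inl fun s s' h => (hd h).ex_le (hW _) (hW _) (fun t t' ht => Real.exp_le_exp.2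
          (mul_le_mul_of_nonneg_left (by exact_mod_cast ht x) ha)) ((hE _).ig (tm a x))
          ((hE _).ig (tm a x))
      · exact Or.inr fun s s' h => (hd h).ex_ge (hW _) (hW _) (fun t t' ht => Real.exp_le_exp.2
          (mul_le_mul_of_nonpos_left (by exact_mod_cast ht x) ha)) ((hE _).ig (tm a x))
          ((hE _).ig (tm a x))
    · have := Mdl.cE_shift (B := B) hw (δ := cst S h) (fun y hy k => by rw [h1 y hy, h1 y hy])
        (fun e he => by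
          rw [cst_of_mem h ((Mdl.ends_of_edM he).1.elim (@hB _) (@hb _)),
            cst_of_mem h ((Mdl.ends_of_edM he).2.elim (@hB _) (@hb _))])
        (fun t => Real.exp (a * t x)) 0
      rw [zero_add] at this
      rw [this, Mdl.cE_def, Mdl.cE_def, ← Ex_const_mul]
      refine Ex_congr fun t _ => ?_
      rw [Finsupp.add_apply, cst_of_mem h hx, ← Real.exp_add]
      push_cast; ring_nf
  obtain ⟨C, a, hC, -, h⟩ := dom_exp hF hD hS
  refine ((Tame.sum S fun x hx => (one a x hx).add (one (-a) x hx)).const_mul C).of_le fun s => ?_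
  have i1 : ∀ x ∈ S, Ig ((m.free B).W s) fun t => Real.exp (a * t x) + Real.exp (-a * t x) :=
    fun x _ => (hE s).ig ((tm a x).add (tm (-a) x))
  refine (Mdl.abs_cE_le (hW s).nonneg ((hE s).ig hF)).trans
    ((Ex_mono (hW s).nonneg ((hE s).ig hF.abs) ((Ig.sum S i1).const_mul C) h).trans_eq ?_)
  rw [Ex_const_mul, Ex_sum S i1]
  congr 1
  exact sum_congr rfl fun x _ => Ex_add ((hE s).ig (tm a x)) ((hE s).ig (tm (-a) x))

omit [DecidableEq V] in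
theorem lc_tw (h : m.Fm) (σ : V × V → ℤ) : ∀ e ∈ (tw m σ).ed, LC ((tw m σ).w e) := fun e he =>
  ⟨fun k => (h.lc e he).1 _, fun k => by
    have := (h.lc e he).2 (k + σ e)
    rwa [show k + σ e - 1 = k - 1 + σ e by ring, show k + σ e + 1 = k + 1 + σ e by ring] at this⟩

/-- a pure gauge seam is a shift of the heights -/
theorem Ws_pure {σ : V × V → ℤ} {u : Cfg V} (h1 : ∀ x ∈ m.A, ∀ k, m.site x k = 1)
    (hσ : ∀ e ∈ m.ed, σ e = dE e u) (η t : Cfg V) : m.Ws η σ t = m.W (η + u) (t + u) := by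
  rw [Md.W_eq_Ws, Md.Ws_gauge m η u t 0 fun x hx k => by rw [h1 x hx, h1 x hx],
    Sl46.Ws_congr m η (σ := σ) (σ' := fun e => (0 : V × V → ℤ) e + dE e u) fun e he => by
      rw [hσ e he, Pi.zero_apply, zero_add]]

theorem ex_pure {σ : V × V → ℤ} {u : Cfg V} (h1 : ∀ x ∈ m.A, ∀ k, m.site x k = 1)
    (hσ : ∀ e ∈ m.ed, σ e = dE e u) (η : Cfg V) (G : Cfg V → ℝ) :
    Ex (m.Ws η σ) (fun t => G (t + u)) = Ex (m.W (η + u)) G := by
  rw [← Md.ex_equiv (Equiv.addRight u) (m.W (η + u))]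
  simp only [Equiv.coe_addRight, ← Ws_pure h1 hσ]

theorem zs_pure {σ : V × V → ℤ} {u : Cfg V} (h1 : ∀ x ∈ m.A, ∀ k, m.site x k = 1)
    (hσ : ∀ e ∈ m.ed, σ e = dE e u) (η : Cfg V) : Zs (m.Ws η σ) = Zs (m.W (η + u)) := by
  rw [← Md.zs_equiv (Equiv.addRight u) (m.W (η + u))]
  simp only [Equiv.coe_addRight, ← Ws_pure h1 hσ]

/-- the gauge function that vanishes at the root `r` and off `B` -/
noncomputable def gr (B : Finset V) (r : V) (g : Cfg V) : Cfg V := pw B (g + cst B (-g r)) 0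

theorem gr_mem {r x : V} (g : Cfg V) (hx : x ∈ B) : gr B r g x = g x + -g r := by
  rw [gr, pw_of_mem _ _ hx, Finsupp.add_apply, cst_of_mem _ hx]

theorem gr_off {r x : V} (g : Cfg V) (hx : x ∉ B.erase r) : gr B r g x = 0 := by
  by_cases h : x ∈ B
  · obtain rfl : x = r := by_contra fun h' => hx (mem_erase.2 ⟨h', h⟩)
    rw [gr_mem g h, add_neg_cancel]
  · rw [gr, pw_of_notMem _ _ h]; rfl

theorem dE_gr {r : V} (g : Cfg V) {e : V × V} (h1 : e.1 ∈ B) (h2 : e.2 ∈ B) :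
    dE e (gr B r g) = dE e g := by
  rw [dE, dE, gr_mem g h1, gr_mem g h2]; ring

end gen

section lat
variable {Λ : Lat} {σ : Pt × Pt → ℤ} {z z' : Pt} {R c : ℕ} {F G : Cfg Pt → ℝ} {m : Mdl Pt}


theorem wt_D (h : Λ.Ok) (B : Finset Pt) (σ : Pt × Pt → ℤ) (s : Cfg Pt) : Wt ((Λ.D B).Ws s σ) :=
  Md.ctr_wts (h.ctr_D B) (h.anch_D B) s σ

theorem se_D (h : Λ.Ok) (B : Finset Pt) (σ : Pt × Pt → ℤ) (s : Cfg Pt) : SE ((Λ.D B).Ws s σ) :=
  Md.ctr_ses (h.ctr_D B) (h.anch_D B) s σ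

theorem wt_Nr (h : Λ.Ok) {r : Pt} (hr : r ∈ bl z c) (σ : Pt × Pt → ℤ) : Wt ((Λ.Nr (bl z c) r).Ws 0 σ) :=
  Md.ctr_wts (h.ctr_Nr _ r) (h.anch_Nr_bl hr) 0 σ

theorem se_Nr (h : Λ.Ok) {r : Pt} (hr : r ∈ bl z c) (σ : Pt × Pt → ℤ) : SE ((Λ.Nr (bl z c) r).Ws 0 σ) :=
  Md.ctr_ses (h.ctr_Nr _ r) (h.anch_Nr_bl hr) 0 σ

theorem bd_D (σ : Pt × Pt → ℤ) : (tw (Λ.D (bl z R)) σ).bd (bl z R) ⊆ an z R (R + Λ.rg) :=
  Nc.Geo.bd_subset fun _ he h => Nc.Geo.near_bl (Lat.mem_edT.1 he).1 h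


theorem tame_D (h : Λ.Ok) {B S : Finset Pt} (hS : S.Nonempty) (hB : B ⊆ S)
    (hb : (tw (Λ.D B) σ).bd B ⊆ S) (hF : Tame F) (hD : Dep S F) : Tame ((tw (Λ.D B) σ).cE B F) := by
  have e : ∀ s, ((tw (Λ.D B) σ).free B).W s = (Λ.D B).Ws s σ := fun _ => rfl
  have e1 : ∀ x ∈ B, ∀ k, (tw (Λ.D B) σ).site x k = 1 := fun _ _ _ => rfl
  have e2 : ∀ s, Wt (((tw (Λ.D B) σ).free B).W s) := fun s => by rw [e]; exact wt_D h B σ s
  have e3 : ∀ s, SE (((tw (Λ.D B) σ).free B).W s) := fun s => by rw [e]; exact se_D h B σ s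
  have e4 := lc_tw (h.ctr_D B).1 σ
  exact tame_cE e4 e1 e2 e3 hS hB hb hF hD

theorem tame_tr (h : Λ.Ok) (hF : Ins z (R + Λ.rg) F) : Tame (Λ.tr σ z R F) :=
  tame_D h ⟨z, self_mem_bl z _⟩ (bl_mono z (Nat.le_add_right _ _))
    ((bd_D σ).trans (Nc.Geo.an_subset_bl z _ _)) hF.2 hF.1.dep

theorem depG_tr (h : Λ.Ok) (hF : DepG (bl z (R + Λ.rg)) F) : DepG (an z R (R + Λ.rg)) (Λ.tr σ z R F) :=
  (Mdl.cE_depG (m := tw (Λ.D (bl z R)) σ) (tw_ne (h.ctr_D _).1 σ) (fun _ _ _ _ => rfl) hF).mono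
    (union_subset (bd_D σ) Subset.rfl)

theorem ins_tr (h : Λ.Ok) (hF : Ins z (R + Λ.rg) F) : Ins z (R + Λ.rg) (Λ.tr σ z R F) :=
  ⟨(depG_tr h hF.1).mono sdiff_subset, tame_tr h hF⟩

theorem abs_tr_le (h : Λ.Ok) (hF : Tame F) (s : Cfg Pt) :
    |Λ.tr σ z R F s| ≤ Λ.tr σ z R (fun t => |F t|) s :=
  abs_Ex_le (wt_D h _ σ s).nonneg ((se_D h _ σ s).ig hF)

/-- DLR with a seam, any boundary condition -/
theorem dlr (h : Λ.Ok) (hc : m.Ctr) (ha : m.Anch) (hn : Λ.Near m (bl z R)) (hA : bl z R ⊆ m.A)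
    (η : Cfg Pt) (hF : Tame F) (hO : Out (bl z R) G) (hG : Tame G) :
    Ex (m.Ws η σ) (fun s => F s * G s) = Ex (m.Ws η σ) fun s => Λ.tr σ z R F s * G s := by
  have := (Md.dlr_mul (tw m σ) η hA (Md.ctr_wts hc ha η σ) hO (F := F)
    ((Md.ctr_ses hc ha η σ).ig (hG.mul hF))).2
  simp only [mul_comm (G _)] at this
  refine this.trans (Ex_congr fun s _ => ?_)
  exact congrArg (· * G s) ((hn.pps h hc.1 s σ).ex F)

/-- the root of the free box is irrelevant -/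
theorem exN_root {r : Pt} (hr : r ∈ bl z c) (hF : DepG (bl z c) F) :
    Λ.exN σ z c F = Ex ((Λ.Nr (bl z c) r).Ws 0 σ) F :=
  ex_root (tw (Λ.N (bl z c)) σ) (self_mem_bl z c) hr (fun _ he => (Lat.mem_edI.1 he).2)
    (fun _ _ => rfl) (hF.shift Subset.rfl)

theorem exN_tr (h : Λ.Ok) (hF : Ins z (R + Λ.rg) F) (hc : bl z (R + Λ.rg) ⊆ bl z' c)
    (hO : Out (bl z R) G) (hG : Tame G) (hD : DepG (bl z' c) G) :
    Λ.exN σ z' c (fun s => F s * G s) = Λ.exN σ z' c fun s => Λ.tr σ z R F s * G s := by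
  have h1 := h.one_le_rg
  have hr : ((z.1 + R + 1, z.2) : Pt) ∈ bl z' c := hc (by rw [mem_bl]; dsimp only; omega)
  rw [exN_root hr ((hF.1.mono hc).mul hD), exN_root hr (((ins_tr h hF).1.mono hc).mul hD)]
  refine dlr h (h.ctr_Nr _ _) (h.anch_Nr_bl hr)
    (Lat.near_Nr (Lat.edT_subset_edI fun x hx => (bl_subset_bl hx (by omega)).trans hc) _)
    (fun x hx => mem_erase.2 ⟨?_, hc (bl_mono z (by omega) hx)⟩) 0 hF.2 hO hG
  rintro rfl
  rw [mem_bl] at hx; dsimp only at hx; omega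

theorem exN_tr1 (h : Λ.Ok) (hF : Ins z (R + Λ.rg) F) (hc : bl z (R + Λ.rg) ⊆ bl z' c) :
    Λ.exN σ z' c (Λ.tr σ z R F) = Λ.exN σ z' c F := by
  simpa only [mul_one] using
    (exN_tr (σ := σ) h hF hc (Out.const _ 1) (Tame.const 1) (DepG.const _ 1)).symm

theorem nrm_tr (h : Λ.Ok) (hF : Ins z (R + Λ.rg) F) (hc : bl z (R + Λ.rg) ⊆ bl z' c) :
    Λ.nrm σ z' c (Λ.tr σ z R F) ≤ Λ.nrm σ z' c F := by
  have hA : Ins z (R + Λ.rg) fun t => |F t| := ⟨hF.1.comp _, hF.2.abs⟩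
  have hs := se_Nr h (self_mem_bl z' c) σ
  exact (Ex_mono (wt_Nr h (self_mem_bl z' c) σ).nonneg (hs.ig (tame_tr h hF).abs)
    (hs.ig (tame_tr h hA)) (abs_tr_le h hF.2)).trans_eq (exN_tr1 h hA hc)

end lat

/-! ## summation by parts -/

theorem hfs {u : Pt → ℝ} {S : Finset Pt} (h : Sup S u) : Function.HasFiniteSupport u :=
  S.finite_toSet.subset fun x hx => by_contra fun h' => hx (h x h')

theorem hfs_df {u : Pt → ℝ} (h : Function.HasFiniteSupport u) (i : Fin 2) :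
    Function.HasFiniteSupport (df i u) :=
  Function.HasFiniteSupport.sub (h.comp_of_injective (add_left_injective (ev i))) h

theorem hfs_mul {u : Pt → ℝ} (h : Function.HasFiniteSupport u) (φ : Pt → ℝ) :
    Function.HasFiniteSupport fun z => u z * φ z :=
  Set.Finite.subset h fun _ hx => left_ne_zero_of_mul hx

theorem hfs_sum {u : Pt → ℝ} (h : Function.HasFiniteSupport u) (φ : Fin 2 → Pt → ℝ) :
    Function.HasFiniteSupport fun z => ∑ i, df i u z * φ i z := by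
  simp only [Fin.sum_univ_two]
  exact Function.HasFiniteSupport.add (hfs_mul (hfs_df h 0) _) (hfs_mul (hfs_df h 1) _)

theorem sbp {v : Pt → ℝ} (h : Function.HasFiniteSupport v) (φ : Fin 2 → Pt → ℝ) :
    ∑ᶠ z, v z * ∑ i, (φ i (z - ev i) - φ i z) = ∑ᶠ z, ∑ i, df i v z * φ i z := by
  simp only [mul_sum]
  rw [finsum_sum_comm _ _ fun i _ => hfs_mul h _, finsum_sum_comm _ _ fun i _ => hfs_mul (hfs_df h i) _]
  refine sum_congr rfl fun i _ => ?_
  simp only [mul_sub, df, sub_mul]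
  rw [finsum_sub_distrib (hfs_mul h _) (hfs_mul h _), finsum_sub_distrib (hfs_mul
    (u := fun z => v (z + ev i)) (h.comp_of_injective (add_left_injective (ev i))) _) (hfs_mul h _),
    ← finsum_comp_equiv (Equiv.addRight (ev i)) (f := fun z => v z * φ i (z - ev i))]
  simp only [Equiv.coe_addRight, add_sub_cancel_right]

theorem A0_eq (u : Pt → ℝ) (z : Pt) : A0 u z = ∑ i, (df i u (z - ev i) - df i u z) := by
  simp only [Fin.sum_univ_two, df, A0, ev, Matrix.cons_val_zero, Matrix.cons_val_one,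
    sub_eq_add_neg z, Prod.neg_mk, neg_zero]
  simp only [add_assoc, Prod.mk_add_mk, neg_add_cancel, add_zero, Prod.mk_zero_zero]
  ring

theorem fin_eq {u : Pt → ℝ} {S : Finset Pt} (h : Sup S u) (φ : Pt → ℝ) :
    ∑ᶠ z, u z * φ z = ∑ z ∈ S, u z * φ z :=
  finsum_eq_sum_of_support_subset _ fun x hx => by_contra fun h' => hx (by simp only [h x h', zero_mul])

theorem Jv_zero (z : Pt) : Jv 0 z = Jz z := by
  funext s
  simp only [Jv, Jz, nE, dE, Fin.sum_univ_two, ev, Matrix.cons_val_zero, Matrix.cons_val_one,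
    Pi.zero_apply, sub_eq_add_neg z, Prod.neg_mk, neg_zero]
  push_cast; ring

theorem ins_Jv (σ : Pt × Pt → ℤ) (z : Pt) : Ins z 1 (Jv σ z) := by
  have h0 := self_mem_bl z 1
  have h1 : ∀ i, z - ev i ∈ bl z 1 ∧ z + ev i ∈ bl z 1 := fun i => by
    fin_cases i <;> simp [mem_bl, ev] <;> omega
  refine ⟨DepG.sum fun i _ => DepG.sub ?_ ?_, Tame.sum _ fun i _ => Tame.sub ?_ ?_⟩
  · exact (DepG.dE (e := (z - ev i, z)) (h1 i).1 h0).comp fun k => ((k + σ (z - ev i, z) : ℤ) : ℝ)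
  · exact (DepG.dE (e := (z, z + ev i)) h0 (h1 i).2).comp fun k => ((k + σ (z, z + ev i) : ℤ) : ℝ)
  · exact ((Tame.dE (z - ev i, z)).add (Tame.const (σ (z - ev i, z) : ℝ))).congr fun s => by simp [nE]
  · exact ((Tame.dE (z, z + ev i)).add (Tame.const (σ (z, z + ev i) : ℝ))).congr fun s => by simp [nE]

end Tr12

open Tr12

theorem trStmt : TrStmt := fun b σ z R F hb hF => by
  have h := xyL_ok hb
  rw [← xyL_rg b] at hF ⊢
  exact ⟨tame_tr h hF, depG_tr h hF.1, fun _ _ hc => nrm_tr h hF hc, fun _ hO hG =>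
    ⟨fun _ _ hc => funext fun s => dlr h (h.ctr_D _) (h.anch_D _) (Lat.near_D hc) hc s hF.2 hO hG,
      fun _ _ hc hD => exN_tr h hF hc hO hG hD,
      fun _ hm => dlr h hm.ctr hm.anch hm.near hm.sub 0 hF.2 hO hG⟩⟩

theorem ggStmt : GgStmt := by
  intro b V z c hb hc
  have hJ : ∀ {e : Pt × Pt}, e.2 - e.1 ∈ (xyL b).Jp → e.2 - e.1 = (1, 0) ∨ e.2 - e.1 = (0, 1) :=
    fun h => Vd.mem_Jp.1 h
  obtain ⟨g, hg⟩ : ∃ g : Cfg Pt, ∀ e ∈ (xyL b).edI (bl z c), V.σ e = dE e g := by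
    refine ⟨if V.a ≤ z.1 ∧ z.1 < V.a + V.r then cst ((bl z c).filter fun x => 0 ≤ x.2) 1 else 0,
      fun e he => ?_⟩
    obtain ⟨h1, h2, h3⟩ := Lat.mem_edI.1 he
    have h4 := hJ h1
    have h5 : c < ds z (V.a, 0) ∧ c < ds z (V.a + V.r, 0) := by
      obtain ⟨a, r, sd⟩ := V
      cases sd <;> simp only [Vp.d, Vp.p, Vp.q, Vp.sw, lt_min_iff] at hc <;> simpa using by tauto
    have h2' := mem_bl.1 h2
    have h3' := mem_bl.1 h3
    simp only [Prod.ext_iff, Prod.fst_sub, Prod.snd_sub] at h4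
    simp only [ds, lt_max_iff] at h5
    simp only [Vp.σ, sm, ray, dE]
    by_cases h6 : V.a ≤ z.1 ∧ z.1 < V.a + V.r
    · simp only [if_pos h6, cst_apply, mem_filter, h2, h3, true_and]
      split_ifs <;> omega
    · simp only [if_neg h6, Finsupp.coe_zero, Pi.zero_apply]
      split_ifs <;> omega
  refine ⟨g, hg, ?_, fun c' hc' G => ⟨fun hG => ?_, fun ρ hρ _ => funext fun s => ?_⟩⟩
  · obtain ⟨r, hr, e⟩ := Nc.rs_spec ⟨z, self_mem_bl z c⟩
    have hW := Md.ctr_wt (Ks68.fr_ctr ((xyL_ok hb).ctr_N (bl z c)).1 (bl z c)) (Ks68.fr_anch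
      ((Nc.Geo.inL_N Subset.rfl).cn (Nc.Geo.cnL_bl (xyL_ok hb) z c)) ⟨z, self_mem_bl z c⟩) 0
    rw [rat, zs_pure (u := gr (bl z c) r g) (fun _ _ _ => rfl) fun e he => by
        have h := mem_filter.1 he
        rw [hg e h.1, dE_gr g h.2.1 h.2.2],
      Mdl.W_congr _ (η' := 0) fun x hx => by
        rw [zero_add, gr_off g (by rwa [← sdiff_singleton_eq_erase, ← e])]; rfl]
    exact div_self hW.pos.ne'
  · have h := ex_pure (m := (xyL b).Nr (bl z c') z) (σ := V.σ) (u := gr (bl z c') z g)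
      (fun _ _ _ => rfl) (fun e he => by
        obtain ⟨h1, h2, h3⟩ := Lat.mem_edI.1 he
        rw [hg e (Lat.mem_edI.2 ⟨h1, bl_mono z hc' h2, bl_mono z hc' h3⟩), dE_gr g h2 h3]) 0 G
    rw [Mdl.W_congr _ (η' := 0) fun x hx => by rw [zero_add, gr_off g hx]; rfl] at h
    refine Eq.trans (Ex_congr fun s _ => hG.1 _ _ (-g z) fun x hx => ?_) h
    rw [Finsupp.add_apply, Finsupp.add_apply, gr_mem g hx, add_assoc]
  · exact ex_pure (m := (xyL b).D (bl z ρ)) (fun _ _ _ => rfl) (fun e he => hg e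
      (Lat.edT_subset_edI (fun x hx => bl_subset_bl hx (by rw [xyL_rg]; omega)) he)) s G

theorem yStmt : YStmt := by
  intro σ S u hu
  have h1 : ∀ s, Yv σ u s = ∑ z ∈ S, u z * Jv σ z s := fun s => fin_eq hu _
  refine ⟨h1, fun s => ?_, fun T v hv => ?_, ?_, fun z => ⟨ins_Jv σ z, Jv_zero z⟩⟩
  · have e1 := sbp (hfs hu) fun i z => (nE σ (z, z + ev i) s : ℝ)
    simp only [sub_add_cancel] at e1
    have hs : Sup s.support fun x => (s x : ℝ) := fun x hx => by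
      simp [Finsupp.notMem_support_iff.1 hx]
    have e2 := sbp (hfs hs) fun i z => df i u z
    simp only [← A0_eq] at e2
    rw [fin_eq hs] at e2
    rw [Yv, pr_eq_sum]
    simp only [mul_comm (A0 u _)]
    rw [e2]
    refine e1.trans ?_
    rw [← finsum_add_distrib (hfs_sum (hfs hs) _) (hfs_sum (hfs hu) _)]
    refine finsum_congr fun z => ?_
    rw [← sum_add_distrib]
    refine sum_congr rfl fun i _ => ?_
    simp only [nE, dE, df]
    push_cast; ring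
  · have e := sbp (hfs hv) fun i z => df i u z
    simp only [← A0_eq] at e
    rw [fin_eq hv] at e
    simp only [mul_comm (A0 u _)]
    rw [e, En]
    simp only [mul_comm (df _ u _)]
  · exact (Tame.sum S fun z _ => (ins_Jv σ z).2.const_mul (u z)).congr fun s => (h1 s).symm

end Crest.Agent.T145.Vx
end

-- ▼ part T145/VxTs_40
section

/-!
# Row 145, twisted module: the transfer step at a core and the contraction (helper40)
-/

set_option autoImplicit false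

namespace Crest.Agent.T145.Vx

open Finset
open Nc (an Amb pn rs hole Cut cr gam Cn)
open Ks68 (tw zx zr rWs hdt kap)

namespace Ts40

section gen
variable {V : Type} [DecidableEq V] {m : Mdl V} {N S U K T C : Finset V} {σ : V × V → ℤ}
  {F G : Cfg V → ℝ}

theorem ex_root {r : V} (hr : r ∈ U) (hF : DepG U F) :
    Ex (rWs m U σ) F = Ex ((pn m U {r}).Ws 0 σ) F := by
  have h1 := (Ks68.root_tw (m := m) (σ := σ) hr (DepG.const U (1 : ℝ))).2
  simp only [mul_one] at h1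
  rw [Ex, Ex, h1, (Ks68.root_tw hr hF).2]

/-- the insertion seen from the model with the hole -/
noncomputable def ps (m : Mdl V) (σ : V × V → ℤ) (N U T : Finset V) (F : Cfg V → ℝ) (s : Cfg V) : ℝ :=
  (tw m σ).cE (N ∪ U \ T) F s / hdt m σ N U T s

theorem ps_depG (hF : m.Fm) (h : Cut m N S U K T) (dF : DepG N F) : DepG T (ps m σ N U T F) :=
  ((Mdl.cE_depG' (m := tw m σ) (Ks68.tw_ne hF σ)
    (fun x hx k l => by rw [show (tw m σ).site = m.site from rfl, h.clB.2 x hx, h.clB.2 x hx])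
    (dF.mono (subset_union_left.trans subset_union_left))).mono h.tbd).comp₂
      (Ks68.hdt_depG h σ) (· / ·)

theorem ps_le (hF : m.Fm) (h : Cut m N S U K T) (hC : C ⊆ N) (dF : DepG C F)
    (iF : Ig (rWs m N σ) F) (s : Cfg V) :
    |ps m σ N U T F s| ≤ cr m N C S * cr m U K T * zx (Ks68.fr m N) σ fun t => |F t| := by
  have h0 := Ks68.hdt_pos hF h σ s
  obtain ⟨k1, k2⟩ := Ks68.tnb hF h hC σ dF iF s
  rw [ps, abs_div, abs_of_pos h0, div_le_iff₀ h0]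
  refine le_trans (abs_Ex_le (fun t => ?_) k1) k2
  exact Mdl.free_nonneg (m := (tw m σ).free (N ∪ U \ T)) (fun e he k => (Ks68.tw_pos hF σ e he k).le)
    (fun x hx k => by rw [show ((tw m σ).free (N ∪ U \ T)).site = m.site from rfl, h.clB.2 x hx]; norm_num)
    Subset.rfl s t

theorem ps_lin (hF : m.Fm) (h : Cut m N S U K T) (dF : DepG N F) (iF : Ig (rWs m N σ) F)
    (dG : DepG N G) (iG : Ig (rWs m N σ) G) (x y : ℝ) :
    ps m σ N U T (fun s => x * F s + y * G s) =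
      fun s => x * ps m σ N U T F s + y * ps m σ N U T G s := funext fun s => by
  have k1 := (Ks68.tnb hF h Subset.rfl σ dF iF s).1
  have k2 := (Ks68.tnb hF h Subset.rfl σ dG iG s).1
  simp only [ps, Mdl.cE_def]
  rw [show ((tw m σ).free (N ∪ U \ T)).W s = (m.free (N ∪ U \ T)).Ws s σ from rfl,
    Ex_add (k1.const_mul x) (k2.const_mul y), Ex_const_mul, Ex_const_mul]
  ring

theorem ps_zx (hc : m.Ctr) (ha : m.Anch) (h : Cut m N S U K T) (dF : DepG N F)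
    (iF : Ig (rWs m N σ) F) (iF' : Ig (m.Ws 0 σ) F) (oG : Out (N ∪ U \ T) G) (bG : ∀ s, |G s| ≤ 1) :
    zr m σ * Ex (m.Ws 0 σ) (fun s => G s * F s) = kap m N U * zr (hole m N) σ *
      Ex ((hole m N).Ws 0 σ) fun s => G s * ps m σ N U T F s := by
  have w1 := Md.ctr_wts hc ha 0 σ
  have w2 := Md.ctr_wts (Nc.hole_ctr hc N) (h.hole_anch ha) 0 σ
  have k := (Ks68.hdt_zx hc ha h σ (Φ := fun s => G s * ps m σ N U T F s)
    (oG.mul ((ps_depG hc.1 h dF).dep.out h.disjT.symm))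
    ((w2.ig_bdd (ps_le hc.1 h Subset.rfl dF iF)).bdd_mul w2.nonneg bG)).2
  rw [Ks68.zx_eq w1, Ks68.zx_eq w2] at k
  rw [mul_assoc, ← k]
  congr 1
  rw [← Ks68.tw_W, (Mdl.tower_cE_mul (m := tw m σ) h.clB.1 oG w1 (iF'.bdd_mul w1.nonneg bG)).2]
  refine congrArg _ (funext fun s => ?_)
  have h0 := (Ks68.hdt_pos hc.1 h σ s).ne'
  rw [ps]; field_simp

end gen

section lat
variable {Λ : Lat} {σ : Pt × Pt → ℤ} {z : Pt} {F : Cfg Pt → ℝ}

open Nc.Geo

/-- `Z (σ) / Z (0)` of the free model -/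
noncomputable def zN (Λ : Lat) (U : Finset Pt) (σ : Pt × Pt → ℤ) : ℝ := zr (Ks68.fr (Λ.N U) U) σ

theorem exN_eq {R : ℕ} (hF : DepG (bl z R) F) :
    Λ.exN σ z R F = Ex (rWs (Λ.N (bl z R)) (bl z R) σ) F := by
  rw [ex_root (self_mem_bl z R) hF, (inL_N Subset.rfl).pn_Ws, sdiff_singleton_eq_erase]; rfl

theorem rWs_inL {m : Mdl Pt} {U : Finset Pt} (h : InL Λ m U) : rWs m U σ = rWs (Λ.N U) U σ := by
  rw [rWs, rWs, Ks68.fr, Ks68.fr, h.pn_Ws, (inL_N Subset.rfl).pn_Ws]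

theorem zr_inL {m : Mdl Pt} {U : Finset Pt} (h : InL Λ m U) (S : Finset Pt) :
    zr (pn m U S) σ = zr (pn (Λ.N U) U S) σ := by
  rw [zr, zr, h.pn_Ws, h.pn_W, (inL_N Subset.rfl).pn_Ws, (inL_N Subset.rfl).pn_W]

theorem zN_pos (hΛ : Λ.Ok) {U : Finset Pt} (hU : CnL Λ U) (hn : U.Nonempty) : 0 < zN Λ U σ :=
  Ks68.zr_pos (Ks68.fr_ctr (hΛ.ctr_N U).1 U) (Ks68.fr_anch ((inL_N Subset.rfl).cn hU) hn) σ

/-- the hole representation of the free box -/
theorem core (hΛ : Λ.Ok) (σ : Pt × Pt → ℤ) (z : Pt) {ρ c R₁ R' : ℕ} (h1 : ρ + 2 * Λ.rg ≤ c)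
    (h2 : c ≤ R₁) (h3 : R₁ + Λ.rg ≤ R') : ∃ (Ψ : (Cfg Pt → ℝ) → Cfg Pt → ℝ) (κ : ℝ), 0 < κ ∧ κ ≤ 1 ∧
      (∀ (F G : Cfg Pt → ℝ) (x y : ℝ), Ins z c F → Ins z c G →
        Ψ (fun s => x * F s + y * G s) = fun s => x * Ψ F s + y * Ψ G s) ∧
      ∀ F, Ins z (ρ + Λ.rg) F → DepG (an z R₁ (R₁ + Λ.rg)) (Ψ F) ∧
        (∀ s, |Ψ F s| ≤ gam Λ ρ c * gam Λ c (R₁ + Λ.rg) * (zN Λ (bl z c) σ * Λ.nrm σ z c F)) ∧
        ∀ G, DepG (an z R₁ R') G → (∀ s, |G s| ≤ 1) →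
          zN Λ (bl z R') σ * Λ.exN σ z R' (fun s => G s * F s) = κ * zN Λ (an z c R') σ *
            Ex (rWs (Λ.N (an z c R')) (an z c R') σ) fun s => G s * Ψ F s := by
  have hrg := hΛ.one_le_rg
  set r : Pt := (z.1 + R', z.2) with hr
  have r1 : r ∈ bl z R' := by simp only [hr, mem_bl]; omega
  have r2 : r ∉ bl z R₁ := by simp only [hr, mem_bl]; omega
  have r3 : r ∈ an z c R' := mem_an.2 ⟨r1, fun h => r2 (bl_mono z h2 h)⟩
  set m := pn (Λ.N (bl z R')) (bl z R') {r} with hm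
  have fm := (hΛ.ctr_N (bl z R')).1
  have hc : m.Ctr := Nc.pn_ctr fm _ _
  have ha : m.Anch := Nc.pn_anch ((inL_N Subset.rfl).cn (cnL_bl hΛ z R')) r1 (mem_singleton_self r)
  have lh : Lh Λ m ∅ z R₁ := lh_pn h3 (disjoint_singleton_left.2 r2)
  have cut := lh.cut0 hΛ (c := c) (by omega) h2
  have eB : bl z c ∪ an z c (R₁ + Λ.rg) \ an z R₁ (R₁ + Λ.rg) = bl z R₁ := by
    rw [an_sdiff_an z c (by omega), bl_union_an z h2]
  have il : InL Λ m (bl z c) := lh.inL_bl (by omega)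
  have se : SE (rWs m (bl z c) σ) := Md.ctr_ses (Ks68.fr_ctr hc.1 _)
    (Ks68.fr_anch cut.cn ⟨z, self_mem_bl z c⟩) 0 σ
  have wt : Wt (rWs m (bl z c) σ) := Ks68.wt_rWs hc.1 cut.cn ⟨z, self_mem_bl z c⟩ σ
  have eH : hole m (bl z c) = pn (Λ.N (bl z R')) (an z c R') {r} := by
    rw [← Nc.hole_pn (disjoint_bl_an z R' le_rfl), bl_union_an z (by omega)]
  have ia : InL Λ (Λ.N (bl z R')) (an z c R') := inL_N (an_subset_bl _ _ _)
  have kb := Ks68.kap_bd hc ha cut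
  rw [lh.cr_cut hΛ (empty_subset _) h2] at kb
  have g1 : 1 ≤ gam Λ c (R₁ + Λ.rg) := one_le_gam Nc.monoCrStmt hΛ (by omega)
  refine ⟨ps m σ (bl z c) (an z c (R₁ + Λ.rg)) (an z R₁ (R₁ + Λ.rg)), kap m (bl z c) (an z c (R₁ + Λ.rg)),
    lt_of_lt_of_le (by positivity) kb.1, kb.2,
    fun F G x y hF hG => ps_lin hc.1 cut hF.1 (se.ig hF.2) hG.1 (se.ig hG.2) x y, fun F hF => ?_⟩
  have hF' : Ins z c F := B30.ins_le hF (by omega)
  refine ⟨ps_depG hc.1 cut hF'.1, fun s => ?_, fun G dG bG => ?_⟩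
  · refine (ps_le hc.1 cut (bl_mono z (by omega)) hF.1 (se.ig hF.2) s).trans ?_
    rw [lh.cr_cut hΛ (empty_subset _) h2, Ks68.zx_eq wt, Lat.nrm, exN_eq (hF'.1.comp (|·|)),
      ← rWs_inL il, zN, Ks68.fr, Ks68.fr, zr_inL il]
    refine mul_le_mul_of_nonneg_right (mul_le_mul_of_nonneg_right
      (il.cr_bl Nc.monoCrStmt hΛ hc.1 h1) (by linarith)) (mul_nonneg ?_ ?_)
    · exact (zN_pos hΛ (cnL_bl hΛ z c) ⟨z, self_mem_bl z c⟩).le
    · exact Ex_nonneg wt.nonneg fun _ _ => abs_nonneg _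
  · have k := ps_zx hc ha cut hF'.1 (se.ig hF.2) ((Md.ctr_ses hc ha 0 σ).ig hF.2) (G := G)
      (by rw [eB]; exact dG.dep.out (disjoint_bl_an z R' le_rfl).symm) bG
    rw [exN_eq ((dG.mono (an_subset_bl _ _ _)).mul (hF'.1.mono (bl_mono z (by omega)))),
      ex_root r1 ((dG.mono (an_subset_bl _ _ _)).mul (hF'.1.mono (bl_mono z (by omega)))), zN,
      Ks68.zr_root r1, k, eH, zN, Ks68.zr_root r3, zr_inL ia, ex_root r3
        ((dG.mono (an_mono z h2 le_rfl)).mul ((ps_depG hc.1 cut hF'.1).mono (an_mono z h2 h3))),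
      ia.pn_Ws, (inL_N Subset.rfl).pn_Ws]

/-- conditional expectation in the free annulus -/
theorem ann (hΛ : Λ.Ok) (σ : Pt × Pt → ℤ) (z : Pt) {c R R' : ℕ} (h2 : c ≤ R) (h3 : R + Λ.rg ≤ R')
    {Φ G : Cfg Pt → ℝ} {M : ℝ} (dΦ : DepG (an z c (R + Λ.rg)) Φ) (bΦ : ∀ s, |Φ s| ≤ M)
    (dG : DepG (an z R R') G) (bG : ∀ s, |G s| ≤ 1) :
    Ex (rWs (Λ.N (an z c R')) (an z c R') σ) (fun s => G s * Φ s) ≤
      Ex (rWs (Λ.N (an z c R')) (an z c R') σ)
        fun s => |Ex (((Λ.N (an z c (R + Λ.rg))).free (an z c R)).Ws s σ) Φ| := by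
  have hrg := hΛ.one_le_rg
  set r : Pt := (z.1 + R', z.2) with hr
  have r1 : r ∈ bl z R' := by simp only [hr, mem_bl]; omega
  have r2 : r ∉ bl z R := by simp only [hr, mem_bl]; omega
  have r3 : r ∈ an z c R' := mem_an.2 ⟨r1, fun h => r2 (bl_mono z h2 h)⟩
  have lN : ∀ R'', R + Λ.rg ≤ R'' → Lh Λ (Λ.N (an z c R'')) (bl z c) z R := fun R'' h =>
    ⟨fun e he _ => ⟨(Lat.mem_edI.1 he).1, (mem_an.1 (Lat.mem_edI.1 he).2.1).2,
      (mem_an.1 (Lat.mem_edI.1 he).2.2).2⟩, inL_N (an_mono z le_rfl h),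
      an_mono z le_rfl (by omega), fun _ _ _ => rfl⟩
  set m := pn (Λ.N (an z c R')) (an z c R') {r} with hm
  have fm := (hΛ.ctr_N (an z c R')).1
  have hc : m.Ctr := Nc.pn_ctr fm _ _
  have ha : m.Anch := Nc.pn_anch ((inL_N Subset.rfl).cn (cnL_an hΛ z (by omega))) r3
    (mem_singleton_self r)
  have lm : Lh Λ m (bl z c) z R := (lN R' h3).pn (an_mono z le_rfl h3)
    (disjoint_singleton_left.2 fun h => r2 (mem_sdiff.1 h).1)
  have l1 := lN _ le_rfl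
  have f1 := (hΛ.ctr_N (an z c (R + Λ.rg))).1
  have hE : m.edM (an z c R) = (Λ.N (an z c (R + Λ.rg))).edM (an z c R) := Finset.ext fun e => by
    rw [lm.mem_edM (an_subset_bl _ _ _), l1.mem_edM (an_subset_bl _ _ _)]
  have e1 : (tw m σ).cE (an z c R) = (tw (Λ.N (an z c (R + Λ.rg))) σ).cE (an z c R) :=
    Mdl.cE_congr_mdl (Ks68.tw_ne hc.1 σ) (Ks68.tw_ne f1 σ) hE (fun _ _ => rfl) fun _ _ => rfl
  have e2 : ∀ s, Ex (((Λ.N (an z c (R + Λ.rg))).free (an z c R)).Ws s σ) Φ =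
      (tw m σ).cE (an z c R) Φ s := fun s => by rw [e1]; rfl
  have dE : DepG (an z c R') ((tw m σ).cE (an z c R) Φ) :=
    (Mdl.cE_depG (m := tw m σ) (Ks68.tw_ne hc.1 σ) (fun _ _ _ _ => rfl) dΦ).mono
      (union_subset ((lm.bd le_rfl).trans (sdiff_subset.trans (an_mono z h2 h3)))
        (sdiff_subset.trans (an_mono z le_rfl h3)))
  have w1 := Md.ctr_wts hc ha 0 σ
  simp only [e2]
  rw [ex_root r3 ((dG.mono (an_mono z h2 le_rfl)).mul (dΦ.mono (an_mono z le_rfl h3))),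
    ex_root r3 (dE.comp (|·|))]
  obtain ⟨k1, k2⟩ := Mdl.tower_cE_mul (m := tw m σ) (B := an z c R) (F := Φ) lm.cl.1
    (dG.dep.out ((disjoint_bl_an z R' le_rfl).symm.mono_right (an_subset_bl _ _ _))) w1
    ((w1.ig_bdd bΦ).bdd_mul w1.nonneg bG)
  have k3 := (Mdl.tower_cE (m := tw m σ) (B := an z c R) (F := Φ) lm.cl.1 w1 (w1.ig_bdd bΦ)).1
  refine k2.trans_le (Ex_mono w1.nonneg k1 (k3.abs w1.nonneg) fun s => (le_abs_self _).trans ?_)
  rw [abs_mul]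
  exact mul_le_of_le_one_left (abs_nonneg _) (bG s)

end lat

theorem ev_rpow (c a : ℝ) (ha : 0 < a) : ∃ W₁ : ℕ, ∀ W : ℕ, W₁ ≤ W → c ≤ (W : ℝ) ^ a :=
  Filter.eventually_atTop.1 (((tendsto_rpow_atTop ha).comp tendsto_natCast_atTop_atTop).eventually_ge_atTop c)

theorem sign_mul (x : ℝ) : (SignType.sign x : ℝ) * x = |x| := sign_mul_self x
theorem abs_sign (x : ℝ) : |(SignType.sign x : ℝ)| ≤ 1 := by
  rcases lt_trichotomy x 0 with h | h | h <;> simp [h]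

end Ts40

open Ts40 B30

set_option maxHeartbeats 1000000 in
theorem tsStmt (hK : KvStmt) (hT : TrStmt) : TsStmt := fun P hP κ hκ => by
  have hΛ := lok hP
  have hW2 := hP.W2
  have hK1 := hP.K1
  obtain ⟨W₁, h1⟩ := hK P.b hP.crit P.W₀ (κ / 2) (by omega) (by linarith)
  obtain ⟨W₂, h2⟩ := ev_rpow (2 * P.K * (1 + 2 * P.K)) (κ / 2) (by linarith)
  refine ⟨max (max W₁ W₂) (P.W₀ * P.W₀), fun W hW => ?_⟩
  simp only [max_le_iff] at hW
  obtain ⟨r₁, h3⟩ := h1 W hW.1.1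
  refine ⟨max r₁ P.r₀, fun V ρ hρ hr => ?_⟩
  simp only [max_le_iff] at hρ
  obtain ⟨a, la, ba⟩ := h3 V ρ hρ.1 hr
  have r2 := hP.r2
  have c1 : 4 * ρ ≤ P.W₀ * ρ := four_le hP
  have c2 : 4 * (P.W₀ * ρ) ≤ P.W₀ * (P.W₀ * ρ) := four_le hP
  have c3 : P.W₀ * (P.W₀ * ρ) ≤ W * ρ := by
    rw [← mul_assoc]; exact Nat.mul_le_mul_right _ hW.2
  have c4 : 4 * (W * ρ) ≤ P.W₀ * (W * ρ) := four_le hP
  set c := P.W₀ * ρ with hc
  set R := W * ρ with hR
  set R' := P.W₀ * R with hR'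
  obtain ⟨Ψ, k, k0, k1, lΨ, bΨ⟩ := core hΛ V.σ V.p (ρ := ρ) (c := c) (R₁ := P.W₀ * c) (R' := R')
    (by rw [L_rg]; omega) (by omega) (by rw [L_rg]; omega)
  simp only [L_rg] at bΨ
  have u1 : 0 < zN P.L (bl V.p c) V.σ := zN_pos hΛ (Nc.Geo.cnL_bl hΛ _ _) ⟨_, self_mem_bl _ _⟩
  have u2 : 0 < zN P.L (bl V.p R') V.σ := zN_pos hΛ (Nc.Geo.cnL_bl hΛ _ _) ⟨_, self_mem_bl _ _⟩
  have u3 : 0 < zN P.L (an V.p c R') V.σ :=
    zN_pos hΛ (Nc.Geo.cnL_an hΛ _ (by omega)) (Nc.Geo.an_nonempty _ (by omega))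
  have u4 : zN P.L (bl V.p c) V.σ * zN P.L (an V.p c R') V.σ ≤ P.K * zN P.L (bl V.p R') V.σ :=
    (hP.k1 V c R' (by omega) (by omega) hr).1
  have wA : Wt (rWs (P.L.N (an V.p c R')) (an V.p c R') V.σ) := Ks68.wt_rWs (hΛ.ctr_N _).1
    ((Nc.Geo.inL_N Subset.rfl).cn (Nc.Geo.cnL_an hΛ _ (by omega))) (Nc.Geo.an_nonempty _ (by omega)) _
  set u := zN P.L (bl V.p c) V.σ
  set l := k * zN P.L (an V.p c R') V.σ / zN P.L (bl V.p R') V.σ with hl
  have l0 : 0 < l := by positivity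
  have l1 : l * u ≤ P.K := by
    rw [hl, div_mul_eq_mul_div, div_le_iff₀ u2]
    nlinarith [mul_pos u1 u3]
  have g1 : gam P.L ρ c ≤ 1 + 1 / 400 := (hP.gd ρ).2.2 ρ hρ.2 le_rfl
  have g2 : gam P.L c (P.W₀ * c + 1) ≤ 1 + 1 / 400 :=
    (Nc.Geo.gam_anti Nc.monoCrStmt hΛ le_rfl (Nat.le_succ _) (by rw [L_rg]; omega)).trans
      ((hP.gd c).2.2 c (by omega) le_rfl)
  have g3 : 1 ≤ gam P.L c (P.W₀ * c + 1) := Nc.Geo.one_le_gam Nc.monoCrStmt hΛ (by rw [L_rg]; omega)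
  have bd : ∀ F, Ins V.p (ρ + 1) F → ∀ s, |Ψ F s| ≤ 2 * (u * P.N V V.p ρ F) := fun F hF s =>
    ((bΨ F hF).2.1 s).trans (mul_le_mul_of_nonneg_right (by nlinarith)
      (mul_nonneg u1.le (N_nonneg hP _ _ _ _)))
  have tf : ∀ F, Ins V.p (ρ + 1) F → ∀ G, DepG (an V.p R R') G → (∀ s, |G s| ≤ 1) →
      P.L.exN V.σ V.p R' (fun s => G s * F s) =
        l * Ex (rWs (P.L.N (an V.p c R')) (an V.p c R') V.σ) fun s => G s * Ψ F s :=
    fun F hF G dG bG => by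
      have := (bΨ F hF).2.2 G (dG.mono (Nc.Geo.an_mono _ c3 le_rfl)) bG
      rw [hl, div_mul_eq_mul_div, eq_div_iff u2.ne', mul_comm, this]
  let T : (Cfg Pt → ℝ) → Cfg Pt → ℝ := fun F s => P.L.tr V.σ V.p ρ F s - P.L.exN V.σ V.p R' F
  have iT : ∀ F, Ins V.p (ρ + 1) F → Ins V.p (ρ + 1) (T F) := fun F hF =>
    ins_sub_const (ins_tr hP hT hF _) _
  have eT : ∀ F, Ins V.p (ρ + 1) F → ∀ d : ℝ, P.L.exN V.σ V.p R' (fun s => P.L.tr V.σ V.p ρ F s - d) =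
      P.L.exN V.σ V.p R' F - d := fun F hF d => by
    rw [exN_sub hΛ (tame_tr hP hT hF _) (Tame.const d), exN_const hΛ,
      exN_tr hP hT hF _ (by rw [ds_self]; omega)]
  have nT : ∀ F, Ins V.p (ρ + 1) F → P.N V V.p ρ (T F) ≤ (1 + 2 * P.K) * P.ν V ρ F := fun F hF => by
    have i0 := ins_sub_const (ins_tr hP hT hF V.σ) (P.L.exN V.σ V.p c F)
    have a1 := tf _ i0 (fun _ => 1) (DepG.const _ _) (fun _ => by norm_num)
    simp only [one_mul] at a1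
    rw [eT F hF] at a1
    have a2 : |P.L.exN V.σ V.p R' F - P.L.exN V.σ V.p c F| ≤ 2 * P.K * P.ν V ρ F := by
      rw [a1, abs_mul, abs_of_pos l0]
      refine (mul_le_mul_of_nonneg_left (wA.abs_ex_le fun s _ => bd _ i0 s) l0.le).trans ?_
      rw [← ν_eq]
      nlinarith [mul_le_mul_of_nonneg_right l1 (ν_nonneg hP V ρ F)]
    have a3 := nrm_sub_le (σ := V.σ) (z := V.p) (R := c) hΛ i0.2
      (Tame.const (P.L.exN V.σ V.p R' F - P.L.exN V.σ V.p c F))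
    rw [nrm_const hΛ] at a3
    simp only [sub_sub, add_sub_cancel] at a3
    have a4 : P.ν V ρ F = P.L.nrm V.σ V.p c fun s => P.L.tr V.σ V.p ρ F s - P.L.exN V.σ V.p c F := rfl
    have a5 : P.N V V.p ρ (T F) =
      P.L.nrm V.σ V.p c fun s => P.L.tr V.σ V.p ρ F s - P.L.exN V.σ V.p R' F := rfl
    linarith
  have W0 : (0 : ℝ) < W := by
    have : 0 < W := by nlinarith
    exact_mod_cast this
  have pw : ∀ (j ν : ℝ), 0 ≤ ν → l * ((W : ℝ) ^ (κ / 2 - j) * (2 * (u * ((1 + 2 * P.K) * ν)))) ≤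
      (W : ℝ) ^ (κ - j) * ν := fun j ν hν => by
    rw [show κ - j = κ / 2 - j + κ / 2 by ring, Real.rpow_add W0]
    have p0 := Real.rpow_pos_of_pos W0 (κ / 2 - j)
    have p1 := h2 W hW.1.2
    have p2 : l * u * (2 * (1 + 2 * P.K)) ≤ (W : ℝ) ^ (κ / 2) := by nlinarith
    nlinarith [mul_le_mul_of_nonneg_right p2 (mul_nonneg p0.le hν)]
  have bT : ∀ F, Ins V.p (ρ + 1) F → ∀ s, |Ψ (T F) s| ≤ 2 * (u * ((1 + 2 * P.K) * P.ν V ρ F)) :=
    fun F hF s => (bd _ (iT F hF) s).trans (by gcongr; exact nT F hF)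
  refine ⟨fun F => l • a (Ψ (T F)), fun F G x y hF hG => ?_, fun F hF => ?_⟩
  · have e : T (fun s => x * F s + y * G s) = fun s => x * T F s + y * T G s := by
      simp only [T]
      rw [tr_add hΛ (ins_smul hF x).2 (ins_smul hG y).2, exN_add hΛ (ins_smul hF x).2 (ins_smul hG y).2,
        tr_smul, tr_smul, exN_smul, exN_smul]
      funext s; ring
    simp only [e]
    rw [lΨ _ _ x y (ins_le (iT F hF) (by omega)) (ins_le (iT G hG) (by omega)),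
      la _ _ x y _ (fun s => (bT F hF s).trans (le_max_left _ _))
        fun s => (bT G hG s).trans (le_max_right _ _), smul_add, smul_comm l x, smul_comm l y]
  have dΨ := (bΨ _ (iT F hF)).1
  obtain ⟨b1, b2⟩ := ba _ _ (dΨ.mono (Nc.Geo.an_mono _ (by omega) le_rfl)) (bT F hF)
  have ea : ∀ i, |(l • a (Ψ (T F))) i| = l * |a (Ψ (T F)) i| := fun i => by
    rw [Pi.smul_apply, smul_eq_mul, abs_mul, abs_of_pos l0]
  simp only [ea]
  refine ⟨fun i => (mul_le_mul_of_nonneg_left (b1 i) l0.le).trans (pw 1 _ (ν_nonneg hP _ _ _)), ?_⟩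
  have z0 : Ex ((fr P.b (an V.p c R')).Ws 0 V.σ) (Ψ (T F)) = 0 := by
    have a1 := tf _ (iT F hF) (fun _ => 1) (DepG.const _ _) (fun _ => by norm_num)
    simp only [one_mul, T] at a1
    rw [eT F hF, sub_self] at a1
    exact (mul_eq_zero.1 a1.symm).resolve_left l0.ne'
  rw [z0] at b2
  simp only [sub_zero] at b2
  have iR : Ins V.p (R + 1) (T F) := ins_le (iT F hF) (by omega)
  have eH : (fun s => P.L.tr V.σ V.p R F s - P.L.exN V.σ V.p R' F) = P.L.tr V.σ V.p R (T F) := by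
    simp only [T]
    rw [tr_sub_const hΛ (tame_tr hP hT hF _), tr_tr hP hT hF _ (by rw [ds_self]; omega)]
  set H := P.L.tr V.σ V.p R (T F) with hH
  have dG : DepG (an V.p R (R + 1)) fun s => (SignType.sign (H s) : ℝ) :=
    (depG_tr hP hT iR V.σ).comp fun x => (SignType.sign x : ℝ)
  have dG' := dG.mono (Nc.Geo.an_mono V.p le_rfl (show R + 1 ≤ R' by omega))
  have e1 : P.ν V R F = P.L.exN V.σ V.p R' fun s => (SignType.sign (H s) : ℝ) * T F s := by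
    rw [ν_eq, eH, Par.N, Lat.nrm]
    have := exN_tr_mul hP hT iR V.σ (dG.dep.out (an_disj _ _ _)) (z' := V.p) (c := R')
      ⟨dG'.mono (an_sub _ _ _), Tame.bdd fun s => abs_sign _⟩ (by rw [ds_self]; omega)
    simp only [mul_comm (T F _), ← hH, mul_comm (H _), sign_mul] at this
    exact this.symm
  have e2 := ann hΛ V.σ V.p (c := c) (R := R) (R' := R') (by omega) (by rw [L_rg]; omega)
    (dΨ.mono (Nc.Geo.an_mono _ (by omega) (by rw [L_rg]; omega))) (bT F hF) dG' fun s => abs_sign _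
  rw [e1, tf _ (iT F hF) _ dG' fun s => abs_sign _, ← mul_sum]
  have e3 := mul_le_mul_of_nonneg_left (e2.trans b2) l0.le
  have e4 := pw 2 _ (ν_nonneg hP V ρ F)
  linarith

theorem Ts40.ν_mono (hT : TrStmt) (hD : Dom1Stmt) {P : Par} (hP : P.Ok) : ∃ C : ℝ, 1 ≤ C ∧ ∀ (V : Vp) (ρ ρ' : ℕ)
    (F : Cfg Pt → ℝ), P.r₀ ≤ ρ → ρ ≤ ρ' → 2 * (P.W₀ * ρ') ≤ V.r → Ins V.p (ρ + 1) F →
      P.ν V ρ' F ≤ C * P.ν V ρ F := by
  obtain ⟨C, hC⟩ := hD P hP 0
  refine ⟨max (2 * C) 1, le_max_right _ _, fun V ρ ρ' F h1 h2 h3 hF => ?_⟩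
  have r2 := hP.r2
  have i0 := ins_sub_const (ins_tr hP hT hF V.σ) (P.L.exN V.σ V.p (P.W₀ * ρ) F)
  have a1 := (hC V ρ (P.W₀ * ρ') _ h1 (Nat.mul_le_mul_left _ h2) h3 i0).1
  have a2 := ν_le_N hP hT (ins_le (ins_tr hP hT hF V.σ) (show ρ + 1 ≤ ρ' + 1 by omega)) (by omega)
    (P.L.exN V.σ V.p (P.W₀ * ρ) F)
  rw [ν_tr hP hT hF (by rw [ds_self]; omega) (by omega)] at a2
  rw [← ν_eq] at a1
  refine a2.trans (le_trans ?_ (mul_le_mul_of_nonneg_right (le_max_left _ _) (ν_nonneg hP _ _ _)))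
  rw [mul_assoc]
  exact mul_le_mul_of_nonneg_left a1 zero_le_two

theorem nuStmt (hS : TsStmt) (hT : TrStmt) (hD : Dom1Stmt) : NuStmt := fun P hP κ hκ => by
  obtain ⟨C, C1, hC⟩ := ν_mono hT hD hP
  set k := min κ 1 with hk
  have k0 : 0 < k := lt_min hκ one_pos
  have k1 : k ≤ 1 := min_le_right _ _
  obtain ⟨W₁, h1⟩ := hS P hP (k / 2) (by linarith)
  obtain ⟨W₂, h2⟩ := ev_rpow 3 (k / 2) (by linarith)
  set W := max (max W₁ W₂) 2 with hW
  have W2 : 2 ≤ W := le_max_right _ _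
  obtain ⟨r, h3⟩ := h1 W ((le_max_left _ _).trans (le_max_left _ _))
  have p3 := h2 W ((le_max_right _ _).trans (le_max_left _ _))
  have W1 : (1 : ℝ) ≤ W := by exact_mod_cast (show 1 ≤ W by omega)
  have W0 : (0 : ℝ) < W := by linarith
  have r2 := hP.r2
  set r₁ := max r P.r₀ with hr₁
  have r3 : P.r₀ ≤ r₁ := le_max_right _ _
  have step : ∀ (V : Vp) (ρ : ℕ) (F : Cfg Pt → ℝ), r₁ ≤ ρ → 2 * (P.W₀ * (W * ρ)) ≤ V.r →
      Ins V.p (ρ + 1) F → (W : ℝ) ^ (1 - k) * P.ν V (W * ρ) F ≤ P.ν V ρ F := fun V ρ F a1 a2 hF => by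
    obtain ⟨a, -, ba⟩ := h3 V ρ ((le_max_left _ _).trans a1) a2
    obtain ⟨b1, b2⟩ := ba F hF
    have n0 := ν_nonneg hP V ρ F
    have b3 : (W : ℝ) ^ (k / 2 - 2) ≤ (W : ℝ) ^ (k / 2 - 1) :=
      Real.rpow_le_rpow_of_exponent_le W1 (by linarith)
    have b4 : P.ν V (W * ρ) F ≤ 3 * ((W : ℝ) ^ (k / 2 - 1) * P.ν V ρ F) := by
      rw [Fin.sum_univ_two] at b2
      nlinarith [b1 0, b1 1, mul_le_mul_of_nonneg_right b3 n0]
    have b5 : (W : ℝ) ^ (1 - k) * ((W : ℝ) ^ (k / 2) * (W : ℝ) ^ (k / 2 - 1)) = 1 := by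
      rw [← Real.rpow_add W0, ← Real.rpow_add W0, show 1 - k + (k / 2 + (k / 2 - 1)) = 0 by ring,
        Real.rpow_zero]
    have p1 := Real.rpow_pos_of_pos W0 (1 - k)
    have p2 := Real.rpow_pos_of_pos W0 (k / 2 - 1)
    calc _ ≤ (W : ℝ) ^ (1 - k) * ((W : ℝ) ^ (k / 2) * ((W : ℝ) ^ (k / 2 - 1) * P.ν V ρ F)) := by
          gcongr; exact b4.trans (by gcongr)
      _ = _ := by rw [← mul_assoc ((W : ℝ) ^ (k / 2)), ← mul_assoc, b5, one_mul]
  have near : ∀ (A ρ ρ' : ℕ), 1 ≤ ρ' → ρ' ≤ A * ρ → 1 ≤ (A : ℝ) ^ (1 - k) * ((ρ : ℝ) / ρ') ^ (1 - k) :=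
    fun A ρ ρ' a1 a2 => by
      have : (0 : ℝ) < ρ' := by exact_mod_cast a1
      rw [← Real.mul_rpow (by positivity) (by positivity)]
      refine Real.one_le_rpow ?_ (by linarith)
      rw [← mul_div_assoc, one_le_div this]; exact_mod_cast a2
  have main : ∀ (n : ℕ) (V : Vp) (ρ ρ' : ℕ) (F : Cfg Pt → ℝ), ρ' ≤ ρ + n → r₁ ≤ ρ → ρ ≤ ρ' →
      2 * (P.W₀ * ρ') ≤ V.r → Ins V.p (ρ + 1) F →
      P.ν V ρ' F ≤ C * ((W : ℝ) ^ (1 - k) * ((ρ : ℝ) / ρ') ^ (1 - k)) * P.ν V ρ F := by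
    have base : ∀ (V : Vp) (ρ ρ' : ℕ) (F : Cfg Pt → ℝ), ρ' ≤ W * ρ → r₁ ≤ ρ → ρ ≤ ρ' →
        2 * (P.W₀ * ρ') ≤ V.r → Ins V.p (ρ + 1) F →
        P.ν V ρ' F ≤ C * ((W : ℝ) ^ (1 - k) * ((ρ : ℝ) / ρ') ^ (1 - k)) * P.ν V ρ F :=
      fun V ρ ρ' F a0 a1 a2 a3 hF => (hC V ρ ρ' F (by omega) a2 a3 hF).trans
        (mul_le_mul_of_nonneg_right (le_mul_of_one_le_right (by linarith) (near W ρ ρ' (by omega) a0))
          (ν_nonneg hP _ _ _))
    intro n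
    induction n with
    | zero => exact fun V ρ ρ' F a0 => base V ρ ρ' F (by nlinarith)
    | succ n ih =>
      intro V ρ ρ' F a0 a1 a2 a3 hF
      rcases le_total ρ' (W * ρ) with h | h
      · exact base V ρ ρ' F h a1 a2 a3 hF
      have c1 : 2 * ρ ≤ W * ρ := Nat.mul_le_mul_right _ W2
      have b1 := ih V (W * ρ) ρ' F (by omega) (by omega) h a3 (ins_le hF (by omega))
      have b2 := step V ρ F a1 ((Nat.mul_le_mul_left _ (Nat.mul_le_mul_left _ h)).trans a3) hF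
      rw [Nat.cast_mul, mul_div_assoc, Real.mul_rpow (by positivity) (by positivity)] at b1
      refine b1.trans (le_of_eq_of_le (b := C * ((W : ℝ) ^ (1 - k) * ((ρ : ℝ) / ρ') ^ (1 - k)) *
        ((W : ℝ) ^ (1 - k) * P.ν V (W * ρ) F)) (by ring) ?_)
      gcongr
  refine ⟨C * (W : ℝ) ^ (1 - k) * (C * (r₁ : ℝ) ^ (1 - k)), fun V ρ ρ' F a1 a2 a3 hF => ?_⟩
  have n0 := ν_nonneg hP V ρ F
  have ρ0 : (0 : ℝ) < ρ := by exact_mod_cast (show 0 < ρ by omega)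
  have ρ1 : (0 : ℝ) < ρ' := by exact_mod_cast (show 0 < ρ' by omega)
  have q1 : ((ρ : ℝ) / ρ') ^ (1 - k) ≤ ((ρ : ℝ) / ρ') ^ (1 - κ) :=
    Real.rpow_le_rpow_of_exponent_ge (by positivity) ((div_le_one ρ1).2 (by exact_mod_cast a2))
      (by linarith [min_le_left κ 1])
  have w1 : 1 ≤ (W : ℝ) ^ (1 - k) := Real.one_le_rpow W1 (by linarith)
  have w2 : 1 ≤ (r₁ : ℝ) ^ (1 - k) :=
    Real.one_le_rpow (by exact_mod_cast (show 1 ≤ r₁ by omega)) (by linarith)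
  have q0 : 0 ≤ ((ρ : ℝ) / ρ') ^ (1 - k) := by positivity
  refine le_trans ?_ (mul_le_mul_of_nonneg_right (mul_le_mul_of_nonneg_left q1 (by positivity)) n0)
  rcases le_total r₁ ρ with h | h
  · refine (main ρ' V ρ ρ' F (by omega) h a2 a3 hF).trans (mul_le_mul_of_nonneg_right ?_ n0)
    rw [← mul_assoc]
    exact mul_le_mul_of_nonneg_right (le_mul_of_one_le_right (by positivity) (one_le_mul_of_one_le_of_one_le C1 w2)) q0
  rcases le_total ρ' r₁ with h' | h'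
  · refine (hC V ρ ρ' F a1 a2 a3 hF).trans (mul_le_mul_of_nonneg_right ?_ n0)
    have := near r₁ ρ ρ' (by omega) (by nlinarith)
    calc C ≤ 1 * (C * ((r₁ : ℝ) ^ (1 - k) * ((ρ : ℝ) / ρ') ^ (1 - k))) := by nlinarith
      _ ≤ C * (W : ℝ) ^ (1 - k) * (C * ((r₁ : ℝ) ^ (1 - k) * ((ρ : ℝ) / ρ') ^ (1 - k))) := by
        gcongr; exact one_le_mul_of_one_le_of_one_le C1 w1
      _ = _ := by ring
  · have b1 := main ρ' V r₁ ρ' F (by omega) le_rfl h' a3 (ins_le hF (by omega))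
    have b2 := hC V ρ r₁ F a1 h ((Nat.mul_le_mul_left _ (Nat.mul_le_mul_left _ h')).trans a3) hF
    have b3 : ((r₁ : ℝ) / ρ') ^ (1 - k) ≤ (r₁ : ℝ) ^ (1 - k) * ((ρ : ℝ) / ρ') ^ (1 - k) := by
      rw [← Real.mul_rpow (by positivity) (by positivity), ← mul_div_assoc]
      refine Real.rpow_le_rpow (by positivity) (div_le_div_of_nonneg_right ?_ ρ1.le) (by linarith)
      exact le_mul_of_one_le_right (by positivity) (by exact_mod_cast (show 1 ≤ ρ by omega))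
    calc _ ≤ _ := b1
      _ ≤ C * ((W : ℝ) ^ (1 - k) * ((r₁ : ℝ) ^ (1 - k) * ((ρ : ℝ) / ρ') ^ (1 - k))) * (C * P.ν V ρ F) := by
        gcongr
        exact ν_nonneg hP _ _ _
      _ = _ := by ring

end Crest.Agent.T145.Vx
end

-- ▼ part T145/VxXA_87
section

/-!
# Row 145, twisted module, X part A (helper87): the filter, the scales, linear algebra
-/

set_option autoImplicit false

namespace Crest.Agent.T145.Vx.X87

open Finset Filter Topology Asymptotics Real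
open Nc (Amb)

/-! ## `r → ∞`, then `R → ∞` -/

def GG : Filter Vp := comap Vp.r atTop

def FF : Filter (Vp × ℕ) := GG.curry atTop

theorem evG {Q : ℕ → Prop} (h : ∀ᶠ r in atTop, Q r) : ∀ᶠ V in GG, Q V.r := tendsto_comap.eventually h

theorem evF {Q : Vp → ℕ → Prop} (h : ∀ᶠ V in GG, ∀ᶠ R in atTop, Q V R) : ∀ᶠ x in FF, Q x.1 x.2 :=
  eventually_curry_iff.2 h

theorem ev1 {Q : Vp → Prop} (h : ∀ᶠ V in GG, Q V) : ∀ᶠ x in FF, Q x.1 :=
  evF (Q := fun V _ => Q V) (h.mono fun _ h => .of_forall fun _ => h)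

theorem evr {Q : ℕ → Prop} (h : ∀ᶠ r in atTop, Q r) : ∀ᶠ x in FF, Q x.1.r := ev1 (evG h)

theorem out {Q : Vp → ℕ → Prop} (h : ∀ᶠ x in FF, Q x.1 x.2) :
    ∃ r₁ : ℕ, ∀ V : Vp, r₁ ≤ V.r → ∀ᶠ R in atTop, Q V R := by
  obtain ⟨r₁, h⟩ := eventually_atTop.1 (eventually_comap.1 (eventually_curry_iff.1 h))
  exact ⟨r₁, fun V hV => h _ hV V rfl⟩

/-- exchange of the cores -/
def sw (x : Vp × ℕ) : Vp × ℕ := (x.1.sw, x.2)

theorem tend_sw : Tendsto sw FF FF := fun s hs => by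
  obtain ⟨r₁, h⟩ := out (Q := fun V R => (V, R) ∈ s) hs
  exact evF (Q := fun V R => sw (V, R) ∈ s)
    ((evG (eventually_ge_atTop r₁)).mono fun V hV => h V.sw hV)

theorem amb_ev {Λ : Lat} (h : Λ.Ok) (c : Pt) (N : ℕ) :
    ∀ᶠ R : ℕ in atTop, Amb Λ (Λ.D (faces R)) (bl c N) := by
  filter_upwards [eventually_ge_atTop (c.1.natAbs + c.2.natAbs + N + 1)] with R hR
  refine Nc.L37.Amb.mono' (Nc.L37.amb_D h _) fun x hx => ?_
  rw [mem_bl] at hx
  simp only [faces, sq, mem_product, mem_Ico]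
  omega

theorem ev_amb {Λ : Lat} (h : Λ.Ok) (c : Vp → Pt) (N : Vp → ℕ) :
    ∀ᶠ x in FF, Amb Λ (Λ.D (faces x.2)) (bl (c x.1) (N x.1)) :=
  evF (Q := fun V R => Amb Λ (Λ.D (faces R)) (bl (c V) (N V))) (.of_forall fun _ => amb_ev h _ _)

theorem ofb {α : Type*} {l : Filter α} {f g : α → ℝ} (C : ℝ) (h : ∀ᶠ x in l, |f x| ≤ C * g x) :
    f =O[l] g := IsBigO.of_bound |C| (h.mono fun x hx => by
  rw [norm_eq_abs, norm_eq_abs, ← abs_mul]; exact hx.trans (le_abs_self _))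

/-! ## the scales -/

noncomputable def rho (r : ℕ) : ℕ := ⌈(r : ℝ) / log r ^ 3⌉₊

noncomputable def nn (a W r : ℕ) : ℕ := Nat.log W (r / (128 * (a * rho r)))

noncomputable def r2 (a W r : ℕ) : ℕ := W ^ nn a W r * rho r

noncomputable def r3 (a W r : ℕ) : ℕ := 8 * (a * r2 a W r)

noncomputable def SS (r : ℕ) : ℕ := ⌈(r : ℝ) * log r ^ 2⌉₊

structure Sc (a W r : ℕ) : Prop where
  t4 : 4 ≤ log r
  h1 : (r : ℝ) ≤ rho r * log r ^ 3
  h2 : rho r * log r ^ 2 ≤ r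
  h3 : 128 * (a * r2 a W r) ≤ r
  h4 : r ≤ 128 * (a * (W ^ (nn a W r + 1) * rho r))
  h5 : log r / 2 ≤ log (rho r)
  h6 : log r ≤ (W : ℝ) ^ nn a W r
  h7 : rho r ≤ r2 a W r
  s1 : r * log r ^ 2 ≤ SS r
  s2 : ((2 * SS r + r : ℕ) : ℝ) ≤ r * log r ^ 8
  s3 : 16 * r ≤ SS r

theorem tend_log : Tendsto (fun r : ℕ => log r) atTop atTop :=
  tendsto_log_atTop.comp tendsto_natCast_atTop_atTop

theorem ev_sqrt : ∀ᶠ r : ℕ in atTop, √(r : ℝ) ≤ rho r := by
  have h := (isLittleO_log_rpow_rpow_atTop (3 : ℕ) (s := 1 / 2) (by norm_num)).eventuallyLE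
  filter_upwards [tendsto_natCast_atTop_atTop.eventually h, tend_log.eventually_ge_atTop 1] with r h h1
  refine le_trans ?_ (Nat.le_ceil _)
  rw [rpow_natCast, ← sqrt_eq_rpow, norm_of_nonneg (by positivity), norm_of_nonneg (sqrt_nonneg _)] at h
  rw [le_div_iff₀ (by positivity)]
  calc _ ≤ √(r : ℝ) * √(r : ℝ) := by gcongr
    _ = r := mul_self_sqrt (Nat.cast_nonneg r)

theorem ev_rho (k : ℕ) : ∀ᶠ r : ℕ in atTop, k ≤ rho r := by
  filter_upwards [ev_sqrt, eventually_ge_atTop (k ^ 2)] with r h h1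
  have : (k : ℝ) ≤ √(r : ℝ) := le_sqrt_of_sq_le (by exact_mod_cast h1)
  exact_mod_cast this.trans h

theorem ev_sc {a W : ℕ} (ha : 1 ≤ a) (hW : 2 ≤ W) : ∀ᶠ r : ℕ in atTop, Sc a W r := by
  filter_upwards [ev_sqrt, ev_rho 2, tend_log.eventually_ge_atTop 4,
    tend_log.eventually_ge_atTop (128 * (a * W)), eventually_ge_atTop 1] with r hs h2 t4 ta r1
  have r1' : (1 : ℝ) ≤ r := by exact_mod_cast r1
  have a1 : (1 : ℝ) ≤ a := by exact_mod_cast ha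
  have W1 : (2 : ℝ) ≤ W := by exact_mod_cast hW
  have t0 : 0 < log (r : ℝ) := by linarith
  have ρ2 : (2 : ℝ) ≤ rho r := by exact_mod_cast h2
  have h1 : (r : ℝ) ≤ rho r * log r ^ 3 := (div_le_iff₀ (by positivity)).1 (Nat.le_ceil _)
  have h2' : rho r * log r ^ 2 ≤ r := by
    have : (rho r : ℝ) < r / log r ^ 3 + 1 := Nat.ceil_lt_add_one (by positivity)
    have h : (rho r : ℝ) / 2 ≤ r / log r ^ 3 := by linarith
    rw [le_div_iff₀ (by positivity)] at h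
    nlinarith [mul_pos (mul_pos (show (0 : ℝ) < rho r by linarith) (pow_pos t0 2)) t0,
      mul_pos (show (0 : ℝ) < rho r by linarith) (pow_pos t0 2)]
  have p0 : 0 < 128 * (a * rho r) := by positivity
  have aW : 128 * (a : ℝ) ≤ log r := by nlinarith
  have p1 : 128 * (a * rho r) ≤ r := by
    have : 128 * ((a : ℝ) * rho r) ≤ r := by nlinarith
    exact_mod_cast this
  have h3 := (Nat.le_div_iff_mul_le p0).1 (Nat.pow_log_le_self W (Nat.div_pos p1 p0).ne')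
  have h4 := (Nat.div_lt_iff_lt_mul p0).1
    (Nat.lt_pow_succ_log_self (show 1 < W by omega) (r / (128 * (a * rho r))))
  have h4' : r ≤ 128 * (a * (W ^ (nn a W r + 1) * rho r)) := h4.le.trans_eq (by rw [nn, Nat.succ_eq_add_one]; ring)
  have s1 : r * log r ^ 2 ≤ SS r := Nat.le_ceil _
  refine ⟨t4, h1, h2', le_of_eq_of_le (by rw [r2, nn]; ring) h3, h4', ?_, ?_,
    Nat.le_mul_of_pos_left _ (by positivity), s1, ?_, ?_⟩
  · rw [← log_sqrt (Nat.cast_nonneg r)]; exact log_le_log (by positivity) hs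
  · have h : (r : ℝ) ≤ 128 * (a * W) * W ^ nn a W r * rho r := by
      have : (r : ℝ) ≤ ((128 * (a * (W ^ (nn a W r + 1) * rho r)) : ℕ) : ℝ) := by exact_mod_cast h4'
      push_cast at this; exact this.trans_eq (by ring)
    have h' : rho r * (log r * log r) ≤ rho r * (log r * W ^ nn a W r) := calc
      _ ≤ (r : ℝ) := by rw [← pow_two]; exact h2'
      _ ≤ _ := h
      _ ≤ log r * W ^ nn a W r * rho r := by gcongr
      _ = _ := by ring
    exact le_of_mul_le_mul_left (le_of_mul_le_mul_left h' (by linarith)) t0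
  · have : (SS r : ℝ) < r * log r ^ 2 + 1 := Nat.ceil_lt_add_one (by positivity)
    have u : (16 : ℝ) ≤ log r ^ 2 := by nlinarith
    have u2 : log (r : ℝ) ^ 2 * 16 ≤ log r ^ 8 := calc
      _ ≤ log (r : ℝ) ^ 2 * (log r ^ 2 * (1 * 1)) := by rw [mul_one, mul_one]; gcongr
      _ ≤ log (r : ℝ) ^ 2 * (log r ^ 2 * (log r ^ 2 * log r ^ 2)) := by gcongr <;> linarith
      _ = _ := by ring
    push_cast
    nlinarith
  · have u : (16 : ℝ) ≤ log r ^ 2 := by nlinarith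
    have : 16 * (r : ℝ) ≤ SS r := by nlinarith
    exact_mod_cast this

/-! ## two by two -/

/-- the solution of `∑ i, a i * M i j = b j` -/
noncomputable def cr (M : Fin 2 → Fin 2 → ℝ) (b : Fin 2 → ℝ) : Fin 2 → ℝ :=
  ![(b 0 * M 1 1 - b 1 * M 1 0) / (M 0 0 * M 1 1 - M 0 1 * M 1 0),
    (b 1 * M 0 0 - b 0 * M 0 1) / (M 0 0 * M 1 1 - M 0 1 * M 1 0)]

theorem cramer {M : Fin 2 → Fin 2 → ℝ} {g : ℝ} (h1 : 1 / 2 ≤ g) (h2 : g ≤ 1)
    (hM : ∀ i j, |M i j - if i = j then g else 0| ≤ 1 / 8) (b : Fin 2 → ℝ) :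
    (∀ j, cr M b 0 * M 0 j + cr M b 1 * M 1 j = b j) ∧ ∀ i, |cr M b i| ≤ 9 * (|b 0| + |b 1|) := by
  have a := abs_le.1 (hM 0 0)
  have b' := abs_le.1 (hM 0 1)
  have c := abs_le.1 (hM 1 0)
  have d := abs_le.1 (hM 1 1)
  simp only [if_true, zero_ne_one, one_ne_zero, if_false, sub_zero] at a b' c d
  have hd : 1 / 8 ≤ M 0 0 * M 1 1 - M 0 1 * M 1 0 := by nlinarith
  have h0 : M 0 0 * M 1 1 - M 0 1 * M 1 0 ≠ 0 := by linarith
  have key : ∀ x y u v : ℝ, |u| ≤ 9 / 8 → |v| ≤ 9 / 8 →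
      |(x * u - y * v) / (M 0 0 * M 1 1 - M 0 1 * M 1 0)| ≤ 9 * (|x| + |y|) := fun x y u v hu hv => by
    rw [abs_div, abs_of_pos (by linarith : 0 < M 0 0 * M 1 1 - M 0 1 * M 1 0), div_le_iff₀ (by linarith)]
    refine (abs_sub _ _).trans ?_
    rw [abs_mul, abs_mul]
    nlinarith [abs_nonneg x, abs_nonneg y]
  refine ⟨Fin.forall_fin_two.2 ⟨?_, ?_⟩, Fin.forall_fin_two.2 ⟨?_, ?_⟩⟩
  · simp only [cr, Matrix.cons_val_zero, Matrix.cons_val_one]
    rw [div_mul_eq_mul_div, div_mul_eq_mul_div, ← add_div, div_eq_iff h0]; ring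
  · simp only [cr, Matrix.cons_val_zero, Matrix.cons_val_one]
    rw [div_mul_eq_mul_div, div_mul_eq_mul_div, ← add_div, div_eq_iff h0]; ring
  · exact key _ _ _ _ (abs_le.2 ⟨by linarith, by linarith⟩) (abs_le.2 ⟨by linarith, by linarith⟩)
  · rw [add_comm]
    exact key _ _ _ _ (abs_le.2 ⟨by linarith, by linarith⟩) (abs_le.2 ⟨by linarith, by linarith⟩)

theorem gc_bd {r : ℕ} (h : 4 ≤ log r) : 1 / 2 ≤ gc r ∧ gc r ≤ 1 := by
  have p3 := pi_gt_three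
  have p4 := pi_lt_four
  have a1 : 1 / 2 ≤ 2 / π := by rw [div_le_div_iff₀ (by norm_num) pi_pos]; linarith
  have a2 : 2 / π ≤ 2 / 3 := by gcongr
  have a3 : 0 ≤ 1 / (π * log r) := by positivity
  have a4 : 1 / (π * log r) ≤ 1 / (3 * 4) := by gcongr
  rw [gc]; constructor <;> linarith

end Crest.Agent.T145.Vx.X87
end

-- ▼ part T145/VxXB_87
section

/-!
# Row 145, twisted module, X part B (helper87): the purified micro move at one core
-/

set_option autoImplicit false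

namespace Crest.Agent.T145.Vx.X87

open Finset Filter Topology Asymptotics Real B30
open Nc (Amb)

/-- the inputs -/
structure Hy (P : Par) (W : ℕ) : Prop where
  ok : P.Ok
  w16 : 16 ≤ W
  ly : Ly P W
  tr : TrStmt
  cov : CovStmt
  mic : MicStmt
  lin : LinStmt
  y : YStmt
  uc : UcStmt
  dip : DipStmt
  lv : LvStmt
  pur : PurStmt
  rw : RwStmt
  cal : CalStmt
  apr : AprStmt

theorem ins_Dv {b : ℝ} (hb : 0 < b) (V : Vp) : Ins V.p 1 (Dv b V) :=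
  ⟨Inf48.depG_mv (xyL b) V.σ
    (by unfold Vp.e Vp.p; split_ifs <;> simp only [mem_bl] <;> omega)
    (by unfold Vp.e Vp.p; split_ifs <;> simp only [mem_bl] <;> omega), Inf48.tame_mv hb V.σ V.e⟩

theorem Chg.sup {p : Pt} {D c : ℕ} {A : ℝ} {g : Pt → ℝ} (h : Chg p D c A g) : Sup (bl p (c * D)) g :=
  fun z hz => by_contra fun e => hz (mem_bl_ds.2 (h.1 z e).2)

theorem Chg.ins {p : Pt} {D c : ℕ} {A : ℝ} {g : Pt → ℝ} (h : Chg p D c A g) : Ins p (c * D) (pr g) :=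
  ⟨DepG.pr (Chg.sup h) h.2.1, Tame.hom _⟩

/-- recentring a far shell -/
theorem Chg.move {p q : Pt} {D r : ℕ} {A : ℝ} {g : Pt → ℝ} (h : Chg q D 3 A g) (hr : ds q p = r)
    (hD : 5 * r < D) (hA : 0 ≤ A) : Chg p (D - r) 4 A g := by
  refine ⟨fun z hz => ?_, ?_, fun z => (h.2.2 z).trans ?_⟩
  · have := h.1 z hz
    have := ds_tri z q p
    have := ds_tri z p q
    have := ds_comm p q
    omega
  · rw [← h.2.1]
    exact (sum_subset (bl_sub (by omega)) fun z _ hz => Chg.sup h z hz).symm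
  · exact div_le_div_of_nonneg_left hA (by exact_mod_cast (by omega : 0 < D - r))
      (by exact_mod_cast Nat.sub_le D r)

theorem cv_Y (hY : YStmt) {W F : Cfg Pt → ℝ} (hW : Wt W) (hS : SE W) (hF : Tame F) (σ : Pt × Pt → ℤ)
    {S : Finset Pt} {u : Pt → ℝ} (hu : Sup S u) : Cv W F (Yv σ u) = Cv W F (pr (A0 u)) := by
  obtain ⟨-, h, -, ht, -⟩ := hY σ S u hu
  rw [← cv_sub_const hW hS hF ht 0 (∑ᶠ z, ∑ i, df i u z * σ (z, z + ev i))]
  simp only [h, sub_zero, add_sub_cancel_right]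

/-- a function supported near `q` is flat at `p` -/
theorem flat_of_sup {p q : Pt} {r n : ℕ} {A : ℝ} {u : Pt → ℝ} (hu : Sup (bl q n) u) (hr : ds p q = r)
    (hn : 8 * n ≤ r) (h8 : 8 ≤ r) (hA : 0 ≤ A) : Flat p r A u := fun z hz => by
  have key : ∀ w, ds w z ≤ 2 → u w = 0 := fun w hw => hu w fun h => by
    have := mem_bl_ds.1 h
    have := ds_tri p z q
    have := ds_tri z w q
    have := ds_comm z p
    have := ds_comm z w
    omega
  refine ⟨?_, fun i j => ?_⟩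
  · rw [A0, key z (by simp [ds]), key (z + _) (by simp [ds]), key (z + _) (by simp [ds]),
      key (z + _) (by simp [ds]), key (z + _) (by simp [ds])]
    ring
  · have e : ∀ i, ds (ev i) 0 = 1 := by decide
    have e2 : ∀ i j, ds (ev i + ev j) 0 ≤ 2 := by decide
    rw [df, df, df, key z (by simp [ds]), key (z + ev j) (by rw [ds_add, e]; omega),
      key (z + ev i) (by rw [ds_add, e]; omega), key _ (by rw [add_assoc, ds_add]; exact e2 _ _)]
    simp only [sub_self, abs_zero]; positivity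

section defs
variable (P : Par) (W : ℕ) (x : Vp × ℕ)

noncomputable def md : Mdl Pt := P.L.D (faces x.2)
noncomputable def wt : Cfg Pt → ℝ := (md P x).Ws 0 x.1.σ
noncomputable def ff (i : Fin 2) : Cfg Pt → ℝ := pr (fd x.1.p (rho x.1.r) i)
noncomputable def MM (i j : Fin 2) : ℝ := lf x.1 (md P x) (r3 P.W₀ W x.1.r) (ff x i) j
noncomputable def bb (j : Fin 2) : ℝ := lf x.1 (md P x) (r3 P.W₀ W x.1.r) (Dv P.b x.1) j
noncomputable def aa : Fin 2 → ℝ := cr (MM P W x) (bb P W x)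
noncomputable def RR : Cfg Pt → ℝ := fun s =>
  Dv P.b x.1 s - (aa P W x 0 * ff x 0 s + aa P W x 1 * ff x 1 s)
noncomputable def mu : ℝ := rho x.1.r * P.ν x.1 (rho x.1.r) (RR P W x)
noncomputable def tau : ℝ := x.1.t ^ (-1 - P.δ)
noncomputable def EE : ℝ := Ex (wt P x) (Dv P.b x.1)

end defs

theorem tame_ff (x : Vp × ℕ) (i : Fin 2) : Tame (ff x i) := Tame.hom _

theorem tend_t : Tendsto (fun x : Vp × ℕ => x.1.t) FF atTop :=
  tendsto_atTop.2 fun c => evr (tend_log.eventually_ge_atTop c)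

theorem le_tau {P : Par} {c : ℝ} (hc : c ≤ -1 - P.δ) : (fun x : Vp × ℕ => x.1.t ^ c) =O[FF] tau P :=
  ofb 1 ((tend_t.eventually_ge_atTop 1).mono fun x hx => by
    rw [abs_of_nonneg (rpow_nonneg (by linarith) _), one_mul]
    exact rpow_le_rpow_of_exponent_le hx hc)

namespace Hy
variable {P : Par} {W : ℕ} (h : Hy P W)
include h

theorem sc : ∀ᶠ x in FF, Sc P.W₀ W x.1.r :=
  evr (ev_sc (by have := h.ok.W2; omega) (by have := h.w16; omega))

theorem amb (c : Vp → Pt) (N : Vp → ℕ) : ∀ᶠ x in FF, Amb P.L (md P x) (bl (c x.1) (N x.1)) :=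
  ev_amb (lok h.ok) c N

theorem wt' (x : Vp × ℕ) : Wt (wt P x) := wt_D (lok h.ok) _ _ _
theorem se (x : Vp × ℕ) : SE (wt P x) := se_D (lok h.ok) _ _ _
theorem tame_D (V : Vp) : Tame (Dv P.b V) := (ins_Dv (b_pos h.ok) V).2
theorem tame_R (x : Vp × ℕ) : Tame (RR P W x) :=
  (h.tame_D _).sub (((tame_ff x 0).const_mul _).add ((tame_ff x 1).const_mul _))

theorem tau0 : Tendsto (tau P) FF (𝓝 0) := by
  have := (tendsto_rpow_neg_atTop (y := 1 + P.δ) (by linarith [h.ok.δ0])).comp tend_t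
  rwa [neg_add, ← sub_eq_add_neg] at this


theorem E_bd : ∃ c : ℝ, 0 < c ∧ (∀ᶠ x in FF, c ≤ EE P x) ∧ EE P =O[FF] fun _ => (1 : ℝ) := by
  obtain ⟨c, C, r₁, hc, H⟩ := (h.mic P h.ok).2
  have : ∀ᶠ x in FF, c ≤ EE P x ∧ EE P x ≤ C := by
    filter_upwards [evr (eventually_ge_atTop r₁), h.amb Vp.p fun V => 4 * V.r] with x h1 h2
    exact ⟨(H x.1 _ h1 h2).1, (H x.1 _ h1 h2).2.1⟩
  exact ⟨c, hc, this.mono fun _ h => h.1, ofb C (this.mono fun _ h => by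
    rw [abs_of_pos (hc.trans_le h.1), mul_one]; exact h.2)⟩

theorem E_inv : (fun x => (EE P x)⁻¹) =O[FF] fun _ => (1 : ℝ) := by
  obtain ⟨c, hc, H, -⟩ := h.E_bd
  exact ofb c⁻¹ (H.mono fun x hx => by
    rw [abs_of_pos (inv_pos.2 (hc.trans_le hx)), mul_one]; exact inv_anti₀ hc hx)

theorem b_bd (j : Fin 2) : (fun x => bb P W x j) =O[FF] fun _ => (1 : ℝ) := by
  obtain ⟨C, r₁, H⟩ := h.lin P h.ok 3 (by norm_num)
  obtain ⟨A, hU⟩ := h.uc
  obtain ⟨M, hM⟩ := h.apr P h.ok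
  refine ofb (|C| * |A| * (8 * P.W₀) * M) ?_
  filter_upwards [h.sc, evr (ev_rho (r₁ + P.r₀ + 1)), evr (eventually_ge_atTop r₁),
    h.amb Vp.p fun V => 4 * V.r] with x s h1 h2 h3
  have w := four_le h.ok (ρ := r2 P.W₀ W x.1.r)
  have s3 := s.h3
  have s7 := s.h7
  have e3 : r3 P.W₀ W x.1.r = 8 * (P.W₀ * r2 P.W₀ W x.1.r) := rfl
  obtain ⟨u1, u2, -⟩ := hU x.1.p (r3 P.W₀ W x.1.r) j (by omega)
  have := ((H x.1 _ A _ (by omega) h2 u2 (Or.inl (by omega))).1 _ h3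
    (amb_mono h3 (bl_mono _ (by omega)))).2 (r2 P.W₀ W x.1.r) _ (by omega) (by omega) (by omega)
    (Or.inl (by omega)) (ins_le (ins_Dv (b_pos h.ok) x.1) (by omega))
  have e : bb P W x j = _ := cv_Y h.y (h.wt' x) (h.se x) (h.tame_D _) x.1.σ u1
  have hν := ν_nonneg h.ok x.1 (r2 P.W₀ W x.1.r) (Dv P.b x.1)
  have hD : ((r3 P.W₀ W x.1.r - 1 : ℕ) : ℝ) ≤ 8 * P.W₀ * r2 P.W₀ W x.1.r := by
    exact_mod_cast (by rw [mul_assoc]; omega : r3 P.W₀ W x.1.r - 1 ≤ 8 * P.W₀ * r2 P.W₀ W x.1.r)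
  rw [e, mul_one]
  refine this.trans ((le_abs_self _).trans ?_)
  rw [abs_mul, abs_mul, abs_mul, abs_of_nonneg hν, Nat.abs_cast]
  calc _ ≤ |C| * P.ν x.1 (r2 P.W₀ W x.1.r) (Dv P.b x.1) * (|A| * (8 * P.W₀ * r2 P.W₀ W x.1.r)) := by gcongr
    _ = |C| * |A| * (8 * P.W₀) * (r2 P.W₀ W x.1.r * P.ν x.1 (r2 P.W₀ W x.1.r) (Dv P.b x.1)) := by ring
    _ ≤ _ := by gcongr; exact hM x.1 _ (by omega) (by omega)

theorem lv' : ∃ C : ℝ, ∀ᶠ x in FF, ∀ i j : Fin 2,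
    |MM P W x i j - if i = j then gc x.1.r else 0| ≤ C * tau P x ∧
    |lf x.1 (md P x) (r3 P.W₀ W x.1.r) (ff (sw x) i) j| ≤ C * tau P x ∧
    |(x.1.r : ℝ) ^ 2 * Cv (wt P x) (ff x i) (ff (sw x) j)| ≤ C * 1 ∧
    |(x.1.r : ℝ) ^ 2 * Cv (wt P x) (ff x 1) (ff (sw x) 1) - gc x.1.r / (2 * π)| ≤ C * tau P x := by
  obtain ⟨C, r₁, H⟩ := h.lv P h.ok
  choose! R H using H
  refine ⟨C, ?_⟩
  filter_upwards [h.sc, evr (ev_rho 1), evr (eventually_ge_atTop r₁), h.amb Vp.p R] with x s h1 h2 h3 i j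
  have w := four_le h.ok (ρ := r2 P.W₀ W x.1.r)
  have s3 := s.h3
  have s7 := s.h7
  have e3 : r3 P.W₀ W x.1.r = 8 * (P.W₀ * r2 P.W₀ W x.1.r) := rfl
  obtain ⟨a, b⟩ := H x.1 h2 _ _ h3 s.h1 i j
  obtain ⟨a1, a2⟩ := a (r3 P.W₀ W x.1.r) (by omega) (by omega)
  obtain ⟨b1, b2⟩ := b s.h2
  exact ⟨a1, a2, b1.trans_eq (mul_one _).symm, b2⟩

theorem a_bd : ∀ᶠ x in FF,
    (∀ j, aa P W x 0 * MM P W x 0 j + aa P W x 1 * MM P W x 1 j = bb P W x j) ∧
      ∀ i, |aa P W x i| ≤ 9 * (|bb P W x 0| + |bb P W x 1|) := by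
  obtain ⟨C, H⟩ := h.lv'
  have := h.tau0.const_mul C
  rw [mul_zero] at this
  filter_upwards [h.sc, H, this.eventually_le_const (show (0 : ℝ) < 1 / 8 by norm_num)] with x s H h1
  exact cramer (gc_bd s.t4).1 (gc_bd s.t4).2 (fun i j => (H i j).1.trans h1) _

theorem a_one (i : Fin 2) : (fun x => aa P W x i) =O[FF] fun _ => (1 : ℝ) :=
  (ofb 9 (h.a_bd.mono fun _ hx => hx.2 i)).trans ((h.b_bd 0).abs_left.add (h.b_bd 1).abs_left)

theorem lf_R (x : Vp × ℕ) (σ : Pt × Pt → ℤ) {S : Finset Pt} {u : Pt → ℝ} (hu : Sup S u) :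
    Cv (wt P x) (RR P W x) (Yv σ u) = Cv (wt P x) (Dv P.b x.1) (Yv σ u) -
      (aa P W x 0 * Cv (wt P x) (ff x 0) (Yv σ u) + aa P W x 1 * Cv (wt P x) (ff x 1) (Yv σ u)) := by
  have ht := (h.y σ S u hu).2.2.2.1
  rw [← Cv_const_mul_left, ← Cv_const_mul_left, ← cv_add_left (h.se x) ((tame_ff x 0).const_mul _)
    ((tame_ff x 1).const_mul _) ht, ← cv_sub_left (h.se x) (h.tame_D _)
    (((tame_ff x 0).const_mul _).add ((tame_ff x 1).const_mul _)) ht]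
  rfl

theorem ins_f : ∀ᶠ x in FF, ∀ i, Ins x.1.p (rho x.1.r + 1) (ff x i) := by
  obtain ⟨A, hD⟩ := h.dip
  filter_upwards [evr (ev_rho 32)] with x h1 i
  exact ins_le (Chg.ins (hD x.1.p _ _ i h1 le_rfl).1) (by omega)

theorem ins_R : ∀ᶠ x in FF, Ins x.1.p (rho x.1.r + 1) (RR P W x) := h.ins_f.mono fun x hx =>
  ins_sub (ins_le (ins_Dv (b_pos h.ok) x.1) (by omega)) (ins_add (ins_smul (hx 0) _) (ins_smul (hx 1) _))

theorem kill : ∀ᶠ x in FF, ∀ j, lf x.1 (md P x) (r3 P.W₀ W x.1.r) (RR P W x) j = 0 := by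
  obtain ⟨A, hU⟩ := h.uc
  filter_upwards [h.a_bd, h.sc, evr (ev_rho 1)] with x hx s h1 j
  have w := four_le h.ok (ρ := r2 P.W₀ W x.1.r)
  have s7 := s.h7
  exact (h.lf_R x _ (hU x.1.p (r3 P.W₀ W x.1.r) j (by rw [r3]; omega)).1).trans (sub_eq_zero.2 (hx.1 j).symm)

theorem nu_f (i : Fin 2) :
    (fun x => (rho x.1.r : ℝ) * P.ν x.1 (rho x.1.r) (ff x i)) =O[FF] fun _ => (1 : ℝ) := by
  obtain ⟨C, r₁, H⟩ := h.lin P h.ok 8 (by norm_num)
  obtain ⟨A, hD⟩ := h.dip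
  refine ofb (|C| * |A|) ?_
  filter_upwards [h.sc, evr (ev_rho (8 * r₁ + 32)), evr (eventually_ge_atTop r₁)] with x s h1 h2
  have w := four_le h.ok (ρ := r2 P.W₀ W x.1.r)
  have w' := Nat.mul_le_mul_left P.W₀ s.h7
  have s3 := s.h3
  have s7 := s.h7
  have := (H x.1 _ _ _ (by omega) h2 (hD x.1.p (rho x.1.r) _ i (by omega) le_rfl).1 (Or.inl (by omega))).2
    (rho x.1.r) (by omega) (by omega) (by omega)
  have ρ0 : (0 : ℝ) < rho x.1.r := by exact_mod_cast (by omega : 0 < rho x.1.r)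
  have hD : ((rho x.1.r / 8 : ℕ) : ℝ) ≤ rho x.1.r := by exact_mod_cast Nat.div_le_self _ _
  rw [abs_of_nonneg (mul_nonneg ρ0.le (ν_nonneg h.ok _ _ _)), mul_one]
  refine (mul_le_mul_of_nonneg_left (this.trans (le_abs_self _)) ρ0.le).trans ?_
  rw [abs_mul, abs_mul, abs_div, Nat.abs_cast, abs_of_pos (pow_pos ρ0 2)]
  calc _ ≤ (rho x.1.r : ℝ) * (|C| * (|A| / (rho x.1.r : ℝ) ^ 2) * rho x.1.r) := by gcongr
    _ = _ := by field_simp

theorem mu_one : mu P W =O[FF] fun _ => (1 : ℝ) := by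
  obtain ⟨M, hM⟩ := h.apr P h.ok
  have h0 : (fun x : Vp × ℕ => (rho x.1.r : ℝ) * P.ν x.1 (rho x.1.r) (Dv P.b x.1)) =O[FF]
      fun _ => (1 : ℝ) := by
    refine ofb M ?_
    filter_upwards [h.sc, evr (ev_rho P.r₀)] with x s h1
    have w' := Nat.mul_le_mul_left P.W₀ s.h7
    have s3 := s.h3
    rw [abs_of_nonneg (mul_nonneg (Nat.cast_nonneg _) (ν_nonneg h.ok _ _ _)), mul_one]
    exact hM x.1 _ h1 (by omega)
  have h1 := fun i => ((h.a_one i).abs_left.mul (h.nu_f i)).congr_right fun _ => mul_one _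
  refine (ofb 1 ?_).trans (h0.add ((h1 0).add (h1 1)))
  filter_upwards [h.ins_f] with x hx
  rw [mu, abs_of_nonneg (mul_nonneg (Nat.cast_nonneg _) (ν_nonneg h.ok _ _ _)), one_mul]
  have a1 := ν_sub_le h.ok h.tr (ins_le (ins_Dv (b_pos h.ok) x.1) (by omega))
    (ins_add (ins_smul (hx 0) (aa P W x 0)) (ins_smul (hx 1) (aa P W x 1)))
  have a2 := ν_add_le h.ok h.tr (ins_smul (hx 0) (aa P W x 0)) (ins_smul (hx 1) (aa P W x 1))
  rw [ν_smul, ν_smul] at a2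
  exact (mul_le_mul_of_nonneg_left (a1.trans (add_le_add le_rfl a2)) (Nat.cast_nonneg _)).trans_eq
    (by ring)

theorem pur' : ∀ᶠ x in FF, ∀ k ≤ nn P.W₀ W x.1.r,
    (W ^ k * rho x.1.r : ℕ) * P.ν x.1 (W ^ k * rho x.1.r) (RR P W x) ≤
      mu P W x * (x.1.t ^ (-(3 / 4 : ℝ)) + ((W : ℝ) ^ k) ^ (-(3 / 4 : ℝ))) := by
  obtain ⟨r₁, H⟩ := h.pur P h.ok W h.w16 h.ly
  choose! R H using H
  filter_upwards [h.sc, evr (eventually_ge_atTop r₁), h.amb Vp.p R, h.ins_R, h.kill] with x s a b h1 h2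
  exact H x.1 a _ _ _ _ b s.h1 s.h3 h1 h2

theorem rw' : ∃ C : ℝ, ∀ᶠ x in FF, ∀ (S : ℕ) (A : ℝ) (u : Pt → ℝ), (S : ℝ) ≤ x.1.r * x.1.t ^ 8 →
    Sup (bl x.1.p S) u → Dip x.1.q (rho x.1.r) A u → Flat x.1.p x.1.r A u →
    |Cv (wt P x) (RR P W x) (Yv x.1.σ u)| ≤
      C * A * mu P W x * x.1.t ^ (-(3 / 2 : ℝ)) / (x.1.r : ℝ) ^ 2 := by
  obtain ⟨C, r₁, H⟩ := h.rw P h.ok W h.w16
  choose! R H using H
  refine ⟨C, ?_⟩
  filter_upwards [h.sc, evr (eventually_ge_atTop r₁), h.amb Vp.p R, h.ins_R, h.kill, h.pur']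
    with x s a b h1 h2 h3 S A u
  exact H x.1 a _ _ _ S A _ _ u b s.h1 s.h2 s.h3 s.h4 h1 h2 h3

theorem mu_tau : (fun x => mu P W x * x.1.t ^ (-(3 / 2 : ℝ))) =O[FF] tau P :=
  (h.mu_one.mul (le_tau (by linarith [h.ok.δ1]))).congr_right fun _ => one_mul _

theorem nu_R : (fun x => (x.1.r : ℝ) * P.ν x.1 (r2 P.W₀ W x.1.r) (RR P W x)) =O[FF]
    fun x => x.1.t ^ (-(3 / 4 : ℝ)) := by
  refine (ofb (g := fun x => mu P W x * x.1.t ^ (-(3 / 4 : ℝ))) (256 * P.W₀ * W) ?_).trans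
    ((h.mu_one.mul (isBigO_refl _ _)).congr_right fun _ => one_mul _)
  filter_upwards [h.sc, h.pur'] with x s H
  have hν := ν_nonneg h.ok x.1 (r2 P.W₀ W x.1.r) (RR P W x)
  have hμ : 0 ≤ mu P W x := mul_nonneg (Nat.cast_nonneg _) (ν_nonneg h.ok _ _ _)
  have a1 : (x.1.r : ℝ) ≤ 128 * P.W₀ * W * r2 P.W₀ W x.1.r := by
    exact_mod_cast s.h4.trans_eq (by rw [r2]; ring)
  have a2 : ((W : ℝ) ^ nn P.W₀ W x.1.r) ^ (-(3 / 4 : ℝ)) ≤ x.1.t ^ (-(3 / 4 : ℝ)) :=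
    rpow_le_rpow_of_nonpos (by linarith [s.t4] : 0 < log x.1.r) s.h6 (by norm_num)
  rw [abs_of_nonneg (mul_nonneg (Nat.cast_nonneg _) hν)]
  calc _ ≤ 128 * P.W₀ * W * r2 P.W₀ W x.1.r * P.ν x.1 (r2 P.W₀ W x.1.r) (RR P W x) := by gcongr
    _ = 128 * P.W₀ * W * (r2 P.W₀ W x.1.r * P.ν x.1 (r2 P.W₀ W x.1.r) (RR P W x)) := by ring
    _ ≤ 128 * P.W₀ * W * (mu P W x * (x.1.t ^ (-(3 / 4 : ℝ)) + x.1.t ^ (-(3 / 4 : ℝ)))) := by
        exact mul_le_mul_of_nonneg_left ((H _ le_rfl).trans (by gcongr)) (by positivity)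
    _ = _ := by ring

end Hy

end Crest.Agent.T145.Vx.X87
end

-- ▼ part T145/VxX_87

/-!
# Row 145, twisted module, X (helper87): the micro cross ratio in a large box
-/

set_option autoImplicit false

namespace Crest.Agent.T145.Vx

open Finset Filter Topology Asymptotics Real B30
open Nc (Amb)

namespace X87

theorem sw_sw' (x : Vp × ℕ) : sw (sw x) = x := Prod.ext (sw_sw _) rfl

theorem osw {P : Par} {f : Vp × ℕ → ℝ} (h : f =O[FF] tau P) : (fun x => f (sw x)) =O[FF] tau P :=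
  h.comp_tendsto tend_sw

theorem osw1 {f : Vp × ℕ → ℝ} (h : f =O[FF] fun _ => (1 : ℝ)) :
    (fun x => f (sw x)) =O[FF] fun _ => (1 : ℝ) := h.comp_tendsto tend_sw

theorem omul {α : Type*} {l : Filter α} {f g k : α → ℝ} (h : f =O[l] fun _ => (1 : ℝ)) (h' : g =O[l] k) :
    (fun x => f x * g x) =O[l] k := (h.mul h').congr_right fun _ => one_mul _

theorem omul' {α : Type*} {l : Filter α} {f g k : α → ℝ} (h' : g =O[l] k) (h : f =O[l] fun _ => (1 : ℝ)) :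
    (fun x => g x * f x) =O[l] k := (h'.mul h).congr_right fun _ => mul_one _

namespace Hy
variable {P : Par} {W : ℕ} (h : Hy P W)
include h

theorem g_one : (fun x : Vp × ℕ => gc x.1.r) =O[FF] fun _ => (1 : ℝ) :=
  ofb 1 (h.sc.mono fun x s => by
    rw [abs_of_nonneg (by linarith [(gc_bd s.t4).1]), mul_one]; exact (gc_bd s.t4).2)

theorem g_inv : (fun x : Vp × ℕ => (gc x.1.r)⁻¹) =O[FF] fun _ => (1 : ℝ) :=
  ofb (1 / 2)⁻¹ (h.sc.mono fun x s => by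
    rw [abs_of_nonneg (inv_nonneg.2 (by linarith [(gc_bd s.t4).1])), mul_one]
    exact inv_anti₀ (by norm_num) (gc_bd s.t4).1)

/-- the move at one core against the calibration at the other core -/
theorem far_lf : (fun x => lf x.1.sw (md P x) (r3 P.W₀ W x.1.r) (Dv P.b x.1) 1) =O[FF] tau P := by
  obtain ⟨A, hU⟩ := h.uc
  obtain ⟨C, H⟩ := h.rw'
  obtain ⟨C', H'⟩ := h.lv'
  have hf : ∀ i, (fun x => Cv (wt P x) (ff x i) (Yv x.1.σ (Vx.uc x.1.q (r3 P.W₀ W x.1.r) 1))) =O[FF] tau P :=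
    fun i => ofb C' ((tend_sw.eventually H').mono fun x hx => by
      have := (hx i 1).2.1
      rwa [sw_sw'] at this)
  have hs : ∀ᶠ x in FF, Sup (bl x.1.q (2 * r3 P.W₀ W x.1.r)) (Vx.uc x.1.q (r3 P.W₀ W x.1.r) 1) ∧
      |Cv (wt P x) (RR P W x) (Yv x.1.σ (Vx.uc x.1.q (r3 P.W₀ W x.1.r) 1))| ≤
        C * A * (mu P W x * x.1.t ^ (-(3 / 2 : ℝ))) := by
    filter_upwards [h.sc, H, evr (ev_rho 1)] with x s H h1
    have w := four_le h.ok (ρ := r2 P.W₀ W x.1.r)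
    have s3 := s.h3
    have s7 := s.h7
    have e3 : r3 P.W₀ W x.1.r = 8 * (P.W₀ * r2 P.W₀ W x.1.r) := rfl
    obtain ⟨u1, -, -, u4, u5⟩ := hU x.1.q (r3 P.W₀ W x.1.r) 1 (by omega)
    have hA : 0 ≤ A := (abs_nonneg _).trans ((u4 0).2 0).1
    have r0 : (0 : ℝ) < x.1.r := by exact_mod_cast (by omega : 0 < x.1.r)
    refine ⟨u1, (H (2 * x.1.r) (A * (x.1.r : ℝ) ^ 2) _
      (le_trans (by exact_mod_cast (by have := s.s3; omega : 2 * x.1.r ≤ 2 * SS x.1.r + x.1.r)) s.s2)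
      (fun z hz => u1 z fun hz' => hz (bl_sub (by rw [ds_qp]; omega) hz'))
      (u5 _ _ _ h1 (by omega) (by omega) (by rw [ds_self]; omega))
      (flat_of_sup u1 (ds_pq _) (by omega) (by omega) (by positivity))).trans_eq ?_⟩
    field_simp
  refine (((ofb (C * A) (hs.mono fun _ hx => hx.2)).trans h.mu_tau).add
    ((omul (h.a_one 0) (hf 0)).add (omul (h.a_one 1) (hf 1)))).congr' ?_ EventuallyEq.rfl
  filter_upwards [hs] with x hx
  rw [h.lf_R x _ hx.1, sub_add_cancel]; rfl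

theorem cal' : (∀ᶠ x in FF, bb P W x 0 = 0) ∧ (fun x => bb P W x 1 + EE P x) =O[FF] tau P := by
  obtain ⟨C, r₁, H⟩ := h.cal P h.ok
  have hc : ∀ᶠ x in FF, bb P W x 0 = 0 ∧ |bb P W x 1 / EE P x + 1 -
      lf x.1 (md P x) (r3 P.W₀ W x.1.r) (Dv P.b x.1.sw) 1 / EE P (sw x)| ≤
        C * log (r3 P.W₀ W x.1.r) ^ (-1 - P.δ) := by
    refine evF (Q := fun V R => bb P W (V, R) 0 = 0 ∧ |bb P W (V, R) 1 / EE P (V, R) + 1 -
      lf V (md P (V, R)) (r3 P.W₀ W V.r) (Dv P.b V.sw) 1 / EE P (sw (V, R))| ≤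
        C * log (r3 P.W₀ W V.r) ^ (-1 - P.δ)) ?_
    filter_upwards [evG (ev_sc (a := P.W₀) (W := W) (by have := h.ok.W2; omega) (by have := h.w16; omega)),
      evG (ev_rho r₁)] with V s h1
    have w := four_le h.ok (ρ := r2 P.W₀ W V.r)
    have s3 := s.h3
    have s7 := s.h7
    have e3 : r3 P.W₀ W V.r = 8 * (P.W₀ * r2 P.W₀ W V.r) := rfl
    exact H V (r3 P.W₀ W V.r) (by omega) (by omega)
  have hl : (fun x : Vp × ℕ => log (r3 P.W₀ W x.1.r) ^ (-1 - P.δ)) =O[FF] tau P := by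
    refine ofb ((1 / 2) ^ (-1 - P.δ)) ?_
    filter_upwards [h.sc, evr (ev_rho 1)] with x s h1
    have w := four_le h.ok (ρ := r2 P.W₀ W x.1.r)
    have s7 := s.h7
    have t0 : 0 < log (x.1.r : ℝ) := by linarith [s.t4]
    have : log x.1.r / 2 ≤ log (r3 P.W₀ W x.1.r) := s.h5.trans
      (log_le_log (by exact_mod_cast h1) (by exact_mod_cast (by rw [r3]; omega)))
    rw [abs_of_nonneg (rpow_nonneg (by linarith) _), tau, Vp.t, ← mul_rpow (by norm_num) t0.le]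
    exact rpow_le_rpow_of_nonpos (by linarith) (by linarith) (by linarith [h.ok.δ0])
  have hf := omul' (osw h.far_lf) (osw1 h.E_inv)
  obtain ⟨c, hc0, hE, hE1⟩ := h.E_bd
  refine ⟨hc.mono fun _ h => h.1, (omul' (((ofb C (hc.mono fun _ h => h.2)).trans hl).add hf) hE1).congr'
    ?_ EventuallyEq.rfl⟩
  filter_upwards [hE] with x hx
  have : (sw x).1.sw = x.1 := sw_sw _
  have e : EE P x ≠ 0 := (hc0.trans_le hx).ne'
  rw [this, div_eq_mul_inv (lf _ _ _ _ _)]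
  exact (congrArg (· * EE P x) (sub_add_cancel _ _)).trans (by field_simp)

theorem a_val : (fun x => aa P W x 0) =O[FF] tau P ∧
    (fun x => gc x.1.r * aa P W x 1 + EE P x) =O[FF] tau P := by
  obtain ⟨C, H⟩ := h.lv'
  have hM := fun i j => omul (h.a_one i) (ofb C (H.mono fun _ hx => (hx i j).1))
  constructor
  · refine (omul h.g_inv ((hM 0 0).add (hM 1 0)).neg_left).congr' ?_ EventuallyEq.rfl
    filter_upwards [h.a_bd, h.cal'.1, h.sc] with x h1 h2 s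
    have e : gc x.1.r ≠ 0 := by linarith [(gc_bd s.t4).1]
    have := h1.1 0
    simp only [if_true, one_ne_zero, if_false]
    field_simp
    linarith
  · refine (h.cal'.2.sub ((hM 0 1).add (hM 1 1))).congr' ?_ EventuallyEq.rfl
    filter_upwards [h.a_bd] with x h1
    have := h1.1 1
    simp only [if_true, zero_ne_one, if_false]
    linarith

/-- the purified move against the dipole at the other core -/
theorem R_f (j : Fin 2) :
    (fun x => (x.1.r : ℝ) ^ 2 * Cv (wt P x) (RR P W x) (ff (sw x) j)) =O[FF] tau P := by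
  obtain ⟨A, hD⟩ := h.dip
  obtain ⟨C, H⟩ := h.rw'
  obtain ⟨C', r₁, H'⟩ := h.lin P h.ok 4 (by norm_num)
  have h2 : (fun x => (x.1.r : ℝ) * P.ν x.1 (r2 P.W₀ W x.1.r) (RR P W x) * x.1.t ^ (-(2 : ℝ))) =O[FF]
      tau P := by
    refine (h.nu_R.mul (isBigO_refl _ _)).trans ((le_tau (c := -(3 / 4) + -2)
      (by linarith [h.ok.δ1])).congr' ?_ EventuallyEq.rfl)
    filter_upwards [tend_t.eventually_gt_atTop 0] with x hx using rpow_add hx _ _
  refine (ofb 1 ?_).trans ((h.mu_tau.const_mul_left (C * A)).add (h2.const_mul_left (|C'| * A)))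
  filter_upwards [h.sc, H, evr (ev_rho (32 + P.r₀)), evr (eventually_ge_atTop r₁), h.ins_R,
    h.amb Vp.p fun V => 4 * V.r, h.amb Vp.p fun V => 2 * (4 * (SS V.r - 1 - V.r))] with x s H h1 h3 h4 h5 h6
  have w := four_le h.ok (ρ := r2 P.W₀ W x.1.r)
  have s3 := s.h3
  have s7 := s.h7
  have s8 := s.s3
  obtain ⟨-, -, u1, u2, u3, -, u4⟩ := hD x.1.q (rho x.1.r) (SS x.1.r) j (by omega) (by omega)
  have u5 := u2 _ (by omega) le_rfl
  have hA : 0 ≤ A := nonneg_of_mul_nonneg_left ((abs_nonneg _).trans (u5.b0 x.1.q)) (by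
    rw [al, ds_self]; exact one_div_pos.2 (by exact_mod_cast (by omega : 0 < rho x.1.r + 0)))
  have r0 : (0 : ℝ) < x.1.r := by exact_mod_cast (by omega : 0 < x.1.r)
  have S0 : (0 : ℝ) < SS x.1.r := by exact_mod_cast (by omega : 0 < SS x.1.r)
  have t0 : 0 < log (x.1.r : ℝ) := by linarith [s.t4]
  have a1 := H _ A _ s.s2 (fun z hz => u1 z fun hz' => hz (bl_sub (by rw [ds_qp]; omega) hz')) u5
    (u4 x.1.p _ (by rw [p_snd, q_snd]) (ds_qp _) (by omega) (by omega)).1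
  have a2 := ((H' x.1 _ _ _ (by omega) h3 (Chg.move u3 (ds_qp _) (by omega) (by positivity))
    (Or.inr (by omega))).1 _ h5 h6).2 (r2 P.W₀ W x.1.r) _ (by omega) (by omega) (by omega)
    (Or.inr (by omega)) (ins_le h4 (by omega))
  have e : Cv (wt P x) (RR P W x) (ff (sw x) j) =
      Cv (wt P x) (RR P W x) (Yv x.1.σ (ud x.1.q (rho x.1.r) (SS x.1.r) j)) -
      Cv (wt P x) (RR P W x) (pr (A0 (ud x.1.q (rho x.1.r) (SS x.1.r) j) - fd x.1.q (rho x.1.r) j)) := by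
    rw [cv_Y h.y (h.wt' x) (h.se x) (h.tame_R x) _ u1,
      ← cv_sub_right (h.se x) (Tame.hom _) (Tame.hom _) (h.tame_R x)]
    simp only [pr_sub, AddMonoidHom.sub_apply, sub_sub_cancel]
    rfl
  have hν := ν_nonneg h.ok x.1 (r2 P.W₀ W x.1.r) (RR P W x)
  have hD : ((SS x.1.r - 1 - x.1.r : ℕ) : ℝ) ≤ SS x.1.r := by exact_mod_cast (by omega)
  rw [e, abs_mul, abs_of_pos (pow_pos r0 2), one_mul]
  refine (mul_le_mul_of_nonneg_left ((abs_sub _ _).trans (add_le_add a1 (a2.trans (le_abs_self _))))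
    (pow_pos r0 2).le).trans ?_
  rw [mul_add, abs_mul, abs_mul, abs_of_nonneg hν, abs_of_nonneg (a := A / _ * _) (by positivity)]
  refine add_le_add (le_of_eq (by field_simp)) ?_
  calc _ ≤ (x.1.r : ℝ) ^ 2 * (|C'| * P.ν x.1 (r2 P.W₀ W x.1.r) (RR P W x) *
        (A / (SS x.1.r : ℝ) ^ 2 * SS x.1.r)) := by gcongr
    _ = |C'| * A * (x.1.r * P.ν x.1 (r2 P.W₀ W x.1.r) (RR P W x) * (x.1.r / SS x.1.r)) := by field_simp
    _ ≤ _ := by
      gcongr
      rw [Vp.t, rpow_neg t0.le, rpow_two, div_le_iff₀ S0, le_inv_mul_iff₀ (pow_pos t0 2), mul_comm]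
      exact s.s1

theorem R_R : (fun x => (x.1.r : ℝ) ^ 2 * Cv (wt P x) (RR P W x) (RR P W (sw x))) =O[FF] tau P := by
  obtain ⟨C, H⟩ := h.cov P h.ok 1
  have h2 := (h.nu_R.mul (h.nu_R.comp_tendsto tend_sw)).trans ((le_tau (P := P) (c := -(3 / 4) + -(3 / 4))
    (by linarith [h.ok.δ1])).congr' ((tend_t.eventually_gt_atTop 0).mono fun x hx => rpow_add hx _ _)
      EventuallyEq.rfl)
  refine (ofb C ?_).trans h2
  filter_upwards [h.sc, evr (ev_rho P.r₀), h.ins_R, tend_sw.eventually h.ins_R,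
    h.amb Vp.p fun V => 4 * V.r] with x s h1 h2 h3 h4
  have s3 := s.h3
  have s7 := s.h7
  have := (H x.1 _ (r2 P.W₀ W x.1.r) (r2 P.W₀ W x.1.r) _ _ (by omega) (by omega) (by omega) (by omega) h4
    (ins_le h2 (by omega)) (ins_le h3 (Nat.succ_le_succ s7))).2.1
  rw [abs_mul, abs_of_nonneg (sq_nonneg _)]
  exact (mul_le_mul_of_nonneg_left this (sq_nonneg _)).trans_eq
    (by simp only [Function.comp, sw, sw_r]; ring)

theorem split (x : Vp × ℕ) : Cv (wt P x) (Dv P.b x.1) (Dv P.b x.1.sw) =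
    Cv (wt P x) (RR P W x) (RR P W (sw x)) +
      ∑ j, aa P W (sw x) j * Cv (wt P x) (RR P W x) (ff (sw x) j) +
      ∑ i, aa P W x i * (Cv (wt P x) (RR P W (sw x)) (ff x i) +
        ∑ j, aa P W (sw x) j * Cv (wt P x) (ff x i) (ff (sw x) j)) := by
  have e : ∀ y : Vp × ℕ, Dv P.b y.1 = fun s => RR P W y s + (aa P W y 0 * ff y 0 s + aa P W y 1 * ff y 1 s) :=
    fun y => funext fun s => (sub_add_cancel _ _).symm
  have k : ∀ (y : Vp × ℕ) {G}, Tame G → Cv (wt P x) G (Dv P.b y.1) =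
      Cv (wt P x) G (RR P W y) + ∑ j, aa P W y j * Cv (wt P x) G (ff y j) := fun y G hG => by
    rw [e y, cv_add_right (h.se x) (h.tame_R y) (((tame_ff y 0).const_mul _).add
      ((tame_ff y 1).const_mul _)) hG, cv_add_right (h.se x) ((tame_ff y 0).const_mul _)
      ((tame_ff y 1).const_mul _) hG, Cv_const_mul_right, Cv_const_mul_right, Fin.sum_univ_two]
  show Cv (wt P x) (Dv P.b x.1) (Dv P.b (sw x).1) = _
  rw [Cv_comm, k x (h.tame_D _), Cv_comm, k (sw x) (h.tame_R x)]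
  congr 1
  refine sum_congr rfl fun i _ => ?_
  rw [Cv_comm, k (sw x) (tame_ff x i), Cv_comm]

theorem main : (fun x => (x.1.r : ℝ) ^ 2 * (Cv (wt P x) (Dv P.b x.1) (Dv P.b x.1.sw) /
    (EE P x * EE P (sw x))) - 1 / (2 * π * gc x.1.r)) =O[FF] tau P := by
  obtain ⟨C, H⟩ := h.lv'
  obtain ⟨c, hc0, hE, hE1⟩ := h.E_bd
  obtain ⟨a0, a1⟩ := h.a_val
  have v := fun i j => ofb C (H.mono fun _ hx => (hx i j).2.2.1)
  have v1 := ofb C (H.mono fun _ hx => (hx 0 0).2.2.2)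
  have f := fun i => ((osw (h.R_f i)).congr_left fun x => by rw [sw_sw'])
  have b := fun i => osw1 (h.a_one i)
  have t1 := ((h.R_R.add (omul (b 0) (h.R_f 0))).add (omul (b 1) (h.R_f 1))).add
    ((omul (h.a_one 0) (f 0)).add (omul (h.a_one 1) (f 1)))
  have t2 := ((omul' a0 (omul (b 0) (v 0 0))).add (omul' a0 (omul (b 1) (v 0 1)))).add
    ((omul' (osw a0) (omul (h.a_one 1) (v 1 0))).add (omul (h.a_one 1) (omul (b 1) v1)))
  have t3 := (omul h.g_inv ((omul' a1 (omul h.g_one (b 1))).sub (omul hE1 (osw a1)))).const_mul_left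
    (2 * π)⁻¹
  refine (omul h.E_inv (omul (osw1 h.E_inv) ((t1.add t2).add t3))).congr' ?_ EventuallyEq.rfl
  filter_upwards [hE, tend_sw.eventually hE, h.sc] with x h1 h2 s
  have e1 : EE P x ≠ 0 := (hc0.trans_le h1).ne'
  have e2 : EE P (sw x) ≠ 0 := (hc0.trans_le h2).ne'
  have e3 : gc x.1.r ≠ 0 := by linarith [(gc_bd s.t4).1]
  have e4 : wt P (sw x) = wt P x := rfl
  have e5 : (sw x).1.r = x.1.r := rfl
  rw [h.split x]
  simp only [Fin.sum_univ_two, e4, e5]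
  field_simp
  ring

end Hy

end X87

/-- X -/
theorem xStmt (hT : TrStmt) (hCov : CovStmt) (hMic : MicStmt) (hLin : LinStmt) (hY : YStmt) (hU : UcStmt)
    (hD : DipStmt) (hLv : LvStmt) (hLy : LyStmt) (hPur : PurStmt) (hRw : RwStmt) (hCal : CalStmt)
    (hA : AprStmt) : XStmt := fun P hP => by
  obtain ⟨W, hW, hL⟩ := hLy P hP
  obtain ⟨C, H⟩ := (X87.Hy.main ⟨hP, hW, hL, hT, hCov, hMic, hLin, hY, hU, hD, hLv, hPur, hRw, hCal, hA⟩).bound
  refine ⟨C, X87.out ?_⟩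
  filter_upwards [H, X87.tend_t.eventually_ge_atTop 0] with x hx h0
  rwa [norm_eq_abs, X87.tau, norm_of_nonneg (rpow_nonneg h0 _)] at hx

end Crest.Agent.T145.Vx
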