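import Crest.Agent.T145.FsDef_70

/-! # Row 145 (e): basic API for the multiscale argument (helper70) -/

set_option autoImplicit false

namespace Crest.Agent.T145.FS

open MeasureTheory

/-! ## Energies -/

theorem w_nonneg (g : P → ℝ) (x : P) : 0 ≤ w g x := by unfold w; positivity

theorem En_nonneg (X : Finset P) (g : P → ℝ) : 0 ≤ En X g :=
  Finset.sum_nonneg fun x _ => w_nonneg g x

theorem D_nonneg (Λ : Finset P) (g : P → ℝ) : 0 ≤ D Λ g := En_nonneg _ _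

theorem En_mono {X Y : Finset P} (h : X ⊆ Y) (g : P → ℝ) : En X g ≤ En Y g :=
  Finset.sum_le_sum_of_subset_of_nonneg h fun x _ _ => w_nonneg g x



theorem w_neg (g : P → ℝ) (x : P) : w (fun y => -g y) x = w g x := by unfold w; ring

theorem En_neg (X : Finset P) (g : P → ℝ) : En X (fun y => -g y) = En X g :=
  Finset.sum_congr rfl fun x _ => w_neg g x




theorem w_zero (x : P) : w (fun _ => (0 : ℝ)) x = 0 := by unfold w; ring

theorem En_zero (X : Finset P) : En X (fun _ => (0 : ℝ)) = 0 :=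
  Finset.sum_eq_zero fun x _ => w_zero x

theorem mem_halo {Λ : Finset P} {x : P} :
    x ∈ halo Λ ↔ x ∈ Λ ∨ x + (1, 0) ∈ Λ ∨ x + (0, 1) ∈ Λ := by
  unfold halo
  simp only [Finset.mem_union, Finset.mem_image, or_assoc]
  refine or_congr Iff.rfl (or_congr ?_ ?_)
  · exact ⟨fun ⟨y, hy, e⟩ => by rw [← e, sub_add_cancel]; exact hy,
      fun h => ⟨_, h, add_sub_cancel_right _ _⟩⟩
  · exact ⟨fun ⟨y, hy, e⟩ => by rw [← e, sub_add_cancel]; exact hy,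
      fun h => ⟨_, h, add_sub_cancel_right _ _⟩⟩

theorem w_eq_zero_of_not_mem_halo {Λ : Finset P} {u : P → ℝ} (hu : ∀ x ∉ Λ, u x = 0) {x : P}
    (hx : x ∉ halo Λ) : w u x = 0 := by
  rw [mem_halo] at hx
  push Not at hx
  unfold w; rw [hu _ hx.1, hu _ hx.2.1, hu _ hx.2.2]; ring

/-- For a field supported in `Λ` every local energy is at most the Dirichlet energy. -/
theorem En_le_D {Λ : Finset P} {u : P → ℝ} (hu : ∀ x ∉ Λ, u x = 0) (X : Finset P) :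
    En X u ≤ D Λ u := by
  calc En X u ≤ En (X ∪ halo Λ) u := En_mono Finset.subset_union_left u
    _ = D Λ u := by
      unfold D En
      symm
      refine Finset.sum_subset Finset.subset_union_right fun x _ hx => ?_
      exact w_eq_zero_of_not_mem_halo hu hx

theorem ext_of_mem {Λ : Finset P} (φ : Λ → ℝ) {x : P} (h : x ∈ Λ) : ext Λ φ x = φ ⟨x, h⟩ := by
  unfold ext; rw [dif_pos h]

theorem ext_of_not_mem {Λ : Finset P} (φ : Λ → ℝ) {x : P} (h : x ∉ Λ) : ext Λ φ x = 0 := by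
  unfold ext; rw [dif_neg h]

theorem ext_coe {Λ : Finset P} (φ : Λ → ℝ) (x : Λ) : ext Λ φ x = φ x := ext_of_mem φ x.2

theorem continuous_ext (Λ : Finset P) (x : P) : Continuous fun φ : Λ → ℝ => ext Λ φ x := by
  unfold ext
  by_cases h : x ∈ Λ
  · simp only [dif_pos h]; exact continuous_apply _
  · simp only [dif_neg h]; exact continuous_const

theorem continuous_D (Λ : Finset P) : Continuous fun φ : Λ → ℝ => D Λ (ext Λ φ) := by
  unfold D En w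
  refine continuous_finsetSum _ fun x _ => ?_
  have := continuous_ext Λ
  fun_prop

theorem continuous_gw (Λ : Finset P) (b : ℝ) : Continuous (gw Λ b) := by
  unfold gw
  have := continuous_D Λ
  fun_prop

theorem gw_pos (Λ : Finset P) (b : ℝ) (φ : Λ → ℝ) : 0 < gw Λ b φ := Real.exp_pos _

/-- Poincaré inequality (crude). -/
theorem exists_sq_le_D (Λ : Finset P) :
    ∃ c : ℝ, 0 < c ∧ ∀ g : P → ℝ, (∀ x ∉ Λ, g x = 0) → ∀ x, g x ^ 2 ≤ c * D Λ g := by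
  obtain ⟨M, hM⟩ := (Λ.image Prod.fst).bddAbove
  obtain ⟨m, hm⟩ := (Λ.image Prod.fst).bddBelow
  have key : ∀ g : P → ℝ, (∀ x ∉ Λ, g x = 0) → ∀ n : ℕ, ∀ x : P, M - n < x.1 →
      |g x| ≤ n * Real.sqrt (D Λ g) := by
    intro g hg n
    induction n with
    | zero =>
      intro x hx
      have : x ∉ Λ := fun h => by
        have := hM (Finset.mem_coe.2 (Finset.mem_image_of_mem Prod.fst h)); push_cast at hx; omega
      simp [hg x this]
    | succ n ih =>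
      intro x hx
      have h1 := ih (x + (1, 0)) (by simp only [Prod.fst_add]; push_cast at hx ⊢; omega)
      have h2 : |g (x + (1, 0)) - g x| ≤ Real.sqrt (D Λ g) := by
        apply Real.abs_le_sqrt
        have h3 := En_le_D hg {x}
        unfold En at h3
        rw [Finset.sum_singleton] at h3
        unfold w at h3
        nlinarith [sq_nonneg (g (x + (0, 1)) - g x)]
      have h4 : |g x| ≤ |g (x + (1, 0))| + |g (x + (1, 0)) - g x| := by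
        have := abs_sub (g (x + (1, 0))) (g (x + (1, 0)) - g x)
        rwa [sub_sub_cancel] at this
      push_cast; linarith
  refine ⟨(((M - m + 1).toNat : ℕ) : ℝ) ^ 2 + 1, by positivity, fun g hg x => ?_⟩
  by_cases hx : x ∈ Λ
  · have h1 := hm (Finset.mem_coe.2 (Finset.mem_image_of_mem Prod.fst hx))
    have h2 := key g hg (M - m + 1).toNat x (by omega)
    have h3 := D_nonneg Λ g
    have h4 : g x ^ 2 ≤ ((((M - m + 1).toNat : ℕ) : ℝ) * Real.sqrt (D Λ g)) ^ 2 := by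
      rw [← sq_abs (g x)]; exact pow_le_pow_left₀ (abs_nonneg _) h2 2
    rw [mul_pow, Real.sq_sqrt h3] at h4
    nlinarith
  · rw [hg x hx]; have := D_nonneg Λ g; simp only [ne_eq, OfNat.ofNat_ne_zero,
      not_false_eq_true, zero_pow]; positivity

theorem integrable_gw (Λ : Finset P) {b : ℝ} (hb : 0 < b) : Integrable (gw Λ b) := by
  obtain ⟨c, hc, h⟩ := exists_sq_le_D Λ
  set k : ℝ := 1 / (2 * b * c * (Λ.card + 1)) with hk
  have hk0 : 0 < k := by positivity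
  have hi : Integrable (fun φ : Λ → ℝ => ∏ i, Real.exp (-k * φ i ^ 2)) :=
    Integrable.fintype_prod (f := fun (_ : Λ) (t : ℝ) => Real.exp (-k * t ^ 2))
      fun _ => integrable_exp_neg_mul_sq hk0
  refine hi.mono' (continuous_gw Λ b).aestronglyMeasurable (ae_of_all _ fun φ => ?_)
  rw [Real.norm_eq_abs, abs_of_pos (gw_pos _ _ _), ← Real.exp_sum]
  unfold gw
  apply Real.exp_le_exp.2
  have h1 : ∑ i : Λ, φ i ^ 2 ≤ ∑ _i : Λ, c * D Λ (ext Λ φ) :=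
    Finset.sum_le_sum fun i _ => by
      have := h (ext Λ φ) (fun x hx => ext_of_not_mem φ hx) i
      rwa [ext_coe] at this
  rw [Finset.sum_const, Finset.card_univ, Fintype.card_coe, nsmul_eq_mul] at h1
  rw [← Finset.mul_sum]
  have h2 := D_nonneg Λ (ext Λ φ)
  have h3 : k * ∑ i : Λ, φ i ^ 2 ≤ k * ((Λ.card + 1) * (c * D Λ (ext Λ φ))) := by
    apply mul_le_mul_of_nonneg_left _ hk0.le
    nlinarith [mul_nonneg hc.le h2]
  have h4 : k * ((Λ.card + 1) * (c * D Λ (ext Λ φ))) = D Λ (ext Λ φ) / (2 * b) := by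
    rw [hk]; field_simp
  rw [neg_div]; linarith

/-! ## Geometry -/

theorem mem_enl {l : ℤ} {m : P} {ρ : ℤ} {x : P} : x ∈ enl l m ρ ↔
    (l * m.1 - ρ ≤ x.1 ∧ x.1 < l * m.1 + l + ρ) ∧ l * m.2 - ρ ≤ x.2 ∧ x.2 < l * m.2 + l + ρ := by
  unfold enl; simp only [Finset.mem_product, Finset.mem_Ico]

theorem mem_sqb {z : P} {R : ℤ} {x : P} : x ∈ sqb z R ↔
    (z.1 - R ≤ x.1 ∧ x.1 ≤ z.1 + R) ∧ z.2 - R ≤ x.2 ∧ x.2 ≤ z.2 + R := by
  unfold sqb; simp only [Finset.mem_product, Finset.mem_Icc]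

theorem enl_mono (l : ℤ) (m : P) {ρ ρ' : ℤ} (h : ρ ≤ ρ') : enl l m ρ ⊆ enl l m ρ' := by
  intro x hx; rw [mem_enl] at hx ⊢; omega



theorem el_succ (p j : ℕ) : el p (j + 1) = 24 * (p : ℤ) * el p j := by
  unfold el; rw [pow_succ, mul_comm]

theorem one_le_el {p : ℕ} (hp : 1 ≤ p) (j : ℕ) : 1 ≤ el p j :=
  one_le_pow₀ (by omega)

theorem el_pos {p : ℕ} (hp : 1 ≤ p) (j : ℕ) : 0 < el p j := one_le_el hp j

theorem el_mono {p : ℕ} (hp : 1 ≤ p) {j k : ℕ} (h : j ≤ k) : el p j ≤ el p k :=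
  pow_le_pow_right₀ (by omega) h


theorem one_le_el_real {p : ℕ} (hp : 1 ≤ p) (j : ℕ) : (1 : ℝ) ≤ (el p j : ℝ) := by
  exact_mod_cast one_le_el hp j

/-- The corner of a block lies in the parent block. -/
theorem cen_mem {p : ℕ} (hp : 1 ≤ p) (j : ℕ) (m : P) :
    (el p (j + 1) * (up p m).1 ≤ (cen p j m).1 ∧
      (cen p j m).1 + el p j ≤ el p (j + 1) * (up p m).1 + el p (j + 1)) ∧
    el p (j + 1) * (up p m).2 ≤ (cen p j m).2 ∧
      (cen p j m).2 + el p j ≤ el p (j + 1) * (up p m).2 + el p (j + 1) := by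
  have hL : (0 : ℤ) < 24 * (p : ℤ) := by omega
  have hl := el_pos hp j
  have key : ∀ a : ℤ, el p (j + 1) * (a / (24 * (p : ℤ))) ≤ el p j * a ∧
      el p j * a + el p j ≤ el p (j + 1) * (a / (24 * (p : ℤ))) + el p (j + 1) := by
    intro a
    have h1 := Int.mul_ediv_add_emod a (24 * (p : ℤ))
    have h2 := Int.emod_nonneg a hL.ne'
    have h3 := Int.emod_lt_of_pos a hL
    rw [el_succ]
    constructor <;> nlinarith
  exact ⟨key m.1, key m.2⟩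


theorem Q_subset_enl {p : ℕ} (hp : 1 ≤ p) (j : ℕ) (m : P) :
    Q p j m ⊆ enl (el p (j + 1)) (up p m) (el p j) := by
  intro x hx
  have h := cen_mem hp j m
  unfold Q at hx; rw [mem_enl] at hx ⊢; unfold cen at h; simp only at h; omega

theorem sqb_subset_enl {p : ℕ} (hp : 1 ≤ p) (j : ℕ) (m : P) (R : ℤ) :
    sqb (cen p j m) R ⊆ enl (el p (j + 1)) (up p m) R := by
  intro x hx
  have h := cen_mem hp j m
  have := el_pos hp j
  rw [mem_sqb] at hx; rw [mem_enl]; omega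

theorem Q_subset_sqb {p : ℕ} (j : ℕ) (m : P) : Q p j m ⊆ sqb (cen p j m) (2 * el p j) := by
  intro x hx
  unfold Q at hx; rw [mem_enl] at hx; rw [mem_sqb]; unfold cen; simp only; omega

theorem enl_subset_Q {p : ℕ} (j : ℕ) (m : P) {ρ : ℤ} (h : ρ ≤ el p j) :
    enl (el p j) m ρ ⊆ Q p j m := enl_mono _ _ h

theorem Q_subset_Q {p : ℕ} (hp : 1 ≤ p) (j : ℕ) (m : P) : Q p j m ⊆ Q p (j + 1) (up p m) :=
  (Q_subset_enl hp j m).trans (enl_subset_Q _ _ (el_mono hp (Nat.le_succ j)))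





/-! ## Constants -/

theorem hh_pos {b : ℝ} (hb : 0 < b) : 0 < hh b := div_pos hb Real.pi_pos

theorem h0_pos {b : ℝ} (hb : 0 < b) (p : ℕ) : 0 < h0 b p := by
  have := hh_pos hb; unfold h0; positivity

theorem NN_ge {p : ℕ} (hp : 1 ≤ p) : 576 ≤ NN p := by
  have : (1 : ℝ) ≤ p := by exact_mod_cast hp
  unfold NN; nlinarith

theorem KK_ge {p : ℕ} (hp : 1 ≤ p) : 1000 ≤ KK p := by
  have := NN_ge hp; unfold KK; nlinarith

theorem dl_nonneg {δ₀ : ℝ} (h : 0 ≤ δ₀) (j : ℕ) : 0 ≤ dl δ₀ j := by unfold dl; positivity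

theorem dl_le {δ₀ : ℝ} (h : 0 ≤ δ₀) (j : ℕ) : dl δ₀ j ≤ δ₀ :=
  div_le_self h (one_le_pow₀ (by norm_num))

theorem dl_succ (δ₀ : ℝ) (j : ℕ) : dl δ₀ (j + 1) = dl δ₀ j / 8 := by
  unfold dl; rw [pow_succ, div_div]


theorem KK_dl_le {p : ℕ} (hp : 1 ≤ p) {δ₀ : ℝ} (h : 0 ≤ δ₀) (hs : KK p ^ 2 * δ₀ ≤ 1) (j : ℕ) :
    KK p * dl δ₀ j ≤ 1 / KK p := by
  have h1 := KK_ge hp
  have h2 := dl_le h j
  rw [le_div_iff₀ (by linarith)]
  nlinarith [mul_le_mul_of_nonneg_left h2 (sq_nonneg (KK p))]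

theorem KK_dl_le' {p : ℕ} (hp : 1 ≤ p) {δ₀ : ℝ} (h : 0 ≤ δ₀) (hs : KK p ^ 2 * δ₀ ≤ 1) (j : ℕ) :
    KK p * dl δ₀ j ≤ 1 / 1000 :=
  (KK_dl_le hp h hs j).trans (one_div_le_one_div_of_le (by norm_num) (KK_ge hp))

/-! ## Domains -/

theorem Om_mono {b : ℝ} (hb : 0 < b) {p : ℕ} (hp : 1 ≤ p) {j j' : ℕ} (hj : j ≤ j')
    {X X' : Finset P} (hX : X ⊆ X') : Om b p j' X' ⊆ Om b p j X := by
  intro Φ hΦ
  refine ⟨fun x hx => ⟨(hΦ.1 x (hX hx)).1, (hΦ.1 x (hX hx)).2.1,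
    (hΦ.1 x (hX hx)).2.2.trans ?_⟩, ((En_mono hX _).trans hΦ.2).trans ?_⟩
  · have h1 := hh_pos hb
    have h2 : (el p j : ℝ) ≤ (el p j' : ℝ) := by exact_mod_cast el_mono hp hj
    have h3 := one_le_el_real hp j
    have h4 : (0 : ℝ) < (el p j' : ℝ) := by linarith
    gcongr
  · exact pow_le_pow_of_le_one (by norm_num) (by norm_num) hj

theorem rl_mem_Om {b : ℝ} (hb : 0 < b) (p j : ℕ) (X : Finset P) (φ g : P → ℝ) :
    rl φ g ∈ Om b p j X := by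
  have := h0_pos hb p
  refine ⟨fun x _ => ⟨?_, ?_, ?_⟩, ?_⟩
  · simp [rl, this.le]
  · simp [rl, this.le]
  · simp only [rl, Complex.ofReal_im]; rw [w_zero]; positivity
  · simp only [rl, Complex.ofReal_im]; rw [En_zero]; positivity

theorem star_mem_Om {b : ℝ} {p j : ℕ} {X : Finset P} {Φ : Fld} (h : Φ ∈ Om b p j X) :
    star Φ ∈ Om b p j X := by
  refine ⟨fun x hx => ⟨?_, ?_, ?_⟩, ?_⟩
  · simpa using (h.1 x hx).1
  · simpa using (h.1 x hx).2.1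
  · have := (h.1 x hx).2.2
    rw [← w_neg] at this
    simpa using this
  · have := h.2
    rw [← En_neg] at this
    simpa using this

theorem star_rl (φ g : P → ℝ) : star (rl φ g) = rl φ g := by
  ext x <;> simp [rl]

theorem measurable_star_Fld : Measurable (star : Fld → Fld) := by
  refine Measurable.prodMk (measurable_pi_lambda _ fun x => ?_) (measurable_pi_lambda _ fun x => ?_)
  · exact continuous_star.measurable.comp ((measurable_pi_apply x).comp measurable_fst)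
  · exact continuous_star.measurable.comp ((measurable_pi_apply x).comp measurable_snd)

theorem measurable_rl (Λ : Finset P) (g : P → ℝ) :
    Measurable fun φ : Λ → ℝ => rl (ext Λ φ) g := by
  refine Measurable.prodMk (measurable_pi_lambda _ fun x => ?_) measurable_const
  exact (Complex.continuous_ofReal.comp (continuous_ext Λ x)).measurable


/-! ## Objects -/

theorem cj_cj (G : Fld → ℂ) : cj (cj G) = G := by
  funext Φ; simp [cj]

theorem fac_cj (G : Fld → ℂ) : fac (cj G) = fac G := by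
  funext Φ; unfold fac; rw [cj_cj]; ring

theorem cj_zero : cj (fun _ => 0) = fun _ => 0 := by funext Φ; simp [cj]

theorem fac_zero (Φ : Fld) : fac (fun _ => 0) Φ = 1 := by unfold fac; rw [cj_zero]; simp

theorem cj_mul (G H : Fld → ℂ) (Φ : Fld) : cj (fun Φ => G Φ * H Φ) Φ = cj G Φ * cj H Φ := by
  simp [cj]

theorem cj_smul (c : ℝ) (G : Fld → ℂ) (Φ : Fld) :
    cj (fun Φ => (c : ℂ) * G Φ) Φ = (c : ℂ) * cj G Φ := by
  simp [cj]


theorem cj_rl (G : Fld → ℂ) (φ g : P → ℝ) : cj G (rl φ g) = star (G (rl φ g)) := by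
  unfold cj; rw [star_rl]

theorem measurable_cj {G : Fld → ℂ} (h : Measurable G) : Measurable (cj G) :=
  continuous_star.measurable.comp (h.comp measurable_star_Fld)

theorem measurable_fac {G : Fld → ℂ} (h : Measurable G) : Measurable (fac G) :=
  (measurable_const.add h).add (measurable_cj h)

theorem lh_cj {G : Fld → ℂ} {Φ : Fld}
    (h : ∀ Ψ : Fld, DifferentiableAt ℂ (fun s : ℂ => G (star Φ + s • Ψ)) 0) (Ψ : Fld) :
    DifferentiableAt ℂ (fun s : ℂ => cj G (Φ + s • Ψ)) 0 := by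
  have h1 := (h (star Ψ)).star_conj
  simp only [map_zero] at h1
  have e : (fun s : ℂ => cj G (Φ + s • Ψ)) =
      star ∘ (fun s : ℂ => G (star Φ + s • star Ψ)) ∘ ⇑(starRingEnd ℂ) := by
    funext s
    simp [cj, star_smul]
  rw [e]; exact h1

namespace Ob

variable {b : ℝ} {p j : ℕ} {X Y : Finset P} {q : ℤ} {δ : ℝ} {G : Fld → ℂ}


theorem mono (hb : 0 < b) (hp : 1 ≤ p) (h : Ob b p j X Y q δ G) {j' : ℕ} {X' Y' : Finset P}
    {δ' : ℝ} (hj : j ≤ j') (hX : X ⊆ X') (hY : Y ⊆ Y') (hδ : δ ≤ δ') : Ob b p j' X' Y' q δ' G where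
  meas := h.meas
  lh Φ hΦ := h.lh Φ (Om_mono hb hp hj hX hΦ)
  bd Φ hΦ := (h.bd Φ (Om_mono hb hp hj hX hΦ)).trans hδ
  dep Φ Φ' e := h.dep Φ Φ' fun x hx => e x (hY hx)
  cov1 := h.cov1
  cov2 := h.cov2

theorem le (h : Ob b p j X Y q δ G) {δ' : ℝ} (hδ : δ ≤ δ') : Ob b p j X Y q δ' G :=
  ⟨h.meas, h.lh, fun Φ hΦ => (h.bd Φ hΦ).trans hδ, h.dep, h.cov1, h.cov2⟩

theorem zero (hδ : 0 ≤ δ) : Ob b p j X Y q δ (fun _ => 0) :=
  ⟨measurable_const, fun _ _ _ => differentiableAt_const _, fun _ _ => by simpa using hδ,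
    fun _ _ _ => rfl, fun _ _ => by simp, fun _ _ => by simp⟩

theorem cj (h : Ob b p j X Y q δ G) : Ob b p j X Y (-q) δ (cj G) where
  meas := measurable_cj h.meas
  lh Φ hΦ := lh_cj (h.lh _ (star_mem_Om hΦ))
  bd Φ hΦ := by unfold FS.cj; rw [norm_star]; exact h.bd _ (star_mem_Om hΦ)
  dep Φ Φ' e := by
    unfold FS.cj
    rw [h.dep (star Φ) (star Φ') fun x hx => by simp [(e x hx).1, (e x hx).2]]
  cov1 Φ c := by
    unfold FS.cj
    have e : star ((fun x => Φ.1 x + c, Φ.2) : Fld) =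
        (fun x => (star Φ).1 x + star c, (star Φ).2) := by ext x <;> simp
    rw [e, h.cov1, star_mul', Complex.star_def, ← Complex.exp_conj]
    simp
  cov2 Φ c := by
    unfold FS.cj
    have e : star ((Φ.1, fun x => Φ.2 x + c) : Fld) =
        ((star Φ).1, fun x => (star Φ).2 x + star c) := by ext x <;> simp
    rw [e, h.cov2, star_mul', Complex.star_def, ← Complex.exp_conj]
    simp

theorem mul {q' : ℤ} {δ' : ℝ} {H : Fld → ℂ} (h : Ob b p j X Y q δ G) (h' : Ob b p j X Y q' δ' H) :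
    Ob b p j X Y (q + q') (δ * δ') (fun Φ => G Φ * H Φ) where
  meas := h.meas.mul h'.meas
  lh Φ hΦ Ψ := (h.lh Φ hΦ Ψ).mul (h'.lh Φ hΦ Ψ)
  bd Φ hΦ := by
    rw [norm_mul]
    exact mul_le_mul (h.bd Φ hΦ) (h'.bd Φ hΦ) (norm_nonneg _) ((norm_nonneg _).trans (h.bd Φ hΦ))
  dep Φ Φ' e := by rw [h.dep Φ Φ' e, h'.dep Φ Φ' e]
  cov1 Φ c := by
    rw [h.cov1, h'.cov1]; push_cast; rw [mul_add, add_mul, Complex.exp_add]; ring
  cov2 Φ c := by
    rw [h.cov2, h'.cov2]; push_cast; rw [mul_add, add_mul, Complex.exp_add]; ring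

theorem smul (h : Ob b p j X Y q δ G) {c : ℝ} (hc : 0 ≤ c) :
    Ob b p j X Y q (c * δ) (fun Φ => (c : ℂ) * G Φ) where
  meas := h.meas.const_mul _
  lh Φ hΦ Ψ := (h.lh Φ hΦ Ψ).const_mul _
  bd Φ hΦ := by
    rw [norm_mul, Complex.norm_real, Real.norm_of_nonneg hc]
    exact mul_le_mul_of_nonneg_left (h.bd Φ hΦ) hc
  dep Φ Φ' e := by rw [h.dep Φ Φ' e]
  cov1 Φ c := by rw [h.cov1]; ring
  cov2 Φ c := by rw [h.cov2]; ring

theorem fac_dep (h : Ob b p j X Y q δ G) (Φ Φ' : Fld)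
    (e : ∀ x ∈ Y, Φ.1 x = Φ'.1 x ∧ Φ.2 x = Φ'.2 x) : fac G Φ = fac G Φ' := by
  unfold fac; rw [h.dep Φ Φ' e, h.cj.dep Φ Φ' e]

theorem norm_fac_sub_one (h : Ob b p j X Y q δ G) {Φ : Fld} (hΦ : Φ ∈ Om b p j X) :
    ‖fac G Φ - 1‖ ≤ 2 * δ := by
  have e : fac G Φ - 1 = G Φ + FS.cj G Φ := by unfold fac; ring
  rw [e]
  have := norm_add_le (G Φ) (FS.cj G Φ)
  linarith [h.bd Φ hΦ, h.cj.bd Φ hΦ]

end Ob

/-! ## Tame functions and the functional `Ig` -/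

theorem fac_rl_im (G : Fld → ℂ) (φ g : P → ℝ) : (fac G (rl φ g)).im = 0 := by
  unfold fac; rw [cj_rl]; simp


namespace Tame

theorem one : Tame fun _ => 1 := ⟨measurable_const, ⟨1, fun _ _ => by simp⟩, fun _ _ => by simp⟩

theorem mul {X Y : Fld → ℂ} (hX : Tame X) (hY : Tame Y) : Tame fun Φ => X Φ * Y Φ := by
  obtain ⟨m1, ⟨C1, b1⟩, r1⟩ := hX
  obtain ⟨m2, ⟨C2, b2⟩, r2⟩ := hY
  refine ⟨m1.mul m2, ⟨C1 * C2, fun φ g => ?_⟩, fun φ g => ?_⟩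
  · rw [norm_mul]
    exact mul_le_mul (b1 φ g) (b2 φ g) (norm_nonneg _) ((norm_nonneg _).trans (b1 φ g))
  · simp [r1 φ g, r2 φ g]

theorem prod {ι : Type*} (s : Finset ι) (X : ι → Fld → ℂ) (h : ∀ i ∈ s, Tame (X i)) :
    Tame fun Φ => ∏ i ∈ s, X i Φ := by
  classical
  induction s using Finset.induction_on with
  | empty => simpa using one
  | insert a s ha ih =>
    simp only [Finset.prod_insert ha]
    exact (h a (Finset.mem_insert_self _ _)).mul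
      (ih fun i hi => h i (Finset.mem_insert_of_mem hi))

theorem fac {b : ℝ} (hb : 0 < b) {p j : ℕ} {X Y : Finset P} {q : ℤ} {δ : ℝ} {G : Fld → ℂ}
    (h : Ob b p j X Y q δ G) : Tame (fac G) := by
  refine ⟨measurable_fac h.meas, ⟨1 + 2 * δ, fun φ g => ?_⟩, fac_rl_im G⟩
  have h1 := h.norm_fac_sub_one (rl_mem_Om hb p j X φ g)
  have h2 := norm_add_le (FS.fac G (rl φ g) - 1) 1
  rw [sub_add_cancel, norm_one] at h2
  linarith

theorem FW {b : ℝ} (hb : 0 < b) {p : ℕ} {δ₀ : ℝ} {Λ S : Finset P} {j : ℕ}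
    {F : ℕ → P → Fld → ℂ} (hF : ∀ k ≤ j, ∀ m ∈ S, Frz b p δ₀ Λ k m (F k m)) :
    Tame (FW S j F) :=
  prod _ _ fun k hk => prod _ _ fun m hm => by
    obtain ⟨q, h, -⟩ := hF k (Nat.lt_succ_iff.1 (Finset.mem_range.1 hk)) m hm
    exact fac hb h


theorem integrable {X : Fld → ℂ} (hX : Tame X) (Λ : Finset P) {b : ℝ} (hb : 0 < b) (g : P → ℝ) :
    Integrable fun φ : Λ → ℝ => (X (rl (ext Λ φ) g)).re * gw Λ b φ := by
  obtain ⟨m, ⟨C, hC⟩, -⟩ := hX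
  exact (integrable_gw Λ hb).bdd_mul
    (Complex.measurable_re.comp (m.comp (measurable_rl Λ g))).aestronglyMeasurable
    (ae_of_all _ fun _ => (Complex.abs_re_le_norm _).trans (hC _ _))

end Tame

theorem Ig_congr {Λ : Finset P} {b : ℝ} {W W' : Fld → ℂ}
    (h : ∀ φ g, W (rl φ g) = W' (rl φ g)) (g : P → ℝ) : Ig Λ b W g = Ig Λ b W' g := by
  unfold Ig; simp only [h]

theorem Low.congr {Λ : Finset P} {b : ℝ} {u : P → ℝ} {κ : ℝ} {W W' : Fld → ℂ}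
    (h : ∀ g, Ig Λ b W g = Ig Λ b W' g) (h' : Low Λ b u κ W') : Low Λ b u κ W := by
  unfold Low at h' ⊢; simp only [h]; exact h'

theorem Low.congr' {Λ : Finset P} {b : ℝ} {u : P → ℝ} {κ : ℝ} {W W' : Fld → ℂ}
    (h : ∀ Φ, W Φ = W' Φ) (h' : Low Λ b u κ W') : Low Λ b u κ W := by
  have : W = W' := funext h
  rwa [this]

theorem Ig_sum {Λ : Finset P} {b : ℝ} (hb : 0 < b) {ι : Type*} (s : Finset ι) (c : ι → ℝ)
    (V : ι → Fld → ℂ) (hV : ∀ i ∈ s, Tame (V i)) (g : P → ℝ) :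
    Ig Λ b (fun Φ => ∑ i ∈ s, (c i : ℂ) * V i Φ) g = ∑ i ∈ s, c i * Ig Λ b (V i) g := by
  unfold Ig
  simp only [← integral_const_mul]
  rw [← integral_finsetSum _ fun i hi => ((hV i hi).integrable Λ hb g).const_mul _]
  refine integral_congr_ae (ae_of_all _ fun φ => ?_)
  simp only [Complex.re_sum, Complex.re_ofReal_mul, Finset.sum_mul, mul_assoc]

/-- `Low` is preserved by combinations with non-negative coefficients. -/
theorem Low.convex {Λ : Finset P} {b : ℝ} (hb : 0 < b) {u : P → ℝ} {κ : ℝ} {ι : Type*}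
    (s : Finset ι) (c : ι → ℝ) (V : ι → Fld → ℂ) {W : Fld → ℂ} (hc : ∀ i ∈ s, 0 ≤ c i)
    (hV : ∀ i ∈ s, Tame (V i)) (hL : ∀ i ∈ s, Low Λ b u κ (V i))
    (hW : ∀ φ g, W (rl φ g) = ∑ i ∈ s, (c i : ℂ) * V i (rl φ g)) : Low Λ b u κ W := by
  refine Low.congr (W' := fun Φ => ∑ i ∈ s, (c i : ℂ) * V i Φ) (Ig_congr hW) ?_
  unfold Low at hL ⊢
  simp only [Ig_sum hb s c V hV]
  rw [Finset.mul_sum, ← Finset.sum_add_distrib]
  refine Finset.sum_le_sum fun i hi => ?_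
  have := mul_le_mul_of_nonneg_left (hL i hi) (hc i hi)
  linarith

/-- The pair splitting. -/
theorem fac_mul_fac (G H : Fld → ℂ) {w₁ w₂ w₃ w₄ : ℝ} (h₁ : w₁ ≠ 0) (h₂ : w₂ ≠ 0) (h₃ : w₃ ≠ 0)
    (h₄ : w₄ ≠ 0) (hs : w₁ + w₂ + w₃ + w₄ = 1) (Φ : Fld) :
    fac G Φ * fac H Φ = (w₁ : ℂ) * fac (fun Φ => ((w₁⁻¹ : ℝ) : ℂ) * G Φ) Φ +
      (w₂ : ℂ) * fac (fun Φ => ((w₂⁻¹ : ℝ) : ℂ) * H Φ) Φ +
      (w₃ : ℂ) * fac (fun Φ => ((w₃⁻¹ : ℝ) : ℂ) * (G Φ * H Φ)) Φ +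
      (w₄ : ℂ) * fac (fun Φ => ((w₄⁻¹ : ℝ) : ℂ) * (G Φ * cj H Φ)) Φ := by
  unfold fac
  rw [cj_smul, cj_smul, cj_smul, cj_smul, cj_mul, cj_mul, cj_cj]
  have e : (w₁ : ℂ) + w₂ + w₃ + w₄ = 1 := by exact_mod_cast hs
  have a₁ : (w₁ : ℂ) ≠ 0 := by exact_mod_cast h₁
  have a₂ : (w₂ : ℂ) ≠ 0 := by exact_mod_cast h₂
  have a₃ : (w₃ : ℂ) ≠ 0 := by exact_mod_cast h₃
  have a₄ : (w₄ : ℂ) ≠ 0 := by exact_mod_cast h₄
  push_cast
  field_simp
  linear_combination (-1 : ℂ) * e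

/-- `Low` for `X · fac G · fac H` from the four terms of the pair splitting. -/
theorem Low.split4 {Λ : Finset P} {b : ℝ} (hb : 0 < b) {u : P → ℝ} {κ : ℝ} {X G H : Fld → ℂ}
    (hX : Tame X) {w₁ w₂ w₃ w₄ : ℝ} (h₁ : 0 < w₁) (h₂ : 0 < w₂) (h₃ : 0 < w₃) (h₄ : 0 < w₄)
    (hs : w₁ + w₂ + w₃ + w₄ = 1)
    (t₁ : Tame (fac fun Φ => ((w₁⁻¹ : ℝ) : ℂ) * G Φ))
    (t₂ : Tame (fac fun Φ => ((w₂⁻¹ : ℝ) : ℂ) * H Φ))
    (t₃ : Tame (fac fun Φ => ((w₃⁻¹ : ℝ) : ℂ) * (G Φ * H Φ)))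
    (t₄ : Tame (fac fun Φ => ((w₄⁻¹ : ℝ) : ℂ) * (G Φ * cj H Φ)))
    (l₁ : Low Λ b u κ fun Φ => X Φ * fac (fun Φ => ((w₁⁻¹ : ℝ) : ℂ) * G Φ) Φ)
    (l₂ : Low Λ b u κ fun Φ => X Φ * fac (fun Φ => ((w₂⁻¹ : ℝ) : ℂ) * H Φ) Φ)
    (l₃ : Low Λ b u κ fun Φ => X Φ * fac (fun Φ => ((w₃⁻¹ : ℝ) : ℂ) * (G Φ * H Φ)) Φ)
    (l₄ : Low Λ b u κ fun Φ => X Φ * fac (fun Φ => ((w₄⁻¹ : ℝ) : ℂ) * (G Φ * cj H Φ)) Φ) :
    Low Λ b u κ fun Φ => X Φ * (fac G Φ * fac H Φ) := by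
  refine Low.convex hb (Finset.univ : Finset (Fin 4)) ![w₁, w₂, w₃, w₄]
    ![fun Φ => X Φ * fac (fun Φ => ((w₁⁻¹ : ℝ) : ℂ) * G Φ) Φ,
      fun Φ => X Φ * fac (fun Φ => ((w₂⁻¹ : ℝ) : ℂ) * H Φ) Φ,
      fun Φ => X Φ * fac (fun Φ => ((w₃⁻¹ : ℝ) : ℂ) * (G Φ * H Φ)) Φ,
      fun Φ => X Φ * fac (fun Φ => ((w₄⁻¹ : ℝ) : ℂ) * (G Φ * cj H Φ)) Φ] ?_ ?_ ?_ ?_
  · intro i _; fin_cases i <;> simp [h₁.le, h₂.le, h₃.le, h₄.le]
  · intro i _; fin_cases i
    exacts [hX.mul t₁, hX.mul t₂, hX.mul t₃, hX.mul t₄]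
  · intro i _; fin_cases i
    exacts [l₁, l₂, l₃, l₄]
  · intro φ g
    rw [fac_mul_fac G H h₁.ne' h₂.ne' h₃.ne' h₄.ne' hs, Fin.sum_univ_four]
    simp only [Matrix.cons_val_zero, Matrix.cons_val_one, Matrix.cons_val]
    ring

theorem Low.mono {Λ : Finset P} {b : ℝ} {u : P → ℝ} {κ κ' : ℝ} {W : Fld → ℂ}
    (h : Low Λ b u κ W) (hκ : κ ≤ κ') (h0 : 0 ≤ Ig Λ b W 0) : Low Λ b u κ' W := by
  unfold Low at h ⊢
  refine le_trans ?_ h
  gcongr

end Crest.Agent.T145.FS
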