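import Crest.Agent.T145.Fkg_86

-- ▼ part T145/GksA_60
section

/-!
# Row 145: Griffiths–Ginibre algebra on a finite abelian group (helper60)

`Pos` = cone of the `±1` characters, `Maj A B` = `B ± A ∈ Pos`, `Four X₁ X₂ X₃ X₄` = duplicated
majorisation, which gives `(∑ X₁)(∑ X₂) ≤ (∑ X₃)(∑ X₄)`.
-/

set_option autoImplicit false

namespace Crest.Agent.T145.Gk60

open Finset

section grp
variable {G : Type*} [CommGroup G]

/-- real value of a `±1` character -/
def cv (χ : G →* ℤˣ) (g : G) : ℝ := ((χ g : ℤ) : ℝ)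

theorem cv_mul (χ : G →* ℤˣ) (g h : G) : cv χ (g * h) = cv χ g * cv χ h := by simp [cv]
theorem cv_mul' (χ ψ : G →* ℤˣ) (g : G) : cv (χ * ψ) g = cv χ g * cv ψ g := by simp [cv]
theorem cv_one (g : G) : cv (1 : G →* ℤˣ) g = 1 := by simp [cv]
theorem cv_cases (χ : G →* ℤˣ) (g : G) : (χ g = 1 ∧ cv χ g = 1) ∨ (χ g = -1 ∧ cv χ g = -1) := by
  rcases Int.units_eq_one_or (χ g) with h | h <;> simp [cv, h]

theorem sum_cv_nonneg [Fintype G] (χ : G →* ℤˣ) : 0 ≤ ∑ g, cv χ g := by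
  classical
  have h := sum_hom_units (((Int.castRingHom ℝ).toMonoidHom.comp (Units.coeHom ℤ)).comp χ)
  have e : ∑ g, cv χ g =
      ∑ g, (((Int.castRingHom ℝ).toMonoidHom.comp (Units.coeHom ℤ)).comp χ) g := rfl
  rw [e, h]
  split_ifs <;> positivity

/-- nonnegative combinations of characters -/
inductive Pos : (G → ℝ) → Prop
  | ch (χ : G →* ℤˣ) (c : ℝ) (hc : 0 ≤ c) : Pos fun g => c * cv χ g
  | add {f f' : G → ℝ} : Pos f → Pos f' → Pos fun g => f g + f' g

variable {f f' : G → ℝ}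

theorem Pos.congr (h : Pos f) (e : ∀ g, f' g = f g) : Pos f' := by
  rw [show f' = f from funext e]; exact h

theorem Pos.const {c : ℝ} (hc : 0 ≤ c) : Pos fun _ : G => c :=
  (Pos.ch 1 c hc).congr fun g => by rw [cv_one, mul_one]

theorem Pos.mul (h : Pos f) (h' : Pos f') : Pos fun g => f g * f' g := by
  induction h with
  | ch χ c hc =>
    induction h' with
    | ch ψ d hd => exact (Pos.ch (χ * ψ) (c * d) (mul_nonneg hc hd)).congr fun g => by
                     rw [cv_mul']; ring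
    | add _ _ i j => exact (i.add j).congr fun g => by ring
  | add _ _ i j => exact (i.add j).congr fun g => by ring

theorem Pos.smul (h : Pos f) {c : ℝ} (hc : 0 ≤ c) : Pos fun g => c * f g := (Pos.const hc).mul h

theorem Pos.sum {ι : Type*} (s : Finset ι) {F : ι → G → ℝ} (h : ∀ i ∈ s, Pos (F i)) :
    Pos fun g => ∑ i ∈ s, F i g := by
  classical
  induction s using Finset.induction_on with
  | empty => exact (Pos.const le_rfl).congr fun g => sum_empty
  | insert k s hk ih =>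
    exact ((h k (mem_insert_self k s)).add (ih fun j hj => h j (mem_insert_of_mem hj))).congr
      fun g => sum_insert hk

theorem Pos.prod {ι : Type*} (s : Finset ι) {F : ι → G → ℝ} (h : ∀ i ∈ s, Pos (F i)) :
    Pos fun g => ∏ i ∈ s, F i g := by
  classical
  induction s using Finset.induction_on with
  | empty => exact (Pos.const zero_le_one).congr fun g => prod_empty
  | insert k s hk ih =>
    exact ((h k (mem_insert_self k s)).mul (ih fun j hj => h j (mem_insert_of_mem hj))).congr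
      fun g => prod_insert hk

/-- Griffiths I -/
theorem Pos.sum_nonneg [Fintype G] (h : Pos f) : 0 ≤ ∑ g, f g := by
  induction h with
  | ch χ c hc => rw [← mul_sum]; exact mul_nonneg hc (sum_cv_nonneg χ)
  | add _ _ i j => rw [sum_add_distrib]; exact add_nonneg i j

/-- coefficientwise majorisation -/
def Maj (A B : G → ℝ) : Prop := Pos (fun g => B g - A g) ∧ Pos fun g => B g + A g

variable {A B A' B' : G → ℝ}

theorem Maj.congr (h : Maj A B) (e : ∀ g, A' g = A g) (e' : ∀ g, B' g = B g) : Maj A' B' := by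
  rw [show A' = A from funext e, show B' = B from funext e']; exact h

theorem Maj.mul (h : Maj A B) (h' : Maj A' B') :
    Maj (fun g => A g * A' g) fun g => B g * B' g :=
  ⟨(((h.1.mul h'.2).add (h.2.mul h'.1)).smul (c := 1 / 2) (by norm_num)).congr fun g => by ring,
    (((h.1.mul h'.1).add (h.2.mul h'.2)).smul (c := 1 / 2) (by norm_num)).congr fun g => by ring⟩

theorem Maj.add (h : Maj A B) (h' : Maj A' B') :
    Maj (fun g => A g + A' g) fun g => B g + B' g :=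
  ⟨(h.1.add h'.1).congr fun g => by ring, (h.2.add h'.2).congr fun g => by ring⟩

theorem Maj.ch (χ : G →* ℤˣ) {c d : ℝ} (h : |c| ≤ d) :
    Maj (fun g => c * cv χ g) fun g => d * cv χ g :=
  ⟨(Pos.ch χ (d - c) (by linarith [le_abs_self c])).congr fun g => by ring,
    (Pos.ch χ (d + c) (by linarith [neg_abs_le c])).congr fun g => by ring⟩

theorem Maj.const {c d : ℝ} (h : |c| ≤ d) : Maj (fun _ : G => c) fun _ => d :=
  (Maj.ch 1 h).congr (fun g => by rw [cv_one, mul_one]) fun g => by rw [cv_one, mul_one]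

theorem Maj.sum {ι : Type*} (s : Finset ι) {F F' : ι → G → ℝ} (h : ∀ i ∈ s, Maj (F i) (F' i)) :
    Maj (fun g => ∑ i ∈ s, F i g) fun g => ∑ i ∈ s, F' i g :=
  ⟨(Pos.sum s fun i hi => (h i hi).1).congr fun g => by rw [sum_sub_distrib],
    (Pos.sum s fun i hi => (h i hi).2).congr fun g => by rw [sum_add_distrib]⟩

theorem Maj.pos (h : Maj A B) : Pos B :=
  ((h.1.add h.2).smul (c := 1 / 2) (by norm_num)).congr fun g => by ring

theorem Maj.sum_le [Fintype G] (h : Maj A B) : ∑ g, A g ≤ ∑ g, B g := by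
  have := h.1.sum_nonneg
  rw [sum_sub_distrib] at this
  linarith

/-- value `p` where `χ = 1`, `q` where `χ = -1` -/
def aff (χ : G →* ℤˣ) (p q : ℝ) (g : G) : ℝ := if χ g = 1 then p else q

theorem aff_eq (χ : G →* ℤˣ) (p q : ℝ) (g : G) :
    aff χ p q g = (p + q) / 2 + (p - q) / 2 * cv χ g := by
  rcases cv_cases χ g with ⟨h, e⟩ | ⟨h, e⟩ <;> rw [e] <;> simp [aff, h] <;> ring

theorem aff_nonneg (χ : G →* ℤˣ) {p q : ℝ} (hp : 0 ≤ p) (hq : 0 ≤ q) (g : G) : 0 ≤ aff χ p q g := by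
  unfold aff; split_ifs <;> assumption

/-- the two Fourier coefficients of `(x, y)` are dominated by those of `(x', y')` -/
def Mj (x y x' y' : ℝ) : Prop := |x + y| ≤ x' + y' ∧ |x - y| ≤ x' - y'

theorem Mj.maj {x y x' y' : ℝ} (h : Mj x y x' y') (χ : G →* ℤˣ) : Maj (aff χ x y) (aff χ x' y') := by
  refine ((Maj.const (c := (x + y) / 2) (d := (x' + y') / 2) ?_).add
    (Maj.ch χ (c := (x - y) / 2) (d := (x' - y') / 2) ?_)).congr (aff_eq χ x y) (aff_eq χ x' y')
  · rw [abs_div, abs_two]; linarith [h.1]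
  · rw [abs_div, abs_two]; linarith [h.2]

theorem Mj.refl {x y : ℝ} (hy : 0 ≤ y) (h : y ≤ x) : Mj x y x y :=
  ⟨(abs_of_nonneg (by linarith)).le, (abs_of_nonneg (by linarith)).le⟩

theorem Mj.swap {x y x' y' : ℝ} (h : Mj x y x' y') : Mj y x x' y' :=
  ⟨by rw [add_comm y]; exact h.1, by rw [abs_sub_comm]; exact h.2⟩

theorem Mj.scale {x y x' y' c d : ℝ} (h : Mj x y x' y') (hc : 0 ≤ c) (hcd : c ≤ d) :
    Mj (c * x) (c * y) (d * x') (d * y') := by
  constructor
  · rw [← mul_add, ← mul_add, abs_mul, abs_of_nonneg hc]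
    exact mul_le_mul hcd h.1 (abs_nonneg _) (hc.trans hcd)
  · rw [← mul_sub, ← mul_sub, abs_mul, abs_of_nonneg hc]
    exact mul_le_mul hcd h.2 (abs_nonneg _) (hc.trans hcd)

theorem Mj.zero {x' y' : ℝ} (hy : 0 ≤ y') (h : y' ≤ x') : Mj 0 0 x' y' :=
  ⟨by simp; linarith, by simp; linarith⟩

/-- criterion: largest value, product and ratio increase -/
theorem Mj.of {M m M' m' : ℝ} (hm : 0 ≤ m) (hM : m ≤ M) (hm' : 0 ≤ m') (hM' : m' ≤ M')
    (h1 : M ≤ M') (h2 : M * m ≤ M' * m') (h3 : M * m' ≤ M' * m) : Mj M m M' m' := by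
  constructor
  · rw [abs_of_nonneg (by linarith)]
    rcases le_total m m' with h | h
    · linarith
    · rcases hm'.eq_or_lt with e | e
      · subst e
        have : m = 0 := by nlinarith
        linarith
      · have : m' * (M + m) ≤ m' * (M' + m') := by nlinarith [mul_nonneg (sub_nonneg.2 h) (sub_nonneg.2 (h.trans hM))]
        exact le_of_mul_le_mul_left this e
  · rw [abs_of_nonneg (by linarith)]
    rcases le_or_gt m' m with h | h
    · linarith
    · have : M' * (M - m) ≤ M' * (M' - m') := by nlinarith [mul_nonneg (sub_nonneg.2 h1) (sub_nonneg.2 hM')]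
      exact le_of_mul_le_mul_left this (by linarith)

theorem Pos.aff (χ : G →* ℤˣ) {p q : ℝ} (hq : 0 ≤ q) (h : q ≤ p) : Pos (aff χ p q) :=
  ((Mj.refl hq h).maj χ).pos

/-- duplicated majorisation -/
def Four (X₁ X₂ X₃ X₄ : G → ℝ) : Prop :=
  ∀ τ, Maj (fun g => X₁ (g * τ) * X₂ g) fun g => X₃ (g * τ) * X₄ g

variable {X₁ X₂ X₃ X₄ Y₁ Y₂ Y₃ Y₄ : G → ℝ}

theorem Four.mul (h : Four X₁ X₂ X₃ X₄) (k : Four Y₁ Y₂ Y₃ Y₄) :
    Four (fun g => X₁ g * Y₁ g) (fun g => X₂ g * Y₂ g) (fun g => X₃ g * Y₃ g)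
      fun g => X₄ g * Y₄ g :=
  fun τ => ((h τ).mul (k τ)).congr (fun g => by ring) fun g => by ring

theorem Four.const {c₁ c₂ c₃ c₄ : ℝ} (h : |c₁ * c₂| ≤ c₃ * c₄) :
    Four (fun _ : G => c₁) (fun _ => c₂) (fun _ => c₃) fun _ => c₄ := fun _ => Maj.const h

theorem Four.congr (h : Four X₁ X₂ X₃ X₄) (e₁ : ∀ g, Y₁ g = X₁ g) (e₂ : ∀ g, Y₂ g = X₂ g)
    (e₃ : ∀ g, Y₃ g = X₃ g) (e₄ : ∀ g, Y₄ g = X₄ g) : Four Y₁ Y₂ Y₃ Y₄ := by
  rw [show Y₁ = X₁ from funext e₁, show Y₂ = X₂ from funext e₂, show Y₃ = X₃ from funext e₃,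
    show Y₄ = X₄ from funext e₄]
  exact h

theorem Four.prod {ι : Type*} (s : Finset ι) {F₁ F₂ F₃ F₄ : ι → G → ℝ}
    (h : ∀ i ∈ s, Four (F₁ i) (F₂ i) (F₃ i) (F₄ i)) :
    Four (fun g => ∏ i ∈ s, F₁ i g) (fun g => ∏ i ∈ s, F₂ i g) (fun g => ∏ i ∈ s, F₃ i g)
      fun g => ∏ i ∈ s, F₄ i g := by
  classical
  induction s using Finset.induction_on with
  | empty =>
    exact (Four.const (c₁ := 1) (c₂ := 1) (c₃ := 1) (c₄ := 1) (by norm_num)).congr
      (fun _ => prod_empty) (fun _ => prod_empty) (fun _ => prod_empty) fun _ => prod_empty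
  | insert k s hk ih =>
    exact ((h k (mem_insert_self k s)).mul (ih fun j hj => h j (mem_insert_of_mem hj))).congr
      (fun _ => prod_insert hk) (fun _ => prod_insert hk) (fun _ => prod_insert hk)
      fun _ => prod_insert hk

theorem Four.sum_le [Fintype G] (h : Four X₁ X₂ X₃ X₄) :
    (∑ g, X₁ g) * ∑ g, X₂ g ≤ (∑ g, X₃ g) * ∑ g, X₄ g := by
  have e : ∀ X Y : G → ℝ, (∑ g, X g) * ∑ g, Y g = ∑ τ, ∑ g, X (g * τ) * Y g := fun X Y => by
    rw [sum_comm, mul_sum]
    refine sum_congr rfl fun g _ => ?_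
    rw [← sum_mul, Fintype.sum_equiv (Equiv.mulLeft g) (fun τ => X (g * τ)) X fun _ => rfl]
  rw [e, e]
  exact sum_le_sum fun τ _ => (h τ).sum_le

theorem Four.aff (χ : G →* ℤˣ) {p₁ q₁ p₂ q₂ p₃ q₃ p₄ q₄ : ℝ}
    (h : Mj (p₁ * p₂) (q₁ * q₂) (p₃ * p₄) (q₃ * q₄))
    (k : Mj (q₁ * p₂) (p₁ * q₂) (q₃ * p₄) (p₃ * q₄)) :
    Four (aff χ p₁ q₁) (aff χ p₂ q₂) (aff χ p₃ q₃) (aff χ p₄ q₄) := fun τ => by
  rcases Int.units_eq_one_or (χ τ) with e | e
  · refine (h.maj χ).congr (fun g => ?_) fun g => ?_ <;>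
      rcases Int.units_eq_one_or (χ g) with e' | e' <;> simp [Gk60.aff, e, e']
  · refine (k.maj χ).congr (fun g => ?_) fun g => ?_ <;>
      rcases Int.units_eq_one_or (χ g) with e' | e' <;> simp [Gk60.aff, e, e']

/-- translates of `X` are majorised by `Y` -/
def Lo (X Y : G → ℝ) : Prop := ∀ τ, Maj (fun g => X (g * τ)) Y

theorem Lo.pos (h : Lo X₁ Y₁) : Pos Y₁ := (h 1).pos

theorem Lo.four (h : Lo X₁ Y₁) (k : Lo X₂ Y₂) :
    Four X₁ X₂ (fun _ => 1) fun g => Y₁ g * Y₂ g :=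
  fun τ => ((h τ).mul (k 1)).congr (fun g => by rw [mul_one]) fun g => by rw [one_mul]

theorem Lo.sum_ch {ι : Type*} (s : Finset ι) (χ : ι → G →* ℤˣ) {c d : ι → ℝ}
    (h : ∀ i ∈ s, |c i| ≤ d i) :
    Lo (fun g => ∑ i ∈ s, c i * cv (χ i) g) fun g => ∑ i ∈ s, d i * cv (χ i) g := fun τ =>
  (Maj.sum s fun i hi => Maj.ch (χ i) (c := c i * cv (χ i) τ) (d := d i) (by
    rw [abs_mul]
    rcases cv_cases (χ i) τ with ⟨_, e⟩ | ⟨_, e⟩ <;> rw [e] <;> simpa using h i hi)).congr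
    (fun g => sum_congr rfl fun i _ => by rw [cv_mul]; ring) fun _ => rfl

end grp

/-! ## edge kernels -/
section ker
variable {w : ℤ → ℝ}

theorem tp2_full (h : IsKer w) {a a' b b' : ℤ} (ha : 0 ≤ a) (hb : 0 ≤ b) (haa : a ≤ a')
    (hbb : b ≤ b') : (w (a' - b) * w (a' + b)) * (w (a - b') * w (a + b')) ≤
      (w (a - b) * w (a + b)) * (w (a' - b') * w (a' + b')) := by
  set R : ℤ → ℤ → ℝ := fun x y => w (x - y) * w (x + y) with hR
  have Rp : ∀ x y, 0 < R x y := fun x y => mul_pos (h.lc.1 _) (h.lc.1 _)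
  have st : ∀ x y, 0 ≤ x → 0 ≤ y → R (x + 1) y / R x y ≤ R (x + 1) (y + 1) / R x (y + 1) := by
    intro x y hx hy
    rw [div_le_div_iff₀ (Rp _ _) (Rp _ _)]
    have := h.tp2 x y hx hy
    simp only [hR]
    rw [show x + 1 - (y + 1) = x - y by ring, show x + 1 + (y + 1) = x + y + 2 by ring]
    linarith
  have s1 : ∀ x, 0 ≤ x → R (x + 1) b / R x b ≤ R (x + 1) b' / R x b' := by
    intro x hx
    induction b', hbb using Int.leInduction with
    | base => exact le_rfl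
    | succ n hn ih => exact ih.trans (st x n hx (hb.trans hn))
  have s2 : R a b' / R a b ≤ R a' b' / R a' b := by
    induction a', haa using Int.leInduction with
    | base => exact le_rfl
    | succ n hn ih =>
      refine ih.trans ?_
      have := s1 n (ha.trans hn)
      rw [div_le_div_iff₀ (Rp _ _) (Rp _ _)] at this ⊢
      linarith
  rw [div_le_div_iff₀ (Rp _ _) (Rp _ _)] at s2
  simp only [hR] at s2
  linarith

/-- the Ising coupling increases with the heights -/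
theorem coup_mono (h : Fam w) {x y x' y' : ℤ} (hx : 0 ≤ x) (hy : 0 ≤ y) (hxx : x ≤ x')
    (hyy : y ≤ y') : w (y - x) * w (x' + y') ≤ w (x + y) * w (y' - x') := by
  have p := h.pos'
  have e1 : w (x - y) * w (x' + y) ≤ w (x + y) * w (x' - y) :=
    h.lc'.four (by omega) (by omega) (by ring)
  have e2 : w (y - x') * w (x' + y') ≤ w (x' + y) * w (y' - x') :=
    h.lc'.four (by omega) (by omega) (by ring)
  rw [← h.even (x - y), ← h.even (x' - y), neg_sub, neg_sub] at e1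
  have := mul_le_mul e1 e2 (mul_pos (p _) (p _)).le (mul_pos (p _) (p _)).le
  refine le_of_mul_le_mul_left ?_ (mul_pos (p (x' + y)) (p (y - x')))
  linarith

theorem q_le_p (h : Fam w) {x y : ℤ} (hx : 0 ≤ x) (hy : 0 ≤ y) : w (x + y) ≤ w (y - x) :=
  h.anti (by rw [abs_of_nonneg (add_nonneg hx hy), abs_le]; omega)

theorem four_pos {G : Type*} [CommGroup G] (χ : G →* ℤˣ) {p₁ q₁ p₂ q₂ p₃ q₃ p₄ q₄ : ℝ}
    (z₁ : 0 < q₁) (z₂ : 0 < q₂) (z₃ : 0 < q₃) (z₄ : 0 < q₄) (l₁ : q₁ ≤ p₁) (l₂ : q₂ ≤ p₂)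
    (l₃ : q₃ ≤ p₃) (l₄ : q₄ ≤ p₄) (hp : p₁ * p₂ ≤ p₃ * p₄) (hq : q₃ * q₄ ≤ q₁ * q₂)
    (hu : (p₁ * q₁) * (p₂ * q₂) ≤ (p₃ * q₃) * (p₄ * q₄)) (r₁ : p₃ * q₁ ≤ q₃ * p₁)
    (r₂ : p₃ * q₂ ≤ q₃ * p₂) (r₃ : p₁ * q₄ ≤ q₁ * p₄) (r₄ : p₂ * q₄ ≤ q₂ * p₄) :
    Four (aff χ p₁ q₁) (aff χ p₂ q₂) (aff χ p₃ q₃) (aff χ p₄ q₄) := by
  have y₁ := z₁.trans_le l₁
  have y₂ := z₂.trans_le l₂
  have y₃ := z₃.trans_le l₃
  have y₄ := z₄.trans_le l₄
  have key : ∀ X Y X' Y' : ℝ, 0 < X → 0 < Y → 0 < X' → 0 < Y' → Y ≤ X → X * Y ≤ X' * Y' →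
      X * Y' ≤ X' * Y → Mj X Y X' Y' := fun X Y X' Y' a b c d e f g => by
    have h1 : X ≤ X' := by
      have := mul_le_mul f g (by positivity) (by positivity)
      have h2 : X ^ 2 ≤ X' ^ 2 := le_of_mul_le_mul_right (by nlinarith) (mul_pos b d)
      exact (pow_le_pow_iff_left₀ a.le c.le two_ne_zero).1 h2
    have h3 : Y' ≤ X' := le_of_mul_le_mul_left (g.trans (by nlinarith)) a
    exact Mj.of b.le e d.le h3 h1 f g
  refine Four.aff χ (key _ _ _ _ (by positivity) (by positivity) (by positivity) (by positivity)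
    (mul_le_mul l₁ l₂ z₂.le y₁.le) (by linarith)
    (mul_le_mul hp hq (by positivity) (by positivity))) ?_
  rcases le_total (p₁ * q₂) (q₁ * p₂) with c | c
  · refine key _ _ _ _ (by positivity) (by positivity) (by positivity) (by positivity) c
      (by linarith) ?_
    have := mul_le_mul r₁ r₄ (by positivity) (by positivity)
    linarith
  · refine Mj.swap (key _ _ _ _ (by positivity) (by positivity) (by positivity) (by positivity) c
      (by linarith) ?_)
    have := mul_le_mul r₂ r₃ (by positivity) (by positivity)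
    linarith

/-- lattice condition of one edge (bonds summed out) -/
theorem four_edge {G : Type*} [CommGroup G] (χ : G →* ℤˣ) (h : Fam w) {x y x' y' : ℤ}
    (hx : 0 ≤ x) (hy : 0 ≤ y) (hx' : 0 ≤ x') (hy' : 0 ≤ y') :
    Four (aff χ (w (y - x)) (w (x + y))) (aff χ (w (y' - x')) (w (x' + y')))
      (aff χ (w (min y y' - min x x')) (w (min x x' + min y y')))
      (aff χ (w (max y y' - max x x')) (w (max x x' + max y y'))) := by
  have p := h.pos'
  have m1 : 0 ≤ min x x' := le_min hx hx'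
  have m2 : 0 ≤ min y y' := le_min hy hy'
  refine four_pos χ (p _) (p _) (p _) (p _) (q_le_p h hx hy) (q_le_p h hx' hy') (q_le_p h m1 m2)
    (q_le_p h (le_max_of_le_left hx) (le_max_of_le_left hy)) (h.lc'.edge x y x' y')
    (h.lc'.four (by omega) (by omega) (by omega)) ?_
    (coup_mono h m1 m2 (min_le_left _ _) (min_le_left _ _))
    (coup_mono h m1 m2 (min_le_right _ _) (min_le_right _ _))
    (coup_mono h hx hy (le_max_left _ _) (le_max_left _ _))
    (coup_mono h hx' hy' (le_max_right _ _) (le_max_right _ _))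
  rcases le_total x x' with a | a <;> rcases le_total y y' with b | b
  · rw [min_eq_left a, min_eq_left b, max_eq_right a, max_eq_right b]
  · rw [min_eq_left a, min_eq_right b, max_eq_right a, max_eq_left b]
    have := tp2_full h.ker hy' hx b a
    simp only [add_comm y, add_comm y'] at this
    exact this
  · rw [min_eq_right a, min_eq_left b, max_eq_left a, max_eq_right b]
    have := tp2_full h.ker hy hx' b a
    simp only [add_comm y, add_comm y'] at this
    linarith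
  · rw [min_eq_right a, min_eq_right b, max_eq_left a, max_eq_left b, mul_comm]

/-- the bond weight in spin form -/
noncomputable def bA {G : Type*} [CommGroup G] (χ : G →* ℤˣ) (p q : ℝ) (o : Prop) [Decidable o] :
    G → ℝ := if o then aff χ (p - q) 0 else aff χ q q

theorem Pos.bA {G : Type*} [CommGroup G] (χ : G →* ℤˣ) {p q : ℝ} (hq : 0 ≤ q) (h : q ≤ p)
    (o : Prop) [Decidable o] : Pos (bA χ p q o) := by
  unfold Gk60.bA
  split_ifs
  · exact Pos.aff χ le_rfl (sub_nonneg.2 h)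
  · exact Pos.aff χ hq le_rfl

/-- lattice condition of one bond between ordered heights -/
theorem four_bond {G : Type*} [CommGroup G] (χ : G →* ℤˣ) {p q p' q' : ℝ} (hq : 0 ≤ q) (h : q ≤ p)
    (hq' : 0 ≤ q') (h' : q' ≤ p') (r : p * q' ≤ q * p') (o o' o₁ o₂ : Prop) [Decidable o]
    [Decidable o'] [Decidable o₁] [Decidable o₂] (e₁ : o₁ ↔ o ∧ o') (e₂ : o₂ ↔ o ∨ o') :
    Four (bA χ p q o) (bA χ p' q' o') (bA χ p q o₁) (bA χ p' q' o₂) := by
  have d := sub_nonneg.2 h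
  have d' := sub_nonneg.2 h'
  have k : (p - q) * q' ≤ q * (p' - q') := by linarith
  have k0 : 0 ≤ (p - q) * q' := mul_nonneg d hq'
  unfold bA
  by_cases a : o <;> by_cases b : o' <;> simp only [e₁, e₂, a, b, and_self, or_self, and_false,
    false_and, or_false, false_or, if_true, if_false] <;> refine Four.aff χ ?_ ?_
  · exact Mj.refl (by simp) (by simpa using mul_nonneg d d')
  · exact Mj.refl (by simp) (by simp)
  · simp only [zero_mul, mul_zero]
    exact ⟨by rw [add_zero, add_zero, abs_of_nonneg k0]; exact k,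
      by rw [sub_zero, sub_zero, abs_of_nonneg k0]; exact k⟩
  · simp only [zero_mul, mul_zero]
    exact Mj.swap ⟨by rw [add_zero, add_zero, abs_of_nonneg k0]; exact k,
      by rw [sub_zero, sub_zero, abs_of_nonneg k0]; exact k⟩
  · exact Mj.refl (by simp) (by simpa using mul_nonneg hq d')
  · exact Mj.refl (by simp) (by simpa using mul_nonneg hq d')
  · exact Mj.refl (mul_nonneg hq hq') le_rfl
  · exact Mj.refl (mul_nonneg hq hq') le_rfl

end ker

end Crest.Agent.T145.Gk60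
end

-- ▼ part T145/GksB_60

/-!
# Row 145: GKS-II + absolute-value FKG with bonds, two-model form (helper60)

`Gk60.two`: for two models with the same edges whose site weights (pins included) are in the order `SLe`,
`(∑ J' F)(∑ J G) ≤ (∑ J')(∑ J F G)` for `F`, `G` in the class `Gks`.
-/

set_option autoImplicit false

namespace Crest.Agent.T145.Gk60

open Finset

/-- order between site weights -/
structure SLe (u' u : ℤ → ℝ) : Prop where
  n' : ∀ k, 0 ≤ u' k
  n : ∀ k, 0 ≤ u k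
  p' : ∀ k, 0 ≤ k → u' (-k) ≤ u' k
  p : ∀ k, 0 ≤ k → u (-k) ≤ u k
  r : ∀ j k, 0 ≤ j → j ≤ k → u' j * u (-k) ≤ u' (-j) * u k
  s : ∀ j k, 0 ≤ k → k ≤ j →
    Mj (u' j * u k) (u' (-j) * u (-k)) (u' k * u j) (u' (-k) * u (-j)) ∧
      Mj (u' (-j) * u k) (u' j * u (-k)) (u' (-k) * u j) (u' k * u (-j))

section site
variable {G : Type*} [CommGroup G] {u' u : ℤ → ℝ}

theorem SLe.four_le (h : SLe u' u) (χ : G →* ℤˣ) {j k : ℤ} (hj : 0 ≤ j) (hjk : j ≤ k) :
    Four (aff χ (u' j) (u' (-j))) (aff χ (u k) (u (-k))) (aff χ (u' j) (u' (-j)))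
      (aff χ (u k) (u (-k))) :=
  Four.aff χ (Mj.refl (mul_nonneg (h.n' _) (h.n _))
    (mul_le_mul (h.p' j hj) (h.p k (hj.trans hjk)) (h.n _) (h.n' _)))
    (Mj.refl (mul_nonneg (h.n' _) (h.n _)) (h.r j k hj hjk))

theorem SLe.four (h : SLe u' u) (χ : G →* ℤˣ) {j k : ℤ} (hj : 0 ≤ j) (hk : 0 ≤ k) :
    Four (aff χ (u' j) (u' (-j))) (aff χ (u k) (u (-k))) (aff χ (u' (min j k)) (u' (-min j k)))
      (aff χ (u (max j k)) (u (-max j k))) := by
  rcases le_total j k with c | c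
  · rw [min_eq_left c, max_eq_right c]; exact h.four_le χ hj c
  · rw [min_eq_right c, max_eq_left c]; exact Four.aff χ (h.s j k hk c).1 (h.s j k hk c).2

end site

variable {V : Type*} [DecidableEq V]

/-- the spin at `x` (`+1` off `B`) -/
def sg (B : Finset V) (x : V) : (B → ℤˣ) →* ℤˣ :=
  if h : x ∈ B then Pi.evalMonoidHom (fun _ : B => ℤˣ) ⟨x, h⟩ else 1

/-- action of the spins on the heights -/
noncomputable def act {B : Finset V} (σ : B → ℤˣ) (a : Cfg V) : Cfg V :=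
  Finsupp.onFinset a.support (fun x => (sg B x σ : ℤ) * a x) fun _ hx =>
    Finsupp.mem_support_iff.2 (right_ne_zero_of_mul hx)

variable {B : Finset V}

theorem act_apply (σ : B → ℤˣ) (a : Cfg V) (x : V) : act σ a x = (sg B x σ : ℤ) * a x := rfl

theorem act_act (σ : B → ℤˣ) (a : Cfg V) : act σ (act σ a) = a := by
  ext x
  rw [act_apply, act_apply]
  rcases Int.units_eq_one_or (sg B x σ) with h | h <;> simp [h]

theorem abs_act (σ : B → ℤˣ) {a : Cfg V} (ha : 0 ≤ a) (x : V) : |act σ a x| = a x := by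
  rw [act_apply]
  have : 0 ≤ a x := ha x
  rcases Int.units_eq_one_or (sg B x σ) with h | h <;> simp [h, this]

theorem ab_act (σ : B → ℤˣ) {a : Cfg V} (ha : 0 ≤ a) : ab (act σ a) = a := by
  ext x; rw [ab_apply, abs_act σ ha]

theorem gks_lo {F : Cfg V × Finset (V × V) → ℝ} (hF : Gks F) {a c : Cfg V} (ha : 0 ≤ a)
    (hac : a ≤ c) {ω ω' : Finset (V × V)} (hω : ω ⊆ ω') :
    Lo (fun σ : B → ℤˣ => F (act σ a, ω)) fun σ => F (act σ c, ω') := by
  obtain ⟨𝒯, g, g0, gm, hF⟩ := hF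
  have e : ∀ (b : Cfg V) (ν : Finset (V × V)) (σ : B → ℤˣ), 0 ≤ b → F (act σ b, ν) =
      ∑ T ∈ 𝒯, (g T (b, ν) * ∏ x ∈ T, ((b x).sign : ℝ)) * cv (∏ x ∈ T, sg B x) σ := by
    intro b ν σ hb
    rw [hF]
    refine sum_congr rfl fun T _ => ?_
    simp only [ab_act σ hb, act_apply, Int.sign_mul, Int.cast_mul, prod_mul_distrib, cv,
      MonoidHom.finsetProd_apply, Units.coe_prod, Int.cast_prod]
    have : ∏ x ∈ T, (((sg B x σ : ℤ).sign : ℤ) : ℝ) = ∏ x ∈ T, ((sg B x σ : ℤ) : ℝ) :=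
      prod_congr rfl fun x _ => by
        rcases Int.units_eq_one_or (sg B x σ) with h | h <;> simp [h]
    rw [this]; ring
  have sn : ∀ b : Cfg V, 0 ≤ b → ∀ x, (0 : ℝ) ≤ ((b x).sign : ℝ) := fun b hb x => by
    exact_mod_cast Int.sign_nonneg_iff.2 (hb x)
  have key := Lo.sum_ch 𝒯 (fun T => ∏ x ∈ T, sg B x)
    (c := fun T => g T (a, ω) * ∏ x ∈ T, ((a x).sign : ℝ))
    (d := fun T => g T (c, ω') * ∏ x ∈ T, ((c x).sign : ℝ)) fun T _ => by
      rw [abs_of_nonneg (mul_nonneg (g0 T _ ha) (prod_nonneg fun x _ => sn a ha x))]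
      refine mul_le_mul (gm T _ _ ha ⟨hac, hω⟩) (prod_le_prod (fun x _ => sn a ha x) fun x _ => ?_)
        (prod_nonneg fun x _ => sn a ha x) (g0 T _ (ha.trans hac))
      have h1 : 0 ≤ a x := ha x
      have h2 : a x ≤ c x := hac x
      rcases h1.eq_or_lt with h | h
      · rw [← h]; simpa using sn c (ha.trans hac) x
      · rw [Int.sign_eq_one_of_pos h, Int.sign_eq_one_of_pos (h.trans_le h2)]
  intro τ
  exact (key τ).congr (fun σ => e a ω _ ha) fun σ => e c ω' σ (ha.trans hac)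

variable (B) (ed : Finset (V × V)) (w : V × V → ℤ → ℝ)

/-- the weight of bonds and spins given the absolute heights -/
noncomputable def Q (u : V → ℤ → ℝ) (a : Cfg V) (ω : Finset (V × V)) (σ : B → ℤˣ) : ℝ :=
  ind (ω ⊆ ed) * (∏ e ∈ ed, bA (sg B e.1 * sg B e.2) (w e (a e.2 - a e.1)) (w e (a e.1 + a e.2))
    (e ∈ ω) σ) * ∏ x ∈ B, aff (sg B x) (u x (a x)) (u x (-a x)) σ

/-- unnormalised conditional mean given the absolute heights -/
noncomputable def Fi (u : V → ℤ → ℝ) (F : Cfg V × Finset (V × V) → ℝ) (a : Cfg V) : ℝ :=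
  ∑ ω ∈ ed.powerset, ∑ σ : B → ℤˣ, Q B ed w u a ω σ * F (act σ a, ω)

variable {B ed w} {u' u : V → ℤ → ℝ} {F G : Cfg V × Finset (V × V) → ℝ}

theorem J_act (hw : ∀ e ∈ ed, Fam (w e)) (u : V → ℤ → ℝ) {a : Cfg V} (ha : 0 ≤ a)
    (h0 : ∀ x, x ∉ B → a x = 0) (ω : Finset (V × V)) (σ : B → ℤˣ) :
    (Mdl.mk B ed w u).J 0 0 (act σ a, ω) = Q B ed w u a ω σ := by
  unfold Mdl.J Q
  rw [ind_pos (fun x hx => by rw [act_apply, h0 x hx]; simp), one_mul]
  congr 1
  · congr 1
    refine prod_congr rfl fun e he => ?_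
    have ev := (hw e he).even
    simp only [Mdl.bw, bA, sub_zero, abs_act σ ha, dE]
    split_ifs with o
    · simp only [act_apply, aff, MonoidHom.mul_apply]
      rcases Int.units_eq_one_or (sg B e.1 σ) with h | h <;>
        rcases Int.units_eq_one_or (sg B e.2 σ) with k | k <;> simp [h, k]
      · rw [← ev, sub_eq_zero]; congr 1; ring
      · rw [add_comm, sub_self]
      · rw [← ev]; congr 1; ring
    · simp [aff]
  · refine prod_congr rfl fun x _ => ?_
    simp only [act_apply, aff]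
    rcases Int.units_eq_one_or (sg B x σ) with h | h <;> simp [h]

theorem Q_pos (hw : ∀ e ∈ ed, Fam (w e)) (n : ∀ x ∈ B, ∀ k, 0 ≤ u x k)
    (p : ∀ x ∈ B, ∀ k, 0 ≤ k → u x (-k) ≤ u x k) {a : Cfg V} (ha : 0 ≤ a) (ω : Finset (V × V)) :
    Pos (Q B ed w u a ω) :=
  ((Pos.const (ind_nonneg _)).mul (Pos.prod ed fun e he => Pos.bA _ ((hw e he).pos' _).le
    (q_le_p (hw e he) (ha _) (ha _)) _)).mul
    (Pos.prod B fun x hx => Pos.aff _ (n x hx _) (p x hx _ (ha x)))

theorem Q_nonneg (hw : ∀ e ∈ ed, Fam (w e)) (n : ∀ x ∈ B, ∀ k, 0 ≤ u x k) {a : Cfg V} (ha : 0 ≤ a)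
    (ω : Finset (V × V)) (σ : B → ℤˣ) : 0 ≤ Q B ed w u a ω σ := by
  refine mul_nonneg (mul_nonneg (ind_nonneg _) (prod_nonneg fun e he => ?_))
    (prod_nonneg fun x hx => aff_nonneg _ (n x hx _) (n x hx _) _)
  unfold bA
  split_ifs
  · exact aff_nonneg _ (sub_nonneg.2 (q_le_p (hw e he) (ha _) (ha _))) le_rfl _
  · exact aff_nonneg _ ((hw e he).pos' _).le ((hw e he).pos' _).le _

omit [DecidableEq V] in
theorem gks_one : Gks fun _ : Cfg V × Finset (V × V) => (1 : ℝ) :=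
  ⟨{∅}, fun _ _ => 1, fun _ _ _ => zero_le_one, fun _ _ _ _ _ => le_rfl, fun _ => by simp⟩

theorem Fi_nonneg (hw : ∀ e ∈ ed, Fam (w e)) (n : ∀ x ∈ B, ∀ k, 0 ≤ u x k)
    (p : ∀ x ∈ B, ∀ k, 0 ≤ k → u x (-k) ≤ u x k) (hF : Gks F) (hG : Gks G) {a : Cfg V}
    (ha : 0 ≤ a) : 0 ≤ Fi B ed w u (fun q => F q * G q) a :=
  sum_nonneg fun ω _ => ((Q_pos hw n p ha ω).mul ((gks_lo hF ha le_rfl (Subset.refl ω)).pos.mul
    (gks_lo hG ha le_rfl (Subset.refl ω)).pos)).sum_nonneg

theorem Fi_nonneg' (hw : ∀ e ∈ ed, Fam (w e)) (n : ∀ x ∈ B, ∀ k, 0 ≤ u x k)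
    (p : ∀ x ∈ B, ∀ k, 0 ≤ k → u x (-k) ≤ u x k) (hF : Gks F) {a : Cfg V}
    (ha : 0 ≤ a) : 0 ≤ Fi B ed w u F a := by
  simpa using Fi_nonneg hw n p hF gks_one ha

theorem Fi_zero (hw : ∀ e ∈ ed, Fam (w e)) (n : ∀ x ∈ B, ∀ k, 0 ≤ u x k) {a : Cfg V} (ha : 0 ≤ a)
    (h : Fi B ed w u (fun _ => 1) a = 0) (F : Cfg V × Finset (V × V) → ℝ) :
    Fi B ed w u F a = 0 := by
  simp only [Fi, mul_one] at h
  refine sum_eq_zero fun ω hω => sum_eq_zero fun σ hσ => ?_
  have h1 := (sum_eq_zero_iff_of_nonneg fun ω _ =>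
    sum_nonneg fun σ _ => Q_nonneg hw n ha ω σ).1 h ω hω
  rw [(sum_eq_zero_iff_of_nonneg fun σ _ => Q_nonneg hw n ha ω σ).1 h1 σ hσ, zero_mul]

/-- conditional GKS-II and monotonicity in the absolute heights -/
theorem Fi_le (hw : ∀ e ∈ ed, Fam (w e)) (h : ∀ x ∈ B, SLe (u' x) (u x)) (hF : Gks F) (hG : Gks G)
    {a c : Cfg V} (ha : 0 ≤ a) (hac : a ≤ c) :
    Fi B ed w u' F a * Fi B ed w u G c ≤
      Fi B ed w u' (fun _ => 1) a * Fi B ed w u (fun q => F q * G q) c := by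
  have hc := ha.trans hac
  have P' := Q_pos hw (fun x hx => (h x hx).n') (fun x hx => (h x hx).p') ha
  have P := Q_pos hw (fun x hx => (h x hx).n) (fun x hx => (h x hx).p) hc
  have key := four_functions_theorem
    (fun ω => ∑ σ : B → ℤˣ, Q B ed w u' a ω σ * F (act σ a, ω))
    (fun ω => ∑ σ : B → ℤˣ, Q B ed w u c ω σ * G (act σ c, ω))
    (fun ω => ∑ σ : B → ℤˣ, Q B ed w u' a ω σ * 1)
    (fun ω => ∑ σ : B → ℤˣ, Q B ed w u c ω σ * (F (act σ c, ω) * G (act σ c, ω)))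
    (fun ω => ((P' ω).mul (gks_lo hF ha le_rfl (Subset.refl ω)).pos).sum_nonneg)
    (fun ω => ((P ω).mul (gks_lo hG hc le_rfl (Subset.refl ω)).pos).sum_nonneg)
    (fun ω => ((P' ω).mul (Pos.const zero_le_one)).sum_nonneg)
    (fun ω => ((P ω).mul ((gks_lo hF hc le_rfl (Subset.refl ω)).pos.mul
      (gks_lo hG hc le_rfl (Subset.refl ω)).pos)).sum_nonneg)
    (fun ω ω' => Four.sum_le (Four.mul (Four.mul (Four.mul (Four.const ?_)
      (Four.prod ed fun e he => ?_)) (Four.prod B fun x hx => (h x hx).four_le _ (ha x) (hac x)))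
      ((gks_lo hF ha hac subset_union_left).four (gks_lo hG hc le_rfl subset_union_right))))
    ed.powerset ed.powerset
  · rw [powerset_infs_powerset_self, powerset_sups_powerset_self] at key
    exact key
  · rw [← ind_and, ← ind_and, abs_of_nonneg (ind_nonneg _)]
    exact ind_mono fun k => ⟨inter_subset_left.trans k.1, union_subset k.1 k.2⟩
  · exact four_bond _ ((hw e he).pos' _).le (q_le_p (hw e he) (ha _) (ha _)) ((hw e he).pos' _).le
      (q_le_p (hw e he) (hc _) (hc _)) (coup_mono (hw e he) (ha _) (ha _) (hac _) (hac _)) _ _ _ _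
      mem_inter mem_union

theorem Fi_one (u : V → ℤ → ℝ) (a : Cfg V) : Fi B ed w u (fun _ => 1) a =
    ∑ σ : B → ℤˣ, (∏ e ∈ ed, aff (sg B e.1 * sg B e.2) (w e (a e.2 - a e.1))
      (w e (a e.1 + a e.2)) σ) * ∏ x ∈ B, aff (sg B x) (u x (a x)) (u x (-a x)) σ := by
  unfold Fi Q
  rw [sum_comm]
  refine sum_congr rfl fun σ _ => ?_
  simp only [mul_one]
  rw [← sum_mul]
  congr 1
  rw [sum_congr rfl fun ω hω => by rw [ind_pos (mem_powerset.1 hω), one_mul]]
  simp only [bA, ite_apply]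
  rw [Sw9.sum_ite_prod]
  refine prod_congr rfl fun e _ => ?_
  unfold aff
  split_ifs <;> ring

/-- lattice condition for the law of the absolute heights -/
theorem Fi_lsm (hw : ∀ e ∈ ed, Fam (w e)) (h : ∀ x ∈ B, SLe (u' x) (u x)) {a b : Cfg V}
    (ha : 0 ≤ a) (hb : 0 ≤ b) :
    Fi B ed w u' (fun _ => 1) a * Fi B ed w u (fun _ => 1) b ≤
      Fi B ed w u' (fun _ => 1) (a ⊓ b) * Fi B ed w u (fun _ => 1) (a ⊔ b) := by
  simp only [Fi_one, cfg_inf_apply, cfg_sup_apply]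
  exact Four.sum_le (Four.mul (Four.prod ed fun e he =>
    four_edge _ (hw e he) (ha _) (ha _) (hb _) (hb _))
    (Four.prod B fun x hx => (h x hx).four _ (ha x) (hb x)))

theorem Fi_four (hw : ∀ e ∈ ed, Fam (w e)) (h : ∀ x ∈ B, SLe (u' x) (u x))
    (k : ∀ x ∈ B, SLe (u x) (u x)) (hF : Gks F) (hG : Gks G) {a b : Cfg V} (ha : 0 ≤ a)
    (hb : 0 ≤ b) : Fi B ed w u' F a * Fi B ed w u G b ≤
      Fi B ed w u' (fun _ => 1) (a ⊓ b) * Fi B ed w u (fun q => F q * G q) (a ⊔ b) := by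
  have n' := fun x hx => (h x hx).n'
  have p' := fun x hx => (h x hx).p'
  have n := fun x hx => (h x hx).n
  have p := fun x hx => (h x hx).p
  have hc : 0 ≤ a ⊔ b := ha.trans le_sup_left
  have hl : 0 ≤ a ⊓ b := le_inf ha hb
  have i1 := Fi_le hw h hF gks_one ha (le_sup_left (b := b))
  have i2 := Fi_le hw k hG gks_one hb (le_sup_right (a := a))
  have i3 := Fi_le hw k hF hG hc le_rfl
  have i4 := Fi_lsm hw h ha hb
  simp only [mul_one] at i1 i2
  have z1 := Fi_nonneg' hw n' p' hF ha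
  have z2 := Fi_nonneg' hw n p hG hb
  have z3 := Fi_nonneg' hw n' p' gks_one hl
  have z4 := Fi_nonneg hw n p hF hG hc
  have z5 := Fi_nonneg' hw n' p' gks_one ha
  have z6 := Fi_nonneg' hw n p gks_one hb
  have z7 := Fi_nonneg' hw n p hF hc
  have z8 := Fi_nonneg' hw n p hG hc
  rcases (Fi_nonneg' hw n p gks_one hc).eq_or_lt with z | z
  · rw [← z, mul_zero] at i4
    rcases mul_eq_zero.1 (le_antisymm i4 (mul_nonneg z5 z6)) with y | y
    · rw [Fi_zero hw n' ha y, zero_mul]; exact mul_nonneg z3 z4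
    · rw [Fi_zero hw n hb y, mul_zero]; exact mul_nonneg z3 z4
  · have j1 := mul_le_mul i1 i2 (mul_nonneg z2 z.le) (mul_nonneg z5 z7)
    have j2 := mul_le_mul i4 i3 (mul_nonneg z7 z8) (mul_nonneg z3 z.le)
    refine le_of_mul_le_mul_right ?_ (mul_pos z z)
    linarith

/-- weight of the absolute value `k` (half at `0`, none for `k < 0`) -/
noncomputable def kp (k : ℤ) : ℝ := if k = 0 then 1 / 2 else if 0 < k then 1 else 0

theorem kp_nonneg (k : ℤ) : 0 ≤ kp k := by unfold kp; split_ifs <;> norm_num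
theorem kp_le (k : ℤ) : kp k ≤ 1 := by unfold kp; split_ifs <;> norm_num
theorem kp_ne {k : ℤ} (h : kp k ≠ 0) : 0 ≤ k := by
  unfold kp at h; split_ifs at h with a b <;> first | omega | exact absurd rfl h

theorem sum_kp (s : Cfg V) : ∑ σ : B → ℤˣ, ∏ x ∈ B, kp (act σ s x) = 1 := by
  have e : ∀ σ : B → ℤˣ, ∏ x ∈ B, kp (act σ s x) = ∏ x : B, kp ((σ x : ℤ) * s x) := fun σ => by
    rw [← prod_coe_sort B]
    exact prod_congr rfl fun x _ => by simp [act_apply, sg]
  simp only [e]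
  rw [← Fintype.piFinset_univ, ← prod_univ_sum (fun _ => univ) fun (x : B) (v : ℤˣ) =>
    kp ((v : ℤ) * s x)]
  refine prod_eq_one fun x _ => ?_
  rw [show (univ : Finset ℤˣ) = {1, -1} by decide, sum_pair (by decide)]
  simp only [kp, Units.val_one, one_mul, Units.val_neg, neg_mul, neg_eq_zero, neg_pos]
  split_ifs <;> first | omega | norm_num

variable (B ed w) in
/-- the sum over signs and bonds at given absolute heights -/
noncomputable def Ps (u : V → ℤ → ℝ) (F : Cfg V × Finset (V × V) → ℝ) (a : Cfg V) : ℝ :=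
  (∏ x ∈ B, kp (a x)) * ind (∀ x, x ∉ B → a x = 0) * Fi B ed w u F a

theorem Ps_cases (a : Cfg V) : (∏ x ∈ B, kp (a x)) * ind (∀ x, x ∉ B → a x = 0) = 0 ∨
    (0 ≤ a ∧ ∀ x, x ∉ B → a x = 0) := by
  by_cases h : (∏ x ∈ B, kp (a x)) * ind (∀ x, x ∉ B → a x = 0) = 0
  · exact Or.inl h
  · have h2 := ind_ne_zero.1 (right_ne_zero_of_mul h)
    refine Or.inr ⟨fun x => ?_, h2⟩
    by_cases hx : x ∈ B
    · exact kp_ne (prod_ne_zero_iff.1 (left_ne_zero_of_mul h) x hx)
    · exact (h2 x hx).ge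

theorem hasSum_Ps (hw : ∀ e ∈ ed, Fam (w e)) (hF : Ig ((Mdl.mk B ed w u).J 0 0) F) :
    HasSum (Ps B ed w u F) (∑' p, (Mdl.mk B ed w u).J 0 0 p * F p) := by
  set m := Mdl.mk B ed w u with hm
  set h : Cfg V → ℝ := fun s => ∑ ω ∈ ed.powerset, m.J 0 0 (s, ω) * F (s, ω) with hh
  have h1 : HasSum h (∑' p, m.J 0 0 p * F p) :=
    (Summable.hasSum hF).prod_fiberwise fun s => m.hasSum_J_fib 0 0 s F
  have h2 : ∀ σ : B → ℤˣ, Summable fun s => (∏ x ∈ B, kp (act σ s x)) * h s := fun σ =>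
    Summable.of_norm_bounded h1.summable.abs fun s => by
      rw [Real.norm_eq_abs, abs_mul, abs_of_nonneg (prod_nonneg fun x _ => kp_nonneg _)]
      exact mul_le_of_le_one_left (abs_nonneg _)
        (prod_le_one (fun x _ => kp_nonneg _) fun x _ => kp_le _)
  have h3 := hasSum_sum (s := univ) fun σ _ => (h2 σ).hasSum
  simp only [← sum_mul, sum_kp, one_mul] at h3
  rw [h1.unique h3]
  have h4 : ∀ σ : B → ℤˣ, HasSum (fun a => (∏ x ∈ B, kp (a x)) * h (act σ a))
      (∑' s, (∏ x ∈ B, kp (act σ s x)) * h s) := fun σ => by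
    have := (Function.Involutive.toPerm (act σ) (act_act σ)).hasSum_iff.2 (h2 σ).hasSum
    refine this.congr_fun fun a => ?_
    show _ = (∏ x ∈ B, kp (act σ (act σ a) x)) * h (act σ a)
    rw [act_act]
  refine (hasSum_sum (s := univ) fun σ _ => h4 σ).congr_fun fun a => ?_
  rw [← mul_sum, Ps, mul_assoc]
  by_cases z : ∏ x ∈ B, kp (a x) = 0
  · rw [z, zero_mul, zero_mul]
  congr 1
  by_cases o : ∀ x, x ∉ B → a x = 0
  · have ha : 0 ≤ a := ((Ps_cases (B := B) a).resolve_left (by rw [ind_pos o, mul_one]; exact z)).1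
    rw [ind_pos o, one_mul, Fi, sum_comm]
    exact sum_congr rfl fun σ _ => sum_congr rfl fun ω _ => by rw [hm, J_act hw u ha o]
  · rw [ind_neg o, zero_mul]
    refine (sum_eq_zero fun σ _ => sum_eq_zero fun ω _ => ?_).symm
    rw [Mdl.J, ind_neg fun k => o fun x hx => ?_]
    · simp
    · have := k x hx
      simp only [act_apply, Finsupp.coe_zero, Pi.zero_apply, mul_eq_zero, Units.ne_zero,
        false_or] at this
      exact this

theorem Ps_nonneg {a : Cfg V} (h : 0 ≤ a → 0 ≤ Fi B ed w u F a) : 0 ≤ Ps B ed w u F a := by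
  unfold Ps
  rcases Ps_cases (B := B) a with z | z
  · rw [z, zero_mul]
  · exact mul_nonneg (mul_nonneg (prod_nonneg fun x _ => kp_nonneg _) (ind_nonneg _)) (h z.1)

/-- the two-model inequality, zero boundary condition -/
theorem core (hw : ∀ e ∈ ed, Fam (w e)) (h : ∀ x ∈ B, SLe (u' x) (u x))
    (k : ∀ x ∈ B, SLe (u x) (u x)) (hF : Gks F) (hG : Gks G)
    (s' : Summable ((Mdl.mk B ed w u').J 0 0)) (iF : Ig ((Mdl.mk B ed w u').J 0 0) F)
    (iG : Ig ((Mdl.mk B ed w u).J 0 0) G) (iFG : Ig ((Mdl.mk B ed w u).J 0 0) fun p => F p * G p) :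
    (∑' p, (Mdl.mk B ed w u').J 0 0 p * F p) * (∑' p, (Mdl.mk B ed w u).J 0 0 p * G p) ≤
      Zs ((Mdl.mk B ed w u').J 0 0) * ∑' p, (Mdl.mk B ed w u).J 0 0 p * (F p * G p) := by
  have n' := fun x hx => (h x hx).n'
  have p' := fun x hx => (h x hx).p'
  have n := fun x hx => (h x hx).n
  have p := fun x hx => (h x hx).p
  have a1 := hasSum_Ps hw iF
  have a2 := hasSum_Ps hw iG
  have a3 := hasSum_Ps hw (Ig.const s' 1)
  have a4 := hasSum_Ps hw iFG
  have z3 : ∀ a, 0 ≤ Ps B ed w u' (fun _ => 1) a := fun a =>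
    Ps_nonneg fun ha => Fi_nonneg' hw n' p' gks_one ha
  have z4 : ∀ a, 0 ≤ Ps B ed w u (fun p => F p * G p) a := fun a =>
    Ps_nonneg fun ha => Fi_nonneg hw n p hF hG ha
  have key := Fk86.four (fun a => Ps_nonneg fun ha => Fi_nonneg' hw n' p' hF ha)
    (fun a => Ps_nonneg fun ha => Fi_nonneg' hw n p hG ha) z3 z4 a1.summable a2.summable
    a3.summable a4.summable fun a b => ?_
  · simp only [Zs, a1.tsum_eq, a2.tsum_eq, a3.tsum_eq, a4.tsum_eq, mul_one] at key
    exact key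
  rcases Ps_cases (B := B) a with z | ⟨ha, oa⟩
  · rw [Ps, z, zero_mul, zero_mul]; exact mul_nonneg (z3 _) (z4 _)
  rcases Ps_cases (B := B) b with z | ⟨hb, ob⟩
  · rw [Ps.eq_def B ed w u G, z, zero_mul, mul_zero]; exact mul_nonneg (z3 _) (z4 _)
  have e : (∏ x ∈ B, kp (a x)) * ∏ x ∈ B, kp (b x) =
      (∏ x ∈ B, kp ((a ⊓ b) x)) * ∏ x ∈ B, kp ((a ⊔ b) x) := by
    rw [← prod_mul_distrib, ← prod_mul_distrib]
    refine prod_congr rfl fun x _ => ?_
    rw [cfg_inf_apply, cfg_sup_apply]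
    rcases le_total (a x) (b x) with c | c
    · rw [min_eq_left c, max_eq_right c]
    · rw [min_eq_right c, max_eq_left c, mul_comm]
  have o1 : ∀ x, x ∉ B → (a ⊓ b) x = 0 := fun x hx => by rw [cfg_inf_apply, oa x hx, ob x hx]; rfl
  have o2 : ∀ x, x ∉ B → (a ⊔ b) x = 0 := fun x hx => by rw [cfg_sup_apply, oa x hx, ob x hx]; rfl
  simp only [Ps, ind_pos oa, ind_pos ob, ind_pos o1, ind_pos o2, mul_one]
  rw [mul_mul_mul_comm, mul_mul_mul_comm (∏ x ∈ B, kp ((a ⊓ b) x)), e]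
  exact mul_le_mul_of_nonneg_left (Fi_four hw h k hF hG ha hb)
    (mul_nonneg (prod_nonneg fun x _ => kp_nonneg _) (prod_nonneg fun x _ => kp_nonneg _))

/-- the weight of the site `x`, pins included -/
noncomputable def us (m : Mdl V) (η : Cfg V) (x : V) (k : ℤ) : ℝ :=
  if x ∈ m.A then m.site x k else ind (k = η x)

theorem J_norm (m : Mdl V) (η : Cfg V) (hA : m.A ⊆ B) (hη : η.support ⊆ B) :
    m.J 0 η = (Mdl.mk B m.ed m.w (us m η)).J 0 0 := by
  funext p
  unfold Mdl.J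
  have e : ind (∀ x, x ∉ m.A → p.1 x = η x) * ∏ x ∈ m.A, m.site x (p.1 x) =
      ind (∀ x, x ∉ B → p.1 x = (0 : Cfg V) x) * ∏ x ∈ B, us m η x (p.1 x) := by
    rw [← prod_sdiff hA, ← mul_assoc]
    congr 1
    · rw [prod_congr rfl fun x hx => show us m η x (p.1 x) = ind (p.1 x = η x) from
        if_neg (mem_sdiff.1 hx).2, ← ind_forall, ← ind_and]
      have z : ∀ x, x ∉ B → η x = 0 := fun x hx => Finsupp.notMem_support_iff.1 fun k => hx (hη k)
      refine ind_congr ⟨fun k => ⟨fun x hx => (k x fun c => hx (hA c)).trans (z x hx),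
        fun x hx => k x (mem_sdiff.1 hx).2⟩, fun k x hx => ?_⟩
      by_cases c : x ∈ B
      · exact k.2 x (mem_sdiff.2 ⟨c, hx⟩)
      · exact (k.1 x c).trans (z x c).symm
    · exact prod_congr rfl fun x hx => (if_pos hx).symm
  have r : ∀ a b c d : ℝ, a * b * c * d = a * d * (b * c) := fun a b c d => by ring
  rw [r, r, e]
  rfl

/-- **GKS-II + absolute-value FKG, two-model form** -/
theorem two {m' m : Mdl V} {η' η : Cfg V} (hE : m'.ed = m.ed) (hw : m'.w = m.w) (hm : m.Fm)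
    (h : ∀ x, SLe (us m' η' x) (us m η x)) (k : ∀ x, SLe (us m η x) (us m η x)) (hF : Gks F)
    (hG : Gks G) (s' : Summable (m'.J 0 η')) (iF : Ig (m'.J 0 η') F) (iG : Ig (m.J 0 η) G)
    (iFG : Ig (m.J 0 η) fun p => F p * G p) :
    (∑' p, m'.J 0 η' p * F p) * (∑' p, m.J 0 η p * G p) ≤
      Zs (m'.J 0 η') * ∑' p, m.J 0 η p * (F p * G p) := by
  have e' := J_norm (B := m'.A ∪ η'.support ∪ (m.A ∪ η.support)) m' η'
    (subset_union_left.trans subset_union_left) (subset_union_right.trans subset_union_left)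
  have e := J_norm (B := m'.A ∪ η'.support ∪ (m.A ∪ η.support)) m η
    (subset_union_left.trans subset_union_right) (subset_union_right.trans subset_union_right)
  rw [hE, hw] at e'
  rw [e'] at s' iF ⊢
  rw [e] at iG iFG ⊢
  exact core hm (fun x _ => h x) (fun x _ => k x) hF hG s' iF iG iFG

/-! ### site weights in the order `SLe` -/

theorem mj_exp {x y : ℝ} (h : |x| ≤ y) :
    Mj (Real.exp x) (Real.exp (-x)) (Real.exp y) (Real.exp (-y)) := by
  have hy : 0 ≤ y := (abs_nonneg x).trans h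
  have key : ∀ x : ℝ, 0 ≤ x → x ≤ y →
      Mj (Real.exp x) (Real.exp (-x)) (Real.exp y) (Real.exp (-y)) := fun x hx hxy =>
    Mj.of (Real.exp_pos _).le (Real.exp_le_exp.2 (by linarith)) (Real.exp_pos _).le
      (Real.exp_le_exp.2 (by linarith)) (Real.exp_le_exp.2 hxy)
      (by rw [← Real.exp_add, ← Real.exp_add]; simp)
      (by rw [← Real.exp_add, ← Real.exp_add]; exact Real.exp_le_exp.2 (by linarith))
  rcases le_total 0 x with c | c
  · exact key x c ((le_abs_self x).trans h)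
  · have := (key (-x) (by linarith) ((neg_le_abs x).trans h)).swap
    rwa [neg_neg] at this

/-- even weights in Holley order of `|k|`, ordered nonnegative forces -/
theorem sle_force {v' v : ℤ → ℝ} {f' f : ℝ} (n' : ∀ k, 0 ≤ v' k) (n : ∀ k, 0 ≤ v k)
    (e' : ∀ k, v' (-k) = v' k) (e : ∀ k, v (-k) = v k)
    (hv : ∀ j k, 0 ≤ k → k ≤ j → v' j * v k ≤ v' k * v j) (hf' : 0 ≤ f') (hf : f' ≤ f) :
    SLe (fun k => v' k * Real.exp (f' * k)) fun k => v k * Real.exp (f * k) := by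
  have hf0 := hf'.trans hf
  refine ⟨fun k => mul_nonneg (n' k) (Real.exp_pos _).le, fun k => mul_nonneg (n k)
    (Real.exp_pos _).le, fun k hk => ?_, fun k hk => ?_, fun j k hj hjk => ?_,
    fun j k hk hkj => ?_⟩
  · have : (0 : ℝ) ≤ k := by exact_mod_cast hk
    rw [e']
    exact mul_le_mul_of_nonneg_left (Real.exp_le_exp.2 (by push_cast; nlinarith)) (n' k)
  · have : (0 : ℝ) ≤ k := by exact_mod_cast hk
    rw [e]
    exact mul_le_mul_of_nonneg_left (Real.exp_le_exp.2 (by push_cast; nlinarith)) (n k)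
  · have h1 : (0 : ℝ) ≤ j := by exact_mod_cast hj
    have h2 : (j : ℝ) ≤ k := by exact_mod_cast hjk
    simp only [e', e, mul_mul_mul_comm (v' _) _ (v _), ← Real.exp_add]
    refine mul_le_mul_of_nonneg_left (Real.exp_le_exp.2 ?_) (mul_nonneg (n' j) (n k))
    push_cast
    nlinarith [mul_le_mul hf h2 h1 hf0]
  · have h1 : (0 : ℝ) ≤ k := by exact_mod_cast hk
    have h2 : (k : ℝ) ≤ j := by exact_mod_cast hkj
    have c := mul_nonneg (n' j) (n k)
    have d := hv j k hk hkj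
    have a1 : |f' * j + f * k| ≤ f' * k + f * j := by
      rw [abs_of_nonneg (by nlinarith)]; nlinarith
    have a2 : |-(f' * j) + f * k| ≤ -(f' * k) + f * j := by
      rw [abs_le]; constructor <;> nlinarith
    have b1 := (mj_exp a1).scale c d
    have b2 := (mj_exp a2).scale c d
    simp only [e', e, Int.cast_neg, mul_neg, mul_mul_mul_comm (v' _) _ (v _), ← Real.exp_add]
    simp only [neg_add, neg_neg] at b1 b2
    exact ⟨b1, b2⟩

/-- a weight carried by `k ≥ 0` above a weight carried by `k ≥ 0` (pins, one-sided conditioning) -/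
theorem sle_nn {v' v : ℤ → ℝ} (n' : ∀ k, 0 ≤ v' k) (n : ∀ k, 0 ≤ v k)
    (z' : ∀ k, k < 0 → v' k = 0) (z : ∀ k, k < 0 → v k = 0)
    (hv : ∀ j k, 0 ≤ k → k ≤ j → v' j * v k ≤ v' k * v j) : SLe v' v := by
  have p : ∀ v : ℤ → ℝ, (∀ k, 0 ≤ v k) → (∀ k, k < 0 → v k = 0) → ∀ k, 0 ≤ k → v (-k) ≤ v k :=
    fun v n z k hk => by
      rcases hk.eq_or_lt with c | c
      · rw [← c, neg_zero]
      · rw [z _ (by omega)]; exact n k
  refine ⟨n', n, p v' n' z', p v n z, fun j k hj hjk => ?_, fun j k hk hkj => ?_⟩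
  · rcases (hj.trans hjk).eq_or_lt with c | c
    · obtain rfl : j = 0 := by omega
      rw [← c, neg_zero]
    · rw [z _ (by omega), mul_zero]; exact mul_nonneg (n' _) (n _)
  · rcases hkj.eq_or_lt with c | c
    · subst c
      refine ⟨Mj.refl (mul_nonneg (n' _) (n _))
        (mul_le_mul (p v' n' z' k hk) (p v n z k hk) (n _) (n' _)), ?_⟩
      rcases hk.eq_or_lt with c | c
      · rw [← c, neg_zero]; exact Mj.refl (mul_nonneg (n' _) (n _)) le_rfl
      · rw [z' _ (show -k < 0 by omega), z _ (show -k < 0 by omega)]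
        simpa using Mj.zero le_rfl le_rfl
    · have d := hv j k hk hkj
      have c0 := mul_nonneg (n' j) (n k)
      rw [z' _ (show -j < 0 by omega), z _ (show -j < 0 by omega)]
      simp only [zero_mul, mul_zero]
      refine ⟨⟨by simpa [abs_of_nonneg c0] using d, by simpa [abs_of_nonneg c0] using d⟩, ?_⟩
      rcases hk.eq_or_lt with c1 | c1
      · subst c1
        rw [neg_zero]
        exact ⟨by simpa [abs_of_nonneg c0] using d, by simpa [abs_of_nonneg c0] using d⟩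
      · rw [z' _ (show -k < 0 by omega), z _ (show -k < 0 by omega)]
        simpa using Mj.zero le_rfl le_rfl

theorem sle_pin {i' i : ℤ} (h' : 0 ≤ i') (h : i' ≤ i) :
    SLe (fun k => ind (k = i')) fun k => ind (k = i) :=
  sle_nn (fun _ => ind_nonneg _) (fun _ => ind_nonneg _) (fun k hk => ind_neg (by omega))
    (fun k hk => ind_neg (by omega)) fun j k _ hkj => by
      rw [← ind_and, ← ind_and]; exact ind_mono fun c => by omega


theorem sle_self {m : Mdl V} {η : Cfg V} {f : V → ℝ} (hm : m.Ev) (hη : 0 ≤ η) (hf : ∀ x, 0 ≤ f x)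
    (x : V) : SLe (us (m.force f) η x) (us (m.force f) η x) := by
  unfold us
  by_cases c : x ∈ (m.force f).A
  · simp only [if_pos c]
    exact sle_force (fun k => (hm x c k).1) (fun k => (hm x c k).1) (fun k => (hm x c k).2)
      (fun k => (hm x c k).2) (fun j k _ _ => (mul_comm _ _).le) (hf x) le_rfl
  · simp only [if_neg c]
    exact sle_pin (hη x) le_rfl

end Crest.Agent.T145.Gk60

namespace Crest.Agent.T145


end Crest.Agent.T145
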