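import Crest.Agent.T145.GsB_85

/-!
# Row 145 (helper85): soft Gaussianity (two-constants lemma, MGF to characteristic function,
Hubbard-Stratonovich transfer, AM-GM step)
-/

set_option autoImplicit false
set_option linter.unusedSectionVars false

namespace Crest.Agent.T145.Gs

open MeasureTheory ProbabilityTheory Matrix Metric

universe u




section
variable {Ω : Type u} [MeasurableSpace Ω] {P : Measure Ω}




end




section
variable {ι : Type*} [Fintype ι] [DecidableEq ι]

/-- Hubbard-Stratonovich -/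
theorem gw_eq_cos {B : Matrix ι ι ℝ} (hB : B.PosSemidef) (y : ι → ℝ) :
    gw B y = ∫ t, Real.cos (t ⬝ᵥ y) ∂(gm B) := by
  have := integral_cos hB y 0
  simp only [add_zero, Real.cos_zero, mul_one] at this
  simp_rw [dotProduct_comm _ y]
  rw [this, gw]

theorem integral_exp_norm_le {B : Matrix ι ι ℝ} (hB : B.PosSemidef) {K : ℝ} (hK : ∀ i, B i i ≤ K)
    (c : ℝ) : ∫ t, Real.exp (c * ‖t‖) ∂(gm B) ≤
      1 + 2 * Fintype.card ι * Real.exp (c ^ 2 * K / 2) := by
  have hi : ∀ i, Integrable (fun x : ι → ℝ => Real.exp (c * x i) + Real.exp (-(c * x i))) (gm B) :=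
    fun i => (int_exp_coord B c i).add (by simpa using int_exp_coord B (-c) i)
  have hm : ∀ (b : ℝ) i, b ^ 2 = c ^ 2 →
      ∫ x, Real.exp (b * x i) ∂(gm B) ≤ Real.exp (c ^ 2 * K / 2) := fun b i hb => by
    have := mgf hB (Pi.single i b)
    simp only [single_dotProduct, mulVec_single, MulOpposite.smul_eq_mul_unop, MulOpposite.unop_op,
      Pi.smul_apply, col_apply] at this
    rw [this, Real.exp_le_exp, ← hb]
    nlinarith [hK i, sq_nonneg b]
  refine (integral_mono (int_exp_norm B c) ((integrable_const _).add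
    (integrable_finsetSum _ fun i _ => hi i)) fun x => exp_norm_le c x).trans ?_
  rw [integral_add' (integrable_const _) (integrable_finsetSum _ fun i _ => hi i),
    integral_finsetSum _ fun i _ => hi i]
  simp only [integral_const, probReal_univ, smul_eq_mul, mul_one, add_le_add_iff_left]
  refine (Finset.sum_le_card_nsmul _ _ (2 * Real.exp (c ^ 2 * K / 2)) fun i _ => ?_).trans_eq ?_
  · rw [integral_add (int_exp_coord B c i) (by simpa using int_exp_coord B (-c) i)]
    have h1 := hm c i rfl
    have h2 := hm (-c) i (by ring)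
    simp only [neg_mul] at h2
    linarith
  · rw [Finset.card_univ, nsmul_eq_mul]; ring

theorem int_bdd {α : Type*} [MeasurableSpace α] {μ : Measure α} [IsFiniteMeasure μ] {f : α → ℝ}
    (hf : Measurable f) {c : ℝ} (h : ∀ a, |f a| ≤ c) : Integrable f μ :=
  (integrable_const c).mono' hf.aestronglyMeasurable (Filter.Eventually.of_forall h)

theorem meas_dot {α : Type*} [MeasurableSpace α] {f g : α → ι → ℝ} (hf : Measurable f)
    (hg : Measurable g) : Measurable fun a => f a ⬝ᵥ g a :=
  Finset.measurable_sum _ fun i _ =>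
    ((measurable_pi_apply i).comp hf).mul ((measurable_pi_apply i).comp hg)

theorem integral_gw_cos {B C : Matrix ι ι ℝ} (hB : B.PosSemidef) (hC : C.PosSemidef) (a : ι → ℝ) :
    ∫ x, gw B (a + x) ∂(gm C) = ∫ t, Real.exp (-(t ⬝ᵥ C *ᵥ t) / 2) * Real.cos (t ⬝ᵥ a) ∂(gm B) := by
  simp_rw [gw_eq_cos hB]
  have hm : Measurable fun p : (ι → ℝ) × (ι → ℝ) => Real.cos (p.2 ⬝ᵥ (a + p.1)) :=
    Real.measurable_cos.comp (meas_dot measurable_snd (measurable_fst.const_add a))
  rw [integral_integral_swap (f := fun x t => Real.cos (t ⬝ᵥ (a + x)))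
    (int_bdd (c := 1) hm fun p => Real.abs_cos_le_one _)]
  congr 1
  funext t
  rw [← integral_cos hC]
  simp_rw [dotProduct_add, add_comm]

end

theorem abs_mul_le_one {a b : ℝ} (ha : |a| ≤ 1) (hb : |b| ≤ 1) : |a * b| ≤ 1 := by
  rw [abs_mul]; exact mul_le_one₀ ha (abs_nonneg _) hb




end Crest.Agent.T145.Gs
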