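import Crest.Agent.T145.KrC_90

/-!
# Row 145, design N: from (K0) to (K#) and to the sectors, abstract glue (helper90)
-/

set_option autoImplicit false

namespace Crest.Agent.T145.KrA

open Finset Real

variable {X Y : Type*}

/-- the normalised theta kernel -/
noncomputable def thk (κ u : ℝ) : ℝ := thf κ u / √(2 * π / κ)

theorem thk_near {κ : ℝ} (hκ : 0 < κ) (hl : exp (-(2 * π ^ 2 / κ)) ≤ 1 / 2) (u : ℝ) :
    |thk κ u - 1| ≤ 3 * exp (-(2 * π ^ 2 / κ)) := by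
  have h := thf_near hκ hl u
  set l := exp (-(2 * π ^ 2 / κ))
  have l0 : 0 < l := exp_pos _
  have h3 : l ^ 3 ≤ (1 / 2) ^ 3 := pow_le_pow_left₀ l0.le hl 3
  have c1 := mul_le_mul_of_nonneg_left (cos_le_one (2 * π * u)) l0.le
  have c2 := mul_le_mul_of_nonneg_left (neg_one_le_cos (2 * π * u)) l0.le
  rw [thk, abs_le] at *
  constructor <;> nlinarith [h.1, h.2]

/-- the conclusion (K#) -/
structure Shp (A : Act X) (B : Act Y) (μ : X × Y → ℝ) (κ : ℝ) (y : X → Y → ℝ) (p : X → ℝ) (q : Y → ℝ)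
    (η : ℝ) : Prop where
  μ0 : ∀ z, 0 ≤ μ z
  μ1 : HasSum (fun z : X × Y => tw (A.H z.1) * μ z) 1
  p0 : ∀ a, 0 ≤ p a
  ps : Summable p
  q0 : ∀ b, 0 ≤ q b
  qs : Summable q
  pT : ∀ a, p a ≠ 0 → A.T a
  qT : ∀ b, q b ≠ 0 → B.T b
  png : ∀ a, p (A.ng a) = p a
  qng : ∀ b, q (B.ng b) = q b
  sm : Summable fun z : X × Y =>
    |mub A B μ z - p z.1 * q z.2 * (thk κ (A.H z.1 - B.H z.2) * exp (y z.1 z.2))|
  cl : ∑' z : X × Y, |mub A B μ z - p z.1 * q z.2 * (thk κ (A.H z.1 - B.H z.2) * exp (y z.1 z.2))| ≤ η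

theorem summ_bx (A : Act X) (B : Act Y) {μ : X × Y → ℝ} (μ0 : ∀ z, 0 ≤ μ z)
    (μs : ∀ i a b, μ (A.s i a, B.s i b) = μ (a, b)) (μ1 : HasSum (fun z : X × Y => tw (A.H z.1) * μ z) 1)
    (M : ℝ) : Summable fun z : X × Y => A.bx M z.1 * B.bx M z.2 * μ z := by
  have b : ∀ (z : X × Y) (j : ℤ), A.bx M (A.s j z.1) ≤ exp (M ^ 2 / 2) * exp (-1 * (-A.H z.1 - j) ^ 2 / 2) :=
    fun z j => by
      by_cases h : A.bx M (A.s j z.1) = 0
      · rw [h]; positivity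
      · have h1 := (A.bx_ne h).2
        rw [A.H_s] at h1
        rw [A.bx_one (A.bx_ne h), ← exp_add]
        exact one_le_exp (by nlinarith [sq_le_sq' (abs_le.1 h1).1 (abs_le.1 h1).2])
  have s : ∀ z : X × Y, Summable fun j : ℤ => A.bx M (A.s j z.1) := fun z =>
    Summable.of_nonneg_of_le (fun _ => A.bx_nonneg _ _) (b z) ((summ_thf one_pos _).mul_left _)
  have l : exp (-(2 * π ^ 2 / 1)) ≤ 1 / 2 := by
    have : exp (-(2 * π ^ 2 / 1)) ≤ exp (-1) := exp_le_exp.2 (by nlinarith [pi_gt_three])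
    exact this.trans (by rw [exp_neg, inv_le_comm₀ (exp_pos _) (by norm_num)]; linarith [add_one_le_exp (1 : ℝ)])
  have h := (fold_diag A B (f := fun z => A.bx M z.1) μ0 (fun _ => A.bx_nonneg _ _) μs μ1
    (C := exp (M ^ 2 / 2) * (3 * √(2 * π / 1))) s fun z => by
      refine ((s z).tsum_le_tsum (b z) ((summ_thf one_pos _).mul_left _)).trans ?_
      rw [tsum_mul_left]
      refine mul_le_mul_of_nonneg_left ?_ (exp_pos _).le
      have h1 := (abs_le.1 (thk_near one_pos l (-A.H z.1))).2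
      rw [← div_le_iff₀ (sqrt_pos.2 (by positivity))]
      change thk 1 (-A.H z.1) ≤ 3
      linarith).1
  refine Summable.of_nonneg_of_le (fun z => mul_nonneg (mul_nonneg (A.bx_nonneg _ _) (B.bx_nonneg _ _))
    (μ0 _)) (fun z => ?_) h
  rw [mul_comm (μ z)]
  exact mul_le_mul_of_nonneg_right (mul_le_of_le_one_right (A.bx_nonneg _ _) (B.bx_le_one _ _)) (μ0 _)

open Classical in
/-- the hypotheses of the passage from (K0) to (K#): `w = e^{-Bq/2}`, levels up to `K + 3` -/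
structure K0 (A : Act X) (B : Act Y) (μ w : X × Y → ℝ) (κ : ℝ) (y : X → Y → ℝ) (K : ℕ)
    (Y₀ Λ L ε η₀ : ℝ) : Prop where
  μ0 : ∀ z, 0 ≤ μ z
  μs : ∀ i a b, μ (A.s i a, B.s i b) = μ (a, b)
  μ1 : HasSum (fun z : X × Y => tw (A.H z.1) * μ z) 1
  ya : ∀ i a b, y (A.s i a) b = y a b
  yb : ∀ i a b, y a (B.s i b) = y a b
  y1 : ∀ a b, A.T a → B.T b → |y a b| ≤ Y₀
  k0 : ∃ (p₁ : X → ℝ) (p₂ : Y → ℝ) (lam : ℝ), (∀ a, 0 ≤ p₁ a) ∧ (∀ b, 0 ≤ p₂ b) ∧ HasSum p₁ 1 ∧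
    HasSum p₂ 1 ∧ (∀ a, p₁ (A.ng a) = p₁ a) ∧ (∀ b, p₂ (B.ng b) = p₂ b) ∧ 0 ≤ lam ∧ lam ≤ L ∧
    Summable (fun z : X × Y => (if |A.H z.1| ≤ K + 3 then 1 else 0) *
      |μ z * w z - lam * (p₁ z.1 * p₂ z.2)|) ∧
    ∑' z : X × Y, (if |A.H z.1| ≤ K + 3 then 1 else 0) * |μ z * w z - lam * (p₁ z.1 * p₂ z.2)| ≤ ε
  quad : ∃ (Ba : X → ℝ) (Bb : Y → ℝ) (Bab : X → Y → ℝ),
    (∀ a b, w (a, b) = exp (-(Ba a + Bb b + 2 * Bab a b) / 2)) ∧ (∀ a, Ba (A.ng a) = Ba a) ∧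
    (∀ b, Bb (B.ng b) = Bb b) ∧ (∀ a, A.T a → |A.H a| ≤ K + 3 → Ba a ≤ Λ) ∧
    (∀ b, B.T b → |B.H b| ≤ K + 3 → Bb b ≤ Λ) ∧
    ∀ a b, A.T a → |A.H a| ≤ K + 3 → B.T b → |B.H b| ≤ K + 3 →
      |Bab a b - (κ * A.H a * B.H b + y a b)| ≤ ε
  bad : ∑' z : X × Y, tw (A.H z.1) * μ z *
    (if A.T z.1 ∧ B.T z.2 ∧ |A.H z.1 - B.H z.2| < K then 0 else 1) ≤ η₀

/-- the explicit error of (K#) -/
noncomputable def k0e (κ Y₀ Λ L ε : ℝ) (K : ℕ) : ℝ :=
  exp Y₀ * (149 + 4 * K) * (exp (κ * (2 * K + 6) ^ 2 / 2 + Y₀) *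
    (exp (Λ + κ * (K + 3) ^ 2 + Y₀ + 1) * (ε + 2 * ε * L)))

theorem K0.shp {A : Act X} {B : Act Y} {μ w : X × Y → ℝ} {κ : ℝ} {y : X → Y → ℝ} {K : ℕ}
    {Y₀ Λ L ε η₀ : ℝ} (h : K0 A B μ w κ y K Y₀ Λ L ε η₀) (hκ : 0 < κ)
    (hl : exp (-(2 * π ^ 2 / κ)) ≤ 1 / 2) (hε : ε ≤ 1) :
    ∃ p q, Shp A B μ κ y p q ((2 * K + 3) * k0e κ Y₀ Λ L ε K + η₀ + exp Y₀ *
      (3 * √(4 * π / κ) * exp (-κ * K ^ 2 / 4)) * (exp (2 * κ + Y₀) * (1 + k0e κ Y₀ Λ L ε K))) := by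
  classical
  obtain ⟨p₁, p₂, lam, p10, p20, s1, s2, e1, e2, l0, lL, k1, k2⟩ := h.k0
  obtain ⟨Ba, Bb, Bab, hw, a1, b1, a2, b2, ab⟩ := h.quad
  set M : ℝ := K + 3 with hM
  set p : X → ℝ := fun a => lam * p₁ a * exp (Ba a / 2 + κ * A.H a ^ 2 / 2) with hp
  set q : Y → ℝ := fun b => p₂ b * exp (Bb b / 2 + κ * B.H b ^ 2 / 2) with hq
  have ε0 : 0 ≤ ε := (tsum_nonneg fun z => mul_nonneg (by split_ifs <;> norm_num) (abs_nonneg _)).trans k2
  have p0 : ∀ a, 0 ≤ p a := fun a => mul_nonneg (mul_nonneg l0 (p10 a)) (exp_pos _).le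
  have q0 : ∀ b, 0 ≤ q b := fun b => mul_nonneg (p20 b) (exp_pos _).le
  have pe : ∀ a, p (A.ng a) = p a := fun a => by simp only [hp, e1, a1, A.H_ng, neg_sq]
  have qe : ∀ b, q (B.ng b) = q b := fun b => by simp only [hq, e2, b1, B.H_ng, neg_sq]
  have sq' : ∀ {u : ℝ}, |u| ≤ M → κ * u ^ 2 ≤ κ * M ^ 2 := fun hu =>
    mul_le_mul_of_nonneg_left (sq_le_sq' (abs_le.1 hu).1 (abs_le.1 hu).2) hκ.le
  have sp : Summable fun a => A.bx M a * p a := by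
    refine (summ_bdd (fun a => mul_nonneg l0 (p10 a)) (s1.summable.mul_left lam)
      (u := fun a => A.bx M a * exp (Ba a / 2 + κ * A.H a ^ 2 / 2))
      (U := exp (Λ / 2 + κ * M ^ 2 / 2)) fun a _ => ?_).congr fun a => by simp only [hp]; ring
    by_cases h : A.bx M a = 0
    · rw [h]; simp; positivity
    · rw [A.bx_one (A.bx_ne h), one_mul, abs_of_pos (by positivity)]
      exact exp_le_exp.2 (by linarith [a2 a (A.bx_ne h).1 (A.bx_ne h).2, sq' (A.bx_ne h).2])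
  have sq : Summable fun b => B.bx M b * q b := by
    refine (summ_bdd p20 s2.summable (u := fun b => B.bx M b * exp (Bb b / 2 + κ * B.H b ^ 2 / 2))
      (U := exp (Λ / 2 + κ * M ^ 2 / 2)) fun b _ => ?_).congr fun b => by simp only [hq]; ring
    by_cases h : B.bx M b = 0
    · rw [h]; simp; positivity
    · rw [B.bx_one (B.bx_ne h), one_mul, abs_of_pos (by positivity)]
      exact exp_le_exp.2 (by linarith [b2 b (B.bx_ne h).1 (B.bx_ne h).2, sq' (B.bx_ne h).2])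
  have s12 := summ_tens s1.summable s2.summable
  have cl : ∑' z : X × Y, A.bx M z.1 * B.bx M z.2 *
      |μ z - p z.1 * q z.2 * exp (-κ * (A.H z.1 - B.H z.2) ^ 2 / 2 + y z.1 z.2)| ≤
      exp (Λ + κ * M ^ 2 + Y₀ + 1) * (ε + 2 * ε * L) := by
    have s := (k1.add (s12.mul_left (2 * ε * lam))).mul_left (exp (Λ + κ * M ^ 2 + Y₀ + 1))
    have b : ∀ z : X × Y, A.bx M z.1 * B.bx M z.2 *
        |μ z - p z.1 * q z.2 * exp (-κ * (A.H z.1 - B.H z.2) ^ 2 / 2 + y z.1 z.2)| ≤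
        exp (Λ + κ * M ^ 2 + Y₀ + 1) * ((if |A.H z.1| ≤ M then 1 else 0) *
          |μ z * w z - lam * (p₁ z.1 * p₂ z.2)| + 2 * ε * lam * (p₁ z.1 * p₂ z.2)) := fun z => by
      have rr := mul_nonneg l0 (mul_nonneg (p10 z.1) (p20 z.2))
      by_cases h' : A.bx M z.1 * B.bx M z.2 = 0
      · rw [h', zero_mul]
        refine mul_nonneg (exp_pos _).le (add_nonneg (mul_nonneg ?_ (abs_nonneg _)) (by nlinarith))
        split_ifs <;> norm_num
      · have ha := A.bx_ne (left_ne_zero_of_mul h')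
        have hb := B.bx_ne (right_ne_zero_of_mul h')
        rw [A.bx_one ha, B.bx_one hb, one_mul, one_mul, if_pos ha.2, one_mul]
        have d := ab _ _ ha.1 ha.2 hb.1 hb.2
        have d1 := (abs_le.1 d).2
        rw [abs_sub_comm] at d
        have d2 := abs_exp_sub_one_le (d.trans hε)
        have e : μ z - p z.1 * q z.2 * exp (-κ * (A.H z.1 - B.H z.2) ^ 2 / 2 + y z.1 z.2) =
            exp ((Ba z.1 + Bb z.2 + 2 * Bab z.1 z.2) / 2) * ((μ z * w z - lam * (p₁ z.1 * p₂ z.2)) -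
              lam * (p₁ z.1 * p₂ z.2) * (exp (κ * A.H z.1 * B.H z.2 + y z.1 z.2 - Bab z.1 z.2) - 1)) := by
          have t1 : exp (Ba z.1 / 2 + κ * A.H z.1 ^ 2 / 2) * exp (Bb z.2 / 2 + κ * B.H z.2 ^ 2 / 2) *
              exp (-κ * (A.H z.1 - B.H z.2) ^ 2 / 2 + y z.1 z.2) =
              exp ((Ba z.1 + Bb z.2 + 2 * Bab z.1 z.2) / 2) *
                exp (κ * A.H z.1 * B.H z.2 + y z.1 z.2 - Bab z.1 z.2) := by
            simp only [← exp_add]; congr 1; ring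
          have t2 : exp ((Ba z.1 + Bb z.2 + 2 * Bab z.1 z.2) / 2) * w z = 1 := by
            rw [show w z = w (z.1, z.2) from rfl, hw, ← exp_add, ← exp_zero]; congr 1; ring
          simp only [hp, hq]
          linear_combination (-(lam * (p₁ z.1 * p₂ z.2))) * t1 - μ z * t2
        rw [e, abs_mul, abs_of_pos (exp_pos _)]
        refine mul_le_mul (exp_le_exp.2 ?_) ((abs_sub _ _).trans (add_le_add_right ?_ _)) (abs_nonneg _)
          (exp_pos _).le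
        · have := a2 _ ha.1 ha.2
          have := b2 _ hb.1 hb.2
          have := (abs_le.1 (h.y1 _ _ ha.1 hb.1)).2
          nlinarith [sq' ha.2, sq' hb.2, mul_nonneg hκ.le (sq_nonneg (A.H z.1 - B.H z.2))]
        · rw [abs_mul, abs_of_nonneg rr]
          nlinarith [mul_le_mul_of_nonneg_left (d2.trans (mul_le_mul_of_nonneg_left d zero_le_two)) rr]
    refine ((Summable.of_nonneg_of_le (fun z => mul_nonneg (mul_nonneg (A.bx_nonneg _ _) (B.bx_nonneg _ _))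
      (abs_nonneg _)) b s).tsum_le_tsum b s).trans ?_
    rw [tsum_mul_left, k1.tsum_add (s12.mul_left _), tsum_mul_left, tsum_prod_mul s1.summable s2.summable,
      s1.tsum_eq, s2.tsum_eq]
    exact mul_le_mul_of_nonneg_left (by nlinarith) (exp_pos _).le
  have key := (ksharpY A B le_rfl hκ h.μ0 h.μs h.μ1 p0 q0 pe qe h.ya h.yb h.y1 sp sq
    (summ_bx A B h.μ0 h.μs h.μ1 M) cl h.bad fun u hu => thf_tail hκ hl K hu).2
  have s0 : 0 < √(2 * π / κ) := sqrt_pos.2 (by positivity)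
  have M3 : (3 : ℝ) ≤ M := by rw [hM]; linarith [Nat.cast_nonneg (α := ℝ) K]
  have sA := A.summ_pib p0 M3 sp
  have sB := B.summ_pib q0 M3 sq
  refine ⟨fun a => √(2 * π / κ) * A.pib p a, B.pib q, h.μ0, h.μ1,
    fun a => mul_nonneg s0.le (A.pib_nonneg p0 a), sA.mul_left _, B.pib_nonneg q0, sB,
    fun a ha => (A.pib_ne (right_ne_zero_of_mul ha)).1, fun b hb => (B.pib_ne hb).1,
    fun a => by rw [A.pib_ng pe], B.pib_ng qe, ?_, le_of_eq_of_le (tsum_congr fun z => ?_) key⟩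
  · refine ((hasSum_mub_one A B h.μ0 h.μ1).summable.sub (summ_bdd
      («π» := fun z : X × Y => √(2 * π / κ) * A.pib p z.1 * B.pib q z.2) (U := 3 * exp Y₀)
      (fun z => mul_nonneg (mul_nonneg s0.le (A.pib_nonneg p0 _)) (B.pib_nonneg q0 _))
      (summ_tens (sA.mul_left _) sB) fun z hz => ?_)).abs
    have := abs_le.1 (thk_near hκ hl (A.H z.1 - B.H z.2))
    rw [abs_mul, abs_of_pos (exp_pos _)]
    exact mul_le_mul (abs_le.2 ⟨by linarith, by linarith⟩) (exp_le_exp.2 (abs_le.1 (h.y1 _ _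
      (A.pib_ne (right_ne_zero_of_mul (left_ne_zero_of_mul hz))).1
      (B.pib_ne (right_ne_zero_of_mul hz)).1)).2) (exp_pos _).le (by norm_num)
  · congr 2; rw [thk]; field_simp


namespace Shp
variable {A : Act X} {B : Act Y} {μ : X × Y → ℝ} {κ η : ℝ} {y : X → Y → ℝ} {p : X → ℝ} {q : Y → ℝ}

/-- small cross term: the sector structure -/
theorem sec (h : Shp A B μ κ y p q η) {β₁ : ℝ} (hκ : 0 < κ) (yng : ∀ a b, y (A.ng a) b = -y a b)
    (β0 : 0 ≤ β₁) (y1 : ∀ a b, A.T a → B.T b → |y a b| ≤ β₁) (hη : η ≤ 1 / 2) (hβ : β₁ ≤ 1 / 20)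
    (hl : exp (-(2 * π ^ 2 / κ)) ≤ 1 / 20) :
    Sec (mub A B μ) p q (fun a b => thk κ (A.H a - B.H b) * exp (y a b)) A.H B.H y A.ng
      (exp (-(2 * π ^ 2 / κ))) η (3 * β₁ + 3 * exp (-(2 * π ^ 2 / κ)))
      (β₁ ^ 3 + 4 * exp (-(2 * π ^ 2 / κ)) * β₁ + 12 * exp (-(2 * π ^ 2 / κ)) ^ 4) β₁ := by
  set l := exp (-(2 * π ^ 2 / κ)) with hl'
  have l0 : 0 < l := exp_pos _
  have ex : ∀ a b, p a ≠ 0 → q b ≠ 0 →
      |thk κ (A.H a - B.H b) * exp (y a b) - k2 l (A.H a) (B.H b) (y a b)| ≤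
        β₁ ^ 3 + 4 * l * β₁ + 12 * l ^ 4 := fun a b ha hb =>
    (k2_near l0.le (y1 a b (h.pT a ha) (h.qT b hb)) (by linarith)
      (thf_near hκ (hl.trans (by norm_num)) _)).trans (le_of_eq (by ring))
  refine ⟨⟨mub_nonneg A B h.μ0, hasSum_mub_one A B h.μ0 h.μ1, h.p0, h.ps, h.q0, h.qs, h.cl,
    fun a b ha hb => ?_, hη, by positivity, by linarith⟩, l0.le, by positivity, β0, ex,
    fun a b ha hb => y1 a b (h.pT a ha) (h.qT b hb), h.png, A.H_ng, yng⟩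
  have h1 := ex a b ha hb
  have h2 := k2_sub_one (H := A.H a) (t := B.H b) l0.le (y1 a b (h.pT a ha) (h.qT b hb)) (by linarith)
  have h3 : β₁ ^ 3 ≤ β₁ / 2 := by nlinarith [mul_nonneg β0 β0]
  have h4 : l ^ 4 ≤ l / 12 := by
    have : l ^ 3 ≤ (1 / 20) ^ 3 := pow_le_pow_left₀ l0.le hl 3
    nlinarith
  have h5 : 4 * l * β₁ ≤ β₁ / 2 := by nlinarith
  rw [abs_le] at *
  constructor <;> linarith [h1.1, h1.2, h2.1, h2.2]


end Shp

end Crest.Agent.T145.KrA
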