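import Crest.Agent.T145.KrWL_56
import Crest.Agent.T145.PotC_17
import Crest.Agent.T145.BrB_73
import Crest.Agent.T145.PotHa_91
import Crest.Agent.T145.PotPk_15
import Crest.Agent.T145.PotLg_22
import Crest.Agent.T145.PotD_17

-- ▼ part T145/KrF_85
section

/-!
# Row 145: flows of linear functionals, Poincaré inequality in square annuli, cut-offs (helper85)
-/

set_option autoImplicit false

namespace Crest.Agent.T145.Pot.K85

open Finset

section fn
variable {V : Type*} {E E' : Finset (V × V)} {ℓ ℓ' : (V → ℝ) → ℝ} {n n' : ℝ}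

/-- `ℓ u` is the pairing of the gradient of `u` with a flow on `E` of energy at most `n` -/
def Fn (E : Finset (V × V)) (ℓ : (V → ℝ) → ℝ) (n : ℝ) : Prop :=
  ∃ φ : V × V → ℝ, (∀ u, ℓ u = ∑ e ∈ E, φ e * (u e.2 - u e.1)) ∧ ∑ e ∈ E, φ e ^ 2 ≤ n

theorem Fn.nonneg (h : Fn E ℓ n) : 0 ≤ n :=
  let ⟨_, _, h⟩ := h; (sum_nonneg fun _ _ => sq_nonneg _).trans h

theorem Fn.mono (h : Fn E ℓ n) (hn : n ≤ n') : Fn E ℓ n' := h.imp fun _ h => ⟨h.1, h.2.trans hn⟩

theorem Fn.congr (h : Fn E ℓ n) (e : ∀ u, ℓ' u = ℓ u) : Fn E ℓ' n :=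
  h.imp fun _ h => ⟨fun u => (e u).trans (h.1 u), h.2⟩

theorem Fn.subset (h : Fn E ℓ n) (hE : E ⊆ E') : Fn E' ℓ n := by
  classical
  obtain ⟨φ, h1, h2⟩ := h
  refine ⟨fun e => if e ∈ E then φ e else 0, fun u => ?_, ?_⟩
  · simp only [ite_mul, zero_mul, sum_ite_mem, inter_eq_right.2 hE, h1 u]
  · simpa only [ite_pow, ne_eq, OfNat.ofNat_ne_zero, not_false_eq_true, zero_pow, sum_ite_mem,
      inter_eq_right.2 hE] using h2

theorem Fn.smul (h : Fn E ℓ n) (c : ℝ) : Fn E (fun u => c * ℓ u) (c ^ 2 * n) := by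
  obtain ⟨φ, h1, h2⟩ := h
  refine ⟨fun e => c * φ e, fun u => by simp only [h1 u, mul_sum, mul_assoc], ?_⟩
  simp only [mul_pow, ← mul_sum]
  exact mul_le_mul_of_nonneg_left h2 (sq_nonneg c)

theorem Fn.add (h : Fn E ℓ n) (h' : Fn E ℓ' n') : Fn E (fun u => ℓ u + ℓ' u) (2 * (n + n')) := by
  obtain ⟨φ, h1, h2⟩ := h
  obtain ⟨ψ, h3, h4⟩ := h'
  refine ⟨fun e => φ e + ψ e, fun u => by simp only [h1 u, h3 u, add_mul, sum_add_distrib], ?_⟩
  calc _ ≤ ∑ e ∈ E, 2 * (φ e ^ 2 + ψ e ^ 2) :=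
        sum_le_sum fun e _ => by nlinarith [sq_nonneg (φ e - ψ e)]
    _ ≤ _ := by rw [← mul_sum, sum_add_distrib]; linarith

theorem Fn.sub (h : Fn E ℓ n) (h' : Fn E ℓ' n') : Fn E (fun u => ℓ u - ℓ' u) (2 * (n + n')) := by
  have := h.add (h'.smul (-1))
  simpa [sub_eq_add_neg] using this

theorem Fn.sq_le (h : Fn E ℓ n) (u : V → ℝ) : ℓ u ^ 2 ≤ n * edF E u u := by
  obtain ⟨φ, h1, h2⟩ := h
  rw [h1, edF_self]
  exact (sum_mul_sq_le_sq_mul_sq _ _ _).trans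
    (mul_le_mul_of_nonneg_right h2 (sum_nonneg fun _ _ => sq_nonneg _))

theorem Fn.shift (h : Fn E ℓ n) (u : V → ℝ) (c : ℝ) : ℓ (fun x => u x + c) = ℓ u := by
  obtain ⟨φ, h1, -⟩ := h
  simp only [h1, add_sub_add_right_eq_sub]

theorem Fn.neg (h : Fn E ℓ n) (u : V → ℝ) : ℓ (fun x => -u x) = -ℓ u := by
  obtain ⟨φ, h1, -⟩ := h
  simp only [h1, ← sum_neg_distrib]
  exact sum_congr rfl fun _ _ => by ring

/-- Riesz: a linear functional bounded by the energy has a flow -/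
theorem fn_of_dual (hn : 0 ≤ n) (hadd : ∀ u v, ℓ (u + v) = ℓ u + ℓ v)
    (hsmul : ∀ (c : ℝ) u, ℓ (c • u) = c * ℓ u) (h : ∀ u, ℓ u ^ 2 ≤ n * edF E u u) : Fn E ℓ n := by
  classical
  let L : (V → ℝ) →ₗ[ℝ] ℝ := ⟨⟨ℓ, hadd⟩, hsmul⟩
  let T : (V → ℝ) →ₗ[ℝ] EuclideanSpace ℝ E :=
    (WithLp.linearEquiv 2 ℝ (E → ℝ)).symm.toLinearMap ∘ₗ LinearMap.pi fun e : E => dr e.1
  have hT : ∀ u (e : E), T u e = u e.1.2 - u e.1.1 := fun u e => rfl
  have hN : ∀ u, ‖T u‖ ^ 2 = edF E u u := fun u => by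
    rw [EuclideanSpace.real_norm_sq_eq, edF_self, ← sum_coe_sort E]; rfl
  have hk : LinearMap.ker T ≤ LinearMap.ker L := fun u hu => by
    have h1 := h u
    rw [← hN, LinearMap.mem_ker.1 hu] at h1
    exact (pow_eq_zero_iff two_ne_zero).1 (le_antisymm (a := ℓ u ^ 2) (by simpa using h1) (sq_nonneg _))
  let L' : LinearMap.range T →ₗ[ℝ] ℝ :=
    (LinearMap.ker T).liftQ L hk ∘ₗ T.quotKerEquivRange.symm.toLinearMap
  have hL' : ∀ u, L' ⟨T u, LinearMap.mem_range_self T u⟩ = ℓ u := fun u => by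
    simp only [L', LinearMap.comp_apply, LinearEquiv.coe_coe,
      LinearMap.quotKerEquivRange_symm_apply_image]
    rfl
  obtain ⟨⟨_, u₀, rfl⟩, hw⟩ := (InnerProductSpace.toDual ℝ (LinearMap.range T)).surjective
    (LinearMap.toContinuousLinearMap L')
  have h1 : ∀ u, ℓ u = inner ℝ (T u₀) (T u) := fun u => by
    have := congrArg (fun f => f ⟨T u, LinearMap.mem_range_self T u⟩) hw
    simp only [InnerProductSpace.toDual_apply_apply, LinearMap.coe_toContinuousLinearMap', hL'] at this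
    exact this.symm
  refine ⟨fun e => u₀ e.2 - u₀ e.1, fun u => ?_, ?_⟩
  · rw [h1, PiLp.inner_apply, ← sum_coe_sort E]
    exact sum_congr rfl fun e _ => by simp [hT, mul_comm]
  · rw [← edF_self]
    have h2 := h u₀
    rw [h1, real_inner_self_eq_norm_sq, hN] at h2
    have h3 := (sy_edF E).nonneg u₀
    by_contra h4
    nlinarith [not_le.1 h4]

end fn

theorem Fn.f2 {V : Type} [DecidableEq V] {E : Finset (V × V)} {ℓ : (V → ℝ) → ℝ} {n : ℝ}
    (h : Fn E ℓ n) : ∃ f, F2 E f n ∧ ∀ s : Cfg V, ℓ (fun x => s x) = pr f s := by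
  obtain ⟨φ, h1, h2⟩ := h
  exact ⟨dv E φ, ⟨φ, rfl, h2⟩, fun s => by simp only [h1, pr_dv, dE_cast]⟩

/-! ## Poincaré inequality in rectangles and annuli -/

theorem poin_rc (a : Pt) (n₁ n₂ : ℕ) (u : Pt → ℝ) :
    ∑ x ∈ rc a n₁ n₂, (u x - av (rc a n₁ n₂) u) ^ 2 ≤
      ((n₁ : ℝ) ^ 2 + (n₂ : ℝ) ^ 2) * eN nL (rc a n₁ n₂) u u := by
  set B := rc a n₁ n₂
  set c := av B u with hc
  have h0 : ∑ x ∈ B, (u x - c) = 0 := by
    rcases B.eq_empty_or_nonempty with h | h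
    · simp [h]
    · have : (0 : ℝ) < B.card := by exact_mod_cast h.card_pos
      rw [sum_sub_distrib, sum_const, nsmul_eq_mul, hc, av]; field_simp; ring
  have h1 := (nL_ok.r1_f2 (f := on B fun x => u x - c) (sup_on _ _)
    ((sum_congr rfl fun x hx => on_of_mem hx).trans h0)).ip_sq_le (Lat.edI_ends _) u
  have h2 : ∑ x ∈ B, on B (fun x => u x - c) x ^ 2 = ∑ x ∈ B, (u x - c) ^ 2 :=
    sum_congr rfl fun x hx => by rw [on_of_mem hx]
  have h3 : T145.ip B (on B fun x => u x - c) u = ∑ x ∈ B, (u x - c) ^ 2 := by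
    rw [T145.ip, ← sub_zero (∑ x ∈ B, _), ← zero_mul c, ← h0, sum_mul, ← sum_sub_distrib]
    exact sum_congr rfl fun x hx => by rw [on_of_mem hx]; ring
  rw [h2, h3, ← edF_self] at h1
  have h4 : 0 ≤ ∑ x ∈ B, (u x - c) ^ 2 := sum_nonneg fun _ _ => sq_nonneg _
  have h5 : 0 ≤ ((n₁ : ℝ) ^ 2 + (n₂ : ℝ) ^ 2) * eN nL B u u :=
    mul_nonneg (by positivity) (Po44.eN_nonneg _ _ _)
  by_contra h6
  rw [eN] at h5 h6
  nlinarith [not_le.1 h6]

theorem chain {X Y Q : Finset Pt} (hX : Q ⊆ X) (hY : Q ⊆ Y) {u : Pt → ℝ} {c c' P : ℝ}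
    (h : ∑ x ∈ X, (u x - c) ^ 2 ≤ P) (h' : ∑ x ∈ Y, (u x - c') ^ 2 ≤ P) :
    Q.card * (c - c') ^ 2 ≤ 4 * P := by
  have h1 := sum_le_sum_of_subset_of_nonneg hX (f := fun x => (u x - c) ^ 2) fun _ _ _ => sq_nonneg _
  have h2 := sum_le_sum_of_subset_of_nonneg hY (f := fun x => (u x - c') ^ 2) fun _ _ _ => sq_nonneg _
  calc _ = ∑ _x ∈ Q, (c - c') ^ 2 := by rw [sum_const, nsmul_eq_mul]
    _ ≤ ∑ x ∈ Q, 2 * ((u x - c) ^ 2 + (u x - c') ^ 2) :=
        sum_le_sum fun x _ => by nlinarith [sq_nonneg (2 * u x - c - c')]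
    _ ≤ _ := by rw [← mul_sum, sum_add_distrib]; linarith

theorem recentre {X : Finset Pt} {u : Pt → ℝ} {c P : ℝ} (h : ∑ x ∈ X, (u x - c) ^ 2 ≤ P) (c' : ℝ) :
    ∑ x ∈ X, (u x - c') ^ 2 ≤ 2 * P + 2 * (X.card * (c - c') ^ 2) := by
  calc _ ≤ ∑ x ∈ X, 2 * ((u x - c) ^ 2 + (c - c') ^ 2) :=
        sum_le_sum fun x _ => by nlinarith [sq_nonneg (u x - 2 * c + c')]
    _ ≤ _ := by rw [← mul_sum, sum_add_distrib, sum_const, nsmul_eq_mul]; linarith

/-- Poincaré inequality in a square annulus -/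
theorem poin_an (z : Pt) {a b : ℕ} (hab : a < b) {κ : ℝ} (hκ : 2 * b + 1 ≤ κ * ((b : ℝ) - a))
    (u : Pt → ℝ) : ∃ c, ∑ x ∈ bl z b \ bl z a, (u x - c) ^ 2 ≤
      112 * κ * (2 * b + 1 : ℝ) ^ 2 * eN nL (bl z b \ bl z a) u u := by
  obtain ⟨w, rfl⟩ := Nat.exists_eq_add_of_le hab.le
  have hw : 0 < w := by omega
  set n := 2 * (a + w) + 1 with hn
  set S := bl z (a + w) \ bl z a with hS
  set T := rc (z.1 - (a + w : ℕ), z.2 + a + 1) n w with hT
  set B := rc (z.1 - (a + w : ℕ), z.2 - (a + w : ℕ)) n w with hB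
  set L := rc (z.1 - (a + w : ℕ), z.2 - (a + w : ℕ)) w n with hL
  set R := rc (z.1 + a + 1, z.2 - (a + w : ℕ)) w n with hR
  have hE := Po44.eN_nonneg nL S u
  have hw' : (1 : ℝ) ≤ w := by exact_mod_cast hw
  have hn' : (n : ℝ) = 2 * (a + w : ℕ) + 1 := by rw [hn]; push_cast; ring
  have hwn : (w : ℝ) ≤ n := by exact_mod_cast (by omega : w ≤ n)
  rw [← hn'] at hκ ⊢
  replace hκ : (n : ℝ) ≤ κ * w := by simpa using hκ
  set P := 2 * (n : ℝ) ^ 2 * eN nL S u u with hP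
  have hP0 : 0 ≤ P := by positivity
  have key : ∀ (p : Pt) (n₁ n₂ : ℕ), (n₁ : ℝ) ≤ n → (n₂ : ℝ) ≤ n → rc p n₁ n₂ ⊆ S →
      ∑ x ∈ rc p n₁ n₂, (u x - av (rc p n₁ n₂) u) ^ 2 ≤ P := fun p n₁ n₂ h1 h2 h3 =>
    (poin_rc p n₁ n₂ u).trans (mul_le_mul (by
      have := pow_le_pow_left₀ n₁.cast_nonneg h1 2
      have := pow_le_pow_left₀ n₂.cast_nonneg h2 2
      linarith) (eN_mono h3 u) (Po44.eN_nonneg _ _ _) (by positivity))
  have kT := key _ _ _ le_rfl hwn (show T ⊆ S from fun x hx => by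
    rw [hT, mem_rc] at hx; rw [hS, mem_sdiff, mem_bl, mem_bl]; push_cast at *; omega)
  have kB := key _ _ _ le_rfl hwn (show B ⊆ S from fun x hx => by
    rw [hB, mem_rc] at hx; rw [hS, mem_sdiff, mem_bl, mem_bl]; push_cast at *; omega)
  have kL := key _ _ _ hwn le_rfl (show L ⊆ S from fun x hx => by
    rw [hL, mem_rc] at hx; rw [hS, mem_sdiff, mem_bl, mem_bl]; push_cast at *; omega)
  have kR := key _ _ _ hwn le_rfl (show R ⊆ S from fun x hx => by
    rw [hR, mem_rc] at hx; rw [hS, mem_sdiff, mem_bl, mem_bl]; push_cast at *; omega)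
  rw [← hT] at kT; rw [← hB] at kB; rw [← hL] at kL; rw [← hR] at kR
  have c1 := chain (X := T) (Y := L) (Q := rc (z.1 - (a + w : ℕ), z.2 + a + 1) w w) (fun x hx => by
    rw [hT, mem_rc] at *; push_cast at *; omega) (fun x hx => by
    rw [hL, mem_rc] at *; push_cast at *; omega) kT kL
  have c2 := chain (X := B) (Y := L) (Q := rc (z.1 - (a + w : ℕ), z.2 - (a + w : ℕ)) w w)
    (fun x hx => by rw [hB, mem_rc] at *; push_cast at *; omega)
    (fun x hx => by rw [hL, mem_rc] at *; push_cast at *; omega) kB kL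
  have c3 := chain (X := R) (Y := T) (Q := rc (z.1 + a + 1, z.2 + a + 1) w w) (fun x hx => by
    rw [hR, mem_rc] at *; push_cast at *; omega) (fun x hx => by
    rw [hT, mem_rc] at *; push_cast at *; omega) kR kT
  rw [card_rc] at c1 c2 c3
  push_cast at c1 c2 c3
  have r1 := recentre kT (av L u)
  have r2 := recentre kB (av L u)
  have r3 := recentre kR (av L u)
  rw [show (T.card : ℝ) = n * w by rw [hT, card_rc]; push_cast; ring] at r1
  rw [show (B.card : ℝ) = n * w by rw [hB, card_rc]; push_cast; ring] at r2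
  rw [show (R.card : ℝ) = n * w by rw [hR, card_rc]; push_cast; ring] at r3
  have hκ1 : 1 ≤ κ := by nlinarith
  have q : ∀ {t K : ℝ}, (w : ℝ) * w * t ^ 2 ≤ K * P → (n : ℝ) * w * t ^ 2 ≤ κ * K * P := fun {t K} h =>
    calc _ ≤ κ * w * w * t ^ 2 := by gcongr
      _ = κ * (w * w * t ^ 2) := by ring
      _ ≤ κ * (K * P) := by gcongr
      _ = _ := by ring
  have c4 : (w : ℝ) * w * (av R u - av L u) ^ 2 ≤ 16 * P := by
    have : (av R u - av L u) ^ 2 ≤ 2 * (av R u - av T u) ^ 2 + 2 * (av T u - av L u) ^ 2 := by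
      nlinarith [sq_nonneg (av R u - 2 * av T u + av L u)]
    have := mul_le_mul_of_nonneg_left this (show (0 : ℝ) ≤ w * w by positivity)
    linarith
  have hU : S ⊆ T ∪ B ∪ L ∪ R := fun x hx => by
    rw [hS, mem_sdiff, mem_bl, mem_bl] at hx
    simp only [mem_union, hT, hB, hL, hR, mem_rc]; push_cast at *; omega
  have un : ∀ X Y : Finset Pt, ∑ x ∈ X ∪ Y, (u x - av L u) ^ 2 ≤
      ∑ x ∈ X, (u x - av L u) ^ 2 + ∑ x ∈ Y, (u x - av L u) ^ 2 := fun X Y => by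
    rw [← sum_union_inter]; exact le_add_of_nonneg_right (sum_nonneg fun _ _ => sq_nonneg _)
  refine ⟨av L u, (sum_le_sum_of_subset_of_nonneg hU fun _ _ _ => sq_nonneg _).trans ?_⟩
  have := un (T ∪ B ∪ L) R
  have := un (T ∪ B) L
  have := un T B
  have := q c1
  have := q c2
  have := q c4
  have : P ≤ κ * P := le_mul_of_one_le_left hP0 hκ1
  calc _ ≤ 56 * (κ * P) := by linarith
    _ = _ := by rw [hP]; ring

end Crest.Agent.T145.Pot.K85
end

-- ▼ part T145/KrK_85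
section

/-!
# Row 145: K3 of docs/T145_c90.md, inner half: cut-offs, the bilinear form `Yb`, the kernel `kk` (helper85)
-/

set_option autoImplicit false

namespace Crest.Agent.T145.Pot.K85

open Finset H59 Kw56

/-! ## cut-offs -/

theorem rmp_mem (z : Pt) (a b : ℝ) (x : Pt) : 0 ≤ rmp z a b x ∧ rmp z a b x ≤ 1 :=
  ⟨le_max_left _ _, max_le zero_le_one (min_le_left _ _)⟩

theorem mem_an {z x : Pt} {p q : ℕ} : x ∈ an z p q ↔ (p : ℤ) < ds z x ∧ ds z x ≤ q := by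
  rw [an, mem_sdiff, mem_bl_ds, mem_bl_ds, not_le, and_comm]

theorem edge_ds (z : Pt) {e : Pt × Pt} (he : e.2 - e.1 ∈ nL.Jp) :
    e.2 ∈ bl e.1 1 ∧ |ds z e.2 - ds z e.1| ≤ 1 := by
  have h := Lat.edge_near he
  rw [nL_rg] at h
  exact ⟨h, by simpa using ds_lip z h⟩

theorem cut_gen {ed : Finset (Pt × Pt)} (hed : ∀ e ∈ ed, e.2 - e.1 ∈ nL.Jp) {S : Finset Pt} {z : Pt}
    {a b : ℕ} (hab : a < b) {κ L : ℝ} (hκ : 2 * b + 1 ≤ κ * ((b : ℝ) - a)) (hS : an z a b ⊆ S)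
    {ζ : Pt → ℝ} (h1 : ∀ x, |ζ x| ≤ 1) (h2 : ∀ e ∈ ed, ζ e.1 ≠ 0 → e.1 ∈ S ∧ e.2 ∈ S)
    (h3 : ∀ e ∈ ed, ζ e.2 ≠ ζ e.1 → e.2 ∈ an z a b ∧ |ζ e.2 - ζ e.1| ≤ L) (u : Pt → ℝ) :
    ∃ c, edF ed (fun x => ζ x * (u x - c)) (fun x => ζ x * (u x - c)) ≤
      (2 + 448 * κ * ((2 * b + 1) * L) ^ 2) * eN nL S u u := by
  obtain ⟨c, hc⟩ := poin_an z hab hκ u
  refine ⟨c, (edF_cut_le hed h1 h2 h3 fun x => u x - c).trans ?_⟩
  have hκ0 : 0 ≤ κ := by
    have : (a : ℝ) < b := by exact_mod_cast hab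
    by_contra h
    nlinarith [not_le.1 h, b.cast_nonneg (α := ℝ)]
  have h4 := hc.trans (mul_le_mul_of_nonneg_left (eN_mono hS u) (by positivity))
  have h5 := mul_le_mul_of_nonneg_left h4 (sq_nonneg L)
  rw [eN, edF_sub_const', ← eN, nL_Jp, card_pair (by decide), an]
  push_cast
  nlinarith


/-- localisation near the boundary of the inner box -/
theorem ring (z : Pt) {r : ℕ} (hr : 4 ≤ r) (D : Finset Pt) (u : Pt → ℝ) : ∃ c, ∃ v : Pt → ℝ,
    (∀ x, ds z x = r → v x = u x - c) ∧ Sup (bl z (2 * r)) v ∧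
      eD nL D v v ≤ 10 ^ 6 * eN nL (an z (r / 2) (2 * r)) u u := by
  have p4 : (4 : ℝ) ≤ r := by exact_mod_cast hr
  have a0 : 2 * (r / 2) ≤ r := by omega
  generalize r / 2 = q at *
  have a1 : 2 * (q : ℝ) ≤ r := by exact_mod_cast a0
  have b1 : (q : ℝ) + 1 < r := by linarith
  have b2 : (r : ℝ) < 2 * r - 1 := by linarith
  have hz : ∀ x, rmp z r (2 * r - 1) x - rmp z (q + 1) r x ≠ 0 →
      (q : ℤ) + 1 < ds z x ∧ ds z x < 2 * r - 1 := fun x hne => by
    constructor <;> by_contra h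
    · have h' : (ds z x : ℝ) ≤ q + 1 := by exact_mod_cast not_lt.1 h
      exact hne (by rw [rmp_one b1 h', rmp_one b2 (by linarith), sub_self])
    · have h' : (2 * r - 1 : ℝ) ≤ ds z x := by exact_mod_cast not_lt.1 h
      exact hne (by rw [rmp_zero b1 (by linarith), rmp_zero b2 h', sub_self])
  obtain ⟨c, hc⟩ := cut_gen (ed := nL.edT D) (fun e he => (Lat.mem_edT.1 he).1)
    (S := an z q (2 * r)) (z := z) (a := q) (b := 2 * r) (by omega) (κ := 3) (L := 6 / r)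
    (by push_cast; linarith) Subset.rfl
    (ζ := fun x => rmp z r (2 * r - 1) x - rmp z (q + 1) r x)
    (fun x => abs_le.2 ⟨by
      linarith [(rmp_mem z (q + 1) r x).2, (rmp_mem z r (2 * r - 1) x).1], by
      linarith [(rmp_mem z (q + 1) r x).1, (rmp_mem z r (2 * r - 1) x).2]⟩)
    (fun e he hne => by
      have h1 := abs_le.1 (edge_ds z (Lat.mem_edT.1 he).1).2
      have h2 := hz _ hne
      rw [mem_an, mem_an]; push_cast at *; omega)
    (fun e he hne => by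
      have he' := edge_ds z (Lat.mem_edT.1 he).1
      have h1 := abs_le.1 he'.2
      refine ⟨?_, ?_⟩
      · rw [mem_an]
        by_cases h0 : rmp z r (2 * r - 1) e.1 - rmp z (q + 1) r e.1 = 0
        · have := hz e.2 (by rwa [h0] at hne); push_cast at *; omega
        · have := hz e.1 h0; push_cast at *; omega
      · have c1 := rmp_lip z b1 he'.1
        have c2 := rmp_lip z b2 he'.1
        have c3 : ((1 : ℕ) : ℝ) / (r - (q + 1)) ≤ 4 / r := by
          rw [div_le_div_iff₀ (by linarith) (by linarith)]; push_cast; linarith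
        have c4 : ((1 : ℕ) : ℝ) / (2 * r - 1 - r) ≤ 2 / r := by
          rw [div_le_div_iff₀ (by linarith) (by linarith)]; push_cast; linarith
        rw [abs_le] at *
        have : (6 : ℝ) / r = 4 / r + 2 / r := by ring
        constructor <;> linarith [c1.1, c1.2, c2.1, c2.2]) u
  refine ⟨c, _, fun x hx => ?_, fun x hx => ?_,
    hc.trans (mul_le_mul_of_nonneg_right ?_ (Po44.eN_nonneg _ _ _))⟩
  · have hx' : (ds z x : ℝ) = r := by exact_mod_cast hx
    simp only [rmp_zero b1 hx'.ge, rmp_one b2 hx'.le, sub_zero, one_mul]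
  · rw [mem_bl_ds] at hx
    refine mul_eq_zero_of_left (by_contra fun h => hx ?_) _
    have := hz x h; push_cast at *; omega
  · have : (2 * (2 * r : ℕ) + 1 : ℝ) * (6 / r) ≤ 26 := by
      rw [← mul_div_assoc, div_le_iff₀ (by linarith)]; push_cast; linarith
    have := pow_le_pow_left₀ (by positivity) this 2
    linarith

/-! ## the zero mode and the bilinear form -/

/-- the average against the equilibrium measure of `bl z r` in `bl z R` -/
noncomputable def Hh (z : Pt) (r R : ℕ) (u : Pt → ℝ) : ℝ :=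
  ip (bl z r) (eqm (bl z r) (bl z R) (eD nL (bl z R))) u

/-- harmonic extension into `bl z R` -/
noncomputable def Mh (z : Pt) (R : ℕ) (u : Pt → ℝ) : Pt → ℝ := hx (bl z R) (eD nL (bl z R)) u

/-- `(u, Σ⁻¹ (φ - (e, φ)))`; the cross term of K1 is `cap * Hh a * Hh (Mh b) + Yb a (Mh b)` -/
noncomputable def Yb (z : Pt) (r R : ℕ) (u φ : Pt → ℝ) : ℝ :=
  ip (bl z r) u (chg (bl z r) (bl z R) (eD nL (bl z R)) fun x => φ x - Hh z r R φ)

variable {z : Pt} {r R : ℕ}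

theorem bl_ne (z : Pt) (r : ℕ) : (bl z r).Nonempty := ⟨z, self_mem_bl z r⟩

theorem cross (h : r ≤ R) (a b : Pt → ℝ) :
    -eD nL (bl z R) (ex (bl z r) (bl z R) (eD nL (bl z R)) a) (exo (bl z r) (bl z R) (eD nL (bl z R)) b) =
      cap (bl z r) (bl z R) (eD nL (bl z R)) * Hh z r R a * Hh z r R (Mh z R b) +
        Yb z r R a (Mh z R b) :=
  (co_eD nL_ok _).cross_split (bl_mono z h) (bl_ne z r) a b

theorem Hh_add (u v : Pt → ℝ) : Hh z r R (u + v) = Hh z r R u + Hh z r R v := ip_add_right _ _ _ _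
theorem Hh_smul (c : ℝ) (u : Pt → ℝ) : Hh z r R (c • u) = c * Hh z r R u := ip_smul_right _ _ _ _
theorem Hh_congr {u v : Pt → ℝ} (h : ∀ x ∈ bl z r, u x = v x) : Hh z r R u = Hh z r R v :=
  sum_congr rfl fun x hx => by rw [h x hx]
theorem Hh_const (h : r ≤ R) (c : ℝ) : Hh z r R (fun _ => c) = c := by
  rw [Hh, ip, ← sum_mul, (co_eD nL_ok _).sum_eqm (bl_mono z h) (bl_ne z r), one_mul]
theorem Hh_shift (h : r ≤ R) (u : Pt → ℝ) (c : ℝ) : Hh z r R (fun x => u x + c) = Hh z r R u + c :=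
  (Hh_add u fun _ => c).trans (by rw [Hh_const h])
theorem Hh_neg (u : Pt → ℝ) : Hh z r R (fun x => -u x) = -Hh z r R u := ip_neg_right _ _ _
theorem abs_Hh_le (h : r ≤ R) {u : Pt → ℝ} {K : ℝ} (hu : ∀ x ∈ bl z r, |u x| ≤ K) :
    |Hh z r R u| ≤ K := (co_eD nL_ok _).abs_ip_eqm_le (mk_eD _) (bl_mono z h) (bl_ne z r) hu

theorem Yb_add_left (u v φ : Pt → ℝ) : Yb z r R (u + v) φ = Yb z r R u φ + Yb z r R v φ :=
  ip_add_left _ _ _ _
theorem Yb_smul_left (c : ℝ) (u φ : Pt → ℝ) : Yb z r R (c • u) φ = c * Yb z r R u φ :=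
  ip_smul_left _ _ _ _
theorem Yb_add (u φ ψ : Pt → ℝ) : Yb z r R u (φ + ψ) = Yb z r R u φ + Yb z r R u ψ := by
  rw [Yb, Yb, Yb, ← ip_add_right, ← (co_eD nL_ok _).chg_add, Hh_add]
  congr 2; funext x; simp only [Pi.add_apply]; ring
theorem Yb_smul (u : Pt → ℝ) (c : ℝ) (φ : Pt → ℝ) : Yb z r R u (c • φ) = c * Yb z r R u φ := by
  rw [Yb, Yb, ← ip_smul_right, ← (co_eD nL_ok _).chg_smul, Hh_smul]
  congr 2; funext x; simp only [Pi.smul_apply, smul_eq_mul]; ring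
theorem Yb_congr (u : Pt → ℝ) {φ ψ : Pt → ℝ} (h : ∀ x ∈ bl z r, φ x = ψ x) :
    Yb z r R u φ = Yb z r R u ψ := by
  rw [Yb, Yb, Hh_congr h, chg_congr (ψ := fun x => ψ x - Hh z r R ψ) fun x hx => by rw [h x hx]]
theorem Yb_shift (h : r ≤ R) (u φ : Pt → ℝ) (c : ℝ) :
    Yb z r R u (fun x => φ x + c) = Yb z r R u φ := by
  simp only [Yb, Hh_shift h, add_sub_add_right_eq_sub]
theorem Yb_sum {ι : Type*} (T : Finset ι) (u : Pt → ℝ) (c : ι → ℝ) (φ : ι → Pt → ℝ) :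
    Yb z r R u (∑ i ∈ T, c i • φ i) = ∑ i ∈ T, c i * Yb z r R u (φ i) := by
  classical
  induction T using Finset.induction_on with
  | empty => simpa using Yb_smul (z := z) (r := r) (R := R) u 0 0
  | insert a T ha ih => rw [sum_insert ha, sum_insert ha, Yb_add, Yb_smul, ih]
theorem Yb_sub (u φ ψ : Pt → ℝ) : Yb z r R u (φ - ψ) = Yb z r R u φ - Yb z r R u ψ := by
  rw [sub_eq_add_neg, Yb_add, ← neg_one_smul ℝ ψ, Yb_smul]; ring

theorem sum_chg_zero (h : r ≤ R) (φ : Pt → ℝ) :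
    ∑ x ∈ bl z r, chg (bl z r) (bl z R) (eD nL (bl z R)) (fun x => φ x - Hh z r R φ) x = 0 := by
  rw [(co_eD nL_ok _).sum_chg (bl_mono z h) (bl_ne z r), ← Hh]
  simp only [sub_eq_add_neg, Hh_shift h, add_neg_cancel, mul_zero]

theorem Yb_shift_left (h : r ≤ R) (u φ : Pt → ℝ) (c : ℝ) :
    Yb z r R (fun x => u x + c) φ = Yb z r R u φ := by
  simp only [Yb, ip, add_mul, sum_add_distrib, ← mul_sum, sum_chg_zero h, mul_zero, add_zero]

theorem lap_congr {u v : Pt → ℝ} {x : Pt} (h : ∀ y ∈ bl x 1, u y = v y) : lap u x = lap v x := by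
  unfold lap lapJ
  exact sum_congr rfl fun y hy => by rw [h _ (add_nn_mem_bl hy x), h x (self_mem_bl _ _)]

/-- the swept charge of a harmonic function lives on the boundary of the box -/
theorem chg_bd (h : r ≤ R) {φ : Pt → ℝ} (hφ : ∀ x, ds z x < r → lap φ x = 0) {x : Pt}
    (hne : chg (bl z r) (bl z R) (eD nL (bl z R)) φ x ≠ 0) : ds z x = r := by
  have hx : x ∈ bl z r := by_contra fun h => hne (chg_sup φ x h)
  refine (mem_bl_ds.1 hx).eq_of_not_lt fun h1 => hne ?_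
  rw [chg, on_of_mem hx, op_eD nL_ok (bl_mono z h hx), neg_eq_zero, ← hφ x h1]
  refine lap_congr fun y hy => (co_eD nL_ok _).ex_on φ (mem_bl_ds.2 ?_)
  have := abs_le.1 (ds_lip z hy); push_cast at this; omega

theorem lap_sub_const (φ : Pt → ℝ) (c : ℝ) (x : Pt) : lap (fun y => φ y - c) x = lap φ x := by
  simp only [lap, lapJ, sub_sub_sub_cancel_right]

theorem Yb_loc (h : r ≤ R) {φ : Pt → ℝ} (hφ : ∀ x, ds z x < r → lap φ x = 0) {u v : Pt → ℝ}
    (huv : ∀ x, ds z x = r → u x = v x) : Yb z r R u φ = Yb z r R v φ :=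
  sum_congr rfl fun x _ => by
    by_cases h0 : chg (bl z r) (bl z R) (eD nL (bl z R)) (fun x => φ x - Hh z r R φ) x = 0
    · rw [h0, mul_zero, mul_zero]
    · rw [huv x (chg_bd h (fun y hy => (lap_sub_const _ _ _).trans (hφ y hy)) h0)]



theorem osc_bl {ρ : ℕ} {φ : Pt → ℝ} {K : ℝ} (hK : ∀ x ∈ bl z ρ, ∀ e ∈ nn, |dif e φ x| ≤ K) {x : Pt}
    (hx : x ∈ bl z ρ) : |φ x - φ z| ≤ 2 * ρ * K := by
  have := (tayStmt ρ φ z (x - z) ((Ha91.add_mem_bl (z := z)).1 (by simpa using hx))).1 K hK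
  simpa using this

/-- K3 (ii) -/
theorem fn_Yb (hr : 4 ≤ r) (hR : 2 * r ≤ R) {φ : Pt → ℝ} (hφ : ∀ x, ds z x < r → lap φ x = 0) {K : ℝ}
    (hK : ∀ x ∈ bl z (2 * r), ∀ e ∈ nn, |dif e φ x| ≤ K) :
    Fn (nL.edI (an z (r / 2) (2 * r))) (fun u => Yb z r R u φ) ((10 ^ 6 * r * K) ^ 2) := by
  have h : r ≤ R := by omega
  have hC := co_eD nL_ok (bl z R)
  have p4 : (4 : ℝ) ≤ r := by exact_mod_cast hr
  have b2 : (r : ℝ) < 2 * r - 1 := by linarith
  have K0 : 0 ≤ K := (abs_nonneg _).trans (hK z (self_mem_bl _ _) _ Ha91.e1_nn)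
  set ψ : Pt → ℝ := fun x => φ x - Hh z r R φ with hψ
  have s1 : ∀ x ∈ bl z (2 * r), |ψ x| ≤ 8 * r * K := fun x hx => by
    have c1 := osc_bl hK hx
    have c2 := abs_Hh_le (R := R) h (u := fun y => φ y + -φ z) fun y hy =>
      osc_bl hK (bl_mono z (by omega) hy)
    rw [Hh_shift h] at c2
    push_cast at c1 c2
    rw [hψ, abs_le] at *
    constructor <;> linarith [c1.1, c1.2, c2.1, c2.2]
  have hz : ∀ x, rmp z r (2 * r - 1) x ≠ 0 → ds z x < 2 * r - 1 := fun x hne => by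
    by_contra h
    exact hne (rmp_zero b2 (by exact_mod_cast not_lt.1 h))
  have s2 := edF_cut_le (Λ := nL) (ed := nL.edT (bl z R)) (fun e he => (Lat.mem_edT.1 he).1)
    (S := bl z (2 * r)) (S' := bl z (2 * r)) (ζ := rmp z r (2 * r - 1)) (L := 2 / r)
    (fun x => abs_le.2 ⟨by linarith [(rmp_mem z r (2 * r - 1) x).1], (rmp_mem z r (2 * r - 1) x).2⟩)
    (fun e he hne => by
      have h1 := abs_le.1 (edge_ds z (Lat.mem_edT.1 he).1).2
      have h2 := hz _ hne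
      rw [mem_bl_ds, mem_bl_ds]; push_cast; omega)
    (fun e he hne => by
      have he' := edge_ds z (Lat.mem_edT.1 he).1
      have h1 := abs_le.1 he'.2
      refine ⟨?_, (rmp_lip z b2 he'.1).trans ?_⟩
      · rw [mem_bl_ds]
        by_cases h0 : rmp z r (2 * r - 1) e.1 = 0
        · have := hz e.2 (by rwa [h0] at hne); push_cast; omega
        · have := hz e.1 h0; push_cast; omega
      · rw [div_le_div_iff₀ (by linarith) (by linarith)]; push_cast; linarith) ψ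
  have hcard : ((bl z (2 * r)).card : ℝ) ≤ 25 * (r : ℝ) ^ 2 := by
    rw [card_bl]; push_cast; nlinarith
  have s3 : eN nL (bl z (2 * r)) ψ ψ ≤ 50 * (r * K) ^ 2 := by
    rw [hψ, eN, edF_sub_const', edF_self]
    refine (sum_le_card_nsmul _ _ (K ^ 2) fun e he => ?_).trans ?_
    · rw [Lat.mem_edI] at he
      have := hK e.1 he.2.1 _ (Lat.mem_Jp.1 he.1).1
      simp only [dif, add_sub_cancel] at this
      exact sq_le_sq' (abs_le.1 this).1 (abs_le.1 this).2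
    · have c1 : ((nL.edI (bl z (2 * r))).card : ℝ) ≤ (bl z (2 * r)).card * 2 := by
        have := card_edI_le nL (bl z (2 * r))
        rw [nL_Jp, card_pair (by decide)] at this
        exact_mod_cast this
      rw [nsmul_eq_mul]
      nlinarith [mul_le_mul_of_nonneg_right (c1.trans (mul_le_mul_of_nonneg_right hcard zero_le_two))
        (sq_nonneg K)]
  have s4 : (2 / r : ℝ) ^ 2 * ∑ x ∈ bl z (2 * r), ψ x ^ 2 ≤ 6400 * (r * K) ^ 2 := by
    have c1 : ∑ x ∈ bl z (2 * r), ψ x ^ 2 ≤ 25 * (r : ℝ) ^ 2 * (8 * r * K) ^ 2 :=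
      (sum_le_card_nsmul _ _ ((8 * r * K) ^ 2) fun x hx =>
        sq_le_sq' (abs_le.1 (s1 x hx)).1 (abs_le.1 (s1 x hx)).2).trans
        (by rw [nsmul_eq_mul]; exact mul_le_mul_of_nonneg_right hcard (sq_nonneg _))
    refine (mul_le_mul_of_nonneg_left c1 (sq_nonneg _)).trans_eq ?_
    field_simp; ring
  rw [nL_Jp, card_pair (by decide), mul_assoc] at s2
  push_cast at s2
  refine fn_of_dual (sq_nonneg _) (fun u v => Yb_add_left u v φ) (fun c u => Yb_smul_left c u φ)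
    fun u => ?_
  obtain ⟨c, v, v1, v2, v3⟩ := ring z hr (bl z R) u
  have s5 := hC.abs_ip_chg_le (bl_mono z h) (φ := ψ) (w := fun x => rmp z r (2 * r - 1) x * ψ x)
    (u := fun x => u x + -c) (v := v)
    (fun x hx => mul_eq_zero_of_left (by_contra fun h0 => hx (mem_bl_ds.2 (by
      have := hz x h0; omega))) _)
    (fun x hx => by rw [rmp_one b2 (by exact_mod_cast mem_bl_ds.1 hx), one_mul])
    (v2.mono (bl_mono z hR))
    fun x _ h0 => v1 x (chg_bd h (fun y hy => (lap_sub_const _ _ _).trans (hφ y hy)) h0)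
  rw [ip_comm, ← Real.sqrt_mul (hC.nonneg _)] at s5
  rw [← Yb_shift_left h u φ (-c)]
  rw [Real.le_sqrt (abs_nonneg _) (mul_nonneg (hC.nonneg _) (hC.nonneg _)), sq_abs] at s5
  refine s5.trans ?_
  have s6 := Po44.eN_nonneg nL (an z (r / 2) (2 * r)) u
  calc _ ≤ (10 ^ 6 * (r * K) ^ 2) * (10 ^ 6 * eN nL (an z (r / 2) (2 * r)) u u) :=
        mul_le_mul (s2.trans (by nlinarith [sq_nonneg (r * K)])) v3 (hC.nonneg _) (by positivity)
    _ = _ := by rw [eN]; ring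

/-! ## the kernel -/

/-- the kernel of the mean value representation at scale `r` -/
noncomputable def kk (z : Pt) (r : ℕ) (w x : Pt) : ℝ :=
  -lap (fun w' => cut z (3 * r + 1) (6 * r) w' * pk (x - w')) w

theorem pk_sub_comm (x y : Pt) : pk (x - y) = pk (y - x) := by
  rw [← neg_sub y x]; exact R165.Pkx583.pk_neg _ _

theorem lap_pk' (x w : Pt) : lap (fun w' => pk (x - w')) w = dl x w := by
  simp only [pk_sub_comm x, lap_pk_sub]

theorem kk_rep (hr : 1 ≤ r) {φ : Pt → ℝ} (hφ : ∀ x ∈ bl z (6 * r), lap φ x = 0) {x : Pt}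
    (hx : x ∈ bl z (3 * r)) : φ x = ∑ w ∈ an z (3 * r) (6 * r), φ w * kk z r w x := by
  have p1 : (1 : ℝ) ≤ r := by exact_mod_cast hr
  have hab : (3 * r + 1 : ℝ) < 6 * r := by linarith
  have h1 := green nL_ok (D := bl z (6 * r - 1)) (D' := bl z (6 * r))
    (fun y hy => bl_subset_bl hy (by rw [nL_rg]; omega)) φ
    (v := fun w' => cut z (3 * r + 1) (6 * r) w' * pk (x - w'))
    fun y hy => mul_eq_zero_of_left (cut_zero hab (by
      rw [Nat.cast_sub (by omega)]; push_cast; linarith) hy) _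
  rw [sum_eq_zero fun y hy => mul_eq_zero_of_left (show lapJ nL.J φ y = 0 from
    hφ y (bl_mono z (by omega) hy)) _, ← sum_sdiff (bl_mono z (by omega : 3 * r ≤ 6 * r))] at h1
  have h2 : ∑ w ∈ bl z (3 * r), φ w *
      lapJ nL.J (fun w' => cut z (3 * r + 1) (6 * r) w' * pk (x - w')) w = φ x := by
    rw [← ip_dl' hx φ]
    refine sum_congr rfl fun w hw => ?_
    rw [← lap_pk' x w]
    exact congrArg _ (lap_congr fun y hy => by
      rw [cut_one hab (r := 3 * r + 1) (by push_cast; rfl) (bl_subset_bl hw (by omega) hy), one_mul])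
  rw [h2] at h1
  simp only [kk, mul_neg, sum_neg_distrib]
  exact eq_neg_of_add_eq_zero_right h1.symm

theorem lap_sum {ι : Type*} (T : Finset ι) (c : ι → ℝ) (f : ι → Pt → ℝ) (x : Pt) :
    lap (fun y => ∑ i ∈ T, c i * f i y) x = ∑ i ∈ T, c i * lap (f i) x := by
  simp only [lap, lapJ, ← sum_sub_distrib, mul_sum, mul_sub]
  exact sum_comm

theorem lap_kk {w x : Pt} (h : x ∉ bl w 1) : lap (kk z r w) x = 0 := by
  set ζ := cut z (3 * r + 1) (6 * r)
  have h1 : kk z r w = (fun x => ∑ _y ∈ nn, ζ w * pk (x - w)) -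
      fun x => ∑ y ∈ nn, ζ (w + y) * pk (x - (w + y)) := by
    funext x; simp only [kk, lap, lapJ, sum_sub_distrib, neg_sub, Pi.sub_apply]; rfl
  rw [h1, lap, lapJ_sub, Pi.sub_apply, ← lap, ← lap, lap_sum, lap_sum, sum_eq_zero, sum_eq_zero,
    sub_self]
  · intro y hy
    rw [lap_pk_sub, dl, Pi.single_eq_of_ne fun h' => h (by rw [h']; exact add_nn_mem_bl hy w), mul_zero]
  · intro y _
    rw [lap_pk_sub, dl, Pi.single_eq_of_ne fun h' => h (by rw [h']; exact self_mem_bl _ _), mul_zero]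

theorem dif_kk : ∃ C : ℝ, 0 ≤ C ∧ ∀ (z : Pt) (r : ℕ), 1 ≤ r → ∀ w ∈ an z (3 * r) (6 * r),
    ∀ x ∈ bl z (2 * r), ∀ e ∈ nn, |dif e (kk z r w) x| ≤ C / (r : ℝ) ^ 3 := by
  obtain ⟨C, C0, hC⟩ := sm_cut 2
  obtain ⟨C₁, h₁⟩ := pkDStmt pkStmt lgStmt (harmStmt pkStmt) 0
  obtain ⟨C₂, h₂⟩ := pkDStmt pkStmt lgStmt (harmStmt pkStmt) 1
  refine ⟨|C₁| * (2 * C) + 4 * (C * |C₂|), by positivity, fun z r hr w hw x hx e he => ?_⟩
  have p1 : (1 : ℝ) ≤ r := by exact_mod_cast hr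
  have hs := (hC z (3 * r + 1) (6 * r) (by linarith)).scale (ℓ' := r) (by linarith) (by linarith)
  set ζ := cut z (3 * r + 1) (6 * r) with hζ
  set g : Pt → ℝ := fun w' => dif e pk (x - w') with hg
  have hw' : w ∉ bl x r := fun h => (mem_sdiff.1 hw).2 (bl_subset_bl hx (by omega) h)
  have d1 : (r : ℝ) ≤ 1 + eu (x - w) := by
    have := le_eu_of_not_bl hw'; rw [eu_sub_comm] at this; linarith
  have e1 : dif e (kk z r w) x = -lap (fun w' => ζ w' * g w') w := by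
    simp only [dif, kk, lap, lapJ, hg, ← hζ, add_sub_right_comm x e, ← sum_neg_distrib,
      ← sum_sub_distrib]
    exact sum_congr rfl fun _ _ => by ring
  have e2 : lapJ nn g w = 0 := by
    have : g = (fun w' => pk (x + e - w')) - fun w' => pk (x - w') := by
      funext w'; simp only [hg, dif, Pi.sub_apply, add_sub_right_comm x e]
    rw [this, lapJ_sub, Pi.sub_apply, ← lap, ← lap, lap_pk', lap_pk', dl, dl,
      Pi.single_eq_of_ne fun h => hw' (by rw [h]; exact bl_mono x hr (add_nn_mem_bl he x)),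
      Pi.single_eq_of_ne fun h => hw' (by rw [h]; exact self_mem_bl _ _), sub_self]
  have e3 : |g w| ≤ |C₁| / r := (h₁ [e] rfl (by simpa using he) (x - w)).1.trans (by
    rw [zero_add, pow_one]; gcongr; exact le_abs_self _)
  have e4 : ∀ y ∈ nn, |dif y g w| ≤ |C₂| / (r : ℝ) ^ 2 := fun y hy => by
    have := (h₂ [-y, e] rfl (by simpa [he, nL_J] using nL_ok.neg hy) (x - w)).1
    rw [show dif y g w = difs [-y, e] pk (x - w) by
      simp only [hg, difs, dif, sub_add_eq_sub_sub, ← sub_eq_add_neg]]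
    exact this.trans (by gcongr; exact le_abs_self _)
  have e5 : |lapJ nn ζ w| ≤ 2 * (C / (r : ℝ) ^ 2) := hs.abs_lap fun _ _ => trivial
  rw [e1, abs_neg, lap, lapJ_mul, e2, mul_zero, zero_add]
  refine (abs_add_le _ _).trans ?_
  have e6 : |∑ y ∈ nn, dif y ζ w * dif y g w| ≤ 4 * (C / r * (|C₂| / (r : ℝ) ^ 2)) := by
    refine (abs_sum_le_sum_abs _ _).trans ((sum_le_card_nsmul _ _ (C / r * (|C₂| / (r : ℝ) ^ 2))
      fun y hy => ?_).trans_eq (by rw [show nn.card = 4 by decide, nsmul_eq_mul]; rfl))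
    rw [abs_mul]
    exact mul_le_mul (hs.one one_le_two hy trivial) (e4 y hy) (abs_nonneg _) (by positivity)
  rw [abs_mul]
  refine (add_le_add (mul_le_mul e3 e5 (abs_nonneg _) (by positivity)) e6).trans_eq ?_
  field_simp



theorem harm_kk {w : Pt} (hw : w ∈ an z (3 * r) (6 * r)) (x : Pt) (hx : ds z x < r) :
    lap (kk z r w) x = 0 := lap_kk fun h => by
  have := abs_le.1 (ds_lip z h)
  rw [mem_an] at hw; push_cast at *; omega






/-! ## symmetries of the square -/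

/-- what is used of a symmetry of the square about `z` -/
structure Dq (z : Pt) (σ : Pt ≃ Pt) : Prop where
  sym : nL.Sym σ
  ds : ∀ x, ds z (σ x) = ds z x
  pk : ∀ x y, pk (σ x - σ y) = pk (x - y)
  cut : ∀ a b x, cut z a b (σ x) = cut z a b x

theorem dq_rot (z : Pt) : Dq z (rotZ z) := by
  refine ⟨fun x y => ?_, fun x => ?_, fun x y => ?_, fun a b x => ?_⟩
  · simp only [nL_J, Ha91.mem_nn, rotZ, Equiv.coe_fn_mk, Prod.ext_iff, Prod.fst_sub, Prod.snd_sub]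
    omega
  · simp only [H59.ds, rotZ, Equiv.coe_fn_mk, abs_eq_max_neg]; omega
  · rw [show rotZ z x - rotZ z y = (-(x - y).2, (x - y).1) from Prod.ext (by simp [rotZ]) (by simp [rotZ]),
      R165.Pkx583.pk_neg_fst, R165.Pkx583.pk_comm]
  · rw [cut_shift, cut_shift z a b x,
      show rotZ z x - z = (-(x - z).swap.1, (x - z).swap.2) from Prod.ext (by simp [rotZ]) (by simp [rotZ]),
      cut_neg_fst, cut_swap]

theorem dq_swp (z : Pt) : Dq z (swpZ z) := by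
  refine ⟨fun x y => ?_, fun x => ?_, fun x y => ?_, fun a b x => ?_⟩
  · simp only [nL_J, Ha91.mem_nn, swpZ, Equiv.coe_fn_mk, Prod.ext_iff, Prod.fst_sub, Prod.snd_sub]
    omega
  · simp only [H59.ds, swpZ, Equiv.coe_fn_mk, abs_eq_max_neg]; omega
  · rw [show swpZ z x - swpZ z y = ((x - y).2, (x - y).1) from Prod.ext (by simp [swpZ]) (by simp [swpZ]),
      R165.Pkx583.pk_comm]
  · rw [cut_shift, cut_shift z a b x,
      show swpZ z x - z = (x - z).swap from Prod.ext (by simp [swpZ]) (by simp [swpZ]), cut_swap]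

namespace Dq
variable {σ σ' : Pt ≃ Pt}

theorem one (z : Pt) : Dq z 1 := ⟨fun _ _ => Iff.rfl, fun _ => rfl, fun _ _ => rfl, fun _ _ _ => rfl⟩

theorem trans (h : Dq z σ) (h' : Dq z σ') : Dq z (σ.trans σ') :=
  ⟨h.sym.trans h'.sym, fun x => (h'.ds _).trans (h.ds x), fun x y => (h'.pk _ _).trans (h.pk x y),
    fun a b x => (h'.cut a b _).trans (h.cut a b x)⟩

theorem symm (h : Dq z σ) : Dq z σ.symm :=
  ⟨h.sym.symm, fun x => by rw [← h.ds, σ.apply_symm_apply],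
    fun x y => by rw [← h.pk, σ.apply_symm_apply, σ.apply_symm_apply],
    fun a b x => by rw [← h.cut, σ.apply_symm_apply]⟩

theorem pow (h : Dq z σ) (k : ℕ) : Dq z (σ ^ k : Equiv.Perm Pt) := by
  induction k with
  | zero => exact one z
  | succ k ih => rw [pow_succ]; exact h.trans ih

theorem mem_bl (h : Dq z σ) {x : Pt} {ρ : ℕ} : σ x ∈ bl z ρ ↔ x ∈ bl z ρ := by
  rw [mem_bl_ds, mem_bl_ds, h.ds]

theorem mem_an (h : Dq z σ) {x : Pt} {p q : ℕ} : σ x ∈ an z p q ↔ x ∈ an z p q := by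
  rw [K85.mem_an, K85.mem_an, h.ds]

theorem map_bl (h : Dq z σ) (ρ : ℕ) : (bl z ρ).map σ.toEmbedding = bl z ρ := by
  ext x; rw [mem_map_equiv, h.symm.mem_bl]


theorem eD (h : Dq z σ) (ρ : ℕ) (u v : Pt → ℝ) :
    eD nL (bl z ρ) u v = eD nL (bl z ρ) (u ∘ σ) (v ∘ σ) := by
  conv_lhs => rw [← h.map_bl ρ]
  rw [Pot.eD, Pot.eD, h.sym.edT_map nL_ok, edF_apply, edF_apply, sum_map]
  refine sum_congr rfl fun e _ => ?_
  rcases ori_cases σ e with h1 | h1 <;> simp only [Equiv.coe_toEmbedding, h1, Function.comp]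
  ring

theorem lap (h : Dq z σ) (u : Pt → ℝ) (x : Pt) : lap (u ∘ σ) x = lap u (σ x) := by
  have := congrFun (op_equiv σ (h.eD (H59.ds z x).toNat) u) x
  have hx : x ∈ bl z (H59.ds z x).toNat := mem_bl_ds.2 (Int.self_le_toNat _)
  rw [Function.comp_apply, op_eD nL_ok hx, op_eD nL_ok (h.mem_bl.2 hx), neg_inj] at this
  exact this.symm

theorem sum_bl (h : Dq z σ) (ρ : ℕ) (f : Pt → ℝ) : ∑ x ∈ bl z ρ, f (σ x) = ∑ x ∈ bl z ρ, f x :=
  sum_equiv σ (fun _ => h.mem_bl.symm) fun _ _ => rfl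


theorem Hh (h : Dq z σ) (u : Pt → ℝ) : Hh z r R (u ∘ σ) = Hh z r R u := by
  have := (co_eD nL_ok (bl z R)).eqm_equiv (K := bl z r) σ (h.eD R)
  rw [h.map_bl, h.map_bl] at this
  rw [K85.Hh, K85.Hh, ip, ip, ← h.sum_bl r fun x => _ * u x]
  exact sum_congr rfl fun x _ => by rw [← congrFun this x]; rfl

theorem Mh (h : Dq z σ) (u : Pt → ℝ) : Mh z R (u ∘ σ) = Mh z R u ∘ σ := by
  have := (co_eD nL_ok (bl z R)).hx_equiv σ (h.eD R) u
  rw [h.map_bl] at this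
  exact this.symm

theorem ex (h : Dq z σ) (u : Pt → ℝ) : ex (bl z r) (bl z R) (Pot.eD nL (bl z R)) (u ∘ σ) =
    ex (bl z r) (bl z R) (Pot.eD nL (bl z R)) u ∘ σ := by
  have := (co_eD nL_ok (bl z R)).ex_equiv (K := bl z r) σ (h.eD R) u
  rw [h.map_bl, h.map_bl] at this
  exact this.symm

theorem exo (h : Dq z σ) (u : Pt → ℝ) : exo (bl z r) (bl z R) (Pot.eD nL (bl z R)) (u ∘ σ) =
    exo (bl z r) (bl z R) (Pot.eD nL (bl z R)) u ∘ σ := by
  have := (co_eD nL_ok (bl z R)).exo_equiv (K := bl z r) σ (h.eD R) u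
  rw [h.map_bl, h.map_bl] at this
  exact this.symm

theorem Yb (h : Dq z σ) (u φ : Pt → ℝ) : Yb z r R (u ∘ σ) (φ ∘ σ) = Yb z r R u φ := by
  have := (co_eD nL_ok (bl z R)).chg_equiv (K := bl z r) σ (h.eD R) fun x => φ x - K85.Hh z r R φ
  rw [h.map_bl, h.map_bl] at this
  rw [K85.Yb, K85.Yb, h.Hh, ip, ip, ← h.sum_bl r fun x => u x * _]
  exact sum_congr rfl fun x _ => congrArg _ (congrFun this x).symm

theorem Yb' (h : Dq z σ) (u φ : Pt → ℝ) :
    K85.Yb z r R (u ∘ σ.symm) φ = K85.Yb z r R u (φ ∘ σ) := by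
  rw [← h.Yb, Function.comp_assoc, σ.symm_comp_self, Function.comp_id]

theorem kk (h : Dq z σ) (w : Pt) : kk z r (σ w) ∘ σ = kk z r w := by
  funext x
  rw [Function.comp_apply, K85.kk, K85.kk, ← h.lap]
  congr 2; funext w'; simp only [Function.comp_apply, h.cut, h.pk]


end Dq

end Crest.Agent.T145.Pot.K85
end

-- ▼ part T145/KrO_85

/-!
# Row 145: K3 of docs/T145_c90.md, outer half; Taylor expansions of the kernel (helper85)
-/

set_option autoImplicit false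

namespace Crest.Agent.T145.Pot.K85

open Finset H59 Kw56

theorem fn_of_abs {V : Type*} {E : Finset (V × V)} {ℓ : (V → ℝ) → ℝ} {K : ℝ}
    (hadd : ∀ u v, ℓ (u + v) = ℓ u + ℓ v) (hsmul : ∀ (c : ℝ) u, ℓ (c • u) = c * ℓ u)
    (h : ∀ u, |ℓ u| ≤ K * √(edF E u u)) : Fn E ℓ (K ^ 2) :=
  fn_of_dual (sq_nonneg _) hadd hsmul fun u => by
    rw [← sq_abs, ← Real.sq_sqrt ((sy_edF E).nonneg u), ← mul_pow]
    exact pow_le_pow_left₀ (abs_nonneg _) (h u) 2

/-- filling a hole, free form -/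
theorem fillN (z : Pt) {p Q : ℕ} (hp : 4 ≤ p) (hQ : p ≤ Q) (u : Pt → ℝ) : ∃ c, ∃ v : Pt → ℝ,
    (∀ x, (p : ℤ) ≤ ds z x → v x = u x - c) ∧
      eN nL (bl z Q) v v ≤ 200000 * eN nL (an z (p / 2) Q) u u := by
  have p4 : (4 : ℝ) ≤ p := by exact_mod_cast hp
  have a0 : 2 * (p / 2) ≤ p := by omega
  generalize p / 2 = q at *
  have a1 : 2 * (q : ℝ) ≤ p := by exact_mod_cast a0
  have b1 : (q : ℝ) + 1 < p := by linarith
  obtain ⟨c, hc⟩ := cut_gen (ed := nL.edI (bl z Q)) (fun e he => (Lat.mem_edI.1 he).1)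
    (S := an z q Q) (z := z) (a := q) (b := p) (by omega) (κ := 5) (L := 4 / p)
    (by linarith) (fun x hx => by rw [mem_an] at *; omega)
    (ζ := fun x => 1 - rmp z (q + 1) p x)
    (fun x => abs_le.2 ⟨by linarith [(rmp_mem z (q + 1) p x).2],
      by linarith [(rmp_mem z (q + 1) p x).1]⟩)
    (fun e he hne => by
      rw [Lat.mem_edI, mem_bl_ds, mem_bl_ds] at he
      have h1 := abs_le.1 (edge_ds z he.1).2
      have h2 : (q : ℤ) + 1 < ds z e.1 := by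
        by_contra h
        exact hne (by rw [rmp_one b1 (by exact_mod_cast not_lt.1 h), sub_self])
      rw [mem_an, mem_an]; omega)
    (fun e he hne => by
      rw [Lat.mem_edI] at he
      have h1 := rmp_ne b1 (edge_ds z he.1).1 fun h => hne (by rw [h])
      refine ⟨mem_ring.2 ⟨by simpa using h1.2.1, ?_⟩, ?_⟩
      · have : ds z e.2 < p + 1 := by exact_mod_cast h1.2.2
        exact_mod_cast (by omega : ds z e.2 ≤ p)
      · rw [sub_sub_sub_cancel_left, abs_sub_comm]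
        refine (rmp_lip z b1 (edge_ds z he.1).1).trans ?_
        rw [div_le_div_iff₀ (by linarith) (by linarith)]; push_cast; linarith) u
  refine ⟨c, _, fun x hx => ?_, hc.trans (mul_le_mul_of_nonneg_right ?_ (Po44.eN_nonneg _ _ _))⟩
  · simp only [rmp_zero b1 (show (p : ℝ) ≤ ds z x by exact_mod_cast hx), sub_zero, one_mul]
  · have : (2 * p + 1 : ℝ) * (4 / p) ≤ 9 := by
      rw [← mul_div_assoc, div_le_iff₀ (by linarith)]; linarith
    have := pow_le_pow_left₀ (by positivity) this 2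
    linarith

variable {z : Pt} {r R : ℕ}

theorem Mh_add (u v : Pt → ℝ) : Mh z R (u + v) = Mh z R u + Mh z R v := (co_eD nL_ok _).hx_add u v
theorem Mh_smul (c : ℝ) (u : Pt → ℝ) : Mh z R (c • u) = c • Mh z R u := (co_eD nL_ok _).hx_smul c u
theorem Mh_congr {u v : Pt → ℝ} (h : ∀ x, x ∉ bl z R → u x = v x) : Mh z R u = Mh z R v :=
  (co_eD nL_ok _).hx_congr h
theorem Mh_const (c : ℝ) : Mh z R (fun _ => c) = fun _ => c :=
  (co_eD nL_ok _).hx_unique (fun _ _ => rfl) fun v _ => edF_const _ c v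
theorem Mh_shift (u : Pt → ℝ) (c : ℝ) : Mh z R (fun x => u x + c) = fun x => Mh z R u x + c :=
  (Mh_add u fun _ => c).trans (by rw [Mh_const]; rfl)
theorem lap_Mh (u : Pt → ℝ) {x : Pt} (hx : x ∈ bl z R) : lap (Mh z R u) x = 0 :=
  (hm_eD nL_ok Subset.rfl).1 ((co_eD nL_ok _).hx_hm u) x hx

theorem av_add (S : Finset Pt) (u v : Pt → ℝ) : av S (u + v) = av S u + av S v := by
  simp only [av, Pi.add_apply, sum_add_distrib, add_div]
theorem av_smul (S : Finset Pt) (c : ℝ) (u : Pt → ℝ) : av S (c • u) = c * av S u := by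
  simp only [av, Pi.smul_apply, smul_eq_mul, ← mul_sum, mul_div_assoc]

theorem card_an_ge (z : Pt) (R : ℕ) : (R : ℝ) ^ 2 ≤ (an z R (2 * R)).card := by
  have := card_sdiff_add_card_eq_card (bl_mono z (by omega : R ≤ 2 * R))
  rw [card_bl, card_bl] at this
  have h : ((an z R (2 * R)).card : ℝ) + (2 * R + 1) ^ 2 = (2 * (2 * R) + 1) ^ 2 := by
    exact_mod_cast this
  nlinarith [R.cast_nonneg (α := ℝ)]

/-- the harmonic extension is almost constant on the scale of the energy near the boundary -/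
theorem outer : ∃ C : ℝ, 0 ≤ C ∧ ∀ (z : Pt) (R : ℕ), 16 ≤ R → ∀ u : Pt → ℝ, ∃ c,
    (∀ x ∈ bl z (R / 2), |Mh z R u x - c| ≤ C * √(eN nL (an z (R / 8) (2 * R)) u u)) ∧
      |av (an z R (2 * R)) u - c| ≤ C * √(eN nL (an z (R / 8) (2 * R)) u u) := by
  obtain ⟨C, hC⟩ := (harmStmt pkStmt).1
  refine ⟨448 * (8 + |C| * 9000), by positivity, fun z R hR u => ?_⟩
  obtain ⟨c₀, v, v1, v2⟩ := fillN z (p := R / 2) (Q := 2 * R) (by omega) (by omega) u
  have R1 : (16 : ℝ) ≤ R := by exact_mod_cast hR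
  have E0 := Po44.eN_nonneg nL (bl z (2 * R)) v
  set s := √(eN nL (bl z (2 * R)) v v) with hs
  have s0 : 0 ≤ s := Real.sqrt_nonneg _
  have s1 : s ≤ 448 * √(eN nL (an z (R / 8) (2 * R)) u u) := by
    rw [hs, Real.sqrt_le_left (by positivity), mul_pow, Real.sq_sqrt (Po44.eN_nonneg _ _ _)]
    have := eN_mono (Λ := nL) (show an z (R / 2 / 2) (2 * R) ⊆ an z (R / 8) (2 * R) from
      fun x hx => by rw [mem_an] at *; omega) u
    linarith [Po44.eN_nonneg nL (an z (R / 8) (2 * R)) u]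
  have s2 : eN nL (bl z (2 * R)) v v = s ^ 2 := (Real.sq_sqrt E0).symm
  set c₁ := av (bl z (2 * R)) v with hc₁
  have P : ∑ x ∈ bl z (2 * R), (v x - c₁) ^ 2 ≤ 50 * (R * s) ^ 2 := by
    have := Po44.poin1 (z.1 - (2 * R : ℕ), z.2 - (2 * R : ℕ)) (2 * (2 * R) + 1) v
    rw [← bl_eq_sq, s2] at this
    refine this.trans ?_
    push_cast
    nlinarith [mul_le_mul_of_nonneg_right (show (2 * (2 * R) + 1 : ℝ) ^ 2 ≤ 25 * R ^ 2 by nlinarith)
      (sq_nonneg s)]
  have huv : ∀ x, x ∉ bl z R → u x = v x + c₀ := fun x hx => by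
    rw [mem_bl_ds] at hx; rw [v1 x (by omega)]; ring
  have hM : Mh z R u = fun x => Mh z R v x + c₀ := by rw [← Mh_shift]; exact Mh_congr huv
  have fin : ∀ {t K : ℝ}, 0 ≤ K → K ≤ 8 + |C| * 9000 → t ≤ K * s →
      t ≤ 448 * (8 + |C| * 9000) * √(eN nL (an z (R / 8) (2 * R)) u u) := fun {t K} h0 h1 h2 =>
    h2.trans ((mul_le_mul h1 s1 s0 (by positivity)).trans_eq (by ring))
  refine ⟨c₁ + c₀, fun x hx => ?_, ?_⟩
  · have hD := co_eD nL_ok (bl z R)
    have q1 := poin_bl nL_ok z R (u := v - Mh z R v) fun y hy => by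
      rw [Pi.sub_apply, Mh, hD.hx_off v hy, sub_self]
    have q2 : eD nL (bl z R) (v - Mh z R v) (v - Mh z R v) ≤ s ^ 2 := by
      have a1 := hD.hx_pyth (η := v) (u := v) fun _ _ => rfl
      have a2 := hD.nonneg (Pot.hx (bl z R) (eD nL (bl z R)) v)
      have a3 : eD nL (bl z R) v v ≤ eN nL (bl z (2 * R)) v v :=
        edF_mono (Lat.edT_subset_edI fun y hy => bl_subset_bl hy (by rw [nL_rg]; omega)) v
      rw [Mh]; linarith
    have q3 : ∑ y ∈ bl z R, (v y - c₁) ^ 2 ≤ 50 * (R * s) ^ 2 :=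
      (sum_le_sum_of_subset_of_nonneg (bl_mono z (by omega)) fun _ _ _ => sq_nonneg _).trans P
    have q4 : ∑ y ∈ bl z R, (Mh z R v y - c₁) ^ 2 ≤ 136 * (R * s) ^ 2 := by
      have a1 : ∑ y ∈ bl z R, (Mh z R v y - c₁) ^ 2 ≤
          ∑ y ∈ bl z R, 2 * ((v y - c₁) ^ 2 + (v - Mh z R v) y ^ 2) := sum_le_sum fun y _ => by
        rw [Pi.sub_apply]; nlinarith [sq_nonneg (2 * v y - c₁ - Mh z R v y)]
      rw [← mul_sum, sum_add_distrib] at a1
      have a2 := mul_le_mul (show 2 * (2 * R + 2 : ℝ) ^ 2 ≤ 18 * R ^ 2 by nlinarith) q2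
        (hD.nonneg _) (by positivity)
      nlinarith
    have q5 : ∑ y ∈ bl z R, |Mh z R v y - c₁| ≤ 35 * (R : ℝ) ^ 2 * s := by
      refine abs_le_of_sq_le_sq' ((sq_sum_abs_le _ _).trans ?_) (by positivity) |>.2
      have a1 : ((bl z R).card : ℝ) ≤ 9 * (R : ℝ) ^ 2 := by rw [card_bl]; push_cast; nlinarith
      refine (mul_le_mul a1 q4 (sum_nonneg fun _ _ => sq_nonneg _) (by positivity)).trans ?_
      nlinarith [sq_nonneg ((R : ℝ) ^ 2 * s)]
    have q6 := hC (R / 8) (fun y => Mh z R v y - c₁) x 0 (by omega) fun y hy => by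
      rw [lap_sub_const, lap_Mh v (bl_subset_bl hx (by omega) hy), abs_zero]
    have q7 : ∑ y ∈ bl x (2 * (R / 8) + 1) \ bl x (R / 8), |Mh z R v y - c₁| ≤ 35 * (R : ℝ) ^ 2 * s :=
      (sum_le_sum_of_subset_of_nonneg (sdiff_subset.trans (bl_subset_bl hx (by omega)))
        fun _ _ _ => abs_nonneg _).trans q5
    have q8 : (R : ℝ) ≤ 16 * (R / 8 : ℕ) := by exact_mod_cast (by omega : R ≤ 16 * (R / 8))
    have q9 : (0 : ℝ) < (R / 8 : ℕ) := by linarith
    rw [hM, add_sub_add_right_eq_sub]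
    refine fin (K := |C| * 9000) (by positivity) (by linarith) (q6.trans ?_)
    rw [mul_zero, add_zero, mul_assoc]
    refine mul_le_mul (le_abs_self C) ?_ (by positivity) (abs_nonneg _)
    rw [div_le_iff₀ (by positivity)]
    nlinarith [mul_le_mul_of_nonneg_right (pow_le_pow_left₀ (by positivity) q8 2) s0,
      mul_nonneg (sq_nonneg ((R / 8 : ℕ) : ℝ)) s0]
  · have q1 := card_an_ge z R
    have q0 : (0 : ℝ) < (an z R (2 * R)).card := lt_of_lt_of_le (by positivity) q1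
    have q2 : av (an z R (2 * R)) u = av (an z R (2 * R)) v + c₀ := by
      rw [av, av, sum_congr rfl fun x (hx : x ∈ an z R (2 * R)) => huv x (mem_sdiff.1 hx).2,
        sum_add_distrib, sum_const, nsmul_eq_mul, add_div, mul_div_cancel_left₀ _ q0.ne']
    have q3 := (Po44.card_mul_av_sub (an z R (2 * R)) v c₁).trans
      ((sum_le_sum_of_subset_of_nonneg sdiff_subset fun _ _ _ => sq_nonneg _).trans P)
    rw [q2, add_sub_add_right_eq_sub]
    refine fin (K := 8) (by positivity) (by linarith [abs_nonneg C]) (abs_le_of_sq_le_sq' ?_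
      (by positivity) |> abs_le.2)
    have q4 := mul_le_mul_of_nonneg_right q1 (sq_nonneg (av (an z R (2 * R)) v - c₁))
    refine le_of_mul_le_mul_left (a := (R : ℝ) ^ 2) ?_ (by positivity)
    nlinarith [sq_nonneg (R * s)]

theorem dif_sub_const (e : Pt) (φ : Pt → ℝ) (c : ℝ) (x : Pt) :
    dif e (fun y => φ y - c) x = dif e φ x := by simp only [dif, sub_sub_sub_cancel_right]

theorem pc_add (u v : Pt → ℝ) (i : Fin 2) : pc z (u + v) i = pc z u i + pc z v i := by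
  simp only [pc, Pi.add_apply]; ring
theorem pc_smul (c : ℝ) (u : Pt → ℝ) (i : Fin 2) : pc z (c • u) i = c * pc z u i := by
  simp only [pc, Pi.smul_apply, smul_eq_mul]; ring

theorem ev_nn (i : Fin 2) : ev i ∈ nn := by fin_cases i <;> decide
theorem neg_nn {e : Pt} (he : e ∈ nn) : -e ∈ nn := nL_ok.neg he

/-- flows of the outer functionals -/
theorem fn_out : ∃ C : ℝ, 0 ≤ C ∧ ∀ (z : Pt) (R : ℕ), 16 ≤ R →
    (∀ w ∈ bl z (R / 2), Fn (nL.edI (an z (R / 8) (2 * R))) (fun u => Mh z R u w - Mh z R u z) (C ^ 2)) ∧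
    (∀ i, Fn (nL.edI (an z (R / 8) (2 * R))) (fun u => pc z (Mh z R u) i) ((C / R) ^ 2)) ∧
    (∀ r, 4 * r ≤ R → Fn (nL.edI (an z (R / 8) (2 * R)))
      (fun u => Hh z r R (Mh z R u) - Mh z R u z) ((C * r / R) ^ 2)) ∧
    Fn (nL.edI (an z (R / 8) (2 * R))) (fun u => Mh z R u z - av (an z R (2 * R)) u) (C ^ 2) := by
  obtain ⟨C, C0, hC⟩ := outer
  refine ⟨128 * C, by positivity, fun z R hR => ?_⟩
  replace hC := hC z R hR
  have R1 : (16 : ℝ) ≤ R := by exact_mod_cast hR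
  have two : ∀ {a b c t : ℝ}, 0 ≤ t → |a - c| ≤ C * t → |b - c| ≤ C * t → |a - b| ≤ 128 * C * t :=
    fun {a b c t} ht h1 h2 => by
      have := mul_nonneg C0 ht
      rw [abs_le] at *; constructor <;> linarith [h1.1, h1.2, h2.1, h2.2]
  have gr : ∀ u, ∀ x ∈ bl z (R / 4), ∀ e ∈ nn,
      |dif e (Mh z R u) x| ≤ 64 * C / R * √(eN nL (an z (R / 8) (2 * R)) u u) := fun u x hx e he => by
    obtain ⟨c, h1, -⟩ := hC u
    have q8 : (R : ℝ) ≤ 16 * (R / 8 : ℕ) := by exact_mod_cast (by omega : R ≤ 16 * (R / 8))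
    have := Ha91.grad (r := R / 8) (by omega) (u := fun y => Mh z R u y - c) (z := x) (δ := 0)
      (fun y hy => by rw [lap_sub_const, lap_Mh u (bl_subset_bl hx (by omega) hy), abs_zero])
      (fun y hy => h1 y (bl_subset_bl hx (by omega) hy)) he
    rw [dif_sub_const, mul_zero, add_zero] at this
    refine this.trans ?_
    rw [← mul_div_assoc, div_mul_eq_mul_div, div_le_div_iff₀ (by linarith) (by linarith)]
    nlinarith [mul_le_mul_of_nonneg_left q8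
      (mul_nonneg C0 (Real.sqrt_nonneg (eN nL (an z (R / 8) (2 * R)) u u)))]
  refine ⟨fun w hw => fn_of_abs (fun u v => by simp only [Mh_add, Pi.add_apply]; ring)
      (fun c u => by simp only [Mh_smul, Pi.smul_apply, smul_eq_mul]; ring) fun u => ?_,
    fun i => fn_of_abs (fun u v => by rw [Mh_add, pc_add]) (fun c u => by rw [Mh_smul, pc_smul])
      fun u => ?_,
    fun r hr => fn_of_abs (fun u v => by simp only [Mh_add, Hh_add, Pi.add_apply]; ring)
      (fun c u => by simp only [Mh_smul, Hh_smul, Pi.smul_apply, smul_eq_mul]; ring) fun u => ?_,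
    fn_of_abs (fun u v => by simp only [Mh_add, av_add, Pi.add_apply]; ring)
      (fun c u => by simp only [Mh_smul, av_smul, Pi.smul_apply, smul_eq_mul]; ring) fun u => ?_⟩
  · obtain ⟨c, h1, -⟩ := hC u
    exact two (Real.sqrt_nonneg _) (h1 w hw) (h1 z (self_mem_bl _ _))
  · have h1 := gr u z (self_mem_bl _ _) _ (ev_nn i)
    have h2 := gr u z (self_mem_bl _ _) _ (neg_nn (ev_nn i))
    have h3 : 0 ≤ C / R * √(eN nL (an z (R / 8) (2 * R)) u u) := by positivity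
    simp only [dif, ← sub_eq_add_neg, mul_div_assoc, mul_assoc] at h1 h2
    rw [pc, mul_div_assoc, mul_assoc, ← eN, abs_le] at *
    constructor <;> linarith [h1.1, h1.2, h2.1, h2.2]
  · have h1 := abs_Hh_le (z := z) (r := r) (R := R) (by omega)
      (u := fun x => Mh z R u x + -Mh z R u z) fun x hx =>
        osc_bl (fun y hy => gr u y (bl_mono z (by omega) hy)) hx
    rw [Hh_shift (by omega)] at h1
    exact h1.trans_eq (by rw [eN]; ring)
  · obtain ⟨c, h1, h2⟩ := hC u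
    exact two (Real.sqrt_nonneg _) (h1 z (self_mem_bl _ _)) h2

/-! ## Taylor expansions -/

/-- K3 (ii) from a sup bound -/
theorem fn_Yb' (hr : 4 ≤ r) (hR : 2 * r ≤ R) {φ : Pt → ℝ} (hφ : ∀ x ∈ bl z (3 * r), lap φ x = 0)
    {c K : ℝ} (hK : ∀ x ∈ bl z (4 * r), |φ x - c| ≤ K) :
    Fn (nL.edI (an z (r / 2) (2 * r))) (fun u => Yb z r R u φ) ((4 * 10 ^ 6 * K) ^ 2) := by
  have p4 : (4 : ℝ) ≤ r := by exact_mod_cast hr
  refine (fn_Yb hr hR (fun x hx => hφ x (mem_bl_ds.2 (by push_cast; omega))) (K := 4 * (K / r))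
    fun x hx e he => ?_).mono (le_of_eq (by field_simp))
  have := Ha91.grad (r := r) (by omega) (u := fun y => φ y - c) (z := x) (δ := 0)
    (fun y hy => by rw [lap_sub_const, hφ y (bl_subset_bl hx (by omega) hy), abs_zero])
    (fun y hy => hK y (bl_subset_bl hx (by omega) hy)) he
  rwa [dif_sub_const, mul_zero, add_zero] at this

theorem difs_kk : ∃ C : ℝ, 0 ≤ C ∧ ∀ (z : Pt) (ρ : ℕ), 2 ≤ ρ → ∀ w ∈ an z (3 * ρ) (6 * ρ),
    ∀ x ∈ bl z (ρ - 1), ∀ e ∈ nn, |dif e (kk z ρ w) x| ≤ C / (ρ : ℝ) ^ 3 ∧ ∀ e' ∈ nn,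
      |difs [e', e] (kk z ρ w) x| ≤ C / (ρ : ℝ) ^ 4 ∧ ∀ e'' ∈ nn,
        |difs [e'', e', e] (kk z ρ w) x| ≤ C / (ρ : ℝ) ^ 5 := by
  obtain ⟨C, C0, hC⟩ := dif_kk
  obtain ⟨C₁, c1, h₁⟩ := Ha91.harm3 1
  obtain ⟨C₂, c2, h₂⟩ := Ha91.harm3 2
  refine ⟨(1 + C₁ + C₂) * C, by positivity, fun z ρ hρ w hw x hx e he => ?_⟩
  have p : (2 : ℝ) ≤ ρ := by exact_mod_cast hρ
  have a1 : ∀ y ∈ bl x ρ, lap (dif e (kk z ρ w)) y = 0 := fun y hy => by
    have b1 := mem_bl_ds.1 (bl_subset_bl hx (le_refl (ρ + (ρ - 1))) hy)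
    have b2 : ∀ y', ds z y' ≤ 2 * ρ → lap (kk z ρ w) y' = 0 := fun y' h => lap_kk fun h' => by
      have := abs_le.1 (ds_lip z h')
      rw [mem_an] at hw; push_cast at *; omega
    have b3 := abs_le.1 (ds_lip z (add_nn_mem_bl he y))
    rw [lap, lapJ_dif, dif, ← lap, b2 _ (by push_cast at *; omega), b2 _ (by omega), sub_self]
  have a2 : ∀ y ∈ bl x (ρ + 1), |dif e (kk z ρ w) y| ≤ C / (ρ : ℝ) ^ 3 := fun y hy =>
    hC z ρ (by omega) w hw y (bl_subset_bl hx (by omega) hy) e he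
  have b1 := mul_nonneg c1 C0
  have b2 := mul_nonneg c2 C0
  refine ⟨(a2 x (self_mem_bl _ _)).trans (by gcongr; nlinarith), fun e' he' =>
    ⟨(h₁ ρ _ x _ (by omega) (by omega) a1 a2 [e'] rfl (by simpa using he')).trans ?_, fun e'' he'' =>
      (h₂ ρ _ x _ hρ (by omega) a1 a2 [e'', e'] rfl (by simp [he', he''])).trans ?_⟩⟩
  · rw [← mul_div_assoc, div_div, ← pow_add]; gcongr; nlinarith
  · rw [← mul_div_assoc, div_div, ← pow_add]; gcongr; nlinarith

theorem tay_pc {n : ℕ} {f : Pt → ℝ} {K : ℝ}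
    (h : ∀ x ∈ bl z (n + 1), ∀ e ∈ nn, ∀ e' ∈ nn, |difs [e, e'] f x| ≤ K) {x : Pt} (hx : x ∈ bl z n) :
    |f x - ∑ i, pc z f i * cx z i x - f z| ≤ 5 * (n : ℝ) ^ 2 * K := by
  have h1 := (tayStmt n f z (x - z) ((Ha91.add_mem_bl (z := z)).1 (by simpa using hx))).2.1 K h
  have h2 := h z (self_mem_bl _ _) _ Ha91.e1_nn _ (neg_nn Ha91.e1_nn)
  have h3 := h z (self_mem_bl _ _) _ Ha91.e2_nn _ (neg_nn Ha91.e2_nn)
  simp only [difs, dif, add_sub_cancel_right, ← sub_eq_add_neg] at h2 h3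
  rw [mem_bl_abs] at hx
  have h4 : |((x - z).1 : ℝ)| ≤ n := by exact_mod_cast hx.1
  have h5 : |((x - z).2 : ℝ)| ≤ n := by exact_mod_cast hx.2
  have K0 := (abs_nonneg _).trans h2
  have h6 := mul_le_mul h4 h2 (abs_nonneg _) n.cast_nonneg
  have h7 := mul_le_mul h5 h3 (abs_nonneg _) n.cast_nonneg
  have h8 : (n : ℝ) * K ≤ n ^ 2 * K := mul_le_mul_of_nonneg_right (by
    exact_mod_cast Nat.le_self_pow two_ne_zero n) K0
  rw [← abs_mul] at h6 h7
  simp only [add_sub_cancel, dif] at h1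
  simp only [Fin.sum_univ_two, pc, cx, co, ev, Matrix.cons_val_zero, Matrix.cons_val_one]
  rw [abs_le] at *
  constructor <;> linarith [h1.1, h1.2, h6.1, h6.2, h7.1, h7.2]

theorem tay_rot {n : ℕ} (hn : 1 ≤ n) {f : Pt → ℝ} {K : ℝ} (h0 : lap f z = 0)
    (h : ∀ x ∈ bl z (n + 2), ∀ e ∈ nn, ∀ e' ∈ nn, ∀ e'' ∈ nn, |difs [e, e', e''] f x| ≤ K) {y : Pt}
    (hy : y ∈ bl 0 n) : |f (z + y) + f (z + (-y.2, y.1)) + f (z + (-y.1, -y.2)) + f (z + (y.2, -y.1)) -
      4 * f z| ≤ 36 * (n : ℝ) ^ 3 * K := by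
  have m : |y.1| ≤ n ∧ |y.2| ≤ n := by simpa [mem_bl_abs] using hy
  have h1 := (tayStmt n f z y hy).2.2 K h
  have h2 := (tayStmt n f z (-y.2, y.1) (by simp [mem_bl_abs, m])).2.2 K h
  have h3 := (tayStmt n f z (-y.1, -y.2) (by simp [mem_bl_abs, m])).2.2 K h
  have h4 := (tayStmt n f z (y.2, -y.1) (by simp [mem_bl_abs, m])).2.2 K h
  have h5 := h z (self_mem_bl _ _) _ (neg_nn Ha91.e1_nn) _ Ha91.e1_nn _ Ha91.e1_nn
  have h6 := h z (self_mem_bl _ _) _ (neg_nn Ha91.e2_nn) _ Ha91.e2_nn _ Ha91.e2_nn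
  have h7 : difs [(1, 0), (1, 0)] f z + difs [(0, 1), (0, 1)] f z = lap f z -
      difs [-(1, 0), (1, 0), (1, 0)] f z - difs [-(0, 1), (0, 1), (0, 1)] f z := by
    obtain ⟨a, b⟩ := z
    simp only [difs, dif, lap_apply, Prod.neg_mk, Prod.mk_add_mk, add_zero, neg_zero,
      ← sub_eq_add_neg, sub_add_cancel]
    ring
  have K0 := (abs_nonneg _).trans h5
  have h8 : |difs [(1, 0), (1, 0)] f z + difs [(0, 1), (0, 1)] f z| ≤ 2 * K := by
    rw [h7, h0, abs_le] at *; constructor <;> linarith [h5.1, h5.2, h6.1, h6.2]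
  have h9 : |(y.1 : ℝ) ^ 2 + (y.2 : ℝ) ^ 2| ≤ 2 * (n : ℝ) ^ 3 := by
    have a1 : |(y.1 : ℝ)| ≤ n := by exact_mod_cast m.1
    have a2 : |(y.2 : ℝ)| ≤ n := by exact_mod_cast m.2
    have a3 : (n : ℝ) ^ 2 ≤ n ^ 3 := pow_le_pow_right₀ (by exact_mod_cast hn) (by norm_num)
    rw [abs_of_nonneg (by positivity), ← sq_abs (y.1 : ℝ), ← sq_abs (y.2 : ℝ)]
    linarith [pow_le_pow_left₀ (abs_nonneg _) a1 2, pow_le_pow_left₀ (abs_nonneg _) a2 2]
  have h10 := mul_le_mul h9 h8 (abs_nonneg _) (by positivity)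
  rw [← abs_mul] at h10
  push_cast at h2 h3 h4
  rw [abs_le] at *
  constructor <;> linarith [h1.1, h1.2, h2.1, h2.2, h3.1, h3.2, h4.1, h4.2, h10.1, h10.2]

theorem lap_cx (i : Fin 2) (x : Pt) : lap (cx z i) x = 0 := by
  fin_cases i <;> simp [lap_apply, cx, co] <;> ring

theorem dif_cx (i : Fin 2) {e : Pt} (he : e ∈ nn) (x : Pt) : |dif e (cx z i) x| ≤ 1 := by
  have := abs_nn_le he
  fin_cases i
  · simpa [dif, cx, co] using this.1
  · simpa [dif, cx, co] using this.2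

theorem Hh_cx (i : Fin 2) : Hh z r R (cx z i) = 0 := by
  have h := ((dq_rot z).trans (dq_rot z)).Hh (r := r) (R := R) (cx z i)
  rw [show cx z i ∘ (rotZ z).trans (rotZ z) = fun x => -cx z i x by
    funext x; fin_cases i <;> simp [cx, co, rotZ], Hh_neg] at h
  linarith

end Crest.Agent.T145.Pot.K85
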