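import Crest.Agent.T145.KsB_68

/-!
# Row 145 (helper78): removal of a hole or a slit in a twisted sector (GOUT on the extended lattice)
-/

set_option autoImplicit false

namespace Crest.Agent.T145.Kv78

open Finset Nc Ks68


variable {V Q : Type} [DecidableEq V] [AddCommGroup Q] {m m' : Mdl V} {N S U K T : Finset V}







/-- upper bound, sector by sector, any seam -/
theorem zx_le (hc : m.Ctr) (ha : m.Anch) (h : Cut m N S U K T) (σ : V × V → ℤ) {G : Cfg V → ℝ}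
    (oG : Out (N ∪ U \ T) G) (G0 : ∀ s, 0 ≤ G s) (iG : Ig ((hole m N).Ws 0 σ) G) :
    zx m σ G ≤ cr m U K T * zx (hole m N) σ G := by
  have hn : N.Nonempty := h.ne.mono h.sub
  have k := (td1io hc ha h (empty_subset N) σ (F := fun _ => 1) (DepG.const _ _) (fun _ => zero_le_one)
    ((wt_rWs hc.1 h.cn hn σ).ig_const 1) oG G0 iG).2
  simp only [one_mul, cr_empty hc.1 h.toBox, zx_one] at k
  refine k.trans (mul_le_mul_of_nonneg_right (mul_le_of_le_one_right (cr_nonneg hc.1 _ _ _)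
    (zr_le_one (fr_ctr hc.1 _) (fr_anch h.cn hn) σ)) (zx_nonneg (hole_ctr hc N) σ G0))



theorem zx_add_sub (hc : m.Ctr) (ha : m.Anch) (σ : V × V → ℤ) {G : Cfg V → ℝ} {C : ℝ} (hG : ∀ s, |G s| ≤ C) :
    zx m σ (fun s => C + G s) = C * zr m σ + zx m σ G ∧ zx m σ (fun s => C - G s) = C * zr m σ - zx m σ G := by
  have w := Md.ctr_wts hc ha 0 σ
  rw [zx_eq w, zx_eq w, zx_eq w, Ex_add (w.ig_const _) (w.ig_bdd hG), Ex_sub (w.ig_const _) (w.ig_bdd hG),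
    w.ex_const]
  constructor <;> ring

theorem abs_zx_le (hc : m.Ctr) (ha : m.Anch) (σ : V × V → ℤ) {G : Cfg V → ℝ} {C : ℝ} (hG : ∀ s, |G s| ≤ C) :
    |zx m σ G| ≤ C * zr m σ := by
  have w := Md.ctr_wts hc ha 0 σ
  rw [zx_eq w, abs_mul, abs_of_pos (zr_pos hc ha σ), mul_comm]
  exact mul_le_mul_of_nonneg_right (w.abs_ex_le fun s _ => hG s) (zr_pos hc ha σ).le



/-- from unnormalised to normalised means -/
theorem ex_of_zx (hc : m.Ctr) (ha : m.Anch) (hc' : m'.Ctr) (ha' : m'.Anch) {σ σ' : V × V → ℤ}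
    {G : Cfg V → ℝ} {C δ : ℝ} (hG : ∀ s, |G s| ≤ C) (h1 : |zr m σ - zr m' σ'| ≤ δ)
    (h2 : |zx m σ G - zx m' σ' G| ≤ δ * C) :
    |Ex (m.Ws 0 σ) G - Ex (m'.Ws 0 σ') G| ≤ 2 * δ * C / zr m σ := by
  have w := Md.ctr_wts hc ha 0 σ
  have w' := Md.ctr_wts hc' ha' 0 σ'
  have z := zr_pos hc ha σ
  have b := w'.abs_ex_le fun s _ => hG s
  rw [zx_eq w, zx_eq w'] at h2
  rw [le_div_iff₀ z, ← abs_of_pos z, ← abs_mul, show (Ex (m.Ws 0 σ) G - Ex (m'.Ws 0 σ') G) * zr m σ =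
    (zr m σ * Ex (m.Ws 0 σ) G - zr m' σ' * Ex (m'.Ws 0 σ') G) - (zr m σ - zr m' σ') * Ex (m'.Ws 0 σ') G by ring]
  refine (abs_sub _ _).trans ?_
  rw [abs_mul]
  have := mul_le_mul h1 b (abs_nonneg _) ((abs_nonneg _).trans h1)
  linarith

end Crest.Agent.T145.Kv78
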