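import Mathlib

-- ▼ part T145/PeiA_33
section

/-!
# Row 145, Peierls argument, part A: lattice animals, curl-free fields (helper33)
-/

set_option autoImplicit false

namespace Crest.Agent.T145.Pei

open Finset Relation
open scoped ENNReal

abbrev P : Type := ℤ × ℤ

/-- closed `*`-neighbourhood -/
noncomputable def nb (a : P) : Finset P := Icc (a.1 - 1) (a.1 + 1) ×ˢ Icc (a.2 - 1) (a.2 + 1)

theorem mem_nb {a b : P} : b ∈ nb a ↔ a.1 - 1 ≤ b.1 ∧ b.1 ≤ a.1 + 1 ∧ a.2 - 1 ≤ b.2 ∧ b.2 ≤ a.2 + 1 := by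
  simp only [nb, mem_product, mem_Icc]; tauto

theorem card_nb (a : P) : (nb a).card = 9 := by
  simp only [nb, card_product, Int.card_Icc]
  have h1 : a.1 + 1 + 1 - (a.1 - 1) = 3 := by ring
  have h2 : a.2 + 1 + 1 - (a.2 - 1) = 3 := by ring
  rw [h1, h2]; rfl

noncomputable def Nb (γ : Finset P) : Finset P := γ.biUnion nb

theorem card_Nb (γ : Finset P) : (Nb γ).card ≤ 9 * γ.card := by
  refine card_biUnion_le.trans ?_
  simp [card_nb, mul_comm]

theorem sub_Nb {γ : Finset P} {a : P} (h : a ∈ γ) : a ∈ Nb γ :=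
  mem_biUnion.2 ⟨a, h, mem_nb.2 (by omega)⟩

/-- one step inside `A` -/
def St (A : Finset P) (a b : P) : Prop := b ∈ A ∧ b ∈ nb a

/-- `γ` is connected from `x` -/
def Cn (γ : Finset P) (x : P) : Prop := x ∈ γ ∧ ∀ y ∈ γ, ReflTransGen (St γ) x y

/-- `γ` is a union of components of `A` -/
def Cl (A γ : Finset P) : Prop := γ ⊆ A ∧ ∀ a ∈ γ, ∀ b ∈ A, b ∈ nb a → b ∈ γ

open Classical in
/-- the component of `x` in `A` -/
noncomputable def cp (A : Finset P) (x : P) : Finset P := A.filter fun y => ReflTransGen (St A) x y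

theorem mem_cp {A : Finset P} {x y : P} : y ∈ cp A x ↔ y ∈ A ∧ ReflTransGen (St A) x y := by
  simp [cp]

theorem cl_cp (A : Finset P) (x : P) : Cl A (cp A x) :=
  ⟨fun _ h => (mem_cp.1 h).1, fun _ ha _ hb hab =>
    mem_cp.2 ⟨hb, (mem_cp.1 ha).2.tail ⟨hb, hab⟩⟩⟩

theorem cn_cp {A : Finset P} {x : P} (hx : x ∈ A) : Cn (cp A x) x := by
  refine ⟨mem_cp.2 ⟨hx, .refl⟩, fun y hy => ?_⟩
  have h := (mem_cp.1 hy).2
  clear hy
  induction h with
  | refl => exact .refl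
  | tail h1 h2 ih => exact ih.tail ⟨mem_cp.2 ⟨h2.1, h1.tail h2⟩, h2.2⟩

theorem cp_sub {A : Finset P} {x y : P} (h : y ∈ cp A x) : cp A y ⊆ cp A x := fun _ hz =>
  mem_cp.2 ⟨(mem_cp.1 hz).1, (mem_cp.1 h).2.trans (mem_cp.1 hz).2⟩

theorem Cn.sub {γ γ' : Finset P} {x : P} (h : Cn γ x) (hx : x ∈ γ')
    (hc : ∀ a ∈ γ', ∀ b ∈ γ, b ∈ nb a → b ∈ γ') : γ ⊆ γ' := by
  intro y hy
  have h2 := h.2 y hy
  clear hy
  induction h2 with
  | refl => exact hx
  | tail _ h2 ih => exact hc _ ih _ h2.1 h2.2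

/-- a connected set is at least as large as its width -/
theorem Cn.width {γ : Finset P} {x y : P} (h : Cn γ x) (hy : y ∈ γ) :
    |y.1 - x.1| < γ.card := by
  have key : ∀ z, ReflTransGen (St γ) x z → ∀ t, t ∈ uIcc x.1 z.1 → t ∈ γ.image Prod.fst := by
    intro z hz
    induction hz with
    | refl => intro t ht; rw [uIcc_self, mem_singleton] at ht; exact mem_image.2 ⟨x, h.1, ht.symm⟩
    | @tail b c _ h2 ih =>
      intro t ht
      by_cases htc : t = c.1
      · exact mem_image.2 ⟨c, h2.1, htc.symm⟩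
      · refine ih t ?_
        have := mem_nb.1 h2.2
        rw [mem_uIcc] at ht ⊢
        omega
  have h1 : (uIcc x.1 y.1).card ≤ γ.card :=
    (card_le_card fun t ht => key y (h.2 y hy) t ht).trans card_image_le
  rw [Int.card_uIcc] at h1
  have h2 : |y.1 - x.1| = ((y.1 - x.1).natAbs : ℤ) := (Int.natCast_natAbs _).symm
  omega

/-- lattice animals -/
theorem animals (U : Finset P) (x : P) (𝒢 : Finset (Finset P)) (h : ∀ γ ∈ 𝒢, γ ⊆ U ∧ Cn γ x) :
    ∑ γ ∈ 𝒢, (2⁻¹ : ℝ≥0∞) ^ (9 * γ.card) ≤ 1 := by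
  classical
  set fam : Finset P → Finset (Finset P) := fun γ => (U \ Nb γ).powerset.image (γ ∪ ·) with hfam
  have hmem : ∀ γ, ∀ A ∈ fam γ, γ ⊆ A ∧ ∀ b ∈ A, b ∈ Nb γ → b ∈ γ := by
    intro γ A hA
    obtain ⟨T, hT, rfl⟩ := mem_image.1 hA
    refine ⟨subset_union_left, fun b hb hN => ?_⟩
    rcases mem_union.1 hb with h1 | h1
    · exact h1
    · exact absurd hN (mem_sdiff.1 (mem_powerset.1 hT h1)).2
  have hcard : ∀ γ, (fam γ).card = 2 ^ (U \ Nb γ).card := by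
    intro γ
    rw [hfam, card_image_of_injOn, card_powerset]
    intro T hT T' hT' he
    have hd : ∀ S ∈ (U \ Nb γ).powerset, (γ ∪ S) \ γ = S := by
      intro S hS
      ext a
      simp only [mem_sdiff, mem_union]
      constructor
      · tauto
      · intro ha
        exact ⟨Or.inr ha, fun h' => (mem_sdiff.1 (mem_powerset.1 hS ha)).2 (sub_Nb h')⟩
    rw [← hd T (mem_coe.1 hT), ← hd T' (mem_coe.1 hT')]
    simp only at he
    rw [he]
  have hsub : ∀ γ γ', Cn γ x → Cn γ' x → ∀ A ∈ fam γ, A ∈ fam γ' → γ ⊆ γ' := by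
    intro γ γ' h1 h2 A hA hA'
    exact h1.sub h2.1 fun a ha b hb hab =>
      (hmem γ' A hA').2 b ((hmem γ A hA).1 hb) (mem_biUnion.2 ⟨a, ha, hab⟩)
  have hdisj : (𝒢 : Set (Finset P)).PairwiseDisjoint fam := by
    intro γ hγ γ' hγ' hne
    rw [Function.onFun, disjoint_left]
    intro A hA hA'
    exact hne (Subset.antisymm (hsub γ γ' (h γ hγ).2 (h γ' hγ').2 A hA hA')
      (hsub γ' γ (h γ' hγ').2 (h γ hγ).2 A hA' hA))
  have hle : ∑ γ ∈ 𝒢, 2 ^ (U \ Nb γ).card ≤ 2 ^ U.card := by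
    rw [← card_powerset U, ← sum_congr rfl fun γ _ => hcard γ, ← card_biUnion hdisj]
    refine card_le_card fun A hA => ?_
    obtain ⟨γ, hγ, hA⟩ := mem_biUnion.1 hA
    obtain ⟨T, hT, rfl⟩ := mem_image.1 hA
    exact mem_powerset.2 (union_subset (h γ hγ).1 ((mem_powerset.1 hT).trans sdiff_subset))
  have hle' : ∑ γ ∈ 𝒢, (2 : ℝ≥0∞) ^ (U \ Nb γ).card ≤ 2 ^ U.card := by exact_mod_cast hle
  have h2 : (2 : ℝ≥0∞) ^ U.card ≠ 0 := by simp
  have h2' : (2 : ℝ≥0∞) ^ U.card ≠ ⊤ := by simp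
  rw [← ENNReal.mul_le_mul_iff_right h2 h2', mul_one, mul_sum]
  refine le_trans (sum_le_sum fun γ _ => ?_) hle'
  have h3 : U.card ≤ (U \ Nb γ).card + 9 * γ.card := by
    have := card_Nb γ
    have := le_card_sdiff (Nb γ) U
    omega
  calc (2 : ℝ≥0∞) ^ U.card * 2⁻¹ ^ (9 * γ.card)
      ≤ 2 ^ ((U \ Nb γ).card + 9 * γ.card) * 2⁻¹ ^ (9 * γ.card) := by
        gcongr; norm_num
    _ = 2 ^ (U \ Nb γ).card := by
        rw [pow_add, mul_assoc, ← mul_pow, ENNReal.mul_inv_cancel (by simp) (by simp), one_pow,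
          mul_one]

/-! ## fields -/

def e1 : P := (1, 0)
def e2 : P := (0, 1)

/-- gradient: (horizontal, vertical) -/
def grad (n : P → ℤ) (y : P) : ℤ × ℤ := (n (y + e1) - n y, n (y + e2) - n y)

def curl (η : P → ℤ × ℤ) (p : P) : ℤ := (η p).1 + (η (p + e1)).2 - (η (p + e2)).1 - (η p).2

/-- restriction of a field -/
def res (γ : Finset P) (η : P → ℤ × ℤ) (y : P) : ℤ × ℤ := if y ∈ γ then η y else 0

theorem curl_grad (n : P → ℤ) (p : P) : curl (grad n) p = 0 := by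
  have : p + e1 + e2 = p + e2 + e1 := by abel
  simp only [curl, grad, this]; ring

theorem curl_add (η ζ : P → ℤ × ℤ) (p : P) : curl (η + ζ) p = curl η p + curl ζ p := by
  simp only [curl, Pi.add_apply, Prod.fst_add, Prod.snd_add]; ring

theorem curl_sub (η ζ : P → ℤ × ℤ) (p : P) : curl (η - ζ) p = curl η p - curl ζ p := by
  simp only [curl, Pi.sub_apply, Prod.fst_sub, Prod.snd_sub]; ring

theorem curl_res_of {A γ : Finset P} (h : Cl A γ) {η : P → ℤ × ℤ} (hη : ∀ y, y ∉ A → η y = 0)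
    {p : P} (hp : p ∈ γ ∨ p + e1 ∈ γ ∨ p + e2 ∈ γ) : curl (res γ η) p = curl η p := by
  have key : ∀ b, (b = p ∨ b = p + e1 ∨ b = p + e2) → res γ η b = η b := by
    intro b hb
    unfold res
    split_ifs with h1
    · rfl
    · refine (hη b fun hA => h1 ?_).symm
      rcases hp with hp | hp | hp <;> refine h.2 _ hp b hA (mem_nb.2 ?_) <;>
        rcases hb with rfl | rfl | rfl <;> simp [e1, e2] <;> omega
  simp only [curl, key p (by simp), key (p + e1) (by simp), key (p + e2) (by simp)]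

theorem curl_res_not {γ : Finset P} (η : P → ℤ × ℤ) {p : P}
    (hp : ¬(p ∈ γ ∨ p + e1 ∈ γ ∨ p + e2 ∈ γ)) : curl (res γ η) p = 0 := by
  push Not at hp
  simp [curl, res, hp.1, hp.2.1, hp.2.2]

theorem sum_curl (U : Finset P) (ζ : P → ℤ × ℤ) (h : ∀ y, y ∉ U → ζ y = 0) :
    ∑ᶠ p, curl ζ p = 0 := by
  have f1 : (Function.support fun p => (ζ p).1).Finite :=
    U.finite_toSet.subset fun p hp => by
      by_contra h'; exact hp (by simp [h p h'])
  have f2 : (Function.support fun p => (ζ p).2).Finite :=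
    U.finite_toSet.subset fun p hp => by
      by_contra h'; exact hp (by simp [h p h'])
  have g1 : (Function.support fun p => (ζ (p + e2)).1).Finite :=
    f1.preimage (f := fun p => p + e2) (add_left_injective e2).injOn
  have g2 : (Function.support fun p => (ζ (p + e1)).2).Finite :=
    f2.preimage (f := fun p => p + e1) (add_left_injective e1).injOn
  have s1 : ∑ᶠ p, (ζ (p + e2)).1 = ∑ᶠ p, (ζ p).1 :=
    finsum_comp_equiv (Equiv.addRight e2) (f := fun p => (ζ p).1)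
  have s2 : ∑ᶠ p, (ζ (p + e1)).2 = ∑ᶠ p, (ζ p).2 :=
    finsum_comp_equiv (Equiv.addRight e1) (f := fun p => (ζ p).2)
  have e : ∀ p, curl ζ p = ((ζ p).1 - (ζ (p + e2)).1) + ((ζ (p + e1)).2 - (ζ p).2) := by
    intro p; simp only [curl]; ring
  simp only [e]
  rw [finsum_add_distrib, finsum_sub_distrib f1 g1, finsum_sub_distrib g2 f2, s1, s2]
  · simp
  · exact (f1.union g1).subset (Function.support_sub _ _)
  · exact (g2.union f2).subset (Function.support_sub _ _)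

/-- a rectangle -/
def Rect (Λ : Finset P) : Prop := ∃ a b c d : ℤ, ∀ y, y ∈ Λ ↔ a ≤ y.1 ∧ y.1 ≤ b ∧ c ≤ y.2 ∧ y.2 ≤ d

/-- the field vanishes on the bonds with both ends off `Λ` -/
def Off (Λ : Finset P) (η : P → ℤ × ℤ) : Prop :=
  ∀ y, y ∉ Λ → (y + e1 ∉ Λ → (η y).1 = 0) ∧ (y + e2 ∉ Λ → (η y).2 = 0)

theorem off_grad {Λ : Finset P} {n : P → ℤ} (h : ∀ y, y ∉ Λ → n y = 0) : Off Λ (grad n) :=
  fun y hy => ⟨fun h1 => by simp [grad, h y hy, h _ h1], fun h1 => by simp [grad, h y hy, h _ h1]⟩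

theorem Off.add {Λ : Finset P} {η ζ : P → ℤ × ℤ} (h : Off Λ η) (h' : Off Λ ζ) : Off Λ (η + ζ) :=
  fun y hy => ⟨fun h1 => by simp [(h y hy).1 h1, (h' y hy).1 h1],
    fun h1 => by simp [(h y hy).2 h1, (h' y hy).2 h1]⟩

theorem Off.res {Λ : Finset P} {η : P → ℤ × ℤ} (h : Off Λ η) (γ : Finset P) : Off Λ (res γ η) := by
  intro y hy
  unfold Pei.res
  split_ifs
  · exact h y hy
  · simp

theorem Off.sub {Λ : Finset P} {η ζ : P → ℤ × ℤ} (h : Off Λ η) (h' : Off Λ ζ) : Off Λ (η - ζ) :=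
  fun y hy => ⟨fun h1 => by simp [(h y hy).1 h1, (h' y hy).1 h1],
    fun h1 => by simp [(h y hy).2 h1, (h' y hy).2 h1]⟩

/-- curl-free fields are gradients -/
theorem exists_pot {Λ : Finset P} (hΛ : Rect Λ) {η : P → ℤ × ℤ} (ho : Off Λ η)
    (hc : ∀ p, curl η p = 0) : ∃ n : P → ℤ, (∀ y, y ∉ Λ → n y = 0) ∧ grad n = η := by
  obtain ⟨a, b, c, d, hΛ⟩ := hΛ
  set n : P → ℤ := fun y => -∑ i ∈ Icc y.1 b, (η (i, y.2)).1 with hn
  have h0 : ∀ y : P, b < y.1 → n y = 0 := fun y hy => by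
    simp [hn, Icc_eq_empty (not_le.2 hy)]
  have hz1 : ∀ y : P, b < y.1 → (η y).1 = 0 := fun y hy =>
    (ho y (by rw [hΛ]; omega)).1 (by rw [hΛ]; simp [e1]; omega)
  have hz2 : ∀ y : P, b < y.1 → (η y).2 = 0 := fun y hy =>
    (ho y (by rw [hΛ]; omega)).2 (by rw [hΛ]; simp [e2]; omega)
  have g1 : ∀ y : P, n (y + e1) - n y = (η y).1 := by
    intro y
    by_cases hy : b < y.1
    · rw [h0 y hy, h0 _ (by simp [e1]; omega), hz1 y hy]; simp
    · have : Icc y.1 b = insert y.1 (Icc (y.1 + 1) b) := by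
        ext t; simp only [mem_insert, mem_Icc]; omega
      simp only [hn, e1, Prod.fst_add, Prod.snd_add, add_zero]
      rw [this, sum_insert (by simp)]
      simp
  have g2 : ∀ (t : ℤ) (i : ℤ), n ((i, t) + e2) - n (i, t) = (η (i, t)).2 := by
    intro t i
    by_cases hi : b < i
    · rw [h0 (i, t) hi, h0 _ (by simp [e2]; omega), hz2 _ hi]; simp
    · refine Int.leInductionDown (m := b + 1)
        (motive := fun i _ => n ((i, t) + e2) - n (i, t) = (η (i, t)).2) ?_ ?_ i (by omega)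
      · rw [h0 (b + 1, t) (by simp), h0 _ (by simp [e2]), hz2 _ (by simp)]; simp
      · intro k _ ih
        have h1 := g1 (k - 1, t)
        have h2 := g1 ((k - 1, t) + e2)
        have h3 := hc (k - 1, t)
        have e1' : ((k - 1, t) : P) + e1 = (k, t) := by simp [e1]
        have e2' : ((k - 1, t) : P) + e2 + e1 = (k, t) + e2 := by simp [e1, e2]
        simp only [curl, e1'] at h3
        rw [e1'] at h1
        rw [e2'] at h2
        omega
  have hrow : ∀ y : P, (y.2 < c ∨ d < y.2) → n y = 0 := by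
    intro y hy
    simp only [hn, neg_eq_zero]
    refine sum_eq_zero fun i _ => (ho (i, y.2) (by rw [hΛ]; simp; omega)).1 ?_
    rw [hΛ]; simp [e1]; omega
  refine ⟨n, fun y hy => ?_, funext fun y => Prod.ext (g1 y) (g2 y.2 y.1)⟩
  by_cases h1 : b < y.1
  · exact h0 y h1
  by_cases h2 : y.2 < c ∨ d < y.2
  · exact hrow y h2
  have h3 : y.1 < a := by rw [hΛ] at hy; omega
  have key : ∀ t, t ≤ d + 1 → n (y.1, t) = 0 := by
    intro t ht
    refine Int.leInductionDown (m := d + 1) (motive := fun t _ => n (y.1, t) = 0) ?_ ?_ t ht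
    · exact hrow _ (by simp)
    · intro k _ ih
      have h4 := g2 (k - 1) y.1
      have e' : ((y.1, k - 1) : P) + e2 = (y.1, k) := by simp [e2]
      rw [e', ih, (ho (y.1, k - 1) (by rw [hΛ]; simp; omega)).2 (by rw [e', hΛ]; simp; omega)] at h4
      omega
  exact key y.2 (by omega)

/-- telescoping along the ray to the right -/
theorem ray (n : P → ℤ) (x : P) (M : ℕ) :
    n (x.1 + M, x.2) - n x = ∑ j ∈ range M, (grad n (x.1 + j, x.2)).1 := by
  induction M with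
  | zero => simp
  | succ M ih =>
    rw [sum_range_succ, ← ih]
    have : ((x.1 + M, x.2) : P) + e1 = (x.1 + (M + 1 : ℕ), x.2) := by simp [e1, add_assoc]
    simp only [grad, this]; ring

theorem grad_inj {Λ : Finset P} {n n' : P → ℤ} (h : ∀ y, y ∉ Λ → n y = 0)
    (h' : ∀ y, y ∉ Λ → n' y = 0) (he : grad n = grad n') : n = n' := by
  funext x
  obtain ⟨M, hM⟩ : ∃ M : ℕ, (x.1 + M, x.2) ∉ Λ := by
    by_contra hc
    push Not at hc
    refine Set.infinite_of_injective_forall_mem (f := fun M : ℕ => ((x.1 + M, x.2) : P))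
      (s := (Λ : Set P)) (fun i j hij => ?_) hc Λ.finite_toSet
    simpa using hij
  have h1 := ray n x M
  have h2 := ray n' x M
  rw [h _ hM] at h1
  rw [h' _ hM, ← he] at h2
  omega

/-! ## sums -/

theorem tsum_fin_prod {α : Type*} (k : ℕ) (f : Fin k → α → ℝ≥0∞) :
    ∑' x : Fin k → α, ∏ i, f i (x i) = ∏ i, ∑' a, f i a := by
  induction k with
  | zero => simp
  | succ k ih =>
    rw [← (Fin.consEquiv fun _ : Fin (k + 1) => α).tsum_eq, ENNReal.tsum_prod', Fin.prod_univ_succ,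
      ← ih, ← ENNReal.tsum_mul_right]
    refine tsum_congr fun a => ?_
    rw [← ENNReal.tsum_mul_left]
    refine tsum_congr fun x => ?_
    simp [Fin.prod_univ_succ, Fin.consEquiv]

theorem tsum_pi {ι α : Type*} [Fintype ι] (f : ι → α → ℝ≥0∞) :
    ∑' x : ι → α, ∏ i, f i (x i) = ∏ i, ∑' a, f i a := by
  have e := (Fintype.equivFin ι).symm
  rw [← (Equiv.arrowCongr e (Equiv.refl α)).tsum_eq, ← e.prod_comp,
    ← tsum_fin_prod _ fun i => f (e i)]
  refine tsum_congr fun x => ?_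
  rw [← e.prod_comp]
  simp

theorem tsum_le_of_inj {α β : Type*} (Φ : α → ℝ≥0∞) (Ψ : β → ℝ≥0∞) (E : α → Prop) (T : α → β)
    (h0 : ∀ a, ¬E a → Φ a = 0) (h1 : ∀ a, E a → Φ a ≤ Ψ (T a))
    (h2 : ∀ a a', E a → E a' → T a = T a' → a = a') : ∑' a, Φ a ≤ ∑' b, Ψ b := by
  rw [← tsum_subtype_eq_of_support_subset (s := {a | E a})
    (fun a ha => by by_contra h; exact ha (h0 a h))]
  refine le_trans (ENNReal.tsum_le_tsum fun a => h1 a a.2) ?_
  exact ENNReal.tsum_comp_le_tsum_of_injective (f := fun a : {a | E a} => T a)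
    (fun a a' h => Subtype.ext (h2 a a' a.2 a'.2 h)) Ψ

end Crest.Agent.T145.Pei
end

-- ▼ part T145/PeiB_33

/-!
# Row 145, Peierls argument, part B: the abstract block model (helper33)

Blocks `v ∈ Λ` carry an integer level `n v` and an internal state `ω v`; the weight is a product of a priori
weights and of factors `F y (∇n y + σ y) (ω y) (ω (y+e₁)) (ω (y+e₂))`.
-/

set_option autoImplicit false

namespace Crest.Agent.T145.Pei

open Finset Relation
open scoped ENNReal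

/-- extension by `d` off `Λ` -/
def xt {α : Type*} (Λ : Finset P) (d : α) (f : Λ → α) (y : P) : α :=
  if h : y ∈ Λ then f ⟨y, h⟩ else d

theorem xt_of_mem {α : Type*} {Λ : Finset P} (d : α) (f : Λ → α) (v : Λ) : xt Λ d f v = f v := by
  simp [xt, v.2]

theorem xt_of_not {α : Type*} {Λ : Finset P} (d : α) (f : Λ → α) {y : P} (h : y ∉ Λ) :
    xt Λ d f y = d := by simp [xt, h]

/-- block model -/
structure Bm (Ω : Type) where
  Λ : Finset P
  Λ' : Finset P
  μ : Ω → ℝ≥0∞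
  gd : Ω → Prop
  o : Ω
  F : P → ℤ × ℤ → Ω → Ω → Ω → ℝ≥0∞
  G : Ω → ℝ≥0∞

/-- smallness constant -/
noncomputable def eps : ℝ≥0∞ := 2⁻¹ ^ 26

/-- the three corners used by the sites of `γ` -/
noncomputable def tri (γ : Finset P) : Finset P := γ ∪ γ.image (· + e1) ∪ γ.image (· + e2)

theorem mem_tri {γ : Finset P} {y : P} (h : y ∈ γ) : y ∈ tri γ ∧ y + e1 ∈ tri γ ∧ y + e2 ∈ tri γ := by
  simp only [tri, mem_union, mem_image]
  exact ⟨Or.inl (Or.inl h), Or.inl (Or.inr ⟨y, h, rfl⟩), Or.inr ⟨y, h, rfl⟩⟩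

theorem card_tri (γ : Finset P) : (tri γ).card ≤ 3 * γ.card := by
  have h1 := card_union_le (γ ∪ γ.image (· + e1)) (γ.image (· + e2))
  have h2 := card_union_le γ (γ.image (· + e1))
  have h3 : (γ.image (· + e1)).card ≤ γ.card := card_image_le
  have h4 : (γ.image (· + e2)).card ≤ γ.card := card_image_le
  unfold tri; omega

theorem Nb_of_tri {γ : Finset P} {y : P} (h : y ∈ tri γ ∨ y + e1 ∈ tri γ ∨ y + e2 ∈ tri γ) :
    y ∈ Nb γ := by
  simp only [tri, mem_union, mem_image] at h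
  have key : ∀ a ∈ γ, y ∈ nb a → y ∈ Nb γ := fun a ha h => mem_biUnion.2 ⟨a, ha, h⟩
  rcases h with ((h | ⟨a, h, e⟩) | ⟨a, h, e⟩) | ((h | ⟨a, h, e⟩) | ⟨a, h, e⟩) |
    ((h | ⟨a, h, e⟩) | ⟨a, h, e⟩) <;> refine key _ h (mem_nb.2 ?_) <;>
    (try rw [Prod.ext_iff] at e) <;> (try simp only [e1, e2, Prod.fst_add, Prod.snd_add] at *) <;> omega

namespace Bm
variable {Ω : Type} (m : Bm Ω)

/-- configurations -/
abbrev X : Type := (m.Λ → ℤ) × (m.Λ → Ω)

def st (ω : m.Λ → Ω) : P → Ω := xt m.Λ m.o ω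
def lev (n : m.Λ → ℤ) : P → ℤ := xt m.Λ 0 n
def fld (σ : P → ℤ × ℤ) (n : m.Λ → ℤ) : P → ℤ × ℤ := grad (m.lev n) + σ
noncomputable def pw (ω : m.Λ → Ω) : ℝ≥0∞ := ∏ v, m.μ (ω v)
def Fa (y : P) (η : ℤ × ℤ) (w : P → Ω) : ℝ≥0∞ := m.F y η (w y) (w (y + e1)) (w (y + e2))
def act (y : P) (η : ℤ × ℤ) (w : P → Ω) : Prop :=
  ¬(η = 0 ∧ m.gd (w y) ∧ m.gd (w (y + e1)) ∧ m.gd (w (y + e2)))

/-- the weight with seam `σ` -/
noncomputable def Wt (σ : P → ℤ × ℤ) (x : m.X) : ℝ≥0∞ :=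
  m.pw x.2 * ∏ y ∈ m.Λ', m.Fa y (m.fld σ x.1 y) (m.st x.2)

noncomputable def Z (σ : P → ℤ × ℤ) : ℝ≥0∞ := ∑' x, m.Wt σ x

open Classical in
/-- active sites -/
noncomputable def A (σ : P → ℤ × ℤ) (x : m.X) : Finset P :=
  m.Λ'.filter fun y => m.act y (m.fld σ x.1 y) (m.st x.2)

open Classical in
/-- hypotheses -/
structure Ok : Prop where
  rect : Rect m.Λ
  sup : ∀ y, (y ∈ m.Λ ∨ y + e1 ∈ m.Λ ∨ y + e2 ∈ m.Λ) → y ∈ m.Λ'
  μ1 : ∑' a, m.μ a = 1
  μg : 2⁻¹ ≤ ∑' a, m.μ a * if m.gd a then 1 else 0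
  go : m.gd m.o
  G1 : ∀ a, 1 ≤ m.G a
  Go : m.G m.o = 1
  μG : ∑' a, m.μ a * m.G a ^ 3 ≤ 2
  F1 : ∀ y a b c, m.gd a → m.gd b → m.gd c → m.F y 0 a b c ≤ 1
  F0 : ∀ y a b c, m.gd a → m.gd b → m.gd c → 2⁻¹ ≤ m.F y 0 a b c
  Fs : ∀ y a b c, ∑' η, (if η = 0 ∧ m.gd a ∧ m.gd b ∧ m.gd c then 0 else m.F y η a b c) ≤
    eps * (m.G a * m.G b * m.G c)

/-- admissible seam -/
structure Sm (σ : P → ℤ × ℤ) : Prop where
  off : Off m.Λ σ
  sup : ∀ y, y ∉ m.Λ' → σ y = 0

variable {m}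

theorem lev_off (n : m.Λ → ℤ) (y : P) (h : y ∉ m.Λ) : m.lev n y = 0 := xt_of_not _ _ h

theorem lev_inj {n n' : m.Λ → ℤ} (h : m.lev n = m.lev n') : n = n' := by
  funext v
  have := congrFun h v
  simpa [lev, xt_of_mem] using this

theorem sm_zero : m.Sm 0 := ⟨fun _ _ => by simp, fun _ _ => rfl⟩

theorem off_fld {σ : P → ℤ × ℤ} (hσ : m.Sm σ) (n : m.Λ → ℤ) : Off m.Λ (m.fld σ n) :=
  (off_grad (lev_off n)).add hσ.off

open Classical in
theorem fld_off (h : m.Ok) {σ : P → ℤ × ℤ} (hσ : m.Sm σ) (x : m.X) (y : P) (hy : y ∉ m.A σ x) :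
    m.fld σ x.1 y = 0 := by
  by_cases h1 : y ∈ m.Λ'
  · by_contra h2
    exact hy (mem_filter.2 ⟨h1, fun h3 => h2 h3.1⟩)
  · have h2 := mt (h.sup y) h1
    push Not at h2
    have := off_fld hσ x.1 y h2.1
    exact Prod.ext (this.1 h2.2.1) (this.2 h2.2.2)

theorem exists_lev (h : m.Ok) {η : P → ℤ × ℤ} (ho : Off m.Λ η) (hc : ∀ p, curl η p = 0) :
    ∃ n : m.Λ → ℤ, m.fld 0 n = η := by
  obtain ⟨n, h1, h2⟩ := exists_pot h.rect ho hc
  refine ⟨fun v => n v, ?_⟩
  have : m.lev (fun v => n v) = n := by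
    funext y
    by_cases hy : y ∈ m.Λ
    · exact xt_of_mem _ _ ⟨y, hy⟩
    · rw [lev_off _ _ hy, h1 y hy]
  rw [fld, this, h2, add_zero]

/-- `ω'` on `W`, `ω` elsewhere -/
def mix (W : Finset P) (ω' ω : m.Λ → Ω) : m.Λ → Ω := fun v => if (v : P) ∈ W then ω' v else ω v

theorem pw_mix (W : Finset P) (ω ω' : m.Λ → Ω) :
    m.pw (mix W ω' ω) * m.pw (mix W ω ω') = m.pw ω * m.pw ω' := by
  simp only [pw, ← prod_mul_distrib]
  refine prod_congr rfl fun v _ => ?_
  unfold mix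
  split_ifs
  · exact mul_comm _ _
  · rfl

theorem st_mix (W : Finset P) (ω ω' : m.Λ → Ω) (y : P) :
    m.st (mix W ω' ω) y = if y ∈ W then m.st ω' y else m.st ω y := by
  by_cases hy : y ∈ m.Λ
  · simp [st, xt, hy, mix]
  · simp [st, xt, hy]

/-- the event: `γ` is a union of components whose removal leaves a gradient -/
def Ev (σ : P → ℤ × ℤ) (γ : Finset P) (x : m.X) : Prop :=
  Cl (m.A σ x) γ ∧ ∀ p, curl (m.fld σ x.1 - res γ (m.fld σ x.1)) p = 0

open Classical in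
/-- active part of a factor, with a weight -/
noncomputable def Fb (m : Bm Ω) (a : P → ℤ × ℤ → ℝ≥0∞) (y : P) (η : ℤ × ℤ) (w : P → Ω) : ℝ≥0∞ :=
  (if m.act y η w then m.Fa y η w else 0) * a y η

open Classical in
theorem core (h : m.Ok) {σ : P → ℤ × ℤ} (hσ : m.Sm σ) (γ : Finset P) (a : P → ℤ × ℤ → ℝ≥0∞) :
    (∑' x, if Ev σ γ x then m.Wt σ x * ∏ y ∈ γ, a y (m.fld σ x.1 y) else 0) *
        (2⁻¹ ^ (12 * γ.card)) ≤
      m.Z 0 * ∑' ω, m.pw ω * ∏ y ∈ γ, ∑' η, m.Fb a y η (m.st ω) := by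
  set W := tri γ with hW
  let E : m.X × (m.Λ → Ω) → Prop := fun z => Ev σ γ z.1 ∧ ∀ v : m.Λ, (v : P) ∈ W → m.gd (z.2 v)
  have hex : ∀ x : m.X, ∃ n : m.Λ → ℤ, Ev σ γ x → m.fld 0 n = m.fld σ x.1 - res γ (m.fld σ x.1) := by
    intro x
    by_cases hx : Ev σ γ x
    · obtain ⟨n, hn⟩ := exists_lev h ((off_fld hσ x.1).sub ((off_fld hσ x.1).res γ)) hx.2
      exact ⟨n, fun _ => hn⟩
    · exact ⟨0, fun h => absurd h hx⟩
  choose N hN using hex
  let Φ : m.X × (m.Λ → Ω) → ℝ≥0∞ := fun z =>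
    (if Ev σ γ z.1 then m.Wt σ z.1 * ∏ y ∈ γ, a y (m.fld σ z.1.1 y) else 0) *
      (2⁻¹ ^ (9 * γ.card) * ∏ v : m.Λ, m.μ (z.2 v) *
        (if (v : P) ∈ W then (if m.gd (z.2 v) then 1 else 0) else 1))
  let Ψ : m.X × ((m.Λ → Ω) × (γ → ℤ × ℤ)) → ℝ≥0∞ := fun z =>
    m.Wt 0 z.1 * (m.pw z.2.1 * ∏ y : γ, m.Fb a y (z.2.2 y) (m.st z.2.1))
  let T : m.X × (m.Λ → Ω) → m.X × ((m.Λ → Ω) × (γ → ℤ × ℤ)) := fun z =>
    ((N z.1, mix W z.2 z.1.2), (mix W z.1.2 z.2, fun y => m.fld σ z.1.1 y))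
  have main : ∑' z, Φ z ≤ ∑' z, Ψ z := by
    refine tsum_le_of_inj Φ Ψ E T ?_ ?_ ?_
    · intro z hz
      by_cases h1 : Ev σ γ z.1
      · have h2 : ∃ v : m.Λ, (v : P) ∈ W ∧ ¬m.gd (z.2 v) := by
          by_contra h3
          push Not at h3
          exact hz ⟨h1, h3⟩
        obtain ⟨v, hv, hv'⟩ := h2
        simp only [Φ]
        rw [prod_eq_zero (mem_univ v) (by simp [hv, hv'])]
        simp
      · simp [Φ, h1]
    · rintro ⟨⟨n, ω⟩, ω'⟩ ⟨hE, hg⟩
      simp only at hE hg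
      have hsub : γ ⊆ m.Λ' := hE.1.1.trans (filter_subset _ _)
      have hp : ∏ v : m.Λ, m.μ (ω' v) *
          (if (v : P) ∈ W then (if m.gd (ω' v) then 1 else 0) else 1) = m.pw ω' := by
        refine prod_congr rfl fun v _ => ?_
        by_cases hv : (v : P) ∈ W
        · simp [hv, hg v hv]
        · simp [hv]
      have hgd : ∀ y ∈ W, m.gd (m.st ω' y) := by
        intro y hy
        by_cases h1 : y ∈ m.Λ
        · have := hg ⟨y, h1⟩ hy
          simpa [st, xt, h1] using this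
        · rw [st, xt_of_not _ _ h1]; exact h.go
      have site : ∀ y ∈ m.Λ', m.Fa y (m.fld σ n y) (m.st ω) * (if y ∈ Nb γ then 2⁻¹ else 1) ≤
          m.Fa y (m.fld 0 (N (n, ω)) y) (m.st (mix W ω' ω)) *
            (if y ∈ γ then m.Fa y (m.fld σ n y) (m.st ω) else 1) := by
        intro y hy
        rw [hN _ hE]
        by_cases h1 : y ∈ γ
        · have ht := mem_tri h1
          simp only [h1, sub_Nb h1, if_true, Pi.sub_apply, res, sub_self]
          rw [mul_comm]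
          gcongr
          simp only [Fa, st_mix, hW, ht.1, ht.2.1, ht.2.2, if_true]
          exact h.F0 _ _ _ _ (hgd _ (mem_tri h1).1) (hgd _ (mem_tri h1).2.1)
            (hgd _ (mem_tri h1).2.2)
        simp only [h1, if_false, Pi.sub_apply, res, sub_zero, mul_one]
        by_cases h2 : y ∈ Nb γ
        · have h3 : ¬m.act y (m.fld σ n y) (m.st ω) := by
            intro h4
            obtain ⟨b, hb, hyb⟩ := mem_biUnion.1 h2
            exact h1 (hE.1.2 b hb y (mem_filter.2 ⟨hy, h4⟩) hyb)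
          rw [act, not_not] at h3
          obtain ⟨h4, g1, g2, g3⟩ := h3
          have hg' : ∀ z, m.gd (m.st ω z) → m.gd (m.st (mix W ω' ω) z) := by
            intro z hz
            rw [st_mix]
            split_ifs with h5
            · exact hgd z h5
            · exact hz
          simp only [h2, if_true, h4, Fa]
          calc _ ≤ 1 * (2⁻¹ : ℝ≥0∞) := by gcongr; exact h.F1 _ _ _ _ g1 g2 g3
            _ ≤ _ := by rw [one_mul]; exact h.F0 _ _ _ _ (hg' _ g1) (hg' _ g2) (hg' _ g3)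
        · have h3 := mt Nb_of_tri h2
          push Not at h3
          simp only [h2, if_false, mul_one, Fa, st_mix, hW, h3.1, h3.2.1, h3.2.2, le_refl]
      have hprod := prod_le_prod' site
      rw [prod_mul_distrib, prod_mul_distrib, prod_ite_mem, prod_ite_mem, inter_eq_right.2 hsub,
        prod_const] at hprod
      have hc : (2⁻¹ : ℝ≥0∞) ^ (9 * γ.card) ≤ 2⁻¹ ^ (m.Λ' ∩ Nb γ).card :=
        pow_le_pow_right_of_le_one' (by norm_num)
          ((card_le_card inter_subset_right).trans (card_Nb γ))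
      have hb : ∏ y : γ, m.Fb a y (m.fld σ n y) (m.st (mix W ω ω')) =
          (∏ y ∈ γ, m.Fa y (m.fld σ n y) (m.st ω)) * ∏ y ∈ γ, a y (m.fld σ n y) := by
        rw [← prod_mul_distrib, ← prod_coe_sort γ]
        refine prod_congr rfl fun y _ => ?_
        have ht := mem_tri y.2
        have hy := (mem_filter.1 (hE.1.1 y.2)).2
        simp only [Fb, Fa, act, st_mix, hW, ht.1, ht.2.1, ht.2.2, if_true] at hy ⊢
        rw [if_pos hy]
      simp only [Φ, Ψ, T, hE, if_true, hp, hb, Wt]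
      calc _ = (m.pw ω * m.pw ω') * ((∏ y ∈ m.Λ', m.Fa y (m.fld σ n y) (m.st ω)) *
            2⁻¹ ^ (9 * γ.card)) * ∏ y ∈ γ, a y (m.fld σ n y) := by ring
        _ ≤ (m.pw ω * m.pw ω') * ((∏ y ∈ m.Λ', m.Fa y (m.fld σ n y) (m.st ω)) *
            2⁻¹ ^ (m.Λ' ∩ Nb γ).card) * ∏ y ∈ γ, a y (m.fld σ n y) := by gcongr
        _ ≤ _ := by
          rw [← pw_mix W ω ω']
          refine le_trans (mul_le_mul' (mul_le_mul' le_rfl hprod) le_rfl) (le_of_eq ?_)
          ring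
    · rintro ⟨⟨n, ω⟩, ω'⟩ ⟨⟨n₂, ω₂⟩, ω₂'⟩ ⟨hE, -⟩ ⟨hE₂, -⟩ he
      simp only [T, Prod.mk.injEq] at he hE hE₂ ⊢
      obtain ⟨⟨h1, h2⟩, h3, h4⟩ := he
      have h5 : m.fld σ n = m.fld σ n₂ := by
        have h6 := hN _ hE
        have h7 := hN _ hE₂
        rw [h1, h7] at h6
        funext y
        by_cases hy : y ∈ γ
        · exact congrFun h4 ⟨y, hy⟩
        · have := congrFun h6 y
          simpa [res, hy] using this.symm
      refine ⟨⟨lev_inj (grad_inj (lev_off n) (lev_off n₂) (add_right_cancel h5)), ?_⟩, ?_⟩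
      · funext v
        have a1 := congrFun h2 v
        have a2 := congrFun h3 v
        by_cases hv : (v : P) ∈ W
        · simpa [mix, hv] using a2
        · simpa [mix, hv] using a1
      · funext v
        have a1 := congrFun h2 v
        have a2 := congrFun h3 v
        by_cases hv : (v : P) ∈ W
        · simpa [mix, hv] using a1
        · simpa [mix, hv] using a2
  have hL : (2⁻¹ : ℝ≥0∞) ^ (3 * γ.card) ≤ ∑' ω' : m.Λ → Ω, ∏ v : m.Λ, m.μ (ω' v) *
      (if (v : P) ∈ W then (if m.gd (ω' v) then 1 else 0) else 1) := by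
    rw [tsum_pi fun (v : m.Λ) (b : Ω) => m.μ b *
      (if (v : P) ∈ W then (if m.gd b then 1 else 0) else 1)]
    calc (2⁻¹ : ℝ≥0∞) ^ (3 * γ.card) ≤ 2⁻¹ ^ (univ.filter fun v : m.Λ => (v : P) ∈ W).card := by
          refine pow_le_pow_right_of_le_one' (by norm_num) (le_trans ?_ (card_tri γ))
          exact card_le_card_of_injOn (fun v => (v : P)) (fun v hv => by simpa using hv)
            Subtype.val_injective.injOn
      _ = ∏ v : m.Λ, if (v : P) ∈ W then (2⁻¹ : ℝ≥0∞) else 1 := by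
          rw [prod_ite, prod_const, prod_const_one, mul_one]
      _ ≤ _ := by
          refine prod_le_prod' fun v _ => ?_
          by_cases hv : (v : P) ∈ W
          · simpa [hv] using h.μg
          · simp [hv, h.μ1]
  simp only [Φ, Ψ] at main
  rw [ENNReal.tsum_prod', ENNReal.tsum_prod' (f := fun z : m.X × ((m.Λ → Ω) × (γ → ℤ × ℤ)) => _)]
    at main
  simp only [ENNReal.tsum_mul_left, ENNReal.tsum_mul_right] at main
  rw [ENNReal.tsum_prod' (f := fun z : (m.Λ → Ω) × (γ → ℤ × ℤ) => _)] at main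
  simp only [ENNReal.tsum_mul_left] at main
  refine le_trans ?_ (main.trans (le_of_eq ?_))
  · rw [show 12 * γ.card = 9 * γ.card + 3 * γ.card by ring, pow_add]
    refine (mul_le_mul' le_rfl (mul_le_mul' le_rfl hL)).trans (le_of_eq ?_)
    rw [← ENNReal.tsum_mul_right]

  · rw [Z]
    congr 1
    refine tsum_congr fun ω => ?_
    rw [tsum_pi fun (y : γ) η => m.Fb a y η (m.st ω), prod_coe_sort γ
      fun y => ∑' η, m.Fb a y η (m.st ω)]

/-- product bound for the internal states -/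
theorem moment (h : m.Ok) (γ T : Finset P) (H : Ω → ℝ≥0∞) (K : ℝ≥0∞) (hT : T ⊆ tri γ)
    (hK : ∑' a, m.μ a * (m.G a ^ 3 * H a) ≤ K) (hHo : H m.o ≤ K) :
    ∑' ω, m.pw ω * ((∏ y ∈ γ, m.G (m.st ω y) * m.G (m.st ω (y + e1)) * m.G (m.st ω (y + e2))) *
      ∏ y ∈ T, H (m.st ω y)) ≤ 2 ^ (3 * γ.card) * K ^ T.card := by
  classical
  let g : P → Ω → ℝ≥0∞ := fun y b =>
    (if y ∈ tri γ then m.G b ^ 3 else 1) * (if y ∈ T then H b else 1)
  let c : P → ℝ≥0∞ := fun y => (if y ∈ tri γ then 2 else 1) * (if y ∈ T then K else 1)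
  have h1 : ∀ ω, (∏ y ∈ γ, m.G (m.st ω y) * m.G (m.st ω (y + e1)) * m.G (m.st ω (y + e2))) *
      ∏ y ∈ T, H (m.st ω y) ≤ (∏ v : m.Λ, g v (ω v)) * ∏ y ∈ tri γ \ m.Λ, c y := by
    intro ω
    have k : ∀ e : P, (∀ y ∈ γ, y + e ∈ tri γ) →
        ∏ y ∈ γ, m.G (m.st ω (y + e)) ≤ ∏ y ∈ tri γ, m.G (m.st ω y) := by
      intro e he
      rw [← prod_image (s := γ) (g := (· + e)) (f := fun y => m.G (m.st ω y))
        (add_left_injective e).injOn]
      refine prod_le_prod_of_subset_of_one_le' (fun y hy => ?_) fun _ _ _ => h.G1 _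
      obtain ⟨z, hz, rfl⟩ := mem_image.1 hy
      exact he z hz
    have k0 := k 0 fun y hy => by simpa using (mem_tri hy).1
    simp only [add_zero] at k0
    calc _ ≤ (∏ y ∈ tri γ, m.G (m.st ω y) ^ 3) * ∏ y ∈ T, H (m.st ω y) := by
          refine mul_le_mul' ?_ le_rfl
          rw [prod_mul_distrib, prod_mul_distrib, prod_pow, pow_three']
          exact mul_le_mul' (mul_le_mul' k0 (k e1 fun y hy => (mem_tri hy).2.1))
            (k e2 fun y hy => (mem_tri hy).2.2)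
      _ = ∏ y ∈ tri γ, g y (m.st ω y) := by
          simp only [g]
          rw [prod_mul_distrib, prod_ite_mem, prod_ite_mem, inter_self, inter_eq_right.2 hT]
      _ = (∏ y ∈ tri γ ∩ m.Λ, g y (m.st ω y)) * ∏ y ∈ tri γ \ m.Λ, g y (m.st ω y) :=
          (prod_inter_mul_prod_sdiff _ _ _).symm
      _ ≤ _ := by
          refine mul_le_mul' (le_of_eq ?_) (prod_le_prod' fun y hy => ?_)
          · have : ∏ v : m.Λ, g v (ω v) = ∏ y ∈ m.Λ, g y (m.st ω y) := by
              rw [← prod_coe_sort m.Λ]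
              exact prod_congr rfl fun v _ => by rw [st, xt_of_mem]
            rw [this]
            refine prod_subset inter_subset_right fun y hy hy' => ?_
            have h2 : y ∉ tri γ := fun h3 => hy' (mem_inter.2 ⟨h3, hy⟩)
            simp [g, h2, mt (@hT y) h2]
          · rw [st, xt_of_not _ _ (mem_sdiff.1 hy).2]
            simp only [g, c, h.Go, (mem_sdiff.1 hy).1, if_true, one_pow]
            refine mul_le_mul' (by norm_num) ?_
            split_ifs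
            · exact hHo
            · rfl
  calc _ ≤ ∑' ω : m.Λ → Ω, (∏ v : m.Λ, m.μ (ω v) * g v (ω v)) * ∏ y ∈ tri γ \ m.Λ, c y := by
        refine ENNReal.tsum_le_tsum fun ω => ?_
        rw [prod_mul_distrib (s := univ), mul_assoc (∏ v : m.Λ, m.μ (ω v))]
        exact mul_le_mul' le_rfl (h1 ω)
    _ = (∏ v : m.Λ, ∑' b, m.μ b * g v b) * ∏ y ∈ tri γ \ m.Λ, c y := by
        rw [ENNReal.tsum_mul_right, tsum_pi fun (v : m.Λ) b => m.μ b * g v b]
    _ ≤ (∏ v : m.Λ, c v) * ∏ y ∈ tri γ \ m.Λ, c y := by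
        refine mul_le_mul' (prod_le_prod' fun v _ => ?_) le_rfl
        by_cases h2 : (v : P) ∈ T
        · simp only [g, c, h2, hT h2, if_true]
          exact hK.trans (le_mul_of_one_le_left' (by norm_num))
        by_cases h3 : (v : P) ∈ tri γ
        · simpa [g, c, h2, h3] using h.μG
        · simp [g, c, h2, h3, h.μ1]
    _ = ∏ y ∈ tri γ, c y := by
        rw [prod_coe_sort m.Λ c, ← prod_inter_mul_prod_sdiff (tri γ) m.Λ]
        congr 1
        refine (prod_subset inter_subset_right fun y hy hy' => ?_).symm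
        have h2 : y ∉ tri γ := fun h3 => hy' (mem_inter.2 ⟨h3, hy⟩)
        simp [c, h2, mt (@hT y) h2]
    _ ≤ _ := by
        simp only [c]
        rw [prod_mul_distrib, prod_ite_mem, prod_ite_mem, inter_self, inter_eq_right.2 hT,
          prod_const, prod_const]
        exact mul_le_mul' (pow_le_pow_right₀ (by norm_num) (card_tri γ)) le_rfl

theorem arith {S B : ℝ≥0∞} {k : ℕ} (h : S * 2⁻¹ ^ (12 * k) ≤ B * (eps ^ k * 2 ^ (3 * k))) :
    S ≤ B * 2⁻¹ ^ (11 * k) := by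
  have h2 : ∀ j : ℕ, (2⁻¹ : ℝ≥0∞) ^ j * 2 ^ j = 1 := fun j => by
    rw [← mul_pow, ENNReal.inv_mul_cancel (by simp) (by simp), one_pow]
  calc S = S * 2⁻¹ ^ (12 * k) * 2 ^ (12 * k) := by rw [mul_assoc, h2, mul_one]
    _ ≤ B * (eps ^ k * 2 ^ (3 * k)) * 2 ^ (12 * k) := mul_le_mul' h le_rfl
    _ = B * 2⁻¹ ^ (11 * k) * (2⁻¹ ^ (15 * k) * 2 ^ (15 * k)) := by
        rw [eps, ← pow_mul, show 26 * k = 11 * k + 15 * k by ring,
          show 15 * k = 3 * k + 12 * k by ring, pow_add, pow_add (2 : ℝ≥0∞)]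
        ring
    _ = _ := by rw [h2, mul_one]

open Classical in
theorem Fb_one (h : m.Ok) (y : P) (w : P → Ω) : ∑' η, m.Fb (fun _ _ => 1) y η w ≤
    eps * (m.G (w y) * m.G (w (y + e1)) * m.G (w (y + e2))) := by
  refine le_trans (le_of_eq (tsum_congr fun η => ?_)) (h.Fs y (w y) (w (y + e1)) (w (y + e2)))
  by_cases ha : m.act y η w
  · rw [Fb, if_pos ha, if_neg ha, mul_one]; rfl
  · rw [Fb, if_neg ha, if_pos (not_not.1 ha), mul_one]

open Classical in
/-- Peierls bound -/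
theorem pei (h : m.Ok) {σ : P → ℤ × ℤ} (hσ : m.Sm σ) (γ : Finset P) :
    (∑' x, if Ev σ γ x then m.Wt σ x else 0) ≤ m.Z 0 * 2⁻¹ ^ (11 * γ.card) := by
  have h1 := core h hσ γ fun _ _ => 1
  simp only [prod_const_one, mul_one] at h1
  refine arith (h1.trans (mul_le_mul' le_rfl ?_))
  have h2 := moment h γ ∅ (fun _ => 1) 2 (empty_subset _) (by simpa using h.μG) (by norm_num)
  simp only [prod_empty, mul_one, card_empty, pow_zero] at h2
  refine le_trans ?_ (mul_le_mul' (le_refl (eps ^ γ.card)) h2)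
  rw [← ENNReal.tsum_mul_left]
  refine ENNReal.tsum_le_tsum fun ω => ?_
  rw [mul_left_comm, ← prod_const, ← prod_mul_distrib]
  exact mul_le_mul' le_rfl (prod_le_prod' fun y _ => Fb_one h y _)

/-- second moment hypothesis -/
structure Mo (m : Bm Ω) (H : Ω → ℝ≥0∞) (K : ℝ≥0∞) : Prop where
  Ho : H m.o ≤ K
  μH : ∑' a, m.μ a * (m.G a ^ 3 * H a) ≤ K
  F2 : ∀ y a b c, ∑' η : ℤ × ℤ, m.F y η a b c * ((η.1.natAbs ^ 2 : ℕ) : ℝ≥0∞) ≤
    eps * (H a * H b * H c)

open Classical in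
/-- Peierls bound with a marked site -/
theorem pei2 (h : m.Ok) {H : Ω → ℝ≥0∞} {K : ℝ≥0∞} (hM : m.Mo H K) (γ : Finset P) {z : P}
    (hz : z ∈ γ) :
    (∑' x, if Ev 0 γ x then m.Wt 0 x * (((m.fld 0 x.1 z).1.natAbs ^ 2 : ℕ) : ℝ≥0∞) else 0) ≤
      m.Z 0 * K ^ 3 * 2⁻¹ ^ (11 * γ.card) := by
  have h1 := core h sm_zero γ fun y η => if y = z then ((η.1.natAbs ^ 2 : ℕ) : ℝ≥0∞) else 1
  simp only [prod_ite_eq', hz, if_true] at h1
  refine arith (h1.trans ?_)
  rw [mul_assoc]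
  refine mul_le_mul' le_rfl ?_
  have n1 : z ≠ z + e1 := by simp [e1]
  have n2 : z ≠ z + e2 := by simp [e2]
  have n3 : z + e1 ≠ z + e2 := by simp [e1, e2]
  have hT : ({z, z + e1, z + e2} : Finset P) ⊆ tri γ := by
    intro y hy
    have := mem_tri hz
    simp only [mem_insert, mem_singleton] at hy
    rcases hy with rfl | rfl | rfl <;> tauto
  have h2 := moment h γ {z, z + e1, z + e2} H K hT hM.μH hM.Ho
  rw [card_eq_three.2 ⟨_, _, _, n1, n2, n3, rfl⟩] at h2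
  refine le_trans ?_ ((mul_le_mul' (le_refl (eps ^ γ.card)) h2).trans (le_of_eq (by ring)))
  rw [← ENNReal.tsum_mul_left]
  refine ENNReal.tsum_le_tsum fun ω => ?_
  rw [mul_left_comm]
  refine mul_le_mul' le_rfl ?_
  rw [← mul_assoc, ← prod_const, ← prod_mul_distrib, prod_insert (by simp [n1, n2]),
    prod_insert (by simp [n3]), prod_singleton, ← mul_prod_erase γ _ hz, ← mul_prod_erase γ _ hz,
    mul_right_comm]
  refine mul_le_mul' ?_ (prod_le_prod' fun y hy => ?_)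
  · calc _ ≤ ∑' η : ℤ × ℤ, m.Fa z η (m.st ω) * ((η.1.natAbs ^ 2 : ℕ) : ℝ≥0∞) := by
          refine ENNReal.tsum_le_tsum fun η => ?_
          simp only [Fb, if_true]
          refine mul_le_mul' ?_ le_rfl
          split_ifs
          · rfl
          · exact zero_le
      _ ≤ _ := (hM.F2 _ _ _ _).trans ?_
    rw [mul_assoc eps, ← mul_assoc (H _)]
    refine mul_le_mul' le_rfl (le_mul_of_one_le_left' ?_)
    exact one_le_mul (one_le_mul (h.G1 _) (h.G1 _)) (h.G1 _)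
  · refine le_trans (le_of_eq (tsum_congr fun η => ?_)) (Fb_one h y _)
    simp only [Fb, (mem_erase.1 hy).1, if_false]

/-- the partition function is positive and finite -/
theorem Z_ne_top (h : m.Ok) {σ : P → ℤ × ℤ} (hσ : m.Sm σ) : m.Z σ ≠ ⊤ := by
  classical
  have h2 := moment h m.Λ' ∅ (fun _ => 1) 2 (empty_subset _) (by simpa using h.μG) (by norm_num)
  simp only [prod_empty, mul_one, card_empty, pow_zero] at h2
  have h3 : ∀ y w, ∑' η, m.Fa y η w ≤ 2 * (m.G (w y) * m.G (w (y + e1)) * m.G (w (y + e2))) := by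
    intro y w
    have hG : 1 ≤ m.G (w y) * m.G (w (y + e1)) * m.G (w (y + e2)) :=
      one_le_mul (one_le_mul (h.G1 _) (h.G1 _)) (h.G1 _)
    calc _ ≤ ∑' η : ℤ × ℤ, ((if η = 0 then 1 else 0) + m.Fb (fun _ _ => 1) y η w) := by
          refine ENNReal.tsum_le_tsum fun η => ?_
          by_cases ha : m.act y η w
          · simp [Fb, ha]
          · have hb := not_not.1 ha
            simp only [hb.1, if_true]
            exact (h.F1 _ _ _ _ hb.2.1 hb.2.2.1 hb.2.2.2).trans le_self_add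
      _ ≤ _ := by
          rw [ENNReal.tsum_add, tsum_ite_eq, two_mul]
          refine add_le_add hG ((Fb_one h y w).trans (mul_le_of_le_one_left' ?_))
          exact pow_le_one₀ zero_le (by norm_num)
  have h4 : ∀ ω, ∑' n, ∏ y ∈ m.Λ', m.Fa y (m.fld σ n y) (m.st ω) ≤
      ∏ y ∈ m.Λ', ∑' η, m.Fa y η (m.st ω) := by
    intro ω
    rw [← prod_coe_sort m.Λ' fun y => ∑' η, m.Fa y η (m.st ω),
      ← tsum_pi fun (y : m.Λ') η => m.Fa y η (m.st ω)]
    refine tsum_le_of_inj _ _ (fun _ => True) (fun n (y : m.Λ') => m.fld σ n y) (by simp)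
      (fun n _ => le_of_eq (prod_coe_sort m.Λ' _).symm) fun n n' _ _ he => ?_
    have h5 : m.fld σ n = m.fld σ n' := by
      funext y
      by_cases hy : y ∈ m.Λ'
      · exact congrFun he ⟨y, hy⟩
      · rw [fld_off h hσ (n, ω) y fun h => hy (filter_subset _ _ h),
          fld_off h hσ (n', ω) y fun h => hy (filter_subset _ _ h)]
    exact lev_inj (grad_inj (lev_off n) (lev_off n') (add_right_cancel h5))
  refine ne_top_of_le_ne_top (b := 2 ^ m.Λ'.card * 2 ^ (3 * m.Λ'.card))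
    (ENNReal.mul_ne_top (by simp) (by simp)) ?_
  refine le_trans ?_ (mul_le_mul' le_rfl h2)
  rw [Z, ENNReal.tsum_prod', ENNReal.tsum_comm, ← ENNReal.tsum_mul_left]
  refine ENNReal.tsum_le_tsum fun ω => ?_
  simp only [Wt]
  rw [ENNReal.tsum_mul_left, mul_left_comm, ← prod_const, ← prod_mul_distrib]
  exact mul_le_mul' le_rfl ((h4 ω).trans (prod_le_prod' fun y _ => h3 y _))

/-- variance of the level -/
theorem var (h : m.Ok) {H : Ω → ℝ≥0∞} {K : ℝ≥0∞} (hM : m.Mo H K) (x₀ : P) :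
    ∑' x, m.Wt 0 x * (((m.lev x.1 x₀).natAbs ^ 2 : ℕ) : ℝ≥0∞) ≤ m.Z 0 * K ^ 3 := by
  classical
  obtain ⟨a, b, c, d, hΛ⟩ := h.rect
  set M : ℕ := (b - x₀.1).natAbs + (x₀.1 - a).natAbs + 1 with hMdef
  let z : ℕ → P := fun j => (x₀.1 + j, x₀.2)
  let 𝒢 : ℕ → Finset (Finset P) := fun j =>
    m.Λ'.powerset.filter fun γ => Cn γ (z j) ∧ j + 1 ≤ γ.card
  have key : ∀ x : m.X, (((m.lev x.1 x₀).natAbs ^ 2 : ℕ) : ℝ≥0∞) ≤ ∑ j ∈ range M, 2 ^ (j + 1) *
      ∑ γ ∈ 𝒢 j, if Ev 0 γ x then (((m.fld 0 x.1 (z j)).1.natAbs ^ 2 : ℕ) : ℝ≥0∞) else 0 := by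
    intro x
    set A := m.A 0 x with hA
    set η := m.fld 0 x.1 with hη
    have hoff : ∀ y, y ∉ A → η y = 0 := fld_off h sm_zero x
    have hc0 : ∀ p, curl η p = 0 := fun p => by rw [hη, fld, add_zero, curl_grad]
    have hcl : ∀ γ, Cl A γ → ∀ p, curl (res γ η) p = 0 := by
      intro γ hγ p
      by_cases hp : p ∈ γ ∨ p + e1 ∈ γ ∨ p + e2 ∈ γ
      · rw [curl_res_of hγ hoff hp, hc0]
      · exact curl_res_not η hp
    let B := A.filter fun y => ∀ w ∈ cp A y, ¬(w.2 = x₀.2 ∧ w.1 < x₀.1)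
    have hB : Cl A B := ⟨filter_subset _ _, fun u hu v hv huv => mem_filter.2 ⟨hv, fun w hw =>
      (mem_filter.1 hu).2 w (cp_sub (mem_cp.2 ⟨hv, .single ⟨hv, huv⟩⟩) hw)⟩⟩
    obtain ⟨p, hp0, hp⟩ := exists_pot ⟨a, b, c, d, hΛ⟩ ((off_fld sm_zero x.1).res B) (hcl B hB)
    have hp1 : p x₀ = 0 := by
      have h1 := ray p (x₀.1 - M, x₀.2) M
      rw [hp0 (x₀.1 - M, x₀.2) (by rw [hΛ]; simp; omega), hp, sum_eq_zero] at h1
      · simpa using h1
      · intro j hj
        have hj' := mem_range.1 hj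
        unfold res
        rw [if_neg]; · rfl
        intro hb
        have hb' := mem_filter.1 hb
        exact hb'.2 _ (cn_cp hb'.1).1 ⟨rfl, by simp; omega⟩
    have hz : z M ∉ m.Λ := by rw [hΛ]; simp [z]; omega
    have h2 := ray (m.lev x.1) x₀ M
    have h3 := ray p x₀ M
    rw [lev_off _ _ hz] at h2
    rw [hp0 _ hz, hp1, hp] at h3
    let u : ℕ → ℤ := fun j => if z j ∈ A ∧ z j ∉ B then (η (z j)).1 else 0
    have h4 : m.lev x.1 x₀ = -∑ j ∈ range M, u j := by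
      have : ∑ j ∈ range M, u j = ∑ j ∈ range M, (grad (m.lev x.1) (z j)).1 -
          ∑ j ∈ range M, (res B η (z j)).1 := by
        rw [← sum_sub_distrib]
        refine sum_congr rfl fun j _ => ?_
        have e : grad (m.lev x.1) (z j) = η (z j) := by rw [hη, fld, add_zero]
        rw [e]
        by_cases j1 : z j ∈ B
        · simp [u, res, j1]
        by_cases j2 : z j ∈ A
        · simp [u, res, j1, j2]
        · simp [u, res, j1, j2, hoff _ j2]
      rw [this]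
      simp only [z]
      linarith
    have h5 : ((m.lev x.1 x₀).natAbs ^ 2 : ℕ) ≤ ∑ j ∈ range M, 2 ^ (j + 1) * (u j).natAbs ^ 2 := by
      have h6 : (∑ j ∈ range M, (u j : ℝ)) ^ 2 ≤ (∑ j ∈ range M, ((1 / 2 : ℝ) ^ (j + 1))) *
          ∑ j ∈ range M, 2 ^ (j + 1) * (u j : ℝ) ^ 2 := by
        refine sum_sq_le_sum_mul_sum_of_sq_le_mul _ (fun _ _ => by positivity)
          (fun _ _ => by positivity) fun j _ => le_of_eq ?_
        rw [← mul_assoc, ← mul_pow]; norm_num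
      have h7 : ∑ j ∈ range M, ((1 / 2 : ℝ) ^ (j + 1)) ≤ 1 := by
        have : ∀ N, ∑ j ∈ range N, ((1 / 2 : ℝ) ^ (j + 1)) = 1 - (1 / 2) ^ N := by
          intro N
          induction N with
          | zero => simp
          | succ N ih => rw [sum_range_succ, ih]; ring
        rw [this]; simp
      have h8 := h6.trans (mul_le_of_le_one_left (sum_nonneg fun _ _ => by positivity) h7)
      have h9 : ((((m.lev x.1 x₀).natAbs ^ 2 : ℕ) : ℤ) : ℝ) ≤
          (((∑ j ∈ range M, 2 ^ (j + 1) * (u j).natAbs ^ 2 : ℕ) : ℤ) : ℝ) := by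
        push_cast
        simp only [sq_abs]
        rw [h4]; push_cast; rw [neg_sq]; exact h8
      exact_mod_cast h9
    refine le_trans (Nat.cast_le.2 h5) ?_
    rw [Nat.cast_sum]
    refine sum_le_sum fun j _ => ?_
    rw [Nat.cast_mul, Nat.cast_pow, Nat.cast_ofNat]
    refine mul_le_mul' le_rfl ?_
    by_cases j1 : z j ∈ A ∧ z j ∉ B
    · have hmem : cp A (z j) ∈ 𝒢 j := by
        refine mem_filter.2 ⟨mem_powerset.2 ((cl_cp A _).1.trans (filter_subset _ _)), cn_cp j1.1, ?_⟩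
        have j2 : ¬∀ w ∈ cp A (z j), ¬(w.2 = x₀.2 ∧ w.1 < x₀.1) :=
          fun h' => j1.2 (mem_filter.2 ⟨j1.1, h'⟩)
        push Not at j2
        obtain ⟨w, hw, -, hw2⟩ := j2
        have := (cn_cp j1.1).width hw
        simp only [z] at this ⊢
        rw [abs_lt] at this
        omega
      have hE : Ev 0 (cp A (z j)) x := ⟨cl_cp A _, fun q => by
        rw [curl_sub, hc0, hcl _ (cl_cp A _), sub_zero]⟩
      refine le_trans ?_ (single_le_sum (f := fun γ => if Ev 0 γ x then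
        (((η (z j)).1.natAbs ^ 2 : ℕ) : ℝ≥0∞) else 0) (fun _ _ => zero_le) hmem)
      simp [u, j1, hE]
    · simp [u, j1]
  calc _ ≤ ∑' x, ∑ j ∈ range M, 2 ^ (j + 1) * ∑ γ ∈ 𝒢 j, if Ev 0 γ x then
        m.Wt 0 x * (((m.fld 0 x.1 (z j)).1.natAbs ^ 2 : ℕ) : ℝ≥0∞) else 0 := by
        refine ENNReal.tsum_le_tsum fun x => (mul_le_mul' le_rfl (key x)).trans (le_of_eq ?_)
        simp only [mul_sum, mul_ite, mul_zero]
        refine sum_congr rfl fun j _ => sum_congr rfl fun γ _ => ?_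
        split_ifs
        · ring
        · rfl
    _ = ∑ j ∈ range M, 2 ^ (j + 1) * ∑ γ ∈ 𝒢 j, ∑' x, if Ev 0 γ x then
        m.Wt 0 x * (((m.fld 0 x.1 (z j)).1.natAbs ^ 2 : ℕ) : ℝ≥0∞) else 0 := by
        rw [Summable.tsum_finsetSum fun _ _ => ENNReal.summable]
        refine sum_congr rfl fun j _ => ?_
        rw [ENNReal.tsum_mul_left, Summable.tsum_finsetSum fun _ _ => ENNReal.summable]
    _ ≤ ∑ j ∈ range M, m.Z 0 * K ^ 3 * 2⁻¹ ^ (j + 1) := by
        refine sum_le_sum fun j _ => ?_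
        have h1 : ∑ γ ∈ 𝒢 j, (∑' x, if Ev 0 γ x then
            m.Wt 0 x * (((m.fld 0 x.1 (z j)).1.natAbs ^ 2 : ℕ) : ℝ≥0∞) else 0) ≤
            ∑ γ ∈ 𝒢 j, m.Z 0 * K ^ 3 * 2⁻¹ ^ (2 * (j + 1)) * 2⁻¹ ^ (9 * γ.card) := by
          refine sum_le_sum fun γ hγ => ?_
          have hγ' := (mem_filter.1 hγ).2
          refine (pei2 h hM γ hγ'.1.1).trans ?_
          rw [mul_assoc _ (2⁻¹ ^ _), ← pow_add]
          exact mul_le_mul' le_rfl (pow_le_pow_right_of_le_one' (by norm_num) (by omega))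
        rw [← mul_sum] at h1
        have h2 := animals m.Λ' (z j) (𝒢 j) fun γ hγ =>
          ⟨mem_powerset.1 (mem_filter.1 hγ).1, (mem_filter.1 hγ).2.1⟩
        refine (mul_le_mul' le_rfl (h1.trans (mul_le_of_le_one_right' h2))).trans (le_of_eq ?_)
        have h3 : (2 : ℝ≥0∞) ^ (j + 1) * 2⁻¹ ^ (j + 1) = 1 := by
          rw [← mul_pow, ENNReal.mul_inv_cancel (by simp) (by simp), one_pow]
        rw [two_mul, pow_add (2⁻¹ : ℝ≥0∞) (j + 1)]
        calc _ = m.Z 0 * K ^ 3 * 2⁻¹ ^ (j + 1) * (2 ^ (j + 1) * 2⁻¹ ^ (j + 1)) := by ring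
          _ = _ := by rw [h3, mul_one]
    _ ≤ _ := by
        rw [← mul_sum]
        refine mul_le_of_le_one_right' ((ENNReal.sum_le_tsum _).trans (le_of_eq ?_))
        simp only [pow_succ']
        rw [ENNReal.tsum_mul_left, ENNReal.tsum_geometric_two,
          ENNReal.inv_mul_cancel (by simp) (by simp)]

/-- a seam with two ends at horizontal distance `> k` costs `4^{-k}` -/
theorem seam (h : m.Ok) {σ : P → ℤ × ℤ} (hσ : m.Sm σ) {p₁ p₂ : P} (h1 : curl σ p₁ ≠ 0)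
    (h2 : ∀ p, p ≠ p₁ → p ≠ p₂ → curl σ p = 0) {k : ℕ} (hk : (k : ℤ) ≤ |p₂.1 - p₁.1|) :
    m.Z σ ≤ 3 * 2⁻¹ ^ (2 * k) * m.Z 0 := by
  classical
  let 𝒢 : P → Finset (Finset P) := fun z => m.Λ'.powerset.filter fun γ => Cn γ z ∧ k ≤ γ.card
  have key : ∀ x : m.X, ∃ z ∈ ({p₁, p₁ + e1, p₁ + e2} : Finset P), ∃ γ ∈ 𝒢 z, Ev σ γ x := by
    intro x
    set A := m.A σ x with hA
    set η := m.fld σ x.1 with hη
    have hoff : ∀ y, y ∉ A → η y = 0 := fld_off h hσ x
    have hc0 : ∀ p, curl η p = curl σ p := fun p => by rw [hη, fld, curl_add, curl_grad, zero_add]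
    have hz : ∃ z ∈ ({p₁, p₁ + e1, p₁ + e2} : Finset P), z ∈ A := by
      by_contra hn
      push Not at hn
      refine h1 ?_
      rw [← hc0, curl, hoff _ (hn _ (by simp)), hoff _ (hn (p₁ + e1) (by simp)),
        hoff _ (hn (p₁ + e2) (by simp))]
      simp
    obtain ⟨z, hz, hzA⟩ := hz
    have hcl := cl_cp A z
    have hcn := cn_cp hzA
    have hz' := hz
    simp only [mem_insert, mem_singleton] at hz'
    have t1 : p₁ ∈ cp A z ∨ p₁ + e1 ∈ cp A z ∨ p₁ + e2 ∈ cp A z := by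
      rcases hz' with e | e | e <;> rw [← e] <;> simp [hcn.1]
    have hother : ∀ p, p ≠ p₁ → p ≠ p₂ → curl (res (cp A z) η) p = 0 := by
      intro p a1 a2
      by_cases hp : p ∈ cp A z ∨ p + e1 ∈ cp A z ∨ p + e2 ∈ cp A z
      · rw [curl_res_of hcl hoff hp, hc0, h2 p a1 a2]
      · exact curl_res_not η hp
    have t2 : p₂ ∈ cp A z ∨ p₂ + e1 ∈ cp A z ∨ p₂ + e2 ∈ cp A z := by
      by_contra hn
      have s := sum_curl (cp A z) (res (cp A z) η) fun y hy => by simp [res, hy]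
      rw [finsum_eq_single _ p₁, curl_res_of hcl hoff t1, hc0] at s
      · exact h1 s
      · intro p hp
        by_cases a2 : p = p₂
        · rw [a2]; exact curl_res_not η hn
        · exact hother p hp a2
    refine ⟨z, hz, cp A z, mem_filter.2 ⟨mem_powerset.2 (hcl.1.trans (filter_subset _ _)), hcn, ?_⟩,
      hcl, fun p => ?_⟩
    · have w : ∀ y ∈ cp A z, y.1 - z.1 < (cp A z).card ∧ z.1 - y.1 < (cp A z).card := by
        intro y hy
        have := hcn.width hy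
        rw [abs_lt] at this
        omega
      have hz1 : z.1 = p₁.1 ∨ z.1 = p₁.1 + 1 := by
        rcases hz' with e | e | e <;> rw [e] <;> simp [e1, e2]
      rw [le_abs] at hk
      rcases t2 with t | t | t <;> have := w _ t <;>
        (try simp only [e1, e2, Prod.fst_add] at this) <;> omega
    · rw [curl_sub, sub_eq_zero]
      by_cases a1 : p = p₁
      · rw [a1, curl_res_of hcl hoff t1]
      by_cases a2 : p = p₂
      · rw [a2, curl_res_of hcl hoff t2]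
      · rw [hother p a1 a2, hc0, h2 p a1 a2]
  calc m.Z σ ≤ ∑' x, ∑ z ∈ ({p₁, p₁ + e1, p₁ + e2} : Finset P), ∑ γ ∈ 𝒢 z,
        if Ev σ γ x then m.Wt σ x else 0 := by
        refine ENNReal.tsum_le_tsum fun x => ?_
        obtain ⟨z, hz, γ, hγ, hE⟩ := key x
        refine le_trans ?_ (single_le_sum (f := fun z => ∑ γ ∈ 𝒢 z,
          if Ev σ γ x then m.Wt σ x else 0) (fun _ _ => zero_le) hz)
        refine le_trans ?_ (single_le_sum (f := fun γ => if Ev σ γ x then m.Wt σ x else 0)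
          (fun _ _ => zero_le) hγ)
        simp [hE]
    _ = ∑ z ∈ ({p₁, p₁ + e1, p₁ + e2} : Finset P), ∑ γ ∈ 𝒢 z, ∑' x,
        if Ev σ γ x then m.Wt σ x else 0 := by
        rw [Summable.tsum_finsetSum fun _ _ => ENNReal.summable]
        exact sum_congr rfl fun j _ => Summable.tsum_finsetSum fun _ _ => ENNReal.summable
    _ ≤ ∑ z ∈ ({p₁, p₁ + e1, p₁ + e2} : Finset P), 2⁻¹ ^ (2 * k) * m.Z 0 := by
        refine sum_le_sum fun z _ => ?_
        have h3 : ∑ γ ∈ 𝒢 z, (∑' x, if Ev σ γ x then m.Wt σ x else 0) ≤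
            ∑ γ ∈ 𝒢 z, 2⁻¹ ^ (2 * k) * m.Z 0 * 2⁻¹ ^ (9 * γ.card) := by
          refine sum_le_sum fun γ hγ => ?_
          have hγ' := (mem_filter.1 hγ).2
          refine (pei h hσ γ).trans ?_
          rw [mul_comm (2⁻¹ ^ _) (m.Z 0), mul_assoc, ← pow_add]
          exact mul_le_mul' le_rfl (pow_le_pow_right_of_le_one' (by norm_num) (by omega))
        rw [← mul_sum] at h3
        exact h3.trans (mul_le_of_le_one_right' (animals m.Λ' z (𝒢 z) fun γ hγ =>
          ⟨mem_powerset.1 (mem_filter.1 hγ).1, (mem_filter.1 hγ).2.1⟩))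
    _ ≤ _ := by
        rw [sum_const, nsmul_eq_mul, mul_assoc]
        refine mul_le_mul' ?_ le_rfl
        exact_mod_cast card_le_three

end Bm

end Crest.Agent.T145.Pei
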