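import Crest.Agent.T145.PotL_17

/-!
# Row 145 (helper14): `HomStmt`, the `J`-Dirichlet form against the nearest neighbour form
-/

set_option autoImplicit false

namespace Crest.Agent.T145.Pot

open Finset

namespace Ho14

/-- finite support -/
def F (u : Pt → ℝ) : Prop := ∃ D : Finset Pt, Sup D u

/-- `ℓ²` pairing -/
noncomputable def I (u v : Pt → ℝ) : ℝ := ∑' x, u x * v x

/-- squared `ℓ²` norm -/
noncomputable def S (u : Pt → ℝ) : ℝ := ∑' x, u x ^ 2

variable {u v w : Pt → ℝ}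

theorem F.add (h : F u) (h' : F v) : F (u + v) := by
  obtain ⟨D, hD⟩ := h
  obtain ⟨D', hD'⟩ := h'
  exact ⟨D ∪ D', (hD.mono subset_union_left).add (hD'.mono subset_union_right)⟩

theorem F.smul (h : F u) (c : ℝ) : F (c • u) := h.imp fun _ hD => hD.smul c

theorem F.neg (h : F u) : F (-u) := h.imp fun _ hD => hD.neg

theorem F.sub (h : F u) (h' : F v) : F (u - v) := by
  rw [sub_eq_add_neg]; exact h.add h'.neg

theorem F.shift (h : F u) (y : Pt) : F fun x => u (x + y) := by
  obtain ⟨D, hD⟩ := h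
  exact ⟨D.image (· - y), fun x hx => hD _ fun h' => hx (mem_image.2 ⟨x + y, h', by simp⟩)⟩

theorem F.dif (h : F u) (y : Pt) : F (dif y u) := (h.shift y).sub h

theorem F.summ (h : F u) (v : Pt → ℝ) : Summable fun x => u x * v x := by
  obtain ⟨D, hD⟩ := h
  exact summable_of_ne_finset_zero (s := D) fun x hx => by simp [hD x hx]

theorem I_comm (u v : Pt → ℝ) : I u v = I v u := tsum_congr fun _ => mul_comm _ _

theorem I_self (u : Pt → ℝ) : I u u = S u := tsum_congr fun _ => (pow_two _).symm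

theorem S_nonneg (u : Pt → ℝ) : 0 ≤ S u := tsum_nonneg fun _ => sq_nonneg _

theorem S_eq {D : Finset Pt} (h : Sup D u) : S u = ∑ x ∈ D, u x ^ 2 :=
  tsum_eq_sum fun x hx => by simp [h x hx]


theorem I_smul (w u : Pt → ℝ) (c : ℝ) : I w (c • u) = c * I w u := by
  rw [I, I, ← tsum_mul_left]
  exact tsum_congr fun x => by simp only [Pi.smul_apply, smul_eq_mul]; ring


theorem S_smul (u : Pt → ℝ) (c : ℝ) : S (c • u) = c ^ 2 * S u := by
  rw [← I_self, I_smul, I_comm, I_smul, I_self]; ring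

theorem S_neg (u : Pt → ℝ) : S (-u) = S u := by simp [S]

theorem S_shift (u : Pt → ℝ) (y : Pt) : S (fun x => u (x + y)) = S u :=
  (Equiv.addRight y).tsum_eq fun x => u x ^ 2

/-- summation by parts -/
theorem I_dif (h : F u) (v : Pt → ℝ) (y : Pt) : I (dif y u) v = I u (dif (-y) v) := by
  have h1 : ∑' x, u (x + y) * v x = ∑' x, u x * v (x + -y) := by
    rw [← (Equiv.addRight y).tsum_eq fun x => u x * v (x + -y)]
    simp
  simp only [I, dif, sub_mul, mul_sub]
  rw [((h.shift y).summ v).tsum_sub (h.summ v), (h.summ _).tsum_sub (h.summ v), h1]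

theorem S_dif_neg (u : Pt → ℝ) (y : Pt) : S (dif (-y) u) = S (dif y u) := by
  rw [← S_shift _ y, ← S_neg]
  congr 1
  funext x
  simp [dif]

/-- Minkowski -/
theorem mink {ι : Type*} (T : Finset ι) (a b : ι → ℝ) :
    √(∑ i ∈ T, (a i + b i) ^ 2) ≤ √(∑ i ∈ T, a i ^ 2) + √(∑ i ∈ T, b i ^ 2) := by
  simpa only [msF_apply, one_mul, Pi.add_apply, pow_two] using
    (sy_msF (S := T) (κ := fun _ => 1) fun _ _ => zero_le_one).sqrt_add a b

theorem N_add (h : F u) (h' : F v) : √(S (u + v)) ≤ √(S u) + √(S v) := by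
  obtain ⟨D, hD⟩ := h
  obtain ⟨D', hD'⟩ := h'
  have h1 := hD.mono (subset_union_left (s₂ := D'))
  have h2 := hD'.mono (subset_union_right (s₁ := D))
  rw [S_eq h1, S_eq h2, S_eq (h1.add h2)]
  exact mink _ u v


/-- the Dirichlet form as a sum over the steps -/
theorem eD_eq {Λ : Lat} (hΛ : Λ.Ok) {D : Finset Pt} (h : Sup D u) :
    eD Λ D u u = ∑ y ∈ Λ.Jp, S (dif y u) := by
  have hF : F u := ⟨D, h⟩
  have h1 : ∀ y, S (dif y u) = -∑ x ∈ D, (dif y u x + dif (-y) u x) * u x := fun y => by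
    rw [← I_self, I_dif hF, I, tsum_eq_sum (s := D) fun x hx => by simp [h x hx], ← sum_neg_distrib]
    exact sum_congr rfl fun x _ => by simp only [dif, neg_add_cancel_right]; ring
  rw [eD_sbp hΛ u h, sum_congr rfl fun y _ => h1 y, sum_neg_distrib, sum_comm]
  simp only [lapJ, hΛ.sum_J, sum_mul, dif]






/-- the linear part of a difference -/
def L (y : Pt) (u : Pt → ℝ) : Pt → ℝ := (y.1 : ℝ) • dif (1, 0) u + (y.2 : ℝ) • dif (0, 1) u

theorem F.L (h : F u) (y : Pt) : F (L y u) := ((h.dif _).smul _).add ((h.dif _).smul _)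








end Ho14


end Crest.Agent.T145.Pot
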