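import Crest.Agent.T145.PotD_17
import Crest.Agent.T145.PotPk_15
import Crest.Agent.T145.PotHa_91
import Crest.Agent.T145.PotHo_14

/-!
# Row 145 (helper17): the sharp logarithm: Green functions, Green forms of unit charges, capacities (`CapStmt`)
-/

set_option autoImplicit false

namespace Crest.Agent.T145.Pot

open Finset Real

theorem div_two_pi_le {t : ℝ} (ht : 0 ≤ t) : t / (2 * π) ≤ t :=
  div_le_self ht (by linarith [pi_gt_three])

theorem pk_log : ∃ C : ℝ, 0 ≤ C ∧ ∀ z, |pk z - log (1 + eu z) / (2 * π)| ≤ C := by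
  obtain ⟨-, κ, C, h⟩ := pkStmt
  refine ⟨|pk 0| + |κ| + |C| + 1, by positivity, fun z => ?_⟩
  by_cases hz : z = 0
  · subst hz
    simp only [eu_zero, add_zero, log_one, zero_div, sub_zero]
    linarith [abs_nonneg κ, abs_nonneg C]
  · have h1 := one_le_eu hz
    have h2 : C / eu z ≤ |C| := (div_le_div_of_nonneg_right (le_abs_self C) (by linarith)).trans
      (div_le_self (abs_nonneg C) h1)
    have h3 : log (eu z) ≤ log (1 + eu z) := log_le_log (by linarith) (by linarith)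
    have h4 : log (1 + eu z) - log (eu z) ≤ 1 := by
      rw [← log_div (by linarith) (by linarith)]
      refine (log_le_sub_one_of_pos (by positivity)).trans ?_
      rw [sub_le_iff_le_add, div_le_iff₀ (by linarith)]; linarith
    have h5 := div_two_pi_le (sub_nonneg.2 h3)
    have h6 : 0 ≤ (log (1 + eu z) - log (eu z)) / (2 * π) := div_nonneg (sub_nonneg.2 h3) (by positivity)
    have h7 := abs_le.1 ((h z hz).trans h2)
    rw [sub_div] at h5 h6
    rw [lg] at h7
    rw [abs_le]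
    constructor <;> linarith [abs_nonneg (pk 0), le_abs_self κ, neg_abs_le κ]

theorem le_of_bl_subset {z : Pt} {R R' : ℕ} (h : bl z R ⊆ bl z R') : R ≤ R' := by
  have := h (show z + ((R : ℤ), 0) ∈ bl z R by rw [mem_bl]; simp; omega)
  rw [mem_bl] at this; simp at this; omega

theorem log_le_log_add {s t c : ℝ} (hs : 0 < s) (hc : 0 < c) (h : s ≤ c * t) : log s ≤ log t + c := by
  have ht : 0 < t := by by_contra h1; nlinarith
  have := log_le_log hs h
  rw [log_mul hc.ne' ht.ne'] at this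
  linarith [log_le_sub_one_of_pos hc]

/-- the Green function of a domain between two boxes -/
theorem GD_dl_log : ∃ C : ℝ, 0 ≤ C ∧ ∀ (z : Pt) (r R R' : ℕ) (D : Finset Pt) (x y : Pt), 1 ≤ R →
    2 * r ≤ R → bl z R ⊆ D → D ⊆ bl z R' → x ∈ D → y ∈ bl z r →
    |GD nL D (dl x) (dl y) - (log R - log (1 + eu (x - y))) / (2 * π)| ≤ C + log (R' / R) := by
  obtain ⟨C, hC, h⟩ := pk_log
  refine ⟨2 * C + 6, by positivity, fun z r R R' D x y hR hr h1 h2 hx' hy => ?_⟩
  have hR' := le_of_bl_subset (h1.trans h2)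
  have a1 : (1 : ℝ) ≤ R := by exact_mod_cast hR
  have a2 : (R : ℝ) ≤ R' := by exact_mod_cast hR'
  have a3 : 2 * (r : ℝ) ≤ R := by exact_mod_cast hr
  have a4 : log (R : ℝ) ≤ log R' := log_le_log (by linarith) a2
  have b1 := GD_dl_le hx' y (M := (log R' + 6) / (2 * π) + C) fun w hw e he _ => by
    have c1 : w + e ∈ bl y (R' + 1 + r) :=
      bl_subset_bl (mem_bl_comm.1 hy) (by omega) (bl_subset_bl (h2 hw) (r' := R' + 1) (by omega)
        (Ha91.nn_bl he w))
    have c2 := eu_le_of_bl c1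
    push_cast at c2
    have c3 := log_le_log_add (s := 1 + eu (w + e - y)) (t := R') (c := 6)
      (by linarith [eu_nonneg (w + e - y)]) (by norm_num) (by linarith)
    linarith [(abs_le.1 (h (w + e - y))).2, div_le_div_of_nonneg_right c3 (c := 2 * π) (by positivity)]
  have b2 := le_GD_dl hx' y (M := (log R - 2) / (2 * π) - C) fun w _ e _ h3 => by
    have c1 : w + e ∉ bl y (R - r) := fun h4 => h3 (h1 (bl_subset_bl hy (by omega) h4))
    have c2 := le_eu_of_not_bl c1
    rw [Nat.cast_sub (by omega)] at c2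
    have c3 := log_le_log_add (s := R) (t := 1 + eu (w + e - y)) (c := 2) (by linarith) two_pos
      (by linarith)
    linarith [(abs_le.1 (h (w + e - y))).1,
      div_le_div_of_nonneg_right (sub_le_iff_le_add.2 c3) (c := 2 * π) (by positivity)]
  have b3 := abs_le.1 (h (x - y))
  have b4 := div_two_pi_le (sub_nonneg.2 a4)
  have b5 := div_two_pi_le (t := 2) (by norm_num)
  have b6 := div_two_pi_le (t := 6) (by norm_num)
  rw [log_div (by linarith) (by linarith), abs_le]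
  simp only [sub_div, add_div] at *
  constructor <;> linarith

theorem sum_abs_log {z x : Pt} {r : ℕ} (hr : 1 ≤ r) (hx' : x ∈ bl z r) :
    ∑ y ∈ bl z r, |log r - log (1 + eu (x - y))| ≤ 260 * (r : ℝ) ^ 2 := by
  have a1 : (1 : ℝ) ≤ r := by exact_mod_cast hr
  have h1 := Ha91.sum_log r hr
  refine (sum_le_sum_of_subset_of_nonneg (bl_subset_bl (r' := 2 * r) (mem_bl_comm.1 hx') (by omega))
    fun _ _ _ => abs_nonneg _).trans ?_
  rw [← Ha91.sum_bl]
  refine (sum_le_sum (g := fun y => 4 * (1 + log (4 * r / (1 + eu y)))) fun y hy => ?_).trans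
    (by rw [← mul_sum]; linarith)
  have h2 := Ha91.eu_le_three hy
  have h3 := eu_nonneg y
  have h4 := log_le_log (x := 1 + eu y) (y := 4 * r) (by linarith) (by linarith)
  have h5 := log_le_log_add (s := 4 * r) (t := r) (c := 4) (by linarith) (by norm_num) le_rfl
  have h6 := log_le_log (x := r) (y := 4 * r) (by linarith) (by linarith)
  rw [show x - (x + y) = -y by abel, eu_neg, log_div (by linarith) (by linarith), abs_le]
  constructor <;> linarith

theorem sum_abs_le_of_le {z : Pt} {r : ℕ} (hr : 1 ≤ r) {ξ : Pt → ℝ} {K : ℝ}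
    (h : ∀ x, |ξ x| ≤ K / (r : ℝ) ^ 2) : 0 ≤ K ∧ ∑ y ∈ bl z r, |ξ y| ≤ 9 * K := by
  have a1 : (1 : ℝ) ≤ r := by exact_mod_cast hr
  have hK : 0 ≤ K := by
    have := (abs_nonneg _).trans (h 0)
    rwa [le_div_iff₀ (by positivity), zero_mul] at this
  refine ⟨hK, (sum_le_card_nsmul _ _ _ fun x _ => h x).trans ?_⟩
  rw [card_bl, nsmul_eq_mul, ← mul_div_assoc, div_le_iff₀ (by positivity)]
  push_cast
  nlinarith [mul_le_mul_of_nonneg_left (show (2 * (r : ℝ) + 1) ^ 2 ≤ 9 * r ^ 2 by nlinarith) hK]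

theorem gr_eq_sum_sup {V : Type*} [DecidableEq V] {A K : Finset V} {B : Bf V} (h : Co A B) (hK : K ⊆ A)
    {f : V → ℝ} (hf : Sup K f) (x : V) : gr A B f x = ∑ y ∈ K, f y * G A B (dl x) (dl y) := by
  rw [h.gr_eq_sum]
  exact (sum_subset hK fun y _ hy => by simp [hf y hy]).symm

/-- the potential of a spread charge: on its support, and far from it -/
theorem gr_log : ∃ C : ℝ, 0 ≤ C ∧ ∀ (z : Pt) (r R R' : ℕ) (D : Finset Pt) (ξ : Pt → ℝ) (K : ℝ), 1 ≤ r →
    2 * r ≤ R → bl z R ⊆ D → D ⊆ bl z R' → Sup (bl z r) ξ → (∀ x, |ξ x| ≤ K / (r : ℝ) ^ 2) →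
    (∀ x ∈ bl z r, |gr D (eD nL D) ξ x - (∑ y ∈ bl z r, ξ y) * (log (R / r) / (2 * π))| ≤
      K * (C + 9 * log (R' / R))) ∧
    ∀ x ∈ D, (R : ℝ) ≤ 4 * (1 + eu (x - z) - 2 * r) ∨ (∀ y ∈ bl z r, (R : ℝ) ≤ 4 * (1 + eu (x - y))) →
      |gr D (eD nL D) ξ x| ≤ K * (C + 18 * log (R' / R)) := by
  obtain ⟨C, hC, h⟩ := GD_dl_log
  refine ⟨9 * C + 260, by positivity, fun z r R R' D ξ K hr hR h1 h2 hs hξ => ?_⟩
  obtain ⟨hK, h3⟩ := sum_abs_le_of_le (z := z) hr hξ
  have a1 : (1 : ℝ) ≤ r := by exact_mod_cast hr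
  have a3 : 2 * (r : ℝ) ≤ R := by exact_mod_cast hR
  have a2 : (R : ℝ) ≤ R' := by exact_mod_cast le_of_bl_subset (h1.trans h2)
  have a4 : 0 ≤ log ((R' : ℝ) / R) := log_nonneg ((one_le_div (by linarith)).2 a2)
  have hI : bl z r ⊆ D := (bl_mono z (by omega)).trans h1
  refine ⟨fun x hx' => ?_, fun x hx' hf => ?_⟩
  · rw [gr_eq_sum_sup (co_eD nL_ok D) hI hs, sum_mul, ← sum_sub_distrib]
    refine (abs_sum_le_sum_abs _ _).trans ((sum_le_sum (g := fun y => |ξ y| * (C + log (R' / R)) +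
      K / (r : ℝ) ^ 2 * |log r - log (1 + eu (x - y))|) fun y hy => ?_).trans ?_)
    · have b1 := h z r R R' D x y (by omega) hR h1 h2 (hI hx') hy
      have b2 := div_two_pi_le (abs_nonneg (log r - log (1 + eu (x - y))))
      rw [← abs_of_pos (a := 2 * π) (by positivity), ← abs_div] at b2
      rw [← mul_sub, abs_mul]
      refine le_trans (mul_le_mul_of_nonneg_left (c := C + log (R' / R) + |log r - log (1 + eu (x - y))|)
        ?_ (abs_nonneg _)) ?_
      · refine le_trans (le_of_eq ?_) ((abs_add_le _ _).trans (add_le_add b1 b2))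
        rw [log_div (by linarith) (by linarith), GD]; congr 1; ring
      · rw [mul_add]; gcongr; exact hξ y
    · rw [sum_add_distrib, ← sum_mul, ← mul_sum]
      have b1 := mul_le_mul_of_nonneg_left (sum_abs_log hr hx') (show 0 ≤ K / (r : ℝ) ^ 2 by positivity)
      rw [show K / (r : ℝ) ^ 2 * (260 * r ^ 2) = 260 * K by field_simp] at b1
      nlinarith [mul_le_mul_of_nonneg_right h3 (show 0 ≤ C + log ((R' : ℝ) / R) by positivity)]
  · rw [gr_eq_sum_sup (co_eD nL_ok D) hI hs]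
    refine (abs_sum_le_sum_abs _ _).trans ((sum_le_sum
      (g := fun y => |ξ y| * (C + 4 + 2 * log (R' / R))) fun y hy => ?_).trans ?_)
    · have b1 := abs_le.1 (h z r R R' D x y (by omega) hR h1 h2 hx' hy)
      have b0 : (R : ℝ) ≤ 4 * (1 + eu (x - y)) := hf.elim (fun h4 => by
        have c1 := eu_add_le (x - y) (y - z)
        rw [sub_add_sub_cancel] at c1
        linarith [eu_le_of_bl hy]) fun h4 => h4 y hy
      have b2 := log_le_log_add (s := R) (c := 4) (by linarith) (by norm_num) b0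
      have b3 : eu (x - y) ≤ 2 * (R' + r : ℕ) :=
        eu_le_of_bl (bl_subset_bl (mem_bl_comm.1 hy) le_rfl (h2 hx'))
      push_cast at b3
      have b4 := log_le_log_add (s := 1 + eu (x - y)) (t := R') (c := 4)
        (by linarith [eu_nonneg (x - y)]) (by norm_num) (by linarith)
      have b5 := div_two_pi_le (abs_nonneg (log R - log (1 + eu (x - y))))
      rw [← abs_of_pos (a := 2 * π) (by positivity), ← abs_div] at b5
      have b6 : |log R - log (1 + eu (x - y))| ≤ 4 + log (R' / R) := by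
        rw [log_div (by linarith) (by linarith)] at a4 ⊢
        rw [abs_le]; constructor <;> linarith
      have b7 := abs_le.1 (b5.trans b6)
      rw [abs_mul]
      refine mul_le_mul_of_nonneg_left (abs_le.2 ⟨?_, ?_⟩) (abs_nonneg _) <;> rw [GD] at b1 <;> linarith
    · rw [← sum_mul]
      nlinarith [mul_le_mul_of_nonneg_right h3 (show 0 ≤ C + 4 + 2 * log ((R' : ℝ) / R) by positivity)]

theorem abs_ip_sub_le {V : Type*} {I : Finset V} {f u : V → ℝ} {c M : ℝ} (h : ∀ x ∈ I, |u x - c| ≤ M) :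
    |ip I f u - (∑ x ∈ I, f x) * c| ≤ (∑ x ∈ I, |f x|) * M := by
  rw [ip, sum_mul, sum_mul, ← sum_sub_distrib]
  refine (abs_sum_le_sum_abs _ _).trans (sum_le_sum fun x hx' => ?_)
  rw [← mul_sub, abs_mul]
  exact mul_le_mul_of_nonneg_left (h x hx') (abs_nonneg _)

theorem G_eq_ip {V : Type*} {A K : Finset V} (B : Bf V) (hK : K ⊆ A) {f : V → ℝ} (hf : Sup K f)
    (g : V → ℝ) : G A B f g = ip K f (gr A B g) := by
  rw [G, ip_comm, ip_of_sup hK _ hf, ip_comm]

/-- `1 / cap` is the equilibrium average of the potential of any unit charge on `K` -/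
theorem Co.inv_cap_eq' {V : Type*} [DecidableEq V] {A K : Finset V} {B : Bf V} (h : Co A B) (hK : K ⊆ A)
    {ν : V → ℝ} (h1 : Sup K ν) (h2 : ∑ x ∈ K, ν x = 1) : (cap K A B)⁻¹ = G A B (eqm K A B) ν := by
  rw [h.G_comm, G_eq_ip B hK h1, h.gr_eqm hK, ip_smul_right, ip,
    sum_congr rfl fun x hx' => by rw [h.ex_on 1 hx', Pi.one_apply, mul_one], h2, mul_one]

theorem Co.sum_abs_eqm {V : Type*} [DecidableEq V] {A K : Finset V} {B : Bf V} (h : Co A B) (hM : Mk B)
    (hK : K ⊆ A) (hne : K.Nonempty) : ∑ x ∈ K, |eqm K A B x| = 1 := by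
  rw [← h.sum_eqm hK hne]
  exact sum_congr rfl fun x _ => abs_of_nonneg (h.eqm_nonneg hM hK x)

/-- uniform unit charge on a box -/
noncomputable def un (z : Pt) (r : ℕ) : Pt → ℝ := on (bl z r) fun _ => (((2 * r + 1) ^ 2 : ℕ) : ℝ)⁻¹

theorem un_sup (z : Pt) (r : ℕ) : Sup (bl z r) (un z r) := sup_on _ _

theorem sum_un (z : Pt) (r : ℕ) : ∑ x ∈ bl z r, un z r x = 1 := by
  rw [un, sum_congr rfl fun x hx' => on_of_mem hx', sum_const, card_bl, nsmul_eq_mul,
    mul_inv_cancel₀ (by positivity)]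

theorem abs_un_le (z : Pt) {r : ℕ} (hr : 1 ≤ r) (x : Pt) : |un z r x| ≤ 1 / (r : ℝ) ^ 2 := by
  have a1 : (1 : ℝ) ≤ r := by exact_mod_cast hr
  by_cases hx' : x ∈ bl z r
  · rw [un, on_of_mem hx', abs_of_nonneg (by positivity), one_div]
    push_cast
    exact inv_anti₀ (by positivity) (by nlinarith)
  · rw [un_sup z r x hx', abs_zero]; positivity

theorem bl_nonempty (z : Pt) (r : ℕ) : (bl z r).Nonempty := ⟨z, by rw [mem_bl]; simp⟩

/-- nearest neighbours: Green form of charges on a box (`ξ'` only has bounded variation), capacity -/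
theorem cap_nL : ∃ C : ℝ, 0 ≤ C ∧ ∀ (z : Pt) (r R R' : ℕ) (D : Finset Pt), 1 ≤ r → 2 * r ≤ R →
    bl z R ⊆ D → D ⊆ bl z R' →
    (∀ (ξ ξ' : Pt → ℝ) (K : ℝ), Sup (bl z r) ξ → Sup (bl z r) ξ' → (∀ x, |ξ x| ≤ K / (r : ℝ) ^ 2) →
      |GD nL D ξ' ξ - (∑ x ∈ bl z r, ξ' x) * ((∑ x ∈ bl z r, ξ x) * (log (R / r) / (2 * π)))| ≤
        (∑ x ∈ bl z r, |ξ' x|) * (K * (C + 9 * log (R' / R)))) ∧
    |(cap (bl z r) D (eD nL D))⁻¹ - log (R / r) / (2 * π)| ≤ C + 9 * log (R' / R) := by
  obtain ⟨C, hC, h⟩ := gr_log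
  refine ⟨C, hC, fun z r R R' D hr hR h1 h2 => ?_⟩
  have hI : bl z r ⊆ D := (bl_mono z (by omega)).trans h1
  refine (and_iff_left_of_imp fun h3 => ?_).2 fun ξ ξ' K hs hs' hξ => ?_
  · have := h3 _ _ 1 (un_sup z r) (eqm_sup (A := D) (B := eD nL D)) (abs_un_le z hr)
    rwa [(co_eD nL_ok D).sum_abs_eqm (mk_eD D) hI (bl_nonempty z r),
      (co_eD nL_ok D).sum_eqm hI (bl_nonempty z r), sum_un, GD,
      ← (co_eD nL_ok D).inv_cap_eq' hI (un_sup z r) (sum_un z r), one_mul, one_mul, one_mul,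
      one_mul] at this
  · rw [GD, G_eq_ip _ hI hs']
    exact abs_ip_sub_le (h z r R R' D ξ K hr hR h1 h2 hs hξ).1

/-! ## `J` against nearest neighbours, bilinear form -/
namespace G17
open Ho14

variable {u v g : Pt → ℝ}






end G17







end Crest.Agent.T145.Pot
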